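import Vale.Agent.P045g.C61.WF
import Vale.Agent.P045g.C61.Pf0
import Vale.Agent.P045g.C61.Pf1
import Vale.Agent.P045g.C61.Pf2
import Vale.Agent.P045g.C61.Pf3
import Vale.Agent.P045g.C61.Pf4
import Vale.Agent.P045g.C61.Pf5
import Vale.Agent.P045g.C61.Pf6
import Vale.Agent.P045g.C61.Pf7
import Vale.Agent.P045g.C61.Pf8
import Vale.Agent.P045g.C61.Pf9

namespace Vale.Agent.P045g.C61

open Vale.Agent.P045b Vale.Agent.P045g

universe u

theorem c0 (h0 : ∀ j, j < 0 → GoodG.{u} par (db j)) : ∀ j, j < 124 → GoodG.{u} par (db j) := by
  have h1 := checkRangeG_sound parWF r2 pf0 h0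
  have h2 := checkRangeG_sound parWF r2 pf1 h1
  have h3 := checkRangeG_sound parWF r2 pf2 h2
  have h4 := checkRangeG_sound parWF r2 pf3 h3
  have h5 := checkRangeG_sound parWF r2 pf4 h4
  have h6 := checkRangeG_sound parWF r2 pf5 h5
  have h7 := checkRangeG_sound parWF r2 pf6 h6
  have h8 := checkRangeG_sound parWF r2 pf7 h7
  have h9 := checkRangeG_sound parWF r2 pf8 h8
  have h10 := checkRangeG_sound parWF r2 pf9 h9
  have h11 := checkRangeG_sound parWF r2 pf10 h10
  have h12 := checkRangeG_sound parWF r2 pf11 h11
  have h13 := checkRangeG_sound parWF r2 pf12 h12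
  have h14 := checkRangeG_sound parWF r2 pf13 h13
  have h15 := checkRangeG_sound parWF r2 pf14 h14
  have h16 := checkRangeG_sound parWF r2 pf15 h15
  have h17 := checkRangeG_sound parWF r2 pf16 h16
  have h18 := checkRangeG_sound parWF r2 pf17 h17
  have h19 := checkRangeG_sound parWF r2 pf18 h18
  have h20 := checkRangeG_sound parWF r2 pf19 h19
  have h21 := checkRangeG_sound parWF r2 pf20 h20
  have h22 := checkRangeG_sound parWF r2 pf21 h21
  have h23 := checkRangeG_sound parWF r2 pf22 h22
  have h24 := checkRangeG_sound parWF r2 pf23 h23
  have h25 := checkRangeG_sound parWF r2 pf24 h24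
  have h26 := checkRangeG_sound parWF r2 pf25 h25
  have h27 := checkRangeG_sound parWF r2 pf26 h26
  have h28 := checkRangeG_sound parWF r2 pf27 h27
  have h29 := checkRangeG_sound parWF r2 pf28 h28
  have h30 := checkRangeG_sound parWF r2 pf29 h29
  have h31 := checkRangeG_sound parWF r2 pf30 h30
  have h32 := checkRangeG_sound parWF r2 pf31 h31
  have h33 := checkRangeG_sound parWF r2 pf32 h32
  have h34 := checkRangeG_sound parWF r2 pf33 h33
  have h35 := checkRangeG_sound parWF r2 pf34 h34
  have h36 := checkRangeG_sound parWF r2 pf35 h35
  have h37 := checkRangeG_sound parWF r2 pf36 h36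
  have h38 := checkRangeG_sound parWF r2 pf37 h37
  have h39 := checkRangeG_sound parWF r2 pf38 h38
  have h40 := checkRangeG_sound parWF r2 pf39 h39
  have h41 := checkRangeG_sound parWF r2 pf40 h40
  have h42 := checkRangeG_sound parWF r2 pf41 h41
  have h43 := checkRangeG_sound parWF r2 pf42 h42
  have h44 := checkRangeG_sound parWF r2 pf43 h43
  have h45 := checkRangeG_sound parWF r2 pf44 h44
  have h46 := checkRangeG_sound parWF r2 pf45 h45
  have h47 := checkRangeG_sound parWF r2 pf46 h46
  have h48 := checkRangeG_sound parWF r2 pf47 h47
  have h49 := checkRangeG_sound parWF r2 pf48 h48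
  have h50 := checkRangeG_sound parWF r2 pf49 h49
  exact h50

theorem c1 (h50 : ∀ j, j < 124 → GoodG.{u} par (db j)) : ∀ j, j < 287 → GoodG.{u} par (db j) := by
  have h51 := checkRangeG_sound parWF r2 pf50 h50
  have h52 := checkRangeG_sound parWF r2 pf51 h51
  have h53 := checkRangeG_sound parWF r2 pf52 h52
  have h54 := checkRangeG_sound parWF r2 pf53 h53
  have h55 := checkRangeG_sound parWF r2 pf54 h54
  have h56 := checkRangeG_sound parWF r2 pf55 h55
  have h57 := checkRangeG_sound parWF r2 pf56 h56
  have h58 := checkRangeG_sound parWF r2 pf57 h57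
  have h59 := checkRangeG_sound parWF r2 pf58 h58
  have h60 := checkRangeG_sound parWF r2 pf59 h59
  have h61 := checkRangeG_sound parWF r2 pf60 h60
  have h62 := checkRangeG_sound parWF r2 pf61 h61
  have h63 := checkRangeG_sound parWF r2 pf62 h62
  have h64 := checkRangeG_sound parWF r2 pf63 h63
  have h65 := checkRangeG_sound parWF r2 pf64 h64
  have h66 := checkRangeG_sound parWF r2 pf65 h65
  have h67 := checkRangeG_sound parWF r2 pf66 h66
  have h68 := checkRangeG_sound parWF r2 pf67 h67
  have h69 := checkRangeG_sound parWF r2 pf68 h68
  have h70 := checkRangeG_sound parWF r2 pf69 h69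
  have h71 := checkRangeG_sound parWF r2 pf70 h70
  have h72 := checkRangeG_sound parWF r2 pf71 h71
  have h73 := checkRangeG_sound parWF r2 pf72 h72
  have h74 := checkRangeG_sound parWF r2 pf73 h73
  have h75 := checkRangeG_sound parWF r2 pf74 h74
  have h76 := checkRangeG_sound parWF r2 pf75 h75
  have h77 := checkRangeG_sound parWF r2 pf76 h76
  have h78 := checkRangeG_sound parWF r2 pf77 h77
  have h79 := checkRangeG_sound parWF r2 pf78 h78
  have h80 := checkRangeG_sound parWF r2 pf79 h79
  have h81 := checkRangeG_sound parWF r2 pf80 h80
  have h82 := checkRangeG_sound parWF r2 pf81 h81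
  have h83 := checkRangeG_sound parWF r2 pf82 h82
  have h84 := checkRangeG_sound parWF r2 pf83 h83
  have h85 := checkRangeG_sound parWF r2 pf84 h84
  have h86 := checkRangeG_sound parWF r2 pf85 h85
  have h87 := checkRangeG_sound parWF r2 pf86 h86
  have h88 := checkRangeG_sound parWF r2 pf87 h87
  have h89 := checkRangeG_sound parWF r2 pf88 h88
  have h90 := checkRangeG_sound parWF r2 pf89 h89
  have h91 := checkRangeG_sound parWF r2 pf90 h90
  have h92 := checkRangeG_sound parWF r2 pf91 h91
  have h93 := checkRangeG_sound parWF r2 pf92 h92
  have h94 := checkRangeG_sound parWF r2 pf93 h93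
  have h95 := checkRangeG_sound parWF r2 pf94 h94
  have h96 := checkRangeG_sound parWF r2 pf95 h95
  have h97 := checkRangeG_sound parWF r2 pf96 h96
  have h98 := checkRangeG_sound parWF r2 pf97 h97
  have h99 := checkRangeG_sound parWF r2 pf98 h98
  have h100 := checkRangeG_sound parWF r2 pf99 h99
  exact h100

theorem c2 (h100 : ∀ j, j < 287 → GoodG.{u} par (db j)) : ∀ j, j < 437 → GoodG.{u} par (db j) := by
  have h101 := checkRangeG_sound parWF r2 pf100 h100
  have h102 := checkRangeG_sound parWF r2 pf101 h101
  have h103 := checkRangeG_sound parWF r2 pf102 h102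
  have h104 := checkRangeG_sound parWF r2 pf103 h103
  have h105 := checkRangeG_sound parWF r2 pf104 h104
  have h106 := checkRangeG_sound parWF r2 pf105 h105
  have h107 := checkRangeG_sound parWF r2 pf106 h106
  have h108 := checkRangeG_sound parWF r2 pf107 h107
  have h109 := checkRangeG_sound parWF r2 pf108 h108
  have h110 := checkRangeG_sound parWF r2 pf109 h109
  have h111 := checkRangeG_sound parWF r2 pf110 h110
  have h112 := checkRangeG_sound parWF r2 pf111 h111
  have h113 := checkRangeG_sound parWF r2 pf112 h112
  have h114 := checkRangeG_sound parWF r2 pf113 h113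
  have h115 := checkRangeG_sound parWF r2 pf114 h114
  have h116 := checkRangeG_sound parWF r2 pf115 h115
  have h117 := checkRangeG_sound parWF r2 pf116 h116
  have h118 := checkRangeG_sound parWF r2 pf117 h117
  have h119 := checkRangeG_sound parWF r2 pf118 h118
  have h120 := checkRangeG_sound parWF r2 pf119 h119
  have h121 := checkRangeG_sound parWF r2 pf120 h120
  have h122 := checkRangeG_sound parWF r2 pf121 h121
  have h123 := checkRangeG_sound parWF r2 pf122 h122
  have h124 := checkRangeG_sound parWF r2 pf123 h123
  have h125 := checkRangeG_sound parWF r2 pf124 h124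
  have h126 := checkRangeG_sound parWF r2 pf125 h125
  have h127 := checkRangeG_sound parWF r2 pf126 h126
  have h128 := checkRangeG_sound parWF r2 pf127 h127
  have h129 := checkRangeG_sound parWF r2 pf128 h128
  have h130 := checkRangeG_sound parWF r2 pf129 h129
  have h131 := checkRangeG_sound parWF r2 pf130 h130
  have h132 := checkRangeG_sound parWF r2 pf131 h131
  have h133 := checkRangeG_sound parWF r2 pf132 h132
  have h134 := checkRangeG_sound parWF r2 pf133 h133
  have h135 := checkRangeG_sound parWF r2 pf134 h134
  have h136 := checkRangeG_sound parWF r2 pf135 h135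
  have h137 := checkRangeG_sound parWF r2 pf136 h136
  have h138 := checkRangeG_sound parWF r2 pf137 h137
  have h139 := checkRangeG_sound parWF r2 pf138 h138
  have h140 := checkRangeG_sound parWF r2 pf139 h139
  have h141 := checkRangeG_sound parWF r2 pf140 h140
  have h142 := checkRangeG_sound parWF r2 pf141 h141
  have h143 := checkRangeG_sound parWF r2 pf142 h142
  have h144 := checkRangeG_sound parWF r2 pf143 h143
  have h145 := checkRangeG_sound parWF r2 pf144 h144
  have h146 := checkRangeG_sound parWF r2 pf145 h145
  have h147 := checkRangeG_sound parWF r2 pf146 h146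
  have h148 := checkRangeG_sound parWF r2 pf147 h147
  have h149 := checkRangeG_sound parWF r2 pf148 h148
  have h150 := checkRangeG_sound parWF r2 pf149 h149
  exact h150

theorem c3 (h150 : ∀ j, j < 437 → GoodG.{u} par (db j)) : ∀ j, j < 581 → GoodG.{u} par (db j) := by
  have h151 := checkRangeG_sound parWF r2 pf150 h150
  have h152 := checkRangeG_sound parWF r2 pf151 h151
  have h153 := checkRangeG_sound parWF r2 pf152 h152
  have h154 := checkRangeG_sound parWF r2 pf153 h153
  have h155 := checkRangeG_sound parWF r2 pf154 h154
  have h156 := checkRangeG_sound parWF r2 pf155 h155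
  have h157 := checkRangeG_sound parWF r2 pf156 h156
  have h158 := checkRangeG_sound parWF r2 pf157 h157
  have h159 := checkRangeG_sound parWF r2 pf158 h158
  have h160 := checkRangeG_sound parWF r2 pf159 h159
  have h161 := checkRangeG_sound parWF r2 pf160 h160
  have h162 := checkRangeG_sound parWF r2 pf161 h161
  have h163 := checkRangeG_sound parWF r2 pf162 h162
  have h164 := checkRangeG_sound parWF r2 pf163 h163
  have h165 := checkRangeG_sound parWF r2 pf164 h164
  have h166 := checkRangeG_sound parWF r2 pf165 h165
  have h167 := checkRangeG_sound parWF r2 pf166 h166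
  have h168 := checkRangeG_sound parWF r2 pf167 h167
  have h169 := checkRangeG_sound parWF r2 pf168 h168
  have h170 := checkRangeG_sound parWF r2 pf169 h169
  have h171 := checkRangeG_sound parWF r2 pf170 h170
  have h172 := checkRangeG_sound parWF r2 pf171 h171
  have h173 := checkRangeG_sound parWF r2 pf172 h172
  have h174 := checkRangeG_sound parWF r2 pf173 h173
  have h175 := checkRangeG_sound parWF r2 pf174 h174
  have h176 := checkRangeG_sound parWF r2 pf175 h175
  have h177 := checkRangeG_sound parWF r2 pf176 h176
  have h178 := checkRangeG_sound parWF r2 pf177 h177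
  have h179 := checkRangeG_sound parWF r2 pf178 h178
  have h180 := checkRangeG_sound parWF r2 pf179 h179
  have h181 := checkRangeG_sound parWF r2 pf180 h180
  have h182 := checkRangeG_sound parWF r2 pf181 h181
  have h183 := checkRangeG_sound parWF r2 pf182 h182
  have h184 := checkRangeG_sound parWF r2 pf183 h183
  have h185 := checkRangeG_sound parWF r2 pf184 h184
  have h186 := checkRangeG_sound parWF r2 pf185 h185
  have h187 := checkRangeG_sound parWF r2 pf186 h186
  have h188 := checkRangeG_sound parWF r2 pf187 h187
  have h189 := checkRangeG_sound parWF r2 pf188 h188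
  have h190 := checkRangeG_sound parWF r2 pf189 h189
  have h191 := checkRangeG_sound parWF r2 pf190 h190
  have h192 := checkRangeG_sound parWF r2 pf191 h191
  have h193 := checkRangeG_sound parWF r2 pf192 h192
  have h194 := checkRangeG_sound parWF r2 pf193 h193
  have h195 := checkRangeG_sound parWF r2 pf194 h194
  have h196 := checkRangeG_sound parWF r2 pf195 h195
  have h197 := checkRangeG_sound parWF r2 pf196 h196
  have h198 := checkRangeG_sound parWF r2 pf197 h197
  have h199 := checkRangeG_sound parWF r2 pf198 h198
  have h200 := checkRangeG_sound parWF r2 pf199 h199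
  exact h200

theorem c4 (h200 : ∀ j, j < 581 → GoodG.{u} par (db j)) : ∀ j, j < 725 → GoodG.{u} par (db j) := by
  have h201 := checkRangeG_sound parWF r2 pf200 h200
  have h202 := checkRangeG_sound parWF r2 pf201 h201
  have h203 := checkRangeG_sound parWF r2 pf202 h202
  have h204 := checkRangeG_sound parWF r2 pf203 h203
  have h205 := checkRangeG_sound parWF r2 pf204 h204
  have h206 := checkRangeG_sound parWF r2 pf205 h205
  have h207 := checkRangeG_sound parWF r2 pf206 h206
  have h208 := checkRangeG_sound parWF r2 pf207 h207
  have h209 := checkRangeG_sound parWF r2 pf208 h208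
  have h210 := checkRangeG_sound parWF r2 pf209 h209
  have h211 := checkRangeG_sound parWF r2 pf210 h210
  have h212 := checkRangeG_sound parWF r2 pf211 h211
  have h213 := checkRangeG_sound parWF r2 pf212 h212
  have h214 := checkRangeG_sound parWF r2 pf213 h213
  have h215 := checkRangeG_sound parWF r2 pf214 h214
  have h216 := checkRangeG_sound parWF r2 pf215 h215
  have h217 := checkRangeG_sound parWF r2 pf216 h216
  have h218 := checkRangeG_sound parWF r2 pf217 h217
  have h219 := checkRangeG_sound parWF r2 pf218 h218
  have h220 := checkRangeG_sound parWF r2 pf219 h219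
  have h221 := checkRangeG_sound parWF r2 pf220 h220
  have h222 := checkRangeG_sound parWF r2 pf221 h221
  have h223 := checkRangeG_sound parWF r2 pf222 h222
  have h224 := checkRangeG_sound parWF r2 pf223 h223
  have h225 := checkRangeG_sound parWF r2 pf224 h224
  have h226 := checkRangeG_sound parWF r2 pf225 h225
  have h227 := checkRangeG_sound parWF r2 pf226 h226
  have h228 := checkRangeG_sound parWF r2 pf227 h227
  have h229 := checkRangeG_sound parWF r2 pf228 h228
  have h230 := checkRangeG_sound parWF r2 pf229 h229
  have h231 := checkRangeG_sound parWF r2 pf230 h230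
  have h232 := checkRangeG_sound parWF r2 pf231 h231
  have h233 := checkRangeG_sound parWF r2 pf232 h232
  have h234 := checkRangeG_sound parWF r2 pf233 h233
  have h235 := checkRangeG_sound parWF r2 pf234 h234
  have h236 := checkRangeG_sound parWF r2 pf235 h235
  have h237 := checkRangeG_sound parWF r2 pf236 h236
  have h238 := checkRangeG_sound parWF r2 pf237 h237
  have h239 := checkRangeG_sound parWF r2 pf238 h238
  have h240 := checkRangeG_sound parWF r2 pf239 h239
  have h241 := checkRangeG_sound parWF r2 pf240 h240
  have h242 := checkRangeG_sound parWF r2 pf241 h241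
  have h243 := checkRangeG_sound parWF r2 pf242 h242
  have h244 := checkRangeG_sound parWF r2 pf243 h243
  have h245 := checkRangeG_sound parWF r2 pf244 h244
  have h246 := checkRangeG_sound parWF r2 pf245 h245
  have h247 := checkRangeG_sound parWF r2 pf246 h246
  have h248 := checkRangeG_sound parWF r2 pf247 h247
  have h249 := checkRangeG_sound parWF r2 pf248 h248
  have h250 := checkRangeG_sound parWF r2 pf249 h249
  exact h250

theorem c5 (h250 : ∀ j, j < 725 → GoodG.{u} par (db j)) : ∀ j, j < 836 → GoodG.{u} par (db j) := by
  have h251 := checkRangeG_sound parWF r2 pf250 h250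
  have h252 := checkRangeG_sound parWF r2 pf251 h251
  have h253 := checkRangeG_sound parWF r2 pf252 h252
  have h254 := checkRangeG_sound parWF r2 pf253 h253
  have h255 := checkRangeG_sound parWF r2 pf254 h254
  have h256 := checkRangeG_sound parWF r2 pf255 h255
  have h257 := checkRangeG_sound parWF r2 pf256 h256
  have h258 := checkRangeG_sound parWF r2 pf257 h257
  have h259 := checkRangeG_sound parWF r2 pf258 h258
  have h260 := checkRangeG_sound parWF r2 pf259 h259
  have h261 := checkRangeG_sound parWF r2 pf260 h260
  have h262 := checkRangeG_sound parWF r2 pf261 h261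
  have h263 := checkRangeG_sound parWF r2 pf262 h262
  have h264 := checkRangeG_sound parWF r2 pf263 h263
  have h265 := checkRangeG_sound parWF r2 pf264 h264
  have h266 := checkRangeG_sound parWF r2 pf265 h265
  have h267 := checkRangeG_sound parWF r2 pf266 h266
  have h268 := checkRangeG_sound parWF r2 pf267 h267
  have h269 := checkRangeG_sound parWF r2 pf268 h268
  have h270 := checkRangeG_sound parWF r2 pf269 h269
  have h271 := checkRangeG_sound parWF r2 pf270 h270
  have h272 := checkRangeG_sound parWF r2 pf271 h271
  have h273 := checkRangeG_sound parWF r2 pf272 h272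
  have h274 := checkRangeG_sound parWF r2 pf273 h273
  have h275 := checkRangeG_sound parWF r2 pf274 h274
  have h276 := checkRangeG_sound parWF r2 pf275 h275
  have h277 := checkRangeG_sound parWF r2 pf276 h276
  have h278 := checkRangeG_sound parWF r2 pf277 h277
  have h279 := checkRangeG_sound parWF r2 pf278 h278
  have h280 := checkRangeG_sound parWF r2 pf279 h279
  have h281 := checkRangeG_sound parWF r2 pf280 h280
  have h282 := checkRangeG_sound parWF r2 pf281 h281
  have h283 := checkRangeG_sound parWF r2 pf282 h282
  have h284 := checkRangeG_sound parWF r2 pf283 h283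
  have h285 := checkRangeG_sound parWF r2 pf284 h284
  have h286 := checkRangeG_sound parWF r2 pf285 h285
  have h287 := checkRangeG_sound parWF r2 pf286 h286
  have h288 := checkRangeG_sound parWF r2 pf287 h287
  have h289 := checkRangeG_sound parWF r2 pf288 h288
  have h290 := checkRangeG_sound parWF r2 pf289 h289
  have h291 := checkRangeG_sound parWF r2 pf290 h290
  have h292 := checkRangeG_sound parWF r2 pf291 h291
  have h293 := checkRangeG_sound parWF r2 pf292 h292
  have h294 := checkRangeG_sound parWF r2 pf293 h293
  have h295 := checkRangeG_sound parWF r2 pf294 h294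
  have h296 := checkRangeG_sound parWF r2 pf295 h295
  have h297 := checkRangeG_sound parWF r2 pf296 h296
  have h298 := checkRangeG_sound parWF r2 pf297 h297
  have h299 := checkRangeG_sound parWF r2 pf298 h298
  have h300 := checkRangeG_sound parWF r2 pf299 h299
  exact h300

theorem c6 (h300 : ∀ j, j < 836 → GoodG.{u} par (db j)) : ∀ j, j < 942 → GoodG.{u} par (db j) := by
  have h301 := checkRangeG_sound parWF r2 pf300 h300
  have h302 := checkRangeG_sound parWF r2 pf301 h301
  have h303 := checkRangeG_sound parWF r2 pf302 h302
  have h304 := checkRangeG_sound parWF r2 pf303 h303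
  have h305 := checkRangeG_sound parWF r2 pf304 h304
  have h306 := checkRangeG_sound parWF r2 pf305 h305
  have h307 := checkRangeG_sound parWF r2 pf306 h306
  have h308 := checkRangeG_sound parWF r2 pf307 h307
  have h309 := checkRangeG_sound parWF r2 pf308 h308
  have h310 := checkRangeG_sound parWF r2 pf309 h309
  have h311 := checkRangeG_sound parWF r2 pf310 h310
  have h312 := checkRangeG_sound parWF r2 pf311 h311
  have h313 := checkRangeG_sound parWF r2 pf312 h312
  have h314 := checkRangeG_sound parWF r2 pf313 h313
  have h315 := checkRangeG_sound parWF r2 pf314 h314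
  have h316 := checkRangeG_sound parWF r2 pf315 h315
  have h317 := checkRangeG_sound parWF r2 pf316 h316
  have h318 := checkRangeG_sound parWF r2 pf317 h317
  have h319 := checkRangeG_sound parWF r2 pf318 h318
  have h320 := checkRangeG_sound parWF r2 pf319 h319
  have h321 := checkRangeG_sound parWF r2 pf320 h320
  have h322 := checkRangeG_sound parWF r2 pf321 h321
  have h323 := checkRangeG_sound parWF r2 pf322 h322
  have h324 := checkRangeG_sound parWF r2 pf323 h323
  have h325 := checkRangeG_sound parWF r2 pf324 h324
  have h326 := checkRangeG_sound parWF r2 pf325 h325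
  have h327 := checkRangeG_sound parWF r2 pf326 h326
  have h328 := checkRangeG_sound parWF r2 pf327 h327
  have h329 := checkRangeG_sound parWF r2 pf328 h328
  have h330 := checkRangeG_sound parWF r2 pf329 h329
  have h331 := checkRangeG_sound parWF r2 pf330 h330
  have h332 := checkRangeG_sound parWF r2 pf331 h331
  have h333 := checkRangeG_sound parWF r2 pf332 h332
  have h334 := checkRangeG_sound parWF r2 pf333 h333
  have h335 := checkRangeG_sound parWF r2 pf334 h334
  have h336 := checkRangeG_sound parWF r2 pf335 h335
  have h337 := checkRangeG_sound parWF r2 pf336 h336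
  have h338 := checkRangeG_sound parWF r2 pf337 h337
  have h339 := checkRangeG_sound parWF r2 pf338 h338
  have h340 := checkRangeG_sound parWF r2 pf339 h339
  have h341 := checkRangeG_sound parWF r2 pf340 h340
  have h342 := checkRangeG_sound parWF r2 pf341 h341
  have h343 := checkRangeG_sound parWF r2 pf342 h342
  have h344 := checkRangeG_sound parWF r2 pf343 h343
  have h345 := checkRangeG_sound parWF r2 pf344 h344
  have h346 := checkRangeG_sound parWF r2 pf345 h345
  have h347 := checkRangeG_sound parWF r2 pf346 h346
  have h348 := checkRangeG_sound parWF r2 pf347 h347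
  have h349 := checkRangeG_sound parWF r2 pf348 h348
  have h350 := checkRangeG_sound parWF r2 pf349 h349
  exact h350

theorem c7 (h350 : ∀ j, j < 942 → GoodG.{u} par (db j)) : ∀ j, j < 1066 → GoodG.{u} par (db j) := by
  have h351 := checkRangeG_sound parWF r2 pf350 h350
  have h352 := checkRangeG_sound parWF r2 pf351 h351
  have h353 := checkRangeG_sound parWF r2 pf352 h352
  have h354 := checkRangeG_sound parWF r2 pf353 h353
  have h355 := checkRangeG_sound parWF r2 pf354 h354
  have h356 := checkRangeG_sound parWF r2 pf355 h355
  have h357 := checkRangeG_sound parWF r2 pf356 h356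
  have h358 := checkRangeG_sound parWF r2 pf357 h357
  have h359 := checkRangeG_sound parWF r2 pf358 h358
  have h360 := checkRangeG_sound parWF r2 pf359 h359
  have h361 := checkRangeG_sound parWF r2 pf360 h360
  have h362 := checkRangeG_sound parWF r2 pf361 h361
  have h363 := checkRangeG_sound parWF r2 pf362 h362
  have h364 := checkRangeG_sound parWF r2 pf363 h363
  have h365 := checkRangeG_sound parWF r2 pf364 h364
  have h366 := checkRangeG_sound parWF r2 pf365 h365
  have h367 := checkRangeG_sound parWF r2 pf366 h366
  have h368 := checkRangeG_sound parWF r2 pf367 h367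
  have h369 := checkRangeG_sound parWF r2 pf368 h368
  have h370 := checkRangeG_sound parWF r2 pf369 h369
  have h371 := checkRangeG_sound parWF r2 pf370 h370
  have h372 := checkRangeG_sound parWF r2 pf371 h371
  have h373 := checkRangeG_sound parWF r2 pf372 h372
  have h374 := checkRangeG_sound parWF r2 pf373 h373
  have h375 := checkRangeG_sound parWF r2 pf374 h374
  have h376 := checkRangeG_sound parWF r2 pf375 h375
  have h377 := checkRangeG_sound parWF r2 pf376 h376
  have h378 := checkRangeG_sound parWF r2 pf377 h377
  have h379 := checkRangeG_sound parWF r2 pf378 h378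
  have h380 := checkRangeG_sound parWF r2 pf379 h379
  have h381 := checkRangeG_sound parWF r2 pf380 h380
  have h382 := checkRangeG_sound parWF r2 pf381 h381
  have h383 := checkRangeG_sound parWF r2 pf382 h382
  have h384 := checkRangeG_sound parWF r2 pf383 h383
  have h385 := checkRangeG_sound parWF r2 pf384 h384
  have h386 := checkRangeG_sound parWF r2 pf385 h385
  have h387 := checkRangeG_sound parWF r2 pf386 h386
  have h388 := checkRangeG_sound parWF r2 pf387 h387
  have h389 := checkRangeG_sound parWF r2 pf388 h388
  have h390 := checkRangeG_sound parWF r2 pf389 h389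
  have h391 := checkRangeG_sound parWF r2 pf390 h390
  have h392 := checkRangeG_sound parWF r2 pf391 h391
  have h393 := checkRangeG_sound parWF r2 pf392 h392
  have h394 := checkRangeG_sound parWF r2 pf393 h393
  have h395 := checkRangeG_sound parWF r2 pf394 h394
  have h396 := checkRangeG_sound parWF r2 pf395 h395
  have h397 := checkRangeG_sound parWF r2 pf396 h396
  have h398 := checkRangeG_sound parWF r2 pf397 h397
  have h399 := checkRangeG_sound parWF r2 pf398 h398
  have h400 := checkRangeG_sound parWF r2 pf399 h399
  exact h400

theorem c8 (h400 : ∀ j, j < 1066 → GoodG.{u} par (db j)) : ∀ j, j < 1208 → GoodG.{u} par (db j) := by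
  have h401 := checkRangeG_sound parWF r2 pf400 h400
  have h402 := checkRangeG_sound parWF r2 pf401 h401
  have h403 := checkRangeG_sound parWF r2 pf402 h402
  have h404 := checkRangeG_sound parWF r2 pf403 h403
  have h405 := checkRangeG_sound parWF r2 pf404 h404
  have h406 := checkRangeG_sound parWF r2 pf405 h405
  have h407 := checkRangeG_sound parWF r2 pf406 h406
  have h408 := checkRangeG_sound parWF r2 pf407 h407
  have h409 := checkRangeG_sound parWF r2 pf408 h408
  have h410 := checkRangeG_sound parWF r2 pf409 h409
  have h411 := checkRangeG_sound parWF r2 pf410 h410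
  have h412 := checkRangeG_sound parWF r2 pf411 h411
  have h413 := checkRangeG_sound parWF r2 pf412 h412
  have h414 := checkRangeG_sound parWF r2 pf413 h413
  have h415 := checkRangeG_sound parWF r2 pf414 h414
  have h416 := checkRangeG_sound parWF r2 pf415 h415
  have h417 := checkRangeG_sound parWF r2 pf416 h416
  have h418 := checkRangeG_sound parWF r2 pf417 h417
  have h419 := checkRangeG_sound parWF r2 pf418 h418
  have h420 := checkRangeG_sound parWF r2 pf419 h419
  have h421 := checkRangeG_sound parWF r2 pf420 h420
  have h422 := checkRangeG_sound parWF r2 pf421 h421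
  have h423 := checkRangeG_sound parWF r2 pf422 h422
  have h424 := checkRangeG_sound parWF r2 pf423 h423
  have h425 := checkRangeG_sound parWF r2 pf424 h424
  have h426 := checkRangeG_sound parWF r2 pf425 h425
  have h427 := checkRangeG_sound parWF r2 pf426 h426
  have h428 := checkRangeG_sound parWF r2 pf427 h427
  have h429 := checkRangeG_sound parWF r2 pf428 h428
  have h430 := checkRangeG_sound parWF r2 pf429 h429
  have h431 := checkRangeG_sound parWF r2 pf430 h430
  have h432 := checkRangeG_sound parWF r2 pf431 h431
  have h433 := checkRangeG_sound parWF r2 pf432 h432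
  have h434 := checkRangeG_sound parWF r2 pf433 h433
  have h435 := checkRangeG_sound parWF r2 pf434 h434
  have h436 := checkRangeG_sound parWF r2 pf435 h435
  have h437 := checkRangeG_sound parWF r2 pf436 h436
  have h438 := checkRangeG_sound parWF r2 pf437 h437
  have h439 := checkRangeG_sound parWF r2 pf438 h438
  have h440 := checkRangeG_sound parWF r2 pf439 h439
  have h441 := checkRangeG_sound parWF r2 pf440 h440
  have h442 := checkRangeG_sound parWF r2 pf441 h441
  have h443 := checkRangeG_sound parWF r2 pf442 h442
  have h444 := checkRangeG_sound parWF r2 pf443 h443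
  have h445 := checkRangeG_sound parWF r2 pf444 h444
  have h446 := checkRangeG_sound parWF r2 pf445 h445
  have h447 := checkRangeG_sound parWF r2 pf446 h446
  have h448 := checkRangeG_sound parWF r2 pf447 h447
  have h449 := checkRangeG_sound parWF r2 pf448 h448
  have h450 := checkRangeG_sound parWF r2 pf449 h449
  exact h450

theorem c9 (h450 : ∀ j, j < 1208 → GoodG.{u} par (db j)) : ∀ j, j < 1365 → GoodG.{u} par (db j) := by
  have h451 := checkRangeG_sound parWF r2 pf450 h450
  have h452 := checkRangeG_sound parWF r2 pf451 h451
  have h453 := checkRangeG_sound parWF r2 pf452 h452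
  have h454 := checkRangeG_sound parWF r2 pf453 h453
  have h455 := checkRangeG_sound parWF r2 pf454 h454
  have h456 := checkRangeG_sound parWF r2 pf455 h455
  have h457 := checkRangeG_sound parWF r2 pf456 h456
  have h458 := checkRangeG_sound parWF r2 pf457 h457
  have h459 := checkRangeG_sound parWF r2 pf458 h458
  have h460 := checkRangeG_sound parWF r2 pf459 h459
  have h461 := checkRangeG_sound parWF r2 pf460 h460
  have h462 := checkRangeG_sound parWF r2 pf461 h461
  have h463 := checkRangeG_sound parWF r2 pf462 h462
  have h464 := checkRangeG_sound parWF r2 pf463 h463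
  have h465 := checkRangeG_sound parWF r2 pf464 h464
  have h466 := checkRangeG_sound parWF r2 pf465 h465
  have h467 := checkRangeG_sound parWF r2 pf466 h466
  have h468 := checkRangeG_sound parWF r2 pf467 h467
  have h469 := checkRangeG_sound parWF r2 pf468 h468
  have h470 := checkRangeG_sound parWF r2 pf469 h469
  have h471 := checkRangeG_sound parWF r2 pf470 h470
  have h472 := checkRangeG_sound parWF r2 pf471 h471
  have h473 := checkRangeG_sound parWF r2 pf472 h472
  have h474 := checkRangeG_sound parWF r2 pf473 h473
  have h475 := checkRangeG_sound parWF r2 pf474 h474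
  have h476 := checkRangeG_sound parWF r2 pf475 h475
  have h477 := checkRangeG_sound parWF r2 pf476 h476
  have h478 := checkRangeG_sound parWF r2 pf477 h477
  have h479 := checkRangeG_sound parWF r2 pf478 h478
  have h480 := checkRangeG_sound parWF r2 pf479 h479
  have h481 := checkRangeG_sound parWF r2 pf480 h480
  have h482 := checkRangeG_sound parWF r2 pf481 h481
  have h483 := checkRangeG_sound parWF r2 pf482 h482
  have h484 := checkRangeG_sound parWF r2 pf483 h483
  have h485 := checkRangeG_sound parWF r2 pf484 h484
  have h486 := checkRangeG_sound parWF r2 pf485 h485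
  have h487 := checkRangeG_sound parWF r2 pf486 h486
  have h488 := checkRangeG_sound parWF r2 pf487 h487
  have h489 := checkRangeG_sound parWF r2 pf488 h488
  have h490 := checkRangeG_sound parWF r2 pf489 h489
  have h491 := checkRangeG_sound parWF r2 pf490 h490
  have h492 := checkRangeG_sound parWF r2 pf491 h491
  have h493 := checkRangeG_sound parWF r2 pf492 h492
  have h494 := checkRangeG_sound parWF r2 pf493 h493
  have h495 := checkRangeG_sound parWF r2 pf494 h494
  have h496 := checkRangeG_sound parWF r2 pf495 h495
  have h497 := checkRangeG_sound parWF r2 pf496 h496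
  have h498 := checkRangeG_sound parWF r2 pf497 h497
  have h499 := checkRangeG_sound parWF r2 pf498 h498
  have h500 := checkRangeG_sound parWF r2 pf499 h499
  exact h500

theorem c10 (h500 : ∀ j, j < 1365 → GoodG.{u} par (db j)) : ∀ j, j < 1497 → GoodG.{u} par (db j) := by
  have h501 := checkRangeG_sound parWF r2 pf500 h500
  have h502 := checkRangeG_sound parWF r2 pf501 h501
  have h503 := checkRangeG_sound parWF r2 pf502 h502
  have h504 := checkRangeG_sound parWF r2 pf503 h503
  have h505 := checkRangeG_sound parWF r2 pf504 h504
  have h506 := checkRangeG_sound parWF r2 pf505 h505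
  have h507 := checkRangeG_sound parWF r2 pf506 h506
  have h508 := checkRangeG_sound parWF r2 pf507 h507
  have h509 := checkRangeG_sound parWF r2 pf508 h508
  have h510 := checkRangeG_sound parWF r2 pf509 h509
  have h511 := checkRangeG_sound parWF r2 pf510 h510
  have h512 := checkRangeG_sound parWF r2 pf511 h511
  have h513 := checkRangeG_sound parWF r2 pf512 h512
  have h514 := checkRangeG_sound parWF r2 pf513 h513
  have h515 := checkRangeG_sound parWF r2 pf514 h514
  have h516 := checkRangeG_sound parWF r2 pf515 h515
  have h517 := checkRangeG_sound parWF r2 pf516 h516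
  have h518 := checkRangeG_sound parWF r2 pf517 h517
  have h519 := checkRangeG_sound parWF r2 pf518 h518
  have h520 := checkRangeG_sound parWF r2 pf519 h519
  have h521 := checkRangeG_sound parWF r2 pf520 h520
  have h522 := checkRangeG_sound parWF r2 pf521 h521
  have h523 := checkRangeG_sound parWF r2 pf522 h522
  have h524 := checkRangeG_sound parWF r2 pf523 h523
  have h525 := checkRangeG_sound parWF r2 pf524 h524
  have h526 := checkRangeG_sound parWF r2 pf525 h525
  have h527 := checkRangeG_sound parWF r2 pf526 h526
  have h528 := checkRangeG_sound parWF r2 pf527 h527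
  have h529 := checkRangeG_sound parWF r2 pf528 h528
  have h530 := checkRangeG_sound parWF r2 pf529 h529
  have h531 := checkRangeG_sound parWF r2 pf530 h530
  have h532 := checkRangeG_sound parWF r2 pf531 h531
  have h533 := checkRangeG_sound parWF r2 pf532 h532
  have h534 := checkRangeG_sound parWF r2 pf533 h533
  have h535 := checkRangeG_sound parWF r2 pf534 h534
  have h536 := checkRangeG_sound parWF r2 pf535 h535
  have h537 := checkRangeG_sound parWF r2 pf536 h536
  have h538 := checkRangeG_sound parWF r2 pf537 h537
  have h539 := checkRangeG_sound parWF r2 pf538 h538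
  have h540 := checkRangeG_sound parWF r2 pf539 h539
  have h541 := checkRangeG_sound parWF r2 pf540 h540
  have h542 := checkRangeG_sound parWF r2 pf541 h541
  have h543 := checkRangeG_sound parWF r2 pf542 h542
  have h544 := checkRangeG_sound parWF r2 pf543 h543
  have h545 := checkRangeG_sound parWF r2 pf544 h544
  have h546 := checkRangeG_sound parWF r2 pf545 h545
  have h547 := checkRangeG_sound parWF r2 pf546 h546
  have h548 := checkRangeG_sound parWF r2 pf547 h547
  have h549 := checkRangeG_sound parWF r2 pf548 h548
  have h550 := checkRangeG_sound parWF r2 pf549 h549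
  exact h550

theorem c11 (h550 : ∀ j, j < 1497 → GoodG.{u} par (db j)) : ∀ j, j < 1614 → GoodG.{u} par (db j) := by
  have h551 := checkRangeG_sound parWF r2 pf550 h550
  have h552 := checkRangeG_sound parWF r2 pf551 h551
  have h553 := checkRangeG_sound parWF r2 pf552 h552
  have h554 := checkRangeG_sound parWF r2 pf553 h553
  have h555 := checkRangeG_sound parWF r2 pf554 h554
  have h556 := checkRangeG_sound parWF r2 pf555 h555
  have h557 := checkRangeG_sound parWF r2 pf556 h556
  have h558 := checkRangeG_sound parWF r2 pf557 h557
  have h559 := checkRangeG_sound parWF r2 pf558 h558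
  have h560 := checkRangeG_sound parWF r2 pf559 h559
  have h561 := checkRangeG_sound parWF r2 pf560 h560
  have h562 := checkRangeG_sound parWF r2 pf561 h561
  have h563 := checkRangeG_sound parWF r2 pf562 h562
  have h564 := checkRangeG_sound parWF r2 pf563 h563
  have h565 := checkRangeG_sound parWF r2 pf564 h564
  have h566 := checkRangeG_sound parWF r2 pf565 h565
  have h567 := checkRangeG_sound parWF r2 pf566 h566
  have h568 := checkRangeG_sound parWF r2 pf567 h567
  have h569 := checkRangeG_sound parWF r2 pf568 h568
  have h570 := checkRangeG_sound parWF r2 pf569 h569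
  have h571 := checkRangeG_sound parWF r2 pf570 h570
  have h572 := checkRangeG_sound parWF r2 pf571 h571
  have h573 := checkRangeG_sound parWF r2 pf572 h572
  have h574 := checkRangeG_sound parWF r2 pf573 h573
  have h575 := checkRangeG_sound parWF r2 pf574 h574
  have h576 := checkRangeG_sound parWF r2 pf575 h575
  have h577 := checkRangeG_sound parWF r2 pf576 h576
  have h578 := checkRangeG_sound parWF r2 pf577 h577
  have h579 := checkRangeG_sound parWF r2 pf578 h578
  have h580 := checkRangeG_sound parWF r2 pf579 h579
  have h581 := checkRangeG_sound parWF r2 pf580 h580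
  have h582 := checkRangeG_sound parWF r2 pf581 h581
  have h583 := checkRangeG_sound parWF r2 pf582 h582
  have h584 := checkRangeG_sound parWF r2 pf583 h583
  have h585 := checkRangeG_sound parWF r2 pf584 h584
  have h586 := checkRangeG_sound parWF r2 pf585 h585
  have h587 := checkRangeG_sound parWF r2 pf586 h586
  have h588 := checkRangeG_sound parWF r2 pf587 h587
  have h589 := checkRangeG_sound parWF r2 pf588 h588
  have h590 := checkRangeG_sound parWF r2 pf589 h589
  have h591 := checkRangeG_sound parWF r2 pf590 h590
  have h592 := checkRangeG_sound parWF r2 pf591 h591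
  have h593 := checkRangeG_sound parWF r2 pf592 h592
  have h594 := checkRangeG_sound parWF r2 pf593 h593
  have h595 := checkRangeG_sound parWF r2 pf594 h594
  have h596 := checkRangeG_sound parWF r2 pf595 h595
  have h597 := checkRangeG_sound parWF r2 pf596 h596
  have h598 := checkRangeG_sound parWF r2 pf597 h597
  have h599 := checkRangeG_sound parWF r2 pf598 h598
  have h600 := checkRangeG_sound parWF r2 pf599 h599
  exact h600


end Vale.Agent.P045g.C61
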