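import Vale.Agent.P045g.C61.WF
import Vale.Agent.P045g.C61.Pf10
import Vale.Agent.P045g.C61.Pf11
import Vale.Agent.P045g.C61.Pf12
import Vale.Agent.P045g.C61.Pf13
import Vale.Agent.P045g.C61.Pf14
import Vale.Agent.P045g.C61.Pf15
import Vale.Agent.P045g.C61.Pf16
import Vale.Agent.P045g.C61.Pf17
import Vale.Agent.P045g.C61.Pf18
import Vale.Agent.P045g.C61.Pf19

namespace Vale.Agent.P045g.C61

open Vale.Agent.P045b Vale.Agent.P045g

universe u

theorem c12 (h600 : ∀ j, j < 1614 → GoodG.{u} par (db j)) : ∀ j, j < 1717 → GoodG.{u} par (db j) := by
  have h601 := checkRangeG_sound parWF r2 pf600 h600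
  have h602 := checkRangeG_sound parWF r2 pf601 h601
  have h603 := checkRangeG_sound parWF r2 pf602 h602
  have h604 := checkRangeG_sound parWF r2 pf603 h603
  have h605 := checkRangeG_sound parWF r2 pf604 h604
  have h606 := checkRangeG_sound parWF r2 pf605 h605
  have h607 := checkRangeG_sound parWF r2 pf606 h606
  have h608 := checkRangeG_sound parWF r2 pf607 h607
  have h609 := checkRangeG_sound parWF r2 pf608 h608
  have h610 := checkRangeG_sound parWF r2 pf609 h609
  have h611 := checkRangeG_sound parWF r2 pf610 h610
  have h612 := checkRangeG_sound parWF r2 pf611 h611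
  have h613 := checkRangeG_sound parWF r2 pf612 h612
  have h614 := checkRangeG_sound parWF r2 pf613 h613
  have h615 := checkRangeG_sound parWF r2 pf614 h614
  have h616 := checkRangeG_sound parWF r2 pf615 h615
  have h617 := checkRangeG_sound parWF r2 pf616 h616
  have h618 := checkRangeG_sound parWF r2 pf617 h617
  have h619 := checkRangeG_sound parWF r2 pf618 h618
  have h620 := checkRangeG_sound parWF r2 pf619 h619
  have h621 := checkRangeG_sound parWF r2 pf620 h620
  have h622 := checkRangeG_sound parWF r2 pf621 h621
  have h623 := checkRangeG_sound parWF r2 pf622 h622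
  have h624 := checkRangeG_sound parWF r2 pf623 h623
  have h625 := checkRangeG_sound parWF r2 pf624 h624
  have h626 := checkRangeG_sound parWF r2 pf625 h625
  have h627 := checkRangeG_sound parWF r2 pf626 h626
  have h628 := checkRangeG_sound parWF r2 pf627 h627
  have h629 := checkRangeG_sound parWF r2 pf628 h628
  have h630 := checkRangeG_sound parWF r2 pf629 h629
  have h631 := checkRangeG_sound parWF r2 pf630 h630
  have h632 := checkRangeG_sound parWF r2 pf631 h631
  have h633 := checkRangeG_sound parWF r2 pf632 h632
  have h634 := checkRangeG_sound parWF r2 pf633 h633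
  have h635 := checkRangeG_sound parWF r2 pf634 h634
  have h636 := checkRangeG_sound parWF r2 pf635 h635
  have h637 := checkRangeG_sound parWF r2 pf636 h636
  have h638 := checkRangeG_sound parWF r2 pf637 h637
  have h639 := checkRangeG_sound parWF r2 pf638 h638
  have h640 := checkRangeG_sound parWF r2 pf639 h639
  have h641 := checkRangeG_sound parWF r2 pf640 h640
  have h642 := checkRangeG_sound parWF r2 pf641 h641
  have h643 := checkRangeG_sound parWF r2 pf642 h642
  have h644 := checkRangeG_sound parWF r2 pf643 h643
  have h645 := checkRangeG_sound parWF r2 pf644 h644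
  have h646 := checkRangeG_sound parWF r2 pf645 h645
  have h647 := checkRangeG_sound parWF r2 pf646 h646
  have h648 := checkRangeG_sound parWF r2 pf647 h647
  have h649 := checkRangeG_sound parWF r2 pf648 h648
  have h650 := checkRangeG_sound parWF r2 pf649 h649
  exact h650

theorem c13 (h650 : ∀ j, j < 1717 → GoodG.{u} par (db j)) : ∀ j, j < 1852 → GoodG.{u} par (db j) := by
  have h651 := checkRangeG_sound parWF r2 pf650 h650
  have h652 := checkRangeG_sound parWF r2 pf651 h651
  have h653 := checkRangeG_sound parWF r2 pf652 h652
  have h654 := checkRangeG_sound parWF r2 pf653 h653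
  have h655 := checkRangeG_sound parWF r2 pf654 h654
  have h656 := checkRangeG_sound parWF r2 pf655 h655
  have h657 := checkRangeG_sound parWF r2 pf656 h656
  have h658 := checkRangeG_sound parWF r2 pf657 h657
  have h659 := checkRangeG_sound parWF r2 pf658 h658
  have h660 := checkRangeG_sound parWF r2 pf659 h659
  have h661 := checkRangeG_sound parWF r2 pf660 h660
  have h662 := checkRangeG_sound parWF r2 pf661 h661
  have h663 := checkRangeG_sound parWF r2 pf662 h662
  have h664 := checkRangeG_sound parWF r2 pf663 h663
  have h665 := checkRangeG_sound parWF r2 pf664 h664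
  have h666 := checkRangeG_sound parWF r2 pf665 h665
  have h667 := checkRangeG_sound parWF r2 pf666 h666
  have h668 := checkRangeG_sound parWF r2 pf667 h667
  have h669 := checkRangeG_sound parWF r2 pf668 h668
  have h670 := checkRangeG_sound parWF r2 pf669 h669
  have h671 := checkRangeG_sound parWF r2 pf670 h670
  have h672 := checkRangeG_sound parWF r2 pf671 h671
  have h673 := checkRangeG_sound parWF r2 pf672 h672
  have h674 := checkRangeG_sound parWF r2 pf673 h673
  have h675 := checkRangeG_sound parWF r2 pf674 h674
  have h676 := checkRangeG_sound parWF r2 pf675 h675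
  have h677 := checkRangeG_sound parWF r2 pf676 h676
  have h678 := checkRangeG_sound parWF r2 pf677 h677
  have h679 := checkRangeG_sound parWF r2 pf678 h678
  have h680 := checkRangeG_sound parWF r2 pf679 h679
  have h681 := checkRangeG_sound parWF r2 pf680 h680
  have h682 := checkRangeG_sound parWF r2 pf681 h681
  have h683 := checkRangeG_sound parWF r2 pf682 h682
  have h684 := checkRangeG_sound parWF r2 pf683 h683
  have h685 := checkRangeG_sound parWF r2 pf684 h684
  have h686 := checkRangeG_sound parWF r2 pf685 h685
  have h687 := checkRangeG_sound parWF r2 pf686 h686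
  have h688 := checkRangeG_sound parWF r2 pf687 h687
  have h689 := checkRangeG_sound parWF r2 pf688 h688
  have h690 := checkRangeG_sound parWF r2 pf689 h689
  have h691 := checkRangeG_sound parWF r2 pf690 h690
  have h692 := checkRangeG_sound parWF r2 pf691 h691
  have h693 := checkRangeG_sound parWF r2 pf692 h692
  have h694 := checkRangeG_sound parWF r2 pf693 h693
  have h695 := checkRangeG_sound parWF r2 pf694 h694
  have h696 := checkRangeG_sound parWF r2 pf695 h695
  have h697 := checkRangeG_sound parWF r2 pf696 h696
  have h698 := checkRangeG_sound parWF r2 pf697 h697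
  have h699 := checkRangeG_sound parWF r2 pf698 h698
  have h700 := checkRangeG_sound parWF r2 pf699 h699
  exact h700

theorem c14 (h700 : ∀ j, j < 1852 → GoodG.{u} par (db j)) : ∀ j, j < 1979 → GoodG.{u} par (db j) := by
  have h701 := checkRangeG_sound parWF r2 pf700 h700
  have h702 := checkRangeG_sound parWF r2 pf701 h701
  have h703 := checkRangeG_sound parWF r2 pf702 h702
  have h704 := checkRangeG_sound parWF r2 pf703 h703
  have h705 := checkRangeG_sound parWF r2 pf704 h704
  have h706 := checkRangeG_sound parWF r2 pf705 h705
  have h707 := checkRangeG_sound parWF r2 pf706 h706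
  have h708 := checkRangeG_sound parWF r2 pf707 h707
  have h709 := checkRangeG_sound parWF r2 pf708 h708
  have h710 := checkRangeG_sound parWF r2 pf709 h709
  have h711 := checkRangeG_sound parWF r2 pf710 h710
  have h712 := checkRangeG_sound parWF r2 pf711 h711
  have h713 := checkRangeG_sound parWF r2 pf712 h712
  have h714 := checkRangeG_sound parWF r2 pf713 h713
  have h715 := checkRangeG_sound parWF r2 pf714 h714
  have h716 := checkRangeG_sound parWF r2 pf715 h715
  have h717 := checkRangeG_sound parWF r2 pf716 h716
  have h718 := checkRangeG_sound parWF r2 pf717 h717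
  have h719 := checkRangeG_sound parWF r2 pf718 h718
  have h720 := checkRangeG_sound parWF r2 pf719 h719
  have h721 := checkRangeG_sound parWF r2 pf720 h720
  have h722 := checkRangeG_sound parWF r2 pf721 h721
  have h723 := checkRangeG_sound parWF r2 pf722 h722
  have h724 := checkRangeG_sound parWF r2 pf723 h723
  have h725 := checkRangeG_sound parWF r2 pf724 h724
  have h726 := checkRangeG_sound parWF r2 pf725 h725
  have h727 := checkRangeG_sound parWF r2 pf726 h726
  have h728 := checkRangeG_sound parWF r2 pf727 h727
  have h729 := checkRangeG_sound parWF r2 pf728 h728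
  have h730 := checkRangeG_sound parWF r2 pf729 h729
  have h731 := checkRangeG_sound parWF r2 pf730 h730
  have h732 := checkRangeG_sound parWF r2 pf731 h731
  have h733 := checkRangeG_sound parWF r2 pf732 h732
  have h734 := checkRangeG_sound parWF r2 pf733 h733
  have h735 := checkRangeG_sound parWF r2 pf734 h734
  have h736 := checkRangeG_sound parWF r2 pf735 h735
  have h737 := checkRangeG_sound parWF r2 pf736 h736
  have h738 := checkRangeG_sound parWF r2 pf737 h737
  have h739 := checkRangeG_sound parWF r2 pf738 h738
  have h740 := checkRangeG_sound parWF r2 pf739 h739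
  have h741 := checkRangeG_sound parWF r2 pf740 h740
  have h742 := checkRangeG_sound parWF r2 pf741 h741
  have h743 := checkRangeG_sound parWF r2 pf742 h742
  have h744 := checkRangeG_sound parWF r2 pf743 h743
  have h745 := checkRangeG_sound parWF r2 pf744 h744
  have h746 := checkRangeG_sound parWF r2 pf745 h745
  have h747 := checkRangeG_sound parWF r2 pf746 h746
  have h748 := checkRangeG_sound parWF r2 pf747 h747
  have h749 := checkRangeG_sound parWF r2 pf748 h748
  have h750 := checkRangeG_sound parWF r2 pf749 h749
  exact h750

theorem c15 (h750 : ∀ j, j < 1979 → GoodG.{u} par (db j)) : ∀ j, j < 2108 → GoodG.{u} par (db j) := by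
  have h751 := checkRangeG_sound parWF r2 pf750 h750
  have h752 := checkRangeG_sound parWF r2 pf751 h751
  have h753 := checkRangeG_sound parWF r2 pf752 h752
  have h754 := checkRangeG_sound parWF r2 pf753 h753
  have h755 := checkRangeG_sound parWF r2 pf754 h754
  have h756 := checkRangeG_sound parWF r2 pf755 h755
  have h757 := checkRangeG_sound parWF r2 pf756 h756
  have h758 := checkRangeG_sound parWF r2 pf757 h757
  have h759 := checkRangeG_sound parWF r2 pf758 h758
  have h760 := checkRangeG_sound parWF r2 pf759 h759
  have h761 := checkRangeG_sound parWF r2 pf760 h760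
  have h762 := checkRangeG_sound parWF r2 pf761 h761
  have h763 := checkRangeG_sound parWF r2 pf762 h762
  have h764 := checkRangeG_sound parWF r2 pf763 h763
  have h765 := checkRangeG_sound parWF r2 pf764 h764
  have h766 := checkRangeG_sound parWF r2 pf765 h765
  have h767 := checkRangeG_sound parWF r2 pf766 h766
  have h768 := checkRangeG_sound parWF r2 pf767 h767
  have h769 := checkRangeG_sound parWF r2 pf768 h768
  have h770 := checkRangeG_sound parWF r2 pf769 h769
  have h771 := checkRangeG_sound parWF r2 pf770 h770
  have h772 := checkRangeG_sound parWF r2 pf771 h771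
  have h773 := checkRangeG_sound parWF r2 pf772 h772
  have h774 := checkRangeG_sound parWF r2 pf773 h773
  have h775 := checkRangeG_sound parWF r2 pf774 h774
  have h776 := checkRangeG_sound parWF r2 pf775 h775
  have h777 := checkRangeG_sound parWF r2 pf776 h776
  have h778 := checkRangeG_sound parWF r2 pf777 h777
  have h779 := checkRangeG_sound parWF r2 pf778 h778
  have h780 := checkRangeG_sound parWF r2 pf779 h779
  have h781 := checkRangeG_sound parWF r2 pf780 h780
  have h782 := checkRangeG_sound parWF r2 pf781 h781
  have h783 := checkRangeG_sound parWF r2 pf782 h782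
  have h784 := checkRangeG_sound parWF r2 pf783 h783
  have h785 := checkRangeG_sound parWF r2 pf784 h784
  have h786 := checkRangeG_sound parWF r2 pf785 h785
  have h787 := checkRangeG_sound parWF r2 pf786 h786
  have h788 := checkRangeG_sound parWF r2 pf787 h787
  have h789 := checkRangeG_sound parWF r2 pf788 h788
  have h790 := checkRangeG_sound parWF r2 pf789 h789
  have h791 := checkRangeG_sound parWF r2 pf790 h790
  have h792 := checkRangeG_sound parWF r2 pf791 h791
  have h793 := checkRangeG_sound parWF r2 pf792 h792
  have h794 := checkRangeG_sound parWF r2 pf793 h793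
  have h795 := checkRangeG_sound parWF r2 pf794 h794
  have h796 := checkRangeG_sound parWF r2 pf795 h795
  have h797 := checkRangeG_sound parWF r2 pf796 h796
  have h798 := checkRangeG_sound parWF r2 pf797 h797
  have h799 := checkRangeG_sound parWF r2 pf798 h798
  have h800 := checkRangeG_sound parWF r2 pf799 h799
  exact h800

theorem c16 (h800 : ∀ j, j < 2108 → GoodG.{u} par (db j)) : ∀ j, j < 2235 → GoodG.{u} par (db j) := by
  have h801 := checkRangeG_sound parWF r2 pf800 h800
  have h802 := checkRangeG_sound parWF r2 pf801 h801
  have h803 := checkRangeG_sound parWF r2 pf802 h802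
  have h804 := checkRangeG_sound parWF r2 pf803 h803
  have h805 := checkRangeG_sound parWF r2 pf804 h804
  have h806 := checkRangeG_sound parWF r2 pf805 h805
  have h807 := checkRangeG_sound parWF r2 pf806 h806
  have h808 := checkRangeG_sound parWF r2 pf807 h807
  have h809 := checkRangeG_sound parWF r2 pf808 h808
  have h810 := checkRangeG_sound parWF r2 pf809 h809
  have h811 := checkRangeG_sound parWF r2 pf810 h810
  have h812 := checkRangeG_sound parWF r2 pf811 h811
  have h813 := checkRangeG_sound parWF r2 pf812 h812
  have h814 := checkRangeG_sound parWF r2 pf813 h813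
  have h815 := checkRangeG_sound parWF r2 pf814 h814
  have h816 := checkRangeG_sound parWF r2 pf815 h815
  have h817 := checkRangeG_sound parWF r2 pf816 h816
  have h818 := checkRangeG_sound parWF r2 pf817 h817
  have h819 := checkRangeG_sound parWF r2 pf818 h818
  have h820 := checkRangeG_sound parWF r2 pf819 h819
  have h821 := checkRangeG_sound parWF r2 pf820 h820
  have h822 := checkRangeG_sound parWF r2 pf821 h821
  have h823 := checkRangeG_sound parWF r2 pf822 h822
  have h824 := checkRangeG_sound parWF r2 pf823 h823
  have h825 := checkRangeG_sound parWF r2 pf824 h824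
  have h826 := checkRangeG_sound parWF r2 pf825 h825
  have h827 := checkRangeG_sound parWF r2 pf826 h826
  have h828 := checkRangeG_sound parWF r2 pf827 h827
  have h829 := checkRangeG_sound parWF r2 pf828 h828
  have h830 := checkRangeG_sound parWF r2 pf829 h829
  have h831 := checkRangeG_sound parWF r2 pf830 h830
  have h832 := checkRangeG_sound parWF r2 pf831 h831
  have h833 := checkRangeG_sound parWF r2 pf832 h832
  have h834 := checkRangeG_sound parWF r2 pf833 h833
  have h835 := checkRangeG_sound parWF r2 pf834 h834
  have h836 := checkRangeG_sound parWF r2 pf835 h835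
  have h837 := checkRangeG_sound parWF r2 pf836 h836
  have h838 := checkRangeG_sound parWF r2 pf837 h837
  have h839 := checkRangeG_sound parWF r2 pf838 h838
  have h840 := checkRangeG_sound parWF r2 pf839 h839
  have h841 := checkRangeG_sound parWF r2 pf840 h840
  have h842 := checkRangeG_sound parWF r2 pf841 h841
  have h843 := checkRangeG_sound parWF r2 pf842 h842
  have h844 := checkRangeG_sound parWF r2 pf843 h843
  have h845 := checkRangeG_sound parWF r2 pf844 h844
  have h846 := checkRangeG_sound parWF r2 pf845 h845
  have h847 := checkRangeG_sound parWF r2 pf846 h846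
  have h848 := checkRangeG_sound parWF r2 pf847 h847
  have h849 := checkRangeG_sound parWF r2 pf848 h848
  have h850 := checkRangeG_sound parWF r2 pf849 h849
  exact h850

theorem c17 (h850 : ∀ j, j < 2235 → GoodG.{u} par (db j)) : ∀ j, j < 2375 → GoodG.{u} par (db j) := by
  have h851 := checkRangeG_sound parWF r2 pf850 h850
  have h852 := checkRangeG_sound parWF r2 pf851 h851
  have h853 := checkRangeG_sound parWF r2 pf852 h852
  have h854 := checkRangeG_sound parWF r2 pf853 h853
  have h855 := checkRangeG_sound parWF r2 pf854 h854
  have h856 := checkRangeG_sound parWF r2 pf855 h855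
  have h857 := checkRangeG_sound parWF r2 pf856 h856
  have h858 := checkRangeG_sound parWF r2 pf857 h857
  have h859 := checkRangeG_sound parWF r2 pf858 h858
  have h860 := checkRangeG_sound parWF r2 pf859 h859
  have h861 := checkRangeG_sound parWF r2 pf860 h860
  have h862 := checkRangeG_sound parWF r2 pf861 h861
  have h863 := checkRangeG_sound parWF r2 pf862 h862
  have h864 := checkRangeG_sound parWF r2 pf863 h863
  have h865 := checkRangeG_sound parWF r2 pf864 h864
  have h866 := checkRangeG_sound parWF r2 pf865 h865
  have h867 := checkRangeG_sound parWF r2 pf866 h866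
  have h868 := checkRangeG_sound parWF r2 pf867 h867
  have h869 := checkRangeG_sound parWF r2 pf868 h868
  have h870 := checkRangeG_sound parWF r2 pf869 h869
  have h871 := checkRangeG_sound parWF r2 pf870 h870
  have h872 := checkRangeG_sound parWF r2 pf871 h871
  have h873 := checkRangeG_sound parWF r2 pf872 h872
  have h874 := checkRangeG_sound parWF r2 pf873 h873
  have h875 := checkRangeG_sound parWF r2 pf874 h874
  have h876 := checkRangeG_sound parWF r2 pf875 h875
  have h877 := checkRangeG_sound parWF r2 pf876 h876
  have h878 := checkRangeG_sound parWF r2 pf877 h877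
  have h879 := checkRangeG_sound parWF r2 pf878 h878
  have h880 := checkRangeG_sound parWF r2 pf879 h879
  have h881 := checkRangeG_sound parWF r2 pf880 h880
  have h882 := checkRangeG_sound parWF r2 pf881 h881
  have h883 := checkRangeG_sound parWF r2 pf882 h882
  have h884 := checkRangeG_sound parWF r2 pf883 h883
  have h885 := checkRangeG_sound parWF r2 pf884 h884
  have h886 := checkRangeG_sound parWF r2 pf885 h885
  have h887 := checkRangeG_sound parWF r2 pf886 h886
  have h888 := checkRangeG_sound parWF r2 pf887 h887
  have h889 := checkRangeG_sound parWF r2 pf888 h888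
  have h890 := checkRangeG_sound parWF r2 pf889 h889
  have h891 := checkRangeG_sound parWF r2 pf890 h890
  have h892 := checkRangeG_sound parWF r2 pf891 h891
  have h893 := checkRangeG_sound parWF r2 pf892 h892
  have h894 := checkRangeG_sound parWF r2 pf893 h893
  have h895 := checkRangeG_sound parWF r2 pf894 h894
  have h896 := checkRangeG_sound parWF r2 pf895 h895
  have h897 := checkRangeG_sound parWF r2 pf896 h896
  have h898 := checkRangeG_sound parWF r2 pf897 h897
  have h899 := checkRangeG_sound parWF r2 pf898 h898
  have h900 := checkRangeG_sound parWF r2 pf899 h899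
  exact h900

theorem c18 (h900 : ∀ j, j < 2375 → GoodG.{u} par (db j)) : ∀ j, j < 2511 → GoodG.{u} par (db j) := by
  have h901 := checkRangeG_sound parWF r2 pf900 h900
  have h902 := checkRangeG_sound parWF r2 pf901 h901
  have h903 := checkRangeG_sound parWF r2 pf902 h902
  have h904 := checkRangeG_sound parWF r2 pf903 h903
  have h905 := checkRangeG_sound parWF r2 pf904 h904
  have h906 := checkRangeG_sound parWF r2 pf905 h905
  have h907 := checkRangeG_sound parWF r2 pf906 h906
  have h908 := checkRangeG_sound parWF r2 pf907 h907
  have h909 := checkRangeG_sound parWF r2 pf908 h908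
  have h910 := checkRangeG_sound parWF r2 pf909 h909
  have h911 := checkRangeG_sound parWF r2 pf910 h910
  have h912 := checkRangeG_sound parWF r2 pf911 h911
  have h913 := checkRangeG_sound parWF r2 pf912 h912
  have h914 := checkRangeG_sound parWF r2 pf913 h913
  have h915 := checkRangeG_sound parWF r2 pf914 h914
  have h916 := checkRangeG_sound parWF r2 pf915 h915
  have h917 := checkRangeG_sound parWF r2 pf916 h916
  have h918 := checkRangeG_sound parWF r2 pf917 h917
  have h919 := checkRangeG_sound parWF r2 pf918 h918
  have h920 := checkRangeG_sound parWF r2 pf919 h919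
  have h921 := checkRangeG_sound parWF r2 pf920 h920
  have h922 := checkRangeG_sound parWF r2 pf921 h921
  have h923 := checkRangeG_sound parWF r2 pf922 h922
  have h924 := checkRangeG_sound parWF r2 pf923 h923
  have h925 := checkRangeG_sound parWF r2 pf924 h924
  have h926 := checkRangeG_sound parWF r2 pf925 h925
  have h927 := checkRangeG_sound parWF r2 pf926 h926
  have h928 := checkRangeG_sound parWF r2 pf927 h927
  have h929 := checkRangeG_sound parWF r2 pf928 h928
  have h930 := checkRangeG_sound parWF r2 pf929 h929
  have h931 := checkRangeG_sound parWF r2 pf930 h930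
  have h932 := checkRangeG_sound parWF r2 pf931 h931
  have h933 := checkRangeG_sound parWF r2 pf932 h932
  have h934 := checkRangeG_sound parWF r2 pf933 h933
  have h935 := checkRangeG_sound parWF r2 pf934 h934
  have h936 := checkRangeG_sound parWF r2 pf935 h935
  have h937 := checkRangeG_sound parWF r2 pf936 h936
  have h938 := checkRangeG_sound parWF r2 pf937 h937
  have h939 := checkRangeG_sound parWF r2 pf938 h938
  have h940 := checkRangeG_sound parWF r2 pf939 h939
  have h941 := checkRangeG_sound parWF r2 pf940 h940
  have h942 := checkRangeG_sound parWF r2 pf941 h941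
  have h943 := checkRangeG_sound parWF r2 pf942 h942
  have h944 := checkRangeG_sound parWF r2 pf943 h943
  have h945 := checkRangeG_sound parWF r2 pf944 h944
  have h946 := checkRangeG_sound parWF r2 pf945 h945
  have h947 := checkRangeG_sound parWF r2 pf946 h946
  have h948 := checkRangeG_sound parWF r2 pf947 h947
  have h949 := checkRangeG_sound parWF r2 pf948 h948
  have h950 := checkRangeG_sound parWF r2 pf949 h949
  exact h950

theorem c19 (h950 : ∀ j, j < 2511 → GoodG.{u} par (db j)) : ∀ j, j < 2664 → GoodG.{u} par (db j) := by
  have h951 := checkRangeG_sound parWF r2 pf950 h950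
  have h952 := checkRangeG_sound parWF r2 pf951 h951
  have h953 := checkRangeG_sound parWF r2 pf952 h952
  have h954 := checkRangeG_sound parWF r2 pf953 h953
  have h955 := checkRangeG_sound parWF r2 pf954 h954
  have h956 := checkRangeG_sound parWF r2 pf955 h955
  have h957 := checkRangeG_sound parWF r2 pf956 h956
  have h958 := checkRangeG_sound parWF r2 pf957 h957
  have h959 := checkRangeG_sound parWF r2 pf958 h958
  have h960 := checkRangeG_sound parWF r2 pf959 h959
  have h961 := checkRangeG_sound parWF r2 pf960 h960
  have h962 := checkRangeG_sound parWF r2 pf961 h961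
  have h963 := checkRangeG_sound parWF r2 pf962 h962
  have h964 := checkRangeG_sound parWF r2 pf963 h963
  have h965 := checkRangeG_sound parWF r2 pf964 h964
  have h966 := checkRangeG_sound parWF r2 pf965 h965
  have h967 := checkRangeG_sound parWF r2 pf966 h966
  have h968 := checkRangeG_sound parWF r2 pf967 h967
  have h969 := checkRangeG_sound parWF r2 pf968 h968
  have h970 := checkRangeG_sound parWF r2 pf969 h969
  have h971 := checkRangeG_sound parWF r2 pf970 h970
  have h972 := checkRangeG_sound parWF r2 pf971 h971
  have h973 := checkRangeG_sound parWF r2 pf972 h972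
  have h974 := checkRangeG_sound parWF r2 pf973 h973
  have h975 := checkRangeG_sound parWF r2 pf974 h974
  have h976 := checkRangeG_sound parWF r2 pf975 h975
  have h977 := checkRangeG_sound parWF r2 pf976 h976
  have h978 := checkRangeG_sound parWF r2 pf977 h977
  have h979 := checkRangeG_sound parWF r2 pf978 h978
  have h980 := checkRangeG_sound parWF r2 pf979 h979
  have h981 := checkRangeG_sound parWF r2 pf980 h980
  have h982 := checkRangeG_sound parWF r2 pf981 h981
  have h983 := checkRangeG_sound parWF r2 pf982 h982
  have h984 := checkRangeG_sound parWF r2 pf983 h983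
  have h985 := checkRangeG_sound parWF r2 pf984 h984
  have h986 := checkRangeG_sound parWF r2 pf985 h985
  have h987 := checkRangeG_sound parWF r2 pf986 h986
  have h988 := checkRangeG_sound parWF r2 pf987 h987
  have h989 := checkRangeG_sound parWF r2 pf988 h988
  have h990 := checkRangeG_sound parWF r2 pf989 h989
  have h991 := checkRangeG_sound parWF r2 pf990 h990
  have h992 := checkRangeG_sound parWF r2 pf991 h991
  have h993 := checkRangeG_sound parWF r2 pf992 h992
  have h994 := checkRangeG_sound parWF r2 pf993 h993
  have h995 := checkRangeG_sound parWF r2 pf994 h994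
  have h996 := checkRangeG_sound parWF r2 pf995 h995
  have h997 := checkRangeG_sound parWF r2 pf996 h996
  have h998 := checkRangeG_sound parWF r2 pf997 h997
  have h999 := checkRangeG_sound parWF r2 pf998 h998
  have h1000 := checkRangeG_sound parWF r2 pf999 h999
  exact h1000

theorem c20 (h1000 : ∀ j, j < 2664 → GoodG.{u} par (db j)) : ∀ j, j < 2838 → GoodG.{u} par (db j) := by
  have h1001 := checkRangeG_sound parWF r2 pf1000 h1000
  have h1002 := checkRangeG_sound parWF r2 pf1001 h1001
  have h1003 := checkRangeG_sound parWF r2 pf1002 h1002
  have h1004 := checkRangeG_sound parWF r2 pf1003 h1003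
  have h1005 := checkRangeG_sound parWF r2 pf1004 h1004
  have h1006 := checkRangeG_sound parWF r2 pf1005 h1005
  have h1007 := checkRangeG_sound parWF r2 pf1006 h1006
  have h1008 := checkRangeG_sound parWF r2 pf1007 h1007
  have h1009 := checkRangeG_sound parWF r2 pf1008 h1008
  have h1010 := checkRangeG_sound parWF r2 pf1009 h1009
  have h1011 := checkRangeG_sound parWF r2 pf1010 h1010
  have h1012 := checkRangeG_sound parWF r2 pf1011 h1011
  have h1013 := checkRangeG_sound parWF r2 pf1012 h1012
  have h1014 := checkRangeG_sound parWF r2 pf1013 h1013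
  have h1015 := checkRangeG_sound parWF r2 pf1014 h1014
  have h1016 := checkRangeG_sound parWF r2 pf1015 h1015
  have h1017 := checkRangeG_sound parWF r2 pf1016 h1016
  have h1018 := checkRangeG_sound parWF r2 pf1017 h1017
  have h1019 := checkRangeG_sound parWF r2 pf1018 h1018
  have h1020 := checkRangeG_sound parWF r2 pf1019 h1019
  have h1021 := checkRangeG_sound parWF r2 pf1020 h1020
  have h1022 := checkRangeG_sound parWF r2 pf1021 h1021
  have h1023 := checkRangeG_sound parWF r2 pf1022 h1022
  have h1024 := checkRangeG_sound parWF r2 pf1023 h1023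
  have h1025 := checkRangeG_sound parWF r2 pf1024 h1024
  have h1026 := checkRangeG_sound parWF r2 pf1025 h1025
  have h1027 := checkRangeG_sound parWF r2 pf1026 h1026
  have h1028 := checkRangeG_sound parWF r2 pf1027 h1027
  have h1029 := checkRangeG_sound parWF r2 pf1028 h1028
  have h1030 := checkRangeG_sound parWF r2 pf1029 h1029
  have h1031 := checkRangeG_sound parWF r2 pf1030 h1030
  have h1032 := checkRangeG_sound parWF r2 pf1031 h1031
  have h1033 := checkRangeG_sound parWF r2 pf1032 h1032
  have h1034 := checkRangeG_sound parWF r2 pf1033 h1033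
  have h1035 := checkRangeG_sound parWF r2 pf1034 h1034
  have h1036 := checkRangeG_sound parWF r2 pf1035 h1035
  have h1037 := checkRangeG_sound parWF r2 pf1036 h1036
  have h1038 := checkRangeG_sound parWF r2 pf1037 h1037
  have h1039 := checkRangeG_sound parWF r2 pf1038 h1038
  have h1040 := checkRangeG_sound parWF r2 pf1039 h1039
  have h1041 := checkRangeG_sound parWF r2 pf1040 h1040
  have h1042 := checkRangeG_sound parWF r2 pf1041 h1041
  have h1043 := checkRangeG_sound parWF r2 pf1042 h1042
  have h1044 := checkRangeG_sound parWF r2 pf1043 h1043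
  have h1045 := checkRangeG_sound parWF r2 pf1044 h1044
  have h1046 := checkRangeG_sound parWF r2 pf1045 h1045
  have h1047 := checkRangeG_sound parWF r2 pf1046 h1046
  have h1048 := checkRangeG_sound parWF r2 pf1047 h1047
  have h1049 := checkRangeG_sound parWF r2 pf1048 h1048
  have h1050 := checkRangeG_sound parWF r2 pf1049 h1049
  exact h1050

theorem c21 (h1050 : ∀ j, j < 2838 → GoodG.{u} par (db j)) : ∀ j, j < 3013 → GoodG.{u} par (db j) := by
  have h1051 := checkRangeG_sound parWF r2 pf1050 h1050
  have h1052 := checkRangeG_sound parWF r2 pf1051 h1051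
  have h1053 := checkRangeG_sound parWF r2 pf1052 h1052
  have h1054 := checkRangeG_sound parWF r2 pf1053 h1053
  have h1055 := checkRangeG_sound parWF r2 pf1054 h1054
  have h1056 := checkRangeG_sound parWF r2 pf1055 h1055
  have h1057 := checkRangeG_sound parWF r2 pf1056 h1056
  have h1058 := checkRangeG_sound parWF r2 pf1057 h1057
  have h1059 := checkRangeG_sound parWF r2 pf1058 h1058
  have h1060 := checkRangeG_sound parWF r2 pf1059 h1059
  have h1061 := checkRangeG_sound parWF r2 pf1060 h1060
  have h1062 := checkRangeG_sound parWF r2 pf1061 h1061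
  have h1063 := checkRangeG_sound parWF r2 pf1062 h1062
  have h1064 := checkRangeG_sound parWF r2 pf1063 h1063
  have h1065 := checkRangeG_sound parWF r2 pf1064 h1064
  have h1066 := checkRangeG_sound parWF r2 pf1065 h1065
  have h1067 := checkRangeG_sound parWF r2 pf1066 h1066
  have h1068 := checkRangeG_sound parWF r2 pf1067 h1067
  have h1069 := checkRangeG_sound parWF r2 pf1068 h1068
  have h1070 := checkRangeG_sound parWF r2 pf1069 h1069
  have h1071 := checkRangeG_sound parWF r2 pf1070 h1070
  have h1072 := checkRangeG_sound parWF r2 pf1071 h1071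
  have h1073 := checkRangeG_sound parWF r2 pf1072 h1072
  have h1074 := checkRangeG_sound parWF r2 pf1073 h1073
  have h1075 := checkRangeG_sound parWF r2 pf1074 h1074
  have h1076 := checkRangeG_sound parWF r2 pf1075 h1075
  have h1077 := checkRangeG_sound parWF r2 pf1076 h1076
  have h1078 := checkRangeG_sound parWF r2 pf1077 h1077
  have h1079 := checkRangeG_sound parWF r2 pf1078 h1078
  have h1080 := checkRangeG_sound parWF r2 pf1079 h1079
  have h1081 := checkRangeG_sound parWF r2 pf1080 h1080
  have h1082 := checkRangeG_sound parWF r2 pf1081 h1081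
  have h1083 := checkRangeG_sound parWF r2 pf1082 h1082
  have h1084 := checkRangeG_sound parWF r2 pf1083 h1083
  have h1085 := checkRangeG_sound parWF r2 pf1084 h1084
  have h1086 := checkRangeG_sound parWF r2 pf1085 h1085
  have h1087 := checkRangeG_sound parWF r2 pf1086 h1086
  have h1088 := checkRangeG_sound parWF r2 pf1087 h1087
  have h1089 := checkRangeG_sound parWF r2 pf1088 h1088
  have h1090 := checkRangeG_sound parWF r2 pf1089 h1089
  have h1091 := checkRangeG_sound parWF r2 pf1090 h1090
  have h1092 := checkRangeG_sound parWF r2 pf1091 h1091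
  have h1093 := checkRangeG_sound parWF r2 pf1092 h1092
  have h1094 := checkRangeG_sound parWF r2 pf1093 h1093
  have h1095 := checkRangeG_sound parWF r2 pf1094 h1094
  have h1096 := checkRangeG_sound parWF r2 pf1095 h1095
  have h1097 := checkRangeG_sound parWF r2 pf1096 h1096
  have h1098 := checkRangeG_sound parWF r2 pf1097 h1097
  have h1099 := checkRangeG_sound parWF r2 pf1098 h1098
  have h1100 := checkRangeG_sound parWF r2 pf1099 h1099
  exact h1100

theorem c22 (h1100 : ∀ j, j < 3013 → GoodG.{u} par (db j)) : ∀ j, j < 3182 → GoodG.{u} par (db j) := by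
  have h1101 := checkRangeG_sound parWF r2 pf1100 h1100
  have h1102 := checkRangeG_sound parWF r2 pf1101 h1101
  have h1103 := checkRangeG_sound parWF r2 pf1102 h1102
  have h1104 := checkRangeG_sound parWF r2 pf1103 h1103
  have h1105 := checkRangeG_sound parWF r2 pf1104 h1104
  have h1106 := checkRangeG_sound parWF r2 pf1105 h1105
  have h1107 := checkRangeG_sound parWF r2 pf1106 h1106
  have h1108 := checkRangeG_sound parWF r2 pf1107 h1107
  have h1109 := checkRangeG_sound parWF r2 pf1108 h1108
  have h1110 := checkRangeG_sound parWF r2 pf1109 h1109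
  have h1111 := checkRangeG_sound parWF r2 pf1110 h1110
  have h1112 := checkRangeG_sound parWF r2 pf1111 h1111
  have h1113 := checkRangeG_sound parWF r2 pf1112 h1112
  have h1114 := checkRangeG_sound parWF r2 pf1113 h1113
  have h1115 := checkRangeG_sound parWF r2 pf1114 h1114
  have h1116 := checkRangeG_sound parWF r2 pf1115 h1115
  have h1117 := checkRangeG_sound parWF r2 pf1116 h1116
  have h1118 := checkRangeG_sound parWF r2 pf1117 h1117
  have h1119 := checkRangeG_sound parWF r2 pf1118 h1118
  have h1120 := checkRangeG_sound parWF r2 pf1119 h1119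
  have h1121 := checkRangeG_sound parWF r2 pf1120 h1120
  have h1122 := checkRangeG_sound parWF r2 pf1121 h1121
  have h1123 := checkRangeG_sound parWF r2 pf1122 h1122
  have h1124 := checkRangeG_sound parWF r2 pf1123 h1123
  have h1125 := checkRangeG_sound parWF r2 pf1124 h1124
  have h1126 := checkRangeG_sound parWF r2 pf1125 h1125
  have h1127 := checkRangeG_sound parWF r2 pf1126 h1126
  have h1128 := checkRangeG_sound parWF r2 pf1127 h1127
  have h1129 := checkRangeG_sound parWF r2 pf1128 h1128
  have h1130 := checkRangeG_sound parWF r2 pf1129 h1129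
  have h1131 := checkRangeG_sound parWF r2 pf1130 h1130
  have h1132 := checkRangeG_sound parWF r2 pf1131 h1131
  have h1133 := checkRangeG_sound parWF r2 pf1132 h1132
  have h1134 := checkRangeG_sound parWF r2 pf1133 h1133
  have h1135 := checkRangeG_sound parWF r2 pf1134 h1134
  have h1136 := checkRangeG_sound parWF r2 pf1135 h1135
  have h1137 := checkRangeG_sound parWF r2 pf1136 h1136
  have h1138 := checkRangeG_sound parWF r2 pf1137 h1137
  have h1139 := checkRangeG_sound parWF r2 pf1138 h1138
  have h1140 := checkRangeG_sound parWF r2 pf1139 h1139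
  have h1141 := checkRangeG_sound parWF r2 pf1140 h1140
  have h1142 := checkRangeG_sound parWF r2 pf1141 h1141
  have h1143 := checkRangeG_sound parWF r2 pf1142 h1142
  have h1144 := checkRangeG_sound parWF r2 pf1143 h1143
  have h1145 := checkRangeG_sound parWF r2 pf1144 h1144
  have h1146 := checkRangeG_sound parWF r2 pf1145 h1145
  have h1147 := checkRangeG_sound parWF r2 pf1146 h1146
  have h1148 := checkRangeG_sound parWF r2 pf1147 h1147
  have h1149 := checkRangeG_sound parWF r2 pf1148 h1148
  have h1150 := checkRangeG_sound parWF r2 pf1149 h1149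
  exact h1150

theorem c23 (h1150 : ∀ j, j < 3182 → GoodG.{u} par (db j)) : ∀ j, j < 3371 → GoodG.{u} par (db j) := by
  have h1151 := checkRangeG_sound parWF r2 pf1150 h1150
  have h1152 := checkRangeG_sound parWF r2 pf1151 h1151
  have h1153 := checkRangeG_sound parWF r2 pf1152 h1152
  have h1154 := checkRangeG_sound parWF r2 pf1153 h1153
  have h1155 := checkRangeG_sound parWF r2 pf1154 h1154
  have h1156 := checkRangeG_sound parWF r2 pf1155 h1155
  have h1157 := checkRangeG_sound parWF r2 pf1156 h1156
  have h1158 := checkRangeG_sound parWF r2 pf1157 h1157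
  have h1159 := checkRangeG_sound parWF r2 pf1158 h1158
  have h1160 := checkRangeG_sound parWF r2 pf1159 h1159
  have h1161 := checkRangeG_sound parWF r2 pf1160 h1160
  have h1162 := checkRangeG_sound parWF r2 pf1161 h1161
  have h1163 := checkRangeG_sound parWF r2 pf1162 h1162
  have h1164 := checkRangeG_sound parWF r2 pf1163 h1163
  have h1165 := checkRangeG_sound parWF r2 pf1164 h1164
  have h1166 := checkRangeG_sound parWF r2 pf1165 h1165
  have h1167 := checkRangeG_sound parWF r2 pf1166 h1166
  have h1168 := checkRangeG_sound parWF r2 pf1167 h1167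
  have h1169 := checkRangeG_sound parWF r2 pf1168 h1168
  have h1170 := checkRangeG_sound parWF r2 pf1169 h1169
  have h1171 := checkRangeG_sound parWF r2 pf1170 h1170
  have h1172 := checkRangeG_sound parWF r2 pf1171 h1171
  have h1173 := checkRangeG_sound parWF r2 pf1172 h1172
  have h1174 := checkRangeG_sound parWF r2 pf1173 h1173
  have h1175 := checkRangeG_sound parWF r2 pf1174 h1174
  have h1176 := checkRangeG_sound parWF r2 pf1175 h1175
  have h1177 := checkRangeG_sound parWF r2 pf1176 h1176
  have h1178 := checkRangeG_sound parWF r2 pf1177 h1177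
  have h1179 := checkRangeG_sound parWF r2 pf1178 h1178
  have h1180 := checkRangeG_sound parWF r2 pf1179 h1179
  have h1181 := checkRangeG_sound parWF r2 pf1180 h1180
  have h1182 := checkRangeG_sound parWF r2 pf1181 h1181
  have h1183 := checkRangeG_sound parWF r2 pf1182 h1182
  have h1184 := checkRangeG_sound parWF r2 pf1183 h1183
  have h1185 := checkRangeG_sound parWF r2 pf1184 h1184
  have h1186 := checkRangeG_sound parWF r2 pf1185 h1185
  have h1187 := checkRangeG_sound parWF r2 pf1186 h1186
  have h1188 := checkRangeG_sound parWF r2 pf1187 h1187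
  have h1189 := checkRangeG_sound parWF r2 pf1188 h1188
  have h1190 := checkRangeG_sound parWF r2 pf1189 h1189
  have h1191 := checkRangeG_sound parWF r2 pf1190 h1190
  have h1192 := checkRangeG_sound parWF r2 pf1191 h1191
  have h1193 := checkRangeG_sound parWF r2 pf1192 h1192
  have h1194 := checkRangeG_sound parWF r2 pf1193 h1193
  have h1195 := checkRangeG_sound parWF r2 pf1194 h1194
  have h1196 := checkRangeG_sound parWF r2 pf1195 h1195
  have h1197 := checkRangeG_sound parWF r2 pf1196 h1196
  have h1198 := checkRangeG_sound parWF r2 pf1197 h1197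
  have h1199 := checkRangeG_sound parWF r2 pf1198 h1198
  have h1200 := checkRangeG_sound parWF r2 pf1199 h1199
  exact h1200


end Vale.Agent.P045g.C61
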