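import Vale.Agent.P045g.C61.WF
import Vale.Agent.P045g.C61.Pf100
import Vale.Agent.P045g.C61.Pf101
import Vale.Agent.P045g.C61.Pf102
import Vale.Agent.P045g.C61.Pf103
import Vale.Agent.P045g.C61.Pf104
import Vale.Agent.P045g.C61.Pf105
import Vale.Agent.P045g.C61.Pf106
import Vale.Agent.P045g.C61.Pf107
import Vale.Agent.P045g.C61.Pf108
import Vale.Agent.P045g.C61.Pf109

namespace Vale.Agent.P045g.C61

open Vale.Agent.P045b Vale.Agent.P045g

universe u

theorem c120 (h6000 : ∀ j, j < 17237 → GoodG.{u} par (db j)) : ∀ j, j < 17449 → GoodG.{u} par (db j) := by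
  have h6001 := checkRangeG_sound parWF r2 pf6000 h6000
  have h6002 := checkRangeG_sound parWF r2 pf6001 h6001
  have h6003 := checkRangeG_sound parWF r2 pf6002 h6002
  have h6004 := checkRangeG_sound parWF r2 pf6003 h6003
  have h6005 := checkRangeG_sound parWF r2 pf6004 h6004
  have h6006 := checkRangeG_sound parWF r2 pf6005 h6005
  have h6007 := checkRangeG_sound parWF r2 pf6006 h6006
  have h6008 := checkRangeG_sound parWF r2 pf6007 h6007
  have h6009 := checkRangeG_sound parWF r2 pf6008 h6008
  have h6010 := checkRangeG_sound parWF r2 pf6009 h6009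
  have h6011 := checkRangeG_sound parWF r2 pf6010 h6010
  have h6012 := checkRangeG_sound parWF r2 pf6011 h6011
  have h6013 := checkRangeG_sound parWF r2 pf6012 h6012
  have h6014 := checkRangeG_sound parWF r2 pf6013 h6013
  have h6015 := checkRangeG_sound parWF r2 pf6014 h6014
  have h6016 := checkRangeG_sound parWF r2 pf6015 h6015
  have h6017 := checkRangeG_sound parWF r2 pf6016 h6016
  have h6018 := checkRangeG_sound parWF r2 pf6017 h6017
  have h6019 := checkRangeG_sound parWF r2 pf6018 h6018
  have h6020 := checkRangeG_sound parWF r2 pf6019 h6019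
  have h6021 := checkRangeG_sound parWF r2 pf6020 h6020
  have h6022 := checkRangeG_sound parWF r2 pf6021 h6021
  have h6023 := checkRangeG_sound parWF r2 pf6022 h6022
  have h6024 := checkRangeG_sound parWF r2 pf6023 h6023
  have h6025 := checkRangeG_sound parWF r2 pf6024 h6024
  have h6026 := checkRangeG_sound parWF r2 pf6025 h6025
  have h6027 := checkRangeG_sound parWF r2 pf6026 h6026
  have h6028 := checkRangeG_sound parWF r2 pf6027 h6027
  have h6029 := checkRangeG_sound parWF r2 pf6028 h6028
  have h6030 := checkRangeG_sound parWF r2 pf6029 h6029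
  have h6031 := checkRangeG_sound parWF r2 pf6030 h6030
  have h6032 := checkRangeG_sound parWF r2 pf6031 h6031
  have h6033 := checkRangeG_sound parWF r2 pf6032 h6032
  have h6034 := checkRangeG_sound parWF r2 pf6033 h6033
  have h6035 := checkRangeG_sound parWF r2 pf6034 h6034
  have h6036 := checkRangeG_sound parWF r2 pf6035 h6035
  have h6037 := checkRangeG_sound parWF r2 pf6036 h6036
  have h6038 := checkRangeG_sound parWF r2 pf6037 h6037
  have h6039 := checkRangeG_sound parWF r2 pf6038 h6038
  have h6040 := checkRangeG_sound parWF r2 pf6039 h6039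
  have h6041 := checkRangeG_sound parWF r2 pf6040 h6040
  have h6042 := checkRangeG_sound parWF r2 pf6041 h6041
  have h6043 := checkRangeG_sound parWF r2 pf6042 h6042
  have h6044 := checkRangeG_sound parWF r2 pf6043 h6043
  have h6045 := checkRangeG_sound parWF r2 pf6044 h6044
  have h6046 := checkRangeG_sound parWF r2 pf6045 h6045
  have h6047 := checkRangeG_sound parWF r2 pf6046 h6046
  have h6048 := checkRangeG_sound parWF r2 pf6047 h6047
  have h6049 := checkRangeG_sound parWF r2 pf6048 h6048
  have h6050 := checkRangeG_sound parWF r2 pf6049 h6049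
  exact h6050

theorem c121 (h6050 : ∀ j, j < 17449 → GoodG.{u} par (db j)) : ∀ j, j < 17662 → GoodG.{u} par (db j) := by
  have h6051 := checkRangeG_sound parWF r2 pf6050 h6050
  have h6052 := checkRangeG_sound parWF r2 pf6051 h6051
  have h6053 := checkRangeG_sound parWF r2 pf6052 h6052
  have h6054 := checkRangeG_sound parWF r2 pf6053 h6053
  have h6055 := checkRangeG_sound parWF r2 pf6054 h6054
  have h6056 := checkRangeG_sound parWF r2 pf6055 h6055
  have h6057 := checkRangeG_sound parWF r2 pf6056 h6056
  have h6058 := checkRangeG_sound parWF r2 pf6057 h6057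
  have h6059 := checkRangeG_sound parWF r2 pf6058 h6058
  have h6060 := checkRangeG_sound parWF r2 pf6059 h6059
  have h6061 := checkRangeG_sound parWF r2 pf6060 h6060
  have h6062 := checkRangeG_sound parWF r2 pf6061 h6061
  have h6063 := checkRangeG_sound parWF r2 pf6062 h6062
  have h6064 := checkRangeG_sound parWF r2 pf6063 h6063
  have h6065 := checkRangeG_sound parWF r2 pf6064 h6064
  have h6066 := checkRangeG_sound parWF r2 pf6065 h6065
  have h6067 := checkRangeG_sound parWF r2 pf6066 h6066
  have h6068 := checkRangeG_sound parWF r2 pf6067 h6067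
  have h6069 := checkRangeG_sound parWF r2 pf6068 h6068
  have h6070 := checkRangeG_sound parWF r2 pf6069 h6069
  have h6071 := checkRangeG_sound parWF r2 pf6070 h6070
  have h6072 := checkRangeG_sound parWF r2 pf6071 h6071
  have h6073 := checkRangeG_sound parWF r2 pf6072 h6072
  have h6074 := checkRangeG_sound parWF r2 pf6073 h6073
  have h6075 := checkRangeG_sound parWF r2 pf6074 h6074
  have h6076 := checkRangeG_sound parWF r2 pf6075 h6075
  have h6077 := checkRangeG_sound parWF r2 pf6076 h6076
  have h6078 := checkRangeG_sound parWF r2 pf6077 h6077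
  have h6079 := checkRangeG_sound parWF r2 pf6078 h6078
  have h6080 := checkRangeG_sound parWF r2 pf6079 h6079
  have h6081 := checkRangeG_sound parWF r2 pf6080 h6080
  have h6082 := checkRangeG_sound parWF r2 pf6081 h6081
  have h6083 := checkRangeG_sound parWF r2 pf6082 h6082
  have h6084 := checkRangeG_sound parWF r2 pf6083 h6083
  have h6085 := checkRangeG_sound parWF r2 pf6084 h6084
  have h6086 := checkRangeG_sound parWF r2 pf6085 h6085
  have h6087 := checkRangeG_sound parWF r2 pf6086 h6086
  have h6088 := checkRangeG_sound parWF r2 pf6087 h6087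
  have h6089 := checkRangeG_sound parWF r2 pf6088 h6088
  have h6090 := checkRangeG_sound parWF r2 pf6089 h6089
  have h6091 := checkRangeG_sound parWF r2 pf6090 h6090
  have h6092 := checkRangeG_sound parWF r2 pf6091 h6091
  have h6093 := checkRangeG_sound parWF r2 pf6092 h6092
  have h6094 := checkRangeG_sound parWF r2 pf6093 h6093
  have h6095 := checkRangeG_sound parWF r2 pf6094 h6094
  have h6096 := checkRangeG_sound parWF r2 pf6095 h6095
  have h6097 := checkRangeG_sound parWF r2 pf6096 h6096
  have h6098 := checkRangeG_sound parWF r2 pf6097 h6097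
  have h6099 := checkRangeG_sound parWF r2 pf6098 h6098
  have h6100 := checkRangeG_sound parWF r2 pf6099 h6099
  exact h6100

theorem c122 (h6100 : ∀ j, j < 17662 → GoodG.{u} par (db j)) : ∀ j, j < 17881 → GoodG.{u} par (db j) := by
  have h6101 := checkRangeG_sound parWF r2 pf6100 h6100
  have h6102 := checkRangeG_sound parWF r2 pf6101 h6101
  have h6103 := checkRangeG_sound parWF r2 pf6102 h6102
  have h6104 := checkRangeG_sound parWF r2 pf6103 h6103
  have h6105 := checkRangeG_sound parWF r2 pf6104 h6104
  have h6106 := checkRangeG_sound parWF r2 pf6105 h6105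
  have h6107 := checkRangeG_sound parWF r2 pf6106 h6106
  have h6108 := checkRangeG_sound parWF r2 pf6107 h6107
  have h6109 := checkRangeG_sound parWF r2 pf6108 h6108
  have h6110 := checkRangeG_sound parWF r2 pf6109 h6109
  have h6111 := checkRangeG_sound parWF r2 pf6110 h6110
  have h6112 := checkRangeG_sound parWF r2 pf6111 h6111
  have h6113 := checkRangeG_sound parWF r2 pf6112 h6112
  have h6114 := checkRangeG_sound parWF r2 pf6113 h6113
  have h6115 := checkRangeG_sound parWF r2 pf6114 h6114
  have h6116 := checkRangeG_sound parWF r2 pf6115 h6115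
  have h6117 := checkRangeG_sound parWF r2 pf6116 h6116
  have h6118 := checkRangeG_sound parWF r2 pf6117 h6117
  have h6119 := checkRangeG_sound parWF r2 pf6118 h6118
  have h6120 := checkRangeG_sound parWF r2 pf6119 h6119
  have h6121 := checkRangeG_sound parWF r2 pf6120 h6120
  have h6122 := checkRangeG_sound parWF r2 pf6121 h6121
  have h6123 := checkRangeG_sound parWF r2 pf6122 h6122
  have h6124 := checkRangeG_sound parWF r2 pf6123 h6123
  have h6125 := checkRangeG_sound parWF r2 pf6124 h6124
  have h6126 := checkRangeG_sound parWF r2 pf6125 h6125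
  have h6127 := checkRangeG_sound parWF r2 pf6126 h6126
  have h6128 := checkRangeG_sound parWF r2 pf6127 h6127
  have h6129 := checkRangeG_sound parWF r2 pf6128 h6128
  have h6130 := checkRangeG_sound parWF r2 pf6129 h6129
  have h6131 := checkRangeG_sound parWF r2 pf6130 h6130
  have h6132 := checkRangeG_sound parWF r2 pf6131 h6131
  have h6133 := checkRangeG_sound parWF r2 pf6132 h6132
  have h6134 := checkRangeG_sound parWF r2 pf6133 h6133
  have h6135 := checkRangeG_sound parWF r2 pf6134 h6134
  have h6136 := checkRangeG_sound parWF r2 pf6135 h6135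
  have h6137 := checkRangeG_sound parWF r2 pf6136 h6136
  have h6138 := checkRangeG_sound parWF r2 pf6137 h6137
  have h6139 := checkRangeG_sound parWF r2 pf6138 h6138
  have h6140 := checkRangeG_sound parWF r2 pf6139 h6139
  have h6141 := checkRangeG_sound parWF r2 pf6140 h6140
  have h6142 := checkRangeG_sound parWF r2 pf6141 h6141
  have h6143 := checkRangeG_sound parWF r2 pf6142 h6142
  have h6144 := checkRangeG_sound parWF r2 pf6143 h6143
  have h6145 := checkRangeG_sound parWF r2 pf6144 h6144
  have h6146 := checkRangeG_sound parWF r2 pf6145 h6145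
  have h6147 := checkRangeG_sound parWF r2 pf6146 h6146
  have h6148 := checkRangeG_sound parWF r2 pf6147 h6147
  have h6149 := checkRangeG_sound parWF r2 pf6148 h6148
  have h6150 := checkRangeG_sound parWF r2 pf6149 h6149
  exact h6150

theorem c123 (h6150 : ∀ j, j < 17881 → GoodG.{u} par (db j)) : ∀ j, j < 18074 → GoodG.{u} par (db j) := by
  have h6151 := checkRangeG_sound parWF r2 pf6150 h6150
  have h6152 := checkRangeG_sound parWF r2 pf6151 h6151
  have h6153 := checkRangeG_sound parWF r2 pf6152 h6152
  have h6154 := checkRangeG_sound parWF r2 pf6153 h6153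
  have h6155 := checkRangeG_sound parWF r2 pf6154 h6154
  have h6156 := checkRangeG_sound parWF r2 pf6155 h6155
  have h6157 := checkRangeG_sound parWF r2 pf6156 h6156
  have h6158 := checkRangeG_sound parWF r2 pf6157 h6157
  have h6159 := checkRangeG_sound parWF r2 pf6158 h6158
  have h6160 := checkRangeG_sound parWF r2 pf6159 h6159
  have h6161 := checkRangeG_sound parWF r2 pf6160 h6160
  have h6162 := checkRangeG_sound parWF r2 pf6161 h6161
  have h6163 := checkRangeG_sound parWF r2 pf6162 h6162
  have h6164 := checkRangeG_sound parWF r2 pf6163 h6163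
  have h6165 := checkRangeG_sound parWF r2 pf6164 h6164
  have h6166 := checkRangeG_sound parWF r2 pf6165 h6165
  have h6167 := checkRangeG_sound parWF r2 pf6166 h6166
  have h6168 := checkRangeG_sound parWF r2 pf6167 h6167
  have h6169 := checkRangeG_sound parWF r2 pf6168 h6168
  have h6170 := checkRangeG_sound parWF r2 pf6169 h6169
  have h6171 := checkRangeG_sound parWF r2 pf6170 h6170
  have h6172 := checkRangeG_sound parWF r2 pf6171 h6171
  have h6173 := checkRangeG_sound parWF r2 pf6172 h6172
  have h6174 := checkRangeG_sound parWF r2 pf6173 h6173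
  have h6175 := checkRangeG_sound parWF r2 pf6174 h6174
  have h6176 := checkRangeG_sound parWF r2 pf6175 h6175
  have h6177 := checkRangeG_sound parWF r2 pf6176 h6176
  have h6178 := checkRangeG_sound parWF r2 pf6177 h6177
  have h6179 := checkRangeG_sound parWF r2 pf6178 h6178
  have h6180 := checkRangeG_sound parWF r2 pf6179 h6179
  have h6181 := checkRangeG_sound parWF r2 pf6180 h6180
  have h6182 := checkRangeG_sound parWF r2 pf6181 h6181
  have h6183 := checkRangeG_sound parWF r2 pf6182 h6182
  have h6184 := checkRangeG_sound parWF r2 pf6183 h6183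
  have h6185 := checkRangeG_sound parWF r2 pf6184 h6184
  have h6186 := checkRangeG_sound parWF r2 pf6185 h6185
  have h6187 := checkRangeG_sound parWF r2 pf6186 h6186
  have h6188 := checkRangeG_sound parWF r2 pf6187 h6187
  have h6189 := checkRangeG_sound parWF r2 pf6188 h6188
  have h6190 := checkRangeG_sound parWF r2 pf6189 h6189
  have h6191 := checkRangeG_sound parWF r2 pf6190 h6190
  have h6192 := checkRangeG_sound parWF r2 pf6191 h6191
  have h6193 := checkRangeG_sound parWF r2 pf6192 h6192
  have h6194 := checkRangeG_sound parWF r2 pf6193 h6193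
  have h6195 := checkRangeG_sound parWF r2 pf6194 h6194
  have h6196 := checkRangeG_sound parWF r2 pf6195 h6195
  have h6197 := checkRangeG_sound parWF r2 pf6196 h6196
  have h6198 := checkRangeG_sound parWF r2 pf6197 h6197
  have h6199 := checkRangeG_sound parWF r2 pf6198 h6198
  have h6200 := checkRangeG_sound parWF r2 pf6199 h6199
  exact h6200

theorem c124 (h6200 : ∀ j, j < 18074 → GoodG.{u} par (db j)) : ∀ j, j < 18270 → GoodG.{u} par (db j) := by
  have h6201 := checkRangeG_sound parWF r2 pf6200 h6200
  have h6202 := checkRangeG_sound parWF r2 pf6201 h6201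
  have h6203 := checkRangeG_sound parWF r2 pf6202 h6202
  have h6204 := checkRangeG_sound parWF r2 pf6203 h6203
  have h6205 := checkRangeG_sound parWF r2 pf6204 h6204
  have h6206 := checkRangeG_sound parWF r2 pf6205 h6205
  have h6207 := checkRangeG_sound parWF r2 pf6206 h6206
  have h6208 := checkRangeG_sound parWF r2 pf6207 h6207
  have h6209 := checkRangeG_sound parWF r2 pf6208 h6208
  have h6210 := checkRangeG_sound parWF r2 pf6209 h6209
  have h6211 := checkRangeG_sound parWF r2 pf6210 h6210
  have h6212 := checkRangeG_sound parWF r2 pf6211 h6211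
  have h6213 := checkRangeG_sound parWF r2 pf6212 h6212
  have h6214 := checkRangeG_sound parWF r2 pf6213 h6213
  have h6215 := checkRangeG_sound parWF r2 pf6214 h6214
  have h6216 := checkRangeG_sound parWF r2 pf6215 h6215
  have h6217 := checkRangeG_sound parWF r2 pf6216 h6216
  have h6218 := checkRangeG_sound parWF r2 pf6217 h6217
  have h6219 := checkRangeG_sound parWF r2 pf6218 h6218
  have h6220 := checkRangeG_sound parWF r2 pf6219 h6219
  have h6221 := checkRangeG_sound parWF r2 pf6220 h6220
  have h6222 := checkRangeG_sound parWF r2 pf6221 h6221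
  have h6223 := checkRangeG_sound parWF r2 pf6222 h6222
  have h6224 := checkRangeG_sound parWF r2 pf6223 h6223
  have h6225 := checkRangeG_sound parWF r2 pf6224 h6224
  have h6226 := checkRangeG_sound parWF r2 pf6225 h6225
  have h6227 := checkRangeG_sound parWF r2 pf6226 h6226
  have h6228 := checkRangeG_sound parWF r2 pf6227 h6227
  have h6229 := checkRangeG_sound parWF r2 pf6228 h6228
  have h6230 := checkRangeG_sound parWF r2 pf6229 h6229
  have h6231 := checkRangeG_sound parWF r2 pf6230 h6230
  have h6232 := checkRangeG_sound parWF r2 pf6231 h6231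
  have h6233 := checkRangeG_sound parWF r2 pf6232 h6232
  have h6234 := checkRangeG_sound parWF r2 pf6233 h6233
  have h6235 := checkRangeG_sound parWF r2 pf6234 h6234
  have h6236 := checkRangeG_sound parWF r2 pf6235 h6235
  have h6237 := checkRangeG_sound parWF r2 pf6236 h6236
  have h6238 := checkRangeG_sound parWF r2 pf6237 h6237
  have h6239 := checkRangeG_sound parWF r2 pf6238 h6238
  have h6240 := checkRangeG_sound parWF r2 pf6239 h6239
  have h6241 := checkRangeG_sound parWF r2 pf6240 h6240
  have h6242 := checkRangeG_sound parWF r2 pf6241 h6241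
  have h6243 := checkRangeG_sound parWF r2 pf6242 h6242
  have h6244 := checkRangeG_sound parWF r2 pf6243 h6243
  have h6245 := checkRangeG_sound parWF r2 pf6244 h6244
  have h6246 := checkRangeG_sound parWF r2 pf6245 h6245
  have h6247 := checkRangeG_sound parWF r2 pf6246 h6246
  have h6248 := checkRangeG_sound parWF r2 pf6247 h6247
  have h6249 := checkRangeG_sound parWF r2 pf6248 h6248
  have h6250 := checkRangeG_sound parWF r2 pf6249 h6249
  exact h6250

theorem c125 (h6250 : ∀ j, j < 18270 → GoodG.{u} par (db j)) : ∀ j, j < 18457 → GoodG.{u} par (db j) := by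
  have h6251 := checkRangeG_sound parWF r2 pf6250 h6250
  have h6252 := checkRangeG_sound parWF r2 pf6251 h6251
  have h6253 := checkRangeG_sound parWF r2 pf6252 h6252
  have h6254 := checkRangeG_sound parWF r2 pf6253 h6253
  have h6255 := checkRangeG_sound parWF r2 pf6254 h6254
  have h6256 := checkRangeG_sound parWF r2 pf6255 h6255
  have h6257 := checkRangeG_sound parWF r2 pf6256 h6256
  have h6258 := checkRangeG_sound parWF r2 pf6257 h6257
  have h6259 := checkRangeG_sound parWF r2 pf6258 h6258
  have h6260 := checkRangeG_sound parWF r2 pf6259 h6259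
  have h6261 := checkRangeG_sound parWF r2 pf6260 h6260
  have h6262 := checkRangeG_sound parWF r2 pf6261 h6261
  have h6263 := checkRangeG_sound parWF r2 pf6262 h6262
  have h6264 := checkRangeG_sound parWF r2 pf6263 h6263
  have h6265 := checkRangeG_sound parWF r2 pf6264 h6264
  have h6266 := checkRangeG_sound parWF r2 pf6265 h6265
  have h6267 := checkRangeG_sound parWF r2 pf6266 h6266
  have h6268 := checkRangeG_sound parWF r2 pf6267 h6267
  have h6269 := checkRangeG_sound parWF r2 pf6268 h6268
  have h6270 := checkRangeG_sound parWF r2 pf6269 h6269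
  have h6271 := checkRangeG_sound parWF r2 pf6270 h6270
  have h6272 := checkRangeG_sound parWF r2 pf6271 h6271
  have h6273 := checkRangeG_sound parWF r2 pf6272 h6272
  have h6274 := checkRangeG_sound parWF r2 pf6273 h6273
  have h6275 := checkRangeG_sound parWF r2 pf6274 h6274
  have h6276 := checkRangeG_sound parWF r2 pf6275 h6275
  have h6277 := checkRangeG_sound parWF r2 pf6276 h6276
  have h6278 := checkRangeG_sound parWF r2 pf6277 h6277
  have h6279 := checkRangeG_sound parWF r2 pf6278 h6278
  have h6280 := checkRangeG_sound parWF r2 pf6279 h6279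
  have h6281 := checkRangeG_sound parWF r2 pf6280 h6280
  have h6282 := checkRangeG_sound parWF r2 pf6281 h6281
  have h6283 := checkRangeG_sound parWF r2 pf6282 h6282
  have h6284 := checkRangeG_sound parWF r2 pf6283 h6283
  have h6285 := checkRangeG_sound parWF r2 pf6284 h6284
  have h6286 := checkRangeG_sound parWF r2 pf6285 h6285
  have h6287 := checkRangeG_sound parWF r2 pf6286 h6286
  have h6288 := checkRangeG_sound parWF r2 pf6287 h6287
  have h6289 := checkRangeG_sound parWF r2 pf6288 h6288
  have h6290 := checkRangeG_sound parWF r2 pf6289 h6289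
  have h6291 := checkRangeG_sound parWF r2 pf6290 h6290
  have h6292 := checkRangeG_sound parWF r2 pf6291 h6291
  have h6293 := checkRangeG_sound parWF r2 pf6292 h6292
  have h6294 := checkRangeG_sound parWF r2 pf6293 h6293
  have h6295 := checkRangeG_sound parWF r2 pf6294 h6294
  have h6296 := checkRangeG_sound parWF r2 pf6295 h6295
  have h6297 := checkRangeG_sound parWF r2 pf6296 h6296
  have h6298 := checkRangeG_sound parWF r2 pf6297 h6297
  have h6299 := checkRangeG_sound parWF r2 pf6298 h6298
  have h6300 := checkRangeG_sound parWF r2 pf6299 h6299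
  exact h6300

theorem c126 (h6300 : ∀ j, j < 18457 → GoodG.{u} par (db j)) : ∀ j, j < 18611 → GoodG.{u} par (db j) := by
  have h6301 := checkRangeG_sound parWF r2 pf6300 h6300
  have h6302 := checkRangeG_sound parWF r2 pf6301 h6301
  have h6303 := checkRangeG_sound parWF r2 pf6302 h6302
  have h6304 := checkRangeG_sound parWF r2 pf6303 h6303
  have h6305 := checkRangeG_sound parWF r2 pf6304 h6304
  have h6306 := checkRangeG_sound parWF r2 pf6305 h6305
  have h6307 := checkRangeG_sound parWF r2 pf6306 h6306
  have h6308 := checkRangeG_sound parWF r2 pf6307 h6307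
  have h6309 := checkRangeG_sound parWF r2 pf6308 h6308
  have h6310 := checkRangeG_sound parWF r2 pf6309 h6309
  have h6311 := checkRangeG_sound parWF r2 pf6310 h6310
  have h6312 := checkRangeG_sound parWF r2 pf6311 h6311
  have h6313 := checkRangeG_sound parWF r2 pf6312 h6312
  have h6314 := checkRangeG_sound parWF r2 pf6313 h6313
  have h6315 := checkRangeG_sound parWF r2 pf6314 h6314
  have h6316 := checkRangeG_sound parWF r2 pf6315 h6315
  have h6317 := checkRangeG_sound parWF r2 pf6316 h6316
  have h6318 := checkRangeG_sound parWF r2 pf6317 h6317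
  have h6319 := checkRangeG_sound parWF r2 pf6318 h6318
  have h6320 := checkRangeG_sound parWF r2 pf6319 h6319
  have h6321 := checkRangeG_sound parWF r2 pf6320 h6320
  have h6322 := checkRangeG_sound parWF r2 pf6321 h6321
  have h6323 := checkRangeG_sound parWF r2 pf6322 h6322
  have h6324 := checkRangeG_sound parWF r2 pf6323 h6323
  have h6325 := checkRangeG_sound parWF r2 pf6324 h6324
  have h6326 := checkRangeG_sound parWF r2 pf6325 h6325
  have h6327 := checkRangeG_sound parWF r2 pf6326 h6326
  have h6328 := checkRangeG_sound parWF r2 pf6327 h6327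
  have h6329 := checkRangeG_sound parWF r2 pf6328 h6328
  have h6330 := checkRangeG_sound parWF r2 pf6329 h6329
  have h6331 := checkRangeG_sound parWF r2 pf6330 h6330
  have h6332 := checkRangeG_sound parWF r2 pf6331 h6331
  have h6333 := checkRangeG_sound parWF r2 pf6332 h6332
  have h6334 := checkRangeG_sound parWF r2 pf6333 h6333
  have h6335 := checkRangeG_sound parWF r2 pf6334 h6334
  have h6336 := checkRangeG_sound parWF r2 pf6335 h6335
  have h6337 := checkRangeG_sound parWF r2 pf6336 h6336
  have h6338 := checkRangeG_sound parWF r2 pf6337 h6337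
  have h6339 := checkRangeG_sound parWF r2 pf6338 h6338
  have h6340 := checkRangeG_sound parWF r2 pf6339 h6339
  have h6341 := checkRangeG_sound parWF r2 pf6340 h6340
  have h6342 := checkRangeG_sound parWF r2 pf6341 h6341
  have h6343 := checkRangeG_sound parWF r2 pf6342 h6342
  have h6344 := checkRangeG_sound parWF r2 pf6343 h6343
  have h6345 := checkRangeG_sound parWF r2 pf6344 h6344
  have h6346 := checkRangeG_sound parWF r2 pf6345 h6345
  have h6347 := checkRangeG_sound parWF r2 pf6346 h6346
  have h6348 := checkRangeG_sound parWF r2 pf6347 h6347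
  have h6349 := checkRangeG_sound parWF r2 pf6348 h6348
  have h6350 := checkRangeG_sound parWF r2 pf6349 h6349
  exact h6350

theorem c127 (h6350 : ∀ j, j < 18611 → GoodG.{u} par (db j)) : ∀ j, j < 18761 → GoodG.{u} par (db j) := by
  have h6351 := checkRangeG_sound parWF r2 pf6350 h6350
  have h6352 := checkRangeG_sound parWF r2 pf6351 h6351
  have h6353 := checkRangeG_sound parWF r2 pf6352 h6352
  have h6354 := checkRangeG_sound parWF r2 pf6353 h6353
  have h6355 := checkRangeG_sound parWF r2 pf6354 h6354
  have h6356 := checkRangeG_sound parWF r2 pf6355 h6355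
  have h6357 := checkRangeG_sound parWF r2 pf6356 h6356
  have h6358 := checkRangeG_sound parWF r2 pf6357 h6357
  have h6359 := checkRangeG_sound parWF r2 pf6358 h6358
  have h6360 := checkRangeG_sound parWF r2 pf6359 h6359
  have h6361 := checkRangeG_sound parWF r2 pf6360 h6360
  have h6362 := checkRangeG_sound parWF r2 pf6361 h6361
  have h6363 := checkRangeG_sound parWF r2 pf6362 h6362
  have h6364 := checkRangeG_sound parWF r2 pf6363 h6363
  have h6365 := checkRangeG_sound parWF r2 pf6364 h6364
  have h6366 := checkRangeG_sound parWF r2 pf6365 h6365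
  have h6367 := checkRangeG_sound parWF r2 pf6366 h6366
  have h6368 := checkRangeG_sound parWF r2 pf6367 h6367
  have h6369 := checkRangeG_sound parWF r2 pf6368 h6368
  have h6370 := checkRangeG_sound parWF r2 pf6369 h6369
  have h6371 := checkRangeG_sound parWF r2 pf6370 h6370
  have h6372 := checkRangeG_sound parWF r2 pf6371 h6371
  have h6373 := checkRangeG_sound parWF r2 pf6372 h6372
  have h6374 := checkRangeG_sound parWF r2 pf6373 h6373
  have h6375 := checkRangeG_sound parWF r2 pf6374 h6374
  have h6376 := checkRangeG_sound parWF r2 pf6375 h6375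
  have h6377 := checkRangeG_sound parWF r2 pf6376 h6376
  have h6378 := checkRangeG_sound parWF r2 pf6377 h6377
  have h6379 := checkRangeG_sound parWF r2 pf6378 h6378
  have h6380 := checkRangeG_sound parWF r2 pf6379 h6379
  have h6381 := checkRangeG_sound parWF r2 pf6380 h6380
  have h6382 := checkRangeG_sound parWF r2 pf6381 h6381
  have h6383 := checkRangeG_sound parWF r2 pf6382 h6382
  have h6384 := checkRangeG_sound parWF r2 pf6383 h6383
  have h6385 := checkRangeG_sound parWF r2 pf6384 h6384
  have h6386 := checkRangeG_sound parWF r2 pf6385 h6385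
  have h6387 := checkRangeG_sound parWF r2 pf6386 h6386
  have h6388 := checkRangeG_sound parWF r2 pf6387 h6387
  have h6389 := checkRangeG_sound parWF r2 pf6388 h6388
  have h6390 := checkRangeG_sound parWF r2 pf6389 h6389
  have h6391 := checkRangeG_sound parWF r2 pf6390 h6390
  have h6392 := checkRangeG_sound parWF r2 pf6391 h6391
  have h6393 := checkRangeG_sound parWF r2 pf6392 h6392
  have h6394 := checkRangeG_sound parWF r2 pf6393 h6393
  have h6395 := checkRangeG_sound parWF r2 pf6394 h6394
  have h6396 := checkRangeG_sound parWF r2 pf6395 h6395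
  have h6397 := checkRangeG_sound parWF r2 pf6396 h6396
  have h6398 := checkRangeG_sound parWF r2 pf6397 h6397
  have h6399 := checkRangeG_sound parWF r2 pf6398 h6398
  have h6400 := checkRangeG_sound parWF r2 pf6399 h6399
  exact h6400

theorem c128 (h6400 : ∀ j, j < 18761 → GoodG.{u} par (db j)) : ∀ j, j < 18911 → GoodG.{u} par (db j) := by
  have h6401 := checkRangeG_sound parWF r2 pf6400 h6400
  have h6402 := checkRangeG_sound parWF r2 pf6401 h6401
  have h6403 := checkRangeG_sound parWF r2 pf6402 h6402
  have h6404 := checkRangeG_sound parWF r2 pf6403 h6403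
  have h6405 := checkRangeG_sound parWF r2 pf6404 h6404
  have h6406 := checkRangeG_sound parWF r2 pf6405 h6405
  have h6407 := checkRangeG_sound parWF r2 pf6406 h6406
  have h6408 := checkRangeG_sound parWF r2 pf6407 h6407
  have h6409 := checkRangeG_sound parWF r2 pf6408 h6408
  have h6410 := checkRangeG_sound parWF r2 pf6409 h6409
  have h6411 := checkRangeG_sound parWF r2 pf6410 h6410
  have h6412 := checkRangeG_sound parWF r2 pf6411 h6411
  have h6413 := checkRangeG_sound parWF r2 pf6412 h6412
  have h6414 := checkRangeG_sound parWF r2 pf6413 h6413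
  have h6415 := checkRangeG_sound parWF r2 pf6414 h6414
  have h6416 := checkRangeG_sound parWF r2 pf6415 h6415
  have h6417 := checkRangeG_sound parWF r2 pf6416 h6416
  have h6418 := checkRangeG_sound parWF r2 pf6417 h6417
  have h6419 := checkRangeG_sound parWF r2 pf6418 h6418
  have h6420 := checkRangeG_sound parWF r2 pf6419 h6419
  have h6421 := checkRangeG_sound parWF r2 pf6420 h6420
  have h6422 := checkRangeG_sound parWF r2 pf6421 h6421
  have h6423 := checkRangeG_sound parWF r2 pf6422 h6422
  have h6424 := checkRangeG_sound parWF r2 pf6423 h6423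
  have h6425 := checkRangeG_sound parWF r2 pf6424 h6424
  have h6426 := checkRangeG_sound parWF r2 pf6425 h6425
  have h6427 := checkRangeG_sound parWF r2 pf6426 h6426
  have h6428 := checkRangeG_sound parWF r2 pf6427 h6427
  have h6429 := checkRangeG_sound parWF r2 pf6428 h6428
  have h6430 := checkRangeG_sound parWF r2 pf6429 h6429
  have h6431 := checkRangeG_sound parWF r2 pf6430 h6430
  have h6432 := checkRangeG_sound parWF r2 pf6431 h6431
  have h6433 := checkRangeG_sound parWF r2 pf6432 h6432
  have h6434 := checkRangeG_sound parWF r2 pf6433 h6433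
  have h6435 := checkRangeG_sound parWF r2 pf6434 h6434
  have h6436 := checkRangeG_sound parWF r2 pf6435 h6435
  have h6437 := checkRangeG_sound parWF r2 pf6436 h6436
  have h6438 := checkRangeG_sound parWF r2 pf6437 h6437
  have h6439 := checkRangeG_sound parWF r2 pf6438 h6438
  have h6440 := checkRangeG_sound parWF r2 pf6439 h6439
  have h6441 := checkRangeG_sound parWF r2 pf6440 h6440
  have h6442 := checkRangeG_sound parWF r2 pf6441 h6441
  have h6443 := checkRangeG_sound parWF r2 pf6442 h6442
  have h6444 := checkRangeG_sound parWF r2 pf6443 h6443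
  have h6445 := checkRangeG_sound parWF r2 pf6444 h6444
  have h6446 := checkRangeG_sound parWF r2 pf6445 h6445
  have h6447 := checkRangeG_sound parWF r2 pf6446 h6446
  have h6448 := checkRangeG_sound parWF r2 pf6447 h6447
  have h6449 := checkRangeG_sound parWF r2 pf6448 h6448
  have h6450 := checkRangeG_sound parWF r2 pf6449 h6449
  exact h6450

theorem c129 (h6450 : ∀ j, j < 18911 → GoodG.{u} par (db j)) : ∀ j, j < 19072 → GoodG.{u} par (db j) := by
  have h6451 := checkRangeG_sound parWF r2 pf6450 h6450
  have h6452 := checkRangeG_sound parWF r2 pf6451 h6451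
  have h6453 := checkRangeG_sound parWF r2 pf6452 h6452
  have h6454 := checkRangeG_sound parWF r2 pf6453 h6453
  have h6455 := checkRangeG_sound parWF r2 pf6454 h6454
  have h6456 := checkRangeG_sound parWF r2 pf6455 h6455
  have h6457 := checkRangeG_sound parWF r2 pf6456 h6456
  have h6458 := checkRangeG_sound parWF r2 pf6457 h6457
  have h6459 := checkRangeG_sound parWF r2 pf6458 h6458
  have h6460 := checkRangeG_sound parWF r2 pf6459 h6459
  have h6461 := checkRangeG_sound parWF r2 pf6460 h6460
  have h6462 := checkRangeG_sound parWF r2 pf6461 h6461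
  have h6463 := checkRangeG_sound parWF r2 pf6462 h6462
  have h6464 := checkRangeG_sound parWF r2 pf6463 h6463
  have h6465 := checkRangeG_sound parWF r2 pf6464 h6464
  have h6466 := checkRangeG_sound parWF r2 pf6465 h6465
  have h6467 := checkRangeG_sound parWF r2 pf6466 h6466
  have h6468 := checkRangeG_sound parWF r2 pf6467 h6467
  have h6469 := checkRangeG_sound parWF r2 pf6468 h6468
  have h6470 := checkRangeG_sound parWF r2 pf6469 h6469
  have h6471 := checkRangeG_sound parWF r2 pf6470 h6470
  have h6472 := checkRangeG_sound parWF r2 pf6471 h6471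
  have h6473 := checkRangeG_sound parWF r2 pf6472 h6472
  have h6474 := checkRangeG_sound parWF r2 pf6473 h6473
  have h6475 := checkRangeG_sound parWF r2 pf6474 h6474
  have h6476 := checkRangeG_sound parWF r2 pf6475 h6475
  have h6477 := checkRangeG_sound parWF r2 pf6476 h6476
  have h6478 := checkRangeG_sound parWF r2 pf6477 h6477
  have h6479 := checkRangeG_sound parWF r2 pf6478 h6478
  have h6480 := checkRangeG_sound parWF r2 pf6479 h6479
  have h6481 := checkRangeG_sound parWF r2 pf6480 h6480
  have h6482 := checkRangeG_sound parWF r2 pf6481 h6481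
  have h6483 := checkRangeG_sound parWF r2 pf6482 h6482
  have h6484 := checkRangeG_sound parWF r2 pf6483 h6483
  have h6485 := checkRangeG_sound parWF r2 pf6484 h6484
  have h6486 := checkRangeG_sound parWF r2 pf6485 h6485
  have h6487 := checkRangeG_sound parWF r2 pf6486 h6486
  have h6488 := checkRangeG_sound parWF r2 pf6487 h6487
  have h6489 := checkRangeG_sound parWF r2 pf6488 h6488
  have h6490 := checkRangeG_sound parWF r2 pf6489 h6489
  have h6491 := checkRangeG_sound parWF r2 pf6490 h6490
  have h6492 := checkRangeG_sound parWF r2 pf6491 h6491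
  have h6493 := checkRangeG_sound parWF r2 pf6492 h6492
  have h6494 := checkRangeG_sound parWF r2 pf6493 h6493
  have h6495 := checkRangeG_sound parWF r2 pf6494 h6494
  have h6496 := checkRangeG_sound parWF r2 pf6495 h6495
  have h6497 := checkRangeG_sound parWF r2 pf6496 h6496
  have h6498 := checkRangeG_sound parWF r2 pf6497 h6497
  have h6499 := checkRangeG_sound parWF r2 pf6498 h6498
  have h6500 := checkRangeG_sound parWF r2 pf6499 h6499
  exact h6500

theorem c130 (h6500 : ∀ j, j < 19072 → GoodG.{u} par (db j)) : ∀ j, j < 19240 → GoodG.{u} par (db j) := by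
  have h6501 := checkRangeG_sound parWF r2 pf6500 h6500
  have h6502 := checkRangeG_sound parWF r2 pf6501 h6501
  have h6503 := checkRangeG_sound parWF r2 pf6502 h6502
  have h6504 := checkRangeG_sound parWF r2 pf6503 h6503
  have h6505 := checkRangeG_sound parWF r2 pf6504 h6504
  have h6506 := checkRangeG_sound parWF r2 pf6505 h6505
  have h6507 := checkRangeG_sound parWF r2 pf6506 h6506
  have h6508 := checkRangeG_sound parWF r2 pf6507 h6507
  have h6509 := checkRangeG_sound parWF r2 pf6508 h6508
  have h6510 := checkRangeG_sound parWF r2 pf6509 h6509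
  have h6511 := checkRangeG_sound parWF r2 pf6510 h6510
  have h6512 := checkRangeG_sound parWF r2 pf6511 h6511
  have h6513 := checkRangeG_sound parWF r2 pf6512 h6512
  have h6514 := checkRangeG_sound parWF r2 pf6513 h6513
  have h6515 := checkRangeG_sound parWF r2 pf6514 h6514
  have h6516 := checkRangeG_sound parWF r2 pf6515 h6515
  have h6517 := checkRangeG_sound parWF r2 pf6516 h6516
  have h6518 := checkRangeG_sound parWF r2 pf6517 h6517
  have h6519 := checkRangeG_sound parWF r2 pf6518 h6518
  have h6520 := checkRangeG_sound parWF r2 pf6519 h6519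
  have h6521 := checkRangeG_sound parWF r2 pf6520 h6520
  have h6522 := checkRangeG_sound parWF r2 pf6521 h6521
  have h6523 := checkRangeG_sound parWF r2 pf6522 h6522
  have h6524 := checkRangeG_sound parWF r2 pf6523 h6523
  have h6525 := checkRangeG_sound parWF r2 pf6524 h6524
  have h6526 := checkRangeG_sound parWF r2 pf6525 h6525
  have h6527 := checkRangeG_sound parWF r2 pf6526 h6526
  have h6528 := checkRangeG_sound parWF r2 pf6527 h6527
  have h6529 := checkRangeG_sound parWF r2 pf6528 h6528
  have h6530 := checkRangeG_sound parWF r2 pf6529 h6529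
  have h6531 := checkRangeG_sound parWF r2 pf6530 h6530
  have h6532 := checkRangeG_sound parWF r2 pf6531 h6531
  have h6533 := checkRangeG_sound parWF r2 pf6532 h6532
  have h6534 := checkRangeG_sound parWF r2 pf6533 h6533
  have h6535 := checkRangeG_sound parWF r2 pf6534 h6534
  have h6536 := checkRangeG_sound parWF r2 pf6535 h6535
  have h6537 := checkRangeG_sound parWF r2 pf6536 h6536
  have h6538 := checkRangeG_sound parWF r2 pf6537 h6537
  have h6539 := checkRangeG_sound parWF r2 pf6538 h6538
  have h6540 := checkRangeG_sound parWF r2 pf6539 h6539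
  have h6541 := checkRangeG_sound parWF r2 pf6540 h6540
  have h6542 := checkRangeG_sound parWF r2 pf6541 h6541
  have h6543 := checkRangeG_sound parWF r2 pf6542 h6542
  have h6544 := checkRangeG_sound parWF r2 pf6543 h6543
  have h6545 := checkRangeG_sound parWF r2 pf6544 h6544
  have h6546 := checkRangeG_sound parWF r2 pf6545 h6545
  have h6547 := checkRangeG_sound parWF r2 pf6546 h6546
  have h6548 := checkRangeG_sound parWF r2 pf6547 h6547
  have h6549 := checkRangeG_sound parWF r2 pf6548 h6548
  have h6550 := checkRangeG_sound parWF r2 pf6549 h6549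
  exact h6550

theorem c131 (h6550 : ∀ j, j < 19240 → GoodG.{u} par (db j)) : ∀ j, j < 19426 → GoodG.{u} par (db j) := by
  have h6551 := checkRangeG_sound parWF r2 pf6550 h6550
  have h6552 := checkRangeG_sound parWF r2 pf6551 h6551
  have h6553 := checkRangeG_sound parWF r2 pf6552 h6552
  have h6554 := checkRangeG_sound parWF r2 pf6553 h6553
  have h6555 := checkRangeG_sound parWF r2 pf6554 h6554
  have h6556 := checkRangeG_sound parWF r2 pf6555 h6555
  have h6557 := checkRangeG_sound parWF r2 pf6556 h6556
  have h6558 := checkRangeG_sound parWF r2 pf6557 h6557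
  have h6559 := checkRangeG_sound parWF r2 pf6558 h6558
  have h6560 := checkRangeG_sound parWF r2 pf6559 h6559
  have h6561 := checkRangeG_sound parWF r2 pf6560 h6560
  have h6562 := checkRangeG_sound parWF r2 pf6561 h6561
  have h6563 := checkRangeG_sound parWF r2 pf6562 h6562
  have h6564 := checkRangeG_sound parWF r2 pf6563 h6563
  have h6565 := checkRangeG_sound parWF r2 pf6564 h6564
  have h6566 := checkRangeG_sound parWF r2 pf6565 h6565
  have h6567 := checkRangeG_sound parWF r2 pf6566 h6566
  have h6568 := checkRangeG_sound parWF r2 pf6567 h6567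
  have h6569 := checkRangeG_sound parWF r2 pf6568 h6568
  have h6570 := checkRangeG_sound parWF r2 pf6569 h6569
  have h6571 := checkRangeG_sound parWF r2 pf6570 h6570
  have h6572 := checkRangeG_sound parWF r2 pf6571 h6571
  have h6573 := checkRangeG_sound parWF r2 pf6572 h6572
  have h6574 := checkRangeG_sound parWF r2 pf6573 h6573
  have h6575 := checkRangeG_sound parWF r2 pf6574 h6574
  have h6576 := checkRangeG_sound parWF r2 pf6575 h6575
  have h6577 := checkRangeG_sound parWF r2 pf6576 h6576
  have h6578 := checkRangeG_sound parWF r2 pf6577 h6577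
  have h6579 := checkRangeG_sound parWF r2 pf6578 h6578
  have h6580 := checkRangeG_sound parWF r2 pf6579 h6579
  have h6581 := checkRangeG_sound parWF r2 pf6580 h6580
  have h6582 := checkRangeG_sound parWF r2 pf6581 h6581
  have h6583 := checkRangeG_sound parWF r2 pf6582 h6582
  have h6584 := checkRangeG_sound parWF r2 pf6583 h6583
  have h6585 := checkRangeG_sound parWF r2 pf6584 h6584
  have h6586 := checkRangeG_sound parWF r2 pf6585 h6585
  have h6587 := checkRangeG_sound parWF r2 pf6586 h6586
  have h6588 := checkRangeG_sound parWF r2 pf6587 h6587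
  have h6589 := checkRangeG_sound parWF r2 pf6588 h6588
  have h6590 := checkRangeG_sound parWF r2 pf6589 h6589
  have h6591 := checkRangeG_sound parWF r2 pf6590 h6590
  have h6592 := checkRangeG_sound parWF r2 pf6591 h6591
  have h6593 := checkRangeG_sound parWF r2 pf6592 h6592
  have h6594 := checkRangeG_sound parWF r2 pf6593 h6593
  have h6595 := checkRangeG_sound parWF r2 pf6594 h6594
  have h6596 := checkRangeG_sound parWF r2 pf6595 h6595
  have h6597 := checkRangeG_sound parWF r2 pf6596 h6596
  have h6598 := checkRangeG_sound parWF r2 pf6597 h6597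
  have h6599 := checkRangeG_sound parWF r2 pf6598 h6598
  have h6600 := checkRangeG_sound parWF r2 pf6599 h6599
  exact h6600


end Vale.Agent.P045g.C61
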