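import Vale.Agent.P045g.C61.WF
import Vale.Agent.P045g.C61.Pf110
import Vale.Agent.P045g.C61.Pf111
import Vale.Agent.P045g.C61.Pf112
import Vale.Agent.P045g.C61.Pf113
import Vale.Agent.P045g.C61.Pf114
import Vale.Agent.P045g.C61.Pf115
import Vale.Agent.P045g.C61.Pf116
import Vale.Agent.P045g.C61.Pf117
import Vale.Agent.P045g.C61.Pf118
import Vale.Agent.P045g.C61.Pf119

namespace Vale.Agent.P045g.C61

open Vale.Agent.P045b Vale.Agent.P045g

universe u

theorem c132 (h6600 : ∀ j, j < 19426 → GoodG.{u} par (db j)) : ∀ j, j < 19602 → GoodG.{u} par (db j) := by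
  have h6601 := checkRangeG_sound parWF r2 pf6600 h6600
  have h6602 := checkRangeG_sound parWF r2 pf6601 h6601
  have h6603 := checkRangeG_sound parWF r2 pf6602 h6602
  have h6604 := checkRangeG_sound parWF r2 pf6603 h6603
  have h6605 := checkRangeG_sound parWF r2 pf6604 h6604
  have h6606 := checkRangeG_sound parWF r2 pf6605 h6605
  have h6607 := checkRangeG_sound parWF r2 pf6606 h6606
  have h6608 := checkRangeG_sound parWF r2 pf6607 h6607
  have h6609 := checkRangeG_sound parWF r2 pf6608 h6608
  have h6610 := checkRangeG_sound parWF r2 pf6609 h6609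
  have h6611 := checkRangeG_sound parWF r2 pf6610 h6610
  have h6612 := checkRangeG_sound parWF r2 pf6611 h6611
  have h6613 := checkRangeG_sound parWF r2 pf6612 h6612
  have h6614 := checkRangeG_sound parWF r2 pf6613 h6613
  have h6615 := checkRangeG_sound parWF r2 pf6614 h6614
  have h6616 := checkRangeG_sound parWF r2 pf6615 h6615
  have h6617 := checkRangeG_sound parWF r2 pf6616 h6616
  have h6618 := checkRangeG_sound parWF r2 pf6617 h6617
  have h6619 := checkRangeG_sound parWF r2 pf6618 h6618
  have h6620 := checkRangeG_sound parWF r2 pf6619 h6619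
  have h6621 := checkRangeG_sound parWF r2 pf6620 h6620
  have h6622 := checkRangeG_sound parWF r2 pf6621 h6621
  have h6623 := checkRangeG_sound parWF r2 pf6622 h6622
  have h6624 := checkRangeG_sound parWF r2 pf6623 h6623
  have h6625 := checkRangeG_sound parWF r2 pf6624 h6624
  have h6626 := checkRangeG_sound parWF r2 pf6625 h6625
  have h6627 := checkRangeG_sound parWF r2 pf6626 h6626
  have h6628 := checkRangeG_sound parWF r2 pf6627 h6627
  have h6629 := checkRangeG_sound parWF r2 pf6628 h6628
  have h6630 := checkRangeG_sound parWF r2 pf6629 h6629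
  have h6631 := checkRangeG_sound parWF r2 pf6630 h6630
  have h6632 := checkRangeG_sound parWF r2 pf6631 h6631
  have h6633 := checkRangeG_sound parWF r2 pf6632 h6632
  have h6634 := checkRangeG_sound parWF r2 pf6633 h6633
  have h6635 := checkRangeG_sound parWF r2 pf6634 h6634
  have h6636 := checkRangeG_sound parWF r2 pf6635 h6635
  have h6637 := checkRangeG_sound parWF r2 pf6636 h6636
  have h6638 := checkRangeG_sound parWF r2 pf6637 h6637
  have h6639 := checkRangeG_sound parWF r2 pf6638 h6638
  have h6640 := checkRangeG_sound parWF r2 pf6639 h6639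
  have h6641 := checkRangeG_sound parWF r2 pf6640 h6640
  have h6642 := checkRangeG_sound parWF r2 pf6641 h6641
  have h6643 := checkRangeG_sound parWF r2 pf6642 h6642
  have h6644 := checkRangeG_sound parWF r2 pf6643 h6643
  have h6645 := checkRangeG_sound parWF r2 pf6644 h6644
  have h6646 := checkRangeG_sound parWF r2 pf6645 h6645
  have h6647 := checkRangeG_sound parWF r2 pf6646 h6646
  have h6648 := checkRangeG_sound parWF r2 pf6647 h6647
  have h6649 := checkRangeG_sound parWF r2 pf6648 h6648
  have h6650 := checkRangeG_sound parWF r2 pf6649 h6649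
  exact h6650

theorem c133 (h6650 : ∀ j, j < 19602 → GoodG.{u} par (db j)) : ∀ j, j < 19732 → GoodG.{u} par (db j) := by
  have h6651 := checkRangeG_sound parWF r2 pf6650 h6650
  have h6652 := checkRangeG_sound parWF r2 pf6651 h6651
  have h6653 := checkRangeG_sound parWF r2 pf6652 h6652
  have h6654 := checkRangeG_sound parWF r2 pf6653 h6653
  have h6655 := checkRangeG_sound parWF r2 pf6654 h6654
  have h6656 := checkRangeG_sound parWF r2 pf6655 h6655
  have h6657 := checkRangeG_sound parWF r2 pf6656 h6656
  have h6658 := checkRangeG_sound parWF r2 pf6657 h6657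
  have h6659 := checkRangeG_sound parWF r2 pf6658 h6658
  have h6660 := checkRangeG_sound parWF r2 pf6659 h6659
  have h6661 := checkRangeG_sound parWF r2 pf6660 h6660
  have h6662 := checkRangeG_sound parWF r2 pf6661 h6661
  have h6663 := checkRangeG_sound parWF r2 pf6662 h6662
  have h6664 := checkRangeG_sound parWF r2 pf6663 h6663
  have h6665 := checkRangeG_sound parWF r2 pf6664 h6664
  have h6666 := checkRangeG_sound parWF r2 pf6665 h6665
  have h6667 := checkRangeG_sound parWF r2 pf6666 h6666
  have h6668 := checkRangeG_sound parWF r2 pf6667 h6667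
  have h6669 := checkRangeG_sound parWF r2 pf6668 h6668
  have h6670 := checkRangeG_sound parWF r2 pf6669 h6669
  have h6671 := checkRangeG_sound parWF r2 pf6670 h6670
  have h6672 := checkRangeG_sound parWF r2 pf6671 h6671
  have h6673 := checkRangeG_sound parWF r2 pf6672 h6672
  have h6674 := checkRangeG_sound parWF r2 pf6673 h6673
  have h6675 := checkRangeG_sound parWF r2 pf6674 h6674
  have h6676 := checkRangeG_sound parWF r2 pf6675 h6675
  have h6677 := checkRangeG_sound parWF r2 pf6676 h6676
  have h6678 := checkRangeG_sound parWF r2 pf6677 h6677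
  have h6679 := checkRangeG_sound parWF r2 pf6678 h6678
  have h6680 := checkRangeG_sound parWF r2 pf6679 h6679
  have h6681 := checkRangeG_sound parWF r2 pf6680 h6680
  have h6682 := checkRangeG_sound parWF r2 pf6681 h6681
  have h6683 := checkRangeG_sound parWF r2 pf6682 h6682
  have h6684 := checkRangeG_sound parWF r2 pf6683 h6683
  have h6685 := checkRangeG_sound parWF r2 pf6684 h6684
  have h6686 := checkRangeG_sound parWF r2 pf6685 h6685
  have h6687 := checkRangeG_sound parWF r2 pf6686 h6686
  have h6688 := checkRangeG_sound parWF r2 pf6687 h6687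
  have h6689 := checkRangeG_sound parWF r2 pf6688 h6688
  have h6690 := checkRangeG_sound parWF r2 pf6689 h6689
  have h6691 := checkRangeG_sound parWF r2 pf6690 h6690
  have h6692 := checkRangeG_sound parWF r2 pf6691 h6691
  have h6693 := checkRangeG_sound parWF r2 pf6692 h6692
  have h6694 := checkRangeG_sound parWF r2 pf6693 h6693
  have h6695 := checkRangeG_sound parWF r2 pf6694 h6694
  have h6696 := checkRangeG_sound parWF r2 pf6695 h6695
  have h6697 := checkRangeG_sound parWF r2 pf6696 h6696
  have h6698 := checkRangeG_sound parWF r2 pf6697 h6697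
  have h6699 := checkRangeG_sound parWF r2 pf6698 h6698
  have h6700 := checkRangeG_sound parWF r2 pf6699 h6699
  exact h6700

theorem c134 (h6700 : ∀ j, j < 19732 → GoodG.{u} par (db j)) : ∀ j, j < 19876 → GoodG.{u} par (db j) := by
  have h6701 := checkRangeG_sound parWF r2 pf6700 h6700
  have h6702 := checkRangeG_sound parWF r2 pf6701 h6701
  have h6703 := checkRangeG_sound parWF r2 pf6702 h6702
  have h6704 := checkRangeG_sound parWF r2 pf6703 h6703
  have h6705 := checkRangeG_sound parWF r2 pf6704 h6704
  have h6706 := checkRangeG_sound parWF r2 pf6705 h6705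
  have h6707 := checkRangeG_sound parWF r2 pf6706 h6706
  have h6708 := checkRangeG_sound parWF r2 pf6707 h6707
  have h6709 := checkRangeG_sound parWF r2 pf6708 h6708
  have h6710 := checkRangeG_sound parWF r2 pf6709 h6709
  have h6711 := checkRangeG_sound parWF r2 pf6710 h6710
  have h6712 := checkRangeG_sound parWF r2 pf6711 h6711
  have h6713 := checkRangeG_sound parWF r2 pf6712 h6712
  have h6714 := checkRangeG_sound parWF r2 pf6713 h6713
  have h6715 := checkRangeG_sound parWF r2 pf6714 h6714
  have h6716 := checkRangeG_sound parWF r2 pf6715 h6715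
  have h6717 := checkRangeG_sound parWF r2 pf6716 h6716
  have h6718 := checkRangeG_sound parWF r2 pf6717 h6717
  have h6719 := checkRangeG_sound parWF r2 pf6718 h6718
  have h6720 := checkRangeG_sound parWF r2 pf6719 h6719
  have h6721 := checkRangeG_sound parWF r2 pf6720 h6720
  have h6722 := checkRangeG_sound parWF r2 pf6721 h6721
  have h6723 := checkRangeG_sound parWF r2 pf6722 h6722
  have h6724 := checkRangeG_sound parWF r2 pf6723 h6723
  have h6725 := checkRangeG_sound parWF r2 pf6724 h6724
  have h6726 := checkRangeG_sound parWF r2 pf6725 h6725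
  have h6727 := checkRangeG_sound parWF r2 pf6726 h6726
  have h6728 := checkRangeG_sound parWF r2 pf6727 h6727
  have h6729 := checkRangeG_sound parWF r2 pf6728 h6728
  have h6730 := checkRangeG_sound parWF r2 pf6729 h6729
  have h6731 := checkRangeG_sound parWF r2 pf6730 h6730
  have h6732 := checkRangeG_sound parWF r2 pf6731 h6731
  have h6733 := checkRangeG_sound parWF r2 pf6732 h6732
  have h6734 := checkRangeG_sound parWF r2 pf6733 h6733
  have h6735 := checkRangeG_sound parWF r2 pf6734 h6734
  have h6736 := checkRangeG_sound parWF r2 pf6735 h6735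
  have h6737 := checkRangeG_sound parWF r2 pf6736 h6736
  have h6738 := checkRangeG_sound parWF r2 pf6737 h6737
  have h6739 := checkRangeG_sound parWF r2 pf6738 h6738
  have h6740 := checkRangeG_sound parWF r2 pf6739 h6739
  have h6741 := checkRangeG_sound parWF r2 pf6740 h6740
  have h6742 := checkRangeG_sound parWF r2 pf6741 h6741
  have h6743 := checkRangeG_sound parWF r2 pf6742 h6742
  have h6744 := checkRangeG_sound parWF r2 pf6743 h6743
  have h6745 := checkRangeG_sound parWF r2 pf6744 h6744
  have h6746 := checkRangeG_sound parWF r2 pf6745 h6745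
  have h6747 := checkRangeG_sound parWF r2 pf6746 h6746
  have h6748 := checkRangeG_sound parWF r2 pf6747 h6747
  have h6749 := checkRangeG_sound parWF r2 pf6748 h6748
  have h6750 := checkRangeG_sound parWF r2 pf6749 h6749
  exact h6750

theorem c135 (h6750 : ∀ j, j < 19876 → GoodG.{u} par (db j)) : ∀ j, j < 20028 → GoodG.{u} par (db j) := by
  have h6751 := checkRangeG_sound parWF r2 pf6750 h6750
  have h6752 := checkRangeG_sound parWF r2 pf6751 h6751
  have h6753 := checkRangeG_sound parWF r2 pf6752 h6752
  have h6754 := checkRangeG_sound parWF r2 pf6753 h6753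
  have h6755 := checkRangeG_sound parWF r2 pf6754 h6754
  have h6756 := checkRangeG_sound parWF r2 pf6755 h6755
  have h6757 := checkRangeG_sound parWF r2 pf6756 h6756
  have h6758 := checkRangeG_sound parWF r2 pf6757 h6757
  have h6759 := checkRangeG_sound parWF r2 pf6758 h6758
  have h6760 := checkRangeG_sound parWF r2 pf6759 h6759
  have h6761 := checkRangeG_sound parWF r2 pf6760 h6760
  have h6762 := checkRangeG_sound parWF r2 pf6761 h6761
  have h6763 := checkRangeG_sound parWF r2 pf6762 h6762
  have h6764 := checkRangeG_sound parWF r2 pf6763 h6763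
  have h6765 := checkRangeG_sound parWF r2 pf6764 h6764
  have h6766 := checkRangeG_sound parWF r2 pf6765 h6765
  have h6767 := checkRangeG_sound parWF r2 pf6766 h6766
  have h6768 := checkRangeG_sound parWF r2 pf6767 h6767
  have h6769 := checkRangeG_sound parWF r2 pf6768 h6768
  have h6770 := checkRangeG_sound parWF r2 pf6769 h6769
  have h6771 := checkRangeG_sound parWF r2 pf6770 h6770
  have h6772 := checkRangeG_sound parWF r2 pf6771 h6771
  have h6773 := checkRangeG_sound parWF r2 pf6772 h6772
  have h6774 := checkRangeG_sound parWF r2 pf6773 h6773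
  have h6775 := checkRangeG_sound parWF r2 pf6774 h6774
  have h6776 := checkRangeG_sound parWF r2 pf6775 h6775
  have h6777 := checkRangeG_sound parWF r2 pf6776 h6776
  have h6778 := checkRangeG_sound parWF r2 pf6777 h6777
  have h6779 := checkRangeG_sound parWF r2 pf6778 h6778
  have h6780 := checkRangeG_sound parWF r2 pf6779 h6779
  have h6781 := checkRangeG_sound parWF r2 pf6780 h6780
  have h6782 := checkRangeG_sound parWF r2 pf6781 h6781
  have h6783 := checkRangeG_sound parWF r2 pf6782 h6782
  have h6784 := checkRangeG_sound parWF r2 pf6783 h6783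
  have h6785 := checkRangeG_sound parWF r2 pf6784 h6784
  have h6786 := checkRangeG_sound parWF r2 pf6785 h6785
  have h6787 := checkRangeG_sound parWF r2 pf6786 h6786
  have h6788 := checkRangeG_sound parWF r2 pf6787 h6787
  have h6789 := checkRangeG_sound parWF r2 pf6788 h6788
  have h6790 := checkRangeG_sound parWF r2 pf6789 h6789
  have h6791 := checkRangeG_sound parWF r2 pf6790 h6790
  have h6792 := checkRangeG_sound parWF r2 pf6791 h6791
  have h6793 := checkRangeG_sound parWF r2 pf6792 h6792
  have h6794 := checkRangeG_sound parWF r2 pf6793 h6793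
  have h6795 := checkRangeG_sound parWF r2 pf6794 h6794
  have h6796 := checkRangeG_sound parWF r2 pf6795 h6795
  have h6797 := checkRangeG_sound parWF r2 pf6796 h6796
  have h6798 := checkRangeG_sound parWF r2 pf6797 h6797
  have h6799 := checkRangeG_sound parWF r2 pf6798 h6798
  have h6800 := checkRangeG_sound parWF r2 pf6799 h6799
  exact h6800

theorem c136 (h6800 : ∀ j, j < 20028 → GoodG.{u} par (db j)) : ∀ j, j < 20164 → GoodG.{u} par (db j) := by
  have h6801 := checkRangeG_sound parWF r2 pf6800 h6800
  have h6802 := checkRangeG_sound parWF r2 pf6801 h6801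
  have h6803 := checkRangeG_sound parWF r2 pf6802 h6802
  have h6804 := checkRangeG_sound parWF r2 pf6803 h6803
  have h6805 := checkRangeG_sound parWF r2 pf6804 h6804
  have h6806 := checkRangeG_sound parWF r2 pf6805 h6805
  have h6807 := checkRangeG_sound parWF r2 pf6806 h6806
  have h6808 := checkRangeG_sound parWF r2 pf6807 h6807
  have h6809 := checkRangeG_sound parWF r2 pf6808 h6808
  have h6810 := checkRangeG_sound parWF r2 pf6809 h6809
  have h6811 := checkRangeG_sound parWF r2 pf6810 h6810
  have h6812 := checkRangeG_sound parWF r2 pf6811 h6811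
  have h6813 := checkRangeG_sound parWF r2 pf6812 h6812
  have h6814 := checkRangeG_sound parWF r2 pf6813 h6813
  have h6815 := checkRangeG_sound parWF r2 pf6814 h6814
  have h6816 := checkRangeG_sound parWF r2 pf6815 h6815
  have h6817 := checkRangeG_sound parWF r2 pf6816 h6816
  have h6818 := checkRangeG_sound parWF r2 pf6817 h6817
  have h6819 := checkRangeG_sound parWF r2 pf6818 h6818
  have h6820 := checkRangeG_sound parWF r2 pf6819 h6819
  have h6821 := checkRangeG_sound parWF r2 pf6820 h6820
  have h6822 := checkRangeG_sound parWF r2 pf6821 h6821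
  have h6823 := checkRangeG_sound parWF r2 pf6822 h6822
  have h6824 := checkRangeG_sound parWF r2 pf6823 h6823
  have h6825 := checkRangeG_sound parWF r2 pf6824 h6824
  have h6826 := checkRangeG_sound parWF r2 pf6825 h6825
  have h6827 := checkRangeG_sound parWF r2 pf6826 h6826
  have h6828 := checkRangeG_sound parWF r2 pf6827 h6827
  have h6829 := checkRangeG_sound parWF r2 pf6828 h6828
  have h6830 := checkRangeG_sound parWF r2 pf6829 h6829
  have h6831 := checkRangeG_sound parWF r2 pf6830 h6830
  have h6832 := checkRangeG_sound parWF r2 pf6831 h6831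
  have h6833 := checkRangeG_sound parWF r2 pf6832 h6832
  have h6834 := checkRangeG_sound parWF r2 pf6833 h6833
  have h6835 := checkRangeG_sound parWF r2 pf6834 h6834
  have h6836 := checkRangeG_sound parWF r2 pf6835 h6835
  have h6837 := checkRangeG_sound parWF r2 pf6836 h6836
  have h6838 := checkRangeG_sound parWF r2 pf6837 h6837
  have h6839 := checkRangeG_sound parWF r2 pf6838 h6838
  have h6840 := checkRangeG_sound parWF r2 pf6839 h6839
  have h6841 := checkRangeG_sound parWF r2 pf6840 h6840
  have h6842 := checkRangeG_sound parWF r2 pf6841 h6841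
  have h6843 := checkRangeG_sound parWF r2 pf6842 h6842
  have h6844 := checkRangeG_sound parWF r2 pf6843 h6843
  have h6845 := checkRangeG_sound parWF r2 pf6844 h6844
  have h6846 := checkRangeG_sound parWF r2 pf6845 h6845
  have h6847 := checkRangeG_sound parWF r2 pf6846 h6846
  have h6848 := checkRangeG_sound parWF r2 pf6847 h6847
  have h6849 := checkRangeG_sound parWF r2 pf6848 h6848
  have h6850 := checkRangeG_sound parWF r2 pf6849 h6849
  exact h6850

theorem c137 (h6850 : ∀ j, j < 20164 → GoodG.{u} par (db j)) : ∀ j, j < 20305 → GoodG.{u} par (db j) := by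
  have h6851 := checkRangeG_sound parWF r2 pf6850 h6850
  have h6852 := checkRangeG_sound parWF r2 pf6851 h6851
  have h6853 := checkRangeG_sound parWF r2 pf6852 h6852
  have h6854 := checkRangeG_sound parWF r2 pf6853 h6853
  have h6855 := checkRangeG_sound parWF r2 pf6854 h6854
  have h6856 := checkRangeG_sound parWF r2 pf6855 h6855
  have h6857 := checkRangeG_sound parWF r2 pf6856 h6856
  have h6858 := checkRangeG_sound parWF r2 pf6857 h6857
  have h6859 := checkRangeG_sound parWF r2 pf6858 h6858
  have h6860 := checkRangeG_sound parWF r2 pf6859 h6859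
  have h6861 := checkRangeG_sound parWF r2 pf6860 h6860
  have h6862 := checkRangeG_sound parWF r2 pf6861 h6861
  have h6863 := checkRangeG_sound parWF r2 pf6862 h6862
  have h6864 := checkRangeG_sound parWF r2 pf6863 h6863
  have h6865 := checkRangeG_sound parWF r2 pf6864 h6864
  have h6866 := checkRangeG_sound parWF r2 pf6865 h6865
  have h6867 := checkRangeG_sound parWF r2 pf6866 h6866
  have h6868 := checkRangeG_sound parWF r2 pf6867 h6867
  have h6869 := checkRangeG_sound parWF r2 pf6868 h6868
  have h6870 := checkRangeG_sound parWF r2 pf6869 h6869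
  have h6871 := checkRangeG_sound parWF r2 pf6870 h6870
  have h6872 := checkRangeG_sound parWF r2 pf6871 h6871
  have h6873 := checkRangeG_sound parWF r2 pf6872 h6872
  have h6874 := checkRangeG_sound parWF r2 pf6873 h6873
  have h6875 := checkRangeG_sound parWF r2 pf6874 h6874
  have h6876 := checkRangeG_sound parWF r2 pf6875 h6875
  have h6877 := checkRangeG_sound parWF r2 pf6876 h6876
  have h6878 := checkRangeG_sound parWF r2 pf6877 h6877
  have h6879 := checkRangeG_sound parWF r2 pf6878 h6878
  have h6880 := checkRangeG_sound parWF r2 pf6879 h6879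
  have h6881 := checkRangeG_sound parWF r2 pf6880 h6880
  have h6882 := checkRangeG_sound parWF r2 pf6881 h6881
  have h6883 := checkRangeG_sound parWF r2 pf6882 h6882
  have h6884 := checkRangeG_sound parWF r2 pf6883 h6883
  have h6885 := checkRangeG_sound parWF r2 pf6884 h6884
  have h6886 := checkRangeG_sound parWF r2 pf6885 h6885
  have h6887 := checkRangeG_sound parWF r2 pf6886 h6886
  have h6888 := checkRangeG_sound parWF r2 pf6887 h6887
  have h6889 := checkRangeG_sound parWF r2 pf6888 h6888
  have h6890 := checkRangeG_sound parWF r2 pf6889 h6889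
  have h6891 := checkRangeG_sound parWF r2 pf6890 h6890
  have h6892 := checkRangeG_sound parWF r2 pf6891 h6891
  have h6893 := checkRangeG_sound parWF r2 pf6892 h6892
  have h6894 := checkRangeG_sound parWF r2 pf6893 h6893
  have h6895 := checkRangeG_sound parWF r2 pf6894 h6894
  have h6896 := checkRangeG_sound parWF r2 pf6895 h6895
  have h6897 := checkRangeG_sound parWF r2 pf6896 h6896
  have h6898 := checkRangeG_sound parWF r2 pf6897 h6897
  have h6899 := checkRangeG_sound parWF r2 pf6898 h6898
  have h6900 := checkRangeG_sound parWF r2 pf6899 h6899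
  exact h6900

theorem c138 (h6900 : ∀ j, j < 20305 → GoodG.{u} par (db j)) : ∀ j, j < 20452 → GoodG.{u} par (db j) := by
  have h6901 := checkRangeG_sound parWF r2 pf6900 h6900
  have h6902 := checkRangeG_sound parWF r2 pf6901 h6901
  have h6903 := checkRangeG_sound parWF r2 pf6902 h6902
  have h6904 := checkRangeG_sound parWF r2 pf6903 h6903
  have h6905 := checkRangeG_sound parWF r2 pf6904 h6904
  have h6906 := checkRangeG_sound parWF r2 pf6905 h6905
  have h6907 := checkRangeG_sound parWF r2 pf6906 h6906
  have h6908 := checkRangeG_sound parWF r2 pf6907 h6907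
  have h6909 := checkRangeG_sound parWF r2 pf6908 h6908
  have h6910 := checkRangeG_sound parWF r2 pf6909 h6909
  have h6911 := checkRangeG_sound parWF r2 pf6910 h6910
  have h6912 := checkRangeG_sound parWF r2 pf6911 h6911
  have h6913 := checkRangeG_sound parWF r2 pf6912 h6912
  have h6914 := checkRangeG_sound parWF r2 pf6913 h6913
  have h6915 := checkRangeG_sound parWF r2 pf6914 h6914
  have h6916 := checkRangeG_sound parWF r2 pf6915 h6915
  have h6917 := checkRangeG_sound parWF r2 pf6916 h6916
  have h6918 := checkRangeG_sound parWF r2 pf6917 h6917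
  have h6919 := checkRangeG_sound parWF r2 pf6918 h6918
  have h6920 := checkRangeG_sound parWF r2 pf6919 h6919
  have h6921 := checkRangeG_sound parWF r2 pf6920 h6920
  have h6922 := checkRangeG_sound parWF r2 pf6921 h6921
  have h6923 := checkRangeG_sound parWF r2 pf6922 h6922
  have h6924 := checkRangeG_sound parWF r2 pf6923 h6923
  have h6925 := checkRangeG_sound parWF r2 pf6924 h6924
  have h6926 := checkRangeG_sound parWF r2 pf6925 h6925
  have h6927 := checkRangeG_sound parWF r2 pf6926 h6926
  have h6928 := checkRangeG_sound parWF r2 pf6927 h6927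
  have h6929 := checkRangeG_sound parWF r2 pf6928 h6928
  have h6930 := checkRangeG_sound parWF r2 pf6929 h6929
  have h6931 := checkRangeG_sound parWF r2 pf6930 h6930
  have h6932 := checkRangeG_sound parWF r2 pf6931 h6931
  have h6933 := checkRangeG_sound parWF r2 pf6932 h6932
  have h6934 := checkRangeG_sound parWF r2 pf6933 h6933
  have h6935 := checkRangeG_sound parWF r2 pf6934 h6934
  have h6936 := checkRangeG_sound parWF r2 pf6935 h6935
  have h6937 := checkRangeG_sound parWF r2 pf6936 h6936
  have h6938 := checkRangeG_sound parWF r2 pf6937 h6937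
  have h6939 := checkRangeG_sound parWF r2 pf6938 h6938
  have h6940 := checkRangeG_sound parWF r2 pf6939 h6939
  have h6941 := checkRangeG_sound parWF r2 pf6940 h6940
  have h6942 := checkRangeG_sound parWF r2 pf6941 h6941
  have h6943 := checkRangeG_sound parWF r2 pf6942 h6942
  have h6944 := checkRangeG_sound parWF r2 pf6943 h6943
  have h6945 := checkRangeG_sound parWF r2 pf6944 h6944
  have h6946 := checkRangeG_sound parWF r2 pf6945 h6945
  have h6947 := checkRangeG_sound parWF r2 pf6946 h6946
  have h6948 := checkRangeG_sound parWF r2 pf6947 h6947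
  have h6949 := checkRangeG_sound parWF r2 pf6948 h6948
  have h6950 := checkRangeG_sound parWF r2 pf6949 h6949
  exact h6950

theorem c139 (h6950 : ∀ j, j < 20452 → GoodG.{u} par (db j)) : ∀ j, j < 20584 → GoodG.{u} par (db j) := by
  have h6951 := checkRangeG_sound parWF r2 pf6950 h6950
  have h6952 := checkRangeG_sound parWF r2 pf6951 h6951
  have h6953 := checkRangeG_sound parWF r2 pf6952 h6952
  have h6954 := checkRangeG_sound parWF r2 pf6953 h6953
  have h6955 := checkRangeG_sound parWF r2 pf6954 h6954
  have h6956 := checkRangeG_sound parWF r2 pf6955 h6955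
  have h6957 := checkRangeG_sound parWF r2 pf6956 h6956
  have h6958 := checkRangeG_sound parWF r2 pf6957 h6957
  have h6959 := checkRangeG_sound parWF r2 pf6958 h6958
  have h6960 := checkRangeG_sound parWF r2 pf6959 h6959
  have h6961 := checkRangeG_sound parWF r2 pf6960 h6960
  have h6962 := checkRangeG_sound parWF r2 pf6961 h6961
  have h6963 := checkRangeG_sound parWF r2 pf6962 h6962
  have h6964 := checkRangeG_sound parWF r2 pf6963 h6963
  have h6965 := checkRangeG_sound parWF r2 pf6964 h6964
  have h6966 := checkRangeG_sound parWF r2 pf6965 h6965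
  have h6967 := checkRangeG_sound parWF r2 pf6966 h6966
  have h6968 := checkRangeG_sound parWF r2 pf6967 h6967
  have h6969 := checkRangeG_sound parWF r2 pf6968 h6968
  have h6970 := checkRangeG_sound parWF r2 pf6969 h6969
  have h6971 := checkRangeG_sound parWF r2 pf6970 h6970
  have h6972 := checkRangeG_sound parWF r2 pf6971 h6971
  have h6973 := checkRangeG_sound parWF r2 pf6972 h6972
  have h6974 := checkRangeG_sound parWF r2 pf6973 h6973
  have h6975 := checkRangeG_sound parWF r2 pf6974 h6974
  have h6976 := checkRangeG_sound parWF r2 pf6975 h6975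
  have h6977 := checkRangeG_sound parWF r2 pf6976 h6976
  have h6978 := checkRangeG_sound parWF r2 pf6977 h6977
  have h6979 := checkRangeG_sound parWF r2 pf6978 h6978
  have h6980 := checkRangeG_sound parWF r2 pf6979 h6979
  have h6981 := checkRangeG_sound parWF r2 pf6980 h6980
  have h6982 := checkRangeG_sound parWF r2 pf6981 h6981
  have h6983 := checkRangeG_sound parWF r2 pf6982 h6982
  have h6984 := checkRangeG_sound parWF r2 pf6983 h6983
  have h6985 := checkRangeG_sound parWF r2 pf6984 h6984
  have h6986 := checkRangeG_sound parWF r2 pf6985 h6985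
  have h6987 := checkRangeG_sound parWF r2 pf6986 h6986
  have h6988 := checkRangeG_sound parWF r2 pf6987 h6987
  have h6989 := checkRangeG_sound parWF r2 pf6988 h6988
  have h6990 := checkRangeG_sound parWF r2 pf6989 h6989
  have h6991 := checkRangeG_sound parWF r2 pf6990 h6990
  have h6992 := checkRangeG_sound parWF r2 pf6991 h6991
  have h6993 := checkRangeG_sound parWF r2 pf6992 h6992
  have h6994 := checkRangeG_sound parWF r2 pf6993 h6993
  have h6995 := checkRangeG_sound parWF r2 pf6994 h6994
  have h6996 := checkRangeG_sound parWF r2 pf6995 h6995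
  have h6997 := checkRangeG_sound parWF r2 pf6996 h6996
  have h6998 := checkRangeG_sound parWF r2 pf6997 h6997
  have h6999 := checkRangeG_sound parWF r2 pf6998 h6998
  have h7000 := checkRangeG_sound parWF r2 pf6999 h6999
  exact h7000

theorem c140 (h7000 : ∀ j, j < 20584 → GoodG.{u} par (db j)) : ∀ j, j < 20722 → GoodG.{u} par (db j) := by
  have h7001 := checkRangeG_sound parWF r2 pf7000 h7000
  have h7002 := checkRangeG_sound parWF r2 pf7001 h7001
  have h7003 := checkRangeG_sound parWF r2 pf7002 h7002
  have h7004 := checkRangeG_sound parWF r2 pf7003 h7003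
  have h7005 := checkRangeG_sound parWF r2 pf7004 h7004
  have h7006 := checkRangeG_sound parWF r2 pf7005 h7005
  have h7007 := checkRangeG_sound parWF r2 pf7006 h7006
  have h7008 := checkRangeG_sound parWF r2 pf7007 h7007
  have h7009 := checkRangeG_sound parWF r2 pf7008 h7008
  have h7010 := checkRangeG_sound parWF r2 pf7009 h7009
  have h7011 := checkRangeG_sound parWF r2 pf7010 h7010
  have h7012 := checkRangeG_sound parWF r2 pf7011 h7011
  have h7013 := checkRangeG_sound parWF r2 pf7012 h7012
  have h7014 := checkRangeG_sound parWF r2 pf7013 h7013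
  have h7015 := checkRangeG_sound parWF r2 pf7014 h7014
  have h7016 := checkRangeG_sound parWF r2 pf7015 h7015
  have h7017 := checkRangeG_sound parWF r2 pf7016 h7016
  have h7018 := checkRangeG_sound parWF r2 pf7017 h7017
  have h7019 := checkRangeG_sound parWF r2 pf7018 h7018
  have h7020 := checkRangeG_sound parWF r2 pf7019 h7019
  have h7021 := checkRangeG_sound parWF r2 pf7020 h7020
  have h7022 := checkRangeG_sound parWF r2 pf7021 h7021
  have h7023 := checkRangeG_sound parWF r2 pf7022 h7022
  have h7024 := checkRangeG_sound parWF r2 pf7023 h7023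
  have h7025 := checkRangeG_sound parWF r2 pf7024 h7024
  have h7026 := checkRangeG_sound parWF r2 pf7025 h7025
  have h7027 := checkRangeG_sound parWF r2 pf7026 h7026
  have h7028 := checkRangeG_sound parWF r2 pf7027 h7027
  have h7029 := checkRangeG_sound parWF r2 pf7028 h7028
  have h7030 := checkRangeG_sound parWF r2 pf7029 h7029
  have h7031 := checkRangeG_sound parWF r2 pf7030 h7030
  have h7032 := checkRangeG_sound parWF r2 pf7031 h7031
  have h7033 := checkRangeG_sound parWF r2 pf7032 h7032
  have h7034 := checkRangeG_sound parWF r2 pf7033 h7033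
  have h7035 := checkRangeG_sound parWF r2 pf7034 h7034
  have h7036 := checkRangeG_sound parWF r2 pf7035 h7035
  have h7037 := checkRangeG_sound parWF r2 pf7036 h7036
  have h7038 := checkRangeG_sound parWF r2 pf7037 h7037
  have h7039 := checkRangeG_sound parWF r2 pf7038 h7038
  have h7040 := checkRangeG_sound parWF r2 pf7039 h7039
  have h7041 := checkRangeG_sound parWF r2 pf7040 h7040
  have h7042 := checkRangeG_sound parWF r2 pf7041 h7041
  have h7043 := checkRangeG_sound parWF r2 pf7042 h7042
  have h7044 := checkRangeG_sound parWF r2 pf7043 h7043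
  have h7045 := checkRangeG_sound parWF r2 pf7044 h7044
  have h7046 := checkRangeG_sound parWF r2 pf7045 h7045
  have h7047 := checkRangeG_sound parWF r2 pf7046 h7046
  have h7048 := checkRangeG_sound parWF r2 pf7047 h7047
  have h7049 := checkRangeG_sound parWF r2 pf7048 h7048
  have h7050 := checkRangeG_sound parWF r2 pf7049 h7049
  exact h7050

theorem c141 (h7050 : ∀ j, j < 20722 → GoodG.{u} par (db j)) : ∀ j, j < 20864 → GoodG.{u} par (db j) := by
  have h7051 := checkRangeG_sound parWF r2 pf7050 h7050
  have h7052 := checkRangeG_sound parWF r2 pf7051 h7051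
  have h7053 := checkRangeG_sound parWF r2 pf7052 h7052
  have h7054 := checkRangeG_sound parWF r2 pf7053 h7053
  have h7055 := checkRangeG_sound parWF r2 pf7054 h7054
  have h7056 := checkRangeG_sound parWF r2 pf7055 h7055
  have h7057 := checkRangeG_sound parWF r2 pf7056 h7056
  have h7058 := checkRangeG_sound parWF r2 pf7057 h7057
  have h7059 := checkRangeG_sound parWF r2 pf7058 h7058
  have h7060 := checkRangeG_sound parWF r2 pf7059 h7059
  have h7061 := checkRangeG_sound parWF r2 pf7060 h7060
  have h7062 := checkRangeG_sound parWF r2 pf7061 h7061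
  have h7063 := checkRangeG_sound parWF r2 pf7062 h7062
  have h7064 := checkRangeG_sound parWF r2 pf7063 h7063
  have h7065 := checkRangeG_sound parWF r2 pf7064 h7064
  have h7066 := checkRangeG_sound parWF r2 pf7065 h7065
  have h7067 := checkRangeG_sound parWF r2 pf7066 h7066
  have h7068 := checkRangeG_sound parWF r2 pf7067 h7067
  have h7069 := checkRangeG_sound parWF r2 pf7068 h7068
  have h7070 := checkRangeG_sound parWF r2 pf7069 h7069
  have h7071 := checkRangeG_sound parWF r2 pf7070 h7070
  have h7072 := checkRangeG_sound parWF r2 pf7071 h7071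
  have h7073 := checkRangeG_sound parWF r2 pf7072 h7072
  have h7074 := checkRangeG_sound parWF r2 pf7073 h7073
  have h7075 := checkRangeG_sound parWF r2 pf7074 h7074
  have h7076 := checkRangeG_sound parWF r2 pf7075 h7075
  have h7077 := checkRangeG_sound parWF r2 pf7076 h7076
  have h7078 := checkRangeG_sound parWF r2 pf7077 h7077
  have h7079 := checkRangeG_sound parWF r2 pf7078 h7078
  have h7080 := checkRangeG_sound parWF r2 pf7079 h7079
  have h7081 := checkRangeG_sound parWF r2 pf7080 h7080
  have h7082 := checkRangeG_sound parWF r2 pf7081 h7081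
  have h7083 := checkRangeG_sound parWF r2 pf7082 h7082
  have h7084 := checkRangeG_sound parWF r2 pf7083 h7083
  have h7085 := checkRangeG_sound parWF r2 pf7084 h7084
  have h7086 := checkRangeG_sound parWF r2 pf7085 h7085
  have h7087 := checkRangeG_sound parWF r2 pf7086 h7086
  have h7088 := checkRangeG_sound parWF r2 pf7087 h7087
  have h7089 := checkRangeG_sound parWF r2 pf7088 h7088
  have h7090 := checkRangeG_sound parWF r2 pf7089 h7089
  have h7091 := checkRangeG_sound parWF r2 pf7090 h7090
  have h7092 := checkRangeG_sound parWF r2 pf7091 h7091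
  have h7093 := checkRangeG_sound parWF r2 pf7092 h7092
  have h7094 := checkRangeG_sound parWF r2 pf7093 h7093
  have h7095 := checkRangeG_sound parWF r2 pf7094 h7094
  have h7096 := checkRangeG_sound parWF r2 pf7095 h7095
  have h7097 := checkRangeG_sound parWF r2 pf7096 h7096
  have h7098 := checkRangeG_sound parWF r2 pf7097 h7097
  have h7099 := checkRangeG_sound parWF r2 pf7098 h7098
  have h7100 := checkRangeG_sound parWF r2 pf7099 h7099
  exact h7100

theorem c142 (h7100 : ∀ j, j < 20864 → GoodG.{u} par (db j)) : ∀ j, j < 21003 → GoodG.{u} par (db j) := by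
  have h7101 := checkRangeG_sound parWF r2 pf7100 h7100
  have h7102 := checkRangeG_sound parWF r2 pf7101 h7101
  have h7103 := checkRangeG_sound parWF r2 pf7102 h7102
  have h7104 := checkRangeG_sound parWF r2 pf7103 h7103
  have h7105 := checkRangeG_sound parWF r2 pf7104 h7104
  have h7106 := checkRangeG_sound parWF r2 pf7105 h7105
  have h7107 := checkRangeG_sound parWF r2 pf7106 h7106
  have h7108 := checkRangeG_sound parWF r2 pf7107 h7107
  have h7109 := checkRangeG_sound parWF r2 pf7108 h7108
  have h7110 := checkRangeG_sound parWF r2 pf7109 h7109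
  have h7111 := checkRangeG_sound parWF r2 pf7110 h7110
  have h7112 := checkRangeG_sound parWF r2 pf7111 h7111
  have h7113 := checkRangeG_sound parWF r2 pf7112 h7112
  have h7114 := checkRangeG_sound parWF r2 pf7113 h7113
  have h7115 := checkRangeG_sound parWF r2 pf7114 h7114
  have h7116 := checkRangeG_sound parWF r2 pf7115 h7115
  have h7117 := checkRangeG_sound parWF r2 pf7116 h7116
  have h7118 := checkRangeG_sound parWF r2 pf7117 h7117
  have h7119 := checkRangeG_sound parWF r2 pf7118 h7118
  have h7120 := checkRangeG_sound parWF r2 pf7119 h7119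
  have h7121 := checkRangeG_sound parWF r2 pf7120 h7120
  have h7122 := checkRangeG_sound parWF r2 pf7121 h7121
  have h7123 := checkRangeG_sound parWF r2 pf7122 h7122
  have h7124 := checkRangeG_sound parWF r2 pf7123 h7123
  have h7125 := checkRangeG_sound parWF r2 pf7124 h7124
  have h7126 := checkRangeG_sound parWF r2 pf7125 h7125
  have h7127 := checkRangeG_sound parWF r2 pf7126 h7126
  have h7128 := checkRangeG_sound parWF r2 pf7127 h7127
  have h7129 := checkRangeG_sound parWF r2 pf7128 h7128
  have h7130 := checkRangeG_sound parWF r2 pf7129 h7129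
  have h7131 := checkRangeG_sound parWF r2 pf7130 h7130
  have h7132 := checkRangeG_sound parWF r2 pf7131 h7131
  have h7133 := checkRangeG_sound parWF r2 pf7132 h7132
  have h7134 := checkRangeG_sound parWF r2 pf7133 h7133
  have h7135 := checkRangeG_sound parWF r2 pf7134 h7134
  have h7136 := checkRangeG_sound parWF r2 pf7135 h7135
  have h7137 := checkRangeG_sound parWF r2 pf7136 h7136
  have h7138 := checkRangeG_sound parWF r2 pf7137 h7137
  have h7139 := checkRangeG_sound parWF r2 pf7138 h7138
  have h7140 := checkRangeG_sound parWF r2 pf7139 h7139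
  have h7141 := checkRangeG_sound parWF r2 pf7140 h7140
  have h7142 := checkRangeG_sound parWF r2 pf7141 h7141
  have h7143 := checkRangeG_sound parWF r2 pf7142 h7142
  have h7144 := checkRangeG_sound parWF r2 pf7143 h7143
  have h7145 := checkRangeG_sound parWF r2 pf7144 h7144
  have h7146 := checkRangeG_sound parWF r2 pf7145 h7145
  have h7147 := checkRangeG_sound parWF r2 pf7146 h7146
  have h7148 := checkRangeG_sound parWF r2 pf7147 h7147
  have h7149 := checkRangeG_sound parWF r2 pf7148 h7148
  have h7150 := checkRangeG_sound parWF r2 pf7149 h7149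
  exact h7150

theorem c143 (h7150 : ∀ j, j < 21003 → GoodG.{u} par (db j)) : ∀ j, j < 21151 → GoodG.{u} par (db j) := by
  have h7151 := checkRangeG_sound parWF r2 pf7150 h7150
  have h7152 := checkRangeG_sound parWF r2 pf7151 h7151
  have h7153 := checkRangeG_sound parWF r2 pf7152 h7152
  have h7154 := checkRangeG_sound parWF r2 pf7153 h7153
  have h7155 := checkRangeG_sound parWF r2 pf7154 h7154
  have h7156 := checkRangeG_sound parWF r2 pf7155 h7155
  have h7157 := checkRangeG_sound parWF r2 pf7156 h7156
  have h7158 := checkRangeG_sound parWF r2 pf7157 h7157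
  have h7159 := checkRangeG_sound parWF r2 pf7158 h7158
  have h7160 := checkRangeG_sound parWF r2 pf7159 h7159
  have h7161 := checkRangeG_sound parWF r2 pf7160 h7160
  have h7162 := checkRangeG_sound parWF r2 pf7161 h7161
  have h7163 := checkRangeG_sound parWF r2 pf7162 h7162
  have h7164 := checkRangeG_sound parWF r2 pf7163 h7163
  have h7165 := checkRangeG_sound parWF r2 pf7164 h7164
  have h7166 := checkRangeG_sound parWF r2 pf7165 h7165
  have h7167 := checkRangeG_sound parWF r2 pf7166 h7166
  have h7168 := checkRangeG_sound parWF r2 pf7167 h7167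
  have h7169 := checkRangeG_sound parWF r2 pf7168 h7168
  have h7170 := checkRangeG_sound parWF r2 pf7169 h7169
  have h7171 := checkRangeG_sound parWF r2 pf7170 h7170
  have h7172 := checkRangeG_sound parWF r2 pf7171 h7171
  have h7173 := checkRangeG_sound parWF r2 pf7172 h7172
  have h7174 := checkRangeG_sound parWF r2 pf7173 h7173
  have h7175 := checkRangeG_sound parWF r2 pf7174 h7174
  have h7176 := checkRangeG_sound parWF r2 pf7175 h7175
  have h7177 := checkRangeG_sound parWF r2 pf7176 h7176
  have h7178 := checkRangeG_sound parWF r2 pf7177 h7177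
  have h7179 := checkRangeG_sound parWF r2 pf7178 h7178
  have h7180 := checkRangeG_sound parWF r2 pf7179 h7179
  have h7181 := checkRangeG_sound parWF r2 pf7180 h7180
  have h7182 := checkRangeG_sound parWF r2 pf7181 h7181
  have h7183 := checkRangeG_sound parWF r2 pf7182 h7182
  have h7184 := checkRangeG_sound parWF r2 pf7183 h7183
  have h7185 := checkRangeG_sound parWF r2 pf7184 h7184
  have h7186 := checkRangeG_sound parWF r2 pf7185 h7185
  have h7187 := checkRangeG_sound parWF r2 pf7186 h7186
  have h7188 := checkRangeG_sound parWF r2 pf7187 h7187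
  have h7189 := checkRangeG_sound parWF r2 pf7188 h7188
  have h7190 := checkRangeG_sound parWF r2 pf7189 h7189
  have h7191 := checkRangeG_sound parWF r2 pf7190 h7190
  have h7192 := checkRangeG_sound parWF r2 pf7191 h7191
  have h7193 := checkRangeG_sound parWF r2 pf7192 h7192
  have h7194 := checkRangeG_sound parWF r2 pf7193 h7193
  have h7195 := checkRangeG_sound parWF r2 pf7194 h7194
  have h7196 := checkRangeG_sound parWF r2 pf7195 h7195
  have h7197 := checkRangeG_sound parWF r2 pf7196 h7196
  have h7198 := checkRangeG_sound parWF r2 pf7197 h7197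
  have h7199 := checkRangeG_sound parWF r2 pf7198 h7198
  have h7200 := checkRangeG_sound parWF r2 pf7199 h7199
  exact h7200


end Vale.Agent.P045g.C61
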