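import Vale.Agent.P045g.C61.WF
import Vale.Agent.P045g.C61.Pf120
import Vale.Agent.P045g.C61.Pf121
import Vale.Agent.P045g.C61.Pf122
import Vale.Agent.P045g.C61.Pf123
import Vale.Agent.P045g.C61.Pf124
import Vale.Agent.P045g.C61.Pf125
import Vale.Agent.P045g.C61.Pf126
import Vale.Agent.P045g.C61.Pf127
import Vale.Agent.P045g.C61.Pf128
import Vale.Agent.P045g.C61.Pf129

namespace Vale.Agent.P045g.C61

open Vale.Agent.P045b Vale.Agent.P045g

universe u

theorem c144 (h7200 : ∀ j, j < 21151 → GoodG.{u} par (db j)) : ∀ j, j < 21300 → GoodG.{u} par (db j) := by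
  have h7201 := checkRangeG_sound parWF r2 pf7200 h7200
  have h7202 := checkRangeG_sound parWF r2 pf7201 h7201
  have h7203 := checkRangeG_sound parWF r2 pf7202 h7202
  have h7204 := checkRangeG_sound parWF r2 pf7203 h7203
  have h7205 := checkRangeG_sound parWF r2 pf7204 h7204
  have h7206 := checkRangeG_sound parWF r2 pf7205 h7205
  have h7207 := checkRangeG_sound parWF r2 pf7206 h7206
  have h7208 := checkRangeG_sound parWF r2 pf7207 h7207
  have h7209 := checkRangeG_sound parWF r2 pf7208 h7208
  have h7210 := checkRangeG_sound parWF r2 pf7209 h7209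
  have h7211 := checkRangeG_sound parWF r2 pf7210 h7210
  have h7212 := checkRangeG_sound parWF r2 pf7211 h7211
  have h7213 := checkRangeG_sound parWF r2 pf7212 h7212
  have h7214 := checkRangeG_sound parWF r2 pf7213 h7213
  have h7215 := checkRangeG_sound parWF r2 pf7214 h7214
  have h7216 := checkRangeG_sound parWF r2 pf7215 h7215
  have h7217 := checkRangeG_sound parWF r2 pf7216 h7216
  have h7218 := checkRangeG_sound parWF r2 pf7217 h7217
  have h7219 := checkRangeG_sound parWF r2 pf7218 h7218
  have h7220 := checkRangeG_sound parWF r2 pf7219 h7219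
  have h7221 := checkRangeG_sound parWF r2 pf7220 h7220
  have h7222 := checkRangeG_sound parWF r2 pf7221 h7221
  have h7223 := checkRangeG_sound parWF r2 pf7222 h7222
  have h7224 := checkRangeG_sound parWF r2 pf7223 h7223
  have h7225 := checkRangeG_sound parWF r2 pf7224 h7224
  have h7226 := checkRangeG_sound parWF r2 pf7225 h7225
  have h7227 := checkRangeG_sound parWF r2 pf7226 h7226
  have h7228 := checkRangeG_sound parWF r2 pf7227 h7227
  have h7229 := checkRangeG_sound parWF r2 pf7228 h7228
  have h7230 := checkRangeG_sound parWF r2 pf7229 h7229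
  have h7231 := checkRangeG_sound parWF r2 pf7230 h7230
  have h7232 := checkRangeG_sound parWF r2 pf7231 h7231
  have h7233 := checkRangeG_sound parWF r2 pf7232 h7232
  have h7234 := checkRangeG_sound parWF r2 pf7233 h7233
  have h7235 := checkRangeG_sound parWF r2 pf7234 h7234
  have h7236 := checkRangeG_sound parWF r2 pf7235 h7235
  have h7237 := checkRangeG_sound parWF r2 pf7236 h7236
  have h7238 := checkRangeG_sound parWF r2 pf7237 h7237
  have h7239 := checkRangeG_sound parWF r2 pf7238 h7238
  have h7240 := checkRangeG_sound parWF r2 pf7239 h7239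
  have h7241 := checkRangeG_sound parWF r2 pf7240 h7240
  have h7242 := checkRangeG_sound parWF r2 pf7241 h7241
  have h7243 := checkRangeG_sound parWF r2 pf7242 h7242
  have h7244 := checkRangeG_sound parWF r2 pf7243 h7243
  have h7245 := checkRangeG_sound parWF r2 pf7244 h7244
  have h7246 := checkRangeG_sound parWF r2 pf7245 h7245
  have h7247 := checkRangeG_sound parWF r2 pf7246 h7246
  have h7248 := checkRangeG_sound parWF r2 pf7247 h7247
  have h7249 := checkRangeG_sound parWF r2 pf7248 h7248
  have h7250 := checkRangeG_sound parWF r2 pf7249 h7249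
  exact h7250

theorem c145 (h7250 : ∀ j, j < 21300 → GoodG.{u} par (db j)) : ∀ j, j < 21451 → GoodG.{u} par (db j) := by
  have h7251 := checkRangeG_sound parWF r2 pf7250 h7250
  have h7252 := checkRangeG_sound parWF r2 pf7251 h7251
  have h7253 := checkRangeG_sound parWF r2 pf7252 h7252
  have h7254 := checkRangeG_sound parWF r2 pf7253 h7253
  have h7255 := checkRangeG_sound parWF r2 pf7254 h7254
  have h7256 := checkRangeG_sound parWF r2 pf7255 h7255
  have h7257 := checkRangeG_sound parWF r2 pf7256 h7256
  have h7258 := checkRangeG_sound parWF r2 pf7257 h7257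
  have h7259 := checkRangeG_sound parWF r2 pf7258 h7258
  have h7260 := checkRangeG_sound parWF r2 pf7259 h7259
  have h7261 := checkRangeG_sound parWF r2 pf7260 h7260
  have h7262 := checkRangeG_sound parWF r2 pf7261 h7261
  have h7263 := checkRangeG_sound parWF r2 pf7262 h7262
  have h7264 := checkRangeG_sound parWF r2 pf7263 h7263
  have h7265 := checkRangeG_sound parWF r2 pf7264 h7264
  have h7266 := checkRangeG_sound parWF r2 pf7265 h7265
  have h7267 := checkRangeG_sound parWF r2 pf7266 h7266
  have h7268 := checkRangeG_sound parWF r2 pf7267 h7267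
  have h7269 := checkRangeG_sound parWF r2 pf7268 h7268
  have h7270 := checkRangeG_sound parWF r2 pf7269 h7269
  have h7271 := checkRangeG_sound parWF r2 pf7270 h7270
  have h7272 := checkRangeG_sound parWF r2 pf7271 h7271
  have h7273 := checkRangeG_sound parWF r2 pf7272 h7272
  have h7274 := checkRangeG_sound parWF r2 pf7273 h7273
  have h7275 := checkRangeG_sound parWF r2 pf7274 h7274
  have h7276 := checkRangeG_sound parWF r2 pf7275 h7275
  have h7277 := checkRangeG_sound parWF r2 pf7276 h7276
  have h7278 := checkRangeG_sound parWF r2 pf7277 h7277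
  have h7279 := checkRangeG_sound parWF r2 pf7278 h7278
  have h7280 := checkRangeG_sound parWF r2 pf7279 h7279
  have h7281 := checkRangeG_sound parWF r2 pf7280 h7280
  have h7282 := checkRangeG_sound parWF r2 pf7281 h7281
  have h7283 := checkRangeG_sound parWF r2 pf7282 h7282
  have h7284 := checkRangeG_sound parWF r2 pf7283 h7283
  have h7285 := checkRangeG_sound parWF r2 pf7284 h7284
  have h7286 := checkRangeG_sound parWF r2 pf7285 h7285
  have h7287 := checkRangeG_sound parWF r2 pf7286 h7286
  have h7288 := checkRangeG_sound parWF r2 pf7287 h7287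
  have h7289 := checkRangeG_sound parWF r2 pf7288 h7288
  have h7290 := checkRangeG_sound parWF r2 pf7289 h7289
  have h7291 := checkRangeG_sound parWF r2 pf7290 h7290
  have h7292 := checkRangeG_sound parWF r2 pf7291 h7291
  have h7293 := checkRangeG_sound parWF r2 pf7292 h7292
  have h7294 := checkRangeG_sound parWF r2 pf7293 h7293
  have h7295 := checkRangeG_sound parWF r2 pf7294 h7294
  have h7296 := checkRangeG_sound parWF r2 pf7295 h7295
  have h7297 := checkRangeG_sound parWF r2 pf7296 h7296
  have h7298 := checkRangeG_sound parWF r2 pf7297 h7297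
  have h7299 := checkRangeG_sound parWF r2 pf7298 h7298
  have h7300 := checkRangeG_sound parWF r2 pf7299 h7299
  exact h7300

theorem c146 (h7300 : ∀ j, j < 21451 → GoodG.{u} par (db j)) : ∀ j, j < 21590 → GoodG.{u} par (db j) := by
  have h7301 := checkRangeG_sound parWF r2 pf7300 h7300
  have h7302 := checkRangeG_sound parWF r2 pf7301 h7301
  have h7303 := checkRangeG_sound parWF r2 pf7302 h7302
  have h7304 := checkRangeG_sound parWF r2 pf7303 h7303
  have h7305 := checkRangeG_sound parWF r2 pf7304 h7304
  have h7306 := checkRangeG_sound parWF r2 pf7305 h7305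
  have h7307 := checkRangeG_sound parWF r2 pf7306 h7306
  have h7308 := checkRangeG_sound parWF r2 pf7307 h7307
  have h7309 := checkRangeG_sound parWF r2 pf7308 h7308
  have h7310 := checkRangeG_sound parWF r2 pf7309 h7309
  have h7311 := checkRangeG_sound parWF r2 pf7310 h7310
  have h7312 := checkRangeG_sound parWF r2 pf7311 h7311
  have h7313 := checkRangeG_sound parWF r2 pf7312 h7312
  have h7314 := checkRangeG_sound parWF r2 pf7313 h7313
  have h7315 := checkRangeG_sound parWF r2 pf7314 h7314
  have h7316 := checkRangeG_sound parWF r2 pf7315 h7315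
  have h7317 := checkRangeG_sound parWF r2 pf7316 h7316
  have h7318 := checkRangeG_sound parWF r2 pf7317 h7317
  have h7319 := checkRangeG_sound parWF r2 pf7318 h7318
  have h7320 := checkRangeG_sound parWF r2 pf7319 h7319
  have h7321 := checkRangeG_sound parWF r2 pf7320 h7320
  have h7322 := checkRangeG_sound parWF r2 pf7321 h7321
  have h7323 := checkRangeG_sound parWF r2 pf7322 h7322
  have h7324 := checkRangeG_sound parWF r2 pf7323 h7323
  have h7325 := checkRangeG_sound parWF r2 pf7324 h7324
  have h7326 := checkRangeG_sound parWF r2 pf7325 h7325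
  have h7327 := checkRangeG_sound parWF r2 pf7326 h7326
  have h7328 := checkRangeG_sound parWF r2 pf7327 h7327
  have h7329 := checkRangeG_sound parWF r2 pf7328 h7328
  have h7330 := checkRangeG_sound parWF r2 pf7329 h7329
  have h7331 := checkRangeG_sound parWF r2 pf7330 h7330
  have h7332 := checkRangeG_sound parWF r2 pf7331 h7331
  have h7333 := checkRangeG_sound parWF r2 pf7332 h7332
  have h7334 := checkRangeG_sound parWF r2 pf7333 h7333
  have h7335 := checkRangeG_sound parWF r2 pf7334 h7334
  have h7336 := checkRangeG_sound parWF r2 pf7335 h7335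
  have h7337 := checkRangeG_sound parWF r2 pf7336 h7336
  have h7338 := checkRangeG_sound parWF r2 pf7337 h7337
  have h7339 := checkRangeG_sound parWF r2 pf7338 h7338
  have h7340 := checkRangeG_sound parWF r2 pf7339 h7339
  have h7341 := checkRangeG_sound parWF r2 pf7340 h7340
  have h7342 := checkRangeG_sound parWF r2 pf7341 h7341
  have h7343 := checkRangeG_sound parWF r2 pf7342 h7342
  have h7344 := checkRangeG_sound parWF r2 pf7343 h7343
  have h7345 := checkRangeG_sound parWF r2 pf7344 h7344
  have h7346 := checkRangeG_sound parWF r2 pf7345 h7345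
  have h7347 := checkRangeG_sound parWF r2 pf7346 h7346
  have h7348 := checkRangeG_sound parWF r2 pf7347 h7347
  have h7349 := checkRangeG_sound parWF r2 pf7348 h7348
  have h7350 := checkRangeG_sound parWF r2 pf7349 h7349
  exact h7350

theorem c147 (h7350 : ∀ j, j < 21590 → GoodG.{u} par (db j)) : ∀ j, j < 21761 → GoodG.{u} par (db j) := by
  have h7351 := checkRangeG_sound parWF r2 pf7350 h7350
  have h7352 := checkRangeG_sound parWF r2 pf7351 h7351
  have h7353 := checkRangeG_sound parWF r2 pf7352 h7352
  have h7354 := checkRangeG_sound parWF r2 pf7353 h7353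
  have h7355 := checkRangeG_sound parWF r2 pf7354 h7354
  have h7356 := checkRangeG_sound parWF r2 pf7355 h7355
  have h7357 := checkRangeG_sound parWF r2 pf7356 h7356
  have h7358 := checkRangeG_sound parWF r2 pf7357 h7357
  have h7359 := checkRangeG_sound parWF r2 pf7358 h7358
  have h7360 := checkRangeG_sound parWF r2 pf7359 h7359
  have h7361 := checkRangeG_sound parWF r2 pf7360 h7360
  have h7362 := checkRangeG_sound parWF r2 pf7361 h7361
  have h7363 := checkRangeG_sound parWF r2 pf7362 h7362
  have h7364 := checkRangeG_sound parWF r2 pf7363 h7363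
  have h7365 := checkRangeG_sound parWF r2 pf7364 h7364
  have h7366 := checkRangeG_sound parWF r2 pf7365 h7365
  have h7367 := checkRangeG_sound parWF r2 pf7366 h7366
  have h7368 := checkRangeG_sound parWF r2 pf7367 h7367
  have h7369 := checkRangeG_sound parWF r2 pf7368 h7368
  have h7370 := checkRangeG_sound parWF r2 pf7369 h7369
  have h7371 := checkRangeG_sound parWF r2 pf7370 h7370
  have h7372 := checkRangeG_sound parWF r2 pf7371 h7371
  have h7373 := checkRangeG_sound parWF r2 pf7372 h7372
  have h7374 := checkRangeG_sound parWF r2 pf7373 h7373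
  have h7375 := checkRangeG_sound parWF r2 pf7374 h7374
  have h7376 := checkRangeG_sound parWF r2 pf7375 h7375
  have h7377 := checkRangeG_sound parWF r2 pf7376 h7376
  have h7378 := checkRangeG_sound parWF r2 pf7377 h7377
  have h7379 := checkRangeG_sound parWF r2 pf7378 h7378
  have h7380 := checkRangeG_sound parWF r2 pf7379 h7379
  have h7381 := checkRangeG_sound parWF r2 pf7380 h7380
  have h7382 := checkRangeG_sound parWF r2 pf7381 h7381
  have h7383 := checkRangeG_sound parWF r2 pf7382 h7382
  have h7384 := checkRangeG_sound parWF r2 pf7383 h7383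
  have h7385 := checkRangeG_sound parWF r2 pf7384 h7384
  have h7386 := checkRangeG_sound parWF r2 pf7385 h7385
  have h7387 := checkRangeG_sound parWF r2 pf7386 h7386
  have h7388 := checkRangeG_sound parWF r2 pf7387 h7387
  have h7389 := checkRangeG_sound parWF r2 pf7388 h7388
  have h7390 := checkRangeG_sound parWF r2 pf7389 h7389
  have h7391 := checkRangeG_sound parWF r2 pf7390 h7390
  have h7392 := checkRangeG_sound parWF r2 pf7391 h7391
  have h7393 := checkRangeG_sound parWF r2 pf7392 h7392
  have h7394 := checkRangeG_sound parWF r2 pf7393 h7393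
  have h7395 := checkRangeG_sound parWF r2 pf7394 h7394
  have h7396 := checkRangeG_sound parWF r2 pf7395 h7395
  have h7397 := checkRangeG_sound parWF r2 pf7396 h7396
  have h7398 := checkRangeG_sound parWF r2 pf7397 h7397
  have h7399 := checkRangeG_sound parWF r2 pf7398 h7398
  have h7400 := checkRangeG_sound parWF r2 pf7399 h7399
  exact h7400

theorem c148 (h7400 : ∀ j, j < 21761 → GoodG.{u} par (db j)) : ∀ j, j < 21911 → GoodG.{u} par (db j) := by
  have h7401 := checkRangeG_sound parWF r2 pf7400 h7400
  have h7402 := checkRangeG_sound parWF r2 pf7401 h7401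
  have h7403 := checkRangeG_sound parWF r2 pf7402 h7402
  have h7404 := checkRangeG_sound parWF r2 pf7403 h7403
  have h7405 := checkRangeG_sound parWF r2 pf7404 h7404
  have h7406 := checkRangeG_sound parWF r2 pf7405 h7405
  have h7407 := checkRangeG_sound parWF r2 pf7406 h7406
  have h7408 := checkRangeG_sound parWF r2 pf7407 h7407
  have h7409 := checkRangeG_sound parWF r2 pf7408 h7408
  have h7410 := checkRangeG_sound parWF r2 pf7409 h7409
  have h7411 := checkRangeG_sound parWF r2 pf7410 h7410
  have h7412 := checkRangeG_sound parWF r2 pf7411 h7411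
  have h7413 := checkRangeG_sound parWF r2 pf7412 h7412
  have h7414 := checkRangeG_sound parWF r2 pf7413 h7413
  have h7415 := checkRangeG_sound parWF r2 pf7414 h7414
  have h7416 := checkRangeG_sound parWF r2 pf7415 h7415
  have h7417 := checkRangeG_sound parWF r2 pf7416 h7416
  have h7418 := checkRangeG_sound parWF r2 pf7417 h7417
  have h7419 := checkRangeG_sound parWF r2 pf7418 h7418
  have h7420 := checkRangeG_sound parWF r2 pf7419 h7419
  have h7421 := checkRangeG_sound parWF r2 pf7420 h7420
  have h7422 := checkRangeG_sound parWF r2 pf7421 h7421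
  have h7423 := checkRangeG_sound parWF r2 pf7422 h7422
  have h7424 := checkRangeG_sound parWF r2 pf7423 h7423
  have h7425 := checkRangeG_sound parWF r2 pf7424 h7424
  have h7426 := checkRangeG_sound parWF r2 pf7425 h7425
  have h7427 := checkRangeG_sound parWF r2 pf7426 h7426
  have h7428 := checkRangeG_sound parWF r2 pf7427 h7427
  have h7429 := checkRangeG_sound parWF r2 pf7428 h7428
  have h7430 := checkRangeG_sound parWF r2 pf7429 h7429
  have h7431 := checkRangeG_sound parWF r2 pf7430 h7430
  have h7432 := checkRangeG_sound parWF r2 pf7431 h7431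
  have h7433 := checkRangeG_sound parWF r2 pf7432 h7432
  have h7434 := checkRangeG_sound parWF r2 pf7433 h7433
  have h7435 := checkRangeG_sound parWF r2 pf7434 h7434
  have h7436 := checkRangeG_sound parWF r2 pf7435 h7435
  have h7437 := checkRangeG_sound parWF r2 pf7436 h7436
  have h7438 := checkRangeG_sound parWF r2 pf7437 h7437
  have h7439 := checkRangeG_sound parWF r2 pf7438 h7438
  have h7440 := checkRangeG_sound parWF r2 pf7439 h7439
  have h7441 := checkRangeG_sound parWF r2 pf7440 h7440
  have h7442 := checkRangeG_sound parWF r2 pf7441 h7441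
  have h7443 := checkRangeG_sound parWF r2 pf7442 h7442
  have h7444 := checkRangeG_sound parWF r2 pf7443 h7443
  have h7445 := checkRangeG_sound parWF r2 pf7444 h7444
  have h7446 := checkRangeG_sound parWF r2 pf7445 h7445
  have h7447 := checkRangeG_sound parWF r2 pf7446 h7446
  have h7448 := checkRangeG_sound parWF r2 pf7447 h7447
  have h7449 := checkRangeG_sound parWF r2 pf7448 h7448
  have h7450 := checkRangeG_sound parWF r2 pf7449 h7449
  exact h7450

theorem c149 (h7450 : ∀ j, j < 21911 → GoodG.{u} par (db j)) : ∀ j, j < 22056 → GoodG.{u} par (db j) := by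
  have h7451 := checkRangeG_sound parWF r2 pf7450 h7450
  have h7452 := checkRangeG_sound parWF r2 pf7451 h7451
  have h7453 := checkRangeG_sound parWF r2 pf7452 h7452
  have h7454 := checkRangeG_sound parWF r2 pf7453 h7453
  have h7455 := checkRangeG_sound parWF r2 pf7454 h7454
  have h7456 := checkRangeG_sound parWF r2 pf7455 h7455
  have h7457 := checkRangeG_sound parWF r2 pf7456 h7456
  have h7458 := checkRangeG_sound parWF r2 pf7457 h7457
  have h7459 := checkRangeG_sound parWF r2 pf7458 h7458
  have h7460 := checkRangeG_sound parWF r2 pf7459 h7459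
  have h7461 := checkRangeG_sound parWF r2 pf7460 h7460
  have h7462 := checkRangeG_sound parWF r2 pf7461 h7461
  have h7463 := checkRangeG_sound parWF r2 pf7462 h7462
  have h7464 := checkRangeG_sound parWF r2 pf7463 h7463
  have h7465 := checkRangeG_sound parWF r2 pf7464 h7464
  have h7466 := checkRangeG_sound parWF r2 pf7465 h7465
  have h7467 := checkRangeG_sound parWF r2 pf7466 h7466
  have h7468 := checkRangeG_sound parWF r2 pf7467 h7467
  have h7469 := checkRangeG_sound parWF r2 pf7468 h7468
  have h7470 := checkRangeG_sound parWF r2 pf7469 h7469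
  have h7471 := checkRangeG_sound parWF r2 pf7470 h7470
  have h7472 := checkRangeG_sound parWF r2 pf7471 h7471
  have h7473 := checkRangeG_sound parWF r2 pf7472 h7472
  have h7474 := checkRangeG_sound parWF r2 pf7473 h7473
  have h7475 := checkRangeG_sound parWF r2 pf7474 h7474
  have h7476 := checkRangeG_sound parWF r2 pf7475 h7475
  have h7477 := checkRangeG_sound parWF r2 pf7476 h7476
  have h7478 := checkRangeG_sound parWF r2 pf7477 h7477
  have h7479 := checkRangeG_sound parWF r2 pf7478 h7478
  have h7480 := checkRangeG_sound parWF r2 pf7479 h7479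
  have h7481 := checkRangeG_sound parWF r2 pf7480 h7480
  have h7482 := checkRangeG_sound parWF r2 pf7481 h7481
  have h7483 := checkRangeG_sound parWF r2 pf7482 h7482
  have h7484 := checkRangeG_sound parWF r2 pf7483 h7483
  have h7485 := checkRangeG_sound parWF r2 pf7484 h7484
  have h7486 := checkRangeG_sound parWF r2 pf7485 h7485
  have h7487 := checkRangeG_sound parWF r2 pf7486 h7486
  have h7488 := checkRangeG_sound parWF r2 pf7487 h7487
  have h7489 := checkRangeG_sound parWF r2 pf7488 h7488
  have h7490 := checkRangeG_sound parWF r2 pf7489 h7489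
  have h7491 := checkRangeG_sound parWF r2 pf7490 h7490
  have h7492 := checkRangeG_sound parWF r2 pf7491 h7491
  have h7493 := checkRangeG_sound parWF r2 pf7492 h7492
  have h7494 := checkRangeG_sound parWF r2 pf7493 h7493
  have h7495 := checkRangeG_sound parWF r2 pf7494 h7494
  have h7496 := checkRangeG_sound parWF r2 pf7495 h7495
  have h7497 := checkRangeG_sound parWF r2 pf7496 h7496
  have h7498 := checkRangeG_sound parWF r2 pf7497 h7497
  have h7499 := checkRangeG_sound parWF r2 pf7498 h7498
  have h7500 := checkRangeG_sound parWF r2 pf7499 h7499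
  exact h7500

theorem c150 (h7500 : ∀ j, j < 22056 → GoodG.{u} par (db j)) : ∀ j, j < 22225 → GoodG.{u} par (db j) := by
  have h7501 := checkRangeG_sound parWF r2 pf7500 h7500
  have h7502 := checkRangeG_sound parWF r2 pf7501 h7501
  have h7503 := checkRangeG_sound parWF r2 pf7502 h7502
  have h7504 := checkRangeG_sound parWF r2 pf7503 h7503
  have h7505 := checkRangeG_sound parWF r2 pf7504 h7504
  have h7506 := checkRangeG_sound parWF r2 pf7505 h7505
  have h7507 := checkRangeG_sound parWF r2 pf7506 h7506
  have h7508 := checkRangeG_sound parWF r2 pf7507 h7507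
  have h7509 := checkRangeG_sound parWF r2 pf7508 h7508
  have h7510 := checkRangeG_sound parWF r2 pf7509 h7509
  have h7511 := checkRangeG_sound parWF r2 pf7510 h7510
  have h7512 := checkRangeG_sound parWF r2 pf7511 h7511
  have h7513 := checkRangeG_sound parWF r2 pf7512 h7512
  have h7514 := checkRangeG_sound parWF r2 pf7513 h7513
  have h7515 := checkRangeG_sound parWF r2 pf7514 h7514
  have h7516 := checkRangeG_sound parWF r2 pf7515 h7515
  have h7517 := checkRangeG_sound parWF r2 pf7516 h7516
  have h7518 := checkRangeG_sound parWF r2 pf7517 h7517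
  have h7519 := checkRangeG_sound parWF r2 pf7518 h7518
  have h7520 := checkRangeG_sound parWF r2 pf7519 h7519
  have h7521 := checkRangeG_sound parWF r2 pf7520 h7520
  have h7522 := checkRangeG_sound parWF r2 pf7521 h7521
  have h7523 := checkRangeG_sound parWF r2 pf7522 h7522
  have h7524 := checkRangeG_sound parWF r2 pf7523 h7523
  have h7525 := checkRangeG_sound parWF r2 pf7524 h7524
  have h7526 := checkRangeG_sound parWF r2 pf7525 h7525
  have h7527 := checkRangeG_sound parWF r2 pf7526 h7526
  have h7528 := checkRangeG_sound parWF r2 pf7527 h7527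
  have h7529 := checkRangeG_sound parWF r2 pf7528 h7528
  have h7530 := checkRangeG_sound parWF r2 pf7529 h7529
  have h7531 := checkRangeG_sound parWF r2 pf7530 h7530
  have h7532 := checkRangeG_sound parWF r2 pf7531 h7531
  have h7533 := checkRangeG_sound parWF r2 pf7532 h7532
  have h7534 := checkRangeG_sound parWF r2 pf7533 h7533
  have h7535 := checkRangeG_sound parWF r2 pf7534 h7534
  have h7536 := checkRangeG_sound parWF r2 pf7535 h7535
  have h7537 := checkRangeG_sound parWF r2 pf7536 h7536
  have h7538 := checkRangeG_sound parWF r2 pf7537 h7537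
  have h7539 := checkRangeG_sound parWF r2 pf7538 h7538
  have h7540 := checkRangeG_sound parWF r2 pf7539 h7539
  have h7541 := checkRangeG_sound parWF r2 pf7540 h7540
  have h7542 := checkRangeG_sound parWF r2 pf7541 h7541
  have h7543 := checkRangeG_sound parWF r2 pf7542 h7542
  have h7544 := checkRangeG_sound parWF r2 pf7543 h7543
  have h7545 := checkRangeG_sound parWF r2 pf7544 h7544
  have h7546 := checkRangeG_sound parWF r2 pf7545 h7545
  have h7547 := checkRangeG_sound parWF r2 pf7546 h7546
  have h7548 := checkRangeG_sound parWF r2 pf7547 h7547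
  have h7549 := checkRangeG_sound parWF r2 pf7548 h7548
  have h7550 := checkRangeG_sound parWF r2 pf7549 h7549
  exact h7550

theorem c151 (h7550 : ∀ j, j < 22225 → GoodG.{u} par (db j)) : ∀ j, j < 22375 → GoodG.{u} par (db j) := by
  have h7551 := checkRangeG_sound parWF r2 pf7550 h7550
  have h7552 := checkRangeG_sound parWF r2 pf7551 h7551
  have h7553 := checkRangeG_sound parWF r2 pf7552 h7552
  have h7554 := checkRangeG_sound parWF r2 pf7553 h7553
  have h7555 := checkRangeG_sound parWF r2 pf7554 h7554
  have h7556 := checkRangeG_sound parWF r2 pf7555 h7555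
  have h7557 := checkRangeG_sound parWF r2 pf7556 h7556
  have h7558 := checkRangeG_sound parWF r2 pf7557 h7557
  have h7559 := checkRangeG_sound parWF r2 pf7558 h7558
  have h7560 := checkRangeG_sound parWF r2 pf7559 h7559
  have h7561 := checkRangeG_sound parWF r2 pf7560 h7560
  have h7562 := checkRangeG_sound parWF r2 pf7561 h7561
  have h7563 := checkRangeG_sound parWF r2 pf7562 h7562
  have h7564 := checkRangeG_sound parWF r2 pf7563 h7563
  have h7565 := checkRangeG_sound parWF r2 pf7564 h7564
  have h7566 := checkRangeG_sound parWF r2 pf7565 h7565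
  have h7567 := checkRangeG_sound parWF r2 pf7566 h7566
  have h7568 := checkRangeG_sound parWF r2 pf7567 h7567
  have h7569 := checkRangeG_sound parWF r2 pf7568 h7568
  have h7570 := checkRangeG_sound parWF r2 pf7569 h7569
  have h7571 := checkRangeG_sound parWF r2 pf7570 h7570
  have h7572 := checkRangeG_sound parWF r2 pf7571 h7571
  have h7573 := checkRangeG_sound parWF r2 pf7572 h7572
  have h7574 := checkRangeG_sound parWF r2 pf7573 h7573
  have h7575 := checkRangeG_sound parWF r2 pf7574 h7574
  have h7576 := checkRangeG_sound parWF r2 pf7575 h7575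
  have h7577 := checkRangeG_sound parWF r2 pf7576 h7576
  have h7578 := checkRangeG_sound parWF r2 pf7577 h7577
  have h7579 := checkRangeG_sound parWF r2 pf7578 h7578
  have h7580 := checkRangeG_sound parWF r2 pf7579 h7579
  have h7581 := checkRangeG_sound parWF r2 pf7580 h7580
  have h7582 := checkRangeG_sound parWF r2 pf7581 h7581
  have h7583 := checkRangeG_sound parWF r2 pf7582 h7582
  have h7584 := checkRangeG_sound parWF r2 pf7583 h7583
  have h7585 := checkRangeG_sound parWF r2 pf7584 h7584
  have h7586 := checkRangeG_sound parWF r2 pf7585 h7585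
  have h7587 := checkRangeG_sound parWF r2 pf7586 h7586
  have h7588 := checkRangeG_sound parWF r2 pf7587 h7587
  have h7589 := checkRangeG_sound parWF r2 pf7588 h7588
  have h7590 := checkRangeG_sound parWF r2 pf7589 h7589
  have h7591 := checkRangeG_sound parWF r2 pf7590 h7590
  have h7592 := checkRangeG_sound parWF r2 pf7591 h7591
  have h7593 := checkRangeG_sound parWF r2 pf7592 h7592
  have h7594 := checkRangeG_sound parWF r2 pf7593 h7593
  have h7595 := checkRangeG_sound parWF r2 pf7594 h7594
  have h7596 := checkRangeG_sound parWF r2 pf7595 h7595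
  have h7597 := checkRangeG_sound parWF r2 pf7596 h7596
  have h7598 := checkRangeG_sound parWF r2 pf7597 h7597
  have h7599 := checkRangeG_sound parWF r2 pf7598 h7598
  have h7600 := checkRangeG_sound parWF r2 pf7599 h7599
  exact h7600

theorem c152 (h7600 : ∀ j, j < 22375 → GoodG.{u} par (db j)) : ∀ j, j < 22530 → GoodG.{u} par (db j) := by
  have h7601 := checkRangeG_sound parWF r2 pf7600 h7600
  have h7602 := checkRangeG_sound parWF r2 pf7601 h7601
  have h7603 := checkRangeG_sound parWF r2 pf7602 h7602
  have h7604 := checkRangeG_sound parWF r2 pf7603 h7603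
  have h7605 := checkRangeG_sound parWF r2 pf7604 h7604
  have h7606 := checkRangeG_sound parWF r2 pf7605 h7605
  have h7607 := checkRangeG_sound parWF r2 pf7606 h7606
  have h7608 := checkRangeG_sound parWF r2 pf7607 h7607
  have h7609 := checkRangeG_sound parWF r2 pf7608 h7608
  have h7610 := checkRangeG_sound parWF r2 pf7609 h7609
  have h7611 := checkRangeG_sound parWF r2 pf7610 h7610
  have h7612 := checkRangeG_sound parWF r2 pf7611 h7611
  have h7613 := checkRangeG_sound parWF r2 pf7612 h7612
  have h7614 := checkRangeG_sound parWF r2 pf7613 h7613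
  have h7615 := checkRangeG_sound parWF r2 pf7614 h7614
  have h7616 := checkRangeG_sound parWF r2 pf7615 h7615
  have h7617 := checkRangeG_sound parWF r2 pf7616 h7616
  have h7618 := checkRangeG_sound parWF r2 pf7617 h7617
  have h7619 := checkRangeG_sound parWF r2 pf7618 h7618
  have h7620 := checkRangeG_sound parWF r2 pf7619 h7619
  have h7621 := checkRangeG_sound parWF r2 pf7620 h7620
  have h7622 := checkRangeG_sound parWF r2 pf7621 h7621
  have h7623 := checkRangeG_sound parWF r2 pf7622 h7622
  have h7624 := checkRangeG_sound parWF r2 pf7623 h7623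
  have h7625 := checkRangeG_sound parWF r2 pf7624 h7624
  have h7626 := checkRangeG_sound parWF r2 pf7625 h7625
  have h7627 := checkRangeG_sound parWF r2 pf7626 h7626
  have h7628 := checkRangeG_sound parWF r2 pf7627 h7627
  have h7629 := checkRangeG_sound parWF r2 pf7628 h7628
  have h7630 := checkRangeG_sound parWF r2 pf7629 h7629
  have h7631 := checkRangeG_sound parWF r2 pf7630 h7630
  have h7632 := checkRangeG_sound parWF r2 pf7631 h7631
  have h7633 := checkRangeG_sound parWF r2 pf7632 h7632
  have h7634 := checkRangeG_sound parWF r2 pf7633 h7633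
  have h7635 := checkRangeG_sound parWF r2 pf7634 h7634
  have h7636 := checkRangeG_sound parWF r2 pf7635 h7635
  have h7637 := checkRangeG_sound parWF r2 pf7636 h7636
  have h7638 := checkRangeG_sound parWF r2 pf7637 h7637
  have h7639 := checkRangeG_sound parWF r2 pf7638 h7638
  have h7640 := checkRangeG_sound parWF r2 pf7639 h7639
  have h7641 := checkRangeG_sound parWF r2 pf7640 h7640
  have h7642 := checkRangeG_sound parWF r2 pf7641 h7641
  have h7643 := checkRangeG_sound parWF r2 pf7642 h7642
  have h7644 := checkRangeG_sound parWF r2 pf7643 h7643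
  have h7645 := checkRangeG_sound parWF r2 pf7644 h7644
  have h7646 := checkRangeG_sound parWF r2 pf7645 h7645
  have h7647 := checkRangeG_sound parWF r2 pf7646 h7646
  have h7648 := checkRangeG_sound parWF r2 pf7647 h7647
  have h7649 := checkRangeG_sound parWF r2 pf7648 h7648
  have h7650 := checkRangeG_sound parWF r2 pf7649 h7649
  exact h7650

theorem c153 (h7650 : ∀ j, j < 22530 → GoodG.{u} par (db j)) : ∀ j, j < 22707 → GoodG.{u} par (db j) := by
  have h7651 := checkRangeG_sound parWF r2 pf7650 h7650
  have h7652 := checkRangeG_sound parWF r2 pf7651 h7651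
  have h7653 := checkRangeG_sound parWF r2 pf7652 h7652
  have h7654 := checkRangeG_sound parWF r2 pf7653 h7653
  have h7655 := checkRangeG_sound parWF r2 pf7654 h7654
  have h7656 := checkRangeG_sound parWF r2 pf7655 h7655
  have h7657 := checkRangeG_sound parWF r2 pf7656 h7656
  have h7658 := checkRangeG_sound parWF r2 pf7657 h7657
  have h7659 := checkRangeG_sound parWF r2 pf7658 h7658
  have h7660 := checkRangeG_sound parWF r2 pf7659 h7659
  have h7661 := checkRangeG_sound parWF r2 pf7660 h7660
  have h7662 := checkRangeG_sound parWF r2 pf7661 h7661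
  have h7663 := checkRangeG_sound parWF r2 pf7662 h7662
  have h7664 := checkRangeG_sound parWF r2 pf7663 h7663
  have h7665 := checkRangeG_sound parWF r2 pf7664 h7664
  have h7666 := checkRangeG_sound parWF r2 pf7665 h7665
  have h7667 := checkRangeG_sound parWF r2 pf7666 h7666
  have h7668 := checkRangeG_sound parWF r2 pf7667 h7667
  have h7669 := checkRangeG_sound parWF r2 pf7668 h7668
  have h7670 := checkRangeG_sound parWF r2 pf7669 h7669
  have h7671 := checkRangeG_sound parWF r2 pf7670 h7670
  have h7672 := checkRangeG_sound parWF r2 pf7671 h7671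
  have h7673 := checkRangeG_sound parWF r2 pf7672 h7672
  have h7674 := checkRangeG_sound parWF r2 pf7673 h7673
  have h7675 := checkRangeG_sound parWF r2 pf7674 h7674
  have h7676 := checkRangeG_sound parWF r2 pf7675 h7675
  have h7677 := checkRangeG_sound parWF r2 pf7676 h7676
  have h7678 := checkRangeG_sound parWF r2 pf7677 h7677
  have h7679 := checkRangeG_sound parWF r2 pf7678 h7678
  have h7680 := checkRangeG_sound parWF r2 pf7679 h7679
  have h7681 := checkRangeG_sound parWF r2 pf7680 h7680
  have h7682 := checkRangeG_sound parWF r2 pf7681 h7681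
  have h7683 := checkRangeG_sound parWF r2 pf7682 h7682
  have h7684 := checkRangeG_sound parWF r2 pf7683 h7683
  have h7685 := checkRangeG_sound parWF r2 pf7684 h7684
  have h7686 := checkRangeG_sound parWF r2 pf7685 h7685
  have h7687 := checkRangeG_sound parWF r2 pf7686 h7686
  have h7688 := checkRangeG_sound parWF r2 pf7687 h7687
  have h7689 := checkRangeG_sound parWF r2 pf7688 h7688
  have h7690 := checkRangeG_sound parWF r2 pf7689 h7689
  have h7691 := checkRangeG_sound parWF r2 pf7690 h7690
  have h7692 := checkRangeG_sound parWF r2 pf7691 h7691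
  have h7693 := checkRangeG_sound parWF r2 pf7692 h7692
  have h7694 := checkRangeG_sound parWF r2 pf7693 h7693
  have h7695 := checkRangeG_sound parWF r2 pf7694 h7694
  have h7696 := checkRangeG_sound parWF r2 pf7695 h7695
  have h7697 := checkRangeG_sound parWF r2 pf7696 h7696
  have h7698 := checkRangeG_sound parWF r2 pf7697 h7697
  have h7699 := checkRangeG_sound parWF r2 pf7698 h7698
  have h7700 := checkRangeG_sound parWF r2 pf7699 h7699
  exact h7700

theorem c154 (h7700 : ∀ j, j < 22707 → GoodG.{u} par (db j)) : ∀ j, j < 22852 → GoodG.{u} par (db j) := by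
  have h7701 := checkRangeG_sound parWF r2 pf7700 h7700
  have h7702 := checkRangeG_sound parWF r2 pf7701 h7701
  have h7703 := checkRangeG_sound parWF r2 pf7702 h7702
  have h7704 := checkRangeG_sound parWF r2 pf7703 h7703
  have h7705 := checkRangeG_sound parWF r2 pf7704 h7704
  have h7706 := checkRangeG_sound parWF r2 pf7705 h7705
  have h7707 := checkRangeG_sound parWF r2 pf7706 h7706
  have h7708 := checkRangeG_sound parWF r2 pf7707 h7707
  have h7709 := checkRangeG_sound parWF r2 pf7708 h7708
  have h7710 := checkRangeG_sound parWF r2 pf7709 h7709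
  have h7711 := checkRangeG_sound parWF r2 pf7710 h7710
  have h7712 := checkRangeG_sound parWF r2 pf7711 h7711
  have h7713 := checkRangeG_sound parWF r2 pf7712 h7712
  have h7714 := checkRangeG_sound parWF r2 pf7713 h7713
  have h7715 := checkRangeG_sound parWF r2 pf7714 h7714
  have h7716 := checkRangeG_sound parWF r2 pf7715 h7715
  have h7717 := checkRangeG_sound parWF r2 pf7716 h7716
  have h7718 := checkRangeG_sound parWF r2 pf7717 h7717
  have h7719 := checkRangeG_sound parWF r2 pf7718 h7718
  have h7720 := checkRangeG_sound parWF r2 pf7719 h7719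
  have h7721 := checkRangeG_sound parWF r2 pf7720 h7720
  have h7722 := checkRangeG_sound parWF r2 pf7721 h7721
  have h7723 := checkRangeG_sound parWF r2 pf7722 h7722
  have h7724 := checkRangeG_sound parWF r2 pf7723 h7723
  have h7725 := checkRangeG_sound parWF r2 pf7724 h7724
  have h7726 := checkRangeG_sound parWF r2 pf7725 h7725
  have h7727 := checkRangeG_sound parWF r2 pf7726 h7726
  have h7728 := checkRangeG_sound parWF r2 pf7727 h7727
  have h7729 := checkRangeG_sound parWF r2 pf7728 h7728
  have h7730 := checkRangeG_sound parWF r2 pf7729 h7729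
  have h7731 := checkRangeG_sound parWF r2 pf7730 h7730
  have h7732 := checkRangeG_sound parWF r2 pf7731 h7731
  have h7733 := checkRangeG_sound parWF r2 pf7732 h7732
  have h7734 := checkRangeG_sound parWF r2 pf7733 h7733
  have h7735 := checkRangeG_sound parWF r2 pf7734 h7734
  have h7736 := checkRangeG_sound parWF r2 pf7735 h7735
  have h7737 := checkRangeG_sound parWF r2 pf7736 h7736
  have h7738 := checkRangeG_sound parWF r2 pf7737 h7737
  have h7739 := checkRangeG_sound parWF r2 pf7738 h7738
  have h7740 := checkRangeG_sound parWF r2 pf7739 h7739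
  have h7741 := checkRangeG_sound parWF r2 pf7740 h7740
  have h7742 := checkRangeG_sound parWF r2 pf7741 h7741
  have h7743 := checkRangeG_sound parWF r2 pf7742 h7742
  have h7744 := checkRangeG_sound parWF r2 pf7743 h7743
  have h7745 := checkRangeG_sound parWF r2 pf7744 h7744
  have h7746 := checkRangeG_sound parWF r2 pf7745 h7745
  have h7747 := checkRangeG_sound parWF r2 pf7746 h7746
  have h7748 := checkRangeG_sound parWF r2 pf7747 h7747
  have h7749 := checkRangeG_sound parWF r2 pf7748 h7748
  have h7750 := checkRangeG_sound parWF r2 pf7749 h7749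
  exact h7750

theorem c155 (h7750 : ∀ j, j < 22852 → GoodG.{u} par (db j)) : ∀ j, j < 23014 → GoodG.{u} par (db j) := by
  have h7751 := checkRangeG_sound parWF r2 pf7750 h7750
  have h7752 := checkRangeG_sound parWF r2 pf7751 h7751
  have h7753 := checkRangeG_sound parWF r2 pf7752 h7752
  have h7754 := checkRangeG_sound parWF r2 pf7753 h7753
  have h7755 := checkRangeG_sound parWF r2 pf7754 h7754
  have h7756 := checkRangeG_sound parWF r2 pf7755 h7755
  have h7757 := checkRangeG_sound parWF r2 pf7756 h7756
  have h7758 := checkRangeG_sound parWF r2 pf7757 h7757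
  have h7759 := checkRangeG_sound parWF r2 pf7758 h7758
  have h7760 := checkRangeG_sound parWF r2 pf7759 h7759
  have h7761 := checkRangeG_sound parWF r2 pf7760 h7760
  have h7762 := checkRangeG_sound parWF r2 pf7761 h7761
  have h7763 := checkRangeG_sound parWF r2 pf7762 h7762
  have h7764 := checkRangeG_sound parWF r2 pf7763 h7763
  have h7765 := checkRangeG_sound parWF r2 pf7764 h7764
  have h7766 := checkRangeG_sound parWF r2 pf7765 h7765
  have h7767 := checkRangeG_sound parWF r2 pf7766 h7766
  have h7768 := checkRangeG_sound parWF r2 pf7767 h7767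
  have h7769 := checkRangeG_sound parWF r2 pf7768 h7768
  have h7770 := checkRangeG_sound parWF r2 pf7769 h7769
  have h7771 := checkRangeG_sound parWF r2 pf7770 h7770
  have h7772 := checkRangeG_sound parWF r2 pf7771 h7771
  have h7773 := checkRangeG_sound parWF r2 pf7772 h7772
  have h7774 := checkRangeG_sound parWF r2 pf7773 h7773
  have h7775 := checkRangeG_sound parWF r2 pf7774 h7774
  have h7776 := checkRangeG_sound parWF r2 pf7775 h7775
  have h7777 := checkRangeG_sound parWF r2 pf7776 h7776
  have h7778 := checkRangeG_sound parWF r2 pf7777 h7777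
  have h7779 := checkRangeG_sound parWF r2 pf7778 h7778
  have h7780 := checkRangeG_sound parWF r2 pf7779 h7779
  have h7781 := checkRangeG_sound parWF r2 pf7780 h7780
  have h7782 := checkRangeG_sound parWF r2 pf7781 h7781
  have h7783 := checkRangeG_sound parWF r2 pf7782 h7782
  have h7784 := checkRangeG_sound parWF r2 pf7783 h7783
  have h7785 := checkRangeG_sound parWF r2 pf7784 h7784
  have h7786 := checkRangeG_sound parWF r2 pf7785 h7785
  have h7787 := checkRangeG_sound parWF r2 pf7786 h7786
  have h7788 := checkRangeG_sound parWF r2 pf7787 h7787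
  have h7789 := checkRangeG_sound parWF r2 pf7788 h7788
  have h7790 := checkRangeG_sound parWF r2 pf7789 h7789
  have h7791 := checkRangeG_sound parWF r2 pf7790 h7790
  have h7792 := checkRangeG_sound parWF r2 pf7791 h7791
  have h7793 := checkRangeG_sound parWF r2 pf7792 h7792
  have h7794 := checkRangeG_sound parWF r2 pf7793 h7793
  have h7795 := checkRangeG_sound parWF r2 pf7794 h7794
  have h7796 := checkRangeG_sound parWF r2 pf7795 h7795
  have h7797 := checkRangeG_sound parWF r2 pf7796 h7796
  have h7798 := checkRangeG_sound parWF r2 pf7797 h7797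
  have h7799 := checkRangeG_sound parWF r2 pf7798 h7798
  have h7800 := checkRangeG_sound parWF r2 pf7799 h7799
  exact h7800


end Vale.Agent.P045g.C61
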