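import Vale.Agent.P045g.C61.WF
import Vale.Agent.P045g.C61.Pf130
import Vale.Agent.P045g.C61.Pf131
import Vale.Agent.P045g.C61.Pf132
import Vale.Agent.P045g.C61.Pf133
import Vale.Agent.P045g.C61.Pf134
import Vale.Agent.P045g.C61.Pf135
import Vale.Agent.P045g.C61.Pf136
import Vale.Agent.P045g.C61.Pf137
import Vale.Agent.P045g.C61.Pf138
import Vale.Agent.P045g.C61.Pf139

namespace Vale.Agent.P045g.C61

open Vale.Agent.P045b Vale.Agent.P045g

universe u

theorem c156 (h7800 : ∀ j, j < 23014 → GoodG.{u} par (db j)) : ∀ j, j < 23151 → GoodG.{u} par (db j) := by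
  have h7801 := checkRangeG_sound parWF r2 pf7800 h7800
  have h7802 := checkRangeG_sound parWF r2 pf7801 h7801
  have h7803 := checkRangeG_sound parWF r2 pf7802 h7802
  have h7804 := checkRangeG_sound parWF r2 pf7803 h7803
  have h7805 := checkRangeG_sound parWF r2 pf7804 h7804
  have h7806 := checkRangeG_sound parWF r2 pf7805 h7805
  have h7807 := checkRangeG_sound parWF r2 pf7806 h7806
  have h7808 := checkRangeG_sound parWF r2 pf7807 h7807
  have h7809 := checkRangeG_sound parWF r2 pf7808 h7808
  have h7810 := checkRangeG_sound parWF r2 pf7809 h7809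
  have h7811 := checkRangeG_sound parWF r2 pf7810 h7810
  have h7812 := checkRangeG_sound parWF r2 pf7811 h7811
  have h7813 := checkRangeG_sound parWF r2 pf7812 h7812
  have h7814 := checkRangeG_sound parWF r2 pf7813 h7813
  have h7815 := checkRangeG_sound parWF r2 pf7814 h7814
  have h7816 := checkRangeG_sound parWF r2 pf7815 h7815
  have h7817 := checkRangeG_sound parWF r2 pf7816 h7816
  have h7818 := checkRangeG_sound parWF r2 pf7817 h7817
  have h7819 := checkRangeG_sound parWF r2 pf7818 h7818
  have h7820 := checkRangeG_sound parWF r2 pf7819 h7819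
  have h7821 := checkRangeG_sound parWF r2 pf7820 h7820
  have h7822 := checkRangeG_sound parWF r2 pf7821 h7821
  have h7823 := checkRangeG_sound parWF r2 pf7822 h7822
  have h7824 := checkRangeG_sound parWF r2 pf7823 h7823
  have h7825 := checkRangeG_sound parWF r2 pf7824 h7824
  have h7826 := checkRangeG_sound parWF r2 pf7825 h7825
  have h7827 := checkRangeG_sound parWF r2 pf7826 h7826
  have h7828 := checkRangeG_sound parWF r2 pf7827 h7827
  have h7829 := checkRangeG_sound parWF r2 pf7828 h7828
  have h7830 := checkRangeG_sound parWF r2 pf7829 h7829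
  have h7831 := checkRangeG_sound parWF r2 pf7830 h7830
  have h7832 := checkRangeG_sound parWF r2 pf7831 h7831
  have h7833 := checkRangeG_sound parWF r2 pf7832 h7832
  have h7834 := checkRangeG_sound parWF r2 pf7833 h7833
  have h7835 := checkRangeG_sound parWF r2 pf7834 h7834
  have h7836 := checkRangeG_sound parWF r2 pf7835 h7835
  have h7837 := checkRangeG_sound parWF r2 pf7836 h7836
  have h7838 := checkRangeG_sound parWF r2 pf7837 h7837
  have h7839 := checkRangeG_sound parWF r2 pf7838 h7838
  have h7840 := checkRangeG_sound parWF r2 pf7839 h7839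
  have h7841 := checkRangeG_sound parWF r2 pf7840 h7840
  have h7842 := checkRangeG_sound parWF r2 pf7841 h7841
  have h7843 := checkRangeG_sound parWF r2 pf7842 h7842
  have h7844 := checkRangeG_sound parWF r2 pf7843 h7843
  have h7845 := checkRangeG_sound parWF r2 pf7844 h7844
  have h7846 := checkRangeG_sound parWF r2 pf7845 h7845
  have h7847 := checkRangeG_sound parWF r2 pf7846 h7846
  have h7848 := checkRangeG_sound parWF r2 pf7847 h7847
  have h7849 := checkRangeG_sound parWF r2 pf7848 h7848
  have h7850 := checkRangeG_sound parWF r2 pf7849 h7849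
  exact h7850

theorem c157 (h7850 : ∀ j, j < 23151 → GoodG.{u} par (db j)) : ∀ j, j < 23300 → GoodG.{u} par (db j) := by
  have h7851 := checkRangeG_sound parWF r2 pf7850 h7850
  have h7852 := checkRangeG_sound parWF r2 pf7851 h7851
  have h7853 := checkRangeG_sound parWF r2 pf7852 h7852
  have h7854 := checkRangeG_sound parWF r2 pf7853 h7853
  have h7855 := checkRangeG_sound parWF r2 pf7854 h7854
  have h7856 := checkRangeG_sound parWF r2 pf7855 h7855
  have h7857 := checkRangeG_sound parWF r2 pf7856 h7856
  have h7858 := checkRangeG_sound parWF r2 pf7857 h7857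
  have h7859 := checkRangeG_sound parWF r2 pf7858 h7858
  have h7860 := checkRangeG_sound parWF r2 pf7859 h7859
  have h7861 := checkRangeG_sound parWF r2 pf7860 h7860
  have h7862 := checkRangeG_sound parWF r2 pf7861 h7861
  have h7863 := checkRangeG_sound parWF r2 pf7862 h7862
  have h7864 := checkRangeG_sound parWF r2 pf7863 h7863
  have h7865 := checkRangeG_sound parWF r2 pf7864 h7864
  have h7866 := checkRangeG_sound parWF r2 pf7865 h7865
  have h7867 := checkRangeG_sound parWF r2 pf7866 h7866
  have h7868 := checkRangeG_sound parWF r2 pf7867 h7867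
  have h7869 := checkRangeG_sound parWF r2 pf7868 h7868
  have h7870 := checkRangeG_sound parWF r2 pf7869 h7869
  have h7871 := checkRangeG_sound parWF r2 pf7870 h7870
  have h7872 := checkRangeG_sound parWF r2 pf7871 h7871
  have h7873 := checkRangeG_sound parWF r2 pf7872 h7872
  have h7874 := checkRangeG_sound parWF r2 pf7873 h7873
  have h7875 := checkRangeG_sound parWF r2 pf7874 h7874
  have h7876 := checkRangeG_sound parWF r2 pf7875 h7875
  have h7877 := checkRangeG_sound parWF r2 pf7876 h7876
  have h7878 := checkRangeG_sound parWF r2 pf7877 h7877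
  have h7879 := checkRangeG_sound parWF r2 pf7878 h7878
  have h7880 := checkRangeG_sound parWF r2 pf7879 h7879
  have h7881 := checkRangeG_sound parWF r2 pf7880 h7880
  have h7882 := checkRangeG_sound parWF r2 pf7881 h7881
  have h7883 := checkRangeG_sound parWF r2 pf7882 h7882
  have h7884 := checkRangeG_sound parWF r2 pf7883 h7883
  have h7885 := checkRangeG_sound parWF r2 pf7884 h7884
  have h7886 := checkRangeG_sound parWF r2 pf7885 h7885
  have h7887 := checkRangeG_sound parWF r2 pf7886 h7886
  have h7888 := checkRangeG_sound parWF r2 pf7887 h7887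
  have h7889 := checkRangeG_sound parWF r2 pf7888 h7888
  have h7890 := checkRangeG_sound parWF r2 pf7889 h7889
  have h7891 := checkRangeG_sound parWF r2 pf7890 h7890
  have h7892 := checkRangeG_sound parWF r2 pf7891 h7891
  have h7893 := checkRangeG_sound parWF r2 pf7892 h7892
  have h7894 := checkRangeG_sound parWF r2 pf7893 h7893
  have h7895 := checkRangeG_sound parWF r2 pf7894 h7894
  have h7896 := checkRangeG_sound parWF r2 pf7895 h7895
  have h7897 := checkRangeG_sound parWF r2 pf7896 h7896
  have h7898 := checkRangeG_sound parWF r2 pf7897 h7897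
  have h7899 := checkRangeG_sound parWF r2 pf7898 h7898
  have h7900 := checkRangeG_sound parWF r2 pf7899 h7899
  exact h7900

theorem c158 (h7900 : ∀ j, j < 23300 → GoodG.{u} par (db j)) : ∀ j, j < 23438 → GoodG.{u} par (db j) := by
  have h7901 := checkRangeG_sound parWF r2 pf7900 h7900
  have h7902 := checkRangeG_sound parWF r2 pf7901 h7901
  have h7903 := checkRangeG_sound parWF r2 pf7902 h7902
  have h7904 := checkRangeG_sound parWF r2 pf7903 h7903
  have h7905 := checkRangeG_sound parWF r2 pf7904 h7904
  have h7906 := checkRangeG_sound parWF r2 pf7905 h7905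
  have h7907 := checkRangeG_sound parWF r2 pf7906 h7906
  have h7908 := checkRangeG_sound parWF r2 pf7907 h7907
  have h7909 := checkRangeG_sound parWF r2 pf7908 h7908
  have h7910 := checkRangeG_sound parWF r2 pf7909 h7909
  have h7911 := checkRangeG_sound parWF r2 pf7910 h7910
  have h7912 := checkRangeG_sound parWF r2 pf7911 h7911
  have h7913 := checkRangeG_sound parWF r2 pf7912 h7912
  have h7914 := checkRangeG_sound parWF r2 pf7913 h7913
  have h7915 := checkRangeG_sound parWF r2 pf7914 h7914
  have h7916 := checkRangeG_sound parWF r2 pf7915 h7915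
  have h7917 := checkRangeG_sound parWF r2 pf7916 h7916
  have h7918 := checkRangeG_sound parWF r2 pf7917 h7917
  have h7919 := checkRangeG_sound parWF r2 pf7918 h7918
  have h7920 := checkRangeG_sound parWF r2 pf7919 h7919
  have h7921 := checkRangeG_sound parWF r2 pf7920 h7920
  have h7922 := checkRangeG_sound parWF r2 pf7921 h7921
  have h7923 := checkRangeG_sound parWF r2 pf7922 h7922
  have h7924 := checkRangeG_sound parWF r2 pf7923 h7923
  have h7925 := checkRangeG_sound parWF r2 pf7924 h7924
  have h7926 := checkRangeG_sound parWF r2 pf7925 h7925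
  have h7927 := checkRangeG_sound parWF r2 pf7926 h7926
  have h7928 := checkRangeG_sound parWF r2 pf7927 h7927
  have h7929 := checkRangeG_sound parWF r2 pf7928 h7928
  have h7930 := checkRangeG_sound parWF r2 pf7929 h7929
  have h7931 := checkRangeG_sound parWF r2 pf7930 h7930
  have h7932 := checkRangeG_sound parWF r2 pf7931 h7931
  have h7933 := checkRangeG_sound parWF r2 pf7932 h7932
  have h7934 := checkRangeG_sound parWF r2 pf7933 h7933
  have h7935 := checkRangeG_sound parWF r2 pf7934 h7934
  have h7936 := checkRangeG_sound parWF r2 pf7935 h7935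
  have h7937 := checkRangeG_sound parWF r2 pf7936 h7936
  have h7938 := checkRangeG_sound parWF r2 pf7937 h7937
  have h7939 := checkRangeG_sound parWF r2 pf7938 h7938
  have h7940 := checkRangeG_sound parWF r2 pf7939 h7939
  have h7941 := checkRangeG_sound parWF r2 pf7940 h7940
  have h7942 := checkRangeG_sound parWF r2 pf7941 h7941
  have h7943 := checkRangeG_sound parWF r2 pf7942 h7942
  have h7944 := checkRangeG_sound parWF r2 pf7943 h7943
  have h7945 := checkRangeG_sound parWF r2 pf7944 h7944
  have h7946 := checkRangeG_sound parWF r2 pf7945 h7945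
  have h7947 := checkRangeG_sound parWF r2 pf7946 h7946
  have h7948 := checkRangeG_sound parWF r2 pf7947 h7947
  have h7949 := checkRangeG_sound parWF r2 pf7948 h7948
  have h7950 := checkRangeG_sound parWF r2 pf7949 h7949
  exact h7950

theorem c159 (h7950 : ∀ j, j < 23438 → GoodG.{u} par (db j)) : ∀ j, j < 23584 → GoodG.{u} par (db j) := by
  have h7951 := checkRangeG_sound parWF r2 pf7950 h7950
  have h7952 := checkRangeG_sound parWF r2 pf7951 h7951
  have h7953 := checkRangeG_sound parWF r2 pf7952 h7952
  have h7954 := checkRangeG_sound parWF r2 pf7953 h7953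
  have h7955 := checkRangeG_sound parWF r2 pf7954 h7954
  have h7956 := checkRangeG_sound parWF r2 pf7955 h7955
  have h7957 := checkRangeG_sound parWF r2 pf7956 h7956
  have h7958 := checkRangeG_sound parWF r2 pf7957 h7957
  have h7959 := checkRangeG_sound parWF r2 pf7958 h7958
  have h7960 := checkRangeG_sound parWF r2 pf7959 h7959
  have h7961 := checkRangeG_sound parWF r2 pf7960 h7960
  have h7962 := checkRangeG_sound parWF r2 pf7961 h7961
  have h7963 := checkRangeG_sound parWF r2 pf7962 h7962
  have h7964 := checkRangeG_sound parWF r2 pf7963 h7963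
  have h7965 := checkRangeG_sound parWF r2 pf7964 h7964
  have h7966 := checkRangeG_sound parWF r2 pf7965 h7965
  have h7967 := checkRangeG_sound parWF r2 pf7966 h7966
  have h7968 := checkRangeG_sound parWF r2 pf7967 h7967
  have h7969 := checkRangeG_sound parWF r2 pf7968 h7968
  have h7970 := checkRangeG_sound parWF r2 pf7969 h7969
  have h7971 := checkRangeG_sound parWF r2 pf7970 h7970
  have h7972 := checkRangeG_sound parWF r2 pf7971 h7971
  have h7973 := checkRangeG_sound parWF r2 pf7972 h7972
  have h7974 := checkRangeG_sound parWF r2 pf7973 h7973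
  have h7975 := checkRangeG_sound parWF r2 pf7974 h7974
  have h7976 := checkRangeG_sound parWF r2 pf7975 h7975
  have h7977 := checkRangeG_sound parWF r2 pf7976 h7976
  have h7978 := checkRangeG_sound parWF r2 pf7977 h7977
  have h7979 := checkRangeG_sound parWF r2 pf7978 h7978
  have h7980 := checkRangeG_sound parWF r2 pf7979 h7979
  have h7981 := checkRangeG_sound parWF r2 pf7980 h7980
  have h7982 := checkRangeG_sound parWF r2 pf7981 h7981
  have h7983 := checkRangeG_sound parWF r2 pf7982 h7982
  have h7984 := checkRangeG_sound parWF r2 pf7983 h7983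
  have h7985 := checkRangeG_sound parWF r2 pf7984 h7984
  have h7986 := checkRangeG_sound parWF r2 pf7985 h7985
  have h7987 := checkRangeG_sound parWF r2 pf7986 h7986
  have h7988 := checkRangeG_sound parWF r2 pf7987 h7987
  have h7989 := checkRangeG_sound parWF r2 pf7988 h7988
  have h7990 := checkRangeG_sound parWF r2 pf7989 h7989
  have h7991 := checkRangeG_sound parWF r2 pf7990 h7990
  have h7992 := checkRangeG_sound parWF r2 pf7991 h7991
  have h7993 := checkRangeG_sound parWF r2 pf7992 h7992
  have h7994 := checkRangeG_sound parWF r2 pf7993 h7993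
  have h7995 := checkRangeG_sound parWF r2 pf7994 h7994
  have h7996 := checkRangeG_sound parWF r2 pf7995 h7995
  have h7997 := checkRangeG_sound parWF r2 pf7996 h7996
  have h7998 := checkRangeG_sound parWF r2 pf7997 h7997
  have h7999 := checkRangeG_sound parWF r2 pf7998 h7998
  have h8000 := checkRangeG_sound parWF r2 pf7999 h7999
  exact h8000

theorem c160 (h8000 : ∀ j, j < 23584 → GoodG.{u} par (db j)) : ∀ j, j < 23724 → GoodG.{u} par (db j) := by
  have h8001 := checkRangeG_sound parWF r2 pf8000 h8000
  have h8002 := checkRangeG_sound parWF r2 pf8001 h8001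
  have h8003 := checkRangeG_sound parWF r2 pf8002 h8002
  have h8004 := checkRangeG_sound parWF r2 pf8003 h8003
  have h8005 := checkRangeG_sound parWF r2 pf8004 h8004
  have h8006 := checkRangeG_sound parWF r2 pf8005 h8005
  have h8007 := checkRangeG_sound parWF r2 pf8006 h8006
  have h8008 := checkRangeG_sound parWF r2 pf8007 h8007
  have h8009 := checkRangeG_sound parWF r2 pf8008 h8008
  have h8010 := checkRangeG_sound parWF r2 pf8009 h8009
  have h8011 := checkRangeG_sound parWF r2 pf8010 h8010
  have h8012 := checkRangeG_sound parWF r2 pf8011 h8011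
  have h8013 := checkRangeG_sound parWF r2 pf8012 h8012
  have h8014 := checkRangeG_sound parWF r2 pf8013 h8013
  have h8015 := checkRangeG_sound parWF r2 pf8014 h8014
  have h8016 := checkRangeG_sound parWF r2 pf8015 h8015
  have h8017 := checkRangeG_sound parWF r2 pf8016 h8016
  have h8018 := checkRangeG_sound parWF r2 pf8017 h8017
  have h8019 := checkRangeG_sound parWF r2 pf8018 h8018
  have h8020 := checkRangeG_sound parWF r2 pf8019 h8019
  have h8021 := checkRangeG_sound parWF r2 pf8020 h8020
  have h8022 := checkRangeG_sound parWF r2 pf8021 h8021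
  have h8023 := checkRangeG_sound parWF r2 pf8022 h8022
  have h8024 := checkRangeG_sound parWF r2 pf8023 h8023
  have h8025 := checkRangeG_sound parWF r2 pf8024 h8024
  have h8026 := checkRangeG_sound parWF r2 pf8025 h8025
  have h8027 := checkRangeG_sound parWF r2 pf8026 h8026
  have h8028 := checkRangeG_sound parWF r2 pf8027 h8027
  have h8029 := checkRangeG_sound parWF r2 pf8028 h8028
  have h8030 := checkRangeG_sound parWF r2 pf8029 h8029
  have h8031 := checkRangeG_sound parWF r2 pf8030 h8030
  have h8032 := checkRangeG_sound parWF r2 pf8031 h8031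
  have h8033 := checkRangeG_sound parWF r2 pf8032 h8032
  have h8034 := checkRangeG_sound parWF r2 pf8033 h8033
  have h8035 := checkRangeG_sound parWF r2 pf8034 h8034
  have h8036 := checkRangeG_sound parWF r2 pf8035 h8035
  have h8037 := checkRangeG_sound parWF r2 pf8036 h8036
  have h8038 := checkRangeG_sound parWF r2 pf8037 h8037
  have h8039 := checkRangeG_sound parWF r2 pf8038 h8038
  have h8040 := checkRangeG_sound parWF r2 pf8039 h8039
  have h8041 := checkRangeG_sound parWF r2 pf8040 h8040
  have h8042 := checkRangeG_sound parWF r2 pf8041 h8041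
  have h8043 := checkRangeG_sound parWF r2 pf8042 h8042
  have h8044 := checkRangeG_sound parWF r2 pf8043 h8043
  have h8045 := checkRangeG_sound parWF r2 pf8044 h8044
  have h8046 := checkRangeG_sound parWF r2 pf8045 h8045
  have h8047 := checkRangeG_sound parWF r2 pf8046 h8046
  have h8048 := checkRangeG_sound parWF r2 pf8047 h8047
  have h8049 := checkRangeG_sound parWF r2 pf8048 h8048
  have h8050 := checkRangeG_sound parWF r2 pf8049 h8049
  exact h8050

theorem c161 (h8050 : ∀ j, j < 23724 → GoodG.{u} par (db j)) : ∀ j, j < 23872 → GoodG.{u} par (db j) := by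
  have h8051 := checkRangeG_sound parWF r2 pf8050 h8050
  have h8052 := checkRangeG_sound parWF r2 pf8051 h8051
  have h8053 := checkRangeG_sound parWF r2 pf8052 h8052
  have h8054 := checkRangeG_sound parWF r2 pf8053 h8053
  have h8055 := checkRangeG_sound parWF r2 pf8054 h8054
  have h8056 := checkRangeG_sound parWF r2 pf8055 h8055
  have h8057 := checkRangeG_sound parWF r2 pf8056 h8056
  have h8058 := checkRangeG_sound parWF r2 pf8057 h8057
  have h8059 := checkRangeG_sound parWF r2 pf8058 h8058
  have h8060 := checkRangeG_sound parWF r2 pf8059 h8059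
  have h8061 := checkRangeG_sound parWF r2 pf8060 h8060
  have h8062 := checkRangeG_sound parWF r2 pf8061 h8061
  have h8063 := checkRangeG_sound parWF r2 pf8062 h8062
  have h8064 := checkRangeG_sound parWF r2 pf8063 h8063
  have h8065 := checkRangeG_sound parWF r2 pf8064 h8064
  have h8066 := checkRangeG_sound parWF r2 pf8065 h8065
  have h8067 := checkRangeG_sound parWF r2 pf8066 h8066
  have h8068 := checkRangeG_sound parWF r2 pf8067 h8067
  have h8069 := checkRangeG_sound parWF r2 pf8068 h8068
  have h8070 := checkRangeG_sound parWF r2 pf8069 h8069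
  have h8071 := checkRangeG_sound parWF r2 pf8070 h8070
  have h8072 := checkRangeG_sound parWF r2 pf8071 h8071
  have h8073 := checkRangeG_sound parWF r2 pf8072 h8072
  have h8074 := checkRangeG_sound parWF r2 pf8073 h8073
  have h8075 := checkRangeG_sound parWF r2 pf8074 h8074
  have h8076 := checkRangeG_sound parWF r2 pf8075 h8075
  have h8077 := checkRangeG_sound parWF r2 pf8076 h8076
  have h8078 := checkRangeG_sound parWF r2 pf8077 h8077
  have h8079 := checkRangeG_sound parWF r2 pf8078 h8078
  have h8080 := checkRangeG_sound parWF r2 pf8079 h8079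
  have h8081 := checkRangeG_sound parWF r2 pf8080 h8080
  have h8082 := checkRangeG_sound parWF r2 pf8081 h8081
  have h8083 := checkRangeG_sound parWF r2 pf8082 h8082
  have h8084 := checkRangeG_sound parWF r2 pf8083 h8083
  have h8085 := checkRangeG_sound parWF r2 pf8084 h8084
  have h8086 := checkRangeG_sound parWF r2 pf8085 h8085
  have h8087 := checkRangeG_sound parWF r2 pf8086 h8086
  have h8088 := checkRangeG_sound parWF r2 pf8087 h8087
  have h8089 := checkRangeG_sound parWF r2 pf8088 h8088
  have h8090 := checkRangeG_sound parWF r2 pf8089 h8089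
  have h8091 := checkRangeG_sound parWF r2 pf8090 h8090
  have h8092 := checkRangeG_sound parWF r2 pf8091 h8091
  have h8093 := checkRangeG_sound parWF r2 pf8092 h8092
  have h8094 := checkRangeG_sound parWF r2 pf8093 h8093
  have h8095 := checkRangeG_sound parWF r2 pf8094 h8094
  have h8096 := checkRangeG_sound parWF r2 pf8095 h8095
  have h8097 := checkRangeG_sound parWF r2 pf8096 h8096
  have h8098 := checkRangeG_sound parWF r2 pf8097 h8097
  have h8099 := checkRangeG_sound parWF r2 pf8098 h8098
  have h8100 := checkRangeG_sound parWF r2 pf8099 h8099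
  exact h8100

theorem c162 (h8100 : ∀ j, j < 23872 → GoodG.{u} par (db j)) : ∀ j, j < 24013 → GoodG.{u} par (db j) := by
  have h8101 := checkRangeG_sound parWF r2 pf8100 h8100
  have h8102 := checkRangeG_sound parWF r2 pf8101 h8101
  have h8103 := checkRangeG_sound parWF r2 pf8102 h8102
  have h8104 := checkRangeG_sound parWF r2 pf8103 h8103
  have h8105 := checkRangeG_sound parWF r2 pf8104 h8104
  have h8106 := checkRangeG_sound parWF r2 pf8105 h8105
  have h8107 := checkRangeG_sound parWF r2 pf8106 h8106
  have h8108 := checkRangeG_sound parWF r2 pf8107 h8107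
  have h8109 := checkRangeG_sound parWF r2 pf8108 h8108
  have h8110 := checkRangeG_sound parWF r2 pf8109 h8109
  have h8111 := checkRangeG_sound parWF r2 pf8110 h8110
  have h8112 := checkRangeG_sound parWF r2 pf8111 h8111
  have h8113 := checkRangeG_sound parWF r2 pf8112 h8112
  have h8114 := checkRangeG_sound parWF r2 pf8113 h8113
  have h8115 := checkRangeG_sound parWF r2 pf8114 h8114
  have h8116 := checkRangeG_sound parWF r2 pf8115 h8115
  have h8117 := checkRangeG_sound parWF r2 pf8116 h8116
  have h8118 := checkRangeG_sound parWF r2 pf8117 h8117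
  have h8119 := checkRangeG_sound parWF r2 pf8118 h8118
  have h8120 := checkRangeG_sound parWF r2 pf8119 h8119
  have h8121 := checkRangeG_sound parWF r2 pf8120 h8120
  have h8122 := checkRangeG_sound parWF r2 pf8121 h8121
  have h8123 := checkRangeG_sound parWF r2 pf8122 h8122
  have h8124 := checkRangeG_sound parWF r2 pf8123 h8123
  have h8125 := checkRangeG_sound parWF r2 pf8124 h8124
  have h8126 := checkRangeG_sound parWF r2 pf8125 h8125
  have h8127 := checkRangeG_sound parWF r2 pf8126 h8126
  have h8128 := checkRangeG_sound parWF r2 pf8127 h8127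
  have h8129 := checkRangeG_sound parWF r2 pf8128 h8128
  have h8130 := checkRangeG_sound parWF r2 pf8129 h8129
  have h8131 := checkRangeG_sound parWF r2 pf8130 h8130
  have h8132 := checkRangeG_sound parWF r2 pf8131 h8131
  have h8133 := checkRangeG_sound parWF r2 pf8132 h8132
  have h8134 := checkRangeG_sound parWF r2 pf8133 h8133
  have h8135 := checkRangeG_sound parWF r2 pf8134 h8134
  have h8136 := checkRangeG_sound parWF r2 pf8135 h8135
  have h8137 := checkRangeG_sound parWF r2 pf8136 h8136
  have h8138 := checkRangeG_sound parWF r2 pf8137 h8137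
  have h8139 := checkRangeG_sound parWF r2 pf8138 h8138
  have h8140 := checkRangeG_sound parWF r2 pf8139 h8139
  have h8141 := checkRangeG_sound parWF r2 pf8140 h8140
  have h8142 := checkRangeG_sound parWF r2 pf8141 h8141
  have h8143 := checkRangeG_sound parWF r2 pf8142 h8142
  have h8144 := checkRangeG_sound parWF r2 pf8143 h8143
  have h8145 := checkRangeG_sound parWF r2 pf8144 h8144
  have h8146 := checkRangeG_sound parWF r2 pf8145 h8145
  have h8147 := checkRangeG_sound parWF r2 pf8146 h8146
  have h8148 := checkRangeG_sound parWF r2 pf8147 h8147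
  have h8149 := checkRangeG_sound parWF r2 pf8148 h8148
  have h8150 := checkRangeG_sound parWF r2 pf8149 h8149
  exact h8150

theorem c163 (h8150 : ∀ j, j < 24013 → GoodG.{u} par (db j)) : ∀ j, j < 24152 → GoodG.{u} par (db j) := by
  have h8151 := checkRangeG_sound parWF r2 pf8150 h8150
  have h8152 := checkRangeG_sound parWF r2 pf8151 h8151
  have h8153 := checkRangeG_sound parWF r2 pf8152 h8152
  have h8154 := checkRangeG_sound parWF r2 pf8153 h8153
  have h8155 := checkRangeG_sound parWF r2 pf8154 h8154
  have h8156 := checkRangeG_sound parWF r2 pf8155 h8155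
  have h8157 := checkRangeG_sound parWF r2 pf8156 h8156
  have h8158 := checkRangeG_sound parWF r2 pf8157 h8157
  have h8159 := checkRangeG_sound parWF r2 pf8158 h8158
  have h8160 := checkRangeG_sound parWF r2 pf8159 h8159
  have h8161 := checkRangeG_sound parWF r2 pf8160 h8160
  have h8162 := checkRangeG_sound parWF r2 pf8161 h8161
  have h8163 := checkRangeG_sound parWF r2 pf8162 h8162
  have h8164 := checkRangeG_sound parWF r2 pf8163 h8163
  have h8165 := checkRangeG_sound parWF r2 pf8164 h8164
  have h8166 := checkRangeG_sound parWF r2 pf8165 h8165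
  have h8167 := checkRangeG_sound parWF r2 pf8166 h8166
  have h8168 := checkRangeG_sound parWF r2 pf8167 h8167
  have h8169 := checkRangeG_sound parWF r2 pf8168 h8168
  have h8170 := checkRangeG_sound parWF r2 pf8169 h8169
  have h8171 := checkRangeG_sound parWF r2 pf8170 h8170
  have h8172 := checkRangeG_sound parWF r2 pf8171 h8171
  have h8173 := checkRangeG_sound parWF r2 pf8172 h8172
  have h8174 := checkRangeG_sound parWF r2 pf8173 h8173
  have h8175 := checkRangeG_sound parWF r2 pf8174 h8174
  have h8176 := checkRangeG_sound parWF r2 pf8175 h8175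
  have h8177 := checkRangeG_sound parWF r2 pf8176 h8176
  have h8178 := checkRangeG_sound parWF r2 pf8177 h8177
  have h8179 := checkRangeG_sound parWF r2 pf8178 h8178
  have h8180 := checkRangeG_sound parWF r2 pf8179 h8179
  have h8181 := checkRangeG_sound parWF r2 pf8180 h8180
  have h8182 := checkRangeG_sound parWF r2 pf8181 h8181
  have h8183 := checkRangeG_sound parWF r2 pf8182 h8182
  have h8184 := checkRangeG_sound parWF r2 pf8183 h8183
  have h8185 := checkRangeG_sound parWF r2 pf8184 h8184
  have h8186 := checkRangeG_sound parWF r2 pf8185 h8185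
  have h8187 := checkRangeG_sound parWF r2 pf8186 h8186
  have h8188 := checkRangeG_sound parWF r2 pf8187 h8187
  have h8189 := checkRangeG_sound parWF r2 pf8188 h8188
  have h8190 := checkRangeG_sound parWF r2 pf8189 h8189
  have h8191 := checkRangeG_sound parWF r2 pf8190 h8190
  have h8192 := checkRangeG_sound parWF r2 pf8191 h8191
  have h8193 := checkRangeG_sound parWF r2 pf8192 h8192
  have h8194 := checkRangeG_sound parWF r2 pf8193 h8193
  have h8195 := checkRangeG_sound parWF r2 pf8194 h8194
  have h8196 := checkRangeG_sound parWF r2 pf8195 h8195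
  have h8197 := checkRangeG_sound parWF r2 pf8196 h8196
  have h8198 := checkRangeG_sound parWF r2 pf8197 h8197
  have h8199 := checkRangeG_sound parWF r2 pf8198 h8198
  have h8200 := checkRangeG_sound parWF r2 pf8199 h8199
  exact h8200

theorem c164 (h8200 : ∀ j, j < 24152 → GoodG.{u} par (db j)) : ∀ j, j < 24312 → GoodG.{u} par (db j) := by
  have h8201 := checkRangeG_sound parWF r2 pf8200 h8200
  have h8202 := checkRangeG_sound parWF r2 pf8201 h8201
  have h8203 := checkRangeG_sound parWF r2 pf8202 h8202
  have h8204 := checkRangeG_sound parWF r2 pf8203 h8203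
  have h8205 := checkRangeG_sound parWF r2 pf8204 h8204
  have h8206 := checkRangeG_sound parWF r2 pf8205 h8205
  have h8207 := checkRangeG_sound parWF r2 pf8206 h8206
  have h8208 := checkRangeG_sound parWF r2 pf8207 h8207
  have h8209 := checkRangeG_sound parWF r2 pf8208 h8208
  have h8210 := checkRangeG_sound parWF r2 pf8209 h8209
  have h8211 := checkRangeG_sound parWF r2 pf8210 h8210
  have h8212 := checkRangeG_sound parWF r2 pf8211 h8211
  have h8213 := checkRangeG_sound parWF r2 pf8212 h8212
  have h8214 := checkRangeG_sound parWF r2 pf8213 h8213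
  have h8215 := checkRangeG_sound parWF r2 pf8214 h8214
  have h8216 := checkRangeG_sound parWF r2 pf8215 h8215
  have h8217 := checkRangeG_sound parWF r2 pf8216 h8216
  have h8218 := checkRangeG_sound parWF r2 pf8217 h8217
  have h8219 := checkRangeG_sound parWF r2 pf8218 h8218
  have h8220 := checkRangeG_sound parWF r2 pf8219 h8219
  have h8221 := checkRangeG_sound parWF r2 pf8220 h8220
  have h8222 := checkRangeG_sound parWF r2 pf8221 h8221
  have h8223 := checkRangeG_sound parWF r2 pf8222 h8222
  have h8224 := checkRangeG_sound parWF r2 pf8223 h8223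
  have h8225 := checkRangeG_sound parWF r2 pf8224 h8224
  have h8226 := checkRangeG_sound parWF r2 pf8225 h8225
  have h8227 := checkRangeG_sound parWF r2 pf8226 h8226
  have h8228 := checkRangeG_sound parWF r2 pf8227 h8227
  have h8229 := checkRangeG_sound parWF r2 pf8228 h8228
  have h8230 := checkRangeG_sound parWF r2 pf8229 h8229
  have h8231 := checkRangeG_sound parWF r2 pf8230 h8230
  have h8232 := checkRangeG_sound parWF r2 pf8231 h8231
  have h8233 := checkRangeG_sound parWF r2 pf8232 h8232
  have h8234 := checkRangeG_sound parWF r2 pf8233 h8233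
  have h8235 := checkRangeG_sound parWF r2 pf8234 h8234
  have h8236 := checkRangeG_sound parWF r2 pf8235 h8235
  have h8237 := checkRangeG_sound parWF r2 pf8236 h8236
  have h8238 := checkRangeG_sound parWF r2 pf8237 h8237
  have h8239 := checkRangeG_sound parWF r2 pf8238 h8238
  have h8240 := checkRangeG_sound parWF r2 pf8239 h8239
  have h8241 := checkRangeG_sound parWF r2 pf8240 h8240
  have h8242 := checkRangeG_sound parWF r2 pf8241 h8241
  have h8243 := checkRangeG_sound parWF r2 pf8242 h8242
  have h8244 := checkRangeG_sound parWF r2 pf8243 h8243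
  have h8245 := checkRangeG_sound parWF r2 pf8244 h8244
  have h8246 := checkRangeG_sound parWF r2 pf8245 h8245
  have h8247 := checkRangeG_sound parWF r2 pf8246 h8246
  have h8248 := checkRangeG_sound parWF r2 pf8247 h8247
  have h8249 := checkRangeG_sound parWF r2 pf8248 h8248
  have h8250 := checkRangeG_sound parWF r2 pf8249 h8249
  exact h8250

theorem c165 (h8250 : ∀ j, j < 24312 → GoodG.{u} par (db j)) : ∀ j, j < 24462 → GoodG.{u} par (db j) := by
  have h8251 := checkRangeG_sound parWF r2 pf8250 h8250
  have h8252 := checkRangeG_sound parWF r2 pf8251 h8251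
  have h8253 := checkRangeG_sound parWF r2 pf8252 h8252
  have h8254 := checkRangeG_sound parWF r2 pf8253 h8253
  have h8255 := checkRangeG_sound parWF r2 pf8254 h8254
  have h8256 := checkRangeG_sound parWF r2 pf8255 h8255
  have h8257 := checkRangeG_sound parWF r2 pf8256 h8256
  have h8258 := checkRangeG_sound parWF r2 pf8257 h8257
  have h8259 := checkRangeG_sound parWF r2 pf8258 h8258
  have h8260 := checkRangeG_sound parWF r2 pf8259 h8259
  have h8261 := checkRangeG_sound parWF r2 pf8260 h8260
  have h8262 := checkRangeG_sound parWF r2 pf8261 h8261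
  have h8263 := checkRangeG_sound parWF r2 pf8262 h8262
  have h8264 := checkRangeG_sound parWF r2 pf8263 h8263
  have h8265 := checkRangeG_sound parWF r2 pf8264 h8264
  have h8266 := checkRangeG_sound parWF r2 pf8265 h8265
  have h8267 := checkRangeG_sound parWF r2 pf8266 h8266
  have h8268 := checkRangeG_sound parWF r2 pf8267 h8267
  have h8269 := checkRangeG_sound parWF r2 pf8268 h8268
  have h8270 := checkRangeG_sound parWF r2 pf8269 h8269
  have h8271 := checkRangeG_sound parWF r2 pf8270 h8270
  have h8272 := checkRangeG_sound parWF r2 pf8271 h8271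
  have h8273 := checkRangeG_sound parWF r2 pf8272 h8272
  have h8274 := checkRangeG_sound parWF r2 pf8273 h8273
  have h8275 := checkRangeG_sound parWF r2 pf8274 h8274
  have h8276 := checkRangeG_sound parWF r2 pf8275 h8275
  have h8277 := checkRangeG_sound parWF r2 pf8276 h8276
  have h8278 := checkRangeG_sound parWF r2 pf8277 h8277
  have h8279 := checkRangeG_sound parWF r2 pf8278 h8278
  have h8280 := checkRangeG_sound parWF r2 pf8279 h8279
  have h8281 := checkRangeG_sound parWF r2 pf8280 h8280
  have h8282 := checkRangeG_sound parWF r2 pf8281 h8281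
  have h8283 := checkRangeG_sound parWF r2 pf8282 h8282
  have h8284 := checkRangeG_sound parWF r2 pf8283 h8283
  have h8285 := checkRangeG_sound parWF r2 pf8284 h8284
  have h8286 := checkRangeG_sound parWF r2 pf8285 h8285
  have h8287 := checkRangeG_sound parWF r2 pf8286 h8286
  have h8288 := checkRangeG_sound parWF r2 pf8287 h8287
  have h8289 := checkRangeG_sound parWF r2 pf8288 h8288
  have h8290 := checkRangeG_sound parWF r2 pf8289 h8289
  have h8291 := checkRangeG_sound parWF r2 pf8290 h8290
  have h8292 := checkRangeG_sound parWF r2 pf8291 h8291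
  have h8293 := checkRangeG_sound parWF r2 pf8292 h8292
  have h8294 := checkRangeG_sound parWF r2 pf8293 h8293
  have h8295 := checkRangeG_sound parWF r2 pf8294 h8294
  have h8296 := checkRangeG_sound parWF r2 pf8295 h8295
  have h8297 := checkRangeG_sound parWF r2 pf8296 h8296
  have h8298 := checkRangeG_sound parWF r2 pf8297 h8297
  have h8299 := checkRangeG_sound parWF r2 pf8298 h8298
  have h8300 := checkRangeG_sound parWF r2 pf8299 h8299
  exact h8300

theorem c166 (h8300 : ∀ j, j < 24462 → GoodG.{u} par (db j)) : ∀ j, j < 24607 → GoodG.{u} par (db j) := by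
  have h8301 := checkRangeG_sound parWF r2 pf8300 h8300
  have h8302 := checkRangeG_sound parWF r2 pf8301 h8301
  have h8303 := checkRangeG_sound parWF r2 pf8302 h8302
  have h8304 := checkRangeG_sound parWF r2 pf8303 h8303
  have h8305 := checkRangeG_sound parWF r2 pf8304 h8304
  have h8306 := checkRangeG_sound parWF r2 pf8305 h8305
  have h8307 := checkRangeG_sound parWF r2 pf8306 h8306
  have h8308 := checkRangeG_sound parWF r2 pf8307 h8307
  have h8309 := checkRangeG_sound parWF r2 pf8308 h8308
  have h8310 := checkRangeG_sound parWF r2 pf8309 h8309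
  have h8311 := checkRangeG_sound parWF r2 pf8310 h8310
  have h8312 := checkRangeG_sound parWF r2 pf8311 h8311
  have h8313 := checkRangeG_sound parWF r2 pf8312 h8312
  have h8314 := checkRangeG_sound parWF r2 pf8313 h8313
  have h8315 := checkRangeG_sound parWF r2 pf8314 h8314
  have h8316 := checkRangeG_sound parWF r2 pf8315 h8315
  have h8317 := checkRangeG_sound parWF r2 pf8316 h8316
  have h8318 := checkRangeG_sound parWF r2 pf8317 h8317
  have h8319 := checkRangeG_sound parWF r2 pf8318 h8318
  have h8320 := checkRangeG_sound parWF r2 pf8319 h8319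
  have h8321 := checkRangeG_sound parWF r2 pf8320 h8320
  have h8322 := checkRangeG_sound parWF r2 pf8321 h8321
  have h8323 := checkRangeG_sound parWF r2 pf8322 h8322
  have h8324 := checkRangeG_sound parWF r2 pf8323 h8323
  have h8325 := checkRangeG_sound parWF r2 pf8324 h8324
  have h8326 := checkRangeG_sound parWF r2 pf8325 h8325
  have h8327 := checkRangeG_sound parWF r2 pf8326 h8326
  have h8328 := checkRangeG_sound parWF r2 pf8327 h8327
  have h8329 := checkRangeG_sound parWF r2 pf8328 h8328
  have h8330 := checkRangeG_sound parWF r2 pf8329 h8329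
  have h8331 := checkRangeG_sound parWF r2 pf8330 h8330
  have h8332 := checkRangeG_sound parWF r2 pf8331 h8331
  have h8333 := checkRangeG_sound parWF r2 pf8332 h8332
  have h8334 := checkRangeG_sound parWF r2 pf8333 h8333
  have h8335 := checkRangeG_sound parWF r2 pf8334 h8334
  have h8336 := checkRangeG_sound parWF r2 pf8335 h8335
  have h8337 := checkRangeG_sound parWF r2 pf8336 h8336
  have h8338 := checkRangeG_sound parWF r2 pf8337 h8337
  have h8339 := checkRangeG_sound parWF r2 pf8338 h8338
  have h8340 := checkRangeG_sound parWF r2 pf8339 h8339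
  have h8341 := checkRangeG_sound parWF r2 pf8340 h8340
  have h8342 := checkRangeG_sound parWF r2 pf8341 h8341
  have h8343 := checkRangeG_sound parWF r2 pf8342 h8342
  have h8344 := checkRangeG_sound parWF r2 pf8343 h8343
  have h8345 := checkRangeG_sound parWF r2 pf8344 h8344
  have h8346 := checkRangeG_sound parWF r2 pf8345 h8345
  have h8347 := checkRangeG_sound parWF r2 pf8346 h8346
  have h8348 := checkRangeG_sound parWF r2 pf8347 h8347
  have h8349 := checkRangeG_sound parWF r2 pf8348 h8348
  have h8350 := checkRangeG_sound parWF r2 pf8349 h8349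
  exact h8350

theorem c167 (h8350 : ∀ j, j < 24607 → GoodG.{u} par (db j)) : ∀ j, j < 24762 → GoodG.{u} par (db j) := by
  have h8351 := checkRangeG_sound parWF r2 pf8350 h8350
  have h8352 := checkRangeG_sound parWF r2 pf8351 h8351
  have h8353 := checkRangeG_sound parWF r2 pf8352 h8352
  have h8354 := checkRangeG_sound parWF r2 pf8353 h8353
  have h8355 := checkRangeG_sound parWF r2 pf8354 h8354
  have h8356 := checkRangeG_sound parWF r2 pf8355 h8355
  have h8357 := checkRangeG_sound parWF r2 pf8356 h8356
  have h8358 := checkRangeG_sound parWF r2 pf8357 h8357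
  have h8359 := checkRangeG_sound parWF r2 pf8358 h8358
  have h8360 := checkRangeG_sound parWF r2 pf8359 h8359
  have h8361 := checkRangeG_sound parWF r2 pf8360 h8360
  have h8362 := checkRangeG_sound parWF r2 pf8361 h8361
  have h8363 := checkRangeG_sound parWF r2 pf8362 h8362
  have h8364 := checkRangeG_sound parWF r2 pf8363 h8363
  have h8365 := checkRangeG_sound parWF r2 pf8364 h8364
  have h8366 := checkRangeG_sound parWF r2 pf8365 h8365
  have h8367 := checkRangeG_sound parWF r2 pf8366 h8366
  have h8368 := checkRangeG_sound parWF r2 pf8367 h8367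
  have h8369 := checkRangeG_sound parWF r2 pf8368 h8368
  have h8370 := checkRangeG_sound parWF r2 pf8369 h8369
  have h8371 := checkRangeG_sound parWF r2 pf8370 h8370
  have h8372 := checkRangeG_sound parWF r2 pf8371 h8371
  have h8373 := checkRangeG_sound parWF r2 pf8372 h8372
  have h8374 := checkRangeG_sound parWF r2 pf8373 h8373
  have h8375 := checkRangeG_sound parWF r2 pf8374 h8374
  have h8376 := checkRangeG_sound parWF r2 pf8375 h8375
  have h8377 := checkRangeG_sound parWF r2 pf8376 h8376
  have h8378 := checkRangeG_sound parWF r2 pf8377 h8377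
  have h8379 := checkRangeG_sound parWF r2 pf8378 h8378
  have h8380 := checkRangeG_sound parWF r2 pf8379 h8379
  have h8381 := checkRangeG_sound parWF r2 pf8380 h8380
  have h8382 := checkRangeG_sound parWF r2 pf8381 h8381
  have h8383 := checkRangeG_sound parWF r2 pf8382 h8382
  have h8384 := checkRangeG_sound parWF r2 pf8383 h8383
  have h8385 := checkRangeG_sound parWF r2 pf8384 h8384
  have h8386 := checkRangeG_sound parWF r2 pf8385 h8385
  have h8387 := checkRangeG_sound parWF r2 pf8386 h8386
  have h8388 := checkRangeG_sound parWF r2 pf8387 h8387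
  have h8389 := checkRangeG_sound parWF r2 pf8388 h8388
  have h8390 := checkRangeG_sound parWF r2 pf8389 h8389
  have h8391 := checkRangeG_sound parWF r2 pf8390 h8390
  have h8392 := checkRangeG_sound parWF r2 pf8391 h8391
  have h8393 := checkRangeG_sound parWF r2 pf8392 h8392
  have h8394 := checkRangeG_sound parWF r2 pf8393 h8393
  have h8395 := checkRangeG_sound parWF r2 pf8394 h8394
  have h8396 := checkRangeG_sound parWF r2 pf8395 h8395
  have h8397 := checkRangeG_sound parWF r2 pf8396 h8396
  have h8398 := checkRangeG_sound parWF r2 pf8397 h8397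
  have h8399 := checkRangeG_sound parWF r2 pf8398 h8398
  have h8400 := checkRangeG_sound parWF r2 pf8399 h8399
  exact h8400


end Vale.Agent.P045g.C61
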