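import Vale.Agent.P045g.C61.WF
import Vale.Agent.P045g.C61.Pf140
import Vale.Agent.P045g.C61.Pf141
import Vale.Agent.P045g.C61.Pf142
import Vale.Agent.P045g.C61.Pf143
import Vale.Agent.P045g.C61.Pf144
import Vale.Agent.P045g.C61.Pf145
import Vale.Agent.P045g.C61.Pf146
import Vale.Agent.P045g.C61.Pf147
import Vale.Agent.P045g.C61.Pf148
import Vale.Agent.P045g.C61.Pf149

namespace Vale.Agent.P045g.C61

open Vale.Agent.P045b Vale.Agent.P045g

universe u

theorem c168 (h8400 : ∀ j, j < 24762 → GoodG.{u} par (db j)) : ∀ j, j < 24925 → GoodG.{u} par (db j) := by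
  have h8401 := checkRangeG_sound parWF r2 pf8400 h8400
  have h8402 := checkRangeG_sound parWF r2 pf8401 h8401
  have h8403 := checkRangeG_sound parWF r2 pf8402 h8402
  have h8404 := checkRangeG_sound parWF r2 pf8403 h8403
  have h8405 := checkRangeG_sound parWF r2 pf8404 h8404
  have h8406 := checkRangeG_sound parWF r2 pf8405 h8405
  have h8407 := checkRangeG_sound parWF r2 pf8406 h8406
  have h8408 := checkRangeG_sound parWF r2 pf8407 h8407
  have h8409 := checkRangeG_sound parWF r2 pf8408 h8408
  have h8410 := checkRangeG_sound parWF r2 pf8409 h8409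
  have h8411 := checkRangeG_sound parWF r2 pf8410 h8410
  have h8412 := checkRangeG_sound parWF r2 pf8411 h8411
  have h8413 := checkRangeG_sound parWF r2 pf8412 h8412
  have h8414 := checkRangeG_sound parWF r2 pf8413 h8413
  have h8415 := checkRangeG_sound parWF r2 pf8414 h8414
  have h8416 := checkRangeG_sound parWF r2 pf8415 h8415
  have h8417 := checkRangeG_sound parWF r2 pf8416 h8416
  have h8418 := checkRangeG_sound parWF r2 pf8417 h8417
  have h8419 := checkRangeG_sound parWF r2 pf8418 h8418
  have h8420 := checkRangeG_sound parWF r2 pf8419 h8419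
  have h8421 := checkRangeG_sound parWF r2 pf8420 h8420
  have h8422 := checkRangeG_sound parWF r2 pf8421 h8421
  have h8423 := checkRangeG_sound parWF r2 pf8422 h8422
  have h8424 := checkRangeG_sound parWF r2 pf8423 h8423
  have h8425 := checkRangeG_sound parWF r2 pf8424 h8424
  have h8426 := checkRangeG_sound parWF r2 pf8425 h8425
  have h8427 := checkRangeG_sound parWF r2 pf8426 h8426
  have h8428 := checkRangeG_sound parWF r2 pf8427 h8427
  have h8429 := checkRangeG_sound parWF r2 pf8428 h8428
  have h8430 := checkRangeG_sound parWF r2 pf8429 h8429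
  have h8431 := checkRangeG_sound parWF r2 pf8430 h8430
  have h8432 := checkRangeG_sound parWF r2 pf8431 h8431
  have h8433 := checkRangeG_sound parWF r2 pf8432 h8432
  have h8434 := checkRangeG_sound parWF r2 pf8433 h8433
  have h8435 := checkRangeG_sound parWF r2 pf8434 h8434
  have h8436 := checkRangeG_sound parWF r2 pf8435 h8435
  have h8437 := checkRangeG_sound parWF r2 pf8436 h8436
  have h8438 := checkRangeG_sound parWF r2 pf8437 h8437
  have h8439 := checkRangeG_sound parWF r2 pf8438 h8438
  have h8440 := checkRangeG_sound parWF r2 pf8439 h8439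
  have h8441 := checkRangeG_sound parWF r2 pf8440 h8440
  have h8442 := checkRangeG_sound parWF r2 pf8441 h8441
  have h8443 := checkRangeG_sound parWF r2 pf8442 h8442
  have h8444 := checkRangeG_sound parWF r2 pf8443 h8443
  have h8445 := checkRangeG_sound parWF r2 pf8444 h8444
  have h8446 := checkRangeG_sound parWF r2 pf8445 h8445
  have h8447 := checkRangeG_sound parWF r2 pf8446 h8446
  have h8448 := checkRangeG_sound parWF r2 pf8447 h8447
  have h8449 := checkRangeG_sound parWF r2 pf8448 h8448
  have h8450 := checkRangeG_sound parWF r2 pf8449 h8449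
  exact h8450

theorem c169 (h8450 : ∀ j, j < 24925 → GoodG.{u} par (db j)) : ∀ j, j < 25088 → GoodG.{u} par (db j) := by
  have h8451 := checkRangeG_sound parWF r2 pf8450 h8450
  have h8452 := checkRangeG_sound parWF r2 pf8451 h8451
  have h8453 := checkRangeG_sound parWF r2 pf8452 h8452
  have h8454 := checkRangeG_sound parWF r2 pf8453 h8453
  have h8455 := checkRangeG_sound parWF r2 pf8454 h8454
  have h8456 := checkRangeG_sound parWF r2 pf8455 h8455
  have h8457 := checkRangeG_sound parWF r2 pf8456 h8456
  have h8458 := checkRangeG_sound parWF r2 pf8457 h8457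
  have h8459 := checkRangeG_sound parWF r2 pf8458 h8458
  have h8460 := checkRangeG_sound parWF r2 pf8459 h8459
  have h8461 := checkRangeG_sound parWF r2 pf8460 h8460
  have h8462 := checkRangeG_sound parWF r2 pf8461 h8461
  have h8463 := checkRangeG_sound parWF r2 pf8462 h8462
  have h8464 := checkRangeG_sound parWF r2 pf8463 h8463
  have h8465 := checkRangeG_sound parWF r2 pf8464 h8464
  have h8466 := checkRangeG_sound parWF r2 pf8465 h8465
  have h8467 := checkRangeG_sound parWF r2 pf8466 h8466
  have h8468 := checkRangeG_sound parWF r2 pf8467 h8467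
  have h8469 := checkRangeG_sound parWF r2 pf8468 h8468
  have h8470 := checkRangeG_sound parWF r2 pf8469 h8469
  have h8471 := checkRangeG_sound parWF r2 pf8470 h8470
  have h8472 := checkRangeG_sound parWF r2 pf8471 h8471
  have h8473 := checkRangeG_sound parWF r2 pf8472 h8472
  have h8474 := checkRangeG_sound parWF r2 pf8473 h8473
  have h8475 := checkRangeG_sound parWF r2 pf8474 h8474
  have h8476 := checkRangeG_sound parWF r2 pf8475 h8475
  have h8477 := checkRangeG_sound parWF r2 pf8476 h8476
  have h8478 := checkRangeG_sound parWF r2 pf8477 h8477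
  have h8479 := checkRangeG_sound parWF r2 pf8478 h8478
  have h8480 := checkRangeG_sound parWF r2 pf8479 h8479
  have h8481 := checkRangeG_sound parWF r2 pf8480 h8480
  have h8482 := checkRangeG_sound parWF r2 pf8481 h8481
  have h8483 := checkRangeG_sound parWF r2 pf8482 h8482
  have h8484 := checkRangeG_sound parWF r2 pf8483 h8483
  have h8485 := checkRangeG_sound parWF r2 pf8484 h8484
  have h8486 := checkRangeG_sound parWF r2 pf8485 h8485
  have h8487 := checkRangeG_sound parWF r2 pf8486 h8486
  have h8488 := checkRangeG_sound parWF r2 pf8487 h8487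
  have h8489 := checkRangeG_sound parWF r2 pf8488 h8488
  have h8490 := checkRangeG_sound parWF r2 pf8489 h8489
  have h8491 := checkRangeG_sound parWF r2 pf8490 h8490
  have h8492 := checkRangeG_sound parWF r2 pf8491 h8491
  have h8493 := checkRangeG_sound parWF r2 pf8492 h8492
  have h8494 := checkRangeG_sound parWF r2 pf8493 h8493
  have h8495 := checkRangeG_sound parWF r2 pf8494 h8494
  have h8496 := checkRangeG_sound parWF r2 pf8495 h8495
  have h8497 := checkRangeG_sound parWF r2 pf8496 h8496
  have h8498 := checkRangeG_sound parWF r2 pf8497 h8497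
  have h8499 := checkRangeG_sound parWF r2 pf8498 h8498
  have h8500 := checkRangeG_sound parWF r2 pf8499 h8499
  exact h8500

theorem c170 (h8500 : ∀ j, j < 25088 → GoodG.{u} par (db j)) : ∀ j, j < 25257 → GoodG.{u} par (db j) := by
  have h8501 := checkRangeG_sound parWF r2 pf8500 h8500
  have h8502 := checkRangeG_sound parWF r2 pf8501 h8501
  have h8503 := checkRangeG_sound parWF r2 pf8502 h8502
  have h8504 := checkRangeG_sound parWF r2 pf8503 h8503
  have h8505 := checkRangeG_sound parWF r2 pf8504 h8504
  have h8506 := checkRangeG_sound parWF r2 pf8505 h8505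
  have h8507 := checkRangeG_sound parWF r2 pf8506 h8506
  have h8508 := checkRangeG_sound parWF r2 pf8507 h8507
  have h8509 := checkRangeG_sound parWF r2 pf8508 h8508
  have h8510 := checkRangeG_sound parWF r2 pf8509 h8509
  have h8511 := checkRangeG_sound parWF r2 pf8510 h8510
  have h8512 := checkRangeG_sound parWF r2 pf8511 h8511
  have h8513 := checkRangeG_sound parWF r2 pf8512 h8512
  have h8514 := checkRangeG_sound parWF r2 pf8513 h8513
  have h8515 := checkRangeG_sound parWF r2 pf8514 h8514
  have h8516 := checkRangeG_sound parWF r2 pf8515 h8515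
  have h8517 := checkRangeG_sound parWF r2 pf8516 h8516
  have h8518 := checkRangeG_sound parWF r2 pf8517 h8517
  have h8519 := checkRangeG_sound parWF r2 pf8518 h8518
  have h8520 := checkRangeG_sound parWF r2 pf8519 h8519
  have h8521 := checkRangeG_sound parWF r2 pf8520 h8520
  have h8522 := checkRangeG_sound parWF r2 pf8521 h8521
  have h8523 := checkRangeG_sound parWF r2 pf8522 h8522
  have h8524 := checkRangeG_sound parWF r2 pf8523 h8523
  have h8525 := checkRangeG_sound parWF r2 pf8524 h8524
  have h8526 := checkRangeG_sound parWF r2 pf8525 h8525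
  have h8527 := checkRangeG_sound parWF r2 pf8526 h8526
  have h8528 := checkRangeG_sound parWF r2 pf8527 h8527
  have h8529 := checkRangeG_sound parWF r2 pf8528 h8528
  have h8530 := checkRangeG_sound parWF r2 pf8529 h8529
  have h8531 := checkRangeG_sound parWF r2 pf8530 h8530
  have h8532 := checkRangeG_sound parWF r2 pf8531 h8531
  have h8533 := checkRangeG_sound parWF r2 pf8532 h8532
  have h8534 := checkRangeG_sound parWF r2 pf8533 h8533
  have h8535 := checkRangeG_sound parWF r2 pf8534 h8534
  have h8536 := checkRangeG_sound parWF r2 pf8535 h8535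
  have h8537 := checkRangeG_sound parWF r2 pf8536 h8536
  have h8538 := checkRangeG_sound parWF r2 pf8537 h8537
  have h8539 := checkRangeG_sound parWF r2 pf8538 h8538
  have h8540 := checkRangeG_sound parWF r2 pf8539 h8539
  have h8541 := checkRangeG_sound parWF r2 pf8540 h8540
  have h8542 := checkRangeG_sound parWF r2 pf8541 h8541
  have h8543 := checkRangeG_sound parWF r2 pf8542 h8542
  have h8544 := checkRangeG_sound parWF r2 pf8543 h8543
  have h8545 := checkRangeG_sound parWF r2 pf8544 h8544
  have h8546 := checkRangeG_sound parWF r2 pf8545 h8545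
  have h8547 := checkRangeG_sound parWF r2 pf8546 h8546
  have h8548 := checkRangeG_sound parWF r2 pf8547 h8547
  have h8549 := checkRangeG_sound parWF r2 pf8548 h8548
  have h8550 := checkRangeG_sound parWF r2 pf8549 h8549
  exact h8550

theorem c171 (h8550 : ∀ j, j < 25257 → GoodG.{u} par (db j)) : ∀ j, j < 25422 → GoodG.{u} par (db j) := by
  have h8551 := checkRangeG_sound parWF r2 pf8550 h8550
  have h8552 := checkRangeG_sound parWF r2 pf8551 h8551
  have h8553 := checkRangeG_sound parWF r2 pf8552 h8552
  have h8554 := checkRangeG_sound parWF r2 pf8553 h8553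
  have h8555 := checkRangeG_sound parWF r2 pf8554 h8554
  have h8556 := checkRangeG_sound parWF r2 pf8555 h8555
  have h8557 := checkRangeG_sound parWF r2 pf8556 h8556
  have h8558 := checkRangeG_sound parWF r2 pf8557 h8557
  have h8559 := checkRangeG_sound parWF r2 pf8558 h8558
  have h8560 := checkRangeG_sound parWF r2 pf8559 h8559
  have h8561 := checkRangeG_sound parWF r2 pf8560 h8560
  have h8562 := checkRangeG_sound parWF r2 pf8561 h8561
  have h8563 := checkRangeG_sound parWF r2 pf8562 h8562
  have h8564 := checkRangeG_sound parWF r2 pf8563 h8563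
  have h8565 := checkRangeG_sound parWF r2 pf8564 h8564
  have h8566 := checkRangeG_sound parWF r2 pf8565 h8565
  have h8567 := checkRangeG_sound parWF r2 pf8566 h8566
  have h8568 := checkRangeG_sound parWF r2 pf8567 h8567
  have h8569 := checkRangeG_sound parWF r2 pf8568 h8568
  have h8570 := checkRangeG_sound parWF r2 pf8569 h8569
  have h8571 := checkRangeG_sound parWF r2 pf8570 h8570
  have h8572 := checkRangeG_sound parWF r2 pf8571 h8571
  have h8573 := checkRangeG_sound parWF r2 pf8572 h8572
  have h8574 := checkRangeG_sound parWF r2 pf8573 h8573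
  have h8575 := checkRangeG_sound parWF r2 pf8574 h8574
  have h8576 := checkRangeG_sound parWF r2 pf8575 h8575
  have h8577 := checkRangeG_sound parWF r2 pf8576 h8576
  have h8578 := checkRangeG_sound parWF r2 pf8577 h8577
  have h8579 := checkRangeG_sound parWF r2 pf8578 h8578
  have h8580 := checkRangeG_sound parWF r2 pf8579 h8579
  have h8581 := checkRangeG_sound parWF r2 pf8580 h8580
  have h8582 := checkRangeG_sound parWF r2 pf8581 h8581
  have h8583 := checkRangeG_sound parWF r2 pf8582 h8582
  have h8584 := checkRangeG_sound parWF r2 pf8583 h8583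
  have h8585 := checkRangeG_sound parWF r2 pf8584 h8584
  have h8586 := checkRangeG_sound parWF r2 pf8585 h8585
  have h8587 := checkRangeG_sound parWF r2 pf8586 h8586
  have h8588 := checkRangeG_sound parWF r2 pf8587 h8587
  have h8589 := checkRangeG_sound parWF r2 pf8588 h8588
  have h8590 := checkRangeG_sound parWF r2 pf8589 h8589
  have h8591 := checkRangeG_sound parWF r2 pf8590 h8590
  have h8592 := checkRangeG_sound parWF r2 pf8591 h8591
  have h8593 := checkRangeG_sound parWF r2 pf8592 h8592
  have h8594 := checkRangeG_sound parWF r2 pf8593 h8593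
  have h8595 := checkRangeG_sound parWF r2 pf8594 h8594
  have h8596 := checkRangeG_sound parWF r2 pf8595 h8595
  have h8597 := checkRangeG_sound parWF r2 pf8596 h8596
  have h8598 := checkRangeG_sound parWF r2 pf8597 h8597
  have h8599 := checkRangeG_sound parWF r2 pf8598 h8598
  have h8600 := checkRangeG_sound parWF r2 pf8599 h8599
  exact h8600

theorem c172 (h8600 : ∀ j, j < 25422 → GoodG.{u} par (db j)) : ∀ j, j < 25595 → GoodG.{u} par (db j) := by
  have h8601 := checkRangeG_sound parWF r2 pf8600 h8600
  have h8602 := checkRangeG_sound parWF r2 pf8601 h8601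
  have h8603 := checkRangeG_sound parWF r2 pf8602 h8602
  have h8604 := checkRangeG_sound parWF r2 pf8603 h8603
  have h8605 := checkRangeG_sound parWF r2 pf8604 h8604
  have h8606 := checkRangeG_sound parWF r2 pf8605 h8605
  have h8607 := checkRangeG_sound parWF r2 pf8606 h8606
  have h8608 := checkRangeG_sound parWF r2 pf8607 h8607
  have h8609 := checkRangeG_sound parWF r2 pf8608 h8608
  have h8610 := checkRangeG_sound parWF r2 pf8609 h8609
  have h8611 := checkRangeG_sound parWF r2 pf8610 h8610
  have h8612 := checkRangeG_sound parWF r2 pf8611 h8611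
  have h8613 := checkRangeG_sound parWF r2 pf8612 h8612
  have h8614 := checkRangeG_sound parWF r2 pf8613 h8613
  have h8615 := checkRangeG_sound parWF r2 pf8614 h8614
  have h8616 := checkRangeG_sound parWF r2 pf8615 h8615
  have h8617 := checkRangeG_sound parWF r2 pf8616 h8616
  have h8618 := checkRangeG_sound parWF r2 pf8617 h8617
  have h8619 := checkRangeG_sound parWF r2 pf8618 h8618
  have h8620 := checkRangeG_sound parWF r2 pf8619 h8619
  have h8621 := checkRangeG_sound parWF r2 pf8620 h8620
  have h8622 := checkRangeG_sound parWF r2 pf8621 h8621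
  have h8623 := checkRangeG_sound parWF r2 pf8622 h8622
  have h8624 := checkRangeG_sound parWF r2 pf8623 h8623
  have h8625 := checkRangeG_sound parWF r2 pf8624 h8624
  have h8626 := checkRangeG_sound parWF r2 pf8625 h8625
  have h8627 := checkRangeG_sound parWF r2 pf8626 h8626
  have h8628 := checkRangeG_sound parWF r2 pf8627 h8627
  have h8629 := checkRangeG_sound parWF r2 pf8628 h8628
  have h8630 := checkRangeG_sound parWF r2 pf8629 h8629
  have h8631 := checkRangeG_sound parWF r2 pf8630 h8630
  have h8632 := checkRangeG_sound parWF r2 pf8631 h8631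
  have h8633 := checkRangeG_sound parWF r2 pf8632 h8632
  have h8634 := checkRangeG_sound parWF r2 pf8633 h8633
  have h8635 := checkRangeG_sound parWF r2 pf8634 h8634
  have h8636 := checkRangeG_sound parWF r2 pf8635 h8635
  have h8637 := checkRangeG_sound parWF r2 pf8636 h8636
  have h8638 := checkRangeG_sound parWF r2 pf8637 h8637
  have h8639 := checkRangeG_sound parWF r2 pf8638 h8638
  have h8640 := checkRangeG_sound parWF r2 pf8639 h8639
  have h8641 := checkRangeG_sound parWF r2 pf8640 h8640
  have h8642 := checkRangeG_sound parWF r2 pf8641 h8641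
  have h8643 := checkRangeG_sound parWF r2 pf8642 h8642
  have h8644 := checkRangeG_sound parWF r2 pf8643 h8643
  have h8645 := checkRangeG_sound parWF r2 pf8644 h8644
  have h8646 := checkRangeG_sound parWF r2 pf8645 h8645
  have h8647 := checkRangeG_sound parWF r2 pf8646 h8646
  have h8648 := checkRangeG_sound parWF r2 pf8647 h8647
  have h8649 := checkRangeG_sound parWF r2 pf8648 h8648
  have h8650 := checkRangeG_sound parWF r2 pf8649 h8649
  exact h8650

theorem c173 (h8650 : ∀ j, j < 25595 → GoodG.{u} par (db j)) : ∀ j, j < 25768 → GoodG.{u} par (db j) := by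
  have h8651 := checkRangeG_sound parWF r2 pf8650 h8650
  have h8652 := checkRangeG_sound parWF r2 pf8651 h8651
  have h8653 := checkRangeG_sound parWF r2 pf8652 h8652
  have h8654 := checkRangeG_sound parWF r2 pf8653 h8653
  have h8655 := checkRangeG_sound parWF r2 pf8654 h8654
  have h8656 := checkRangeG_sound parWF r2 pf8655 h8655
  have h8657 := checkRangeG_sound parWF r2 pf8656 h8656
  have h8658 := checkRangeG_sound parWF r2 pf8657 h8657
  have h8659 := checkRangeG_sound parWF r2 pf8658 h8658
  have h8660 := checkRangeG_sound parWF r2 pf8659 h8659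
  have h8661 := checkRangeG_sound parWF r2 pf8660 h8660
  have h8662 := checkRangeG_sound parWF r2 pf8661 h8661
  have h8663 := checkRangeG_sound parWF r2 pf8662 h8662
  have h8664 := checkRangeG_sound parWF r2 pf8663 h8663
  have h8665 := checkRangeG_sound parWF r2 pf8664 h8664
  have h8666 := checkRangeG_sound parWF r2 pf8665 h8665
  have h8667 := checkRangeG_sound parWF r2 pf8666 h8666
  have h8668 := checkRangeG_sound parWF r2 pf8667 h8667
  have h8669 := checkRangeG_sound parWF r2 pf8668 h8668
  have h8670 := checkRangeG_sound parWF r2 pf8669 h8669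
  have h8671 := checkRangeG_sound parWF r2 pf8670 h8670
  have h8672 := checkRangeG_sound parWF r2 pf8671 h8671
  have h8673 := checkRangeG_sound parWF r2 pf8672 h8672
  have h8674 := checkRangeG_sound parWF r2 pf8673 h8673
  have h8675 := checkRangeG_sound parWF r2 pf8674 h8674
  have h8676 := checkRangeG_sound parWF r2 pf8675 h8675
  have h8677 := checkRangeG_sound parWF r2 pf8676 h8676
  have h8678 := checkRangeG_sound parWF r2 pf8677 h8677
  have h8679 := checkRangeG_sound parWF r2 pf8678 h8678
  have h8680 := checkRangeG_sound parWF r2 pf8679 h8679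
  have h8681 := checkRangeG_sound parWF r2 pf8680 h8680
  have h8682 := checkRangeG_sound parWF r2 pf8681 h8681
  have h8683 := checkRangeG_sound parWF r2 pf8682 h8682
  have h8684 := checkRangeG_sound parWF r2 pf8683 h8683
  have h8685 := checkRangeG_sound parWF r2 pf8684 h8684
  have h8686 := checkRangeG_sound parWF r2 pf8685 h8685
  have h8687 := checkRangeG_sound parWF r2 pf8686 h8686
  have h8688 := checkRangeG_sound parWF r2 pf8687 h8687
  have h8689 := checkRangeG_sound parWF r2 pf8688 h8688
  have h8690 := checkRangeG_sound parWF r2 pf8689 h8689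
  have h8691 := checkRangeG_sound parWF r2 pf8690 h8690
  have h8692 := checkRangeG_sound parWF r2 pf8691 h8691
  have h8693 := checkRangeG_sound parWF r2 pf8692 h8692
  have h8694 := checkRangeG_sound parWF r2 pf8693 h8693
  have h8695 := checkRangeG_sound parWF r2 pf8694 h8694
  have h8696 := checkRangeG_sound parWF r2 pf8695 h8695
  have h8697 := checkRangeG_sound parWF r2 pf8696 h8696
  have h8698 := checkRangeG_sound parWF r2 pf8697 h8697
  have h8699 := checkRangeG_sound parWF r2 pf8698 h8698
  have h8700 := checkRangeG_sound parWF r2 pf8699 h8699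
  exact h8700

theorem c174 (h8700 : ∀ j, j < 25768 → GoodG.{u} par (db j)) : ∀ j, j < 25941 → GoodG.{u} par (db j) := by
  have h8701 := checkRangeG_sound parWF r2 pf8700 h8700
  have h8702 := checkRangeG_sound parWF r2 pf8701 h8701
  have h8703 := checkRangeG_sound parWF r2 pf8702 h8702
  have h8704 := checkRangeG_sound parWF r2 pf8703 h8703
  have h8705 := checkRangeG_sound parWF r2 pf8704 h8704
  have h8706 := checkRangeG_sound parWF r2 pf8705 h8705
  have h8707 := checkRangeG_sound parWF r2 pf8706 h8706
  have h8708 := checkRangeG_sound parWF r2 pf8707 h8707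
  have h8709 := checkRangeG_sound parWF r2 pf8708 h8708
  have h8710 := checkRangeG_sound parWF r2 pf8709 h8709
  have h8711 := checkRangeG_sound parWF r2 pf8710 h8710
  have h8712 := checkRangeG_sound parWF r2 pf8711 h8711
  have h8713 := checkRangeG_sound parWF r2 pf8712 h8712
  have h8714 := checkRangeG_sound parWF r2 pf8713 h8713
  have h8715 := checkRangeG_sound parWF r2 pf8714 h8714
  have h8716 := checkRangeG_sound parWF r2 pf8715 h8715
  have h8717 := checkRangeG_sound parWF r2 pf8716 h8716
  have h8718 := checkRangeG_sound parWF r2 pf8717 h8717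
  have h8719 := checkRangeG_sound parWF r2 pf8718 h8718
  have h8720 := checkRangeG_sound parWF r2 pf8719 h8719
  have h8721 := checkRangeG_sound parWF r2 pf8720 h8720
  have h8722 := checkRangeG_sound parWF r2 pf8721 h8721
  have h8723 := checkRangeG_sound parWF r2 pf8722 h8722
  have h8724 := checkRangeG_sound parWF r2 pf8723 h8723
  have h8725 := checkRangeG_sound parWF r2 pf8724 h8724
  have h8726 := checkRangeG_sound parWF r2 pf8725 h8725
  have h8727 := checkRangeG_sound parWF r2 pf8726 h8726
  have h8728 := checkRangeG_sound parWF r2 pf8727 h8727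
  have h8729 := checkRangeG_sound parWF r2 pf8728 h8728
  have h8730 := checkRangeG_sound parWF r2 pf8729 h8729
  have h8731 := checkRangeG_sound parWF r2 pf8730 h8730
  have h8732 := checkRangeG_sound parWF r2 pf8731 h8731
  have h8733 := checkRangeG_sound parWF r2 pf8732 h8732
  have h8734 := checkRangeG_sound parWF r2 pf8733 h8733
  have h8735 := checkRangeG_sound parWF r2 pf8734 h8734
  have h8736 := checkRangeG_sound parWF r2 pf8735 h8735
  have h8737 := checkRangeG_sound parWF r2 pf8736 h8736
  have h8738 := checkRangeG_sound parWF r2 pf8737 h8737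
  have h8739 := checkRangeG_sound parWF r2 pf8738 h8738
  have h8740 := checkRangeG_sound parWF r2 pf8739 h8739
  have h8741 := checkRangeG_sound parWF r2 pf8740 h8740
  have h8742 := checkRangeG_sound parWF r2 pf8741 h8741
  have h8743 := checkRangeG_sound parWF r2 pf8742 h8742
  have h8744 := checkRangeG_sound parWF r2 pf8743 h8743
  have h8745 := checkRangeG_sound parWF r2 pf8744 h8744
  have h8746 := checkRangeG_sound parWF r2 pf8745 h8745
  have h8747 := checkRangeG_sound parWF r2 pf8746 h8746
  have h8748 := checkRangeG_sound parWF r2 pf8747 h8747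
  have h8749 := checkRangeG_sound parWF r2 pf8748 h8748
  have h8750 := checkRangeG_sound parWF r2 pf8749 h8749
  exact h8750

theorem c175 (h8750 : ∀ j, j < 25941 → GoodG.{u} par (db j)) : ∀ j, j < 26087 → GoodG.{u} par (db j) := by
  have h8751 := checkRangeG_sound parWF r2 pf8750 h8750
  have h8752 := checkRangeG_sound parWF r2 pf8751 h8751
  have h8753 := checkRangeG_sound parWF r2 pf8752 h8752
  have h8754 := checkRangeG_sound parWF r2 pf8753 h8753
  have h8755 := checkRangeG_sound parWF r2 pf8754 h8754
  have h8756 := checkRangeG_sound parWF r2 pf8755 h8755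
  have h8757 := checkRangeG_sound parWF r2 pf8756 h8756
  have h8758 := checkRangeG_sound parWF r2 pf8757 h8757
  have h8759 := checkRangeG_sound parWF r2 pf8758 h8758
  have h8760 := checkRangeG_sound parWF r2 pf8759 h8759
  have h8761 := checkRangeG_sound parWF r2 pf8760 h8760
  have h8762 := checkRangeG_sound parWF r2 pf8761 h8761
  have h8763 := checkRangeG_sound parWF r2 pf8762 h8762
  have h8764 := checkRangeG_sound parWF r2 pf8763 h8763
  have h8765 := checkRangeG_sound parWF r2 pf8764 h8764
  have h8766 := checkRangeG_sound parWF r2 pf8765 h8765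
  have h8767 := checkRangeG_sound parWF r2 pf8766 h8766
  have h8768 := checkRangeG_sound parWF r2 pf8767 h8767
  have h8769 := checkRangeG_sound parWF r2 pf8768 h8768
  have h8770 := checkRangeG_sound parWF r2 pf8769 h8769
  have h8771 := checkRangeG_sound parWF r2 pf8770 h8770
  have h8772 := checkRangeG_sound parWF r2 pf8771 h8771
  have h8773 := checkRangeG_sound parWF r2 pf8772 h8772
  have h8774 := checkRangeG_sound parWF r2 pf8773 h8773
  have h8775 := checkRangeG_sound parWF r2 pf8774 h8774
  have h8776 := checkRangeG_sound parWF r2 pf8775 h8775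
  have h8777 := checkRangeG_sound parWF r2 pf8776 h8776
  have h8778 := checkRangeG_sound parWF r2 pf8777 h8777
  have h8779 := checkRangeG_sound parWF r2 pf8778 h8778
  have h8780 := checkRangeG_sound parWF r2 pf8779 h8779
  have h8781 := checkRangeG_sound parWF r2 pf8780 h8780
  have h8782 := checkRangeG_sound parWF r2 pf8781 h8781
  have h8783 := checkRangeG_sound parWF r2 pf8782 h8782
  have h8784 := checkRangeG_sound parWF r2 pf8783 h8783
  have h8785 := checkRangeG_sound parWF r2 pf8784 h8784
  have h8786 := checkRangeG_sound parWF r2 pf8785 h8785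
  have h8787 := checkRangeG_sound parWF r2 pf8786 h8786
  have h8788 := checkRangeG_sound parWF r2 pf8787 h8787
  have h8789 := checkRangeG_sound parWF r2 pf8788 h8788
  have h8790 := checkRangeG_sound parWF r2 pf8789 h8789
  have h8791 := checkRangeG_sound parWF r2 pf8790 h8790
  have h8792 := checkRangeG_sound parWF r2 pf8791 h8791
  have h8793 := checkRangeG_sound parWF r2 pf8792 h8792
  have h8794 := checkRangeG_sound parWF r2 pf8793 h8793
  have h8795 := checkRangeG_sound parWF r2 pf8794 h8794
  have h8796 := checkRangeG_sound parWF r2 pf8795 h8795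
  have h8797 := checkRangeG_sound parWF r2 pf8796 h8796
  have h8798 := checkRangeG_sound parWF r2 pf8797 h8797
  have h8799 := checkRangeG_sound parWF r2 pf8798 h8798
  have h8800 := checkRangeG_sound parWF r2 pf8799 h8799
  exact h8800

theorem c176 (h8800 : ∀ j, j < 26087 → GoodG.{u} par (db j)) : ∀ j, j < 26266 → GoodG.{u} par (db j) := by
  have h8801 := checkRangeG_sound parWF r2 pf8800 h8800
  have h8802 := checkRangeG_sound parWF r2 pf8801 h8801
  have h8803 := checkRangeG_sound parWF r2 pf8802 h8802
  have h8804 := checkRangeG_sound parWF r2 pf8803 h8803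
  have h8805 := checkRangeG_sound parWF r2 pf8804 h8804
  have h8806 := checkRangeG_sound parWF r2 pf8805 h8805
  have h8807 := checkRangeG_sound parWF r2 pf8806 h8806
  have h8808 := checkRangeG_sound parWF r2 pf8807 h8807
  have h8809 := checkRangeG_sound parWF r2 pf8808 h8808
  have h8810 := checkRangeG_sound parWF r2 pf8809 h8809
  have h8811 := checkRangeG_sound parWF r2 pf8810 h8810
  have h8812 := checkRangeG_sound parWF r2 pf8811 h8811
  have h8813 := checkRangeG_sound parWF r2 pf8812 h8812
  have h8814 := checkRangeG_sound parWF r2 pf8813 h8813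
  have h8815 := checkRangeG_sound parWF r2 pf8814 h8814
  have h8816 := checkRangeG_sound parWF r2 pf8815 h8815
  have h8817 := checkRangeG_sound parWF r2 pf8816 h8816
  have h8818 := checkRangeG_sound parWF r2 pf8817 h8817
  have h8819 := checkRangeG_sound parWF r2 pf8818 h8818
  have h8820 := checkRangeG_sound parWF r2 pf8819 h8819
  have h8821 := checkRangeG_sound parWF r2 pf8820 h8820
  have h8822 := checkRangeG_sound parWF r2 pf8821 h8821
  have h8823 := checkRangeG_sound parWF r2 pf8822 h8822
  have h8824 := checkRangeG_sound parWF r2 pf8823 h8823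
  have h8825 := checkRangeG_sound parWF r2 pf8824 h8824
  have h8826 := checkRangeG_sound parWF r2 pf8825 h8825
  have h8827 := checkRangeG_sound parWF r2 pf8826 h8826
  have h8828 := checkRangeG_sound parWF r2 pf8827 h8827
  have h8829 := checkRangeG_sound parWF r2 pf8828 h8828
  have h8830 := checkRangeG_sound parWF r2 pf8829 h8829
  have h8831 := checkRangeG_sound parWF r2 pf8830 h8830
  have h8832 := checkRangeG_sound parWF r2 pf8831 h8831
  have h8833 := checkRangeG_sound parWF r2 pf8832 h8832
  have h8834 := checkRangeG_sound parWF r2 pf8833 h8833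
  have h8835 := checkRangeG_sound parWF r2 pf8834 h8834
  have h8836 := checkRangeG_sound parWF r2 pf8835 h8835
  have h8837 := checkRangeG_sound parWF r2 pf8836 h8836
  have h8838 := checkRangeG_sound parWF r2 pf8837 h8837
  have h8839 := checkRangeG_sound parWF r2 pf8838 h8838
  have h8840 := checkRangeG_sound parWF r2 pf8839 h8839
  have h8841 := checkRangeG_sound parWF r2 pf8840 h8840
  have h8842 := checkRangeG_sound parWF r2 pf8841 h8841
  have h8843 := checkRangeG_sound parWF r2 pf8842 h8842
  have h8844 := checkRangeG_sound parWF r2 pf8843 h8843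
  have h8845 := checkRangeG_sound parWF r2 pf8844 h8844
  have h8846 := checkRangeG_sound parWF r2 pf8845 h8845
  have h8847 := checkRangeG_sound parWF r2 pf8846 h8846
  have h8848 := checkRangeG_sound parWF r2 pf8847 h8847
  have h8849 := checkRangeG_sound parWF r2 pf8848 h8848
  have h8850 := checkRangeG_sound parWF r2 pf8849 h8849
  exact h8850

theorem c177 (h8850 : ∀ j, j < 26266 → GoodG.{u} par (db j)) : ∀ j, j < 26430 → GoodG.{u} par (db j) := by
  have h8851 := checkRangeG_sound parWF r2 pf8850 h8850
  have h8852 := checkRangeG_sound parWF r2 pf8851 h8851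
  have h8853 := checkRangeG_sound parWF r2 pf8852 h8852
  have h8854 := checkRangeG_sound parWF r2 pf8853 h8853
  have h8855 := checkRangeG_sound parWF r2 pf8854 h8854
  have h8856 := checkRangeG_sound parWF r2 pf8855 h8855
  have h8857 := checkRangeG_sound parWF r2 pf8856 h8856
  have h8858 := checkRangeG_sound parWF r2 pf8857 h8857
  have h8859 := checkRangeG_sound parWF r2 pf8858 h8858
  have h8860 := checkRangeG_sound parWF r2 pf8859 h8859
  have h8861 := checkRangeG_sound parWF r2 pf8860 h8860
  have h8862 := checkRangeG_sound parWF r2 pf8861 h8861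
  have h8863 := checkRangeG_sound parWF r2 pf8862 h8862
  have h8864 := checkRangeG_sound parWF r2 pf8863 h8863
  have h8865 := checkRangeG_sound parWF r2 pf8864 h8864
  have h8866 := checkRangeG_sound parWF r2 pf8865 h8865
  have h8867 := checkRangeG_sound parWF r2 pf8866 h8866
  have h8868 := checkRangeG_sound parWF r2 pf8867 h8867
  have h8869 := checkRangeG_sound parWF r2 pf8868 h8868
  have h8870 := checkRangeG_sound parWF r2 pf8869 h8869
  have h8871 := checkRangeG_sound parWF r2 pf8870 h8870
  have h8872 := checkRangeG_sound parWF r2 pf8871 h8871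
  have h8873 := checkRangeG_sound parWF r2 pf8872 h8872
  have h8874 := checkRangeG_sound parWF r2 pf8873 h8873
  have h8875 := checkRangeG_sound parWF r2 pf8874 h8874
  have h8876 := checkRangeG_sound parWF r2 pf8875 h8875
  have h8877 := checkRangeG_sound parWF r2 pf8876 h8876
  have h8878 := checkRangeG_sound parWF r2 pf8877 h8877
  have h8879 := checkRangeG_sound parWF r2 pf8878 h8878
  have h8880 := checkRangeG_sound parWF r2 pf8879 h8879
  have h8881 := checkRangeG_sound parWF r2 pf8880 h8880
  have h8882 := checkRangeG_sound parWF r2 pf8881 h8881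
  have h8883 := checkRangeG_sound parWF r2 pf8882 h8882
  have h8884 := checkRangeG_sound parWF r2 pf8883 h8883
  have h8885 := checkRangeG_sound parWF r2 pf8884 h8884
  have h8886 := checkRangeG_sound parWF r2 pf8885 h8885
  have h8887 := checkRangeG_sound parWF r2 pf8886 h8886
  have h8888 := checkRangeG_sound parWF r2 pf8887 h8887
  have h8889 := checkRangeG_sound parWF r2 pf8888 h8888
  have h8890 := checkRangeG_sound parWF r2 pf8889 h8889
  have h8891 := checkRangeG_sound parWF r2 pf8890 h8890
  have h8892 := checkRangeG_sound parWF r2 pf8891 h8891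
  have h8893 := checkRangeG_sound parWF r2 pf8892 h8892
  have h8894 := checkRangeG_sound parWF r2 pf8893 h8893
  have h8895 := checkRangeG_sound parWF r2 pf8894 h8894
  have h8896 := checkRangeG_sound parWF r2 pf8895 h8895
  have h8897 := checkRangeG_sound parWF r2 pf8896 h8896
  have h8898 := checkRangeG_sound parWF r2 pf8897 h8897
  have h8899 := checkRangeG_sound parWF r2 pf8898 h8898
  have h8900 := checkRangeG_sound parWF r2 pf8899 h8899
  exact h8900

theorem c178 (h8900 : ∀ j, j < 26430 → GoodG.{u} par (db j)) : ∀ j, j < 26611 → GoodG.{u} par (db j) := by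
  have h8901 := checkRangeG_sound parWF r2 pf8900 h8900
  have h8902 := checkRangeG_sound parWF r2 pf8901 h8901
  have h8903 := checkRangeG_sound parWF r2 pf8902 h8902
  have h8904 := checkRangeG_sound parWF r2 pf8903 h8903
  have h8905 := checkRangeG_sound parWF r2 pf8904 h8904
  have h8906 := checkRangeG_sound parWF r2 pf8905 h8905
  have h8907 := checkRangeG_sound parWF r2 pf8906 h8906
  have h8908 := checkRangeG_sound parWF r2 pf8907 h8907
  have h8909 := checkRangeG_sound parWF r2 pf8908 h8908
  have h8910 := checkRangeG_sound parWF r2 pf8909 h8909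
  have h8911 := checkRangeG_sound parWF r2 pf8910 h8910
  have h8912 := checkRangeG_sound parWF r2 pf8911 h8911
  have h8913 := checkRangeG_sound parWF r2 pf8912 h8912
  have h8914 := checkRangeG_sound parWF r2 pf8913 h8913
  have h8915 := checkRangeG_sound parWF r2 pf8914 h8914
  have h8916 := checkRangeG_sound parWF r2 pf8915 h8915
  have h8917 := checkRangeG_sound parWF r2 pf8916 h8916
  have h8918 := checkRangeG_sound parWF r2 pf8917 h8917
  have h8919 := checkRangeG_sound parWF r2 pf8918 h8918
  have h8920 := checkRangeG_sound parWF r2 pf8919 h8919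
  have h8921 := checkRangeG_sound parWF r2 pf8920 h8920
  have h8922 := checkRangeG_sound parWF r2 pf8921 h8921
  have h8923 := checkRangeG_sound parWF r2 pf8922 h8922
  have h8924 := checkRangeG_sound parWF r2 pf8923 h8923
  have h8925 := checkRangeG_sound parWF r2 pf8924 h8924
  have h8926 := checkRangeG_sound parWF r2 pf8925 h8925
  have h8927 := checkRangeG_sound parWF r2 pf8926 h8926
  have h8928 := checkRangeG_sound parWF r2 pf8927 h8927
  have h8929 := checkRangeG_sound parWF r2 pf8928 h8928
  have h8930 := checkRangeG_sound parWF r2 pf8929 h8929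
  have h8931 := checkRangeG_sound parWF r2 pf8930 h8930
  have h8932 := checkRangeG_sound parWF r2 pf8931 h8931
  have h8933 := checkRangeG_sound parWF r2 pf8932 h8932
  have h8934 := checkRangeG_sound parWF r2 pf8933 h8933
  have h8935 := checkRangeG_sound parWF r2 pf8934 h8934
  have h8936 := checkRangeG_sound parWF r2 pf8935 h8935
  have h8937 := checkRangeG_sound parWF r2 pf8936 h8936
  have h8938 := checkRangeG_sound parWF r2 pf8937 h8937
  have h8939 := checkRangeG_sound parWF r2 pf8938 h8938
  have h8940 := checkRangeG_sound parWF r2 pf8939 h8939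
  have h8941 := checkRangeG_sound parWF r2 pf8940 h8940
  have h8942 := checkRangeG_sound parWF r2 pf8941 h8941
  have h8943 := checkRangeG_sound parWF r2 pf8942 h8942
  have h8944 := checkRangeG_sound parWF r2 pf8943 h8943
  have h8945 := checkRangeG_sound parWF r2 pf8944 h8944
  have h8946 := checkRangeG_sound parWF r2 pf8945 h8945
  have h8947 := checkRangeG_sound parWF r2 pf8946 h8946
  have h8948 := checkRangeG_sound parWF r2 pf8947 h8947
  have h8949 := checkRangeG_sound parWF r2 pf8948 h8948
  have h8950 := checkRangeG_sound parWF r2 pf8949 h8949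
  exact h8950

theorem c179 (h8950 : ∀ j, j < 26611 → GoodG.{u} par (db j)) : ∀ j, j < 26745 → GoodG.{u} par (db j) := by
  have h8951 := checkRangeG_sound parWF r2 pf8950 h8950
  have h8952 := checkRangeG_sound parWF r2 pf8951 h8951
  have h8953 := checkRangeG_sound parWF r2 pf8952 h8952
  have h8954 := checkRangeG_sound parWF r2 pf8953 h8953
  have h8955 := checkRangeG_sound parWF r2 pf8954 h8954
  have h8956 := checkRangeG_sound parWF r2 pf8955 h8955
  have h8957 := checkRangeG_sound parWF r2 pf8956 h8956
  have h8958 := checkRangeG_sound parWF r2 pf8957 h8957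
  have h8959 := checkRangeG_sound parWF r2 pf8958 h8958
  have h8960 := checkRangeG_sound parWF r2 pf8959 h8959
  have h8961 := checkRangeG_sound parWF r2 pf8960 h8960
  have h8962 := checkRangeG_sound parWF r2 pf8961 h8961
  have h8963 := checkRangeG_sound parWF r2 pf8962 h8962
  have h8964 := checkRangeG_sound parWF r2 pf8963 h8963
  have h8965 := checkRangeG_sound parWF r2 pf8964 h8964
  have h8966 := checkRangeG_sound parWF r2 pf8965 h8965
  have h8967 := checkRangeG_sound parWF r2 pf8966 h8966
  have h8968 := checkRangeG_sound parWF r2 pf8967 h8967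
  have h8969 := checkRangeG_sound parWF r2 pf8968 h8968
  have h8970 := checkRangeG_sound parWF r2 pf8969 h8969
  have h8971 := checkRangeG_sound parWF r2 pf8970 h8970
  have h8972 := checkRangeG_sound parWF r2 pf8971 h8971
  have h8973 := checkRangeG_sound parWF r2 pf8972 h8972
  have h8974 := checkRangeG_sound parWF r2 pf8973 h8973
  have h8975 := checkRangeG_sound parWF r2 pf8974 h8974
  have h8976 := checkRangeG_sound parWF r2 pf8975 h8975
  have h8977 := checkRangeG_sound parWF r2 pf8976 h8976
  have h8978 := checkRangeG_sound parWF r2 pf8977 h8977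
  have h8979 := checkRangeG_sound parWF r2 pf8978 h8978
  have h8980 := checkRangeG_sound parWF r2 pf8979 h8979
  have h8981 := checkRangeG_sound parWF r2 pf8980 h8980
  have h8982 := checkRangeG_sound parWF r2 pf8981 h8981
  have h8983 := checkRangeG_sound parWF r2 pf8982 h8982
  have h8984 := checkRangeG_sound parWF r2 pf8983 h8983
  have h8985 := checkRangeG_sound parWF r2 pf8984 h8984
  have h8986 := checkRangeG_sound parWF r2 pf8985 h8985
  have h8987 := checkRangeG_sound parWF r2 pf8986 h8986
  have h8988 := checkRangeG_sound parWF r2 pf8987 h8987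
  have h8989 := checkRangeG_sound parWF r2 pf8988 h8988
  have h8990 := checkRangeG_sound parWF r2 pf8989 h8989
  have h8991 := checkRangeG_sound parWF r2 pf8990 h8990
  have h8992 := checkRangeG_sound parWF r2 pf8991 h8991
  have h8993 := checkRangeG_sound parWF r2 pf8992 h8992
  have h8994 := checkRangeG_sound parWF r2 pf8993 h8993
  have h8995 := checkRangeG_sound parWF r2 pf8994 h8994
  have h8996 := checkRangeG_sound parWF r2 pf8995 h8995
  have h8997 := checkRangeG_sound parWF r2 pf8996 h8996
  have h8998 := checkRangeG_sound parWF r2 pf8997 h8997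
  have h8999 := checkRangeG_sound parWF r2 pf8998 h8998
  have h9000 := checkRangeG_sound parWF r2 pf8999 h8999
  exact h9000


end Vale.Agent.P045g.C61
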