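import Vale.Agent.P045g.C61.WF
import Vale.Agent.P045g.C61.Pf150
import Vale.Agent.P045g.C61.Pf151
import Vale.Agent.P045g.C61.Pf152
import Vale.Agent.P045g.C61.Pf153
import Vale.Agent.P045g.C61.Pf154
import Vale.Agent.P045g.C61.Pf155
import Vale.Agent.P045g.C61.Pf156
import Vale.Agent.P045g.C61.Pf157
import Vale.Agent.P045g.C61.Pf158
import Vale.Agent.P045g.C61.Pf159

namespace Vale.Agent.P045g.C61

open Vale.Agent.P045b Vale.Agent.P045g

universe u

theorem c180 (h9000 : ∀ j, j < 26745 → GoodG.{u} par (db j)) : ∀ j, j < 26869 → GoodG.{u} par (db j) := by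
  have h9001 := checkRangeG_sound parWF r2 pf9000 h9000
  have h9002 := checkRangeG_sound parWF r2 pf9001 h9001
  have h9003 := checkRangeG_sound parWF r2 pf9002 h9002
  have h9004 := checkRangeG_sound parWF r2 pf9003 h9003
  have h9005 := checkRangeG_sound parWF r2 pf9004 h9004
  have h9006 := checkRangeG_sound parWF r2 pf9005 h9005
  have h9007 := checkRangeG_sound parWF r2 pf9006 h9006
  have h9008 := checkRangeG_sound parWF r2 pf9007 h9007
  have h9009 := checkRangeG_sound parWF r2 pf9008 h9008
  have h9010 := checkRangeG_sound parWF r2 pf9009 h9009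
  have h9011 := checkRangeG_sound parWF r2 pf9010 h9010
  have h9012 := checkRangeG_sound parWF r2 pf9011 h9011
  have h9013 := checkRangeG_sound parWF r2 pf9012 h9012
  have h9014 := checkRangeG_sound parWF r2 pf9013 h9013
  have h9015 := checkRangeG_sound parWF r2 pf9014 h9014
  have h9016 := checkRangeG_sound parWF r2 pf9015 h9015
  have h9017 := checkRangeG_sound parWF r2 pf9016 h9016
  have h9018 := checkRangeG_sound parWF r2 pf9017 h9017
  have h9019 := checkRangeG_sound parWF r2 pf9018 h9018
  have h9020 := checkRangeG_sound parWF r2 pf9019 h9019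
  have h9021 := checkRangeG_sound parWF r2 pf9020 h9020
  have h9022 := checkRangeG_sound parWF r2 pf9021 h9021
  have h9023 := checkRangeG_sound parWF r2 pf9022 h9022
  have h9024 := checkRangeG_sound parWF r2 pf9023 h9023
  have h9025 := checkRangeG_sound parWF r2 pf9024 h9024
  have h9026 := checkRangeG_sound parWF r2 pf9025 h9025
  have h9027 := checkRangeG_sound parWF r2 pf9026 h9026
  have h9028 := checkRangeG_sound parWF r2 pf9027 h9027
  have h9029 := checkRangeG_sound parWF r2 pf9028 h9028
  have h9030 := checkRangeG_sound parWF r2 pf9029 h9029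
  have h9031 := checkRangeG_sound parWF r2 pf9030 h9030
  have h9032 := checkRangeG_sound parWF r2 pf9031 h9031
  have h9033 := checkRangeG_sound parWF r2 pf9032 h9032
  have h9034 := checkRangeG_sound parWF r2 pf9033 h9033
  have h9035 := checkRangeG_sound parWF r2 pf9034 h9034
  have h9036 := checkRangeG_sound parWF r2 pf9035 h9035
  have h9037 := checkRangeG_sound parWF r2 pf9036 h9036
  have h9038 := checkRangeG_sound parWF r2 pf9037 h9037
  have h9039 := checkRangeG_sound parWF r2 pf9038 h9038
  have h9040 := checkRangeG_sound parWF r2 pf9039 h9039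
  have h9041 := checkRangeG_sound parWF r2 pf9040 h9040
  have h9042 := checkRangeG_sound parWF r2 pf9041 h9041
  have h9043 := checkRangeG_sound parWF r2 pf9042 h9042
  have h9044 := checkRangeG_sound parWF r2 pf9043 h9043
  have h9045 := checkRangeG_sound parWF r2 pf9044 h9044
  have h9046 := checkRangeG_sound parWF r2 pf9045 h9045
  have h9047 := checkRangeG_sound parWF r2 pf9046 h9046
  have h9048 := checkRangeG_sound parWF r2 pf9047 h9047
  have h9049 := checkRangeG_sound parWF r2 pf9048 h9048
  have h9050 := checkRangeG_sound parWF r2 pf9049 h9049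
  exact h9050

theorem c181 (h9050 : ∀ j, j < 26869 → GoodG.{u} par (db j)) : ∀ j, j < 26989 → GoodG.{u} par (db j) := by
  have h9051 := checkRangeG_sound parWF r2 pf9050 h9050
  have h9052 := checkRangeG_sound parWF r2 pf9051 h9051
  have h9053 := checkRangeG_sound parWF r2 pf9052 h9052
  have h9054 := checkRangeG_sound parWF r2 pf9053 h9053
  have h9055 := checkRangeG_sound parWF r2 pf9054 h9054
  have h9056 := checkRangeG_sound parWF r2 pf9055 h9055
  have h9057 := checkRangeG_sound parWF r2 pf9056 h9056
  have h9058 := checkRangeG_sound parWF r2 pf9057 h9057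
  have h9059 := checkRangeG_sound parWF r2 pf9058 h9058
  have h9060 := checkRangeG_sound parWF r2 pf9059 h9059
  have h9061 := checkRangeG_sound parWF r2 pf9060 h9060
  have h9062 := checkRangeG_sound parWF r2 pf9061 h9061
  have h9063 := checkRangeG_sound parWF r2 pf9062 h9062
  have h9064 := checkRangeG_sound parWF r2 pf9063 h9063
  have h9065 := checkRangeG_sound parWF r2 pf9064 h9064
  have h9066 := checkRangeG_sound parWF r2 pf9065 h9065
  have h9067 := checkRangeG_sound parWF r2 pf9066 h9066
  have h9068 := checkRangeG_sound parWF r2 pf9067 h9067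
  have h9069 := checkRangeG_sound parWF r2 pf9068 h9068
  have h9070 := checkRangeG_sound parWF r2 pf9069 h9069
  have h9071 := checkRangeG_sound parWF r2 pf9070 h9070
  have h9072 := checkRangeG_sound parWF r2 pf9071 h9071
  have h9073 := checkRangeG_sound parWF r2 pf9072 h9072
  have h9074 := checkRangeG_sound parWF r2 pf9073 h9073
  have h9075 := checkRangeG_sound parWF r2 pf9074 h9074
  have h9076 := checkRangeG_sound parWF r2 pf9075 h9075
  have h9077 := checkRangeG_sound parWF r2 pf9076 h9076
  have h9078 := checkRangeG_sound parWF r2 pf9077 h9077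
  have h9079 := checkRangeG_sound parWF r2 pf9078 h9078
  have h9080 := checkRangeG_sound parWF r2 pf9079 h9079
  have h9081 := checkRangeG_sound parWF r2 pf9080 h9080
  have h9082 := checkRangeG_sound parWF r2 pf9081 h9081
  have h9083 := checkRangeG_sound parWF r2 pf9082 h9082
  have h9084 := checkRangeG_sound parWF r2 pf9083 h9083
  have h9085 := checkRangeG_sound parWF r2 pf9084 h9084
  have h9086 := checkRangeG_sound parWF r2 pf9085 h9085
  have h9087 := checkRangeG_sound parWF r2 pf9086 h9086
  have h9088 := checkRangeG_sound parWF r2 pf9087 h9087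
  have h9089 := checkRangeG_sound parWF r2 pf9088 h9088
  have h9090 := checkRangeG_sound parWF r2 pf9089 h9089
  have h9091 := checkRangeG_sound parWF r2 pf9090 h9090
  have h9092 := checkRangeG_sound parWF r2 pf9091 h9091
  have h9093 := checkRangeG_sound parWF r2 pf9092 h9092
  have h9094 := checkRangeG_sound parWF r2 pf9093 h9093
  have h9095 := checkRangeG_sound parWF r2 pf9094 h9094
  have h9096 := checkRangeG_sound parWF r2 pf9095 h9095
  have h9097 := checkRangeG_sound parWF r2 pf9096 h9096
  have h9098 := checkRangeG_sound parWF r2 pf9097 h9097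
  have h9099 := checkRangeG_sound parWF r2 pf9098 h9098
  have h9100 := checkRangeG_sound parWF r2 pf9099 h9099
  exact h9100

theorem c182 (h9100 : ∀ j, j < 26989 → GoodG.{u} par (db j)) : ∀ j, j < 27112 → GoodG.{u} par (db j) := by
  have h9101 := checkRangeG_sound parWF r2 pf9100 h9100
  have h9102 := checkRangeG_sound parWF r2 pf9101 h9101
  have h9103 := checkRangeG_sound parWF r2 pf9102 h9102
  have h9104 := checkRangeG_sound parWF r2 pf9103 h9103
  have h9105 := checkRangeG_sound parWF r2 pf9104 h9104
  have h9106 := checkRangeG_sound parWF r2 pf9105 h9105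
  have h9107 := checkRangeG_sound parWF r2 pf9106 h9106
  have h9108 := checkRangeG_sound parWF r2 pf9107 h9107
  have h9109 := checkRangeG_sound parWF r2 pf9108 h9108
  have h9110 := checkRangeG_sound parWF r2 pf9109 h9109
  have h9111 := checkRangeG_sound parWF r2 pf9110 h9110
  have h9112 := checkRangeG_sound parWF r2 pf9111 h9111
  have h9113 := checkRangeG_sound parWF r2 pf9112 h9112
  have h9114 := checkRangeG_sound parWF r2 pf9113 h9113
  have h9115 := checkRangeG_sound parWF r2 pf9114 h9114
  have h9116 := checkRangeG_sound parWF r2 pf9115 h9115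
  have h9117 := checkRangeG_sound parWF r2 pf9116 h9116
  have h9118 := checkRangeG_sound parWF r2 pf9117 h9117
  have h9119 := checkRangeG_sound parWF r2 pf9118 h9118
  have h9120 := checkRangeG_sound parWF r2 pf9119 h9119
  have h9121 := checkRangeG_sound parWF r2 pf9120 h9120
  have h9122 := checkRangeG_sound parWF r2 pf9121 h9121
  have h9123 := checkRangeG_sound parWF r2 pf9122 h9122
  have h9124 := checkRangeG_sound parWF r2 pf9123 h9123
  have h9125 := checkRangeG_sound parWF r2 pf9124 h9124
  have h9126 := checkRangeG_sound parWF r2 pf9125 h9125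
  have h9127 := checkRangeG_sound parWF r2 pf9126 h9126
  have h9128 := checkRangeG_sound parWF r2 pf9127 h9127
  have h9129 := checkRangeG_sound parWF r2 pf9128 h9128
  have h9130 := checkRangeG_sound parWF r2 pf9129 h9129
  have h9131 := checkRangeG_sound parWF r2 pf9130 h9130
  have h9132 := checkRangeG_sound parWF r2 pf9131 h9131
  have h9133 := checkRangeG_sound parWF r2 pf9132 h9132
  have h9134 := checkRangeG_sound parWF r2 pf9133 h9133
  have h9135 := checkRangeG_sound parWF r2 pf9134 h9134
  have h9136 := checkRangeG_sound parWF r2 pf9135 h9135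
  have h9137 := checkRangeG_sound parWF r2 pf9136 h9136
  have h9138 := checkRangeG_sound parWF r2 pf9137 h9137
  have h9139 := checkRangeG_sound parWF r2 pf9138 h9138
  have h9140 := checkRangeG_sound parWF r2 pf9139 h9139
  have h9141 := checkRangeG_sound parWF r2 pf9140 h9140
  have h9142 := checkRangeG_sound parWF r2 pf9141 h9141
  have h9143 := checkRangeG_sound parWF r2 pf9142 h9142
  have h9144 := checkRangeG_sound parWF r2 pf9143 h9143
  have h9145 := checkRangeG_sound parWF r2 pf9144 h9144
  have h9146 := checkRangeG_sound parWF r2 pf9145 h9145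
  have h9147 := checkRangeG_sound parWF r2 pf9146 h9146
  have h9148 := checkRangeG_sound parWF r2 pf9147 h9147
  have h9149 := checkRangeG_sound parWF r2 pf9148 h9148
  have h9150 := checkRangeG_sound parWF r2 pf9149 h9149
  exact h9150

theorem c183 (h9150 : ∀ j, j < 27112 → GoodG.{u} par (db j)) : ∀ j, j < 27237 → GoodG.{u} par (db j) := by
  have h9151 := checkRangeG_sound parWF r2 pf9150 h9150
  have h9152 := checkRangeG_sound parWF r2 pf9151 h9151
  have h9153 := checkRangeG_sound parWF r2 pf9152 h9152
  have h9154 := checkRangeG_sound parWF r2 pf9153 h9153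
  have h9155 := checkRangeG_sound parWF r2 pf9154 h9154
  have h9156 := checkRangeG_sound parWF r2 pf9155 h9155
  have h9157 := checkRangeG_sound parWF r2 pf9156 h9156
  have h9158 := checkRangeG_sound parWF r2 pf9157 h9157
  have h9159 := checkRangeG_sound parWF r2 pf9158 h9158
  have h9160 := checkRangeG_sound parWF r2 pf9159 h9159
  have h9161 := checkRangeG_sound parWF r2 pf9160 h9160
  have h9162 := checkRangeG_sound parWF r2 pf9161 h9161
  have h9163 := checkRangeG_sound parWF r2 pf9162 h9162
  have h9164 := checkRangeG_sound parWF r2 pf9163 h9163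
  have h9165 := checkRangeG_sound parWF r2 pf9164 h9164
  have h9166 := checkRangeG_sound parWF r2 pf9165 h9165
  have h9167 := checkRangeG_sound parWF r2 pf9166 h9166
  have h9168 := checkRangeG_sound parWF r2 pf9167 h9167
  have h9169 := checkRangeG_sound parWF r2 pf9168 h9168
  have h9170 := checkRangeG_sound parWF r2 pf9169 h9169
  have h9171 := checkRangeG_sound parWF r2 pf9170 h9170
  have h9172 := checkRangeG_sound parWF r2 pf9171 h9171
  have h9173 := checkRangeG_sound parWF r2 pf9172 h9172
  have h9174 := checkRangeG_sound parWF r2 pf9173 h9173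
  have h9175 := checkRangeG_sound parWF r2 pf9174 h9174
  have h9176 := checkRangeG_sound parWF r2 pf9175 h9175
  have h9177 := checkRangeG_sound parWF r2 pf9176 h9176
  have h9178 := checkRangeG_sound parWF r2 pf9177 h9177
  have h9179 := checkRangeG_sound parWF r2 pf9178 h9178
  have h9180 := checkRangeG_sound parWF r2 pf9179 h9179
  have h9181 := checkRangeG_sound parWF r2 pf9180 h9180
  have h9182 := checkRangeG_sound parWF r2 pf9181 h9181
  have h9183 := checkRangeG_sound parWF r2 pf9182 h9182
  have h9184 := checkRangeG_sound parWF r2 pf9183 h9183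
  have h9185 := checkRangeG_sound parWF r2 pf9184 h9184
  have h9186 := checkRangeG_sound parWF r2 pf9185 h9185
  have h9187 := checkRangeG_sound parWF r2 pf9186 h9186
  have h9188 := checkRangeG_sound parWF r2 pf9187 h9187
  have h9189 := checkRangeG_sound parWF r2 pf9188 h9188
  have h9190 := checkRangeG_sound parWF r2 pf9189 h9189
  have h9191 := checkRangeG_sound parWF r2 pf9190 h9190
  have h9192 := checkRangeG_sound parWF r2 pf9191 h9191
  have h9193 := checkRangeG_sound parWF r2 pf9192 h9192
  have h9194 := checkRangeG_sound parWF r2 pf9193 h9193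
  have h9195 := checkRangeG_sound parWF r2 pf9194 h9194
  have h9196 := checkRangeG_sound parWF r2 pf9195 h9195
  have h9197 := checkRangeG_sound parWF r2 pf9196 h9196
  have h9198 := checkRangeG_sound parWF r2 pf9197 h9197
  have h9199 := checkRangeG_sound parWF r2 pf9198 h9198
  have h9200 := checkRangeG_sound parWF r2 pf9199 h9199
  exact h9200

theorem c184 (h9200 : ∀ j, j < 27237 → GoodG.{u} par (db j)) : ∀ j, j < 27353 → GoodG.{u} par (db j) := by
  have h9201 := checkRangeG_sound parWF r2 pf9200 h9200
  have h9202 := checkRangeG_sound parWF r2 pf9201 h9201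
  have h9203 := checkRangeG_sound parWF r2 pf9202 h9202
  have h9204 := checkRangeG_sound parWF r2 pf9203 h9203
  have h9205 := checkRangeG_sound parWF r2 pf9204 h9204
  have h9206 := checkRangeG_sound parWF r2 pf9205 h9205
  have h9207 := checkRangeG_sound parWF r2 pf9206 h9206
  have h9208 := checkRangeG_sound parWF r2 pf9207 h9207
  have h9209 := checkRangeG_sound parWF r2 pf9208 h9208
  have h9210 := checkRangeG_sound parWF r2 pf9209 h9209
  have h9211 := checkRangeG_sound parWF r2 pf9210 h9210
  have h9212 := checkRangeG_sound parWF r2 pf9211 h9211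
  have h9213 := checkRangeG_sound parWF r2 pf9212 h9212
  have h9214 := checkRangeG_sound parWF r2 pf9213 h9213
  have h9215 := checkRangeG_sound parWF r2 pf9214 h9214
  have h9216 := checkRangeG_sound parWF r2 pf9215 h9215
  have h9217 := checkRangeG_sound parWF r2 pf9216 h9216
  have h9218 := checkRangeG_sound parWF r2 pf9217 h9217
  have h9219 := checkRangeG_sound parWF r2 pf9218 h9218
  have h9220 := checkRangeG_sound parWF r2 pf9219 h9219
  have h9221 := checkRangeG_sound parWF r2 pf9220 h9220
  have h9222 := checkRangeG_sound parWF r2 pf9221 h9221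
  have h9223 := checkRangeG_sound parWF r2 pf9222 h9222
  have h9224 := checkRangeG_sound parWF r2 pf9223 h9223
  have h9225 := checkRangeG_sound parWF r2 pf9224 h9224
  have h9226 := checkRangeG_sound parWF r2 pf9225 h9225
  have h9227 := checkRangeG_sound parWF r2 pf9226 h9226
  have h9228 := checkRangeG_sound parWF r2 pf9227 h9227
  have h9229 := checkRangeG_sound parWF r2 pf9228 h9228
  have h9230 := checkRangeG_sound parWF r2 pf9229 h9229
  have h9231 := checkRangeG_sound parWF r2 pf9230 h9230
  have h9232 := checkRangeG_sound parWF r2 pf9231 h9231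
  have h9233 := checkRangeG_sound parWF r2 pf9232 h9232
  have h9234 := checkRangeG_sound parWF r2 pf9233 h9233
  have h9235 := checkRangeG_sound parWF r2 pf9234 h9234
  have h9236 := checkRangeG_sound parWF r2 pf9235 h9235
  have h9237 := checkRangeG_sound parWF r2 pf9236 h9236
  have h9238 := checkRangeG_sound parWF r2 pf9237 h9237
  have h9239 := checkRangeG_sound parWF r2 pf9238 h9238
  have h9240 := checkRangeG_sound parWF r2 pf9239 h9239
  have h9241 := checkRangeG_sound parWF r2 pf9240 h9240
  have h9242 := checkRangeG_sound parWF r2 pf9241 h9241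
  have h9243 := checkRangeG_sound parWF r2 pf9242 h9242
  have h9244 := checkRangeG_sound parWF r2 pf9243 h9243
  have h9245 := checkRangeG_sound parWF r2 pf9244 h9244
  have h9246 := checkRangeG_sound parWF r2 pf9245 h9245
  have h9247 := checkRangeG_sound parWF r2 pf9246 h9246
  have h9248 := checkRangeG_sound parWF r2 pf9247 h9247
  have h9249 := checkRangeG_sound parWF r2 pf9248 h9248
  have h9250 := checkRangeG_sound parWF r2 pf9249 h9249
  exact h9250

theorem c185 (h9250 : ∀ j, j < 27353 → GoodG.{u} par (db j)) : ∀ j, j < 27480 → GoodG.{u} par (db j) := by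
  have h9251 := checkRangeG_sound parWF r2 pf9250 h9250
  have h9252 := checkRangeG_sound parWF r2 pf9251 h9251
  have h9253 := checkRangeG_sound parWF r2 pf9252 h9252
  have h9254 := checkRangeG_sound parWF r2 pf9253 h9253
  have h9255 := checkRangeG_sound parWF r2 pf9254 h9254
  have h9256 := checkRangeG_sound parWF r2 pf9255 h9255
  have h9257 := checkRangeG_sound parWF r2 pf9256 h9256
  have h9258 := checkRangeG_sound parWF r2 pf9257 h9257
  have h9259 := checkRangeG_sound parWF r2 pf9258 h9258
  have h9260 := checkRangeG_sound parWF r2 pf9259 h9259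
  have h9261 := checkRangeG_sound parWF r2 pf9260 h9260
  have h9262 := checkRangeG_sound parWF r2 pf9261 h9261
  have h9263 := checkRangeG_sound parWF r2 pf9262 h9262
  have h9264 := checkRangeG_sound parWF r2 pf9263 h9263
  have h9265 := checkRangeG_sound parWF r2 pf9264 h9264
  have h9266 := checkRangeG_sound parWF r2 pf9265 h9265
  have h9267 := checkRangeG_sound parWF r2 pf9266 h9266
  have h9268 := checkRangeG_sound parWF r2 pf9267 h9267
  have h9269 := checkRangeG_sound parWF r2 pf9268 h9268
  have h9270 := checkRangeG_sound parWF r2 pf9269 h9269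
  have h9271 := checkRangeG_sound parWF r2 pf9270 h9270
  have h9272 := checkRangeG_sound parWF r2 pf9271 h9271
  have h9273 := checkRangeG_sound parWF r2 pf9272 h9272
  have h9274 := checkRangeG_sound parWF r2 pf9273 h9273
  have h9275 := checkRangeG_sound parWF r2 pf9274 h9274
  have h9276 := checkRangeG_sound parWF r2 pf9275 h9275
  have h9277 := checkRangeG_sound parWF r2 pf9276 h9276
  have h9278 := checkRangeG_sound parWF r2 pf9277 h9277
  have h9279 := checkRangeG_sound parWF r2 pf9278 h9278
  have h9280 := checkRangeG_sound parWF r2 pf9279 h9279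
  have h9281 := checkRangeG_sound parWF r2 pf9280 h9280
  have h9282 := checkRangeG_sound parWF r2 pf9281 h9281
  have h9283 := checkRangeG_sound parWF r2 pf9282 h9282
  have h9284 := checkRangeG_sound parWF r2 pf9283 h9283
  have h9285 := checkRangeG_sound parWF r2 pf9284 h9284
  have h9286 := checkRangeG_sound parWF r2 pf9285 h9285
  have h9287 := checkRangeG_sound parWF r2 pf9286 h9286
  have h9288 := checkRangeG_sound parWF r2 pf9287 h9287
  have h9289 := checkRangeG_sound parWF r2 pf9288 h9288
  have h9290 := checkRangeG_sound parWF r2 pf9289 h9289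
  have h9291 := checkRangeG_sound parWF r2 pf9290 h9290
  have h9292 := checkRangeG_sound parWF r2 pf9291 h9291
  have h9293 := checkRangeG_sound parWF r2 pf9292 h9292
  have h9294 := checkRangeG_sound parWF r2 pf9293 h9293
  have h9295 := checkRangeG_sound parWF r2 pf9294 h9294
  have h9296 := checkRangeG_sound parWF r2 pf9295 h9295
  have h9297 := checkRangeG_sound parWF r2 pf9296 h9296
  have h9298 := checkRangeG_sound parWF r2 pf9297 h9297
  have h9299 := checkRangeG_sound parWF r2 pf9298 h9298
  have h9300 := checkRangeG_sound parWF r2 pf9299 h9299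
  exact h9300

theorem c186 (h9300 : ∀ j, j < 27480 → GoodG.{u} par (db j)) : ∀ j, j < 27598 → GoodG.{u} par (db j) := by
  have h9301 := checkRangeG_sound parWF r2 pf9300 h9300
  have h9302 := checkRangeG_sound parWF r2 pf9301 h9301
  have h9303 := checkRangeG_sound parWF r2 pf9302 h9302
  have h9304 := checkRangeG_sound parWF r2 pf9303 h9303
  have h9305 := checkRangeG_sound parWF r2 pf9304 h9304
  have h9306 := checkRangeG_sound parWF r2 pf9305 h9305
  have h9307 := checkRangeG_sound parWF r2 pf9306 h9306
  have h9308 := checkRangeG_sound parWF r2 pf9307 h9307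
  have h9309 := checkRangeG_sound parWF r2 pf9308 h9308
  have h9310 := checkRangeG_sound parWF r2 pf9309 h9309
  have h9311 := checkRangeG_sound parWF r2 pf9310 h9310
  have h9312 := checkRangeG_sound parWF r2 pf9311 h9311
  have h9313 := checkRangeG_sound parWF r2 pf9312 h9312
  have h9314 := checkRangeG_sound parWF r2 pf9313 h9313
  have h9315 := checkRangeG_sound parWF r2 pf9314 h9314
  have h9316 := checkRangeG_sound parWF r2 pf9315 h9315
  have h9317 := checkRangeG_sound parWF r2 pf9316 h9316
  have h9318 := checkRangeG_sound parWF r2 pf9317 h9317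
  have h9319 := checkRangeG_sound parWF r2 pf9318 h9318
  have h9320 := checkRangeG_sound parWF r2 pf9319 h9319
  have h9321 := checkRangeG_sound parWF r2 pf9320 h9320
  have h9322 := checkRangeG_sound parWF r2 pf9321 h9321
  have h9323 := checkRangeG_sound parWF r2 pf9322 h9322
  have h9324 := checkRangeG_sound parWF r2 pf9323 h9323
  have h9325 := checkRangeG_sound parWF r2 pf9324 h9324
  have h9326 := checkRangeG_sound parWF r2 pf9325 h9325
  have h9327 := checkRangeG_sound parWF r2 pf9326 h9326
  have h9328 := checkRangeG_sound parWF r2 pf9327 h9327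
  have h9329 := checkRangeG_sound parWF r2 pf9328 h9328
  have h9330 := checkRangeG_sound parWF r2 pf9329 h9329
  have h9331 := checkRangeG_sound parWF r2 pf9330 h9330
  have h9332 := checkRangeG_sound parWF r2 pf9331 h9331
  have h9333 := checkRangeG_sound parWF r2 pf9332 h9332
  have h9334 := checkRangeG_sound parWF r2 pf9333 h9333
  have h9335 := checkRangeG_sound parWF r2 pf9334 h9334
  have h9336 := checkRangeG_sound parWF r2 pf9335 h9335
  have h9337 := checkRangeG_sound parWF r2 pf9336 h9336
  have h9338 := checkRangeG_sound parWF r2 pf9337 h9337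
  have h9339 := checkRangeG_sound parWF r2 pf9338 h9338
  have h9340 := checkRangeG_sound parWF r2 pf9339 h9339
  have h9341 := checkRangeG_sound parWF r2 pf9340 h9340
  have h9342 := checkRangeG_sound parWF r2 pf9341 h9341
  have h9343 := checkRangeG_sound parWF r2 pf9342 h9342
  have h9344 := checkRangeG_sound parWF r2 pf9343 h9343
  have h9345 := checkRangeG_sound parWF r2 pf9344 h9344
  have h9346 := checkRangeG_sound parWF r2 pf9345 h9345
  have h9347 := checkRangeG_sound parWF r2 pf9346 h9346
  have h9348 := checkRangeG_sound parWF r2 pf9347 h9347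
  have h9349 := checkRangeG_sound parWF r2 pf9348 h9348
  have h9350 := checkRangeG_sound parWF r2 pf9349 h9349
  exact h9350

theorem c187 (h9350 : ∀ j, j < 27598 → GoodG.{u} par (db j)) : ∀ j, j < 27718 → GoodG.{u} par (db j) := by
  have h9351 := checkRangeG_sound parWF r2 pf9350 h9350
  have h9352 := checkRangeG_sound parWF r2 pf9351 h9351
  have h9353 := checkRangeG_sound parWF r2 pf9352 h9352
  have h9354 := checkRangeG_sound parWF r2 pf9353 h9353
  have h9355 := checkRangeG_sound parWF r2 pf9354 h9354
  have h9356 := checkRangeG_sound parWF r2 pf9355 h9355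
  have h9357 := checkRangeG_sound parWF r2 pf9356 h9356
  have h9358 := checkRangeG_sound parWF r2 pf9357 h9357
  have h9359 := checkRangeG_sound parWF r2 pf9358 h9358
  have h9360 := checkRangeG_sound parWF r2 pf9359 h9359
  have h9361 := checkRangeG_sound parWF r2 pf9360 h9360
  have h9362 := checkRangeG_sound parWF r2 pf9361 h9361
  have h9363 := checkRangeG_sound parWF r2 pf9362 h9362
  have h9364 := checkRangeG_sound parWF r2 pf9363 h9363
  have h9365 := checkRangeG_sound parWF r2 pf9364 h9364
  have h9366 := checkRangeG_sound parWF r2 pf9365 h9365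
  have h9367 := checkRangeG_sound parWF r2 pf9366 h9366
  have h9368 := checkRangeG_sound parWF r2 pf9367 h9367
  have h9369 := checkRangeG_sound parWF r2 pf9368 h9368
  have h9370 := checkRangeG_sound parWF r2 pf9369 h9369
  have h9371 := checkRangeG_sound parWF r2 pf9370 h9370
  have h9372 := checkRangeG_sound parWF r2 pf9371 h9371
  have h9373 := checkRangeG_sound parWF r2 pf9372 h9372
  have h9374 := checkRangeG_sound parWF r2 pf9373 h9373
  have h9375 := checkRangeG_sound parWF r2 pf9374 h9374
  have h9376 := checkRangeG_sound parWF r2 pf9375 h9375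
  have h9377 := checkRangeG_sound parWF r2 pf9376 h9376
  have h9378 := checkRangeG_sound parWF r2 pf9377 h9377
  have h9379 := checkRangeG_sound parWF r2 pf9378 h9378
  have h9380 := checkRangeG_sound parWF r2 pf9379 h9379
  have h9381 := checkRangeG_sound parWF r2 pf9380 h9380
  have h9382 := checkRangeG_sound parWF r2 pf9381 h9381
  have h9383 := checkRangeG_sound parWF r2 pf9382 h9382
  have h9384 := checkRangeG_sound parWF r2 pf9383 h9383
  have h9385 := checkRangeG_sound parWF r2 pf9384 h9384
  have h9386 := checkRangeG_sound parWF r2 pf9385 h9385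
  have h9387 := checkRangeG_sound parWF r2 pf9386 h9386
  have h9388 := checkRangeG_sound parWF r2 pf9387 h9387
  have h9389 := checkRangeG_sound parWF r2 pf9388 h9388
  have h9390 := checkRangeG_sound parWF r2 pf9389 h9389
  have h9391 := checkRangeG_sound parWF r2 pf9390 h9390
  have h9392 := checkRangeG_sound parWF r2 pf9391 h9391
  have h9393 := checkRangeG_sound parWF r2 pf9392 h9392
  have h9394 := checkRangeG_sound parWF r2 pf9393 h9393
  have h9395 := checkRangeG_sound parWF r2 pf9394 h9394
  have h9396 := checkRangeG_sound parWF r2 pf9395 h9395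
  have h9397 := checkRangeG_sound parWF r2 pf9396 h9396
  have h9398 := checkRangeG_sound parWF r2 pf9397 h9397
  have h9399 := checkRangeG_sound parWF r2 pf9398 h9398
  have h9400 := checkRangeG_sound parWF r2 pf9399 h9399
  exact h9400

theorem c188 (h9400 : ∀ j, j < 27718 → GoodG.{u} par (db j)) : ∀ j, j < 27827 → GoodG.{u} par (db j) := by
  have h9401 := checkRangeG_sound parWF r2 pf9400 h9400
  have h9402 := checkRangeG_sound parWF r2 pf9401 h9401
  have h9403 := checkRangeG_sound parWF r2 pf9402 h9402
  have h9404 := checkRangeG_sound parWF r2 pf9403 h9403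
  have h9405 := checkRangeG_sound parWF r2 pf9404 h9404
  have h9406 := checkRangeG_sound parWF r2 pf9405 h9405
  have h9407 := checkRangeG_sound parWF r2 pf9406 h9406
  have h9408 := checkRangeG_sound parWF r2 pf9407 h9407
  have h9409 := checkRangeG_sound parWF r2 pf9408 h9408
  have h9410 := checkRangeG_sound parWF r2 pf9409 h9409
  have h9411 := checkRangeG_sound parWF r2 pf9410 h9410
  have h9412 := checkRangeG_sound parWF r2 pf9411 h9411
  have h9413 := checkRangeG_sound parWF r2 pf9412 h9412
  have h9414 := checkRangeG_sound parWF r2 pf9413 h9413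
  have h9415 := checkRangeG_sound parWF r2 pf9414 h9414
  have h9416 := checkRangeG_sound parWF r2 pf9415 h9415
  have h9417 := checkRangeG_sound parWF r2 pf9416 h9416
  have h9418 := checkRangeG_sound parWF r2 pf9417 h9417
  have h9419 := checkRangeG_sound parWF r2 pf9418 h9418
  have h9420 := checkRangeG_sound parWF r2 pf9419 h9419
  have h9421 := checkRangeG_sound parWF r2 pf9420 h9420
  have h9422 := checkRangeG_sound parWF r2 pf9421 h9421
  have h9423 := checkRangeG_sound parWF r2 pf9422 h9422
  have h9424 := checkRangeG_sound parWF r2 pf9423 h9423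
  have h9425 := checkRangeG_sound parWF r2 pf9424 h9424
  have h9426 := checkRangeG_sound parWF r2 pf9425 h9425
  have h9427 := checkRangeG_sound parWF r2 pf9426 h9426
  have h9428 := checkRangeG_sound parWF r2 pf9427 h9427
  have h9429 := checkRangeG_sound parWF r2 pf9428 h9428
  have h9430 := checkRangeG_sound parWF r2 pf9429 h9429
  have h9431 := checkRangeG_sound parWF r2 pf9430 h9430
  have h9432 := checkRangeG_sound parWF r2 pf9431 h9431
  have h9433 := checkRangeG_sound parWF r2 pf9432 h9432
  have h9434 := checkRangeG_sound parWF r2 pf9433 h9433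
  have h9435 := checkRangeG_sound parWF r2 pf9434 h9434
  have h9436 := checkRangeG_sound parWF r2 pf9435 h9435
  have h9437 := checkRangeG_sound parWF r2 pf9436 h9436
  have h9438 := checkRangeG_sound parWF r2 pf9437 h9437
  have h9439 := checkRangeG_sound parWF r2 pf9438 h9438
  have h9440 := checkRangeG_sound parWF r2 pf9439 h9439
  have h9441 := checkRangeG_sound parWF r2 pf9440 h9440
  have h9442 := checkRangeG_sound parWF r2 pf9441 h9441
  have h9443 := checkRangeG_sound parWF r2 pf9442 h9442
  have h9444 := checkRangeG_sound parWF r2 pf9443 h9443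
  have h9445 := checkRangeG_sound parWF r2 pf9444 h9444
  have h9446 := checkRangeG_sound parWF r2 pf9445 h9445
  have h9447 := checkRangeG_sound parWF r2 pf9446 h9446
  have h9448 := checkRangeG_sound parWF r2 pf9447 h9447
  have h9449 := checkRangeG_sound parWF r2 pf9448 h9448
  have h9450 := checkRangeG_sound parWF r2 pf9449 h9449
  exact h9450

theorem c189 (h9450 : ∀ j, j < 27827 → GoodG.{u} par (db j)) : ∀ j, j < 27938 → GoodG.{u} par (db j) := by
  have h9451 := checkRangeG_sound parWF r2 pf9450 h9450
  have h9452 := checkRangeG_sound parWF r2 pf9451 h9451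
  have h9453 := checkRangeG_sound parWF r2 pf9452 h9452
  have h9454 := checkRangeG_sound parWF r2 pf9453 h9453
  have h9455 := checkRangeG_sound parWF r2 pf9454 h9454
  have h9456 := checkRangeG_sound parWF r2 pf9455 h9455
  have h9457 := checkRangeG_sound parWF r2 pf9456 h9456
  have h9458 := checkRangeG_sound parWF r2 pf9457 h9457
  have h9459 := checkRangeG_sound parWF r2 pf9458 h9458
  have h9460 := checkRangeG_sound parWF r2 pf9459 h9459
  have h9461 := checkRangeG_sound parWF r2 pf9460 h9460
  have h9462 := checkRangeG_sound parWF r2 pf9461 h9461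
  have h9463 := checkRangeG_sound parWF r2 pf9462 h9462
  have h9464 := checkRangeG_sound parWF r2 pf9463 h9463
  have h9465 := checkRangeG_sound parWF r2 pf9464 h9464
  have h9466 := checkRangeG_sound parWF r2 pf9465 h9465
  have h9467 := checkRangeG_sound parWF r2 pf9466 h9466
  have h9468 := checkRangeG_sound parWF r2 pf9467 h9467
  have h9469 := checkRangeG_sound parWF r2 pf9468 h9468
  have h9470 := checkRangeG_sound parWF r2 pf9469 h9469
  have h9471 := checkRangeG_sound parWF r2 pf9470 h9470
  have h9472 := checkRangeG_sound parWF r2 pf9471 h9471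
  have h9473 := checkRangeG_sound parWF r2 pf9472 h9472
  have h9474 := checkRangeG_sound parWF r2 pf9473 h9473
  have h9475 := checkRangeG_sound parWF r2 pf9474 h9474
  have h9476 := checkRangeG_sound parWF r2 pf9475 h9475
  have h9477 := checkRangeG_sound parWF r2 pf9476 h9476
  have h9478 := checkRangeG_sound parWF r2 pf9477 h9477
  have h9479 := checkRangeG_sound parWF r2 pf9478 h9478
  have h9480 := checkRangeG_sound parWF r2 pf9479 h9479
  have h9481 := checkRangeG_sound parWF r2 pf9480 h9480
  have h9482 := checkRangeG_sound parWF r2 pf9481 h9481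
  have h9483 := checkRangeG_sound parWF r2 pf9482 h9482
  have h9484 := checkRangeG_sound parWF r2 pf9483 h9483
  have h9485 := checkRangeG_sound parWF r2 pf9484 h9484
  have h9486 := checkRangeG_sound parWF r2 pf9485 h9485
  have h9487 := checkRangeG_sound parWF r2 pf9486 h9486
  have h9488 := checkRangeG_sound parWF r2 pf9487 h9487
  have h9489 := checkRangeG_sound parWF r2 pf9488 h9488
  have h9490 := checkRangeG_sound parWF r2 pf9489 h9489
  have h9491 := checkRangeG_sound parWF r2 pf9490 h9490
  have h9492 := checkRangeG_sound parWF r2 pf9491 h9491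
  have h9493 := checkRangeG_sound parWF r2 pf9492 h9492
  have h9494 := checkRangeG_sound parWF r2 pf9493 h9493
  have h9495 := checkRangeG_sound parWF r2 pf9494 h9494
  have h9496 := checkRangeG_sound parWF r2 pf9495 h9495
  have h9497 := checkRangeG_sound parWF r2 pf9496 h9496
  have h9498 := checkRangeG_sound parWF r2 pf9497 h9497
  have h9499 := checkRangeG_sound parWF r2 pf9498 h9498
  have h9500 := checkRangeG_sound parWF r2 pf9499 h9499
  exact h9500

theorem c190 (h9500 : ∀ j, j < 27938 → GoodG.{u} par (db j)) : ∀ j, j < 28059 → GoodG.{u} par (db j) := by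
  have h9501 := checkRangeG_sound parWF r2 pf9500 h9500
  have h9502 := checkRangeG_sound parWF r2 pf9501 h9501
  have h9503 := checkRangeG_sound parWF r2 pf9502 h9502
  have h9504 := checkRangeG_sound parWF r2 pf9503 h9503
  have h9505 := checkRangeG_sound parWF r2 pf9504 h9504
  have h9506 := checkRangeG_sound parWF r2 pf9505 h9505
  have h9507 := checkRangeG_sound parWF r2 pf9506 h9506
  have h9508 := checkRangeG_sound parWF r2 pf9507 h9507
  have h9509 := checkRangeG_sound parWF r2 pf9508 h9508
  have h9510 := checkRangeG_sound parWF r2 pf9509 h9509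
  have h9511 := checkRangeG_sound parWF r2 pf9510 h9510
  have h9512 := checkRangeG_sound parWF r2 pf9511 h9511
  have h9513 := checkRangeG_sound parWF r2 pf9512 h9512
  have h9514 := checkRangeG_sound parWF r2 pf9513 h9513
  have h9515 := checkRangeG_sound parWF r2 pf9514 h9514
  have h9516 := checkRangeG_sound parWF r2 pf9515 h9515
  have h9517 := checkRangeG_sound parWF r2 pf9516 h9516
  have h9518 := checkRangeG_sound parWF r2 pf9517 h9517
  have h9519 := checkRangeG_sound parWF r2 pf9518 h9518
  have h9520 := checkRangeG_sound parWF r2 pf9519 h9519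
  have h9521 := checkRangeG_sound parWF r2 pf9520 h9520
  have h9522 := checkRangeG_sound parWF r2 pf9521 h9521
  have h9523 := checkRangeG_sound parWF r2 pf9522 h9522
  have h9524 := checkRangeG_sound parWF r2 pf9523 h9523
  have h9525 := checkRangeG_sound parWF r2 pf9524 h9524
  have h9526 := checkRangeG_sound parWF r2 pf9525 h9525
  have h9527 := checkRangeG_sound parWF r2 pf9526 h9526
  have h9528 := checkRangeG_sound parWF r2 pf9527 h9527
  have h9529 := checkRangeG_sound parWF r2 pf9528 h9528
  have h9530 := checkRangeG_sound parWF r2 pf9529 h9529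
  have h9531 := checkRangeG_sound parWF r2 pf9530 h9530
  have h9532 := checkRangeG_sound parWF r2 pf9531 h9531
  have h9533 := checkRangeG_sound parWF r2 pf9532 h9532
  have h9534 := checkRangeG_sound parWF r2 pf9533 h9533
  have h9535 := checkRangeG_sound parWF r2 pf9534 h9534
  have h9536 := checkRangeG_sound parWF r2 pf9535 h9535
  have h9537 := checkRangeG_sound parWF r2 pf9536 h9536
  have h9538 := checkRangeG_sound parWF r2 pf9537 h9537
  have h9539 := checkRangeG_sound parWF r2 pf9538 h9538
  have h9540 := checkRangeG_sound parWF r2 pf9539 h9539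
  have h9541 := checkRangeG_sound parWF r2 pf9540 h9540
  have h9542 := checkRangeG_sound parWF r2 pf9541 h9541
  have h9543 := checkRangeG_sound parWF r2 pf9542 h9542
  have h9544 := checkRangeG_sound parWF r2 pf9543 h9543
  have h9545 := checkRangeG_sound parWF r2 pf9544 h9544
  have h9546 := checkRangeG_sound parWF r2 pf9545 h9545
  have h9547 := checkRangeG_sound parWF r2 pf9546 h9546
  have h9548 := checkRangeG_sound parWF r2 pf9547 h9547
  have h9549 := checkRangeG_sound parWF r2 pf9548 h9548
  have h9550 := checkRangeG_sound parWF r2 pf9549 h9549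
  exact h9550

theorem c191 (h9550 : ∀ j, j < 28059 → GoodG.{u} par (db j)) : ∀ j, j < 28190 → GoodG.{u} par (db j) := by
  have h9551 := checkRangeG_sound parWF r2 pf9550 h9550
  have h9552 := checkRangeG_sound parWF r2 pf9551 h9551
  have h9553 := checkRangeG_sound parWF r2 pf9552 h9552
  have h9554 := checkRangeG_sound parWF r2 pf9553 h9553
  have h9555 := checkRangeG_sound parWF r2 pf9554 h9554
  have h9556 := checkRangeG_sound parWF r2 pf9555 h9555
  have h9557 := checkRangeG_sound parWF r2 pf9556 h9556
  have h9558 := checkRangeG_sound parWF r2 pf9557 h9557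
  have h9559 := checkRangeG_sound parWF r2 pf9558 h9558
  have h9560 := checkRangeG_sound parWF r2 pf9559 h9559
  have h9561 := checkRangeG_sound parWF r2 pf9560 h9560
  have h9562 := checkRangeG_sound parWF r2 pf9561 h9561
  have h9563 := checkRangeG_sound parWF r2 pf9562 h9562
  have h9564 := checkRangeG_sound parWF r2 pf9563 h9563
  have h9565 := checkRangeG_sound parWF r2 pf9564 h9564
  have h9566 := checkRangeG_sound parWF r2 pf9565 h9565
  have h9567 := checkRangeG_sound parWF r2 pf9566 h9566
  have h9568 := checkRangeG_sound parWF r2 pf9567 h9567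
  have h9569 := checkRangeG_sound parWF r2 pf9568 h9568
  have h9570 := checkRangeG_sound parWF r2 pf9569 h9569
  have h9571 := checkRangeG_sound parWF r2 pf9570 h9570
  have h9572 := checkRangeG_sound parWF r2 pf9571 h9571
  have h9573 := checkRangeG_sound parWF r2 pf9572 h9572
  have h9574 := checkRangeG_sound parWF r2 pf9573 h9573
  have h9575 := checkRangeG_sound parWF r2 pf9574 h9574
  have h9576 := checkRangeG_sound parWF r2 pf9575 h9575
  have h9577 := checkRangeG_sound parWF r2 pf9576 h9576
  have h9578 := checkRangeG_sound parWF r2 pf9577 h9577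
  have h9579 := checkRangeG_sound parWF r2 pf9578 h9578
  have h9580 := checkRangeG_sound parWF r2 pf9579 h9579
  have h9581 := checkRangeG_sound parWF r2 pf9580 h9580
  have h9582 := checkRangeG_sound parWF r2 pf9581 h9581
  have h9583 := checkRangeG_sound parWF r2 pf9582 h9582
  have h9584 := checkRangeG_sound parWF r2 pf9583 h9583
  have h9585 := checkRangeG_sound parWF r2 pf9584 h9584
  have h9586 := checkRangeG_sound parWF r2 pf9585 h9585
  have h9587 := checkRangeG_sound parWF r2 pf9586 h9586
  have h9588 := checkRangeG_sound parWF r2 pf9587 h9587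
  have h9589 := checkRangeG_sound parWF r2 pf9588 h9588
  have h9590 := checkRangeG_sound parWF r2 pf9589 h9589
  have h9591 := checkRangeG_sound parWF r2 pf9590 h9590
  have h9592 := checkRangeG_sound parWF r2 pf9591 h9591
  have h9593 := checkRangeG_sound parWF r2 pf9592 h9592
  have h9594 := checkRangeG_sound parWF r2 pf9593 h9593
  have h9595 := checkRangeG_sound parWF r2 pf9594 h9594
  have h9596 := checkRangeG_sound parWF r2 pf9595 h9595
  have h9597 := checkRangeG_sound parWF r2 pf9596 h9596
  have h9598 := checkRangeG_sound parWF r2 pf9597 h9597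
  have h9599 := checkRangeG_sound parWF r2 pf9598 h9598
  have h9600 := checkRangeG_sound parWF r2 pf9599 h9599
  exact h9600


end Vale.Agent.P045g.C61
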