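import Vale.Agent.P045g.C61.WF
import Vale.Agent.P045g.C61.Pf160
import Vale.Agent.P045g.C61.Pf161
import Vale.Agent.P045g.C61.Pf162
import Vale.Agent.P045g.C61.Pf163
import Vale.Agent.P045g.C61.Pf164
import Vale.Agent.P045g.C61.Pf165
import Vale.Agent.P045g.C61.Pf166
import Vale.Agent.P045g.C61.Pf167
import Vale.Agent.P045g.C61.Pf168
import Vale.Agent.P045g.C61.Pf169

namespace Vale.Agent.P045g.C61

open Vale.Agent.P045b Vale.Agent.P045g

universe u

theorem c192 (h9600 : ∀ j, j < 28190 → GoodG.{u} par (db j)) : ∀ j, j < 28313 → GoodG.{u} par (db j) := by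
  have h9601 := checkRangeG_sound parWF r2 pf9600 h9600
  have h9602 := checkRangeG_sound parWF r2 pf9601 h9601
  have h9603 := checkRangeG_sound parWF r2 pf9602 h9602
  have h9604 := checkRangeG_sound parWF r2 pf9603 h9603
  have h9605 := checkRangeG_sound parWF r2 pf9604 h9604
  have h9606 := checkRangeG_sound parWF r2 pf9605 h9605
  have h9607 := checkRangeG_sound parWF r2 pf9606 h9606
  have h9608 := checkRangeG_sound parWF r2 pf9607 h9607
  have h9609 := checkRangeG_sound parWF r2 pf9608 h9608
  have h9610 := checkRangeG_sound parWF r2 pf9609 h9609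
  have h9611 := checkRangeG_sound parWF r2 pf9610 h9610
  have h9612 := checkRangeG_sound parWF r2 pf9611 h9611
  have h9613 := checkRangeG_sound parWF r2 pf9612 h9612
  have h9614 := checkRangeG_sound parWF r2 pf9613 h9613
  have h9615 := checkRangeG_sound parWF r2 pf9614 h9614
  have h9616 := checkRangeG_sound parWF r2 pf9615 h9615
  have h9617 := checkRangeG_sound parWF r2 pf9616 h9616
  have h9618 := checkRangeG_sound parWF r2 pf9617 h9617
  have h9619 := checkRangeG_sound parWF r2 pf9618 h9618
  have h9620 := checkRangeG_sound parWF r2 pf9619 h9619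
  have h9621 := checkRangeG_sound parWF r2 pf9620 h9620
  have h9622 := checkRangeG_sound parWF r2 pf9621 h9621
  have h9623 := checkRangeG_sound parWF r2 pf9622 h9622
  have h9624 := checkRangeG_sound parWF r2 pf9623 h9623
  have h9625 := checkRangeG_sound parWF r2 pf9624 h9624
  have h9626 := checkRangeG_sound parWF r2 pf9625 h9625
  have h9627 := checkRangeG_sound parWF r2 pf9626 h9626
  have h9628 := checkRangeG_sound parWF r2 pf9627 h9627
  have h9629 := checkRangeG_sound parWF r2 pf9628 h9628
  have h9630 := checkRangeG_sound parWF r2 pf9629 h9629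
  have h9631 := checkRangeG_sound parWF r2 pf9630 h9630
  have h9632 := checkRangeG_sound parWF r2 pf9631 h9631
  have h9633 := checkRangeG_sound parWF r2 pf9632 h9632
  have h9634 := checkRangeG_sound parWF r2 pf9633 h9633
  have h9635 := checkRangeG_sound parWF r2 pf9634 h9634
  have h9636 := checkRangeG_sound parWF r2 pf9635 h9635
  have h9637 := checkRangeG_sound parWF r2 pf9636 h9636
  have h9638 := checkRangeG_sound parWF r2 pf9637 h9637
  have h9639 := checkRangeG_sound parWF r2 pf9638 h9638
  have h9640 := checkRangeG_sound parWF r2 pf9639 h9639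
  have h9641 := checkRangeG_sound parWF r2 pf9640 h9640
  have h9642 := checkRangeG_sound parWF r2 pf9641 h9641
  have h9643 := checkRangeG_sound parWF r2 pf9642 h9642
  have h9644 := checkRangeG_sound parWF r2 pf9643 h9643
  have h9645 := checkRangeG_sound parWF r2 pf9644 h9644
  have h9646 := checkRangeG_sound parWF r2 pf9645 h9645
  have h9647 := checkRangeG_sound parWF r2 pf9646 h9646
  have h9648 := checkRangeG_sound parWF r2 pf9647 h9647
  have h9649 := checkRangeG_sound parWF r2 pf9648 h9648
  have h9650 := checkRangeG_sound parWF r2 pf9649 h9649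
  exact h9650

theorem c193 (h9650 : ∀ j, j < 28313 → GoodG.{u} par (db j)) : ∀ j, j < 28448 → GoodG.{u} par (db j) := by
  have h9651 := checkRangeG_sound parWF r2 pf9650 h9650
  have h9652 := checkRangeG_sound parWF r2 pf9651 h9651
  have h9653 := checkRangeG_sound parWF r2 pf9652 h9652
  have h9654 := checkRangeG_sound parWF r2 pf9653 h9653
  have h9655 := checkRangeG_sound parWF r2 pf9654 h9654
  have h9656 := checkRangeG_sound parWF r2 pf9655 h9655
  have h9657 := checkRangeG_sound parWF r2 pf9656 h9656
  have h9658 := checkRangeG_sound parWF r2 pf9657 h9657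
  have h9659 := checkRangeG_sound parWF r2 pf9658 h9658
  have h9660 := checkRangeG_sound parWF r2 pf9659 h9659
  have h9661 := checkRangeG_sound parWF r2 pf9660 h9660
  have h9662 := checkRangeG_sound parWF r2 pf9661 h9661
  have h9663 := checkRangeG_sound parWF r2 pf9662 h9662
  have h9664 := checkRangeG_sound parWF r2 pf9663 h9663
  have h9665 := checkRangeG_sound parWF r2 pf9664 h9664
  have h9666 := checkRangeG_sound parWF r2 pf9665 h9665
  have h9667 := checkRangeG_sound parWF r2 pf9666 h9666
  have h9668 := checkRangeG_sound parWF r2 pf9667 h9667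
  have h9669 := checkRangeG_sound parWF r2 pf9668 h9668
  have h9670 := checkRangeG_sound parWF r2 pf9669 h9669
  have h9671 := checkRangeG_sound parWF r2 pf9670 h9670
  have h9672 := checkRangeG_sound parWF r2 pf9671 h9671
  have h9673 := checkRangeG_sound parWF r2 pf9672 h9672
  have h9674 := checkRangeG_sound parWF r2 pf9673 h9673
  have h9675 := checkRangeG_sound parWF r2 pf9674 h9674
  have h9676 := checkRangeG_sound parWF r2 pf9675 h9675
  have h9677 := checkRangeG_sound parWF r2 pf9676 h9676
  have h9678 := checkRangeG_sound parWF r2 pf9677 h9677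
  have h9679 := checkRangeG_sound parWF r2 pf9678 h9678
  have h9680 := checkRangeG_sound parWF r2 pf9679 h9679
  have h9681 := checkRangeG_sound parWF r2 pf9680 h9680
  have h9682 := checkRangeG_sound parWF r2 pf9681 h9681
  have h9683 := checkRangeG_sound parWF r2 pf9682 h9682
  have h9684 := checkRangeG_sound parWF r2 pf9683 h9683
  have h9685 := checkRangeG_sound parWF r2 pf9684 h9684
  have h9686 := checkRangeG_sound parWF r2 pf9685 h9685
  have h9687 := checkRangeG_sound parWF r2 pf9686 h9686
  have h9688 := checkRangeG_sound parWF r2 pf9687 h9687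
  have h9689 := checkRangeG_sound parWF r2 pf9688 h9688
  have h9690 := checkRangeG_sound parWF r2 pf9689 h9689
  have h9691 := checkRangeG_sound parWF r2 pf9690 h9690
  have h9692 := checkRangeG_sound parWF r2 pf9691 h9691
  have h9693 := checkRangeG_sound parWF r2 pf9692 h9692
  have h9694 := checkRangeG_sound parWF r2 pf9693 h9693
  have h9695 := checkRangeG_sound parWF r2 pf9694 h9694
  have h9696 := checkRangeG_sound parWF r2 pf9695 h9695
  have h9697 := checkRangeG_sound parWF r2 pf9696 h9696
  have h9698 := checkRangeG_sound parWF r2 pf9697 h9697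
  have h9699 := checkRangeG_sound parWF r2 pf9698 h9698
  have h9700 := checkRangeG_sound parWF r2 pf9699 h9699
  exact h9700

theorem c194 (h9700 : ∀ j, j < 28448 → GoodG.{u} par (db j)) : ∀ j, j < 28581 → GoodG.{u} par (db j) := by
  have h9701 := checkRangeG_sound parWF r2 pf9700 h9700
  have h9702 := checkRangeG_sound parWF r2 pf9701 h9701
  have h9703 := checkRangeG_sound parWF r2 pf9702 h9702
  have h9704 := checkRangeG_sound parWF r2 pf9703 h9703
  have h9705 := checkRangeG_sound parWF r2 pf9704 h9704
  have h9706 := checkRangeG_sound parWF r2 pf9705 h9705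
  have h9707 := checkRangeG_sound parWF r2 pf9706 h9706
  have h9708 := checkRangeG_sound parWF r2 pf9707 h9707
  have h9709 := checkRangeG_sound parWF r2 pf9708 h9708
  have h9710 := checkRangeG_sound parWF r2 pf9709 h9709
  have h9711 := checkRangeG_sound parWF r2 pf9710 h9710
  have h9712 := checkRangeG_sound parWF r2 pf9711 h9711
  have h9713 := checkRangeG_sound parWF r2 pf9712 h9712
  have h9714 := checkRangeG_sound parWF r2 pf9713 h9713
  have h9715 := checkRangeG_sound parWF r2 pf9714 h9714
  have h9716 := checkRangeG_sound parWF r2 pf9715 h9715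
  have h9717 := checkRangeG_sound parWF r2 pf9716 h9716
  have h9718 := checkRangeG_sound parWF r2 pf9717 h9717
  have h9719 := checkRangeG_sound parWF r2 pf9718 h9718
  have h9720 := checkRangeG_sound parWF r2 pf9719 h9719
  have h9721 := checkRangeG_sound parWF r2 pf9720 h9720
  have h9722 := checkRangeG_sound parWF r2 pf9721 h9721
  have h9723 := checkRangeG_sound parWF r2 pf9722 h9722
  have h9724 := checkRangeG_sound parWF r2 pf9723 h9723
  have h9725 := checkRangeG_sound parWF r2 pf9724 h9724
  have h9726 := checkRangeG_sound parWF r2 pf9725 h9725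
  have h9727 := checkRangeG_sound parWF r2 pf9726 h9726
  have h9728 := checkRangeG_sound parWF r2 pf9727 h9727
  have h9729 := checkRangeG_sound parWF r2 pf9728 h9728
  have h9730 := checkRangeG_sound parWF r2 pf9729 h9729
  have h9731 := checkRangeG_sound parWF r2 pf9730 h9730
  have h9732 := checkRangeG_sound parWF r2 pf9731 h9731
  have h9733 := checkRangeG_sound parWF r2 pf9732 h9732
  have h9734 := checkRangeG_sound parWF r2 pf9733 h9733
  have h9735 := checkRangeG_sound parWF r2 pf9734 h9734
  have h9736 := checkRangeG_sound parWF r2 pf9735 h9735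
  have h9737 := checkRangeG_sound parWF r2 pf9736 h9736
  have h9738 := checkRangeG_sound parWF r2 pf9737 h9737
  have h9739 := checkRangeG_sound parWF r2 pf9738 h9738
  have h9740 := checkRangeG_sound parWF r2 pf9739 h9739
  have h9741 := checkRangeG_sound parWF r2 pf9740 h9740
  have h9742 := checkRangeG_sound parWF r2 pf9741 h9741
  have h9743 := checkRangeG_sound parWF r2 pf9742 h9742
  have h9744 := checkRangeG_sound parWF r2 pf9743 h9743
  have h9745 := checkRangeG_sound parWF r2 pf9744 h9744
  have h9746 := checkRangeG_sound parWF r2 pf9745 h9745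
  have h9747 := checkRangeG_sound parWF r2 pf9746 h9746
  have h9748 := checkRangeG_sound parWF r2 pf9747 h9747
  have h9749 := checkRangeG_sound parWF r2 pf9748 h9748
  have h9750 := checkRangeG_sound parWF r2 pf9749 h9749
  exact h9750

theorem c195 (h9750 : ∀ j, j < 28581 → GoodG.{u} par (db j)) : ∀ j, j < 28735 → GoodG.{u} par (db j) := by
  have h9751 := checkRangeG_sound parWF r2 pf9750 h9750
  have h9752 := checkRangeG_sound parWF r2 pf9751 h9751
  have h9753 := checkRangeG_sound parWF r2 pf9752 h9752
  have h9754 := checkRangeG_sound parWF r2 pf9753 h9753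
  have h9755 := checkRangeG_sound parWF r2 pf9754 h9754
  have h9756 := checkRangeG_sound parWF r2 pf9755 h9755
  have h9757 := checkRangeG_sound parWF r2 pf9756 h9756
  have h9758 := checkRangeG_sound parWF r2 pf9757 h9757
  have h9759 := checkRangeG_sound parWF r2 pf9758 h9758
  have h9760 := checkRangeG_sound parWF r2 pf9759 h9759
  have h9761 := checkRangeG_sound parWF r2 pf9760 h9760
  have h9762 := checkRangeG_sound parWF r2 pf9761 h9761
  have h9763 := checkRangeG_sound parWF r2 pf9762 h9762
  have h9764 := checkRangeG_sound parWF r2 pf9763 h9763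
  have h9765 := checkRangeG_sound parWF r2 pf9764 h9764
  have h9766 := checkRangeG_sound parWF r2 pf9765 h9765
  have h9767 := checkRangeG_sound parWF r2 pf9766 h9766
  have h9768 := checkRangeG_sound parWF r2 pf9767 h9767
  have h9769 := checkRangeG_sound parWF r2 pf9768 h9768
  have h9770 := checkRangeG_sound parWF r2 pf9769 h9769
  have h9771 := checkRangeG_sound parWF r2 pf9770 h9770
  have h9772 := checkRangeG_sound parWF r2 pf9771 h9771
  have h9773 := checkRangeG_sound parWF r2 pf9772 h9772
  have h9774 := checkRangeG_sound parWF r2 pf9773 h9773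
  have h9775 := checkRangeG_sound parWF r2 pf9774 h9774
  have h9776 := checkRangeG_sound parWF r2 pf9775 h9775
  have h9777 := checkRangeG_sound parWF r2 pf9776 h9776
  have h9778 := checkRangeG_sound parWF r2 pf9777 h9777
  have h9779 := checkRangeG_sound parWF r2 pf9778 h9778
  have h9780 := checkRangeG_sound parWF r2 pf9779 h9779
  have h9781 := checkRangeG_sound parWF r2 pf9780 h9780
  have h9782 := checkRangeG_sound parWF r2 pf9781 h9781
  have h9783 := checkRangeG_sound parWF r2 pf9782 h9782
  have h9784 := checkRangeG_sound parWF r2 pf9783 h9783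
  have h9785 := checkRangeG_sound parWF r2 pf9784 h9784
  have h9786 := checkRangeG_sound parWF r2 pf9785 h9785
  have h9787 := checkRangeG_sound parWF r2 pf9786 h9786
  have h9788 := checkRangeG_sound parWF r2 pf9787 h9787
  have h9789 := checkRangeG_sound parWF r2 pf9788 h9788
  have h9790 := checkRangeG_sound parWF r2 pf9789 h9789
  have h9791 := checkRangeG_sound parWF r2 pf9790 h9790
  have h9792 := checkRangeG_sound parWF r2 pf9791 h9791
  have h9793 := checkRangeG_sound parWF r2 pf9792 h9792
  have h9794 := checkRangeG_sound parWF r2 pf9793 h9793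
  have h9795 := checkRangeG_sound parWF r2 pf9794 h9794
  have h9796 := checkRangeG_sound parWF r2 pf9795 h9795
  have h9797 := checkRangeG_sound parWF r2 pf9796 h9796
  have h9798 := checkRangeG_sound parWF r2 pf9797 h9797
  have h9799 := checkRangeG_sound parWF r2 pf9798 h9798
  have h9800 := checkRangeG_sound parWF r2 pf9799 h9799
  exact h9800

theorem c196 (h9800 : ∀ j, j < 28735 → GoodG.{u} par (db j)) : ∀ j, j < 28924 → GoodG.{u} par (db j) := by
  have h9801 := checkRangeG_sound parWF r2 pf9800 h9800
  have h9802 := checkRangeG_sound parWF r2 pf9801 h9801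
  have h9803 := checkRangeG_sound parWF r2 pf9802 h9802
  have h9804 := checkRangeG_sound parWF r2 pf9803 h9803
  have h9805 := checkRangeG_sound parWF r2 pf9804 h9804
  have h9806 := checkRangeG_sound parWF r2 pf9805 h9805
  have h9807 := checkRangeG_sound parWF r2 pf9806 h9806
  have h9808 := checkRangeG_sound parWF r2 pf9807 h9807
  have h9809 := checkRangeG_sound parWF r2 pf9808 h9808
  have h9810 := checkRangeG_sound parWF r2 pf9809 h9809
  have h9811 := checkRangeG_sound parWF r2 pf9810 h9810
  have h9812 := checkRangeG_sound parWF r2 pf9811 h9811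
  have h9813 := checkRangeG_sound parWF r2 pf9812 h9812
  have h9814 := checkRangeG_sound parWF r2 pf9813 h9813
  have h9815 := checkRangeG_sound parWF r2 pf9814 h9814
  have h9816 := checkRangeG_sound parWF r2 pf9815 h9815
  have h9817 := checkRangeG_sound parWF r2 pf9816 h9816
  have h9818 := checkRangeG_sound parWF r2 pf9817 h9817
  have h9819 := checkRangeG_sound parWF r2 pf9818 h9818
  have h9820 := checkRangeG_sound parWF r2 pf9819 h9819
  have h9821 := checkRangeG_sound parWF r2 pf9820 h9820
  have h9822 := checkRangeG_sound parWF r2 pf9821 h9821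
  have h9823 := checkRangeG_sound parWF r2 pf9822 h9822
  have h9824 := checkRangeG_sound parWF r2 pf9823 h9823
  have h9825 := checkRangeG_sound parWF r2 pf9824 h9824
  have h9826 := checkRangeG_sound parWF r2 pf9825 h9825
  have h9827 := checkRangeG_sound parWF r2 pf9826 h9826
  have h9828 := checkRangeG_sound parWF r2 pf9827 h9827
  have h9829 := checkRangeG_sound parWF r2 pf9828 h9828
  have h9830 := checkRangeG_sound parWF r2 pf9829 h9829
  have h9831 := checkRangeG_sound parWF r2 pf9830 h9830
  have h9832 := checkRangeG_sound parWF r2 pf9831 h9831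
  have h9833 := checkRangeG_sound parWF r2 pf9832 h9832
  have h9834 := checkRangeG_sound parWF r2 pf9833 h9833
  have h9835 := checkRangeG_sound parWF r2 pf9834 h9834
  have h9836 := checkRangeG_sound parWF r2 pf9835 h9835
  have h9837 := checkRangeG_sound parWF r2 pf9836 h9836
  have h9838 := checkRangeG_sound parWF r2 pf9837 h9837
  have h9839 := checkRangeG_sound parWF r2 pf9838 h9838
  have h9840 := checkRangeG_sound parWF r2 pf9839 h9839
  have h9841 := checkRangeG_sound parWF r2 pf9840 h9840
  have h9842 := checkRangeG_sound parWF r2 pf9841 h9841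
  have h9843 := checkRangeG_sound parWF r2 pf9842 h9842
  have h9844 := checkRangeG_sound parWF r2 pf9843 h9843
  have h9845 := checkRangeG_sound parWF r2 pf9844 h9844
  have h9846 := checkRangeG_sound parWF r2 pf9845 h9845
  have h9847 := checkRangeG_sound parWF r2 pf9846 h9846
  have h9848 := checkRangeG_sound parWF r2 pf9847 h9847
  have h9849 := checkRangeG_sound parWF r2 pf9848 h9848
  have h9850 := checkRangeG_sound parWF r2 pf9849 h9849
  exact h9850

theorem c197 (h9850 : ∀ j, j < 28924 → GoodG.{u} par (db j)) : ∀ j, j < 29107 → GoodG.{u} par (db j) := by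
  have h9851 := checkRangeG_sound parWF r2 pf9850 h9850
  have h9852 := checkRangeG_sound parWF r2 pf9851 h9851
  have h9853 := checkRangeG_sound parWF r2 pf9852 h9852
  have h9854 := checkRangeG_sound parWF r2 pf9853 h9853
  have h9855 := checkRangeG_sound parWF r2 pf9854 h9854
  have h9856 := checkRangeG_sound parWF r2 pf9855 h9855
  have h9857 := checkRangeG_sound parWF r2 pf9856 h9856
  have h9858 := checkRangeG_sound parWF r2 pf9857 h9857
  have h9859 := checkRangeG_sound parWF r2 pf9858 h9858
  have h9860 := checkRangeG_sound parWF r2 pf9859 h9859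
  have h9861 := checkRangeG_sound parWF r2 pf9860 h9860
  have h9862 := checkRangeG_sound parWF r2 pf9861 h9861
  have h9863 := checkRangeG_sound parWF r2 pf9862 h9862
  have h9864 := checkRangeG_sound parWF r2 pf9863 h9863
  have h9865 := checkRangeG_sound parWF r2 pf9864 h9864
  have h9866 := checkRangeG_sound parWF r2 pf9865 h9865
  have h9867 := checkRangeG_sound parWF r2 pf9866 h9866
  have h9868 := checkRangeG_sound parWF r2 pf9867 h9867
  have h9869 := checkRangeG_sound parWF r2 pf9868 h9868
  have h9870 := checkRangeG_sound parWF r2 pf9869 h9869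
  have h9871 := checkRangeG_sound parWF r2 pf9870 h9870
  have h9872 := checkRangeG_sound parWF r2 pf9871 h9871
  have h9873 := checkRangeG_sound parWF r2 pf9872 h9872
  have h9874 := checkRangeG_sound parWF r2 pf9873 h9873
  have h9875 := checkRangeG_sound parWF r2 pf9874 h9874
  have h9876 := checkRangeG_sound parWF r2 pf9875 h9875
  have h9877 := checkRangeG_sound parWF r2 pf9876 h9876
  have h9878 := checkRangeG_sound parWF r2 pf9877 h9877
  have h9879 := checkRangeG_sound parWF r2 pf9878 h9878
  have h9880 := checkRangeG_sound parWF r2 pf9879 h9879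
  have h9881 := checkRangeG_sound parWF r2 pf9880 h9880
  have h9882 := checkRangeG_sound parWF r2 pf9881 h9881
  have h9883 := checkRangeG_sound parWF r2 pf9882 h9882
  have h9884 := checkRangeG_sound parWF r2 pf9883 h9883
  have h9885 := checkRangeG_sound parWF r2 pf9884 h9884
  have h9886 := checkRangeG_sound parWF r2 pf9885 h9885
  have h9887 := checkRangeG_sound parWF r2 pf9886 h9886
  have h9888 := checkRangeG_sound parWF r2 pf9887 h9887
  have h9889 := checkRangeG_sound parWF r2 pf9888 h9888
  have h9890 := checkRangeG_sound parWF r2 pf9889 h9889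
  have h9891 := checkRangeG_sound parWF r2 pf9890 h9890
  have h9892 := checkRangeG_sound parWF r2 pf9891 h9891
  have h9893 := checkRangeG_sound parWF r2 pf9892 h9892
  have h9894 := checkRangeG_sound parWF r2 pf9893 h9893
  have h9895 := checkRangeG_sound parWF r2 pf9894 h9894
  have h9896 := checkRangeG_sound parWF r2 pf9895 h9895
  have h9897 := checkRangeG_sound parWF r2 pf9896 h9896
  have h9898 := checkRangeG_sound parWF r2 pf9897 h9897
  have h9899 := checkRangeG_sound parWF r2 pf9898 h9898
  have h9900 := checkRangeG_sound parWF r2 pf9899 h9899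
  exact h9900

theorem c198 (h9900 : ∀ j, j < 29107 → GoodG.{u} par (db j)) : ∀ j, j < 29293 → GoodG.{u} par (db j) := by
  have h9901 := checkRangeG_sound parWF r2 pf9900 h9900
  have h9902 := checkRangeG_sound parWF r2 pf9901 h9901
  have h9903 := checkRangeG_sound parWF r2 pf9902 h9902
  have h9904 := checkRangeG_sound parWF r2 pf9903 h9903
  have h9905 := checkRangeG_sound parWF r2 pf9904 h9904
  have h9906 := checkRangeG_sound parWF r2 pf9905 h9905
  have h9907 := checkRangeG_sound parWF r2 pf9906 h9906
  have h9908 := checkRangeG_sound parWF r2 pf9907 h9907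
  have h9909 := checkRangeG_sound parWF r2 pf9908 h9908
  have h9910 := checkRangeG_sound parWF r2 pf9909 h9909
  have h9911 := checkRangeG_sound parWF r2 pf9910 h9910
  have h9912 := checkRangeG_sound parWF r2 pf9911 h9911
  have h9913 := checkRangeG_sound parWF r2 pf9912 h9912
  have h9914 := checkRangeG_sound parWF r2 pf9913 h9913
  have h9915 := checkRangeG_sound parWF r2 pf9914 h9914
  have h9916 := checkRangeG_sound parWF r2 pf9915 h9915
  have h9917 := checkRangeG_sound parWF r2 pf9916 h9916
  have h9918 := checkRangeG_sound parWF r2 pf9917 h9917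
  have h9919 := checkRangeG_sound parWF r2 pf9918 h9918
  have h9920 := checkRangeG_sound parWF r2 pf9919 h9919
  have h9921 := checkRangeG_sound parWF r2 pf9920 h9920
  have h9922 := checkRangeG_sound parWF r2 pf9921 h9921
  have h9923 := checkRangeG_sound parWF r2 pf9922 h9922
  have h9924 := checkRangeG_sound parWF r2 pf9923 h9923
  have h9925 := checkRangeG_sound parWF r2 pf9924 h9924
  have h9926 := checkRangeG_sound parWF r2 pf9925 h9925
  have h9927 := checkRangeG_sound parWF r2 pf9926 h9926
  have h9928 := checkRangeG_sound parWF r2 pf9927 h9927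
  have h9929 := checkRangeG_sound parWF r2 pf9928 h9928
  have h9930 := checkRangeG_sound parWF r2 pf9929 h9929
  have h9931 := checkRangeG_sound parWF r2 pf9930 h9930
  have h9932 := checkRangeG_sound parWF r2 pf9931 h9931
  have h9933 := checkRangeG_sound parWF r2 pf9932 h9932
  have h9934 := checkRangeG_sound parWF r2 pf9933 h9933
  have h9935 := checkRangeG_sound parWF r2 pf9934 h9934
  have h9936 := checkRangeG_sound parWF r2 pf9935 h9935
  have h9937 := checkRangeG_sound parWF r2 pf9936 h9936
  have h9938 := checkRangeG_sound parWF r2 pf9937 h9937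
  have h9939 := checkRangeG_sound parWF r2 pf9938 h9938
  have h9940 := checkRangeG_sound parWF r2 pf9939 h9939
  have h9941 := checkRangeG_sound parWF r2 pf9940 h9940
  have h9942 := checkRangeG_sound parWF r2 pf9941 h9941
  have h9943 := checkRangeG_sound parWF r2 pf9942 h9942
  have h9944 := checkRangeG_sound parWF r2 pf9943 h9943
  have h9945 := checkRangeG_sound parWF r2 pf9944 h9944
  have h9946 := checkRangeG_sound parWF r2 pf9945 h9945
  have h9947 := checkRangeG_sound parWF r2 pf9946 h9946
  have h9948 := checkRangeG_sound parWF r2 pf9947 h9947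
  have h9949 := checkRangeG_sound parWF r2 pf9948 h9948
  have h9950 := checkRangeG_sound parWF r2 pf9949 h9949
  exact h9950

theorem c199 (h9950 : ∀ j, j < 29293 → GoodG.{u} par (db j)) : ∀ j, j < 29486 → GoodG.{u} par (db j) := by
  have h9951 := checkRangeG_sound parWF r2 pf9950 h9950
  have h9952 := checkRangeG_sound parWF r2 pf9951 h9951
  have h9953 := checkRangeG_sound parWF r2 pf9952 h9952
  have h9954 := checkRangeG_sound parWF r2 pf9953 h9953
  have h9955 := checkRangeG_sound parWF r2 pf9954 h9954
  have h9956 := checkRangeG_sound parWF r2 pf9955 h9955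
  have h9957 := checkRangeG_sound parWF r2 pf9956 h9956
  have h9958 := checkRangeG_sound parWF r2 pf9957 h9957
  have h9959 := checkRangeG_sound parWF r2 pf9958 h9958
  have h9960 := checkRangeG_sound parWF r2 pf9959 h9959
  have h9961 := checkRangeG_sound parWF r2 pf9960 h9960
  have h9962 := checkRangeG_sound parWF r2 pf9961 h9961
  have h9963 := checkRangeG_sound parWF r2 pf9962 h9962
  have h9964 := checkRangeG_sound parWF r2 pf9963 h9963
  have h9965 := checkRangeG_sound parWF r2 pf9964 h9964
  have h9966 := checkRangeG_sound parWF r2 pf9965 h9965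
  have h9967 := checkRangeG_sound parWF r2 pf9966 h9966
  have h9968 := checkRangeG_sound parWF r2 pf9967 h9967
  have h9969 := checkRangeG_sound parWF r2 pf9968 h9968
  have h9970 := checkRangeG_sound parWF r2 pf9969 h9969
  have h9971 := checkRangeG_sound parWF r2 pf9970 h9970
  have h9972 := checkRangeG_sound parWF r2 pf9971 h9971
  have h9973 := checkRangeG_sound parWF r2 pf9972 h9972
  have h9974 := checkRangeG_sound parWF r2 pf9973 h9973
  have h9975 := checkRangeG_sound parWF r2 pf9974 h9974
  have h9976 := checkRangeG_sound parWF r2 pf9975 h9975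
  have h9977 := checkRangeG_sound parWF r2 pf9976 h9976
  have h9978 := checkRangeG_sound parWF r2 pf9977 h9977
  have h9979 := checkRangeG_sound parWF r2 pf9978 h9978
  have h9980 := checkRangeG_sound parWF r2 pf9979 h9979
  have h9981 := checkRangeG_sound parWF r2 pf9980 h9980
  have h9982 := checkRangeG_sound parWF r2 pf9981 h9981
  have h9983 := checkRangeG_sound parWF r2 pf9982 h9982
  have h9984 := checkRangeG_sound parWF r2 pf9983 h9983
  have h9985 := checkRangeG_sound parWF r2 pf9984 h9984
  have h9986 := checkRangeG_sound parWF r2 pf9985 h9985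
  have h9987 := checkRangeG_sound parWF r2 pf9986 h9986
  have h9988 := checkRangeG_sound parWF r2 pf9987 h9987
  have h9989 := checkRangeG_sound parWF r2 pf9988 h9988
  have h9990 := checkRangeG_sound parWF r2 pf9989 h9989
  have h9991 := checkRangeG_sound parWF r2 pf9990 h9990
  have h9992 := checkRangeG_sound parWF r2 pf9991 h9991
  have h9993 := checkRangeG_sound parWF r2 pf9992 h9992
  have h9994 := checkRangeG_sound parWF r2 pf9993 h9993
  have h9995 := checkRangeG_sound parWF r2 pf9994 h9994
  have h9996 := checkRangeG_sound parWF r2 pf9995 h9995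
  have h9997 := checkRangeG_sound parWF r2 pf9996 h9996
  have h9998 := checkRangeG_sound parWF r2 pf9997 h9997
  have h9999 := checkRangeG_sound parWF r2 pf9998 h9998
  have h10000 := checkRangeG_sound parWF r2 pf9999 h9999
  exact h10000

theorem c200 (h10000 : ∀ j, j < 29486 → GoodG.{u} par (db j)) : ∀ j, j < 29674 → GoodG.{u} par (db j) := by
  have h10001 := checkRangeG_sound parWF r2 pf10000 h10000
  have h10002 := checkRangeG_sound parWF r2 pf10001 h10001
  have h10003 := checkRangeG_sound parWF r2 pf10002 h10002
  have h10004 := checkRangeG_sound parWF r2 pf10003 h10003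
  have h10005 := checkRangeG_sound parWF r2 pf10004 h10004
  have h10006 := checkRangeG_sound parWF r2 pf10005 h10005
  have h10007 := checkRangeG_sound parWF r2 pf10006 h10006
  have h10008 := checkRangeG_sound parWF r2 pf10007 h10007
  have h10009 := checkRangeG_sound parWF r2 pf10008 h10008
  have h10010 := checkRangeG_sound parWF r2 pf10009 h10009
  have h10011 := checkRangeG_sound parWF r2 pf10010 h10010
  have h10012 := checkRangeG_sound parWF r2 pf10011 h10011
  have h10013 := checkRangeG_sound parWF r2 pf10012 h10012
  have h10014 := checkRangeG_sound parWF r2 pf10013 h10013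
  have h10015 := checkRangeG_sound parWF r2 pf10014 h10014
  have h10016 := checkRangeG_sound parWF r2 pf10015 h10015
  have h10017 := checkRangeG_sound parWF r2 pf10016 h10016
  have h10018 := checkRangeG_sound parWF r2 pf10017 h10017
  have h10019 := checkRangeG_sound parWF r2 pf10018 h10018
  have h10020 := checkRangeG_sound parWF r2 pf10019 h10019
  have h10021 := checkRangeG_sound parWF r2 pf10020 h10020
  have h10022 := checkRangeG_sound parWF r2 pf10021 h10021
  have h10023 := checkRangeG_sound parWF r2 pf10022 h10022
  have h10024 := checkRangeG_sound parWF r2 pf10023 h10023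
  have h10025 := checkRangeG_sound parWF r2 pf10024 h10024
  have h10026 := checkRangeG_sound parWF r2 pf10025 h10025
  have h10027 := checkRangeG_sound parWF r2 pf10026 h10026
  have h10028 := checkRangeG_sound parWF r2 pf10027 h10027
  have h10029 := checkRangeG_sound parWF r2 pf10028 h10028
  have h10030 := checkRangeG_sound parWF r2 pf10029 h10029
  have h10031 := checkRangeG_sound parWF r2 pf10030 h10030
  have h10032 := checkRangeG_sound parWF r2 pf10031 h10031
  have h10033 := checkRangeG_sound parWF r2 pf10032 h10032
  have h10034 := checkRangeG_sound parWF r2 pf10033 h10033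
  have h10035 := checkRangeG_sound parWF r2 pf10034 h10034
  have h10036 := checkRangeG_sound parWF r2 pf10035 h10035
  have h10037 := checkRangeG_sound parWF r2 pf10036 h10036
  have h10038 := checkRangeG_sound parWF r2 pf10037 h10037
  have h10039 := checkRangeG_sound parWF r2 pf10038 h10038
  have h10040 := checkRangeG_sound parWF r2 pf10039 h10039
  have h10041 := checkRangeG_sound parWF r2 pf10040 h10040
  have h10042 := checkRangeG_sound parWF r2 pf10041 h10041
  have h10043 := checkRangeG_sound parWF r2 pf10042 h10042
  have h10044 := checkRangeG_sound parWF r2 pf10043 h10043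
  have h10045 := checkRangeG_sound parWF r2 pf10044 h10044
  have h10046 := checkRangeG_sound parWF r2 pf10045 h10045
  have h10047 := checkRangeG_sound parWF r2 pf10046 h10046
  have h10048 := checkRangeG_sound parWF r2 pf10047 h10047
  have h10049 := checkRangeG_sound parWF r2 pf10048 h10048
  have h10050 := checkRangeG_sound parWF r2 pf10049 h10049
  exact h10050

theorem c201 (h10050 : ∀ j, j < 29674 → GoodG.{u} par (db j)) : ∀ j, j < 29872 → GoodG.{u} par (db j) := by
  have h10051 := checkRangeG_sound parWF r2 pf10050 h10050
  have h10052 := checkRangeG_sound parWF r2 pf10051 h10051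
  have h10053 := checkRangeG_sound parWF r2 pf10052 h10052
  have h10054 := checkRangeG_sound parWF r2 pf10053 h10053
  have h10055 := checkRangeG_sound parWF r2 pf10054 h10054
  have h10056 := checkRangeG_sound parWF r2 pf10055 h10055
  have h10057 := checkRangeG_sound parWF r2 pf10056 h10056
  have h10058 := checkRangeG_sound parWF r2 pf10057 h10057
  have h10059 := checkRangeG_sound parWF r2 pf10058 h10058
  have h10060 := checkRangeG_sound parWF r2 pf10059 h10059
  have h10061 := checkRangeG_sound parWF r2 pf10060 h10060
  have h10062 := checkRangeG_sound parWF r2 pf10061 h10061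
  have h10063 := checkRangeG_sound parWF r2 pf10062 h10062
  have h10064 := checkRangeG_sound parWF r2 pf10063 h10063
  have h10065 := checkRangeG_sound parWF r2 pf10064 h10064
  have h10066 := checkRangeG_sound parWF r2 pf10065 h10065
  have h10067 := checkRangeG_sound parWF r2 pf10066 h10066
  have h10068 := checkRangeG_sound parWF r2 pf10067 h10067
  have h10069 := checkRangeG_sound parWF r2 pf10068 h10068
  have h10070 := checkRangeG_sound parWF r2 pf10069 h10069
  have h10071 := checkRangeG_sound parWF r2 pf10070 h10070
  have h10072 := checkRangeG_sound parWF r2 pf10071 h10071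
  have h10073 := checkRangeG_sound parWF r2 pf10072 h10072
  have h10074 := checkRangeG_sound parWF r2 pf10073 h10073
  have h10075 := checkRangeG_sound parWF r2 pf10074 h10074
  have h10076 := checkRangeG_sound parWF r2 pf10075 h10075
  have h10077 := checkRangeG_sound parWF r2 pf10076 h10076
  have h10078 := checkRangeG_sound parWF r2 pf10077 h10077
  have h10079 := checkRangeG_sound parWF r2 pf10078 h10078
  have h10080 := checkRangeG_sound parWF r2 pf10079 h10079
  have h10081 := checkRangeG_sound parWF r2 pf10080 h10080
  have h10082 := checkRangeG_sound parWF r2 pf10081 h10081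
  have h10083 := checkRangeG_sound parWF r2 pf10082 h10082
  have h10084 := checkRangeG_sound parWF r2 pf10083 h10083
  have h10085 := checkRangeG_sound parWF r2 pf10084 h10084
  have h10086 := checkRangeG_sound parWF r2 pf10085 h10085
  have h10087 := checkRangeG_sound parWF r2 pf10086 h10086
  have h10088 := checkRangeG_sound parWF r2 pf10087 h10087
  have h10089 := checkRangeG_sound parWF r2 pf10088 h10088
  have h10090 := checkRangeG_sound parWF r2 pf10089 h10089
  have h10091 := checkRangeG_sound parWF r2 pf10090 h10090
  have h10092 := checkRangeG_sound parWF r2 pf10091 h10091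
  have h10093 := checkRangeG_sound parWF r2 pf10092 h10092
  have h10094 := checkRangeG_sound parWF r2 pf10093 h10093
  have h10095 := checkRangeG_sound parWF r2 pf10094 h10094
  have h10096 := checkRangeG_sound parWF r2 pf10095 h10095
  have h10097 := checkRangeG_sound parWF r2 pf10096 h10096
  have h10098 := checkRangeG_sound parWF r2 pf10097 h10097
  have h10099 := checkRangeG_sound parWF r2 pf10098 h10098
  have h10100 := checkRangeG_sound parWF r2 pf10099 h10099
  exact h10100

theorem c202 (h10100 : ∀ j, j < 29872 → GoodG.{u} par (db j)) : ∀ j, j < 30054 → GoodG.{u} par (db j) := by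
  have h10101 := checkRangeG_sound parWF r2 pf10100 h10100
  have h10102 := checkRangeG_sound parWF r2 pf10101 h10101
  have h10103 := checkRangeG_sound parWF r2 pf10102 h10102
  have h10104 := checkRangeG_sound parWF r2 pf10103 h10103
  have h10105 := checkRangeG_sound parWF r2 pf10104 h10104
  have h10106 := checkRangeG_sound parWF r2 pf10105 h10105
  have h10107 := checkRangeG_sound parWF r2 pf10106 h10106
  have h10108 := checkRangeG_sound parWF r2 pf10107 h10107
  have h10109 := checkRangeG_sound parWF r2 pf10108 h10108
  have h10110 := checkRangeG_sound parWF r2 pf10109 h10109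
  have h10111 := checkRangeG_sound parWF r2 pf10110 h10110
  have h10112 := checkRangeG_sound parWF r2 pf10111 h10111
  have h10113 := checkRangeG_sound parWF r2 pf10112 h10112
  have h10114 := checkRangeG_sound parWF r2 pf10113 h10113
  have h10115 := checkRangeG_sound parWF r2 pf10114 h10114
  have h10116 := checkRangeG_sound parWF r2 pf10115 h10115
  have h10117 := checkRangeG_sound parWF r2 pf10116 h10116
  have h10118 := checkRangeG_sound parWF r2 pf10117 h10117
  have h10119 := checkRangeG_sound parWF r2 pf10118 h10118
  have h10120 := checkRangeG_sound parWF r2 pf10119 h10119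
  have h10121 := checkRangeG_sound parWF r2 pf10120 h10120
  have h10122 := checkRangeG_sound parWF r2 pf10121 h10121
  have h10123 := checkRangeG_sound parWF r2 pf10122 h10122
  have h10124 := checkRangeG_sound parWF r2 pf10123 h10123
  have h10125 := checkRangeG_sound parWF r2 pf10124 h10124
  have h10126 := checkRangeG_sound parWF r2 pf10125 h10125
  have h10127 := checkRangeG_sound parWF r2 pf10126 h10126
  have h10128 := checkRangeG_sound parWF r2 pf10127 h10127
  have h10129 := checkRangeG_sound parWF r2 pf10128 h10128
  have h10130 := checkRangeG_sound parWF r2 pf10129 h10129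
  have h10131 := checkRangeG_sound parWF r2 pf10130 h10130
  have h10132 := checkRangeG_sound parWF r2 pf10131 h10131
  have h10133 := checkRangeG_sound parWF r2 pf10132 h10132
  have h10134 := checkRangeG_sound parWF r2 pf10133 h10133
  have h10135 := checkRangeG_sound parWF r2 pf10134 h10134
  have h10136 := checkRangeG_sound parWF r2 pf10135 h10135
  have h10137 := checkRangeG_sound parWF r2 pf10136 h10136
  have h10138 := checkRangeG_sound parWF r2 pf10137 h10137
  have h10139 := checkRangeG_sound parWF r2 pf10138 h10138
  have h10140 := checkRangeG_sound parWF r2 pf10139 h10139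
  have h10141 := checkRangeG_sound parWF r2 pf10140 h10140
  have h10142 := checkRangeG_sound parWF r2 pf10141 h10141
  have h10143 := checkRangeG_sound parWF r2 pf10142 h10142
  have h10144 := checkRangeG_sound parWF r2 pf10143 h10143
  have h10145 := checkRangeG_sound parWF r2 pf10144 h10144
  have h10146 := checkRangeG_sound parWF r2 pf10145 h10145
  have h10147 := checkRangeG_sound parWF r2 pf10146 h10146
  have h10148 := checkRangeG_sound parWF r2 pf10147 h10147
  have h10149 := checkRangeG_sound parWF r2 pf10148 h10148
  have h10150 := checkRangeG_sound parWF r2 pf10149 h10149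
  exact h10150

theorem c203 (h10150 : ∀ j, j < 30054 → GoodG.{u} par (db j)) : ∀ j, j < 30233 → GoodG.{u} par (db j) := by
  have h10151 := checkRangeG_sound parWF r2 pf10150 h10150
  have h10152 := checkRangeG_sound parWF r2 pf10151 h10151
  have h10153 := checkRangeG_sound parWF r2 pf10152 h10152
  have h10154 := checkRangeG_sound parWF r2 pf10153 h10153
  have h10155 := checkRangeG_sound parWF r2 pf10154 h10154
  have h10156 := checkRangeG_sound parWF r2 pf10155 h10155
  have h10157 := checkRangeG_sound parWF r2 pf10156 h10156
  have h10158 := checkRangeG_sound parWF r2 pf10157 h10157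
  have h10159 := checkRangeG_sound parWF r2 pf10158 h10158
  have h10160 := checkRangeG_sound parWF r2 pf10159 h10159
  have h10161 := checkRangeG_sound parWF r2 pf10160 h10160
  have h10162 := checkRangeG_sound parWF r2 pf10161 h10161
  have h10163 := checkRangeG_sound parWF r2 pf10162 h10162
  have h10164 := checkRangeG_sound parWF r2 pf10163 h10163
  have h10165 := checkRangeG_sound parWF r2 pf10164 h10164
  have h10166 := checkRangeG_sound parWF r2 pf10165 h10165
  have h10167 := checkRangeG_sound parWF r2 pf10166 h10166
  have h10168 := checkRangeG_sound parWF r2 pf10167 h10167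
  have h10169 := checkRangeG_sound parWF r2 pf10168 h10168
  have h10170 := checkRangeG_sound parWF r2 pf10169 h10169
  have h10171 := checkRangeG_sound parWF r2 pf10170 h10170
  have h10172 := checkRangeG_sound parWF r2 pf10171 h10171
  have h10173 := checkRangeG_sound parWF r2 pf10172 h10172
  have h10174 := checkRangeG_sound parWF r2 pf10173 h10173
  have h10175 := checkRangeG_sound parWF r2 pf10174 h10174
  have h10176 := checkRangeG_sound parWF r2 pf10175 h10175
  have h10177 := checkRangeG_sound parWF r2 pf10176 h10176
  have h10178 := checkRangeG_sound parWF r2 pf10177 h10177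
  have h10179 := checkRangeG_sound parWF r2 pf10178 h10178
  have h10180 := checkRangeG_sound parWF r2 pf10179 h10179
  have h10181 := checkRangeG_sound parWF r2 pf10180 h10180
  have h10182 := checkRangeG_sound parWF r2 pf10181 h10181
  have h10183 := checkRangeG_sound parWF r2 pf10182 h10182
  have h10184 := checkRangeG_sound parWF r2 pf10183 h10183
  have h10185 := checkRangeG_sound parWF r2 pf10184 h10184
  have h10186 := checkRangeG_sound parWF r2 pf10185 h10185
  have h10187 := checkRangeG_sound parWF r2 pf10186 h10186
  have h10188 := checkRangeG_sound parWF r2 pf10187 h10187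
  have h10189 := checkRangeG_sound parWF r2 pf10188 h10188
  have h10190 := checkRangeG_sound parWF r2 pf10189 h10189
  have h10191 := checkRangeG_sound parWF r2 pf10190 h10190
  have h10192 := checkRangeG_sound parWF r2 pf10191 h10191
  have h10193 := checkRangeG_sound parWF r2 pf10192 h10192
  have h10194 := checkRangeG_sound parWF r2 pf10193 h10193
  have h10195 := checkRangeG_sound parWF r2 pf10194 h10194
  have h10196 := checkRangeG_sound parWF r2 pf10195 h10195
  have h10197 := checkRangeG_sound parWF r2 pf10196 h10196
  have h10198 := checkRangeG_sound parWF r2 pf10197 h10197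
  have h10199 := checkRangeG_sound parWF r2 pf10198 h10198
  have h10200 := checkRangeG_sound parWF r2 pf10199 h10199
  exact h10200


end Vale.Agent.P045g.C61
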