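import Vale.Agent.P045g.C61.WF
import Vale.Agent.P045g.C61.Pf170
import Vale.Agent.P045g.C61.Pf171
import Vale.Agent.P045g.C61.Pf172
import Vale.Agent.P045g.C61.Pf173
import Vale.Agent.P045g.C61.Pf174
import Vale.Agent.P045g.C61.Pf175
import Vale.Agent.P045g.C61.Pf176
import Vale.Agent.P045g.C61.Pf177
import Vale.Agent.P045g.C61.Pf178
import Vale.Agent.P045g.C61.Pf179

namespace Vale.Agent.P045g.C61

open Vale.Agent.P045b Vale.Agent.P045g

universe u

theorem c204 (h10200 : ∀ j, j < 30233 → GoodG.{u} par (db j)) : ∀ j, j < 30422 → GoodG.{u} par (db j) := by
  have h10201 := checkRangeG_sound parWF r2 pf10200 h10200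
  have h10202 := checkRangeG_sound parWF r2 pf10201 h10201
  have h10203 := checkRangeG_sound parWF r2 pf10202 h10202
  have h10204 := checkRangeG_sound parWF r2 pf10203 h10203
  have h10205 := checkRangeG_sound parWF r2 pf10204 h10204
  have h10206 := checkRangeG_sound parWF r2 pf10205 h10205
  have h10207 := checkRangeG_sound parWF r2 pf10206 h10206
  have h10208 := checkRangeG_sound parWF r2 pf10207 h10207
  have h10209 := checkRangeG_sound parWF r2 pf10208 h10208
  have h10210 := checkRangeG_sound parWF r2 pf10209 h10209
  have h10211 := checkRangeG_sound parWF r2 pf10210 h10210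
  have h10212 := checkRangeG_sound parWF r2 pf10211 h10211
  have h10213 := checkRangeG_sound parWF r2 pf10212 h10212
  have h10214 := checkRangeG_sound parWF r2 pf10213 h10213
  have h10215 := checkRangeG_sound parWF r2 pf10214 h10214
  have h10216 := checkRangeG_sound parWF r2 pf10215 h10215
  have h10217 := checkRangeG_sound parWF r2 pf10216 h10216
  have h10218 := checkRangeG_sound parWF r2 pf10217 h10217
  have h10219 := checkRangeG_sound parWF r2 pf10218 h10218
  have h10220 := checkRangeG_sound parWF r2 pf10219 h10219
  have h10221 := checkRangeG_sound parWF r2 pf10220 h10220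
  have h10222 := checkRangeG_sound parWF r2 pf10221 h10221
  have h10223 := checkRangeG_sound parWF r2 pf10222 h10222
  have h10224 := checkRangeG_sound parWF r2 pf10223 h10223
  have h10225 := checkRangeG_sound parWF r2 pf10224 h10224
  have h10226 := checkRangeG_sound parWF r2 pf10225 h10225
  have h10227 := checkRangeG_sound parWF r2 pf10226 h10226
  have h10228 := checkRangeG_sound parWF r2 pf10227 h10227
  have h10229 := checkRangeG_sound parWF r2 pf10228 h10228
  have h10230 := checkRangeG_sound parWF r2 pf10229 h10229
  have h10231 := checkRangeG_sound parWF r2 pf10230 h10230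
  have h10232 := checkRangeG_sound parWF r2 pf10231 h10231
  have h10233 := checkRangeG_sound parWF r2 pf10232 h10232
  have h10234 := checkRangeG_sound parWF r2 pf10233 h10233
  have h10235 := checkRangeG_sound parWF r2 pf10234 h10234
  have h10236 := checkRangeG_sound parWF r2 pf10235 h10235
  have h10237 := checkRangeG_sound parWF r2 pf10236 h10236
  have h10238 := checkRangeG_sound parWF r2 pf10237 h10237
  have h10239 := checkRangeG_sound parWF r2 pf10238 h10238
  have h10240 := checkRangeG_sound parWF r2 pf10239 h10239
  have h10241 := checkRangeG_sound parWF r2 pf10240 h10240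
  have h10242 := checkRangeG_sound parWF r2 pf10241 h10241
  have h10243 := checkRangeG_sound parWF r2 pf10242 h10242
  have h10244 := checkRangeG_sound parWF r2 pf10243 h10243
  have h10245 := checkRangeG_sound parWF r2 pf10244 h10244
  have h10246 := checkRangeG_sound parWF r2 pf10245 h10245
  have h10247 := checkRangeG_sound parWF r2 pf10246 h10246
  have h10248 := checkRangeG_sound parWF r2 pf10247 h10247
  have h10249 := checkRangeG_sound parWF r2 pf10248 h10248
  have h10250 := checkRangeG_sound parWF r2 pf10249 h10249
  exact h10250

theorem c205 (h10250 : ∀ j, j < 30422 → GoodG.{u} par (db j)) : ∀ j, j < 30610 → GoodG.{u} par (db j) := by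
  have h10251 := checkRangeG_sound parWF r2 pf10250 h10250
  have h10252 := checkRangeG_sound parWF r2 pf10251 h10251
  have h10253 := checkRangeG_sound parWF r2 pf10252 h10252
  have h10254 := checkRangeG_sound parWF r2 pf10253 h10253
  have h10255 := checkRangeG_sound parWF r2 pf10254 h10254
  have h10256 := checkRangeG_sound parWF r2 pf10255 h10255
  have h10257 := checkRangeG_sound parWF r2 pf10256 h10256
  have h10258 := checkRangeG_sound parWF r2 pf10257 h10257
  have h10259 := checkRangeG_sound parWF r2 pf10258 h10258
  have h10260 := checkRangeG_sound parWF r2 pf10259 h10259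
  have h10261 := checkRangeG_sound parWF r2 pf10260 h10260
  have h10262 := checkRangeG_sound parWF r2 pf10261 h10261
  have h10263 := checkRangeG_sound parWF r2 pf10262 h10262
  have h10264 := checkRangeG_sound parWF r2 pf10263 h10263
  have h10265 := checkRangeG_sound parWF r2 pf10264 h10264
  have h10266 := checkRangeG_sound parWF r2 pf10265 h10265
  have h10267 := checkRangeG_sound parWF r2 pf10266 h10266
  have h10268 := checkRangeG_sound parWF r2 pf10267 h10267
  have h10269 := checkRangeG_sound parWF r2 pf10268 h10268
  have h10270 := checkRangeG_sound parWF r2 pf10269 h10269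
  have h10271 := checkRangeG_sound parWF r2 pf10270 h10270
  have h10272 := checkRangeG_sound parWF r2 pf10271 h10271
  have h10273 := checkRangeG_sound parWF r2 pf10272 h10272
  have h10274 := checkRangeG_sound parWF r2 pf10273 h10273
  have h10275 := checkRangeG_sound parWF r2 pf10274 h10274
  have h10276 := checkRangeG_sound parWF r2 pf10275 h10275
  have h10277 := checkRangeG_sound parWF r2 pf10276 h10276
  have h10278 := checkRangeG_sound parWF r2 pf10277 h10277
  have h10279 := checkRangeG_sound parWF r2 pf10278 h10278
  have h10280 := checkRangeG_sound parWF r2 pf10279 h10279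
  have h10281 := checkRangeG_sound parWF r2 pf10280 h10280
  have h10282 := checkRangeG_sound parWF r2 pf10281 h10281
  have h10283 := checkRangeG_sound parWF r2 pf10282 h10282
  have h10284 := checkRangeG_sound parWF r2 pf10283 h10283
  have h10285 := checkRangeG_sound parWF r2 pf10284 h10284
  have h10286 := checkRangeG_sound parWF r2 pf10285 h10285
  have h10287 := checkRangeG_sound parWF r2 pf10286 h10286
  have h10288 := checkRangeG_sound parWF r2 pf10287 h10287
  have h10289 := checkRangeG_sound parWF r2 pf10288 h10288
  have h10290 := checkRangeG_sound parWF r2 pf10289 h10289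
  have h10291 := checkRangeG_sound parWF r2 pf10290 h10290
  have h10292 := checkRangeG_sound parWF r2 pf10291 h10291
  have h10293 := checkRangeG_sound parWF r2 pf10292 h10292
  have h10294 := checkRangeG_sound parWF r2 pf10293 h10293
  have h10295 := checkRangeG_sound parWF r2 pf10294 h10294
  have h10296 := checkRangeG_sound parWF r2 pf10295 h10295
  have h10297 := checkRangeG_sound parWF r2 pf10296 h10296
  have h10298 := checkRangeG_sound parWF r2 pf10297 h10297
  have h10299 := checkRangeG_sound parWF r2 pf10298 h10298
  have h10300 := checkRangeG_sound parWF r2 pf10299 h10299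
  exact h10300

theorem c206 (h10300 : ∀ j, j < 30610 → GoodG.{u} par (db j)) : ∀ j, j < 30820 → GoodG.{u} par (db j) := by
  have h10301 := checkRangeG_sound parWF r2 pf10300 h10300
  have h10302 := checkRangeG_sound parWF r2 pf10301 h10301
  have h10303 := checkRangeG_sound parWF r2 pf10302 h10302
  have h10304 := checkRangeG_sound parWF r2 pf10303 h10303
  have h10305 := checkRangeG_sound parWF r2 pf10304 h10304
  have h10306 := checkRangeG_sound parWF r2 pf10305 h10305
  have h10307 := checkRangeG_sound parWF r2 pf10306 h10306
  have h10308 := checkRangeG_sound parWF r2 pf10307 h10307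
  have h10309 := checkRangeG_sound parWF r2 pf10308 h10308
  have h10310 := checkRangeG_sound parWF r2 pf10309 h10309
  have h10311 := checkRangeG_sound parWF r2 pf10310 h10310
  have h10312 := checkRangeG_sound parWF r2 pf10311 h10311
  have h10313 := checkRangeG_sound parWF r2 pf10312 h10312
  have h10314 := checkRangeG_sound parWF r2 pf10313 h10313
  have h10315 := checkRangeG_sound parWF r2 pf10314 h10314
  have h10316 := checkRangeG_sound parWF r2 pf10315 h10315
  have h10317 := checkRangeG_sound parWF r2 pf10316 h10316
  have h10318 := checkRangeG_sound parWF r2 pf10317 h10317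
  have h10319 := checkRangeG_sound parWF r2 pf10318 h10318
  have h10320 := checkRangeG_sound parWF r2 pf10319 h10319
  have h10321 := checkRangeG_sound parWF r2 pf10320 h10320
  have h10322 := checkRangeG_sound parWF r2 pf10321 h10321
  have h10323 := checkRangeG_sound parWF r2 pf10322 h10322
  have h10324 := checkRangeG_sound parWF r2 pf10323 h10323
  have h10325 := checkRangeG_sound parWF r2 pf10324 h10324
  have h10326 := checkRangeG_sound parWF r2 pf10325 h10325
  have h10327 := checkRangeG_sound parWF r2 pf10326 h10326
  have h10328 := checkRangeG_sound parWF r2 pf10327 h10327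
  have h10329 := checkRangeG_sound parWF r2 pf10328 h10328
  have h10330 := checkRangeG_sound parWF r2 pf10329 h10329
  have h10331 := checkRangeG_sound parWF r2 pf10330 h10330
  have h10332 := checkRangeG_sound parWF r2 pf10331 h10331
  have h10333 := checkRangeG_sound parWF r2 pf10332 h10332
  have h10334 := checkRangeG_sound parWF r2 pf10333 h10333
  have h10335 := checkRangeG_sound parWF r2 pf10334 h10334
  have h10336 := checkRangeG_sound parWF r2 pf10335 h10335
  have h10337 := checkRangeG_sound parWF r2 pf10336 h10336
  have h10338 := checkRangeG_sound parWF r2 pf10337 h10337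
  have h10339 := checkRangeG_sound parWF r2 pf10338 h10338
  have h10340 := checkRangeG_sound parWF r2 pf10339 h10339
  have h10341 := checkRangeG_sound parWF r2 pf10340 h10340
  have h10342 := checkRangeG_sound parWF r2 pf10341 h10341
  have h10343 := checkRangeG_sound parWF r2 pf10342 h10342
  have h10344 := checkRangeG_sound parWF r2 pf10343 h10343
  have h10345 := checkRangeG_sound parWF r2 pf10344 h10344
  have h10346 := checkRangeG_sound parWF r2 pf10345 h10345
  have h10347 := checkRangeG_sound parWF r2 pf10346 h10346
  have h10348 := checkRangeG_sound parWF r2 pf10347 h10347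
  have h10349 := checkRangeG_sound parWF r2 pf10348 h10348
  have h10350 := checkRangeG_sound parWF r2 pf10349 h10349
  exact h10350

theorem c207 (h10350 : ∀ j, j < 30820 → GoodG.{u} par (db j)) : ∀ j, j < 31014 → GoodG.{u} par (db j) := by
  have h10351 := checkRangeG_sound parWF r2 pf10350 h10350
  have h10352 := checkRangeG_sound parWF r2 pf10351 h10351
  have h10353 := checkRangeG_sound parWF r2 pf10352 h10352
  have h10354 := checkRangeG_sound parWF r2 pf10353 h10353
  have h10355 := checkRangeG_sound parWF r2 pf10354 h10354
  have h10356 := checkRangeG_sound parWF r2 pf10355 h10355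
  have h10357 := checkRangeG_sound parWF r2 pf10356 h10356
  have h10358 := checkRangeG_sound parWF r2 pf10357 h10357
  have h10359 := checkRangeG_sound parWF r2 pf10358 h10358
  have h10360 := checkRangeG_sound parWF r2 pf10359 h10359
  have h10361 := checkRangeG_sound parWF r2 pf10360 h10360
  have h10362 := checkRangeG_sound parWF r2 pf10361 h10361
  have h10363 := checkRangeG_sound parWF r2 pf10362 h10362
  have h10364 := checkRangeG_sound parWF r2 pf10363 h10363
  have h10365 := checkRangeG_sound parWF r2 pf10364 h10364
  have h10366 := checkRangeG_sound parWF r2 pf10365 h10365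
  have h10367 := checkRangeG_sound parWF r2 pf10366 h10366
  have h10368 := checkRangeG_sound parWF r2 pf10367 h10367
  have h10369 := checkRangeG_sound parWF r2 pf10368 h10368
  have h10370 := checkRangeG_sound parWF r2 pf10369 h10369
  have h10371 := checkRangeG_sound parWF r2 pf10370 h10370
  have h10372 := checkRangeG_sound parWF r2 pf10371 h10371
  have h10373 := checkRangeG_sound parWF r2 pf10372 h10372
  have h10374 := checkRangeG_sound parWF r2 pf10373 h10373
  have h10375 := checkRangeG_sound parWF r2 pf10374 h10374
  have h10376 := checkRangeG_sound parWF r2 pf10375 h10375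
  have h10377 := checkRangeG_sound parWF r2 pf10376 h10376
  have h10378 := checkRangeG_sound parWF r2 pf10377 h10377
  have h10379 := checkRangeG_sound parWF r2 pf10378 h10378
  have h10380 := checkRangeG_sound parWF r2 pf10379 h10379
  have h10381 := checkRangeG_sound parWF r2 pf10380 h10380
  have h10382 := checkRangeG_sound parWF r2 pf10381 h10381
  have h10383 := checkRangeG_sound parWF r2 pf10382 h10382
  have h10384 := checkRangeG_sound parWF r2 pf10383 h10383
  have h10385 := checkRangeG_sound parWF r2 pf10384 h10384
  have h10386 := checkRangeG_sound parWF r2 pf10385 h10385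
  have h10387 := checkRangeG_sound parWF r2 pf10386 h10386
  have h10388 := checkRangeG_sound parWF r2 pf10387 h10387
  have h10389 := checkRangeG_sound parWF r2 pf10388 h10388
  have h10390 := checkRangeG_sound parWF r2 pf10389 h10389
  have h10391 := checkRangeG_sound parWF r2 pf10390 h10390
  have h10392 := checkRangeG_sound parWF r2 pf10391 h10391
  have h10393 := checkRangeG_sound parWF r2 pf10392 h10392
  have h10394 := checkRangeG_sound parWF r2 pf10393 h10393
  have h10395 := checkRangeG_sound parWF r2 pf10394 h10394
  have h10396 := checkRangeG_sound parWF r2 pf10395 h10395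
  have h10397 := checkRangeG_sound parWF r2 pf10396 h10396
  have h10398 := checkRangeG_sound parWF r2 pf10397 h10397
  have h10399 := checkRangeG_sound parWF r2 pf10398 h10398
  have h10400 := checkRangeG_sound parWF r2 pf10399 h10399
  exact h10400

theorem c208 (h10400 : ∀ j, j < 31014 → GoodG.{u} par (db j)) : ∀ j, j < 31187 → GoodG.{u} par (db j) := by
  have h10401 := checkRangeG_sound parWF r2 pf10400 h10400
  have h10402 := checkRangeG_sound parWF r2 pf10401 h10401
  have h10403 := checkRangeG_sound parWF r2 pf10402 h10402
  have h10404 := checkRangeG_sound parWF r2 pf10403 h10403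
  have h10405 := checkRangeG_sound parWF r2 pf10404 h10404
  have h10406 := checkRangeG_sound parWF r2 pf10405 h10405
  have h10407 := checkRangeG_sound parWF r2 pf10406 h10406
  have h10408 := checkRangeG_sound parWF r2 pf10407 h10407
  have h10409 := checkRangeG_sound parWF r2 pf10408 h10408
  have h10410 := checkRangeG_sound parWF r2 pf10409 h10409
  have h10411 := checkRangeG_sound parWF r2 pf10410 h10410
  have h10412 := checkRangeG_sound parWF r2 pf10411 h10411
  have h10413 := checkRangeG_sound parWF r2 pf10412 h10412
  have h10414 := checkRangeG_sound parWF r2 pf10413 h10413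
  have h10415 := checkRangeG_sound parWF r2 pf10414 h10414
  have h10416 := checkRangeG_sound parWF r2 pf10415 h10415
  have h10417 := checkRangeG_sound parWF r2 pf10416 h10416
  have h10418 := checkRangeG_sound parWF r2 pf10417 h10417
  have h10419 := checkRangeG_sound parWF r2 pf10418 h10418
  have h10420 := checkRangeG_sound parWF r2 pf10419 h10419
  have h10421 := checkRangeG_sound parWF r2 pf10420 h10420
  have h10422 := checkRangeG_sound parWF r2 pf10421 h10421
  have h10423 := checkRangeG_sound parWF r2 pf10422 h10422
  have h10424 := checkRangeG_sound parWF r2 pf10423 h10423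
  have h10425 := checkRangeG_sound parWF r2 pf10424 h10424
  have h10426 := checkRangeG_sound parWF r2 pf10425 h10425
  have h10427 := checkRangeG_sound parWF r2 pf10426 h10426
  have h10428 := checkRangeG_sound parWF r2 pf10427 h10427
  have h10429 := checkRangeG_sound parWF r2 pf10428 h10428
  have h10430 := checkRangeG_sound parWF r2 pf10429 h10429
  have h10431 := checkRangeG_sound parWF r2 pf10430 h10430
  have h10432 := checkRangeG_sound parWF r2 pf10431 h10431
  have h10433 := checkRangeG_sound parWF r2 pf10432 h10432
  have h10434 := checkRangeG_sound parWF r2 pf10433 h10433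
  have h10435 := checkRangeG_sound parWF r2 pf10434 h10434
  have h10436 := checkRangeG_sound parWF r2 pf10435 h10435
  have h10437 := checkRangeG_sound parWF r2 pf10436 h10436
  have h10438 := checkRangeG_sound parWF r2 pf10437 h10437
  have h10439 := checkRangeG_sound parWF r2 pf10438 h10438
  have h10440 := checkRangeG_sound parWF r2 pf10439 h10439
  have h10441 := checkRangeG_sound parWF r2 pf10440 h10440
  have h10442 := checkRangeG_sound parWF r2 pf10441 h10441
  have h10443 := checkRangeG_sound parWF r2 pf10442 h10442
  have h10444 := checkRangeG_sound parWF r2 pf10443 h10443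
  have h10445 := checkRangeG_sound parWF r2 pf10444 h10444
  have h10446 := checkRangeG_sound parWF r2 pf10445 h10445
  have h10447 := checkRangeG_sound parWF r2 pf10446 h10446
  have h10448 := checkRangeG_sound parWF r2 pf10447 h10447
  have h10449 := checkRangeG_sound parWF r2 pf10448 h10448
  have h10450 := checkRangeG_sound parWF r2 pf10449 h10449
  exact h10450

theorem c209 (h10450 : ∀ j, j < 31187 → GoodG.{u} par (db j)) : ∀ j, j < 31378 → GoodG.{u} par (db j) := by
  have h10451 := checkRangeG_sound parWF r2 pf10450 h10450
  have h10452 := checkRangeG_sound parWF r2 pf10451 h10451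
  have h10453 := checkRangeG_sound parWF r2 pf10452 h10452
  have h10454 := checkRangeG_sound parWF r2 pf10453 h10453
  have h10455 := checkRangeG_sound parWF r2 pf10454 h10454
  have h10456 := checkRangeG_sound parWF r2 pf10455 h10455
  have h10457 := checkRangeG_sound parWF r2 pf10456 h10456
  have h10458 := checkRangeG_sound parWF r2 pf10457 h10457
  have h10459 := checkRangeG_sound parWF r2 pf10458 h10458
  have h10460 := checkRangeG_sound parWF r2 pf10459 h10459
  have h10461 := checkRangeG_sound parWF r2 pf10460 h10460
  have h10462 := checkRangeG_sound parWF r2 pf10461 h10461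
  have h10463 := checkRangeG_sound parWF r2 pf10462 h10462
  have h10464 := checkRangeG_sound parWF r2 pf10463 h10463
  have h10465 := checkRangeG_sound parWF r2 pf10464 h10464
  have h10466 := checkRangeG_sound parWF r2 pf10465 h10465
  have h10467 := checkRangeG_sound parWF r2 pf10466 h10466
  have h10468 := checkRangeG_sound parWF r2 pf10467 h10467
  have h10469 := checkRangeG_sound parWF r2 pf10468 h10468
  have h10470 := checkRangeG_sound parWF r2 pf10469 h10469
  have h10471 := checkRangeG_sound parWF r2 pf10470 h10470
  have h10472 := checkRangeG_sound parWF r2 pf10471 h10471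
  have h10473 := checkRangeG_sound parWF r2 pf10472 h10472
  have h10474 := checkRangeG_sound parWF r2 pf10473 h10473
  have h10475 := checkRangeG_sound parWF r2 pf10474 h10474
  have h10476 := checkRangeG_sound parWF r2 pf10475 h10475
  have h10477 := checkRangeG_sound parWF r2 pf10476 h10476
  have h10478 := checkRangeG_sound parWF r2 pf10477 h10477
  have h10479 := checkRangeG_sound parWF r2 pf10478 h10478
  have h10480 := checkRangeG_sound parWF r2 pf10479 h10479
  have h10481 := checkRangeG_sound parWF r2 pf10480 h10480
  have h10482 := checkRangeG_sound parWF r2 pf10481 h10481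
  have h10483 := checkRangeG_sound parWF r2 pf10482 h10482
  have h10484 := checkRangeG_sound parWF r2 pf10483 h10483
  have h10485 := checkRangeG_sound parWF r2 pf10484 h10484
  have h10486 := checkRangeG_sound parWF r2 pf10485 h10485
  have h10487 := checkRangeG_sound parWF r2 pf10486 h10486
  have h10488 := checkRangeG_sound parWF r2 pf10487 h10487
  have h10489 := checkRangeG_sound parWF r2 pf10488 h10488
  have h10490 := checkRangeG_sound parWF r2 pf10489 h10489
  have h10491 := checkRangeG_sound parWF r2 pf10490 h10490
  have h10492 := checkRangeG_sound parWF r2 pf10491 h10491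
  have h10493 := checkRangeG_sound parWF r2 pf10492 h10492
  have h10494 := checkRangeG_sound parWF r2 pf10493 h10493
  have h10495 := checkRangeG_sound parWF r2 pf10494 h10494
  have h10496 := checkRangeG_sound parWF r2 pf10495 h10495
  have h10497 := checkRangeG_sound parWF r2 pf10496 h10496
  have h10498 := checkRangeG_sound parWF r2 pf10497 h10497
  have h10499 := checkRangeG_sound parWF r2 pf10498 h10498
  have h10500 := checkRangeG_sound parWF r2 pf10499 h10499
  exact h10500

theorem c210 (h10500 : ∀ j, j < 31378 → GoodG.{u} par (db j)) : ∀ j, j < 31563 → GoodG.{u} par (db j) := by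
  have h10501 := checkRangeG_sound parWF r2 pf10500 h10500
  have h10502 := checkRangeG_sound parWF r2 pf10501 h10501
  have h10503 := checkRangeG_sound parWF r2 pf10502 h10502
  have h10504 := checkRangeG_sound parWF r2 pf10503 h10503
  have h10505 := checkRangeG_sound parWF r2 pf10504 h10504
  have h10506 := checkRangeG_sound parWF r2 pf10505 h10505
  have h10507 := checkRangeG_sound parWF r2 pf10506 h10506
  have h10508 := checkRangeG_sound parWF r2 pf10507 h10507
  have h10509 := checkRangeG_sound parWF r2 pf10508 h10508
  have h10510 := checkRangeG_sound parWF r2 pf10509 h10509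
  have h10511 := checkRangeG_sound parWF r2 pf10510 h10510
  have h10512 := checkRangeG_sound parWF r2 pf10511 h10511
  have h10513 := checkRangeG_sound parWF r2 pf10512 h10512
  have h10514 := checkRangeG_sound parWF r2 pf10513 h10513
  have h10515 := checkRangeG_sound parWF r2 pf10514 h10514
  have h10516 := checkRangeG_sound parWF r2 pf10515 h10515
  have h10517 := checkRangeG_sound parWF r2 pf10516 h10516
  have h10518 := checkRangeG_sound parWF r2 pf10517 h10517
  have h10519 := checkRangeG_sound parWF r2 pf10518 h10518
  have h10520 := checkRangeG_sound parWF r2 pf10519 h10519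
  have h10521 := checkRangeG_sound parWF r2 pf10520 h10520
  have h10522 := checkRangeG_sound parWF r2 pf10521 h10521
  have h10523 := checkRangeG_sound parWF r2 pf10522 h10522
  have h10524 := checkRangeG_sound parWF r2 pf10523 h10523
  have h10525 := checkRangeG_sound parWF r2 pf10524 h10524
  have h10526 := checkRangeG_sound parWF r2 pf10525 h10525
  have h10527 := checkRangeG_sound parWF r2 pf10526 h10526
  have h10528 := checkRangeG_sound parWF r2 pf10527 h10527
  have h10529 := checkRangeG_sound parWF r2 pf10528 h10528
  have h10530 := checkRangeG_sound parWF r2 pf10529 h10529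
  have h10531 := checkRangeG_sound parWF r2 pf10530 h10530
  have h10532 := checkRangeG_sound parWF r2 pf10531 h10531
  have h10533 := checkRangeG_sound parWF r2 pf10532 h10532
  have h10534 := checkRangeG_sound parWF r2 pf10533 h10533
  have h10535 := checkRangeG_sound parWF r2 pf10534 h10534
  have h10536 := checkRangeG_sound parWF r2 pf10535 h10535
  have h10537 := checkRangeG_sound parWF r2 pf10536 h10536
  have h10538 := checkRangeG_sound parWF r2 pf10537 h10537
  have h10539 := checkRangeG_sound parWF r2 pf10538 h10538
  have h10540 := checkRangeG_sound parWF r2 pf10539 h10539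
  have h10541 := checkRangeG_sound parWF r2 pf10540 h10540
  have h10542 := checkRangeG_sound parWF r2 pf10541 h10541
  have h10543 := checkRangeG_sound parWF r2 pf10542 h10542
  have h10544 := checkRangeG_sound parWF r2 pf10543 h10543
  have h10545 := checkRangeG_sound parWF r2 pf10544 h10544
  have h10546 := checkRangeG_sound parWF r2 pf10545 h10545
  have h10547 := checkRangeG_sound parWF r2 pf10546 h10546
  have h10548 := checkRangeG_sound parWF r2 pf10547 h10547
  have h10549 := checkRangeG_sound parWF r2 pf10548 h10548
  have h10550 := checkRangeG_sound parWF r2 pf10549 h10549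
  exact h10550

theorem c211 (h10550 : ∀ j, j < 31563 → GoodG.{u} par (db j)) : ∀ j, j < 31727 → GoodG.{u} par (db j) := by
  have h10551 := checkRangeG_sound parWF r2 pf10550 h10550
  have h10552 := checkRangeG_sound parWF r2 pf10551 h10551
  have h10553 := checkRangeG_sound parWF r2 pf10552 h10552
  have h10554 := checkRangeG_sound parWF r2 pf10553 h10553
  have h10555 := checkRangeG_sound parWF r2 pf10554 h10554
  have h10556 := checkRangeG_sound parWF r2 pf10555 h10555
  have h10557 := checkRangeG_sound parWF r2 pf10556 h10556
  have h10558 := checkRangeG_sound parWF r2 pf10557 h10557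
  have h10559 := checkRangeG_sound parWF r2 pf10558 h10558
  have h10560 := checkRangeG_sound parWF r2 pf10559 h10559
  have h10561 := checkRangeG_sound parWF r2 pf10560 h10560
  have h10562 := checkRangeG_sound parWF r2 pf10561 h10561
  have h10563 := checkRangeG_sound parWF r2 pf10562 h10562
  have h10564 := checkRangeG_sound parWF r2 pf10563 h10563
  have h10565 := checkRangeG_sound parWF r2 pf10564 h10564
  have h10566 := checkRangeG_sound parWF r2 pf10565 h10565
  have h10567 := checkRangeG_sound parWF r2 pf10566 h10566
  have h10568 := checkRangeG_sound parWF r2 pf10567 h10567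
  have h10569 := checkRangeG_sound parWF r2 pf10568 h10568
  have h10570 := checkRangeG_sound parWF r2 pf10569 h10569
  have h10571 := checkRangeG_sound parWF r2 pf10570 h10570
  have h10572 := checkRangeG_sound parWF r2 pf10571 h10571
  have h10573 := checkRangeG_sound parWF r2 pf10572 h10572
  have h10574 := checkRangeG_sound parWF r2 pf10573 h10573
  have h10575 := checkRangeG_sound parWF r2 pf10574 h10574
  have h10576 := checkRangeG_sound parWF r2 pf10575 h10575
  have h10577 := checkRangeG_sound parWF r2 pf10576 h10576
  have h10578 := checkRangeG_sound parWF r2 pf10577 h10577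
  have h10579 := checkRangeG_sound parWF r2 pf10578 h10578
  have h10580 := checkRangeG_sound parWF r2 pf10579 h10579
  have h10581 := checkRangeG_sound parWF r2 pf10580 h10580
  have h10582 := checkRangeG_sound parWF r2 pf10581 h10581
  have h10583 := checkRangeG_sound parWF r2 pf10582 h10582
  have h10584 := checkRangeG_sound parWF r2 pf10583 h10583
  have h10585 := checkRangeG_sound parWF r2 pf10584 h10584
  have h10586 := checkRangeG_sound parWF r2 pf10585 h10585
  have h10587 := checkRangeG_sound parWF r2 pf10586 h10586
  have h10588 := checkRangeG_sound parWF r2 pf10587 h10587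
  have h10589 := checkRangeG_sound parWF r2 pf10588 h10588
  have h10590 := checkRangeG_sound parWF r2 pf10589 h10589
  have h10591 := checkRangeG_sound parWF r2 pf10590 h10590
  have h10592 := checkRangeG_sound parWF r2 pf10591 h10591
  have h10593 := checkRangeG_sound parWF r2 pf10592 h10592
  have h10594 := checkRangeG_sound parWF r2 pf10593 h10593
  have h10595 := checkRangeG_sound parWF r2 pf10594 h10594
  have h10596 := checkRangeG_sound parWF r2 pf10595 h10595
  have h10597 := checkRangeG_sound parWF r2 pf10596 h10596
  have h10598 := checkRangeG_sound parWF r2 pf10597 h10597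
  have h10599 := checkRangeG_sound parWF r2 pf10598 h10598
  have h10600 := checkRangeG_sound parWF r2 pf10599 h10599
  exact h10600

theorem c212 (h10600 : ∀ j, j < 31727 → GoodG.{u} par (db j)) : ∀ j, j < 31912 → GoodG.{u} par (db j) := by
  have h10601 := checkRangeG_sound parWF r2 pf10600 h10600
  have h10602 := checkRangeG_sound parWF r2 pf10601 h10601
  have h10603 := checkRangeG_sound parWF r2 pf10602 h10602
  have h10604 := checkRangeG_sound parWF r2 pf10603 h10603
  have h10605 := checkRangeG_sound parWF r2 pf10604 h10604
  have h10606 := checkRangeG_sound parWF r2 pf10605 h10605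
  have h10607 := checkRangeG_sound parWF r2 pf10606 h10606
  have h10608 := checkRangeG_sound parWF r2 pf10607 h10607
  have h10609 := checkRangeG_sound parWF r2 pf10608 h10608
  have h10610 := checkRangeG_sound parWF r2 pf10609 h10609
  have h10611 := checkRangeG_sound parWF r2 pf10610 h10610
  have h10612 := checkRangeG_sound parWF r2 pf10611 h10611
  have h10613 := checkRangeG_sound parWF r2 pf10612 h10612
  have h10614 := checkRangeG_sound parWF r2 pf10613 h10613
  have h10615 := checkRangeG_sound parWF r2 pf10614 h10614
  have h10616 := checkRangeG_sound parWF r2 pf10615 h10615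
  have h10617 := checkRangeG_sound parWF r2 pf10616 h10616
  have h10618 := checkRangeG_sound parWF r2 pf10617 h10617
  have h10619 := checkRangeG_sound parWF r2 pf10618 h10618
  have h10620 := checkRangeG_sound parWF r2 pf10619 h10619
  have h10621 := checkRangeG_sound parWF r2 pf10620 h10620
  have h10622 := checkRangeG_sound parWF r2 pf10621 h10621
  have h10623 := checkRangeG_sound parWF r2 pf10622 h10622
  have h10624 := checkRangeG_sound parWF r2 pf10623 h10623
  have h10625 := checkRangeG_sound parWF r2 pf10624 h10624
  have h10626 := checkRangeG_sound parWF r2 pf10625 h10625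
  have h10627 := checkRangeG_sound parWF r2 pf10626 h10626
  have h10628 := checkRangeG_sound parWF r2 pf10627 h10627
  have h10629 := checkRangeG_sound parWF r2 pf10628 h10628
  have h10630 := checkRangeG_sound parWF r2 pf10629 h10629
  have h10631 := checkRangeG_sound parWF r2 pf10630 h10630
  have h10632 := checkRangeG_sound parWF r2 pf10631 h10631
  have h10633 := checkRangeG_sound parWF r2 pf10632 h10632
  have h10634 := checkRangeG_sound parWF r2 pf10633 h10633
  have h10635 := checkRangeG_sound parWF r2 pf10634 h10634
  have h10636 := checkRangeG_sound parWF r2 pf10635 h10635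
  have h10637 := checkRangeG_sound parWF r2 pf10636 h10636
  have h10638 := checkRangeG_sound parWF r2 pf10637 h10637
  have h10639 := checkRangeG_sound parWF r2 pf10638 h10638
  have h10640 := checkRangeG_sound parWF r2 pf10639 h10639
  have h10641 := checkRangeG_sound parWF r2 pf10640 h10640
  have h10642 := checkRangeG_sound parWF r2 pf10641 h10641
  have h10643 := checkRangeG_sound parWF r2 pf10642 h10642
  have h10644 := checkRangeG_sound parWF r2 pf10643 h10643
  have h10645 := checkRangeG_sound parWF r2 pf10644 h10644
  have h10646 := checkRangeG_sound parWF r2 pf10645 h10645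
  have h10647 := checkRangeG_sound parWF r2 pf10646 h10646
  have h10648 := checkRangeG_sound parWF r2 pf10647 h10647
  have h10649 := checkRangeG_sound parWF r2 pf10648 h10648
  have h10650 := checkRangeG_sound parWF r2 pf10649 h10649
  exact h10650

theorem c213 (h10650 : ∀ j, j < 31912 → GoodG.{u} par (db j)) : ∀ j, j < 32118 → GoodG.{u} par (db j) := by
  have h10651 := checkRangeG_sound parWF r2 pf10650 h10650
  have h10652 := checkRangeG_sound parWF r2 pf10651 h10651
  have h10653 := checkRangeG_sound parWF r2 pf10652 h10652
  have h10654 := checkRangeG_sound parWF r2 pf10653 h10653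
  have h10655 := checkRangeG_sound parWF r2 pf10654 h10654
  have h10656 := checkRangeG_sound parWF r2 pf10655 h10655
  have h10657 := checkRangeG_sound parWF r2 pf10656 h10656
  have h10658 := checkRangeG_sound parWF r2 pf10657 h10657
  have h10659 := checkRangeG_sound parWF r2 pf10658 h10658
  have h10660 := checkRangeG_sound parWF r2 pf10659 h10659
  have h10661 := checkRangeG_sound parWF r2 pf10660 h10660
  have h10662 := checkRangeG_sound parWF r2 pf10661 h10661
  have h10663 := checkRangeG_sound parWF r2 pf10662 h10662
  have h10664 := checkRangeG_sound parWF r2 pf10663 h10663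
  have h10665 := checkRangeG_sound parWF r2 pf10664 h10664
  have h10666 := checkRangeG_sound parWF r2 pf10665 h10665
  have h10667 := checkRangeG_sound parWF r2 pf10666 h10666
  have h10668 := checkRangeG_sound parWF r2 pf10667 h10667
  have h10669 := checkRangeG_sound parWF r2 pf10668 h10668
  have h10670 := checkRangeG_sound parWF r2 pf10669 h10669
  have h10671 := checkRangeG_sound parWF r2 pf10670 h10670
  have h10672 := checkRangeG_sound parWF r2 pf10671 h10671
  have h10673 := checkRangeG_sound parWF r2 pf10672 h10672
  have h10674 := checkRangeG_sound parWF r2 pf10673 h10673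
  have h10675 := checkRangeG_sound parWF r2 pf10674 h10674
  have h10676 := checkRangeG_sound parWF r2 pf10675 h10675
  have h10677 := checkRangeG_sound parWF r2 pf10676 h10676
  have h10678 := checkRangeG_sound parWF r2 pf10677 h10677
  have h10679 := checkRangeG_sound parWF r2 pf10678 h10678
  have h10680 := checkRangeG_sound parWF r2 pf10679 h10679
  have h10681 := checkRangeG_sound parWF r2 pf10680 h10680
  have h10682 := checkRangeG_sound parWF r2 pf10681 h10681
  have h10683 := checkRangeG_sound parWF r2 pf10682 h10682
  have h10684 := checkRangeG_sound parWF r2 pf10683 h10683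
  have h10685 := checkRangeG_sound parWF r2 pf10684 h10684
  have h10686 := checkRangeG_sound parWF r2 pf10685 h10685
  have h10687 := checkRangeG_sound parWF r2 pf10686 h10686
  have h10688 := checkRangeG_sound parWF r2 pf10687 h10687
  have h10689 := checkRangeG_sound parWF r2 pf10688 h10688
  have h10690 := checkRangeG_sound parWF r2 pf10689 h10689
  have h10691 := checkRangeG_sound parWF r2 pf10690 h10690
  have h10692 := checkRangeG_sound parWF r2 pf10691 h10691
  have h10693 := checkRangeG_sound parWF r2 pf10692 h10692
  have h10694 := checkRangeG_sound parWF r2 pf10693 h10693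
  have h10695 := checkRangeG_sound parWF r2 pf10694 h10694
  have h10696 := checkRangeG_sound parWF r2 pf10695 h10695
  have h10697 := checkRangeG_sound parWF r2 pf10696 h10696
  have h10698 := checkRangeG_sound parWF r2 pf10697 h10697
  have h10699 := checkRangeG_sound parWF r2 pf10698 h10698
  have h10700 := checkRangeG_sound parWF r2 pf10699 h10699
  exact h10700

theorem c214 (h10700 : ∀ j, j < 32118 → GoodG.{u} par (db j)) : ∀ j, j < 32328 → GoodG.{u} par (db j) := by
  have h10701 := checkRangeG_sound parWF r2 pf10700 h10700
  have h10702 := checkRangeG_sound parWF r2 pf10701 h10701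
  have h10703 := checkRangeG_sound parWF r2 pf10702 h10702
  have h10704 := checkRangeG_sound parWF r2 pf10703 h10703
  have h10705 := checkRangeG_sound parWF r2 pf10704 h10704
  have h10706 := checkRangeG_sound parWF r2 pf10705 h10705
  have h10707 := checkRangeG_sound parWF r2 pf10706 h10706
  have h10708 := checkRangeG_sound parWF r2 pf10707 h10707
  have h10709 := checkRangeG_sound parWF r2 pf10708 h10708
  have h10710 := checkRangeG_sound parWF r2 pf10709 h10709
  have h10711 := checkRangeG_sound parWF r2 pf10710 h10710
  have h10712 := checkRangeG_sound parWF r2 pf10711 h10711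
  have h10713 := checkRangeG_sound parWF r2 pf10712 h10712
  have h10714 := checkRangeG_sound parWF r2 pf10713 h10713
  have h10715 := checkRangeG_sound parWF r2 pf10714 h10714
  have h10716 := checkRangeG_sound parWF r2 pf10715 h10715
  have h10717 := checkRangeG_sound parWF r2 pf10716 h10716
  have h10718 := checkRangeG_sound parWF r2 pf10717 h10717
  have h10719 := checkRangeG_sound parWF r2 pf10718 h10718
  have h10720 := checkRangeG_sound parWF r2 pf10719 h10719
  have h10721 := checkRangeG_sound parWF r2 pf10720 h10720
  have h10722 := checkRangeG_sound parWF r2 pf10721 h10721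
  have h10723 := checkRangeG_sound parWF r2 pf10722 h10722
  have h10724 := checkRangeG_sound parWF r2 pf10723 h10723
  have h10725 := checkRangeG_sound parWF r2 pf10724 h10724
  have h10726 := checkRangeG_sound parWF r2 pf10725 h10725
  have h10727 := checkRangeG_sound parWF r2 pf10726 h10726
  have h10728 := checkRangeG_sound parWF r2 pf10727 h10727
  have h10729 := checkRangeG_sound parWF r2 pf10728 h10728
  have h10730 := checkRangeG_sound parWF r2 pf10729 h10729
  have h10731 := checkRangeG_sound parWF r2 pf10730 h10730
  have h10732 := checkRangeG_sound parWF r2 pf10731 h10731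
  have h10733 := checkRangeG_sound parWF r2 pf10732 h10732
  have h10734 := checkRangeG_sound parWF r2 pf10733 h10733
  have h10735 := checkRangeG_sound parWF r2 pf10734 h10734
  have h10736 := checkRangeG_sound parWF r2 pf10735 h10735
  have h10737 := checkRangeG_sound parWF r2 pf10736 h10736
  have h10738 := checkRangeG_sound parWF r2 pf10737 h10737
  have h10739 := checkRangeG_sound parWF r2 pf10738 h10738
  have h10740 := checkRangeG_sound parWF r2 pf10739 h10739
  have h10741 := checkRangeG_sound parWF r2 pf10740 h10740
  have h10742 := checkRangeG_sound parWF r2 pf10741 h10741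
  have h10743 := checkRangeG_sound parWF r2 pf10742 h10742
  have h10744 := checkRangeG_sound parWF r2 pf10743 h10743
  have h10745 := checkRangeG_sound parWF r2 pf10744 h10744
  have h10746 := checkRangeG_sound parWF r2 pf10745 h10745
  have h10747 := checkRangeG_sound parWF r2 pf10746 h10746
  have h10748 := checkRangeG_sound parWF r2 pf10747 h10747
  have h10749 := checkRangeG_sound parWF r2 pf10748 h10748
  have h10750 := checkRangeG_sound parWF r2 pf10749 h10749
  exact h10750

theorem c215 (h10750 : ∀ j, j < 32328 → GoodG.{u} par (db j)) : ∀ j, j < 32529 → GoodG.{u} par (db j) := by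
  have h10751 := checkRangeG_sound parWF r2 pf10750 h10750
  have h10752 := checkRangeG_sound parWF r2 pf10751 h10751
  have h10753 := checkRangeG_sound parWF r2 pf10752 h10752
  have h10754 := checkRangeG_sound parWF r2 pf10753 h10753
  have h10755 := checkRangeG_sound parWF r2 pf10754 h10754
  have h10756 := checkRangeG_sound parWF r2 pf10755 h10755
  have h10757 := checkRangeG_sound parWF r2 pf10756 h10756
  have h10758 := checkRangeG_sound parWF r2 pf10757 h10757
  have h10759 := checkRangeG_sound parWF r2 pf10758 h10758
  have h10760 := checkRangeG_sound parWF r2 pf10759 h10759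
  have h10761 := checkRangeG_sound parWF r2 pf10760 h10760
  have h10762 := checkRangeG_sound parWF r2 pf10761 h10761
  have h10763 := checkRangeG_sound parWF r2 pf10762 h10762
  have h10764 := checkRangeG_sound parWF r2 pf10763 h10763
  have h10765 := checkRangeG_sound parWF r2 pf10764 h10764
  have h10766 := checkRangeG_sound parWF r2 pf10765 h10765
  have h10767 := checkRangeG_sound parWF r2 pf10766 h10766
  have h10768 := checkRangeG_sound parWF r2 pf10767 h10767
  have h10769 := checkRangeG_sound parWF r2 pf10768 h10768
  have h10770 := checkRangeG_sound parWF r2 pf10769 h10769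
  have h10771 := checkRangeG_sound parWF r2 pf10770 h10770
  have h10772 := checkRangeG_sound parWF r2 pf10771 h10771
  have h10773 := checkRangeG_sound parWF r2 pf10772 h10772
  have h10774 := checkRangeG_sound parWF r2 pf10773 h10773
  have h10775 := checkRangeG_sound parWF r2 pf10774 h10774
  have h10776 := checkRangeG_sound parWF r2 pf10775 h10775
  have h10777 := checkRangeG_sound parWF r2 pf10776 h10776
  have h10778 := checkRangeG_sound parWF r2 pf10777 h10777
  have h10779 := checkRangeG_sound parWF r2 pf10778 h10778
  have h10780 := checkRangeG_sound parWF r2 pf10779 h10779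
  have h10781 := checkRangeG_sound parWF r2 pf10780 h10780
  have h10782 := checkRangeG_sound parWF r2 pf10781 h10781
  have h10783 := checkRangeG_sound parWF r2 pf10782 h10782
  have h10784 := checkRangeG_sound parWF r2 pf10783 h10783
  have h10785 := checkRangeG_sound parWF r2 pf10784 h10784
  have h10786 := checkRangeG_sound parWF r2 pf10785 h10785
  have h10787 := checkRangeG_sound parWF r2 pf10786 h10786
  have h10788 := checkRangeG_sound parWF r2 pf10787 h10787
  have h10789 := checkRangeG_sound parWF r2 pf10788 h10788
  have h10790 := checkRangeG_sound parWF r2 pf10789 h10789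
  have h10791 := checkRangeG_sound parWF r2 pf10790 h10790
  have h10792 := checkRangeG_sound parWF r2 pf10791 h10791
  have h10793 := checkRangeG_sound parWF r2 pf10792 h10792
  have h10794 := checkRangeG_sound parWF r2 pf10793 h10793
  have h10795 := checkRangeG_sound parWF r2 pf10794 h10794
  have h10796 := checkRangeG_sound parWF r2 pf10795 h10795
  have h10797 := checkRangeG_sound parWF r2 pf10796 h10796
  have h10798 := checkRangeG_sound parWF r2 pf10797 h10797
  have h10799 := checkRangeG_sound parWF r2 pf10798 h10798
  have h10800 := checkRangeG_sound parWF r2 pf10799 h10799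
  exact h10800


end Vale.Agent.P045g.C61
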