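import Vale.Agent.P045g.C61.WF
import Vale.Agent.P045g.C61.Pf180
import Vale.Agent.P045g.C61.Pf181
import Vale.Agent.P045g.C61.Pf182
import Vale.Agent.P045g.C61.Pf183
import Vale.Agent.P045g.C61.Pf184
import Vale.Agent.P045g.C61.Pf185
import Vale.Agent.P045g.C61.Pf186
import Vale.Agent.P045g.C61.Pf187
import Vale.Agent.P045g.C61.Pf188
import Vale.Agent.P045g.C61.Pf189

namespace Vale.Agent.P045g.C61

open Vale.Agent.P045b Vale.Agent.P045g

universe u

theorem c216 (h10800 : ∀ j, j < 32529 → GoodG.{u} par (db j)) : ∀ j, j < 32691 → GoodG.{u} par (db j) := by
  have h10801 := checkRangeG_sound parWF r2 pf10800 h10800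
  have h10802 := checkRangeG_sound parWF r2 pf10801 h10801
  have h10803 := checkRangeG_sound parWF r2 pf10802 h10802
  have h10804 := checkRangeG_sound parWF r2 pf10803 h10803
  have h10805 := checkRangeG_sound parWF r2 pf10804 h10804
  have h10806 := checkRangeG_sound parWF r2 pf10805 h10805
  have h10807 := checkRangeG_sound parWF r2 pf10806 h10806
  have h10808 := checkRangeG_sound parWF r2 pf10807 h10807
  have h10809 := checkRangeG_sound parWF r2 pf10808 h10808
  have h10810 := checkRangeG_sound parWF r2 pf10809 h10809
  have h10811 := checkRangeG_sound parWF r2 pf10810 h10810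
  have h10812 := checkRangeG_sound parWF r2 pf10811 h10811
  have h10813 := checkRangeG_sound parWF r2 pf10812 h10812
  have h10814 := checkRangeG_sound parWF r2 pf10813 h10813
  have h10815 := checkRangeG_sound parWF r2 pf10814 h10814
  have h10816 := checkRangeG_sound parWF r2 pf10815 h10815
  have h10817 := checkRangeG_sound parWF r2 pf10816 h10816
  have h10818 := checkRangeG_sound parWF r2 pf10817 h10817
  have h10819 := checkRangeG_sound parWF r2 pf10818 h10818
  have h10820 := checkRangeG_sound parWF r2 pf10819 h10819
  have h10821 := checkRangeG_sound parWF r2 pf10820 h10820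
  have h10822 := checkRangeG_sound parWF r2 pf10821 h10821
  have h10823 := checkRangeG_sound parWF r2 pf10822 h10822
  have h10824 := checkRangeG_sound parWF r2 pf10823 h10823
  have h10825 := checkRangeG_sound parWF r2 pf10824 h10824
  have h10826 := checkRangeG_sound parWF r2 pf10825 h10825
  have h10827 := checkRangeG_sound parWF r2 pf10826 h10826
  have h10828 := checkRangeG_sound parWF r2 pf10827 h10827
  have h10829 := checkRangeG_sound parWF r2 pf10828 h10828
  have h10830 := checkRangeG_sound parWF r2 pf10829 h10829
  have h10831 := checkRangeG_sound parWF r2 pf10830 h10830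
  have h10832 := checkRangeG_sound parWF r2 pf10831 h10831
  have h10833 := checkRangeG_sound parWF r2 pf10832 h10832
  have h10834 := checkRangeG_sound parWF r2 pf10833 h10833
  have h10835 := checkRangeG_sound parWF r2 pf10834 h10834
  have h10836 := checkRangeG_sound parWF r2 pf10835 h10835
  have h10837 := checkRangeG_sound parWF r2 pf10836 h10836
  have h10838 := checkRangeG_sound parWF r2 pf10837 h10837
  have h10839 := checkRangeG_sound parWF r2 pf10838 h10838
  have h10840 := checkRangeG_sound parWF r2 pf10839 h10839
  have h10841 := checkRangeG_sound parWF r2 pf10840 h10840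
  have h10842 := checkRangeG_sound parWF r2 pf10841 h10841
  have h10843 := checkRangeG_sound parWF r2 pf10842 h10842
  have h10844 := checkRangeG_sound parWF r2 pf10843 h10843
  have h10845 := checkRangeG_sound parWF r2 pf10844 h10844
  have h10846 := checkRangeG_sound parWF r2 pf10845 h10845
  have h10847 := checkRangeG_sound parWF r2 pf10846 h10846
  have h10848 := checkRangeG_sound parWF r2 pf10847 h10847
  have h10849 := checkRangeG_sound parWF r2 pf10848 h10848
  have h10850 := checkRangeG_sound parWF r2 pf10849 h10849
  exact h10850

theorem c217 (h10850 : ∀ j, j < 32691 → GoodG.{u} par (db j)) : ∀ j, j < 32854 → GoodG.{u} par (db j) := by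
  have h10851 := checkRangeG_sound parWF r2 pf10850 h10850
  have h10852 := checkRangeG_sound parWF r2 pf10851 h10851
  have h10853 := checkRangeG_sound parWF r2 pf10852 h10852
  have h10854 := checkRangeG_sound parWF r2 pf10853 h10853
  have h10855 := checkRangeG_sound parWF r2 pf10854 h10854
  have h10856 := checkRangeG_sound parWF r2 pf10855 h10855
  have h10857 := checkRangeG_sound parWF r2 pf10856 h10856
  have h10858 := checkRangeG_sound parWF r2 pf10857 h10857
  have h10859 := checkRangeG_sound parWF r2 pf10858 h10858
  have h10860 := checkRangeG_sound parWF r2 pf10859 h10859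
  have h10861 := checkRangeG_sound parWF r2 pf10860 h10860
  have h10862 := checkRangeG_sound parWF r2 pf10861 h10861
  have h10863 := checkRangeG_sound parWF r2 pf10862 h10862
  have h10864 := checkRangeG_sound parWF r2 pf10863 h10863
  have h10865 := checkRangeG_sound parWF r2 pf10864 h10864
  have h10866 := checkRangeG_sound parWF r2 pf10865 h10865
  have h10867 := checkRangeG_sound parWF r2 pf10866 h10866
  have h10868 := checkRangeG_sound parWF r2 pf10867 h10867
  have h10869 := checkRangeG_sound parWF r2 pf10868 h10868
  have h10870 := checkRangeG_sound parWF r2 pf10869 h10869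
  have h10871 := checkRangeG_sound parWF r2 pf10870 h10870
  have h10872 := checkRangeG_sound parWF r2 pf10871 h10871
  have h10873 := checkRangeG_sound parWF r2 pf10872 h10872
  have h10874 := checkRangeG_sound parWF r2 pf10873 h10873
  have h10875 := checkRangeG_sound parWF r2 pf10874 h10874
  have h10876 := checkRangeG_sound parWF r2 pf10875 h10875
  have h10877 := checkRangeG_sound parWF r2 pf10876 h10876
  have h10878 := checkRangeG_sound parWF r2 pf10877 h10877
  have h10879 := checkRangeG_sound parWF r2 pf10878 h10878
  have h10880 := checkRangeG_sound parWF r2 pf10879 h10879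
  have h10881 := checkRangeG_sound parWF r2 pf10880 h10880
  have h10882 := checkRangeG_sound parWF r2 pf10881 h10881
  have h10883 := checkRangeG_sound parWF r2 pf10882 h10882
  have h10884 := checkRangeG_sound parWF r2 pf10883 h10883
  have h10885 := checkRangeG_sound parWF r2 pf10884 h10884
  have h10886 := checkRangeG_sound parWF r2 pf10885 h10885
  have h10887 := checkRangeG_sound parWF r2 pf10886 h10886
  have h10888 := checkRangeG_sound parWF r2 pf10887 h10887
  have h10889 := checkRangeG_sound parWF r2 pf10888 h10888
  have h10890 := checkRangeG_sound parWF r2 pf10889 h10889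
  have h10891 := checkRangeG_sound parWF r2 pf10890 h10890
  have h10892 := checkRangeG_sound parWF r2 pf10891 h10891
  have h10893 := checkRangeG_sound parWF r2 pf10892 h10892
  have h10894 := checkRangeG_sound parWF r2 pf10893 h10893
  have h10895 := checkRangeG_sound parWF r2 pf10894 h10894
  have h10896 := checkRangeG_sound parWF r2 pf10895 h10895
  have h10897 := checkRangeG_sound parWF r2 pf10896 h10896
  have h10898 := checkRangeG_sound parWF r2 pf10897 h10897
  have h10899 := checkRangeG_sound parWF r2 pf10898 h10898
  have h10900 := checkRangeG_sound parWF r2 pf10899 h10899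
  exact h10900

theorem c218 (h10900 : ∀ j, j < 32854 → GoodG.{u} par (db j)) : ∀ j, j < 33048 → GoodG.{u} par (db j) := by
  have h10901 := checkRangeG_sound parWF r2 pf10900 h10900
  have h10902 := checkRangeG_sound parWF r2 pf10901 h10901
  have h10903 := checkRangeG_sound parWF r2 pf10902 h10902
  have h10904 := checkRangeG_sound parWF r2 pf10903 h10903
  have h10905 := checkRangeG_sound parWF r2 pf10904 h10904
  have h10906 := checkRangeG_sound parWF r2 pf10905 h10905
  have h10907 := checkRangeG_sound parWF r2 pf10906 h10906
  have h10908 := checkRangeG_sound parWF r2 pf10907 h10907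
  have h10909 := checkRangeG_sound parWF r2 pf10908 h10908
  have h10910 := checkRangeG_sound parWF r2 pf10909 h10909
  have h10911 := checkRangeG_sound parWF r2 pf10910 h10910
  have h10912 := checkRangeG_sound parWF r2 pf10911 h10911
  have h10913 := checkRangeG_sound parWF r2 pf10912 h10912
  have h10914 := checkRangeG_sound parWF r2 pf10913 h10913
  have h10915 := checkRangeG_sound parWF r2 pf10914 h10914
  have h10916 := checkRangeG_sound parWF r2 pf10915 h10915
  have h10917 := checkRangeG_sound parWF r2 pf10916 h10916
  have h10918 := checkRangeG_sound parWF r2 pf10917 h10917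
  have h10919 := checkRangeG_sound parWF r2 pf10918 h10918
  have h10920 := checkRangeG_sound parWF r2 pf10919 h10919
  have h10921 := checkRangeG_sound parWF r2 pf10920 h10920
  have h10922 := checkRangeG_sound parWF r2 pf10921 h10921
  have h10923 := checkRangeG_sound parWF r2 pf10922 h10922
  have h10924 := checkRangeG_sound parWF r2 pf10923 h10923
  have h10925 := checkRangeG_sound parWF r2 pf10924 h10924
  have h10926 := checkRangeG_sound parWF r2 pf10925 h10925
  have h10927 := checkRangeG_sound parWF r2 pf10926 h10926
  have h10928 := checkRangeG_sound parWF r2 pf10927 h10927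
  have h10929 := checkRangeG_sound parWF r2 pf10928 h10928
  have h10930 := checkRangeG_sound parWF r2 pf10929 h10929
  have h10931 := checkRangeG_sound parWF r2 pf10930 h10930
  have h10932 := checkRangeG_sound parWF r2 pf10931 h10931
  have h10933 := checkRangeG_sound parWF r2 pf10932 h10932
  have h10934 := checkRangeG_sound parWF r2 pf10933 h10933
  have h10935 := checkRangeG_sound parWF r2 pf10934 h10934
  have h10936 := checkRangeG_sound parWF r2 pf10935 h10935
  have h10937 := checkRangeG_sound parWF r2 pf10936 h10936
  have h10938 := checkRangeG_sound parWF r2 pf10937 h10937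
  have h10939 := checkRangeG_sound parWF r2 pf10938 h10938
  have h10940 := checkRangeG_sound parWF r2 pf10939 h10939
  have h10941 := checkRangeG_sound parWF r2 pf10940 h10940
  have h10942 := checkRangeG_sound parWF r2 pf10941 h10941
  have h10943 := checkRangeG_sound parWF r2 pf10942 h10942
  have h10944 := checkRangeG_sound parWF r2 pf10943 h10943
  have h10945 := checkRangeG_sound parWF r2 pf10944 h10944
  have h10946 := checkRangeG_sound parWF r2 pf10945 h10945
  have h10947 := checkRangeG_sound parWF r2 pf10946 h10946
  have h10948 := checkRangeG_sound parWF r2 pf10947 h10947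
  have h10949 := checkRangeG_sound parWF r2 pf10948 h10948
  have h10950 := checkRangeG_sound parWF r2 pf10949 h10949
  exact h10950

theorem c219 (h10950 : ∀ j, j < 33048 → GoodG.{u} par (db j)) : ∀ j, j < 33254 → GoodG.{u} par (db j) := by
  have h10951 := checkRangeG_sound parWF r2 pf10950 h10950
  have h10952 := checkRangeG_sound parWF r2 pf10951 h10951
  have h10953 := checkRangeG_sound parWF r2 pf10952 h10952
  have h10954 := checkRangeG_sound parWF r2 pf10953 h10953
  have h10955 := checkRangeG_sound parWF r2 pf10954 h10954
  have h10956 := checkRangeG_sound parWF r2 pf10955 h10955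
  have h10957 := checkRangeG_sound parWF r2 pf10956 h10956
  have h10958 := checkRangeG_sound parWF r2 pf10957 h10957
  have h10959 := checkRangeG_sound parWF r2 pf10958 h10958
  have h10960 := checkRangeG_sound parWF r2 pf10959 h10959
  have h10961 := checkRangeG_sound parWF r2 pf10960 h10960
  have h10962 := checkRangeG_sound parWF r2 pf10961 h10961
  have h10963 := checkRangeG_sound parWF r2 pf10962 h10962
  have h10964 := checkRangeG_sound parWF r2 pf10963 h10963
  have h10965 := checkRangeG_sound parWF r2 pf10964 h10964
  have h10966 := checkRangeG_sound parWF r2 pf10965 h10965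
  have h10967 := checkRangeG_sound parWF r2 pf10966 h10966
  have h10968 := checkRangeG_sound parWF r2 pf10967 h10967
  have h10969 := checkRangeG_sound parWF r2 pf10968 h10968
  have h10970 := checkRangeG_sound parWF r2 pf10969 h10969
  have h10971 := checkRangeG_sound parWF r2 pf10970 h10970
  have h10972 := checkRangeG_sound parWF r2 pf10971 h10971
  have h10973 := checkRangeG_sound parWF r2 pf10972 h10972
  have h10974 := checkRangeG_sound parWF r2 pf10973 h10973
  have h10975 := checkRangeG_sound parWF r2 pf10974 h10974
  have h10976 := checkRangeG_sound parWF r2 pf10975 h10975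
  have h10977 := checkRangeG_sound parWF r2 pf10976 h10976
  have h10978 := checkRangeG_sound parWF r2 pf10977 h10977
  have h10979 := checkRangeG_sound parWF r2 pf10978 h10978
  have h10980 := checkRangeG_sound parWF r2 pf10979 h10979
  have h10981 := checkRangeG_sound parWF r2 pf10980 h10980
  have h10982 := checkRangeG_sound parWF r2 pf10981 h10981
  have h10983 := checkRangeG_sound parWF r2 pf10982 h10982
  have h10984 := checkRangeG_sound parWF r2 pf10983 h10983
  have h10985 := checkRangeG_sound parWF r2 pf10984 h10984
  have h10986 := checkRangeG_sound parWF r2 pf10985 h10985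
  have h10987 := checkRangeG_sound parWF r2 pf10986 h10986
  have h10988 := checkRangeG_sound parWF r2 pf10987 h10987
  have h10989 := checkRangeG_sound parWF r2 pf10988 h10988
  have h10990 := checkRangeG_sound parWF r2 pf10989 h10989
  have h10991 := checkRangeG_sound parWF r2 pf10990 h10990
  have h10992 := checkRangeG_sound parWF r2 pf10991 h10991
  have h10993 := checkRangeG_sound parWF r2 pf10992 h10992
  have h10994 := checkRangeG_sound parWF r2 pf10993 h10993
  have h10995 := checkRangeG_sound parWF r2 pf10994 h10994
  have h10996 := checkRangeG_sound parWF r2 pf10995 h10995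
  have h10997 := checkRangeG_sound parWF r2 pf10996 h10996
  have h10998 := checkRangeG_sound parWF r2 pf10997 h10997
  have h10999 := checkRangeG_sound parWF r2 pf10998 h10998
  have h11000 := checkRangeG_sound parWF r2 pf10999 h10999
  exact h11000

theorem c220 (h11000 : ∀ j, j < 33254 → GoodG.{u} par (db j)) : ∀ j, j < 33428 → GoodG.{u} par (db j) := by
  have h11001 := checkRangeG_sound parWF r2 pf11000 h11000
  have h11002 := checkRangeG_sound parWF r2 pf11001 h11001
  have h11003 := checkRangeG_sound parWF r2 pf11002 h11002
  have h11004 := checkRangeG_sound parWF r2 pf11003 h11003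
  have h11005 := checkRangeG_sound parWF r2 pf11004 h11004
  have h11006 := checkRangeG_sound parWF r2 pf11005 h11005
  have h11007 := checkRangeG_sound parWF r2 pf11006 h11006
  have h11008 := checkRangeG_sound parWF r2 pf11007 h11007
  have h11009 := checkRangeG_sound parWF r2 pf11008 h11008
  have h11010 := checkRangeG_sound parWF r2 pf11009 h11009
  have h11011 := checkRangeG_sound parWF r2 pf11010 h11010
  have h11012 := checkRangeG_sound parWF r2 pf11011 h11011
  have h11013 := checkRangeG_sound parWF r2 pf11012 h11012
  have h11014 := checkRangeG_sound parWF r2 pf11013 h11013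
  have h11015 := checkRangeG_sound parWF r2 pf11014 h11014
  have h11016 := checkRangeG_sound parWF r2 pf11015 h11015
  have h11017 := checkRangeG_sound parWF r2 pf11016 h11016
  have h11018 := checkRangeG_sound parWF r2 pf11017 h11017
  have h11019 := checkRangeG_sound parWF r2 pf11018 h11018
  have h11020 := checkRangeG_sound parWF r2 pf11019 h11019
  have h11021 := checkRangeG_sound parWF r2 pf11020 h11020
  have h11022 := checkRangeG_sound parWF r2 pf11021 h11021
  have h11023 := checkRangeG_sound parWF r2 pf11022 h11022
  have h11024 := checkRangeG_sound parWF r2 pf11023 h11023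
  have h11025 := checkRangeG_sound parWF r2 pf11024 h11024
  have h11026 := checkRangeG_sound parWF r2 pf11025 h11025
  have h11027 := checkRangeG_sound parWF r2 pf11026 h11026
  have h11028 := checkRangeG_sound parWF r2 pf11027 h11027
  have h11029 := checkRangeG_sound parWF r2 pf11028 h11028
  have h11030 := checkRangeG_sound parWF r2 pf11029 h11029
  have h11031 := checkRangeG_sound parWF r2 pf11030 h11030
  have h11032 := checkRangeG_sound parWF r2 pf11031 h11031
  have h11033 := checkRangeG_sound parWF r2 pf11032 h11032
  have h11034 := checkRangeG_sound parWF r2 pf11033 h11033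
  have h11035 := checkRangeG_sound parWF r2 pf11034 h11034
  have h11036 := checkRangeG_sound parWF r2 pf11035 h11035
  have h11037 := checkRangeG_sound parWF r2 pf11036 h11036
  have h11038 := checkRangeG_sound parWF r2 pf11037 h11037
  have h11039 := checkRangeG_sound parWF r2 pf11038 h11038
  have h11040 := checkRangeG_sound parWF r2 pf11039 h11039
  have h11041 := checkRangeG_sound parWF r2 pf11040 h11040
  have h11042 := checkRangeG_sound parWF r2 pf11041 h11041
  have h11043 := checkRangeG_sound parWF r2 pf11042 h11042
  have h11044 := checkRangeG_sound parWF r2 pf11043 h11043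
  have h11045 := checkRangeG_sound parWF r2 pf11044 h11044
  have h11046 := checkRangeG_sound parWF r2 pf11045 h11045
  have h11047 := checkRangeG_sound parWF r2 pf11046 h11046
  have h11048 := checkRangeG_sound parWF r2 pf11047 h11047
  have h11049 := checkRangeG_sound parWF r2 pf11048 h11048
  have h11050 := checkRangeG_sound parWF r2 pf11049 h11049
  exact h11050

theorem c221 (h11050 : ∀ j, j < 33428 → GoodG.{u} par (db j)) : ∀ j, j < 33564 → GoodG.{u} par (db j) := by
  have h11051 := checkRangeG_sound parWF r2 pf11050 h11050
  have h11052 := checkRangeG_sound parWF r2 pf11051 h11051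
  have h11053 := checkRangeG_sound parWF r2 pf11052 h11052
  have h11054 := checkRangeG_sound parWF r2 pf11053 h11053
  have h11055 := checkRangeG_sound parWF r2 pf11054 h11054
  have h11056 := checkRangeG_sound parWF r2 pf11055 h11055
  have h11057 := checkRangeG_sound parWF r2 pf11056 h11056
  have h11058 := checkRangeG_sound parWF r2 pf11057 h11057
  have h11059 := checkRangeG_sound parWF r2 pf11058 h11058
  have h11060 := checkRangeG_sound parWF r2 pf11059 h11059
  have h11061 := checkRangeG_sound parWF r2 pf11060 h11060
  have h11062 := checkRangeG_sound parWF r2 pf11061 h11061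
  have h11063 := checkRangeG_sound parWF r2 pf11062 h11062
  have h11064 := checkRangeG_sound parWF r2 pf11063 h11063
  have h11065 := checkRangeG_sound parWF r2 pf11064 h11064
  have h11066 := checkRangeG_sound parWF r2 pf11065 h11065
  have h11067 := checkRangeG_sound parWF r2 pf11066 h11066
  have h11068 := checkRangeG_sound parWF r2 pf11067 h11067
  have h11069 := checkRangeG_sound parWF r2 pf11068 h11068
  have h11070 := checkRangeG_sound parWF r2 pf11069 h11069
  have h11071 := checkRangeG_sound parWF r2 pf11070 h11070
  have h11072 := checkRangeG_sound parWF r2 pf11071 h11071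
  have h11073 := checkRangeG_sound parWF r2 pf11072 h11072
  have h11074 := checkRangeG_sound parWF r2 pf11073 h11073
  have h11075 := checkRangeG_sound parWF r2 pf11074 h11074
  have h11076 := checkRangeG_sound parWF r2 pf11075 h11075
  have h11077 := checkRangeG_sound parWF r2 pf11076 h11076
  have h11078 := checkRangeG_sound parWF r2 pf11077 h11077
  have h11079 := checkRangeG_sound parWF r2 pf11078 h11078
  have h11080 := checkRangeG_sound parWF r2 pf11079 h11079
  have h11081 := checkRangeG_sound parWF r2 pf11080 h11080
  have h11082 := checkRangeG_sound parWF r2 pf11081 h11081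
  have h11083 := checkRangeG_sound parWF r2 pf11082 h11082
  have h11084 := checkRangeG_sound parWF r2 pf11083 h11083
  have h11085 := checkRangeG_sound parWF r2 pf11084 h11084
  have h11086 := checkRangeG_sound parWF r2 pf11085 h11085
  have h11087 := checkRangeG_sound parWF r2 pf11086 h11086
  have h11088 := checkRangeG_sound parWF r2 pf11087 h11087
  have h11089 := checkRangeG_sound parWF r2 pf11088 h11088
  have h11090 := checkRangeG_sound parWF r2 pf11089 h11089
  have h11091 := checkRangeG_sound parWF r2 pf11090 h11090
  have h11092 := checkRangeG_sound parWF r2 pf11091 h11091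
  have h11093 := checkRangeG_sound parWF r2 pf11092 h11092
  have h11094 := checkRangeG_sound parWF r2 pf11093 h11093
  have h11095 := checkRangeG_sound parWF r2 pf11094 h11094
  have h11096 := checkRangeG_sound parWF r2 pf11095 h11095
  have h11097 := checkRangeG_sound parWF r2 pf11096 h11096
  have h11098 := checkRangeG_sound parWF r2 pf11097 h11097
  have h11099 := checkRangeG_sound parWF r2 pf11098 h11098
  have h11100 := checkRangeG_sound parWF r2 pf11099 h11099
  exact h11100

theorem c222 (h11100 : ∀ j, j < 33564 → GoodG.{u} par (db j)) : ∀ j, j < 33719 → GoodG.{u} par (db j) := by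
  have h11101 := checkRangeG_sound parWF r2 pf11100 h11100
  have h11102 := checkRangeG_sound parWF r2 pf11101 h11101
  have h11103 := checkRangeG_sound parWF r2 pf11102 h11102
  have h11104 := checkRangeG_sound parWF r2 pf11103 h11103
  have h11105 := checkRangeG_sound parWF r2 pf11104 h11104
  have h11106 := checkRangeG_sound parWF r2 pf11105 h11105
  have h11107 := checkRangeG_sound parWF r2 pf11106 h11106
  have h11108 := checkRangeG_sound parWF r2 pf11107 h11107
  have h11109 := checkRangeG_sound parWF r2 pf11108 h11108
  have h11110 := checkRangeG_sound parWF r2 pf11109 h11109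
  have h11111 := checkRangeG_sound parWF r2 pf11110 h11110
  have h11112 := checkRangeG_sound parWF r2 pf11111 h11111
  have h11113 := checkRangeG_sound parWF r2 pf11112 h11112
  have h11114 := checkRangeG_sound parWF r2 pf11113 h11113
  have h11115 := checkRangeG_sound parWF r2 pf11114 h11114
  have h11116 := checkRangeG_sound parWF r2 pf11115 h11115
  have h11117 := checkRangeG_sound parWF r2 pf11116 h11116
  have h11118 := checkRangeG_sound parWF r2 pf11117 h11117
  have h11119 := checkRangeG_sound parWF r2 pf11118 h11118
  have h11120 := checkRangeG_sound parWF r2 pf11119 h11119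
  have h11121 := checkRangeG_sound parWF r2 pf11120 h11120
  have h11122 := checkRangeG_sound parWF r2 pf11121 h11121
  have h11123 := checkRangeG_sound parWF r2 pf11122 h11122
  have h11124 := checkRangeG_sound parWF r2 pf11123 h11123
  have h11125 := checkRangeG_sound parWF r2 pf11124 h11124
  have h11126 := checkRangeG_sound parWF r2 pf11125 h11125
  have h11127 := checkRangeG_sound parWF r2 pf11126 h11126
  have h11128 := checkRangeG_sound parWF r2 pf11127 h11127
  have h11129 := checkRangeG_sound parWF r2 pf11128 h11128
  have h11130 := checkRangeG_sound parWF r2 pf11129 h11129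
  have h11131 := checkRangeG_sound parWF r2 pf11130 h11130
  have h11132 := checkRangeG_sound parWF r2 pf11131 h11131
  have h11133 := checkRangeG_sound parWF r2 pf11132 h11132
  have h11134 := checkRangeG_sound parWF r2 pf11133 h11133
  have h11135 := checkRangeG_sound parWF r2 pf11134 h11134
  have h11136 := checkRangeG_sound parWF r2 pf11135 h11135
  have h11137 := checkRangeG_sound parWF r2 pf11136 h11136
  have h11138 := checkRangeG_sound parWF r2 pf11137 h11137
  have h11139 := checkRangeG_sound parWF r2 pf11138 h11138
  have h11140 := checkRangeG_sound parWF r2 pf11139 h11139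
  have h11141 := checkRangeG_sound parWF r2 pf11140 h11140
  have h11142 := checkRangeG_sound parWF r2 pf11141 h11141
  have h11143 := checkRangeG_sound parWF r2 pf11142 h11142
  have h11144 := checkRangeG_sound parWF r2 pf11143 h11143
  have h11145 := checkRangeG_sound parWF r2 pf11144 h11144
  have h11146 := checkRangeG_sound parWF r2 pf11145 h11145
  have h11147 := checkRangeG_sound parWF r2 pf11146 h11146
  have h11148 := checkRangeG_sound parWF r2 pf11147 h11147
  have h11149 := checkRangeG_sound parWF r2 pf11148 h11148
  have h11150 := checkRangeG_sound parWF r2 pf11149 h11149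
  exact h11150

theorem c223 (h11150 : ∀ j, j < 33719 → GoodG.{u} par (db j)) : ∀ j, j < 33867 → GoodG.{u} par (db j) := by
  have h11151 := checkRangeG_sound parWF r2 pf11150 h11150
  have h11152 := checkRangeG_sound parWF r2 pf11151 h11151
  have h11153 := checkRangeG_sound parWF r2 pf11152 h11152
  have h11154 := checkRangeG_sound parWF r2 pf11153 h11153
  have h11155 := checkRangeG_sound parWF r2 pf11154 h11154
  have h11156 := checkRangeG_sound parWF r2 pf11155 h11155
  have h11157 := checkRangeG_sound parWF r2 pf11156 h11156
  have h11158 := checkRangeG_sound parWF r2 pf11157 h11157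
  have h11159 := checkRangeG_sound parWF r2 pf11158 h11158
  have h11160 := checkRangeG_sound parWF r2 pf11159 h11159
  have h11161 := checkRangeG_sound parWF r2 pf11160 h11160
  have h11162 := checkRangeG_sound parWF r2 pf11161 h11161
  have h11163 := checkRangeG_sound parWF r2 pf11162 h11162
  have h11164 := checkRangeG_sound parWF r2 pf11163 h11163
  have h11165 := checkRangeG_sound parWF r2 pf11164 h11164
  have h11166 := checkRangeG_sound parWF r2 pf11165 h11165
  have h11167 := checkRangeG_sound parWF r2 pf11166 h11166
  have h11168 := checkRangeG_sound parWF r2 pf11167 h11167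
  have h11169 := checkRangeG_sound parWF r2 pf11168 h11168
  have h11170 := checkRangeG_sound parWF r2 pf11169 h11169
  have h11171 := checkRangeG_sound parWF r2 pf11170 h11170
  have h11172 := checkRangeG_sound parWF r2 pf11171 h11171
  have h11173 := checkRangeG_sound parWF r2 pf11172 h11172
  have h11174 := checkRangeG_sound parWF r2 pf11173 h11173
  have h11175 := checkRangeG_sound parWF r2 pf11174 h11174
  have h11176 := checkRangeG_sound parWF r2 pf11175 h11175
  have h11177 := checkRangeG_sound parWF r2 pf11176 h11176
  have h11178 := checkRangeG_sound parWF r2 pf11177 h11177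
  have h11179 := checkRangeG_sound parWF r2 pf11178 h11178
  have h11180 := checkRangeG_sound parWF r2 pf11179 h11179
  have h11181 := checkRangeG_sound parWF r2 pf11180 h11180
  have h11182 := checkRangeG_sound parWF r2 pf11181 h11181
  have h11183 := checkRangeG_sound parWF r2 pf11182 h11182
  have h11184 := checkRangeG_sound parWF r2 pf11183 h11183
  have h11185 := checkRangeG_sound parWF r2 pf11184 h11184
  have h11186 := checkRangeG_sound parWF r2 pf11185 h11185
  have h11187 := checkRangeG_sound parWF r2 pf11186 h11186
  have h11188 := checkRangeG_sound parWF r2 pf11187 h11187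
  have h11189 := checkRangeG_sound parWF r2 pf11188 h11188
  have h11190 := checkRangeG_sound parWF r2 pf11189 h11189
  have h11191 := checkRangeG_sound parWF r2 pf11190 h11190
  have h11192 := checkRangeG_sound parWF r2 pf11191 h11191
  have h11193 := checkRangeG_sound parWF r2 pf11192 h11192
  have h11194 := checkRangeG_sound parWF r2 pf11193 h11193
  have h11195 := checkRangeG_sound parWF r2 pf11194 h11194
  have h11196 := checkRangeG_sound parWF r2 pf11195 h11195
  have h11197 := checkRangeG_sound parWF r2 pf11196 h11196
  have h11198 := checkRangeG_sound parWF r2 pf11197 h11197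
  have h11199 := checkRangeG_sound parWF r2 pf11198 h11198
  have h11200 := checkRangeG_sound parWF r2 pf11199 h11199
  exact h11200

theorem c224 (h11200 : ∀ j, j < 33867 → GoodG.{u} par (db j)) : ∀ j, j < 34034 → GoodG.{u} par (db j) := by
  have h11201 := checkRangeG_sound parWF r2 pf11200 h11200
  have h11202 := checkRangeG_sound parWF r2 pf11201 h11201
  have h11203 := checkRangeG_sound parWF r2 pf11202 h11202
  have h11204 := checkRangeG_sound parWF r2 pf11203 h11203
  have h11205 := checkRangeG_sound parWF r2 pf11204 h11204
  have h11206 := checkRangeG_sound parWF r2 pf11205 h11205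
  have h11207 := checkRangeG_sound parWF r2 pf11206 h11206
  have h11208 := checkRangeG_sound parWF r2 pf11207 h11207
  have h11209 := checkRangeG_sound parWF r2 pf11208 h11208
  have h11210 := checkRangeG_sound parWF r2 pf11209 h11209
  have h11211 := checkRangeG_sound parWF r2 pf11210 h11210
  have h11212 := checkRangeG_sound parWF r2 pf11211 h11211
  have h11213 := checkRangeG_sound parWF r2 pf11212 h11212
  have h11214 := checkRangeG_sound parWF r2 pf11213 h11213
  have h11215 := checkRangeG_sound parWF r2 pf11214 h11214
  have h11216 := checkRangeG_sound parWF r2 pf11215 h11215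
  have h11217 := checkRangeG_sound parWF r2 pf11216 h11216
  have h11218 := checkRangeG_sound parWF r2 pf11217 h11217
  have h11219 := checkRangeG_sound parWF r2 pf11218 h11218
  have h11220 := checkRangeG_sound parWF r2 pf11219 h11219
  have h11221 := checkRangeG_sound parWF r2 pf11220 h11220
  have h11222 := checkRangeG_sound parWF r2 pf11221 h11221
  have h11223 := checkRangeG_sound parWF r2 pf11222 h11222
  have h11224 := checkRangeG_sound parWF r2 pf11223 h11223
  have h11225 := checkRangeG_sound parWF r2 pf11224 h11224
  have h11226 := checkRangeG_sound parWF r2 pf11225 h11225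
  have h11227 := checkRangeG_sound parWF r2 pf11226 h11226
  have h11228 := checkRangeG_sound parWF r2 pf11227 h11227
  have h11229 := checkRangeG_sound parWF r2 pf11228 h11228
  have h11230 := checkRangeG_sound parWF r2 pf11229 h11229
  have h11231 := checkRangeG_sound parWF r2 pf11230 h11230
  have h11232 := checkRangeG_sound parWF r2 pf11231 h11231
  have h11233 := checkRangeG_sound parWF r2 pf11232 h11232
  have h11234 := checkRangeG_sound parWF r2 pf11233 h11233
  have h11235 := checkRangeG_sound parWF r2 pf11234 h11234
  have h11236 := checkRangeG_sound parWF r2 pf11235 h11235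
  have h11237 := checkRangeG_sound parWF r2 pf11236 h11236
  have h11238 := checkRangeG_sound parWF r2 pf11237 h11237
  have h11239 := checkRangeG_sound parWF r2 pf11238 h11238
  have h11240 := checkRangeG_sound parWF r2 pf11239 h11239
  have h11241 := checkRangeG_sound parWF r2 pf11240 h11240
  have h11242 := checkRangeG_sound parWF r2 pf11241 h11241
  have h11243 := checkRangeG_sound parWF r2 pf11242 h11242
  have h11244 := checkRangeG_sound parWF r2 pf11243 h11243
  have h11245 := checkRangeG_sound parWF r2 pf11244 h11244
  have h11246 := checkRangeG_sound parWF r2 pf11245 h11245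
  have h11247 := checkRangeG_sound parWF r2 pf11246 h11246
  have h11248 := checkRangeG_sound parWF r2 pf11247 h11247
  have h11249 := checkRangeG_sound parWF r2 pf11248 h11248
  have h11250 := checkRangeG_sound parWF r2 pf11249 h11249
  exact h11250

theorem c225 (h11250 : ∀ j, j < 34034 → GoodG.{u} par (db j)) : ∀ j, j < 34197 → GoodG.{u} par (db j) := by
  have h11251 := checkRangeG_sound parWF r2 pf11250 h11250
  have h11252 := checkRangeG_sound parWF r2 pf11251 h11251
  have h11253 := checkRangeG_sound parWF r2 pf11252 h11252
  have h11254 := checkRangeG_sound parWF r2 pf11253 h11253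
  have h11255 := checkRangeG_sound parWF r2 pf11254 h11254
  have h11256 := checkRangeG_sound parWF r2 pf11255 h11255
  have h11257 := checkRangeG_sound parWF r2 pf11256 h11256
  have h11258 := checkRangeG_sound parWF r2 pf11257 h11257
  have h11259 := checkRangeG_sound parWF r2 pf11258 h11258
  have h11260 := checkRangeG_sound parWF r2 pf11259 h11259
  have h11261 := checkRangeG_sound parWF r2 pf11260 h11260
  have h11262 := checkRangeG_sound parWF r2 pf11261 h11261
  have h11263 := checkRangeG_sound parWF r2 pf11262 h11262
  have h11264 := checkRangeG_sound parWF r2 pf11263 h11263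
  have h11265 := checkRangeG_sound parWF r2 pf11264 h11264
  have h11266 := checkRangeG_sound parWF r2 pf11265 h11265
  have h11267 := checkRangeG_sound parWF r2 pf11266 h11266
  have h11268 := checkRangeG_sound parWF r2 pf11267 h11267
  have h11269 := checkRangeG_sound parWF r2 pf11268 h11268
  have h11270 := checkRangeG_sound parWF r2 pf11269 h11269
  have h11271 := checkRangeG_sound parWF r2 pf11270 h11270
  have h11272 := checkRangeG_sound parWF r2 pf11271 h11271
  have h11273 := checkRangeG_sound parWF r2 pf11272 h11272
  have h11274 := checkRangeG_sound parWF r2 pf11273 h11273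
  have h11275 := checkRangeG_sound parWF r2 pf11274 h11274
  have h11276 := checkRangeG_sound parWF r2 pf11275 h11275
  have h11277 := checkRangeG_sound parWF r2 pf11276 h11276
  have h11278 := checkRangeG_sound parWF r2 pf11277 h11277
  have h11279 := checkRangeG_sound parWF r2 pf11278 h11278
  have h11280 := checkRangeG_sound parWF r2 pf11279 h11279
  have h11281 := checkRangeG_sound parWF r2 pf11280 h11280
  have h11282 := checkRangeG_sound parWF r2 pf11281 h11281
  have h11283 := checkRangeG_sound parWF r2 pf11282 h11282
  have h11284 := checkRangeG_sound parWF r2 pf11283 h11283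
  have h11285 := checkRangeG_sound parWF r2 pf11284 h11284
  have h11286 := checkRangeG_sound parWF r2 pf11285 h11285
  have h11287 := checkRangeG_sound parWF r2 pf11286 h11286
  have h11288 := checkRangeG_sound parWF r2 pf11287 h11287
  have h11289 := checkRangeG_sound parWF r2 pf11288 h11288
  have h11290 := checkRangeG_sound parWF r2 pf11289 h11289
  have h11291 := checkRangeG_sound parWF r2 pf11290 h11290
  have h11292 := checkRangeG_sound parWF r2 pf11291 h11291
  have h11293 := checkRangeG_sound parWF r2 pf11292 h11292
  have h11294 := checkRangeG_sound parWF r2 pf11293 h11293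
  have h11295 := checkRangeG_sound parWF r2 pf11294 h11294
  have h11296 := checkRangeG_sound parWF r2 pf11295 h11295
  have h11297 := checkRangeG_sound parWF r2 pf11296 h11296
  have h11298 := checkRangeG_sound parWF r2 pf11297 h11297
  have h11299 := checkRangeG_sound parWF r2 pf11298 h11298
  have h11300 := checkRangeG_sound parWF r2 pf11299 h11299
  exact h11300

theorem c226 (h11300 : ∀ j, j < 34197 → GoodG.{u} par (db j)) : ∀ j, j < 34358 → GoodG.{u} par (db j) := by
  have h11301 := checkRangeG_sound parWF r2 pf11300 h11300
  have h11302 := checkRangeG_sound parWF r2 pf11301 h11301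
  have h11303 := checkRangeG_sound parWF r2 pf11302 h11302
  have h11304 := checkRangeG_sound parWF r2 pf11303 h11303
  have h11305 := checkRangeG_sound parWF r2 pf11304 h11304
  have h11306 := checkRangeG_sound parWF r2 pf11305 h11305
  have h11307 := checkRangeG_sound parWF r2 pf11306 h11306
  have h11308 := checkRangeG_sound parWF r2 pf11307 h11307
  have h11309 := checkRangeG_sound parWF r2 pf11308 h11308
  have h11310 := checkRangeG_sound parWF r2 pf11309 h11309
  have h11311 := checkRangeG_sound parWF r2 pf11310 h11310
  have h11312 := checkRangeG_sound parWF r2 pf11311 h11311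
  have h11313 := checkRangeG_sound parWF r2 pf11312 h11312
  have h11314 := checkRangeG_sound parWF r2 pf11313 h11313
  have h11315 := checkRangeG_sound parWF r2 pf11314 h11314
  have h11316 := checkRangeG_sound parWF r2 pf11315 h11315
  have h11317 := checkRangeG_sound parWF r2 pf11316 h11316
  have h11318 := checkRangeG_sound parWF r2 pf11317 h11317
  have h11319 := checkRangeG_sound parWF r2 pf11318 h11318
  have h11320 := checkRangeG_sound parWF r2 pf11319 h11319
  have h11321 := checkRangeG_sound parWF r2 pf11320 h11320
  have h11322 := checkRangeG_sound parWF r2 pf11321 h11321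
  have h11323 := checkRangeG_sound parWF r2 pf11322 h11322
  have h11324 := checkRangeG_sound parWF r2 pf11323 h11323
  have h11325 := checkRangeG_sound parWF r2 pf11324 h11324
  have h11326 := checkRangeG_sound parWF r2 pf11325 h11325
  have h11327 := checkRangeG_sound parWF r2 pf11326 h11326
  have h11328 := checkRangeG_sound parWF r2 pf11327 h11327
  have h11329 := checkRangeG_sound parWF r2 pf11328 h11328
  have h11330 := checkRangeG_sound parWF r2 pf11329 h11329
  have h11331 := checkRangeG_sound parWF r2 pf11330 h11330
  have h11332 := checkRangeG_sound parWF r2 pf11331 h11331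
  have h11333 := checkRangeG_sound parWF r2 pf11332 h11332
  have h11334 := checkRangeG_sound parWF r2 pf11333 h11333
  have h11335 := checkRangeG_sound parWF r2 pf11334 h11334
  have h11336 := checkRangeG_sound parWF r2 pf11335 h11335
  have h11337 := checkRangeG_sound parWF r2 pf11336 h11336
  have h11338 := checkRangeG_sound parWF r2 pf11337 h11337
  have h11339 := checkRangeG_sound parWF r2 pf11338 h11338
  have h11340 := checkRangeG_sound parWF r2 pf11339 h11339
  have h11341 := checkRangeG_sound parWF r2 pf11340 h11340
  have h11342 := checkRangeG_sound parWF r2 pf11341 h11341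
  have h11343 := checkRangeG_sound parWF r2 pf11342 h11342
  have h11344 := checkRangeG_sound parWF r2 pf11343 h11343
  have h11345 := checkRangeG_sound parWF r2 pf11344 h11344
  have h11346 := checkRangeG_sound parWF r2 pf11345 h11345
  have h11347 := checkRangeG_sound parWF r2 pf11346 h11346
  have h11348 := checkRangeG_sound parWF r2 pf11347 h11347
  have h11349 := checkRangeG_sound parWF r2 pf11348 h11348
  have h11350 := checkRangeG_sound parWF r2 pf11349 h11349
  exact h11350

theorem c227 (h11350 : ∀ j, j < 34358 → GoodG.{u} par (db j)) : ∀ j, j < 34522 → GoodG.{u} par (db j) := by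
  have h11351 := checkRangeG_sound parWF r2 pf11350 h11350
  have h11352 := checkRangeG_sound parWF r2 pf11351 h11351
  have h11353 := checkRangeG_sound parWF r2 pf11352 h11352
  have h11354 := checkRangeG_sound parWF r2 pf11353 h11353
  have h11355 := checkRangeG_sound parWF r2 pf11354 h11354
  have h11356 := checkRangeG_sound parWF r2 pf11355 h11355
  have h11357 := checkRangeG_sound parWF r2 pf11356 h11356
  have h11358 := checkRangeG_sound parWF r2 pf11357 h11357
  have h11359 := checkRangeG_sound parWF r2 pf11358 h11358
  have h11360 := checkRangeG_sound parWF r2 pf11359 h11359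
  have h11361 := checkRangeG_sound parWF r2 pf11360 h11360
  have h11362 := checkRangeG_sound parWF r2 pf11361 h11361
  have h11363 := checkRangeG_sound parWF r2 pf11362 h11362
  have h11364 := checkRangeG_sound parWF r2 pf11363 h11363
  have h11365 := checkRangeG_sound parWF r2 pf11364 h11364
  have h11366 := checkRangeG_sound parWF r2 pf11365 h11365
  have h11367 := checkRangeG_sound parWF r2 pf11366 h11366
  have h11368 := checkRangeG_sound parWF r2 pf11367 h11367
  have h11369 := checkRangeG_sound parWF r2 pf11368 h11368
  have h11370 := checkRangeG_sound parWF r2 pf11369 h11369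
  have h11371 := checkRangeG_sound parWF r2 pf11370 h11370
  have h11372 := checkRangeG_sound parWF r2 pf11371 h11371
  have h11373 := checkRangeG_sound parWF r2 pf11372 h11372
  have h11374 := checkRangeG_sound parWF r2 pf11373 h11373
  have h11375 := checkRangeG_sound parWF r2 pf11374 h11374
  have h11376 := checkRangeG_sound parWF r2 pf11375 h11375
  have h11377 := checkRangeG_sound parWF r2 pf11376 h11376
  have h11378 := checkRangeG_sound parWF r2 pf11377 h11377
  have h11379 := checkRangeG_sound parWF r2 pf11378 h11378
  have h11380 := checkRangeG_sound parWF r2 pf11379 h11379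
  have h11381 := checkRangeG_sound parWF r2 pf11380 h11380
  have h11382 := checkRangeG_sound parWF r2 pf11381 h11381
  have h11383 := checkRangeG_sound parWF r2 pf11382 h11382
  have h11384 := checkRangeG_sound parWF r2 pf11383 h11383
  have h11385 := checkRangeG_sound parWF r2 pf11384 h11384
  have h11386 := checkRangeG_sound parWF r2 pf11385 h11385
  have h11387 := checkRangeG_sound parWF r2 pf11386 h11386
  have h11388 := checkRangeG_sound parWF r2 pf11387 h11387
  have h11389 := checkRangeG_sound parWF r2 pf11388 h11388
  have h11390 := checkRangeG_sound parWF r2 pf11389 h11389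
  have h11391 := checkRangeG_sound parWF r2 pf11390 h11390
  have h11392 := checkRangeG_sound parWF r2 pf11391 h11391
  have h11393 := checkRangeG_sound parWF r2 pf11392 h11392
  have h11394 := checkRangeG_sound parWF r2 pf11393 h11393
  have h11395 := checkRangeG_sound parWF r2 pf11394 h11394
  have h11396 := checkRangeG_sound parWF r2 pf11395 h11395
  have h11397 := checkRangeG_sound parWF r2 pf11396 h11396
  have h11398 := checkRangeG_sound parWF r2 pf11397 h11397
  have h11399 := checkRangeG_sound parWF r2 pf11398 h11398
  have h11400 := checkRangeG_sound parWF r2 pf11399 h11399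
  exact h11400


end Vale.Agent.P045g.C61
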