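import Vale.Agent.P045g.C61.WF
import Vale.Agent.P045g.C61.Pf190
import Vale.Agent.P045g.C61.Pf191
import Vale.Agent.P045g.C61.Pf192
import Vale.Agent.P045g.C61.Pf193
import Vale.Agent.P045g.C61.Pf194
import Vale.Agent.P045g.C61.Pf195
import Vale.Agent.P045g.C61.Pf196
import Vale.Agent.P045g.C61.Pf197
import Vale.Agent.P045g.C61.Pf198
import Vale.Agent.P045g.C61.Pf199

namespace Vale.Agent.P045g.C61

open Vale.Agent.P045b Vale.Agent.P045g

universe u

theorem c228 (h11400 : ∀ j, j < 34522 → GoodG.{u} par (db j)) : ∀ j, j < 34674 → GoodG.{u} par (db j) := by
  have h11401 := checkRangeG_sound parWF r2 pf11400 h11400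
  have h11402 := checkRangeG_sound parWF r2 pf11401 h11401
  have h11403 := checkRangeG_sound parWF r2 pf11402 h11402
  have h11404 := checkRangeG_sound parWF r2 pf11403 h11403
  have h11405 := checkRangeG_sound parWF r2 pf11404 h11404
  have h11406 := checkRangeG_sound parWF r2 pf11405 h11405
  have h11407 := checkRangeG_sound parWF r2 pf11406 h11406
  have h11408 := checkRangeG_sound parWF r2 pf11407 h11407
  have h11409 := checkRangeG_sound parWF r2 pf11408 h11408
  have h11410 := checkRangeG_sound parWF r2 pf11409 h11409
  have h11411 := checkRangeG_sound parWF r2 pf11410 h11410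
  have h11412 := checkRangeG_sound parWF r2 pf11411 h11411
  have h11413 := checkRangeG_sound parWF r2 pf11412 h11412
  have h11414 := checkRangeG_sound parWF r2 pf11413 h11413
  have h11415 := checkRangeG_sound parWF r2 pf11414 h11414
  have h11416 := checkRangeG_sound parWF r2 pf11415 h11415
  have h11417 := checkRangeG_sound parWF r2 pf11416 h11416
  have h11418 := checkRangeG_sound parWF r2 pf11417 h11417
  have h11419 := checkRangeG_sound parWF r2 pf11418 h11418
  have h11420 := checkRangeG_sound parWF r2 pf11419 h11419
  have h11421 := checkRangeG_sound parWF r2 pf11420 h11420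
  have h11422 := checkRangeG_sound parWF r2 pf11421 h11421
  have h11423 := checkRangeG_sound parWF r2 pf11422 h11422
  have h11424 := checkRangeG_sound parWF r2 pf11423 h11423
  have h11425 := checkRangeG_sound parWF r2 pf11424 h11424
  have h11426 := checkRangeG_sound parWF r2 pf11425 h11425
  have h11427 := checkRangeG_sound parWF r2 pf11426 h11426
  have h11428 := checkRangeG_sound parWF r2 pf11427 h11427
  have h11429 := checkRangeG_sound parWF r2 pf11428 h11428
  have h11430 := checkRangeG_sound parWF r2 pf11429 h11429
  have h11431 := checkRangeG_sound parWF r2 pf11430 h11430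
  have h11432 := checkRangeG_sound parWF r2 pf11431 h11431
  have h11433 := checkRangeG_sound parWF r2 pf11432 h11432
  have h11434 := checkRangeG_sound parWF r2 pf11433 h11433
  have h11435 := checkRangeG_sound parWF r2 pf11434 h11434
  have h11436 := checkRangeG_sound parWF r2 pf11435 h11435
  have h11437 := checkRangeG_sound parWF r2 pf11436 h11436
  have h11438 := checkRangeG_sound parWF r2 pf11437 h11437
  have h11439 := checkRangeG_sound parWF r2 pf11438 h11438
  have h11440 := checkRangeG_sound parWF r2 pf11439 h11439
  have h11441 := checkRangeG_sound parWF r2 pf11440 h11440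
  have h11442 := checkRangeG_sound parWF r2 pf11441 h11441
  have h11443 := checkRangeG_sound parWF r2 pf11442 h11442
  have h11444 := checkRangeG_sound parWF r2 pf11443 h11443
  have h11445 := checkRangeG_sound parWF r2 pf11444 h11444
  have h11446 := checkRangeG_sound parWF r2 pf11445 h11445
  have h11447 := checkRangeG_sound parWF r2 pf11446 h11446
  have h11448 := checkRangeG_sound parWF r2 pf11447 h11447
  have h11449 := checkRangeG_sound parWF r2 pf11448 h11448
  have h11450 := checkRangeG_sound parWF r2 pf11449 h11449
  exact h11450

theorem c229 (h11450 : ∀ j, j < 34674 → GoodG.{u} par (db j)) : ∀ j, j < 34834 → GoodG.{u} par (db j) := by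
  have h11451 := checkRangeG_sound parWF r2 pf11450 h11450
  have h11452 := checkRangeG_sound parWF r2 pf11451 h11451
  have h11453 := checkRangeG_sound parWF r2 pf11452 h11452
  have h11454 := checkRangeG_sound parWF r2 pf11453 h11453
  have h11455 := checkRangeG_sound parWF r2 pf11454 h11454
  have h11456 := checkRangeG_sound parWF r2 pf11455 h11455
  have h11457 := checkRangeG_sound parWF r2 pf11456 h11456
  have h11458 := checkRangeG_sound parWF r2 pf11457 h11457
  have h11459 := checkRangeG_sound parWF r2 pf11458 h11458
  have h11460 := checkRangeG_sound parWF r2 pf11459 h11459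
  have h11461 := checkRangeG_sound parWF r2 pf11460 h11460
  have h11462 := checkRangeG_sound parWF r2 pf11461 h11461
  have h11463 := checkRangeG_sound parWF r2 pf11462 h11462
  have h11464 := checkRangeG_sound parWF r2 pf11463 h11463
  have h11465 := checkRangeG_sound parWF r2 pf11464 h11464
  have h11466 := checkRangeG_sound parWF r2 pf11465 h11465
  have h11467 := checkRangeG_sound parWF r2 pf11466 h11466
  have h11468 := checkRangeG_sound parWF r2 pf11467 h11467
  have h11469 := checkRangeG_sound parWF r2 pf11468 h11468
  have h11470 := checkRangeG_sound parWF r2 pf11469 h11469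
  have h11471 := checkRangeG_sound parWF r2 pf11470 h11470
  have h11472 := checkRangeG_sound parWF r2 pf11471 h11471
  have h11473 := checkRangeG_sound parWF r2 pf11472 h11472
  have h11474 := checkRangeG_sound parWF r2 pf11473 h11473
  have h11475 := checkRangeG_sound parWF r2 pf11474 h11474
  have h11476 := checkRangeG_sound parWF r2 pf11475 h11475
  have h11477 := checkRangeG_sound parWF r2 pf11476 h11476
  have h11478 := checkRangeG_sound parWF r2 pf11477 h11477
  have h11479 := checkRangeG_sound parWF r2 pf11478 h11478
  have h11480 := checkRangeG_sound parWF r2 pf11479 h11479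
  have h11481 := checkRangeG_sound parWF r2 pf11480 h11480
  have h11482 := checkRangeG_sound parWF r2 pf11481 h11481
  have h11483 := checkRangeG_sound parWF r2 pf11482 h11482
  have h11484 := checkRangeG_sound parWF r2 pf11483 h11483
  have h11485 := checkRangeG_sound parWF r2 pf11484 h11484
  have h11486 := checkRangeG_sound parWF r2 pf11485 h11485
  have h11487 := checkRangeG_sound parWF r2 pf11486 h11486
  have h11488 := checkRangeG_sound parWF r2 pf11487 h11487
  have h11489 := checkRangeG_sound parWF r2 pf11488 h11488
  have h11490 := checkRangeG_sound parWF r2 pf11489 h11489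
  have h11491 := checkRangeG_sound parWF r2 pf11490 h11490
  have h11492 := checkRangeG_sound parWF r2 pf11491 h11491
  have h11493 := checkRangeG_sound parWF r2 pf11492 h11492
  have h11494 := checkRangeG_sound parWF r2 pf11493 h11493
  have h11495 := checkRangeG_sound parWF r2 pf11494 h11494
  have h11496 := checkRangeG_sound parWF r2 pf11495 h11495
  have h11497 := checkRangeG_sound parWF r2 pf11496 h11496
  have h11498 := checkRangeG_sound parWF r2 pf11497 h11497
  have h11499 := checkRangeG_sound parWF r2 pf11498 h11498
  have h11500 := checkRangeG_sound parWF r2 pf11499 h11499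
  exact h11500

theorem c230 (h11500 : ∀ j, j < 34834 → GoodG.{u} par (db j)) : ∀ j, j < 35016 → GoodG.{u} par (db j) := by
  have h11501 := checkRangeG_sound parWF r2 pf11500 h11500
  have h11502 := checkRangeG_sound parWF r2 pf11501 h11501
  have h11503 := checkRangeG_sound parWF r2 pf11502 h11502
  have h11504 := checkRangeG_sound parWF r2 pf11503 h11503
  have h11505 := checkRangeG_sound parWF r2 pf11504 h11504
  have h11506 := checkRangeG_sound parWF r2 pf11505 h11505
  have h11507 := checkRangeG_sound parWF r2 pf11506 h11506
  have h11508 := checkRangeG_sound parWF r2 pf11507 h11507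
  have h11509 := checkRangeG_sound parWF r2 pf11508 h11508
  have h11510 := checkRangeG_sound parWF r2 pf11509 h11509
  have h11511 := checkRangeG_sound parWF r2 pf11510 h11510
  have h11512 := checkRangeG_sound parWF r2 pf11511 h11511
  have h11513 := checkRangeG_sound parWF r2 pf11512 h11512
  have h11514 := checkRangeG_sound parWF r2 pf11513 h11513
  have h11515 := checkRangeG_sound parWF r2 pf11514 h11514
  have h11516 := checkRangeG_sound parWF r2 pf11515 h11515
  have h11517 := checkRangeG_sound parWF r2 pf11516 h11516
  have h11518 := checkRangeG_sound parWF r2 pf11517 h11517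
  have h11519 := checkRangeG_sound parWF r2 pf11518 h11518
  have h11520 := checkRangeG_sound parWF r2 pf11519 h11519
  have h11521 := checkRangeG_sound parWF r2 pf11520 h11520
  have h11522 := checkRangeG_sound parWF r2 pf11521 h11521
  have h11523 := checkRangeG_sound parWF r2 pf11522 h11522
  have h11524 := checkRangeG_sound parWF r2 pf11523 h11523
  have h11525 := checkRangeG_sound parWF r2 pf11524 h11524
  have h11526 := checkRangeG_sound parWF r2 pf11525 h11525
  have h11527 := checkRangeG_sound parWF r2 pf11526 h11526
  have h11528 := checkRangeG_sound parWF r2 pf11527 h11527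
  have h11529 := checkRangeG_sound parWF r2 pf11528 h11528
  have h11530 := checkRangeG_sound parWF r2 pf11529 h11529
  have h11531 := checkRangeG_sound parWF r2 pf11530 h11530
  have h11532 := checkRangeG_sound parWF r2 pf11531 h11531
  have h11533 := checkRangeG_sound parWF r2 pf11532 h11532
  have h11534 := checkRangeG_sound parWF r2 pf11533 h11533
  have h11535 := checkRangeG_sound parWF r2 pf11534 h11534
  have h11536 := checkRangeG_sound parWF r2 pf11535 h11535
  have h11537 := checkRangeG_sound parWF r2 pf11536 h11536
  have h11538 := checkRangeG_sound parWF r2 pf11537 h11537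
  have h11539 := checkRangeG_sound parWF r2 pf11538 h11538
  have h11540 := checkRangeG_sound parWF r2 pf11539 h11539
  have h11541 := checkRangeG_sound parWF r2 pf11540 h11540
  have h11542 := checkRangeG_sound parWF r2 pf11541 h11541
  have h11543 := checkRangeG_sound parWF r2 pf11542 h11542
  have h11544 := checkRangeG_sound parWF r2 pf11543 h11543
  have h11545 := checkRangeG_sound parWF r2 pf11544 h11544
  have h11546 := checkRangeG_sound parWF r2 pf11545 h11545
  have h11547 := checkRangeG_sound parWF r2 pf11546 h11546
  have h11548 := checkRangeG_sound parWF r2 pf11547 h11547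
  have h11549 := checkRangeG_sound parWF r2 pf11548 h11548
  have h11550 := checkRangeG_sound parWF r2 pf11549 h11549
  exact h11550

theorem c231 (h11550 : ∀ j, j < 35016 → GoodG.{u} par (db j)) : ∀ j, j < 35202 → GoodG.{u} par (db j) := by
  have h11551 := checkRangeG_sound parWF r2 pf11550 h11550
  have h11552 := checkRangeG_sound parWF r2 pf11551 h11551
  have h11553 := checkRangeG_sound parWF r2 pf11552 h11552
  have h11554 := checkRangeG_sound parWF r2 pf11553 h11553
  have h11555 := checkRangeG_sound parWF r2 pf11554 h11554
  have h11556 := checkRangeG_sound parWF r2 pf11555 h11555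
  have h11557 := checkRangeG_sound parWF r2 pf11556 h11556
  have h11558 := checkRangeG_sound parWF r2 pf11557 h11557
  have h11559 := checkRangeG_sound parWF r2 pf11558 h11558
  have h11560 := checkRangeG_sound parWF r2 pf11559 h11559
  have h11561 := checkRangeG_sound parWF r2 pf11560 h11560
  have h11562 := checkRangeG_sound parWF r2 pf11561 h11561
  have h11563 := checkRangeG_sound parWF r2 pf11562 h11562
  have h11564 := checkRangeG_sound parWF r2 pf11563 h11563
  have h11565 := checkRangeG_sound parWF r2 pf11564 h11564
  have h11566 := checkRangeG_sound parWF r2 pf11565 h11565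
  have h11567 := checkRangeG_sound parWF r2 pf11566 h11566
  have h11568 := checkRangeG_sound parWF r2 pf11567 h11567
  have h11569 := checkRangeG_sound parWF r2 pf11568 h11568
  have h11570 := checkRangeG_sound parWF r2 pf11569 h11569
  have h11571 := checkRangeG_sound parWF r2 pf11570 h11570
  have h11572 := checkRangeG_sound parWF r2 pf11571 h11571
  have h11573 := checkRangeG_sound parWF r2 pf11572 h11572
  have h11574 := checkRangeG_sound parWF r2 pf11573 h11573
  have h11575 := checkRangeG_sound parWF r2 pf11574 h11574
  have h11576 := checkRangeG_sound parWF r2 pf11575 h11575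
  have h11577 := checkRangeG_sound parWF r2 pf11576 h11576
  have h11578 := checkRangeG_sound parWF r2 pf11577 h11577
  have h11579 := checkRangeG_sound parWF r2 pf11578 h11578
  have h11580 := checkRangeG_sound parWF r2 pf11579 h11579
  have h11581 := checkRangeG_sound parWF r2 pf11580 h11580
  have h11582 := checkRangeG_sound parWF r2 pf11581 h11581
  have h11583 := checkRangeG_sound parWF r2 pf11582 h11582
  have h11584 := checkRangeG_sound parWF r2 pf11583 h11583
  have h11585 := checkRangeG_sound parWF r2 pf11584 h11584
  have h11586 := checkRangeG_sound parWF r2 pf11585 h11585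
  have h11587 := checkRangeG_sound parWF r2 pf11586 h11586
  have h11588 := checkRangeG_sound parWF r2 pf11587 h11587
  have h11589 := checkRangeG_sound parWF r2 pf11588 h11588
  have h11590 := checkRangeG_sound parWF r2 pf11589 h11589
  have h11591 := checkRangeG_sound parWF r2 pf11590 h11590
  have h11592 := checkRangeG_sound parWF r2 pf11591 h11591
  have h11593 := checkRangeG_sound parWF r2 pf11592 h11592
  have h11594 := checkRangeG_sound parWF r2 pf11593 h11593
  have h11595 := checkRangeG_sound parWF r2 pf11594 h11594
  have h11596 := checkRangeG_sound parWF r2 pf11595 h11595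
  have h11597 := checkRangeG_sound parWF r2 pf11596 h11596
  have h11598 := checkRangeG_sound parWF r2 pf11597 h11597
  have h11599 := checkRangeG_sound parWF r2 pf11598 h11598
  have h11600 := checkRangeG_sound parWF r2 pf11599 h11599
  exact h11600

theorem c232 (h11600 : ∀ j, j < 35202 → GoodG.{u} par (db j)) : ∀ j, j < 35370 → GoodG.{u} par (db j) := by
  have h11601 := checkRangeG_sound parWF r2 pf11600 h11600
  have h11602 := checkRangeG_sound parWF r2 pf11601 h11601
  have h11603 := checkRangeG_sound parWF r2 pf11602 h11602
  have h11604 := checkRangeG_sound parWF r2 pf11603 h11603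
  have h11605 := checkRangeG_sound parWF r2 pf11604 h11604
  have h11606 := checkRangeG_sound parWF r2 pf11605 h11605
  have h11607 := checkRangeG_sound parWF r2 pf11606 h11606
  have h11608 := checkRangeG_sound parWF r2 pf11607 h11607
  have h11609 := checkRangeG_sound parWF r2 pf11608 h11608
  have h11610 := checkRangeG_sound parWF r2 pf11609 h11609
  have h11611 := checkRangeG_sound parWF r2 pf11610 h11610
  have h11612 := checkRangeG_sound parWF r2 pf11611 h11611
  have h11613 := checkRangeG_sound parWF r2 pf11612 h11612
  have h11614 := checkRangeG_sound parWF r2 pf11613 h11613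
  have h11615 := checkRangeG_sound parWF r2 pf11614 h11614
  have h11616 := checkRangeG_sound parWF r2 pf11615 h11615
  have h11617 := checkRangeG_sound parWF r2 pf11616 h11616
  have h11618 := checkRangeG_sound parWF r2 pf11617 h11617
  have h11619 := checkRangeG_sound parWF r2 pf11618 h11618
  have h11620 := checkRangeG_sound parWF r2 pf11619 h11619
  have h11621 := checkRangeG_sound parWF r2 pf11620 h11620
  have h11622 := checkRangeG_sound parWF r2 pf11621 h11621
  have h11623 := checkRangeG_sound parWF r2 pf11622 h11622
  have h11624 := checkRangeG_sound parWF r2 pf11623 h11623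
  have h11625 := checkRangeG_sound parWF r2 pf11624 h11624
  have h11626 := checkRangeG_sound parWF r2 pf11625 h11625
  have h11627 := checkRangeG_sound parWF r2 pf11626 h11626
  have h11628 := checkRangeG_sound parWF r2 pf11627 h11627
  have h11629 := checkRangeG_sound parWF r2 pf11628 h11628
  have h11630 := checkRangeG_sound parWF r2 pf11629 h11629
  have h11631 := checkRangeG_sound parWF r2 pf11630 h11630
  have h11632 := checkRangeG_sound parWF r2 pf11631 h11631
  have h11633 := checkRangeG_sound parWF r2 pf11632 h11632
  have h11634 := checkRangeG_sound parWF r2 pf11633 h11633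
  have h11635 := checkRangeG_sound parWF r2 pf11634 h11634
  have h11636 := checkRangeG_sound parWF r2 pf11635 h11635
  have h11637 := checkRangeG_sound parWF r2 pf11636 h11636
  have h11638 := checkRangeG_sound parWF r2 pf11637 h11637
  have h11639 := checkRangeG_sound parWF r2 pf11638 h11638
  have h11640 := checkRangeG_sound parWF r2 pf11639 h11639
  have h11641 := checkRangeG_sound parWF r2 pf11640 h11640
  have h11642 := checkRangeG_sound parWF r2 pf11641 h11641
  have h11643 := checkRangeG_sound parWF r2 pf11642 h11642
  have h11644 := checkRangeG_sound parWF r2 pf11643 h11643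
  have h11645 := checkRangeG_sound parWF r2 pf11644 h11644
  have h11646 := checkRangeG_sound parWF r2 pf11645 h11645
  have h11647 := checkRangeG_sound parWF r2 pf11646 h11646
  have h11648 := checkRangeG_sound parWF r2 pf11647 h11647
  have h11649 := checkRangeG_sound parWF r2 pf11648 h11648
  have h11650 := checkRangeG_sound parWF r2 pf11649 h11649
  exact h11650

theorem c233 (h11650 : ∀ j, j < 35370 → GoodG.{u} par (db j)) : ∀ j, j < 35517 → GoodG.{u} par (db j) := by
  have h11651 := checkRangeG_sound parWF r2 pf11650 h11650
  have h11652 := checkRangeG_sound parWF r2 pf11651 h11651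
  have h11653 := checkRangeG_sound parWF r2 pf11652 h11652
  have h11654 := checkRangeG_sound parWF r2 pf11653 h11653
  have h11655 := checkRangeG_sound parWF r2 pf11654 h11654
  have h11656 := checkRangeG_sound parWF r2 pf11655 h11655
  have h11657 := checkRangeG_sound parWF r2 pf11656 h11656
  have h11658 := checkRangeG_sound parWF r2 pf11657 h11657
  have h11659 := checkRangeG_sound parWF r2 pf11658 h11658
  have h11660 := checkRangeG_sound parWF r2 pf11659 h11659
  have h11661 := checkRangeG_sound parWF r2 pf11660 h11660
  have h11662 := checkRangeG_sound parWF r2 pf11661 h11661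
  have h11663 := checkRangeG_sound parWF r2 pf11662 h11662
  have h11664 := checkRangeG_sound parWF r2 pf11663 h11663
  have h11665 := checkRangeG_sound parWF r2 pf11664 h11664
  have h11666 := checkRangeG_sound parWF r2 pf11665 h11665
  have h11667 := checkRangeG_sound parWF r2 pf11666 h11666
  have h11668 := checkRangeG_sound parWF r2 pf11667 h11667
  have h11669 := checkRangeG_sound parWF r2 pf11668 h11668
  have h11670 := checkRangeG_sound parWF r2 pf11669 h11669
  have h11671 := checkRangeG_sound parWF r2 pf11670 h11670
  have h11672 := checkRangeG_sound parWF r2 pf11671 h11671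
  have h11673 := checkRangeG_sound parWF r2 pf11672 h11672
  have h11674 := checkRangeG_sound parWF r2 pf11673 h11673
  have h11675 := checkRangeG_sound parWF r2 pf11674 h11674
  have h11676 := checkRangeG_sound parWF r2 pf11675 h11675
  have h11677 := checkRangeG_sound parWF r2 pf11676 h11676
  have h11678 := checkRangeG_sound parWF r2 pf11677 h11677
  have h11679 := checkRangeG_sound parWF r2 pf11678 h11678
  have h11680 := checkRangeG_sound parWF r2 pf11679 h11679
  have h11681 := checkRangeG_sound parWF r2 pf11680 h11680
  have h11682 := checkRangeG_sound parWF r2 pf11681 h11681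
  have h11683 := checkRangeG_sound parWF r2 pf11682 h11682
  have h11684 := checkRangeG_sound parWF r2 pf11683 h11683
  have h11685 := checkRangeG_sound parWF r2 pf11684 h11684
  have h11686 := checkRangeG_sound parWF r2 pf11685 h11685
  have h11687 := checkRangeG_sound parWF r2 pf11686 h11686
  have h11688 := checkRangeG_sound parWF r2 pf11687 h11687
  have h11689 := checkRangeG_sound parWF r2 pf11688 h11688
  have h11690 := checkRangeG_sound parWF r2 pf11689 h11689
  have h11691 := checkRangeG_sound parWF r2 pf11690 h11690
  have h11692 := checkRangeG_sound parWF r2 pf11691 h11691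
  have h11693 := checkRangeG_sound parWF r2 pf11692 h11692
  have h11694 := checkRangeG_sound parWF r2 pf11693 h11693
  have h11695 := checkRangeG_sound parWF r2 pf11694 h11694
  have h11696 := checkRangeG_sound parWF r2 pf11695 h11695
  have h11697 := checkRangeG_sound parWF r2 pf11696 h11696
  have h11698 := checkRangeG_sound parWF r2 pf11697 h11697
  have h11699 := checkRangeG_sound parWF r2 pf11698 h11698
  have h11700 := checkRangeG_sound parWF r2 pf11699 h11699
  exact h11700

theorem c234 (h11700 : ∀ j, j < 35517 → GoodG.{u} par (db j)) : ∀ j, j < 35664 → GoodG.{u} par (db j) := by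
  have h11701 := checkRangeG_sound parWF r2 pf11700 h11700
  have h11702 := checkRangeG_sound parWF r2 pf11701 h11701
  have h11703 := checkRangeG_sound parWF r2 pf11702 h11702
  have h11704 := checkRangeG_sound parWF r2 pf11703 h11703
  have h11705 := checkRangeG_sound parWF r2 pf11704 h11704
  have h11706 := checkRangeG_sound parWF r2 pf11705 h11705
  have h11707 := checkRangeG_sound parWF r2 pf11706 h11706
  have h11708 := checkRangeG_sound parWF r2 pf11707 h11707
  have h11709 := checkRangeG_sound parWF r2 pf11708 h11708
  have h11710 := checkRangeG_sound parWF r2 pf11709 h11709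
  have h11711 := checkRangeG_sound parWF r2 pf11710 h11710
  have h11712 := checkRangeG_sound parWF r2 pf11711 h11711
  have h11713 := checkRangeG_sound parWF r2 pf11712 h11712
  have h11714 := checkRangeG_sound parWF r2 pf11713 h11713
  have h11715 := checkRangeG_sound parWF r2 pf11714 h11714
  have h11716 := checkRangeG_sound parWF r2 pf11715 h11715
  have h11717 := checkRangeG_sound parWF r2 pf11716 h11716
  have h11718 := checkRangeG_sound parWF r2 pf11717 h11717
  have h11719 := checkRangeG_sound parWF r2 pf11718 h11718
  have h11720 := checkRangeG_sound parWF r2 pf11719 h11719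
  have h11721 := checkRangeG_sound parWF r2 pf11720 h11720
  have h11722 := checkRangeG_sound parWF r2 pf11721 h11721
  have h11723 := checkRangeG_sound parWF r2 pf11722 h11722
  have h11724 := checkRangeG_sound parWF r2 pf11723 h11723
  have h11725 := checkRangeG_sound parWF r2 pf11724 h11724
  have h11726 := checkRangeG_sound parWF r2 pf11725 h11725
  have h11727 := checkRangeG_sound parWF r2 pf11726 h11726
  have h11728 := checkRangeG_sound parWF r2 pf11727 h11727
  have h11729 := checkRangeG_sound parWF r2 pf11728 h11728
  have h11730 := checkRangeG_sound parWF r2 pf11729 h11729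
  have h11731 := checkRangeG_sound parWF r2 pf11730 h11730
  have h11732 := checkRangeG_sound parWF r2 pf11731 h11731
  have h11733 := checkRangeG_sound parWF r2 pf11732 h11732
  have h11734 := checkRangeG_sound parWF r2 pf11733 h11733
  have h11735 := checkRangeG_sound parWF r2 pf11734 h11734
  have h11736 := checkRangeG_sound parWF r2 pf11735 h11735
  have h11737 := checkRangeG_sound parWF r2 pf11736 h11736
  have h11738 := checkRangeG_sound parWF r2 pf11737 h11737
  have h11739 := checkRangeG_sound parWF r2 pf11738 h11738
  have h11740 := checkRangeG_sound parWF r2 pf11739 h11739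
  have h11741 := checkRangeG_sound parWF r2 pf11740 h11740
  have h11742 := checkRangeG_sound parWF r2 pf11741 h11741
  have h11743 := checkRangeG_sound parWF r2 pf11742 h11742
  have h11744 := checkRangeG_sound parWF r2 pf11743 h11743
  have h11745 := checkRangeG_sound parWF r2 pf11744 h11744
  have h11746 := checkRangeG_sound parWF r2 pf11745 h11745
  have h11747 := checkRangeG_sound parWF r2 pf11746 h11746
  have h11748 := checkRangeG_sound parWF r2 pf11747 h11747
  have h11749 := checkRangeG_sound parWF r2 pf11748 h11748
  have h11750 := checkRangeG_sound parWF r2 pf11749 h11749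
  exact h11750

theorem c235 (h11750 : ∀ j, j < 35664 → GoodG.{u} par (db j)) : ∀ j, j < 35823 → GoodG.{u} par (db j) := by
  have h11751 := checkRangeG_sound parWF r2 pf11750 h11750
  have h11752 := checkRangeG_sound parWF r2 pf11751 h11751
  have h11753 := checkRangeG_sound parWF r2 pf11752 h11752
  have h11754 := checkRangeG_sound parWF r2 pf11753 h11753
  have h11755 := checkRangeG_sound parWF r2 pf11754 h11754
  have h11756 := checkRangeG_sound parWF r2 pf11755 h11755
  have h11757 := checkRangeG_sound parWF r2 pf11756 h11756
  have h11758 := checkRangeG_sound parWF r2 pf11757 h11757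
  have h11759 := checkRangeG_sound parWF r2 pf11758 h11758
  have h11760 := checkRangeG_sound parWF r2 pf11759 h11759
  have h11761 := checkRangeG_sound parWF r2 pf11760 h11760
  have h11762 := checkRangeG_sound parWF r2 pf11761 h11761
  have h11763 := checkRangeG_sound parWF r2 pf11762 h11762
  have h11764 := checkRangeG_sound parWF r2 pf11763 h11763
  have h11765 := checkRangeG_sound parWF r2 pf11764 h11764
  have h11766 := checkRangeG_sound parWF r2 pf11765 h11765
  have h11767 := checkRangeG_sound parWF r2 pf11766 h11766
  have h11768 := checkRangeG_sound parWF r2 pf11767 h11767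
  have h11769 := checkRangeG_sound parWF r2 pf11768 h11768
  have h11770 := checkRangeG_sound parWF r2 pf11769 h11769
  have h11771 := checkRangeG_sound parWF r2 pf11770 h11770
  have h11772 := checkRangeG_sound parWF r2 pf11771 h11771
  have h11773 := checkRangeG_sound parWF r2 pf11772 h11772
  have h11774 := checkRangeG_sound parWF r2 pf11773 h11773
  have h11775 := checkRangeG_sound parWF r2 pf11774 h11774
  have h11776 := checkRangeG_sound parWF r2 pf11775 h11775
  have h11777 := checkRangeG_sound parWF r2 pf11776 h11776
  have h11778 := checkRangeG_sound parWF r2 pf11777 h11777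
  have h11779 := checkRangeG_sound parWF r2 pf11778 h11778
  have h11780 := checkRangeG_sound parWF r2 pf11779 h11779
  have h11781 := checkRangeG_sound parWF r2 pf11780 h11780
  have h11782 := checkRangeG_sound parWF r2 pf11781 h11781
  have h11783 := checkRangeG_sound parWF r2 pf11782 h11782
  have h11784 := checkRangeG_sound parWF r2 pf11783 h11783
  have h11785 := checkRangeG_sound parWF r2 pf11784 h11784
  have h11786 := checkRangeG_sound parWF r2 pf11785 h11785
  have h11787 := checkRangeG_sound parWF r2 pf11786 h11786
  have h11788 := checkRangeG_sound parWF r2 pf11787 h11787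
  have h11789 := checkRangeG_sound parWF r2 pf11788 h11788
  have h11790 := checkRangeG_sound parWF r2 pf11789 h11789
  have h11791 := checkRangeG_sound parWF r2 pf11790 h11790
  have h11792 := checkRangeG_sound parWF r2 pf11791 h11791
  have h11793 := checkRangeG_sound parWF r2 pf11792 h11792
  have h11794 := checkRangeG_sound parWF r2 pf11793 h11793
  have h11795 := checkRangeG_sound parWF r2 pf11794 h11794
  have h11796 := checkRangeG_sound parWF r2 pf11795 h11795
  have h11797 := checkRangeG_sound parWF r2 pf11796 h11796
  have h11798 := checkRangeG_sound parWF r2 pf11797 h11797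
  have h11799 := checkRangeG_sound parWF r2 pf11798 h11798
  have h11800 := checkRangeG_sound parWF r2 pf11799 h11799
  exact h11800

theorem c236 (h11800 : ∀ j, j < 35823 → GoodG.{u} par (db j)) : ∀ j, j < 35969 → GoodG.{u} par (db j) := by
  have h11801 := checkRangeG_sound parWF r2 pf11800 h11800
  have h11802 := checkRangeG_sound parWF r2 pf11801 h11801
  have h11803 := checkRangeG_sound parWF r2 pf11802 h11802
  have h11804 := checkRangeG_sound parWF r2 pf11803 h11803
  have h11805 := checkRangeG_sound parWF r2 pf11804 h11804
  have h11806 := checkRangeG_sound parWF r2 pf11805 h11805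
  have h11807 := checkRangeG_sound parWF r2 pf11806 h11806
  have h11808 := checkRangeG_sound parWF r2 pf11807 h11807
  have h11809 := checkRangeG_sound parWF r2 pf11808 h11808
  have h11810 := checkRangeG_sound parWF r2 pf11809 h11809
  have h11811 := checkRangeG_sound parWF r2 pf11810 h11810
  have h11812 := checkRangeG_sound parWF r2 pf11811 h11811
  have h11813 := checkRangeG_sound parWF r2 pf11812 h11812
  have h11814 := checkRangeG_sound parWF r2 pf11813 h11813
  have h11815 := checkRangeG_sound parWF r2 pf11814 h11814
  have h11816 := checkRangeG_sound parWF r2 pf11815 h11815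
  have h11817 := checkRangeG_sound parWF r2 pf11816 h11816
  have h11818 := checkRangeG_sound parWF r2 pf11817 h11817
  have h11819 := checkRangeG_sound parWF r2 pf11818 h11818
  have h11820 := checkRangeG_sound parWF r2 pf11819 h11819
  have h11821 := checkRangeG_sound parWF r2 pf11820 h11820
  have h11822 := checkRangeG_sound parWF r2 pf11821 h11821
  have h11823 := checkRangeG_sound parWF r2 pf11822 h11822
  have h11824 := checkRangeG_sound parWF r2 pf11823 h11823
  have h11825 := checkRangeG_sound parWF r2 pf11824 h11824
  have h11826 := checkRangeG_sound parWF r2 pf11825 h11825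
  have h11827 := checkRangeG_sound parWF r2 pf11826 h11826
  have h11828 := checkRangeG_sound parWF r2 pf11827 h11827
  have h11829 := checkRangeG_sound parWF r2 pf11828 h11828
  have h11830 := checkRangeG_sound parWF r2 pf11829 h11829
  have h11831 := checkRangeG_sound parWF r2 pf11830 h11830
  have h11832 := checkRangeG_sound parWF r2 pf11831 h11831
  have h11833 := checkRangeG_sound parWF r2 pf11832 h11832
  have h11834 := checkRangeG_sound parWF r2 pf11833 h11833
  have h11835 := checkRangeG_sound parWF r2 pf11834 h11834
  have h11836 := checkRangeG_sound parWF r2 pf11835 h11835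
  have h11837 := checkRangeG_sound parWF r2 pf11836 h11836
  have h11838 := checkRangeG_sound parWF r2 pf11837 h11837
  have h11839 := checkRangeG_sound parWF r2 pf11838 h11838
  have h11840 := checkRangeG_sound parWF r2 pf11839 h11839
  have h11841 := checkRangeG_sound parWF r2 pf11840 h11840
  have h11842 := checkRangeG_sound parWF r2 pf11841 h11841
  have h11843 := checkRangeG_sound parWF r2 pf11842 h11842
  have h11844 := checkRangeG_sound parWF r2 pf11843 h11843
  have h11845 := checkRangeG_sound parWF r2 pf11844 h11844
  have h11846 := checkRangeG_sound parWF r2 pf11845 h11845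
  have h11847 := checkRangeG_sound parWF r2 pf11846 h11846
  have h11848 := checkRangeG_sound parWF r2 pf11847 h11847
  have h11849 := checkRangeG_sound parWF r2 pf11848 h11848
  have h11850 := checkRangeG_sound parWF r2 pf11849 h11849
  exact h11850

theorem c237 (h11850 : ∀ j, j < 35969 → GoodG.{u} par (db j)) : ∀ j, j < 36121 → GoodG.{u} par (db j) := by
  have h11851 := checkRangeG_sound parWF r2 pf11850 h11850
  have h11852 := checkRangeG_sound parWF r2 pf11851 h11851
  have h11853 := checkRangeG_sound parWF r2 pf11852 h11852
  have h11854 := checkRangeG_sound parWF r2 pf11853 h11853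
  have h11855 := checkRangeG_sound parWF r2 pf11854 h11854
  have h11856 := checkRangeG_sound parWF r2 pf11855 h11855
  have h11857 := checkRangeG_sound parWF r2 pf11856 h11856
  have h11858 := checkRangeG_sound parWF r2 pf11857 h11857
  have h11859 := checkRangeG_sound parWF r2 pf11858 h11858
  have h11860 := checkRangeG_sound parWF r2 pf11859 h11859
  have h11861 := checkRangeG_sound parWF r2 pf11860 h11860
  have h11862 := checkRangeG_sound parWF r2 pf11861 h11861
  have h11863 := checkRangeG_sound parWF r2 pf11862 h11862
  have h11864 := checkRangeG_sound parWF r2 pf11863 h11863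
  have h11865 := checkRangeG_sound parWF r2 pf11864 h11864
  have h11866 := checkRangeG_sound parWF r2 pf11865 h11865
  have h11867 := checkRangeG_sound parWF r2 pf11866 h11866
  have h11868 := checkRangeG_sound parWF r2 pf11867 h11867
  have h11869 := checkRangeG_sound parWF r2 pf11868 h11868
  have h11870 := checkRangeG_sound parWF r2 pf11869 h11869
  have h11871 := checkRangeG_sound parWF r2 pf11870 h11870
  have h11872 := checkRangeG_sound parWF r2 pf11871 h11871
  have h11873 := checkRangeG_sound parWF r2 pf11872 h11872
  have h11874 := checkRangeG_sound parWF r2 pf11873 h11873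
  have h11875 := checkRangeG_sound parWF r2 pf11874 h11874
  have h11876 := checkRangeG_sound parWF r2 pf11875 h11875
  have h11877 := checkRangeG_sound parWF r2 pf11876 h11876
  have h11878 := checkRangeG_sound parWF r2 pf11877 h11877
  have h11879 := checkRangeG_sound parWF r2 pf11878 h11878
  have h11880 := checkRangeG_sound parWF r2 pf11879 h11879
  have h11881 := checkRangeG_sound parWF r2 pf11880 h11880
  have h11882 := checkRangeG_sound parWF r2 pf11881 h11881
  have h11883 := checkRangeG_sound parWF r2 pf11882 h11882
  have h11884 := checkRangeG_sound parWF r2 pf11883 h11883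
  have h11885 := checkRangeG_sound parWF r2 pf11884 h11884
  have h11886 := checkRangeG_sound parWF r2 pf11885 h11885
  have h11887 := checkRangeG_sound parWF r2 pf11886 h11886
  have h11888 := checkRangeG_sound parWF r2 pf11887 h11887
  have h11889 := checkRangeG_sound parWF r2 pf11888 h11888
  have h11890 := checkRangeG_sound parWF r2 pf11889 h11889
  have h11891 := checkRangeG_sound parWF r2 pf11890 h11890
  have h11892 := checkRangeG_sound parWF r2 pf11891 h11891
  have h11893 := checkRangeG_sound parWF r2 pf11892 h11892
  have h11894 := checkRangeG_sound parWF r2 pf11893 h11893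
  have h11895 := checkRangeG_sound parWF r2 pf11894 h11894
  have h11896 := checkRangeG_sound parWF r2 pf11895 h11895
  have h11897 := checkRangeG_sound parWF r2 pf11896 h11896
  have h11898 := checkRangeG_sound parWF r2 pf11897 h11897
  have h11899 := checkRangeG_sound parWF r2 pf11898 h11898
  have h11900 := checkRangeG_sound parWF r2 pf11899 h11899
  exact h11900

theorem c238 (h11900 : ∀ j, j < 36121 → GoodG.{u} par (db j)) : ∀ j, j < 36280 → GoodG.{u} par (db j) := by
  have h11901 := checkRangeG_sound parWF r2 pf11900 h11900
  have h11902 := checkRangeG_sound parWF r2 pf11901 h11901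
  have h11903 := checkRangeG_sound parWF r2 pf11902 h11902
  have h11904 := checkRangeG_sound parWF r2 pf11903 h11903
  have h11905 := checkRangeG_sound parWF r2 pf11904 h11904
  have h11906 := checkRangeG_sound parWF r2 pf11905 h11905
  have h11907 := checkRangeG_sound parWF r2 pf11906 h11906
  have h11908 := checkRangeG_sound parWF r2 pf11907 h11907
  have h11909 := checkRangeG_sound parWF r2 pf11908 h11908
  have h11910 := checkRangeG_sound parWF r2 pf11909 h11909
  have h11911 := checkRangeG_sound parWF r2 pf11910 h11910
  have h11912 := checkRangeG_sound parWF r2 pf11911 h11911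
  have h11913 := checkRangeG_sound parWF r2 pf11912 h11912
  have h11914 := checkRangeG_sound parWF r2 pf11913 h11913
  have h11915 := checkRangeG_sound parWF r2 pf11914 h11914
  have h11916 := checkRangeG_sound parWF r2 pf11915 h11915
  have h11917 := checkRangeG_sound parWF r2 pf11916 h11916
  have h11918 := checkRangeG_sound parWF r2 pf11917 h11917
  have h11919 := checkRangeG_sound parWF r2 pf11918 h11918
  have h11920 := checkRangeG_sound parWF r2 pf11919 h11919
  have h11921 := checkRangeG_sound parWF r2 pf11920 h11920
  have h11922 := checkRangeG_sound parWF r2 pf11921 h11921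
  have h11923 := checkRangeG_sound parWF r2 pf11922 h11922
  have h11924 := checkRangeG_sound parWF r2 pf11923 h11923
  have h11925 := checkRangeG_sound parWF r2 pf11924 h11924
  have h11926 := checkRangeG_sound parWF r2 pf11925 h11925
  have h11927 := checkRangeG_sound parWF r2 pf11926 h11926
  have h11928 := checkRangeG_sound parWF r2 pf11927 h11927
  have h11929 := checkRangeG_sound parWF r2 pf11928 h11928
  have h11930 := checkRangeG_sound parWF r2 pf11929 h11929
  have h11931 := checkRangeG_sound parWF r2 pf11930 h11930
  have h11932 := checkRangeG_sound parWF r2 pf11931 h11931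
  have h11933 := checkRangeG_sound parWF r2 pf11932 h11932
  have h11934 := checkRangeG_sound parWF r2 pf11933 h11933
  have h11935 := checkRangeG_sound parWF r2 pf11934 h11934
  have h11936 := checkRangeG_sound parWF r2 pf11935 h11935
  have h11937 := checkRangeG_sound parWF r2 pf11936 h11936
  have h11938 := checkRangeG_sound parWF r2 pf11937 h11937
  have h11939 := checkRangeG_sound parWF r2 pf11938 h11938
  have h11940 := checkRangeG_sound parWF r2 pf11939 h11939
  have h11941 := checkRangeG_sound parWF r2 pf11940 h11940
  have h11942 := checkRangeG_sound parWF r2 pf11941 h11941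
  have h11943 := checkRangeG_sound parWF r2 pf11942 h11942
  have h11944 := checkRangeG_sound parWF r2 pf11943 h11943
  have h11945 := checkRangeG_sound parWF r2 pf11944 h11944
  have h11946 := checkRangeG_sound parWF r2 pf11945 h11945
  have h11947 := checkRangeG_sound parWF r2 pf11946 h11946
  have h11948 := checkRangeG_sound parWF r2 pf11947 h11947
  have h11949 := checkRangeG_sound parWF r2 pf11948 h11948
  have h11950 := checkRangeG_sound parWF r2 pf11949 h11949
  exact h11950

theorem c239 (h11950 : ∀ j, j < 36280 → GoodG.{u} par (db j)) : ∀ j, j < 36432 → GoodG.{u} par (db j) := by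
  have h11951 := checkRangeG_sound parWF r2 pf11950 h11950
  have h11952 := checkRangeG_sound parWF r2 pf11951 h11951
  have h11953 := checkRangeG_sound parWF r2 pf11952 h11952
  have h11954 := checkRangeG_sound parWF r2 pf11953 h11953
  have h11955 := checkRangeG_sound parWF r2 pf11954 h11954
  have h11956 := checkRangeG_sound parWF r2 pf11955 h11955
  have h11957 := checkRangeG_sound parWF r2 pf11956 h11956
  have h11958 := checkRangeG_sound parWF r2 pf11957 h11957
  have h11959 := checkRangeG_sound parWF r2 pf11958 h11958
  have h11960 := checkRangeG_sound parWF r2 pf11959 h11959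
  have h11961 := checkRangeG_sound parWF r2 pf11960 h11960
  have h11962 := checkRangeG_sound parWF r2 pf11961 h11961
  have h11963 := checkRangeG_sound parWF r2 pf11962 h11962
  have h11964 := checkRangeG_sound parWF r2 pf11963 h11963
  have h11965 := checkRangeG_sound parWF r2 pf11964 h11964
  have h11966 := checkRangeG_sound parWF r2 pf11965 h11965
  have h11967 := checkRangeG_sound parWF r2 pf11966 h11966
  have h11968 := checkRangeG_sound parWF r2 pf11967 h11967
  have h11969 := checkRangeG_sound parWF r2 pf11968 h11968
  have h11970 := checkRangeG_sound parWF r2 pf11969 h11969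
  have h11971 := checkRangeG_sound parWF r2 pf11970 h11970
  have h11972 := checkRangeG_sound parWF r2 pf11971 h11971
  have h11973 := checkRangeG_sound parWF r2 pf11972 h11972
  have h11974 := checkRangeG_sound parWF r2 pf11973 h11973
  have h11975 := checkRangeG_sound parWF r2 pf11974 h11974
  have h11976 := checkRangeG_sound parWF r2 pf11975 h11975
  have h11977 := checkRangeG_sound parWF r2 pf11976 h11976
  have h11978 := checkRangeG_sound parWF r2 pf11977 h11977
  have h11979 := checkRangeG_sound parWF r2 pf11978 h11978
  have h11980 := checkRangeG_sound parWF r2 pf11979 h11979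
  have h11981 := checkRangeG_sound parWF r2 pf11980 h11980
  have h11982 := checkRangeG_sound parWF r2 pf11981 h11981
  have h11983 := checkRangeG_sound parWF r2 pf11982 h11982
  have h11984 := checkRangeG_sound parWF r2 pf11983 h11983
  have h11985 := checkRangeG_sound parWF r2 pf11984 h11984
  have h11986 := checkRangeG_sound parWF r2 pf11985 h11985
  have h11987 := checkRangeG_sound parWF r2 pf11986 h11986
  have h11988 := checkRangeG_sound parWF r2 pf11987 h11987
  have h11989 := checkRangeG_sound parWF r2 pf11988 h11988
  have h11990 := checkRangeG_sound parWF r2 pf11989 h11989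
  have h11991 := checkRangeG_sound parWF r2 pf11990 h11990
  have h11992 := checkRangeG_sound parWF r2 pf11991 h11991
  have h11993 := checkRangeG_sound parWF r2 pf11992 h11992
  have h11994 := checkRangeG_sound parWF r2 pf11993 h11993
  have h11995 := checkRangeG_sound parWF r2 pf11994 h11994
  have h11996 := checkRangeG_sound parWF r2 pf11995 h11995
  have h11997 := checkRangeG_sound parWF r2 pf11996 h11996
  have h11998 := checkRangeG_sound parWF r2 pf11997 h11997
  have h11999 := checkRangeG_sound parWF r2 pf11998 h11998
  have h12000 := checkRangeG_sound parWF r2 pf11999 h11999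
  exact h12000


end Vale.Agent.P045g.C61
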