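import Vale.Agent.P045g.C61.WF
import Vale.Agent.P045g.C61.Pf20
import Vale.Agent.P045g.C61.Pf21
import Vale.Agent.P045g.C61.Pf22
import Vale.Agent.P045g.C61.Pf23
import Vale.Agent.P045g.C61.Pf24
import Vale.Agent.P045g.C61.Pf25
import Vale.Agent.P045g.C61.Pf26
import Vale.Agent.P045g.C61.Pf27
import Vale.Agent.P045g.C61.Pf28
import Vale.Agent.P045g.C61.Pf29

namespace Vale.Agent.P045g.C61

open Vale.Agent.P045b Vale.Agent.P045g

universe u

theorem c24 (h1200 : ∀ j, j < 3371 → GoodG.{u} par (db j)) : ∀ j, j < 3545 → GoodG.{u} par (db j) := by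
  have h1201 := checkRangeG_sound parWF r2 pf1200 h1200
  have h1202 := checkRangeG_sound parWF r2 pf1201 h1201
  have h1203 := checkRangeG_sound parWF r2 pf1202 h1202
  have h1204 := checkRangeG_sound parWF r2 pf1203 h1203
  have h1205 := checkRangeG_sound parWF r2 pf1204 h1204
  have h1206 := checkRangeG_sound parWF r2 pf1205 h1205
  have h1207 := checkRangeG_sound parWF r2 pf1206 h1206
  have h1208 := checkRangeG_sound parWF r2 pf1207 h1207
  have h1209 := checkRangeG_sound parWF r2 pf1208 h1208
  have h1210 := checkRangeG_sound parWF r2 pf1209 h1209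
  have h1211 := checkRangeG_sound parWF r2 pf1210 h1210
  have h1212 := checkRangeG_sound parWF r2 pf1211 h1211
  have h1213 := checkRangeG_sound parWF r2 pf1212 h1212
  have h1214 := checkRangeG_sound parWF r2 pf1213 h1213
  have h1215 := checkRangeG_sound parWF r2 pf1214 h1214
  have h1216 := checkRangeG_sound parWF r2 pf1215 h1215
  have h1217 := checkRangeG_sound parWF r2 pf1216 h1216
  have h1218 := checkRangeG_sound parWF r2 pf1217 h1217
  have h1219 := checkRangeG_sound parWF r2 pf1218 h1218
  have h1220 := checkRangeG_sound parWF r2 pf1219 h1219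
  have h1221 := checkRangeG_sound parWF r2 pf1220 h1220
  have h1222 := checkRangeG_sound parWF r2 pf1221 h1221
  have h1223 := checkRangeG_sound parWF r2 pf1222 h1222
  have h1224 := checkRangeG_sound parWF r2 pf1223 h1223
  have h1225 := checkRangeG_sound parWF r2 pf1224 h1224
  have h1226 := checkRangeG_sound parWF r2 pf1225 h1225
  have h1227 := checkRangeG_sound parWF r2 pf1226 h1226
  have h1228 := checkRangeG_sound parWF r2 pf1227 h1227
  have h1229 := checkRangeG_sound parWF r2 pf1228 h1228
  have h1230 := checkRangeG_sound parWF r2 pf1229 h1229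
  have h1231 := checkRangeG_sound parWF r2 pf1230 h1230
  have h1232 := checkRangeG_sound parWF r2 pf1231 h1231
  have h1233 := checkRangeG_sound parWF r2 pf1232 h1232
  have h1234 := checkRangeG_sound parWF r2 pf1233 h1233
  have h1235 := checkRangeG_sound parWF r2 pf1234 h1234
  have h1236 := checkRangeG_sound parWF r2 pf1235 h1235
  have h1237 := checkRangeG_sound parWF r2 pf1236 h1236
  have h1238 := checkRangeG_sound parWF r2 pf1237 h1237
  have h1239 := checkRangeG_sound parWF r2 pf1238 h1238
  have h1240 := checkRangeG_sound parWF r2 pf1239 h1239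
  have h1241 := checkRangeG_sound parWF r2 pf1240 h1240
  have h1242 := checkRangeG_sound parWF r2 pf1241 h1241
  have h1243 := checkRangeG_sound parWF r2 pf1242 h1242
  have h1244 := checkRangeG_sound parWF r2 pf1243 h1243
  have h1245 := checkRangeG_sound parWF r2 pf1244 h1244
  have h1246 := checkRangeG_sound parWF r2 pf1245 h1245
  have h1247 := checkRangeG_sound parWF r2 pf1246 h1246
  have h1248 := checkRangeG_sound parWF r2 pf1247 h1247
  have h1249 := checkRangeG_sound parWF r2 pf1248 h1248
  have h1250 := checkRangeG_sound parWF r2 pf1249 h1249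
  exact h1250

theorem c25 (h1250 : ∀ j, j < 3545 → GoodG.{u} par (db j)) : ∀ j, j < 3710 → GoodG.{u} par (db j) := by
  have h1251 := checkRangeG_sound parWF r2 pf1250 h1250
  have h1252 := checkRangeG_sound parWF r2 pf1251 h1251
  have h1253 := checkRangeG_sound parWF r2 pf1252 h1252
  have h1254 := checkRangeG_sound parWF r2 pf1253 h1253
  have h1255 := checkRangeG_sound parWF r2 pf1254 h1254
  have h1256 := checkRangeG_sound parWF r2 pf1255 h1255
  have h1257 := checkRangeG_sound parWF r2 pf1256 h1256
  have h1258 := checkRangeG_sound parWF r2 pf1257 h1257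
  have h1259 := checkRangeG_sound parWF r2 pf1258 h1258
  have h1260 := checkRangeG_sound parWF r2 pf1259 h1259
  have h1261 := checkRangeG_sound parWF r2 pf1260 h1260
  have h1262 := checkRangeG_sound parWF r2 pf1261 h1261
  have h1263 := checkRangeG_sound parWF r2 pf1262 h1262
  have h1264 := checkRangeG_sound parWF r2 pf1263 h1263
  have h1265 := checkRangeG_sound parWF r2 pf1264 h1264
  have h1266 := checkRangeG_sound parWF r2 pf1265 h1265
  have h1267 := checkRangeG_sound parWF r2 pf1266 h1266
  have h1268 := checkRangeG_sound parWF r2 pf1267 h1267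
  have h1269 := checkRangeG_sound parWF r2 pf1268 h1268
  have h1270 := checkRangeG_sound parWF r2 pf1269 h1269
  have h1271 := checkRangeG_sound parWF r2 pf1270 h1270
  have h1272 := checkRangeG_sound parWF r2 pf1271 h1271
  have h1273 := checkRangeG_sound parWF r2 pf1272 h1272
  have h1274 := checkRangeG_sound parWF r2 pf1273 h1273
  have h1275 := checkRangeG_sound parWF r2 pf1274 h1274
  have h1276 := checkRangeG_sound parWF r2 pf1275 h1275
  have h1277 := checkRangeG_sound parWF r2 pf1276 h1276
  have h1278 := checkRangeG_sound parWF r2 pf1277 h1277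
  have h1279 := checkRangeG_sound parWF r2 pf1278 h1278
  have h1280 := checkRangeG_sound parWF r2 pf1279 h1279
  have h1281 := checkRangeG_sound parWF r2 pf1280 h1280
  have h1282 := checkRangeG_sound parWF r2 pf1281 h1281
  have h1283 := checkRangeG_sound parWF r2 pf1282 h1282
  have h1284 := checkRangeG_sound parWF r2 pf1283 h1283
  have h1285 := checkRangeG_sound parWF r2 pf1284 h1284
  have h1286 := checkRangeG_sound parWF r2 pf1285 h1285
  have h1287 := checkRangeG_sound parWF r2 pf1286 h1286
  have h1288 := checkRangeG_sound parWF r2 pf1287 h1287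
  have h1289 := checkRangeG_sound parWF r2 pf1288 h1288
  have h1290 := checkRangeG_sound parWF r2 pf1289 h1289
  have h1291 := checkRangeG_sound parWF r2 pf1290 h1290
  have h1292 := checkRangeG_sound parWF r2 pf1291 h1291
  have h1293 := checkRangeG_sound parWF r2 pf1292 h1292
  have h1294 := checkRangeG_sound parWF r2 pf1293 h1293
  have h1295 := checkRangeG_sound parWF r2 pf1294 h1294
  have h1296 := checkRangeG_sound parWF r2 pf1295 h1295
  have h1297 := checkRangeG_sound parWF r2 pf1296 h1296
  have h1298 := checkRangeG_sound parWF r2 pf1297 h1297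
  have h1299 := checkRangeG_sound parWF r2 pf1298 h1298
  have h1300 := checkRangeG_sound parWF r2 pf1299 h1299
  exact h1300

theorem c26 (h1300 : ∀ j, j < 3710 → GoodG.{u} par (db j)) : ∀ j, j < 3856 → GoodG.{u} par (db j) := by
  have h1301 := checkRangeG_sound parWF r2 pf1300 h1300
  have h1302 := checkRangeG_sound parWF r2 pf1301 h1301
  have h1303 := checkRangeG_sound parWF r2 pf1302 h1302
  have h1304 := checkRangeG_sound parWF r2 pf1303 h1303
  have h1305 := checkRangeG_sound parWF r2 pf1304 h1304
  have h1306 := checkRangeG_sound parWF r2 pf1305 h1305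
  have h1307 := checkRangeG_sound parWF r2 pf1306 h1306
  have h1308 := checkRangeG_sound parWF r2 pf1307 h1307
  have h1309 := checkRangeG_sound parWF r2 pf1308 h1308
  have h1310 := checkRangeG_sound parWF r2 pf1309 h1309
  have h1311 := checkRangeG_sound parWF r2 pf1310 h1310
  have h1312 := checkRangeG_sound parWF r2 pf1311 h1311
  have h1313 := checkRangeG_sound parWF r2 pf1312 h1312
  have h1314 := checkRangeG_sound parWF r2 pf1313 h1313
  have h1315 := checkRangeG_sound parWF r2 pf1314 h1314
  have h1316 := checkRangeG_sound parWF r2 pf1315 h1315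
  have h1317 := checkRangeG_sound parWF r2 pf1316 h1316
  have h1318 := checkRangeG_sound parWF r2 pf1317 h1317
  have h1319 := checkRangeG_sound parWF r2 pf1318 h1318
  have h1320 := checkRangeG_sound parWF r2 pf1319 h1319
  have h1321 := checkRangeG_sound parWF r2 pf1320 h1320
  have h1322 := checkRangeG_sound parWF r2 pf1321 h1321
  have h1323 := checkRangeG_sound parWF r2 pf1322 h1322
  have h1324 := checkRangeG_sound parWF r2 pf1323 h1323
  have h1325 := checkRangeG_sound parWF r2 pf1324 h1324
  have h1326 := checkRangeG_sound parWF r2 pf1325 h1325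
  have h1327 := checkRangeG_sound parWF r2 pf1326 h1326
  have h1328 := checkRangeG_sound parWF r2 pf1327 h1327
  have h1329 := checkRangeG_sound parWF r2 pf1328 h1328
  have h1330 := checkRangeG_sound parWF r2 pf1329 h1329
  have h1331 := checkRangeG_sound parWF r2 pf1330 h1330
  have h1332 := checkRangeG_sound parWF r2 pf1331 h1331
  have h1333 := checkRangeG_sound parWF r2 pf1332 h1332
  have h1334 := checkRangeG_sound parWF r2 pf1333 h1333
  have h1335 := checkRangeG_sound parWF r2 pf1334 h1334
  have h1336 := checkRangeG_sound parWF r2 pf1335 h1335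
  have h1337 := checkRangeG_sound parWF r2 pf1336 h1336
  have h1338 := checkRangeG_sound parWF r2 pf1337 h1337
  have h1339 := checkRangeG_sound parWF r2 pf1338 h1338
  have h1340 := checkRangeG_sound parWF r2 pf1339 h1339
  have h1341 := checkRangeG_sound parWF r2 pf1340 h1340
  have h1342 := checkRangeG_sound parWF r2 pf1341 h1341
  have h1343 := checkRangeG_sound parWF r2 pf1342 h1342
  have h1344 := checkRangeG_sound parWF r2 pf1343 h1343
  have h1345 := checkRangeG_sound parWF r2 pf1344 h1344
  have h1346 := checkRangeG_sound parWF r2 pf1345 h1345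
  have h1347 := checkRangeG_sound parWF r2 pf1346 h1346
  have h1348 := checkRangeG_sound parWF r2 pf1347 h1347
  have h1349 := checkRangeG_sound parWF r2 pf1348 h1348
  have h1350 := checkRangeG_sound parWF r2 pf1349 h1349
  exact h1350

theorem c27 (h1350 : ∀ j, j < 3856 → GoodG.{u} par (db j)) : ∀ j, j < 3982 → GoodG.{u} par (db j) := by
  have h1351 := checkRangeG_sound parWF r2 pf1350 h1350
  have h1352 := checkRangeG_sound parWF r2 pf1351 h1351
  have h1353 := checkRangeG_sound parWF r2 pf1352 h1352
  have h1354 := checkRangeG_sound parWF r2 pf1353 h1353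
  have h1355 := checkRangeG_sound parWF r2 pf1354 h1354
  have h1356 := checkRangeG_sound parWF r2 pf1355 h1355
  have h1357 := checkRangeG_sound parWF r2 pf1356 h1356
  have h1358 := checkRangeG_sound parWF r2 pf1357 h1357
  have h1359 := checkRangeG_sound parWF r2 pf1358 h1358
  have h1360 := checkRangeG_sound parWF r2 pf1359 h1359
  have h1361 := checkRangeG_sound parWF r2 pf1360 h1360
  have h1362 := checkRangeG_sound parWF r2 pf1361 h1361
  have h1363 := checkRangeG_sound parWF r2 pf1362 h1362
  have h1364 := checkRangeG_sound parWF r2 pf1363 h1363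
  have h1365 := checkRangeG_sound parWF r2 pf1364 h1364
  have h1366 := checkRangeG_sound parWF r2 pf1365 h1365
  have h1367 := checkRangeG_sound parWF r2 pf1366 h1366
  have h1368 := checkRangeG_sound parWF r2 pf1367 h1367
  have h1369 := checkRangeG_sound parWF r2 pf1368 h1368
  have h1370 := checkRangeG_sound parWF r2 pf1369 h1369
  have h1371 := checkRangeG_sound parWF r2 pf1370 h1370
  have h1372 := checkRangeG_sound parWF r2 pf1371 h1371
  have h1373 := checkRangeG_sound parWF r2 pf1372 h1372
  have h1374 := checkRangeG_sound parWF r2 pf1373 h1373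
  have h1375 := checkRangeG_sound parWF r2 pf1374 h1374
  have h1376 := checkRangeG_sound parWF r2 pf1375 h1375
  have h1377 := checkRangeG_sound parWF r2 pf1376 h1376
  have h1378 := checkRangeG_sound parWF r2 pf1377 h1377
  have h1379 := checkRangeG_sound parWF r2 pf1378 h1378
  have h1380 := checkRangeG_sound parWF r2 pf1379 h1379
  have h1381 := checkRangeG_sound parWF r2 pf1380 h1380
  have h1382 := checkRangeG_sound parWF r2 pf1381 h1381
  have h1383 := checkRangeG_sound parWF r2 pf1382 h1382
  have h1384 := checkRangeG_sound parWF r2 pf1383 h1383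
  have h1385 := checkRangeG_sound parWF r2 pf1384 h1384
  have h1386 := checkRangeG_sound parWF r2 pf1385 h1385
  have h1387 := checkRangeG_sound parWF r2 pf1386 h1386
  have h1388 := checkRangeG_sound parWF r2 pf1387 h1387
  have h1389 := checkRangeG_sound parWF r2 pf1388 h1388
  have h1390 := checkRangeG_sound parWF r2 pf1389 h1389
  have h1391 := checkRangeG_sound parWF r2 pf1390 h1390
  have h1392 := checkRangeG_sound parWF r2 pf1391 h1391
  have h1393 := checkRangeG_sound parWF r2 pf1392 h1392
  have h1394 := checkRangeG_sound parWF r2 pf1393 h1393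
  have h1395 := checkRangeG_sound parWF r2 pf1394 h1394
  have h1396 := checkRangeG_sound parWF r2 pf1395 h1395
  have h1397 := checkRangeG_sound parWF r2 pf1396 h1396
  have h1398 := checkRangeG_sound parWF r2 pf1397 h1397
  have h1399 := checkRangeG_sound parWF r2 pf1398 h1398
  have h1400 := checkRangeG_sound parWF r2 pf1399 h1399
  exact h1400

theorem c28 (h1400 : ∀ j, j < 3982 → GoodG.{u} par (db j)) : ∀ j, j < 4137 → GoodG.{u} par (db j) := by
  have h1401 := checkRangeG_sound parWF r2 pf1400 h1400
  have h1402 := checkRangeG_sound parWF r2 pf1401 h1401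
  have h1403 := checkRangeG_sound parWF r2 pf1402 h1402
  have h1404 := checkRangeG_sound parWF r2 pf1403 h1403
  have h1405 := checkRangeG_sound parWF r2 pf1404 h1404
  have h1406 := checkRangeG_sound parWF r2 pf1405 h1405
  have h1407 := checkRangeG_sound parWF r2 pf1406 h1406
  have h1408 := checkRangeG_sound parWF r2 pf1407 h1407
  have h1409 := checkRangeG_sound parWF r2 pf1408 h1408
  have h1410 := checkRangeG_sound parWF r2 pf1409 h1409
  have h1411 := checkRangeG_sound parWF r2 pf1410 h1410
  have h1412 := checkRangeG_sound parWF r2 pf1411 h1411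
  have h1413 := checkRangeG_sound parWF r2 pf1412 h1412
  have h1414 := checkRangeG_sound parWF r2 pf1413 h1413
  have h1415 := checkRangeG_sound parWF r2 pf1414 h1414
  have h1416 := checkRangeG_sound parWF r2 pf1415 h1415
  have h1417 := checkRangeG_sound parWF r2 pf1416 h1416
  have h1418 := checkRangeG_sound parWF r2 pf1417 h1417
  have h1419 := checkRangeG_sound parWF r2 pf1418 h1418
  have h1420 := checkRangeG_sound parWF r2 pf1419 h1419
  have h1421 := checkRangeG_sound parWF r2 pf1420 h1420
  have h1422 := checkRangeG_sound parWF r2 pf1421 h1421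
  have h1423 := checkRangeG_sound parWF r2 pf1422 h1422
  have h1424 := checkRangeG_sound parWF r2 pf1423 h1423
  have h1425 := checkRangeG_sound parWF r2 pf1424 h1424
  have h1426 := checkRangeG_sound parWF r2 pf1425 h1425
  have h1427 := checkRangeG_sound parWF r2 pf1426 h1426
  have h1428 := checkRangeG_sound parWF r2 pf1427 h1427
  have h1429 := checkRangeG_sound parWF r2 pf1428 h1428
  have h1430 := checkRangeG_sound parWF r2 pf1429 h1429
  have h1431 := checkRangeG_sound parWF r2 pf1430 h1430
  have h1432 := checkRangeG_sound parWF r2 pf1431 h1431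
  have h1433 := checkRangeG_sound parWF r2 pf1432 h1432
  have h1434 := checkRangeG_sound parWF r2 pf1433 h1433
  have h1435 := checkRangeG_sound parWF r2 pf1434 h1434
  have h1436 := checkRangeG_sound parWF r2 pf1435 h1435
  have h1437 := checkRangeG_sound parWF r2 pf1436 h1436
  have h1438 := checkRangeG_sound parWF r2 pf1437 h1437
  have h1439 := checkRangeG_sound parWF r2 pf1438 h1438
  have h1440 := checkRangeG_sound parWF r2 pf1439 h1439
  have h1441 := checkRangeG_sound parWF r2 pf1440 h1440
  have h1442 := checkRangeG_sound parWF r2 pf1441 h1441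
  have h1443 := checkRangeG_sound parWF r2 pf1442 h1442
  have h1444 := checkRangeG_sound parWF r2 pf1443 h1443
  have h1445 := checkRangeG_sound parWF r2 pf1444 h1444
  have h1446 := checkRangeG_sound parWF r2 pf1445 h1445
  have h1447 := checkRangeG_sound parWF r2 pf1446 h1446
  have h1448 := checkRangeG_sound parWF r2 pf1447 h1447
  have h1449 := checkRangeG_sound parWF r2 pf1448 h1448
  have h1450 := checkRangeG_sound parWF r2 pf1449 h1449
  exact h1450

theorem c29 (h1450 : ∀ j, j < 4137 → GoodG.{u} par (db j)) : ∀ j, j < 4292 → GoodG.{u} par (db j) := by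
  have h1451 := checkRangeG_sound parWF r2 pf1450 h1450
  have h1452 := checkRangeG_sound parWF r2 pf1451 h1451
  have h1453 := checkRangeG_sound parWF r2 pf1452 h1452
  have h1454 := checkRangeG_sound parWF r2 pf1453 h1453
  have h1455 := checkRangeG_sound parWF r2 pf1454 h1454
  have h1456 := checkRangeG_sound parWF r2 pf1455 h1455
  have h1457 := checkRangeG_sound parWF r2 pf1456 h1456
  have h1458 := checkRangeG_sound parWF r2 pf1457 h1457
  have h1459 := checkRangeG_sound parWF r2 pf1458 h1458
  have h1460 := checkRangeG_sound parWF r2 pf1459 h1459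
  have h1461 := checkRangeG_sound parWF r2 pf1460 h1460
  have h1462 := checkRangeG_sound parWF r2 pf1461 h1461
  have h1463 := checkRangeG_sound parWF r2 pf1462 h1462
  have h1464 := checkRangeG_sound parWF r2 pf1463 h1463
  have h1465 := checkRangeG_sound parWF r2 pf1464 h1464
  have h1466 := checkRangeG_sound parWF r2 pf1465 h1465
  have h1467 := checkRangeG_sound parWF r2 pf1466 h1466
  have h1468 := checkRangeG_sound parWF r2 pf1467 h1467
  have h1469 := checkRangeG_sound parWF r2 pf1468 h1468
  have h1470 := checkRangeG_sound parWF r2 pf1469 h1469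
  have h1471 := checkRangeG_sound parWF r2 pf1470 h1470
  have h1472 := checkRangeG_sound parWF r2 pf1471 h1471
  have h1473 := checkRangeG_sound parWF r2 pf1472 h1472
  have h1474 := checkRangeG_sound parWF r2 pf1473 h1473
  have h1475 := checkRangeG_sound parWF r2 pf1474 h1474
  have h1476 := checkRangeG_sound parWF r2 pf1475 h1475
  have h1477 := checkRangeG_sound parWF r2 pf1476 h1476
  have h1478 := checkRangeG_sound parWF r2 pf1477 h1477
  have h1479 := checkRangeG_sound parWF r2 pf1478 h1478
  have h1480 := checkRangeG_sound parWF r2 pf1479 h1479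
  have h1481 := checkRangeG_sound parWF r2 pf1480 h1480
  have h1482 := checkRangeG_sound parWF r2 pf1481 h1481
  have h1483 := checkRangeG_sound parWF r2 pf1482 h1482
  have h1484 := checkRangeG_sound parWF r2 pf1483 h1483
  have h1485 := checkRangeG_sound parWF r2 pf1484 h1484
  have h1486 := checkRangeG_sound parWF r2 pf1485 h1485
  have h1487 := checkRangeG_sound parWF r2 pf1486 h1486
  have h1488 := checkRangeG_sound parWF r2 pf1487 h1487
  have h1489 := checkRangeG_sound parWF r2 pf1488 h1488
  have h1490 := checkRangeG_sound parWF r2 pf1489 h1489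
  have h1491 := checkRangeG_sound parWF r2 pf1490 h1490
  have h1492 := checkRangeG_sound parWF r2 pf1491 h1491
  have h1493 := checkRangeG_sound parWF r2 pf1492 h1492
  have h1494 := checkRangeG_sound parWF r2 pf1493 h1493
  have h1495 := checkRangeG_sound parWF r2 pf1494 h1494
  have h1496 := checkRangeG_sound parWF r2 pf1495 h1495
  have h1497 := checkRangeG_sound parWF r2 pf1496 h1496
  have h1498 := checkRangeG_sound parWF r2 pf1497 h1497
  have h1499 := checkRangeG_sound parWF r2 pf1498 h1498
  have h1500 := checkRangeG_sound parWF r2 pf1499 h1499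
  exact h1500

theorem c30 (h1500 : ∀ j, j < 4292 → GoodG.{u} par (db j)) : ∀ j, j < 4440 → GoodG.{u} par (db j) := by
  have h1501 := checkRangeG_sound parWF r2 pf1500 h1500
  have h1502 := checkRangeG_sound parWF r2 pf1501 h1501
  have h1503 := checkRangeG_sound parWF r2 pf1502 h1502
  have h1504 := checkRangeG_sound parWF r2 pf1503 h1503
  have h1505 := checkRangeG_sound parWF r2 pf1504 h1504
  have h1506 := checkRangeG_sound parWF r2 pf1505 h1505
  have h1507 := checkRangeG_sound parWF r2 pf1506 h1506
  have h1508 := checkRangeG_sound parWF r2 pf1507 h1507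
  have h1509 := checkRangeG_sound parWF r2 pf1508 h1508
  have h1510 := checkRangeG_sound parWF r2 pf1509 h1509
  have h1511 := checkRangeG_sound parWF r2 pf1510 h1510
  have h1512 := checkRangeG_sound parWF r2 pf1511 h1511
  have h1513 := checkRangeG_sound parWF r2 pf1512 h1512
  have h1514 := checkRangeG_sound parWF r2 pf1513 h1513
  have h1515 := checkRangeG_sound parWF r2 pf1514 h1514
  have h1516 := checkRangeG_sound parWF r2 pf1515 h1515
  have h1517 := checkRangeG_sound parWF r2 pf1516 h1516
  have h1518 := checkRangeG_sound parWF r2 pf1517 h1517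
  have h1519 := checkRangeG_sound parWF r2 pf1518 h1518
  have h1520 := checkRangeG_sound parWF r2 pf1519 h1519
  have h1521 := checkRangeG_sound parWF r2 pf1520 h1520
  have h1522 := checkRangeG_sound parWF r2 pf1521 h1521
  have h1523 := checkRangeG_sound parWF r2 pf1522 h1522
  have h1524 := checkRangeG_sound parWF r2 pf1523 h1523
  have h1525 := checkRangeG_sound parWF r2 pf1524 h1524
  have h1526 := checkRangeG_sound parWF r2 pf1525 h1525
  have h1527 := checkRangeG_sound parWF r2 pf1526 h1526
  have h1528 := checkRangeG_sound parWF r2 pf1527 h1527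
  have h1529 := checkRangeG_sound parWF r2 pf1528 h1528
  have h1530 := checkRangeG_sound parWF r2 pf1529 h1529
  have h1531 := checkRangeG_sound parWF r2 pf1530 h1530
  have h1532 := checkRangeG_sound parWF r2 pf1531 h1531
  have h1533 := checkRangeG_sound parWF r2 pf1532 h1532
  have h1534 := checkRangeG_sound parWF r2 pf1533 h1533
  have h1535 := checkRangeG_sound parWF r2 pf1534 h1534
  have h1536 := checkRangeG_sound parWF r2 pf1535 h1535
  have h1537 := checkRangeG_sound parWF r2 pf1536 h1536
  have h1538 := checkRangeG_sound parWF r2 pf1537 h1537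
  have h1539 := checkRangeG_sound parWF r2 pf1538 h1538
  have h1540 := checkRangeG_sound parWF r2 pf1539 h1539
  have h1541 := checkRangeG_sound parWF r2 pf1540 h1540
  have h1542 := checkRangeG_sound parWF r2 pf1541 h1541
  have h1543 := checkRangeG_sound parWF r2 pf1542 h1542
  have h1544 := checkRangeG_sound parWF r2 pf1543 h1543
  have h1545 := checkRangeG_sound parWF r2 pf1544 h1544
  have h1546 := checkRangeG_sound parWF r2 pf1545 h1545
  have h1547 := checkRangeG_sound parWF r2 pf1546 h1546
  have h1548 := checkRangeG_sound parWF r2 pf1547 h1547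
  have h1549 := checkRangeG_sound parWF r2 pf1548 h1548
  have h1550 := checkRangeG_sound parWF r2 pf1549 h1549
  exact h1550

theorem c31 (h1550 : ∀ j, j < 4440 → GoodG.{u} par (db j)) : ∀ j, j < 4576 → GoodG.{u} par (db j) := by
  have h1551 := checkRangeG_sound parWF r2 pf1550 h1550
  have h1552 := checkRangeG_sound parWF r2 pf1551 h1551
  have h1553 := checkRangeG_sound parWF r2 pf1552 h1552
  have h1554 := checkRangeG_sound parWF r2 pf1553 h1553
  have h1555 := checkRangeG_sound parWF r2 pf1554 h1554
  have h1556 := checkRangeG_sound parWF r2 pf1555 h1555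
  have h1557 := checkRangeG_sound parWF r2 pf1556 h1556
  have h1558 := checkRangeG_sound parWF r2 pf1557 h1557
  have h1559 := checkRangeG_sound parWF r2 pf1558 h1558
  have h1560 := checkRangeG_sound parWF r2 pf1559 h1559
  have h1561 := checkRangeG_sound parWF r2 pf1560 h1560
  have h1562 := checkRangeG_sound parWF r2 pf1561 h1561
  have h1563 := checkRangeG_sound parWF r2 pf1562 h1562
  have h1564 := checkRangeG_sound parWF r2 pf1563 h1563
  have h1565 := checkRangeG_sound parWF r2 pf1564 h1564
  have h1566 := checkRangeG_sound parWF r2 pf1565 h1565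
  have h1567 := checkRangeG_sound parWF r2 pf1566 h1566
  have h1568 := checkRangeG_sound parWF r2 pf1567 h1567
  have h1569 := checkRangeG_sound parWF r2 pf1568 h1568
  have h1570 := checkRangeG_sound parWF r2 pf1569 h1569
  have h1571 := checkRangeG_sound parWF r2 pf1570 h1570
  have h1572 := checkRangeG_sound parWF r2 pf1571 h1571
  have h1573 := checkRangeG_sound parWF r2 pf1572 h1572
  have h1574 := checkRangeG_sound parWF r2 pf1573 h1573
  have h1575 := checkRangeG_sound parWF r2 pf1574 h1574
  have h1576 := checkRangeG_sound parWF r2 pf1575 h1575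
  have h1577 := checkRangeG_sound parWF r2 pf1576 h1576
  have h1578 := checkRangeG_sound parWF r2 pf1577 h1577
  have h1579 := checkRangeG_sound parWF r2 pf1578 h1578
  have h1580 := checkRangeG_sound parWF r2 pf1579 h1579
  have h1581 := checkRangeG_sound parWF r2 pf1580 h1580
  have h1582 := checkRangeG_sound parWF r2 pf1581 h1581
  have h1583 := checkRangeG_sound parWF r2 pf1582 h1582
  have h1584 := checkRangeG_sound parWF r2 pf1583 h1583
  have h1585 := checkRangeG_sound parWF r2 pf1584 h1584
  have h1586 := checkRangeG_sound parWF r2 pf1585 h1585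
  have h1587 := checkRangeG_sound parWF r2 pf1586 h1586
  have h1588 := checkRangeG_sound parWF r2 pf1587 h1587
  have h1589 := checkRangeG_sound parWF r2 pf1588 h1588
  have h1590 := checkRangeG_sound parWF r2 pf1589 h1589
  have h1591 := checkRangeG_sound parWF r2 pf1590 h1590
  have h1592 := checkRangeG_sound parWF r2 pf1591 h1591
  have h1593 := checkRangeG_sound parWF r2 pf1592 h1592
  have h1594 := checkRangeG_sound parWF r2 pf1593 h1593
  have h1595 := checkRangeG_sound parWF r2 pf1594 h1594
  have h1596 := checkRangeG_sound parWF r2 pf1595 h1595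
  have h1597 := checkRangeG_sound parWF r2 pf1596 h1596
  have h1598 := checkRangeG_sound parWF r2 pf1597 h1597
  have h1599 := checkRangeG_sound parWF r2 pf1598 h1598
  have h1600 := checkRangeG_sound parWF r2 pf1599 h1599
  exact h1600

theorem c32 (h1600 : ∀ j, j < 4576 → GoodG.{u} par (db j)) : ∀ j, j < 4723 → GoodG.{u} par (db j) := by
  have h1601 := checkRangeG_sound parWF r2 pf1600 h1600
  have h1602 := checkRangeG_sound parWF r2 pf1601 h1601
  have h1603 := checkRangeG_sound parWF r2 pf1602 h1602
  have h1604 := checkRangeG_sound parWF r2 pf1603 h1603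
  have h1605 := checkRangeG_sound parWF r2 pf1604 h1604
  have h1606 := checkRangeG_sound parWF r2 pf1605 h1605
  have h1607 := checkRangeG_sound parWF r2 pf1606 h1606
  have h1608 := checkRangeG_sound parWF r2 pf1607 h1607
  have h1609 := checkRangeG_sound parWF r2 pf1608 h1608
  have h1610 := checkRangeG_sound parWF r2 pf1609 h1609
  have h1611 := checkRangeG_sound parWF r2 pf1610 h1610
  have h1612 := checkRangeG_sound parWF r2 pf1611 h1611
  have h1613 := checkRangeG_sound parWF r2 pf1612 h1612
  have h1614 := checkRangeG_sound parWF r2 pf1613 h1613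
  have h1615 := checkRangeG_sound parWF r2 pf1614 h1614
  have h1616 := checkRangeG_sound parWF r2 pf1615 h1615
  have h1617 := checkRangeG_sound parWF r2 pf1616 h1616
  have h1618 := checkRangeG_sound parWF r2 pf1617 h1617
  have h1619 := checkRangeG_sound parWF r2 pf1618 h1618
  have h1620 := checkRangeG_sound parWF r2 pf1619 h1619
  have h1621 := checkRangeG_sound parWF r2 pf1620 h1620
  have h1622 := checkRangeG_sound parWF r2 pf1621 h1621
  have h1623 := checkRangeG_sound parWF r2 pf1622 h1622
  have h1624 := checkRangeG_sound parWF r2 pf1623 h1623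
  have h1625 := checkRangeG_sound parWF r2 pf1624 h1624
  have h1626 := checkRangeG_sound parWF r2 pf1625 h1625
  have h1627 := checkRangeG_sound parWF r2 pf1626 h1626
  have h1628 := checkRangeG_sound parWF r2 pf1627 h1627
  have h1629 := checkRangeG_sound parWF r2 pf1628 h1628
  have h1630 := checkRangeG_sound parWF r2 pf1629 h1629
  have h1631 := checkRangeG_sound parWF r2 pf1630 h1630
  have h1632 := checkRangeG_sound parWF r2 pf1631 h1631
  have h1633 := checkRangeG_sound parWF r2 pf1632 h1632
  have h1634 := checkRangeG_sound parWF r2 pf1633 h1633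
  have h1635 := checkRangeG_sound parWF r2 pf1634 h1634
  have h1636 := checkRangeG_sound parWF r2 pf1635 h1635
  have h1637 := checkRangeG_sound parWF r2 pf1636 h1636
  have h1638 := checkRangeG_sound parWF r2 pf1637 h1637
  have h1639 := checkRangeG_sound parWF r2 pf1638 h1638
  have h1640 := checkRangeG_sound parWF r2 pf1639 h1639
  have h1641 := checkRangeG_sound parWF r2 pf1640 h1640
  have h1642 := checkRangeG_sound parWF r2 pf1641 h1641
  have h1643 := checkRangeG_sound parWF r2 pf1642 h1642
  have h1644 := checkRangeG_sound parWF r2 pf1643 h1643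
  have h1645 := checkRangeG_sound parWF r2 pf1644 h1644
  have h1646 := checkRangeG_sound parWF r2 pf1645 h1645
  have h1647 := checkRangeG_sound parWF r2 pf1646 h1646
  have h1648 := checkRangeG_sound parWF r2 pf1647 h1647
  have h1649 := checkRangeG_sound parWF r2 pf1648 h1648
  have h1650 := checkRangeG_sound parWF r2 pf1649 h1649
  exact h1650

theorem c33 (h1650 : ∀ j, j < 4723 → GoodG.{u} par (db j)) : ∀ j, j < 4887 → GoodG.{u} par (db j) := by
  have h1651 := checkRangeG_sound parWF r2 pf1650 h1650
  have h1652 := checkRangeG_sound parWF r2 pf1651 h1651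
  have h1653 := checkRangeG_sound parWF r2 pf1652 h1652
  have h1654 := checkRangeG_sound parWF r2 pf1653 h1653
  have h1655 := checkRangeG_sound parWF r2 pf1654 h1654
  have h1656 := checkRangeG_sound parWF r2 pf1655 h1655
  have h1657 := checkRangeG_sound parWF r2 pf1656 h1656
  have h1658 := checkRangeG_sound parWF r2 pf1657 h1657
  have h1659 := checkRangeG_sound parWF r2 pf1658 h1658
  have h1660 := checkRangeG_sound parWF r2 pf1659 h1659
  have h1661 := checkRangeG_sound parWF r2 pf1660 h1660
  have h1662 := checkRangeG_sound parWF r2 pf1661 h1661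
  have h1663 := checkRangeG_sound parWF r2 pf1662 h1662
  have h1664 := checkRangeG_sound parWF r2 pf1663 h1663
  have h1665 := checkRangeG_sound parWF r2 pf1664 h1664
  have h1666 := checkRangeG_sound parWF r2 pf1665 h1665
  have h1667 := checkRangeG_sound parWF r2 pf1666 h1666
  have h1668 := checkRangeG_sound parWF r2 pf1667 h1667
  have h1669 := checkRangeG_sound parWF r2 pf1668 h1668
  have h1670 := checkRangeG_sound parWF r2 pf1669 h1669
  have h1671 := checkRangeG_sound parWF r2 pf1670 h1670
  have h1672 := checkRangeG_sound parWF r2 pf1671 h1671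
  have h1673 := checkRangeG_sound parWF r2 pf1672 h1672
  have h1674 := checkRangeG_sound parWF r2 pf1673 h1673
  have h1675 := checkRangeG_sound parWF r2 pf1674 h1674
  have h1676 := checkRangeG_sound parWF r2 pf1675 h1675
  have h1677 := checkRangeG_sound parWF r2 pf1676 h1676
  have h1678 := checkRangeG_sound parWF r2 pf1677 h1677
  have h1679 := checkRangeG_sound parWF r2 pf1678 h1678
  have h1680 := checkRangeG_sound parWF r2 pf1679 h1679
  have h1681 := checkRangeG_sound parWF r2 pf1680 h1680
  have h1682 := checkRangeG_sound parWF r2 pf1681 h1681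
  have h1683 := checkRangeG_sound parWF r2 pf1682 h1682
  have h1684 := checkRangeG_sound parWF r2 pf1683 h1683
  have h1685 := checkRangeG_sound parWF r2 pf1684 h1684
  have h1686 := checkRangeG_sound parWF r2 pf1685 h1685
  have h1687 := checkRangeG_sound parWF r2 pf1686 h1686
  have h1688 := checkRangeG_sound parWF r2 pf1687 h1687
  have h1689 := checkRangeG_sound parWF r2 pf1688 h1688
  have h1690 := checkRangeG_sound parWF r2 pf1689 h1689
  have h1691 := checkRangeG_sound parWF r2 pf1690 h1690
  have h1692 := checkRangeG_sound parWF r2 pf1691 h1691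
  have h1693 := checkRangeG_sound parWF r2 pf1692 h1692
  have h1694 := checkRangeG_sound parWF r2 pf1693 h1693
  have h1695 := checkRangeG_sound parWF r2 pf1694 h1694
  have h1696 := checkRangeG_sound parWF r2 pf1695 h1695
  have h1697 := checkRangeG_sound parWF r2 pf1696 h1696
  have h1698 := checkRangeG_sound parWF r2 pf1697 h1697
  have h1699 := checkRangeG_sound parWF r2 pf1698 h1698
  have h1700 := checkRangeG_sound parWF r2 pf1699 h1699
  exact h1700

theorem c34 (h1700 : ∀ j, j < 4887 → GoodG.{u} par (db j)) : ∀ j, j < 5071 → GoodG.{u} par (db j) := by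
  have h1701 := checkRangeG_sound parWF r2 pf1700 h1700
  have h1702 := checkRangeG_sound parWF r2 pf1701 h1701
  have h1703 := checkRangeG_sound parWF r2 pf1702 h1702
  have h1704 := checkRangeG_sound parWF r2 pf1703 h1703
  have h1705 := checkRangeG_sound parWF r2 pf1704 h1704
  have h1706 := checkRangeG_sound parWF r2 pf1705 h1705
  have h1707 := checkRangeG_sound parWF r2 pf1706 h1706
  have h1708 := checkRangeG_sound parWF r2 pf1707 h1707
  have h1709 := checkRangeG_sound parWF r2 pf1708 h1708
  have h1710 := checkRangeG_sound parWF r2 pf1709 h1709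
  have h1711 := checkRangeG_sound parWF r2 pf1710 h1710
  have h1712 := checkRangeG_sound parWF r2 pf1711 h1711
  have h1713 := checkRangeG_sound parWF r2 pf1712 h1712
  have h1714 := checkRangeG_sound parWF r2 pf1713 h1713
  have h1715 := checkRangeG_sound parWF r2 pf1714 h1714
  have h1716 := checkRangeG_sound parWF r2 pf1715 h1715
  have h1717 := checkRangeG_sound parWF r2 pf1716 h1716
  have h1718 := checkRangeG_sound parWF r2 pf1717 h1717
  have h1719 := checkRangeG_sound parWF r2 pf1718 h1718
  have h1720 := checkRangeG_sound parWF r2 pf1719 h1719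
  have h1721 := checkRangeG_sound parWF r2 pf1720 h1720
  have h1722 := checkRangeG_sound parWF r2 pf1721 h1721
  have h1723 := checkRangeG_sound parWF r2 pf1722 h1722
  have h1724 := checkRangeG_sound parWF r2 pf1723 h1723
  have h1725 := checkRangeG_sound parWF r2 pf1724 h1724
  have h1726 := checkRangeG_sound parWF r2 pf1725 h1725
  have h1727 := checkRangeG_sound parWF r2 pf1726 h1726
  have h1728 := checkRangeG_sound parWF r2 pf1727 h1727
  have h1729 := checkRangeG_sound parWF r2 pf1728 h1728
  have h1730 := checkRangeG_sound parWF r2 pf1729 h1729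
  have h1731 := checkRangeG_sound parWF r2 pf1730 h1730
  have h1732 := checkRangeG_sound parWF r2 pf1731 h1731
  have h1733 := checkRangeG_sound parWF r2 pf1732 h1732
  have h1734 := checkRangeG_sound parWF r2 pf1733 h1733
  have h1735 := checkRangeG_sound parWF r2 pf1734 h1734
  have h1736 := checkRangeG_sound parWF r2 pf1735 h1735
  have h1737 := checkRangeG_sound parWF r2 pf1736 h1736
  have h1738 := checkRangeG_sound parWF r2 pf1737 h1737
  have h1739 := checkRangeG_sound parWF r2 pf1738 h1738
  have h1740 := checkRangeG_sound parWF r2 pf1739 h1739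
  have h1741 := checkRangeG_sound parWF r2 pf1740 h1740
  have h1742 := checkRangeG_sound parWF r2 pf1741 h1741
  have h1743 := checkRangeG_sound parWF r2 pf1742 h1742
  have h1744 := checkRangeG_sound parWF r2 pf1743 h1743
  have h1745 := checkRangeG_sound parWF r2 pf1744 h1744
  have h1746 := checkRangeG_sound parWF r2 pf1745 h1745
  have h1747 := checkRangeG_sound parWF r2 pf1746 h1746
  have h1748 := checkRangeG_sound parWF r2 pf1747 h1747
  have h1749 := checkRangeG_sound parWF r2 pf1748 h1748
  have h1750 := checkRangeG_sound parWF r2 pf1749 h1749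
  exact h1750

theorem c35 (h1750 : ∀ j, j < 5071 → GoodG.{u} par (db j)) : ∀ j, j < 5231 → GoodG.{u} par (db j) := by
  have h1751 := checkRangeG_sound parWF r2 pf1750 h1750
  have h1752 := checkRangeG_sound parWF r2 pf1751 h1751
  have h1753 := checkRangeG_sound parWF r2 pf1752 h1752
  have h1754 := checkRangeG_sound parWF r2 pf1753 h1753
  have h1755 := checkRangeG_sound parWF r2 pf1754 h1754
  have h1756 := checkRangeG_sound parWF r2 pf1755 h1755
  have h1757 := checkRangeG_sound parWF r2 pf1756 h1756
  have h1758 := checkRangeG_sound parWF r2 pf1757 h1757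
  have h1759 := checkRangeG_sound parWF r2 pf1758 h1758
  have h1760 := checkRangeG_sound parWF r2 pf1759 h1759
  have h1761 := checkRangeG_sound parWF r2 pf1760 h1760
  have h1762 := checkRangeG_sound parWF r2 pf1761 h1761
  have h1763 := checkRangeG_sound parWF r2 pf1762 h1762
  have h1764 := checkRangeG_sound parWF r2 pf1763 h1763
  have h1765 := checkRangeG_sound parWF r2 pf1764 h1764
  have h1766 := checkRangeG_sound parWF r2 pf1765 h1765
  have h1767 := checkRangeG_sound parWF r2 pf1766 h1766
  have h1768 := checkRangeG_sound parWF r2 pf1767 h1767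
  have h1769 := checkRangeG_sound parWF r2 pf1768 h1768
  have h1770 := checkRangeG_sound parWF r2 pf1769 h1769
  have h1771 := checkRangeG_sound parWF r2 pf1770 h1770
  have h1772 := checkRangeG_sound parWF r2 pf1771 h1771
  have h1773 := checkRangeG_sound parWF r2 pf1772 h1772
  have h1774 := checkRangeG_sound parWF r2 pf1773 h1773
  have h1775 := checkRangeG_sound parWF r2 pf1774 h1774
  have h1776 := checkRangeG_sound parWF r2 pf1775 h1775
  have h1777 := checkRangeG_sound parWF r2 pf1776 h1776
  have h1778 := checkRangeG_sound parWF r2 pf1777 h1777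
  have h1779 := checkRangeG_sound parWF r2 pf1778 h1778
  have h1780 := checkRangeG_sound parWF r2 pf1779 h1779
  have h1781 := checkRangeG_sound parWF r2 pf1780 h1780
  have h1782 := checkRangeG_sound parWF r2 pf1781 h1781
  have h1783 := checkRangeG_sound parWF r2 pf1782 h1782
  have h1784 := checkRangeG_sound parWF r2 pf1783 h1783
  have h1785 := checkRangeG_sound parWF r2 pf1784 h1784
  have h1786 := checkRangeG_sound parWF r2 pf1785 h1785
  have h1787 := checkRangeG_sound parWF r2 pf1786 h1786
  have h1788 := checkRangeG_sound parWF r2 pf1787 h1787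
  have h1789 := checkRangeG_sound parWF r2 pf1788 h1788
  have h1790 := checkRangeG_sound parWF r2 pf1789 h1789
  have h1791 := checkRangeG_sound parWF r2 pf1790 h1790
  have h1792 := checkRangeG_sound parWF r2 pf1791 h1791
  have h1793 := checkRangeG_sound parWF r2 pf1792 h1792
  have h1794 := checkRangeG_sound parWF r2 pf1793 h1793
  have h1795 := checkRangeG_sound parWF r2 pf1794 h1794
  have h1796 := checkRangeG_sound parWF r2 pf1795 h1795
  have h1797 := checkRangeG_sound parWF r2 pf1796 h1796
  have h1798 := checkRangeG_sound parWF r2 pf1797 h1797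
  have h1799 := checkRangeG_sound parWF r2 pf1798 h1798
  have h1800 := checkRangeG_sound parWF r2 pf1799 h1799
  exact h1800


end Vale.Agent.P045g.C61
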