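import Vale.Agent.P045g.C61.WF
import Vale.Agent.P045g.C61.Pf200
import Vale.Agent.P045g.C61.Pf201
import Vale.Agent.P045g.C61.Pf202
import Vale.Agent.P045g.C61.Pf203
import Vale.Agent.P045g.C61.Pf204
import Vale.Agent.P045g.C61.Pf205
import Vale.Agent.P045g.C61.Pf206
import Vale.Agent.P045g.C61.Pf207
import Vale.Agent.P045g.C61.Pf208
import Vale.Agent.P045g.C61.Pf209

namespace Vale.Agent.P045g.C61

open Vale.Agent.P045b Vale.Agent.P045g

universe u

theorem c240 (h12000 : ∀ j, j < 36432 → GoodG.{u} par (db j)) : ∀ j, j < 36594 → GoodG.{u} par (db j) := by
  have h12001 := checkRangeG_sound parWF r2 pf12000 h12000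
  have h12002 := checkRangeG_sound parWF r2 pf12001 h12001
  have h12003 := checkRangeG_sound parWF r2 pf12002 h12002
  have h12004 := checkRangeG_sound parWF r2 pf12003 h12003
  have h12005 := checkRangeG_sound parWF r2 pf12004 h12004
  have h12006 := checkRangeG_sound parWF r2 pf12005 h12005
  have h12007 := checkRangeG_sound parWF r2 pf12006 h12006
  have h12008 := checkRangeG_sound parWF r2 pf12007 h12007
  have h12009 := checkRangeG_sound parWF r2 pf12008 h12008
  have h12010 := checkRangeG_sound parWF r2 pf12009 h12009
  have h12011 := checkRangeG_sound parWF r2 pf12010 h12010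
  have h12012 := checkRangeG_sound parWF r2 pf12011 h12011
  have h12013 := checkRangeG_sound parWF r2 pf12012 h12012
  have h12014 := checkRangeG_sound parWF r2 pf12013 h12013
  have h12015 := checkRangeG_sound parWF r2 pf12014 h12014
  have h12016 := checkRangeG_sound parWF r2 pf12015 h12015
  have h12017 := checkRangeG_sound parWF r2 pf12016 h12016
  have h12018 := checkRangeG_sound parWF r2 pf12017 h12017
  have h12019 := checkRangeG_sound parWF r2 pf12018 h12018
  have h12020 := checkRangeG_sound parWF r2 pf12019 h12019
  have h12021 := checkRangeG_sound parWF r2 pf12020 h12020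
  have h12022 := checkRangeG_sound parWF r2 pf12021 h12021
  have h12023 := checkRangeG_sound parWF r2 pf12022 h12022
  have h12024 := checkRangeG_sound parWF r2 pf12023 h12023
  have h12025 := checkRangeG_sound parWF r2 pf12024 h12024
  have h12026 := checkRangeG_sound parWF r2 pf12025 h12025
  have h12027 := checkRangeG_sound parWF r2 pf12026 h12026
  have h12028 := checkRangeG_sound parWF r2 pf12027 h12027
  have h12029 := checkRangeG_sound parWF r2 pf12028 h12028
  have h12030 := checkRangeG_sound parWF r2 pf12029 h12029
  have h12031 := checkRangeG_sound parWF r2 pf12030 h12030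
  have h12032 := checkRangeG_sound parWF r2 pf12031 h12031
  have h12033 := checkRangeG_sound parWF r2 pf12032 h12032
  have h12034 := checkRangeG_sound parWF r2 pf12033 h12033
  have h12035 := checkRangeG_sound parWF r2 pf12034 h12034
  have h12036 := checkRangeG_sound parWF r2 pf12035 h12035
  have h12037 := checkRangeG_sound parWF r2 pf12036 h12036
  have h12038 := checkRangeG_sound parWF r2 pf12037 h12037
  have h12039 := checkRangeG_sound parWF r2 pf12038 h12038
  have h12040 := checkRangeG_sound parWF r2 pf12039 h12039
  have h12041 := checkRangeG_sound parWF r2 pf12040 h12040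
  have h12042 := checkRangeG_sound parWF r2 pf12041 h12041
  have h12043 := checkRangeG_sound parWF r2 pf12042 h12042
  have h12044 := checkRangeG_sound parWF r2 pf12043 h12043
  have h12045 := checkRangeG_sound parWF r2 pf12044 h12044
  have h12046 := checkRangeG_sound parWF r2 pf12045 h12045
  have h12047 := checkRangeG_sound parWF r2 pf12046 h12046
  have h12048 := checkRangeG_sound parWF r2 pf12047 h12047
  have h12049 := checkRangeG_sound parWF r2 pf12048 h12048
  have h12050 := checkRangeG_sound parWF r2 pf12049 h12049
  exact h12050

theorem c241 (h12050 : ∀ j, j < 36594 → GoodG.{u} par (db j)) : ∀ j, j < 36740 → GoodG.{u} par (db j) := by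
  have h12051 := checkRangeG_sound parWF r2 pf12050 h12050
  have h12052 := checkRangeG_sound parWF r2 pf12051 h12051
  have h12053 := checkRangeG_sound parWF r2 pf12052 h12052
  have h12054 := checkRangeG_sound parWF r2 pf12053 h12053
  have h12055 := checkRangeG_sound parWF r2 pf12054 h12054
  have h12056 := checkRangeG_sound parWF r2 pf12055 h12055
  have h12057 := checkRangeG_sound parWF r2 pf12056 h12056
  have h12058 := checkRangeG_sound parWF r2 pf12057 h12057
  have h12059 := checkRangeG_sound parWF r2 pf12058 h12058
  have h12060 := checkRangeG_sound parWF r2 pf12059 h12059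
  have h12061 := checkRangeG_sound parWF r2 pf12060 h12060
  have h12062 := checkRangeG_sound parWF r2 pf12061 h12061
  have h12063 := checkRangeG_sound parWF r2 pf12062 h12062
  have h12064 := checkRangeG_sound parWF r2 pf12063 h12063
  have h12065 := checkRangeG_sound parWF r2 pf12064 h12064
  have h12066 := checkRangeG_sound parWF r2 pf12065 h12065
  have h12067 := checkRangeG_sound parWF r2 pf12066 h12066
  have h12068 := checkRangeG_sound parWF r2 pf12067 h12067
  have h12069 := checkRangeG_sound parWF r2 pf12068 h12068
  have h12070 := checkRangeG_sound parWF r2 pf12069 h12069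
  have h12071 := checkRangeG_sound parWF r2 pf12070 h12070
  have h12072 := checkRangeG_sound parWF r2 pf12071 h12071
  have h12073 := checkRangeG_sound parWF r2 pf12072 h12072
  have h12074 := checkRangeG_sound parWF r2 pf12073 h12073
  have h12075 := checkRangeG_sound parWF r2 pf12074 h12074
  have h12076 := checkRangeG_sound parWF r2 pf12075 h12075
  have h12077 := checkRangeG_sound parWF r2 pf12076 h12076
  have h12078 := checkRangeG_sound parWF r2 pf12077 h12077
  have h12079 := checkRangeG_sound parWF r2 pf12078 h12078
  have h12080 := checkRangeG_sound parWF r2 pf12079 h12079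
  have h12081 := checkRangeG_sound parWF r2 pf12080 h12080
  have h12082 := checkRangeG_sound parWF r2 pf12081 h12081
  have h12083 := checkRangeG_sound parWF r2 pf12082 h12082
  have h12084 := checkRangeG_sound parWF r2 pf12083 h12083
  have h12085 := checkRangeG_sound parWF r2 pf12084 h12084
  have h12086 := checkRangeG_sound parWF r2 pf12085 h12085
  have h12087 := checkRangeG_sound parWF r2 pf12086 h12086
  have h12088 := checkRangeG_sound parWF r2 pf12087 h12087
  have h12089 := checkRangeG_sound parWF r2 pf12088 h12088
  have h12090 := checkRangeG_sound parWF r2 pf12089 h12089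
  have h12091 := checkRangeG_sound parWF r2 pf12090 h12090
  have h12092 := checkRangeG_sound parWF r2 pf12091 h12091
  have h12093 := checkRangeG_sound parWF r2 pf12092 h12092
  have h12094 := checkRangeG_sound parWF r2 pf12093 h12093
  have h12095 := checkRangeG_sound parWF r2 pf12094 h12094
  have h12096 := checkRangeG_sound parWF r2 pf12095 h12095
  have h12097 := checkRangeG_sound parWF r2 pf12096 h12096
  have h12098 := checkRangeG_sound parWF r2 pf12097 h12097
  have h12099 := checkRangeG_sound parWF r2 pf12098 h12098
  have h12100 := checkRangeG_sound parWF r2 pf12099 h12099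
  exact h12100

theorem c242 (h12100 : ∀ j, j < 36740 → GoodG.{u} par (db j)) : ∀ j, j < 36884 → GoodG.{u} par (db j) := by
  have h12101 := checkRangeG_sound parWF r2 pf12100 h12100
  have h12102 := checkRangeG_sound parWF r2 pf12101 h12101
  have h12103 := checkRangeG_sound parWF r2 pf12102 h12102
  have h12104 := checkRangeG_sound parWF r2 pf12103 h12103
  have h12105 := checkRangeG_sound parWF r2 pf12104 h12104
  have h12106 := checkRangeG_sound parWF r2 pf12105 h12105
  have h12107 := checkRangeG_sound parWF r2 pf12106 h12106
  have h12108 := checkRangeG_sound parWF r2 pf12107 h12107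
  have h12109 := checkRangeG_sound parWF r2 pf12108 h12108
  have h12110 := checkRangeG_sound parWF r2 pf12109 h12109
  have h12111 := checkRangeG_sound parWF r2 pf12110 h12110
  have h12112 := checkRangeG_sound parWF r2 pf12111 h12111
  have h12113 := checkRangeG_sound parWF r2 pf12112 h12112
  have h12114 := checkRangeG_sound parWF r2 pf12113 h12113
  have h12115 := checkRangeG_sound parWF r2 pf12114 h12114
  have h12116 := checkRangeG_sound parWF r2 pf12115 h12115
  have h12117 := checkRangeG_sound parWF r2 pf12116 h12116
  have h12118 := checkRangeG_sound parWF r2 pf12117 h12117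
  have h12119 := checkRangeG_sound parWF r2 pf12118 h12118
  have h12120 := checkRangeG_sound parWF r2 pf12119 h12119
  have h12121 := checkRangeG_sound parWF r2 pf12120 h12120
  have h12122 := checkRangeG_sound parWF r2 pf12121 h12121
  have h12123 := checkRangeG_sound parWF r2 pf12122 h12122
  have h12124 := checkRangeG_sound parWF r2 pf12123 h12123
  have h12125 := checkRangeG_sound parWF r2 pf12124 h12124
  have h12126 := checkRangeG_sound parWF r2 pf12125 h12125
  have h12127 := checkRangeG_sound parWF r2 pf12126 h12126
  have h12128 := checkRangeG_sound parWF r2 pf12127 h12127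
  have h12129 := checkRangeG_sound parWF r2 pf12128 h12128
  have h12130 := checkRangeG_sound parWF r2 pf12129 h12129
  have h12131 := checkRangeG_sound parWF r2 pf12130 h12130
  have h12132 := checkRangeG_sound parWF r2 pf12131 h12131
  have h12133 := checkRangeG_sound parWF r2 pf12132 h12132
  have h12134 := checkRangeG_sound parWF r2 pf12133 h12133
  have h12135 := checkRangeG_sound parWF r2 pf12134 h12134
  have h12136 := checkRangeG_sound parWF r2 pf12135 h12135
  have h12137 := checkRangeG_sound parWF r2 pf12136 h12136
  have h12138 := checkRangeG_sound parWF r2 pf12137 h12137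
  have h12139 := checkRangeG_sound parWF r2 pf12138 h12138
  have h12140 := checkRangeG_sound parWF r2 pf12139 h12139
  have h12141 := checkRangeG_sound parWF r2 pf12140 h12140
  have h12142 := checkRangeG_sound parWF r2 pf12141 h12141
  have h12143 := checkRangeG_sound parWF r2 pf12142 h12142
  have h12144 := checkRangeG_sound parWF r2 pf12143 h12143
  have h12145 := checkRangeG_sound parWF r2 pf12144 h12144
  have h12146 := checkRangeG_sound parWF r2 pf12145 h12145
  have h12147 := checkRangeG_sound parWF r2 pf12146 h12146
  have h12148 := checkRangeG_sound parWF r2 pf12147 h12147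
  have h12149 := checkRangeG_sound parWF r2 pf12148 h12148
  have h12150 := checkRangeG_sound parWF r2 pf12149 h12149
  exact h12150

theorem c243 (h12150 : ∀ j, j < 36884 → GoodG.{u} par (db j)) : ∀ j, j < 37035 → GoodG.{u} par (db j) := by
  have h12151 := checkRangeG_sound parWF r2 pf12150 h12150
  have h12152 := checkRangeG_sound parWF r2 pf12151 h12151
  have h12153 := checkRangeG_sound parWF r2 pf12152 h12152
  have h12154 := checkRangeG_sound parWF r2 pf12153 h12153
  have h12155 := checkRangeG_sound parWF r2 pf12154 h12154
  have h12156 := checkRangeG_sound parWF r2 pf12155 h12155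
  have h12157 := checkRangeG_sound parWF r2 pf12156 h12156
  have h12158 := checkRangeG_sound parWF r2 pf12157 h12157
  have h12159 := checkRangeG_sound parWF r2 pf12158 h12158
  have h12160 := checkRangeG_sound parWF r2 pf12159 h12159
  have h12161 := checkRangeG_sound parWF r2 pf12160 h12160
  have h12162 := checkRangeG_sound parWF r2 pf12161 h12161
  have h12163 := checkRangeG_sound parWF r2 pf12162 h12162
  have h12164 := checkRangeG_sound parWF r2 pf12163 h12163
  have h12165 := checkRangeG_sound parWF r2 pf12164 h12164
  have h12166 := checkRangeG_sound parWF r2 pf12165 h12165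
  have h12167 := checkRangeG_sound parWF r2 pf12166 h12166
  have h12168 := checkRangeG_sound parWF r2 pf12167 h12167
  have h12169 := checkRangeG_sound parWF r2 pf12168 h12168
  have h12170 := checkRangeG_sound parWF r2 pf12169 h12169
  have h12171 := checkRangeG_sound parWF r2 pf12170 h12170
  have h12172 := checkRangeG_sound parWF r2 pf12171 h12171
  have h12173 := checkRangeG_sound parWF r2 pf12172 h12172
  have h12174 := checkRangeG_sound parWF r2 pf12173 h12173
  have h12175 := checkRangeG_sound parWF r2 pf12174 h12174
  have h12176 := checkRangeG_sound parWF r2 pf12175 h12175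
  have h12177 := checkRangeG_sound parWF r2 pf12176 h12176
  have h12178 := checkRangeG_sound parWF r2 pf12177 h12177
  have h12179 := checkRangeG_sound parWF r2 pf12178 h12178
  have h12180 := checkRangeG_sound parWF r2 pf12179 h12179
  have h12181 := checkRangeG_sound parWF r2 pf12180 h12180
  have h12182 := checkRangeG_sound parWF r2 pf12181 h12181
  have h12183 := checkRangeG_sound parWF r2 pf12182 h12182
  have h12184 := checkRangeG_sound parWF r2 pf12183 h12183
  have h12185 := checkRangeG_sound parWF r2 pf12184 h12184
  have h12186 := checkRangeG_sound parWF r2 pf12185 h12185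
  have h12187 := checkRangeG_sound parWF r2 pf12186 h12186
  have h12188 := checkRangeG_sound parWF r2 pf12187 h12187
  have h12189 := checkRangeG_sound parWF r2 pf12188 h12188
  have h12190 := checkRangeG_sound parWF r2 pf12189 h12189
  have h12191 := checkRangeG_sound parWF r2 pf12190 h12190
  have h12192 := checkRangeG_sound parWF r2 pf12191 h12191
  have h12193 := checkRangeG_sound parWF r2 pf12192 h12192
  have h12194 := checkRangeG_sound parWF r2 pf12193 h12193
  have h12195 := checkRangeG_sound parWF r2 pf12194 h12194
  have h12196 := checkRangeG_sound parWF r2 pf12195 h12195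
  have h12197 := checkRangeG_sound parWF r2 pf12196 h12196
  have h12198 := checkRangeG_sound parWF r2 pf12197 h12197
  have h12199 := checkRangeG_sound parWF r2 pf12198 h12198
  have h12200 := checkRangeG_sound parWF r2 pf12199 h12199
  exact h12200

theorem c244 (h12200 : ∀ j, j < 37035 → GoodG.{u} par (db j)) : ∀ j, j < 37190 → GoodG.{u} par (db j) := by
  have h12201 := checkRangeG_sound parWF r2 pf12200 h12200
  have h12202 := checkRangeG_sound parWF r2 pf12201 h12201
  have h12203 := checkRangeG_sound parWF r2 pf12202 h12202
  have h12204 := checkRangeG_sound parWF r2 pf12203 h12203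
  have h12205 := checkRangeG_sound parWF r2 pf12204 h12204
  have h12206 := checkRangeG_sound parWF r2 pf12205 h12205
  have h12207 := checkRangeG_sound parWF r2 pf12206 h12206
  have h12208 := checkRangeG_sound parWF r2 pf12207 h12207
  have h12209 := checkRangeG_sound parWF r2 pf12208 h12208
  have h12210 := checkRangeG_sound parWF r2 pf12209 h12209
  have h12211 := checkRangeG_sound parWF r2 pf12210 h12210
  have h12212 := checkRangeG_sound parWF r2 pf12211 h12211
  have h12213 := checkRangeG_sound parWF r2 pf12212 h12212
  have h12214 := checkRangeG_sound parWF r2 pf12213 h12213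
  have h12215 := checkRangeG_sound parWF r2 pf12214 h12214
  have h12216 := checkRangeG_sound parWF r2 pf12215 h12215
  have h12217 := checkRangeG_sound parWF r2 pf12216 h12216
  have h12218 := checkRangeG_sound parWF r2 pf12217 h12217
  have h12219 := checkRangeG_sound parWF r2 pf12218 h12218
  have h12220 := checkRangeG_sound parWF r2 pf12219 h12219
  have h12221 := checkRangeG_sound parWF r2 pf12220 h12220
  have h12222 := checkRangeG_sound parWF r2 pf12221 h12221
  have h12223 := checkRangeG_sound parWF r2 pf12222 h12222
  have h12224 := checkRangeG_sound parWF r2 pf12223 h12223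
  have h12225 := checkRangeG_sound parWF r2 pf12224 h12224
  have h12226 := checkRangeG_sound parWF r2 pf12225 h12225
  have h12227 := checkRangeG_sound parWF r2 pf12226 h12226
  have h12228 := checkRangeG_sound parWF r2 pf12227 h12227
  have h12229 := checkRangeG_sound parWF r2 pf12228 h12228
  have h12230 := checkRangeG_sound parWF r2 pf12229 h12229
  have h12231 := checkRangeG_sound parWF r2 pf12230 h12230
  have h12232 := checkRangeG_sound parWF r2 pf12231 h12231
  have h12233 := checkRangeG_sound parWF r2 pf12232 h12232
  have h12234 := checkRangeG_sound parWF r2 pf12233 h12233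
  have h12235 := checkRangeG_sound parWF r2 pf12234 h12234
  have h12236 := checkRangeG_sound parWF r2 pf12235 h12235
  have h12237 := checkRangeG_sound parWF r2 pf12236 h12236
  have h12238 := checkRangeG_sound parWF r2 pf12237 h12237
  have h12239 := checkRangeG_sound parWF r2 pf12238 h12238
  have h12240 := checkRangeG_sound parWF r2 pf12239 h12239
  have h12241 := checkRangeG_sound parWF r2 pf12240 h12240
  have h12242 := checkRangeG_sound parWF r2 pf12241 h12241
  have h12243 := checkRangeG_sound parWF r2 pf12242 h12242
  have h12244 := checkRangeG_sound parWF r2 pf12243 h12243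
  have h12245 := checkRangeG_sound parWF r2 pf12244 h12244
  have h12246 := checkRangeG_sound parWF r2 pf12245 h12245
  have h12247 := checkRangeG_sound parWF r2 pf12246 h12246
  have h12248 := checkRangeG_sound parWF r2 pf12247 h12247
  have h12249 := checkRangeG_sound parWF r2 pf12248 h12248
  have h12250 := checkRangeG_sound parWF r2 pf12249 h12249
  exact h12250

theorem c245 (h12250 : ∀ j, j < 37190 → GoodG.{u} par (db j)) : ∀ j, j < 37352 → GoodG.{u} par (db j) := by
  have h12251 := checkRangeG_sound parWF r2 pf12250 h12250
  have h12252 := checkRangeG_sound parWF r2 pf12251 h12251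
  have h12253 := checkRangeG_sound parWF r2 pf12252 h12252
  have h12254 := checkRangeG_sound parWF r2 pf12253 h12253
  have h12255 := checkRangeG_sound parWF r2 pf12254 h12254
  have h12256 := checkRangeG_sound parWF r2 pf12255 h12255
  have h12257 := checkRangeG_sound parWF r2 pf12256 h12256
  have h12258 := checkRangeG_sound parWF r2 pf12257 h12257
  have h12259 := checkRangeG_sound parWF r2 pf12258 h12258
  have h12260 := checkRangeG_sound parWF r2 pf12259 h12259
  have h12261 := checkRangeG_sound parWF r2 pf12260 h12260
  have h12262 := checkRangeG_sound parWF r2 pf12261 h12261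
  have h12263 := checkRangeG_sound parWF r2 pf12262 h12262
  have h12264 := checkRangeG_sound parWF r2 pf12263 h12263
  have h12265 := checkRangeG_sound parWF r2 pf12264 h12264
  have h12266 := checkRangeG_sound parWF r2 pf12265 h12265
  have h12267 := checkRangeG_sound parWF r2 pf12266 h12266
  have h12268 := checkRangeG_sound parWF r2 pf12267 h12267
  have h12269 := checkRangeG_sound parWF r2 pf12268 h12268
  have h12270 := checkRangeG_sound parWF r2 pf12269 h12269
  have h12271 := checkRangeG_sound parWF r2 pf12270 h12270
  have h12272 := checkRangeG_sound parWF r2 pf12271 h12271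
  have h12273 := checkRangeG_sound parWF r2 pf12272 h12272
  have h12274 := checkRangeG_sound parWF r2 pf12273 h12273
  have h12275 := checkRangeG_sound parWF r2 pf12274 h12274
  have h12276 := checkRangeG_sound parWF r2 pf12275 h12275
  have h12277 := checkRangeG_sound parWF r2 pf12276 h12276
  have h12278 := checkRangeG_sound parWF r2 pf12277 h12277
  have h12279 := checkRangeG_sound parWF r2 pf12278 h12278
  have h12280 := checkRangeG_sound parWF r2 pf12279 h12279
  have h12281 := checkRangeG_sound parWF r2 pf12280 h12280
  have h12282 := checkRangeG_sound parWF r2 pf12281 h12281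
  have h12283 := checkRangeG_sound parWF r2 pf12282 h12282
  have h12284 := checkRangeG_sound parWF r2 pf12283 h12283
  have h12285 := checkRangeG_sound parWF r2 pf12284 h12284
  have h12286 := checkRangeG_sound parWF r2 pf12285 h12285
  have h12287 := checkRangeG_sound parWF r2 pf12286 h12286
  have h12288 := checkRangeG_sound parWF r2 pf12287 h12287
  have h12289 := checkRangeG_sound parWF r2 pf12288 h12288
  have h12290 := checkRangeG_sound parWF r2 pf12289 h12289
  have h12291 := checkRangeG_sound parWF r2 pf12290 h12290
  have h12292 := checkRangeG_sound parWF r2 pf12291 h12291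
  have h12293 := checkRangeG_sound parWF r2 pf12292 h12292
  have h12294 := checkRangeG_sound parWF r2 pf12293 h12293
  have h12295 := checkRangeG_sound parWF r2 pf12294 h12294
  have h12296 := checkRangeG_sound parWF r2 pf12295 h12295
  have h12297 := checkRangeG_sound parWF r2 pf12296 h12296
  have h12298 := checkRangeG_sound parWF r2 pf12297 h12297
  have h12299 := checkRangeG_sound parWF r2 pf12298 h12298
  have h12300 := checkRangeG_sound parWF r2 pf12299 h12299
  exact h12300

theorem c246 (h12300 : ∀ j, j < 37352 → GoodG.{u} par (db j)) : ∀ j, j < 37512 → GoodG.{u} par (db j) := by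
  have h12301 := checkRangeG_sound parWF r2 pf12300 h12300
  have h12302 := checkRangeG_sound parWF r2 pf12301 h12301
  have h12303 := checkRangeG_sound parWF r2 pf12302 h12302
  have h12304 := checkRangeG_sound parWF r2 pf12303 h12303
  have h12305 := checkRangeG_sound parWF r2 pf12304 h12304
  have h12306 := checkRangeG_sound parWF r2 pf12305 h12305
  have h12307 := checkRangeG_sound parWF r2 pf12306 h12306
  have h12308 := checkRangeG_sound parWF r2 pf12307 h12307
  have h12309 := checkRangeG_sound parWF r2 pf12308 h12308
  have h12310 := checkRangeG_sound parWF r2 pf12309 h12309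
  have h12311 := checkRangeG_sound parWF r2 pf12310 h12310
  have h12312 := checkRangeG_sound parWF r2 pf12311 h12311
  have h12313 := checkRangeG_sound parWF r2 pf12312 h12312
  have h12314 := checkRangeG_sound parWF r2 pf12313 h12313
  have h12315 := checkRangeG_sound parWF r2 pf12314 h12314
  have h12316 := checkRangeG_sound parWF r2 pf12315 h12315
  have h12317 := checkRangeG_sound parWF r2 pf12316 h12316
  have h12318 := checkRangeG_sound parWF r2 pf12317 h12317
  have h12319 := checkRangeG_sound parWF r2 pf12318 h12318
  have h12320 := checkRangeG_sound parWF r2 pf12319 h12319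
  have h12321 := checkRangeG_sound parWF r2 pf12320 h12320
  have h12322 := checkRangeG_sound parWF r2 pf12321 h12321
  have h12323 := checkRangeG_sound parWF r2 pf12322 h12322
  have h12324 := checkRangeG_sound parWF r2 pf12323 h12323
  have h12325 := checkRangeG_sound parWF r2 pf12324 h12324
  have h12326 := checkRangeG_sound parWF r2 pf12325 h12325
  have h12327 := checkRangeG_sound parWF r2 pf12326 h12326
  have h12328 := checkRangeG_sound parWF r2 pf12327 h12327
  have h12329 := checkRangeG_sound parWF r2 pf12328 h12328
  have h12330 := checkRangeG_sound parWF r2 pf12329 h12329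
  have h12331 := checkRangeG_sound parWF r2 pf12330 h12330
  have h12332 := checkRangeG_sound parWF r2 pf12331 h12331
  have h12333 := checkRangeG_sound parWF r2 pf12332 h12332
  have h12334 := checkRangeG_sound parWF r2 pf12333 h12333
  have h12335 := checkRangeG_sound parWF r2 pf12334 h12334
  have h12336 := checkRangeG_sound parWF r2 pf12335 h12335
  have h12337 := checkRangeG_sound parWF r2 pf12336 h12336
  have h12338 := checkRangeG_sound parWF r2 pf12337 h12337
  have h12339 := checkRangeG_sound parWF r2 pf12338 h12338
  have h12340 := checkRangeG_sound parWF r2 pf12339 h12339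
  have h12341 := checkRangeG_sound parWF r2 pf12340 h12340
  have h12342 := checkRangeG_sound parWF r2 pf12341 h12341
  have h12343 := checkRangeG_sound parWF r2 pf12342 h12342
  have h12344 := checkRangeG_sound parWF r2 pf12343 h12343
  have h12345 := checkRangeG_sound parWF r2 pf12344 h12344
  have h12346 := checkRangeG_sound parWF r2 pf12345 h12345
  have h12347 := checkRangeG_sound parWF r2 pf12346 h12346
  have h12348 := checkRangeG_sound parWF r2 pf12347 h12347
  have h12349 := checkRangeG_sound parWF r2 pf12348 h12348
  have h12350 := checkRangeG_sound parWF r2 pf12349 h12349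
  exact h12350

theorem c247 (h12350 : ∀ j, j < 37512 → GoodG.{u} par (db j)) : ∀ j, j < 37684 → GoodG.{u} par (db j) := by
  have h12351 := checkRangeG_sound parWF r2 pf12350 h12350
  have h12352 := checkRangeG_sound parWF r2 pf12351 h12351
  have h12353 := checkRangeG_sound parWF r2 pf12352 h12352
  have h12354 := checkRangeG_sound parWF r2 pf12353 h12353
  have h12355 := checkRangeG_sound parWF r2 pf12354 h12354
  have h12356 := checkRangeG_sound parWF r2 pf12355 h12355
  have h12357 := checkRangeG_sound parWF r2 pf12356 h12356
  have h12358 := checkRangeG_sound parWF r2 pf12357 h12357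
  have h12359 := checkRangeG_sound parWF r2 pf12358 h12358
  have h12360 := checkRangeG_sound parWF r2 pf12359 h12359
  have h12361 := checkRangeG_sound parWF r2 pf12360 h12360
  have h12362 := checkRangeG_sound parWF r2 pf12361 h12361
  have h12363 := checkRangeG_sound parWF r2 pf12362 h12362
  have h12364 := checkRangeG_sound parWF r2 pf12363 h12363
  have h12365 := checkRangeG_sound parWF r2 pf12364 h12364
  have h12366 := checkRangeG_sound parWF r2 pf12365 h12365
  have h12367 := checkRangeG_sound parWF r2 pf12366 h12366
  have h12368 := checkRangeG_sound parWF r2 pf12367 h12367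
  have h12369 := checkRangeG_sound parWF r2 pf12368 h12368
  have h12370 := checkRangeG_sound parWF r2 pf12369 h12369
  have h12371 := checkRangeG_sound parWF r2 pf12370 h12370
  have h12372 := checkRangeG_sound parWF r2 pf12371 h12371
  have h12373 := checkRangeG_sound parWF r2 pf12372 h12372
  have h12374 := checkRangeG_sound parWF r2 pf12373 h12373
  have h12375 := checkRangeG_sound parWF r2 pf12374 h12374
  have h12376 := checkRangeG_sound parWF r2 pf12375 h12375
  have h12377 := checkRangeG_sound parWF r2 pf12376 h12376
  have h12378 := checkRangeG_sound parWF r2 pf12377 h12377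
  have h12379 := checkRangeG_sound parWF r2 pf12378 h12378
  have h12380 := checkRangeG_sound parWF r2 pf12379 h12379
  have h12381 := checkRangeG_sound parWF r2 pf12380 h12380
  have h12382 := checkRangeG_sound parWF r2 pf12381 h12381
  have h12383 := checkRangeG_sound parWF r2 pf12382 h12382
  have h12384 := checkRangeG_sound parWF r2 pf12383 h12383
  have h12385 := checkRangeG_sound parWF r2 pf12384 h12384
  have h12386 := checkRangeG_sound parWF r2 pf12385 h12385
  have h12387 := checkRangeG_sound parWF r2 pf12386 h12386
  have h12388 := checkRangeG_sound parWF r2 pf12387 h12387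
  have h12389 := checkRangeG_sound parWF r2 pf12388 h12388
  have h12390 := checkRangeG_sound parWF r2 pf12389 h12389
  have h12391 := checkRangeG_sound parWF r2 pf12390 h12390
  have h12392 := checkRangeG_sound parWF r2 pf12391 h12391
  have h12393 := checkRangeG_sound parWF r2 pf12392 h12392
  have h12394 := checkRangeG_sound parWF r2 pf12393 h12393
  have h12395 := checkRangeG_sound parWF r2 pf12394 h12394
  have h12396 := checkRangeG_sound parWF r2 pf12395 h12395
  have h12397 := checkRangeG_sound parWF r2 pf12396 h12396
  have h12398 := checkRangeG_sound parWF r2 pf12397 h12397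
  have h12399 := checkRangeG_sound parWF r2 pf12398 h12398
  have h12400 := checkRangeG_sound parWF r2 pf12399 h12399
  exact h12400

theorem c248 (h12400 : ∀ j, j < 37684 → GoodG.{u} par (db j)) : ∀ j, j < 37854 → GoodG.{u} par (db j) := by
  have h12401 := checkRangeG_sound parWF r2 pf12400 h12400
  have h12402 := checkRangeG_sound parWF r2 pf12401 h12401
  have h12403 := checkRangeG_sound parWF r2 pf12402 h12402
  have h12404 := checkRangeG_sound parWF r2 pf12403 h12403
  have h12405 := checkRangeG_sound parWF r2 pf12404 h12404
  have h12406 := checkRangeG_sound parWF r2 pf12405 h12405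
  have h12407 := checkRangeG_sound parWF r2 pf12406 h12406
  have h12408 := checkRangeG_sound parWF r2 pf12407 h12407
  have h12409 := checkRangeG_sound parWF r2 pf12408 h12408
  have h12410 := checkRangeG_sound parWF r2 pf12409 h12409
  have h12411 := checkRangeG_sound parWF r2 pf12410 h12410
  have h12412 := checkRangeG_sound parWF r2 pf12411 h12411
  have h12413 := checkRangeG_sound parWF r2 pf12412 h12412
  have h12414 := checkRangeG_sound parWF r2 pf12413 h12413
  have h12415 := checkRangeG_sound parWF r2 pf12414 h12414
  have h12416 := checkRangeG_sound parWF r2 pf12415 h12415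
  have h12417 := checkRangeG_sound parWF r2 pf12416 h12416
  have h12418 := checkRangeG_sound parWF r2 pf12417 h12417
  have h12419 := checkRangeG_sound parWF r2 pf12418 h12418
  have h12420 := checkRangeG_sound parWF r2 pf12419 h12419
  have h12421 := checkRangeG_sound parWF r2 pf12420 h12420
  have h12422 := checkRangeG_sound parWF r2 pf12421 h12421
  have h12423 := checkRangeG_sound parWF r2 pf12422 h12422
  have h12424 := checkRangeG_sound parWF r2 pf12423 h12423
  have h12425 := checkRangeG_sound parWF r2 pf12424 h12424
  have h12426 := checkRangeG_sound parWF r2 pf12425 h12425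
  have h12427 := checkRangeG_sound parWF r2 pf12426 h12426
  have h12428 := checkRangeG_sound parWF r2 pf12427 h12427
  have h12429 := checkRangeG_sound parWF r2 pf12428 h12428
  have h12430 := checkRangeG_sound parWF r2 pf12429 h12429
  have h12431 := checkRangeG_sound parWF r2 pf12430 h12430
  have h12432 := checkRangeG_sound parWF r2 pf12431 h12431
  have h12433 := checkRangeG_sound parWF r2 pf12432 h12432
  have h12434 := checkRangeG_sound parWF r2 pf12433 h12433
  have h12435 := checkRangeG_sound parWF r2 pf12434 h12434
  have h12436 := checkRangeG_sound parWF r2 pf12435 h12435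
  have h12437 := checkRangeG_sound parWF r2 pf12436 h12436
  have h12438 := checkRangeG_sound parWF r2 pf12437 h12437
  have h12439 := checkRangeG_sound parWF r2 pf12438 h12438
  have h12440 := checkRangeG_sound parWF r2 pf12439 h12439
  have h12441 := checkRangeG_sound parWF r2 pf12440 h12440
  have h12442 := checkRangeG_sound parWF r2 pf12441 h12441
  have h12443 := checkRangeG_sound parWF r2 pf12442 h12442
  have h12444 := checkRangeG_sound parWF r2 pf12443 h12443
  have h12445 := checkRangeG_sound parWF r2 pf12444 h12444
  have h12446 := checkRangeG_sound parWF r2 pf12445 h12445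
  have h12447 := checkRangeG_sound parWF r2 pf12446 h12446
  have h12448 := checkRangeG_sound parWF r2 pf12447 h12447
  have h12449 := checkRangeG_sound parWF r2 pf12448 h12448
  have h12450 := checkRangeG_sound parWF r2 pf12449 h12449
  exact h12450

theorem c249 (h12450 : ∀ j, j < 37854 → GoodG.{u} par (db j)) : ∀ j, j < 38033 → GoodG.{u} par (db j) := by
  have h12451 := checkRangeG_sound parWF r2 pf12450 h12450
  have h12452 := checkRangeG_sound parWF r2 pf12451 h12451
  have h12453 := checkRangeG_sound parWF r2 pf12452 h12452
  have h12454 := checkRangeG_sound parWF r2 pf12453 h12453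
  have h12455 := checkRangeG_sound parWF r2 pf12454 h12454
  have h12456 := checkRangeG_sound parWF r2 pf12455 h12455
  have h12457 := checkRangeG_sound parWF r2 pf12456 h12456
  have h12458 := checkRangeG_sound parWF r2 pf12457 h12457
  have h12459 := checkRangeG_sound parWF r2 pf12458 h12458
  have h12460 := checkRangeG_sound parWF r2 pf12459 h12459
  have h12461 := checkRangeG_sound parWF r2 pf12460 h12460
  have h12462 := checkRangeG_sound parWF r2 pf12461 h12461
  have h12463 := checkRangeG_sound parWF r2 pf12462 h12462
  have h12464 := checkRangeG_sound parWF r2 pf12463 h12463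
  have h12465 := checkRangeG_sound parWF r2 pf12464 h12464
  have h12466 := checkRangeG_sound parWF r2 pf12465 h12465
  have h12467 := checkRangeG_sound parWF r2 pf12466 h12466
  have h12468 := checkRangeG_sound parWF r2 pf12467 h12467
  have h12469 := checkRangeG_sound parWF r2 pf12468 h12468
  have h12470 := checkRangeG_sound parWF r2 pf12469 h12469
  have h12471 := checkRangeG_sound parWF r2 pf12470 h12470
  have h12472 := checkRangeG_sound parWF r2 pf12471 h12471
  have h12473 := checkRangeG_sound parWF r2 pf12472 h12472
  have h12474 := checkRangeG_sound parWF r2 pf12473 h12473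
  have h12475 := checkRangeG_sound parWF r2 pf12474 h12474
  have h12476 := checkRangeG_sound parWF r2 pf12475 h12475
  have h12477 := checkRangeG_sound parWF r2 pf12476 h12476
  have h12478 := checkRangeG_sound parWF r2 pf12477 h12477
  have h12479 := checkRangeG_sound parWF r2 pf12478 h12478
  have h12480 := checkRangeG_sound parWF r2 pf12479 h12479
  have h12481 := checkRangeG_sound parWF r2 pf12480 h12480
  have h12482 := checkRangeG_sound parWF r2 pf12481 h12481
  have h12483 := checkRangeG_sound parWF r2 pf12482 h12482
  have h12484 := checkRangeG_sound parWF r2 pf12483 h12483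
  have h12485 := checkRangeG_sound parWF r2 pf12484 h12484
  have h12486 := checkRangeG_sound parWF r2 pf12485 h12485
  have h12487 := checkRangeG_sound parWF r2 pf12486 h12486
  have h12488 := checkRangeG_sound parWF r2 pf12487 h12487
  have h12489 := checkRangeG_sound parWF r2 pf12488 h12488
  have h12490 := checkRangeG_sound parWF r2 pf12489 h12489
  have h12491 := checkRangeG_sound parWF r2 pf12490 h12490
  have h12492 := checkRangeG_sound parWF r2 pf12491 h12491
  have h12493 := checkRangeG_sound parWF r2 pf12492 h12492
  have h12494 := checkRangeG_sound parWF r2 pf12493 h12493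
  have h12495 := checkRangeG_sound parWF r2 pf12494 h12494
  have h12496 := checkRangeG_sound parWF r2 pf12495 h12495
  have h12497 := checkRangeG_sound parWF r2 pf12496 h12496
  have h12498 := checkRangeG_sound parWF r2 pf12497 h12497
  have h12499 := checkRangeG_sound parWF r2 pf12498 h12498
  have h12500 := checkRangeG_sound parWF r2 pf12499 h12499
  exact h12500

theorem c250 (h12500 : ∀ j, j < 38033 → GoodG.{u} par (db j)) : ∀ j, j < 38205 → GoodG.{u} par (db j) := by
  have h12501 := checkRangeG_sound parWF r2 pf12500 h12500
  have h12502 := checkRangeG_sound parWF r2 pf12501 h12501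
  have h12503 := checkRangeG_sound parWF r2 pf12502 h12502
  have h12504 := checkRangeG_sound parWF r2 pf12503 h12503
  have h12505 := checkRangeG_sound parWF r2 pf12504 h12504
  have h12506 := checkRangeG_sound parWF r2 pf12505 h12505
  have h12507 := checkRangeG_sound parWF r2 pf12506 h12506
  have h12508 := checkRangeG_sound parWF r2 pf12507 h12507
  have h12509 := checkRangeG_sound parWF r2 pf12508 h12508
  have h12510 := checkRangeG_sound parWF r2 pf12509 h12509
  have h12511 := checkRangeG_sound parWF r2 pf12510 h12510
  have h12512 := checkRangeG_sound parWF r2 pf12511 h12511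
  have h12513 := checkRangeG_sound parWF r2 pf12512 h12512
  have h12514 := checkRangeG_sound parWF r2 pf12513 h12513
  have h12515 := checkRangeG_sound parWF r2 pf12514 h12514
  have h12516 := checkRangeG_sound parWF r2 pf12515 h12515
  have h12517 := checkRangeG_sound parWF r2 pf12516 h12516
  have h12518 := checkRangeG_sound parWF r2 pf12517 h12517
  have h12519 := checkRangeG_sound parWF r2 pf12518 h12518
  have h12520 := checkRangeG_sound parWF r2 pf12519 h12519
  have h12521 := checkRangeG_sound parWF r2 pf12520 h12520
  have h12522 := checkRangeG_sound parWF r2 pf12521 h12521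
  have h12523 := checkRangeG_sound parWF r2 pf12522 h12522
  have h12524 := checkRangeG_sound parWF r2 pf12523 h12523
  have h12525 := checkRangeG_sound parWF r2 pf12524 h12524
  have h12526 := checkRangeG_sound parWF r2 pf12525 h12525
  have h12527 := checkRangeG_sound parWF r2 pf12526 h12526
  have h12528 := checkRangeG_sound parWF r2 pf12527 h12527
  have h12529 := checkRangeG_sound parWF r2 pf12528 h12528
  have h12530 := checkRangeG_sound parWF r2 pf12529 h12529
  have h12531 := checkRangeG_sound parWF r2 pf12530 h12530
  have h12532 := checkRangeG_sound parWF r2 pf12531 h12531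
  have h12533 := checkRangeG_sound parWF r2 pf12532 h12532
  have h12534 := checkRangeG_sound parWF r2 pf12533 h12533
  have h12535 := checkRangeG_sound parWF r2 pf12534 h12534
  have h12536 := checkRangeG_sound parWF r2 pf12535 h12535
  have h12537 := checkRangeG_sound parWF r2 pf12536 h12536
  have h12538 := checkRangeG_sound parWF r2 pf12537 h12537
  have h12539 := checkRangeG_sound parWF r2 pf12538 h12538
  have h12540 := checkRangeG_sound parWF r2 pf12539 h12539
  have h12541 := checkRangeG_sound parWF r2 pf12540 h12540
  have h12542 := checkRangeG_sound parWF r2 pf12541 h12541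
  have h12543 := checkRangeG_sound parWF r2 pf12542 h12542
  have h12544 := checkRangeG_sound parWF r2 pf12543 h12543
  have h12545 := checkRangeG_sound parWF r2 pf12544 h12544
  have h12546 := checkRangeG_sound parWF r2 pf12545 h12545
  have h12547 := checkRangeG_sound parWF r2 pf12546 h12546
  have h12548 := checkRangeG_sound parWF r2 pf12547 h12547
  have h12549 := checkRangeG_sound parWF r2 pf12548 h12548
  have h12550 := checkRangeG_sound parWF r2 pf12549 h12549
  exact h12550

theorem c251 (h12550 : ∀ j, j < 38205 → GoodG.{u} par (db j)) : ∀ j, j < 38374 → GoodG.{u} par (db j) := by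
  have h12551 := checkRangeG_sound parWF r2 pf12550 h12550
  have h12552 := checkRangeG_sound parWF r2 pf12551 h12551
  have h12553 := checkRangeG_sound parWF r2 pf12552 h12552
  have h12554 := checkRangeG_sound parWF r2 pf12553 h12553
  have h12555 := checkRangeG_sound parWF r2 pf12554 h12554
  have h12556 := checkRangeG_sound parWF r2 pf12555 h12555
  have h12557 := checkRangeG_sound parWF r2 pf12556 h12556
  have h12558 := checkRangeG_sound parWF r2 pf12557 h12557
  have h12559 := checkRangeG_sound parWF r2 pf12558 h12558
  have h12560 := checkRangeG_sound parWF r2 pf12559 h12559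
  have h12561 := checkRangeG_sound parWF r2 pf12560 h12560
  have h12562 := checkRangeG_sound parWF r2 pf12561 h12561
  have h12563 := checkRangeG_sound parWF r2 pf12562 h12562
  have h12564 := checkRangeG_sound parWF r2 pf12563 h12563
  have h12565 := checkRangeG_sound parWF r2 pf12564 h12564
  have h12566 := checkRangeG_sound parWF r2 pf12565 h12565
  have h12567 := checkRangeG_sound parWF r2 pf12566 h12566
  have h12568 := checkRangeG_sound parWF r2 pf12567 h12567
  have h12569 := checkRangeG_sound parWF r2 pf12568 h12568
  have h12570 := checkRangeG_sound parWF r2 pf12569 h12569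
  have h12571 := checkRangeG_sound parWF r2 pf12570 h12570
  have h12572 := checkRangeG_sound parWF r2 pf12571 h12571
  have h12573 := checkRangeG_sound parWF r2 pf12572 h12572
  have h12574 := checkRangeG_sound parWF r2 pf12573 h12573
  have h12575 := checkRangeG_sound parWF r2 pf12574 h12574
  have h12576 := checkRangeG_sound parWF r2 pf12575 h12575
  have h12577 := checkRangeG_sound parWF r2 pf12576 h12576
  have h12578 := checkRangeG_sound parWF r2 pf12577 h12577
  have h12579 := checkRangeG_sound parWF r2 pf12578 h12578
  have h12580 := checkRangeG_sound parWF r2 pf12579 h12579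
  have h12581 := checkRangeG_sound parWF r2 pf12580 h12580
  have h12582 := checkRangeG_sound parWF r2 pf12581 h12581
  have h12583 := checkRangeG_sound parWF r2 pf12582 h12582
  have h12584 := checkRangeG_sound parWF r2 pf12583 h12583
  have h12585 := checkRangeG_sound parWF r2 pf12584 h12584
  have h12586 := checkRangeG_sound parWF r2 pf12585 h12585
  have h12587 := checkRangeG_sound parWF r2 pf12586 h12586
  have h12588 := checkRangeG_sound parWF r2 pf12587 h12587
  have h12589 := checkRangeG_sound parWF r2 pf12588 h12588
  have h12590 := checkRangeG_sound parWF r2 pf12589 h12589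
  have h12591 := checkRangeG_sound parWF r2 pf12590 h12590
  have h12592 := checkRangeG_sound parWF r2 pf12591 h12591
  have h12593 := checkRangeG_sound parWF r2 pf12592 h12592
  have h12594 := checkRangeG_sound parWF r2 pf12593 h12593
  have h12595 := checkRangeG_sound parWF r2 pf12594 h12594
  have h12596 := checkRangeG_sound parWF r2 pf12595 h12595
  have h12597 := checkRangeG_sound parWF r2 pf12596 h12596
  have h12598 := checkRangeG_sound parWF r2 pf12597 h12597
  have h12599 := checkRangeG_sound parWF r2 pf12598 h12598
  have h12600 := checkRangeG_sound parWF r2 pf12599 h12599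
  exact h12600


end Vale.Agent.P045g.C61
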