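import Vale.Agent.P045g.C61.WF
import Vale.Agent.P045g.C61.Pf210
import Vale.Agent.P045g.C61.Pf211
import Vale.Agent.P045g.C61.Pf212
import Vale.Agent.P045g.C61.Pf213
import Vale.Agent.P045g.C61.Pf214
import Vale.Agent.P045g.C61.Pf215
import Vale.Agent.P045g.C61.Pf216
import Vale.Agent.P045g.C61.Pf217
import Vale.Agent.P045g.C61.Pf218
import Vale.Agent.P045g.C61.Pf219

namespace Vale.Agent.P045g.C61

open Vale.Agent.P045b Vale.Agent.P045g

universe u

theorem c252 (h12600 : ∀ j, j < 38374 → GoodG.{u} par (db j)) : ∀ j, j < 38545 → GoodG.{u} par (db j) := by
  have h12601 := checkRangeG_sound parWF r2 pf12600 h12600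
  have h12602 := checkRangeG_sound parWF r2 pf12601 h12601
  have h12603 := checkRangeG_sound parWF r2 pf12602 h12602
  have h12604 := checkRangeG_sound parWF r2 pf12603 h12603
  have h12605 := checkRangeG_sound parWF r2 pf12604 h12604
  have h12606 := checkRangeG_sound parWF r2 pf12605 h12605
  have h12607 := checkRangeG_sound parWF r2 pf12606 h12606
  have h12608 := checkRangeG_sound parWF r2 pf12607 h12607
  have h12609 := checkRangeG_sound parWF r2 pf12608 h12608
  have h12610 := checkRangeG_sound parWF r2 pf12609 h12609
  have h12611 := checkRangeG_sound parWF r2 pf12610 h12610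
  have h12612 := checkRangeG_sound parWF r2 pf12611 h12611
  have h12613 := checkRangeG_sound parWF r2 pf12612 h12612
  have h12614 := checkRangeG_sound parWF r2 pf12613 h12613
  have h12615 := checkRangeG_sound parWF r2 pf12614 h12614
  have h12616 := checkRangeG_sound parWF r2 pf12615 h12615
  have h12617 := checkRangeG_sound parWF r2 pf12616 h12616
  have h12618 := checkRangeG_sound parWF r2 pf12617 h12617
  have h12619 := checkRangeG_sound parWF r2 pf12618 h12618
  have h12620 := checkRangeG_sound parWF r2 pf12619 h12619
  have h12621 := checkRangeG_sound parWF r2 pf12620 h12620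
  have h12622 := checkRangeG_sound parWF r2 pf12621 h12621
  have h12623 := checkRangeG_sound parWF r2 pf12622 h12622
  have h12624 := checkRangeG_sound parWF r2 pf12623 h12623
  have h12625 := checkRangeG_sound parWF r2 pf12624 h12624
  have h12626 := checkRangeG_sound parWF r2 pf12625 h12625
  have h12627 := checkRangeG_sound parWF r2 pf12626 h12626
  have h12628 := checkRangeG_sound parWF r2 pf12627 h12627
  have h12629 := checkRangeG_sound parWF r2 pf12628 h12628
  have h12630 := checkRangeG_sound parWF r2 pf12629 h12629
  have h12631 := checkRangeG_sound parWF r2 pf12630 h12630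
  have h12632 := checkRangeG_sound parWF r2 pf12631 h12631
  have h12633 := checkRangeG_sound parWF r2 pf12632 h12632
  have h12634 := checkRangeG_sound parWF r2 pf12633 h12633
  have h12635 := checkRangeG_sound parWF r2 pf12634 h12634
  have h12636 := checkRangeG_sound parWF r2 pf12635 h12635
  have h12637 := checkRangeG_sound parWF r2 pf12636 h12636
  have h12638 := checkRangeG_sound parWF r2 pf12637 h12637
  have h12639 := checkRangeG_sound parWF r2 pf12638 h12638
  have h12640 := checkRangeG_sound parWF r2 pf12639 h12639
  have h12641 := checkRangeG_sound parWF r2 pf12640 h12640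
  have h12642 := checkRangeG_sound parWF r2 pf12641 h12641
  have h12643 := checkRangeG_sound parWF r2 pf12642 h12642
  have h12644 := checkRangeG_sound parWF r2 pf12643 h12643
  have h12645 := checkRangeG_sound parWF r2 pf12644 h12644
  have h12646 := checkRangeG_sound parWF r2 pf12645 h12645
  have h12647 := checkRangeG_sound parWF r2 pf12646 h12646
  have h12648 := checkRangeG_sound parWF r2 pf12647 h12647
  have h12649 := checkRangeG_sound parWF r2 pf12648 h12648
  have h12650 := checkRangeG_sound parWF r2 pf12649 h12649
  exact h12650

theorem c253 (h12650 : ∀ j, j < 38545 → GoodG.{u} par (db j)) : ∀ j, j < 38723 → GoodG.{u} par (db j) := by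
  have h12651 := checkRangeG_sound parWF r2 pf12650 h12650
  have h12652 := checkRangeG_sound parWF r2 pf12651 h12651
  have h12653 := checkRangeG_sound parWF r2 pf12652 h12652
  have h12654 := checkRangeG_sound parWF r2 pf12653 h12653
  have h12655 := checkRangeG_sound parWF r2 pf12654 h12654
  have h12656 := checkRangeG_sound parWF r2 pf12655 h12655
  have h12657 := checkRangeG_sound parWF r2 pf12656 h12656
  have h12658 := checkRangeG_sound parWF r2 pf12657 h12657
  have h12659 := checkRangeG_sound parWF r2 pf12658 h12658
  have h12660 := checkRangeG_sound parWF r2 pf12659 h12659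
  have h12661 := checkRangeG_sound parWF r2 pf12660 h12660
  have h12662 := checkRangeG_sound parWF r2 pf12661 h12661
  have h12663 := checkRangeG_sound parWF r2 pf12662 h12662
  have h12664 := checkRangeG_sound parWF r2 pf12663 h12663
  have h12665 := checkRangeG_sound parWF r2 pf12664 h12664
  have h12666 := checkRangeG_sound parWF r2 pf12665 h12665
  have h12667 := checkRangeG_sound parWF r2 pf12666 h12666
  have h12668 := checkRangeG_sound parWF r2 pf12667 h12667
  have h12669 := checkRangeG_sound parWF r2 pf12668 h12668
  have h12670 := checkRangeG_sound parWF r2 pf12669 h12669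
  have h12671 := checkRangeG_sound parWF r2 pf12670 h12670
  have h12672 := checkRangeG_sound parWF r2 pf12671 h12671
  have h12673 := checkRangeG_sound parWF r2 pf12672 h12672
  have h12674 := checkRangeG_sound parWF r2 pf12673 h12673
  have h12675 := checkRangeG_sound parWF r2 pf12674 h12674
  have h12676 := checkRangeG_sound parWF r2 pf12675 h12675
  have h12677 := checkRangeG_sound parWF r2 pf12676 h12676
  have h12678 := checkRangeG_sound parWF r2 pf12677 h12677
  have h12679 := checkRangeG_sound parWF r2 pf12678 h12678
  have h12680 := checkRangeG_sound parWF r2 pf12679 h12679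
  have h12681 := checkRangeG_sound parWF r2 pf12680 h12680
  have h12682 := checkRangeG_sound parWF r2 pf12681 h12681
  have h12683 := checkRangeG_sound parWF r2 pf12682 h12682
  have h12684 := checkRangeG_sound parWF r2 pf12683 h12683
  have h12685 := checkRangeG_sound parWF r2 pf12684 h12684
  have h12686 := checkRangeG_sound parWF r2 pf12685 h12685
  have h12687 := checkRangeG_sound parWF r2 pf12686 h12686
  have h12688 := checkRangeG_sound parWF r2 pf12687 h12687
  have h12689 := checkRangeG_sound parWF r2 pf12688 h12688
  have h12690 := checkRangeG_sound parWF r2 pf12689 h12689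
  have h12691 := checkRangeG_sound parWF r2 pf12690 h12690
  have h12692 := checkRangeG_sound parWF r2 pf12691 h12691
  have h12693 := checkRangeG_sound parWF r2 pf12692 h12692
  have h12694 := checkRangeG_sound parWF r2 pf12693 h12693
  have h12695 := checkRangeG_sound parWF r2 pf12694 h12694
  have h12696 := checkRangeG_sound parWF r2 pf12695 h12695
  have h12697 := checkRangeG_sound parWF r2 pf12696 h12696
  have h12698 := checkRangeG_sound parWF r2 pf12697 h12697
  have h12699 := checkRangeG_sound parWF r2 pf12698 h12698
  have h12700 := checkRangeG_sound parWF r2 pf12699 h12699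
  exact h12700

theorem c254 (h12700 : ∀ j, j < 38723 → GoodG.{u} par (db j)) : ∀ j, j < 38891 → GoodG.{u} par (db j) := by
  have h12701 := checkRangeG_sound parWF r2 pf12700 h12700
  have h12702 := checkRangeG_sound parWF r2 pf12701 h12701
  have h12703 := checkRangeG_sound parWF r2 pf12702 h12702
  have h12704 := checkRangeG_sound parWF r2 pf12703 h12703
  have h12705 := checkRangeG_sound parWF r2 pf12704 h12704
  have h12706 := checkRangeG_sound parWF r2 pf12705 h12705
  have h12707 := checkRangeG_sound parWF r2 pf12706 h12706
  have h12708 := checkRangeG_sound parWF r2 pf12707 h12707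
  have h12709 := checkRangeG_sound parWF r2 pf12708 h12708
  have h12710 := checkRangeG_sound parWF r2 pf12709 h12709
  have h12711 := checkRangeG_sound parWF r2 pf12710 h12710
  have h12712 := checkRangeG_sound parWF r2 pf12711 h12711
  have h12713 := checkRangeG_sound parWF r2 pf12712 h12712
  have h12714 := checkRangeG_sound parWF r2 pf12713 h12713
  have h12715 := checkRangeG_sound parWF r2 pf12714 h12714
  have h12716 := checkRangeG_sound parWF r2 pf12715 h12715
  have h12717 := checkRangeG_sound parWF r2 pf12716 h12716
  have h12718 := checkRangeG_sound parWF r2 pf12717 h12717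
  have h12719 := checkRangeG_sound parWF r2 pf12718 h12718
  have h12720 := checkRangeG_sound parWF r2 pf12719 h12719
  have h12721 := checkRangeG_sound parWF r2 pf12720 h12720
  have h12722 := checkRangeG_sound parWF r2 pf12721 h12721
  have h12723 := checkRangeG_sound parWF r2 pf12722 h12722
  have h12724 := checkRangeG_sound parWF r2 pf12723 h12723
  have h12725 := checkRangeG_sound parWF r2 pf12724 h12724
  have h12726 := checkRangeG_sound parWF r2 pf12725 h12725
  have h12727 := checkRangeG_sound parWF r2 pf12726 h12726
  have h12728 := checkRangeG_sound parWF r2 pf12727 h12727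
  have h12729 := checkRangeG_sound parWF r2 pf12728 h12728
  have h12730 := checkRangeG_sound parWF r2 pf12729 h12729
  have h12731 := checkRangeG_sound parWF r2 pf12730 h12730
  have h12732 := checkRangeG_sound parWF r2 pf12731 h12731
  have h12733 := checkRangeG_sound parWF r2 pf12732 h12732
  have h12734 := checkRangeG_sound parWF r2 pf12733 h12733
  have h12735 := checkRangeG_sound parWF r2 pf12734 h12734
  have h12736 := checkRangeG_sound parWF r2 pf12735 h12735
  have h12737 := checkRangeG_sound parWF r2 pf12736 h12736
  have h12738 := checkRangeG_sound parWF r2 pf12737 h12737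
  have h12739 := checkRangeG_sound parWF r2 pf12738 h12738
  have h12740 := checkRangeG_sound parWF r2 pf12739 h12739
  have h12741 := checkRangeG_sound parWF r2 pf12740 h12740
  have h12742 := checkRangeG_sound parWF r2 pf12741 h12741
  have h12743 := checkRangeG_sound parWF r2 pf12742 h12742
  have h12744 := checkRangeG_sound parWF r2 pf12743 h12743
  have h12745 := checkRangeG_sound parWF r2 pf12744 h12744
  have h12746 := checkRangeG_sound parWF r2 pf12745 h12745
  have h12747 := checkRangeG_sound parWF r2 pf12746 h12746
  have h12748 := checkRangeG_sound parWF r2 pf12747 h12747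
  have h12749 := checkRangeG_sound parWF r2 pf12748 h12748
  have h12750 := checkRangeG_sound parWF r2 pf12749 h12749
  exact h12750

theorem c255 (h12750 : ∀ j, j < 38891 → GoodG.{u} par (db j)) : ∀ j, j < 39053 → GoodG.{u} par (db j) := by
  have h12751 := checkRangeG_sound parWF r2 pf12750 h12750
  have h12752 := checkRangeG_sound parWF r2 pf12751 h12751
  have h12753 := checkRangeG_sound parWF r2 pf12752 h12752
  have h12754 := checkRangeG_sound parWF r2 pf12753 h12753
  have h12755 := checkRangeG_sound parWF r2 pf12754 h12754
  have h12756 := checkRangeG_sound parWF r2 pf12755 h12755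
  have h12757 := checkRangeG_sound parWF r2 pf12756 h12756
  have h12758 := checkRangeG_sound parWF r2 pf12757 h12757
  have h12759 := checkRangeG_sound parWF r2 pf12758 h12758
  have h12760 := checkRangeG_sound parWF r2 pf12759 h12759
  have h12761 := checkRangeG_sound parWF r2 pf12760 h12760
  have h12762 := checkRangeG_sound parWF r2 pf12761 h12761
  have h12763 := checkRangeG_sound parWF r2 pf12762 h12762
  have h12764 := checkRangeG_sound parWF r2 pf12763 h12763
  have h12765 := checkRangeG_sound parWF r2 pf12764 h12764
  have h12766 := checkRangeG_sound parWF r2 pf12765 h12765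
  have h12767 := checkRangeG_sound parWF r2 pf12766 h12766
  have h12768 := checkRangeG_sound parWF r2 pf12767 h12767
  have h12769 := checkRangeG_sound parWF r2 pf12768 h12768
  have h12770 := checkRangeG_sound parWF r2 pf12769 h12769
  have h12771 := checkRangeG_sound parWF r2 pf12770 h12770
  have h12772 := checkRangeG_sound parWF r2 pf12771 h12771
  have h12773 := checkRangeG_sound parWF r2 pf12772 h12772
  have h12774 := checkRangeG_sound parWF r2 pf12773 h12773
  have h12775 := checkRangeG_sound parWF r2 pf12774 h12774
  have h12776 := checkRangeG_sound parWF r2 pf12775 h12775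
  have h12777 := checkRangeG_sound parWF r2 pf12776 h12776
  have h12778 := checkRangeG_sound parWF r2 pf12777 h12777
  have h12779 := checkRangeG_sound parWF r2 pf12778 h12778
  have h12780 := checkRangeG_sound parWF r2 pf12779 h12779
  have h12781 := checkRangeG_sound parWF r2 pf12780 h12780
  have h12782 := checkRangeG_sound parWF r2 pf12781 h12781
  have h12783 := checkRangeG_sound parWF r2 pf12782 h12782
  have h12784 := checkRangeG_sound parWF r2 pf12783 h12783
  have h12785 := checkRangeG_sound parWF r2 pf12784 h12784
  have h12786 := checkRangeG_sound parWF r2 pf12785 h12785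
  have h12787 := checkRangeG_sound parWF r2 pf12786 h12786
  have h12788 := checkRangeG_sound parWF r2 pf12787 h12787
  have h12789 := checkRangeG_sound parWF r2 pf12788 h12788
  have h12790 := checkRangeG_sound parWF r2 pf12789 h12789
  have h12791 := checkRangeG_sound parWF r2 pf12790 h12790
  have h12792 := checkRangeG_sound parWF r2 pf12791 h12791
  have h12793 := checkRangeG_sound parWF r2 pf12792 h12792
  have h12794 := checkRangeG_sound parWF r2 pf12793 h12793
  have h12795 := checkRangeG_sound parWF r2 pf12794 h12794
  have h12796 := checkRangeG_sound parWF r2 pf12795 h12795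
  have h12797 := checkRangeG_sound parWF r2 pf12796 h12796
  have h12798 := checkRangeG_sound parWF r2 pf12797 h12797
  have h12799 := checkRangeG_sound parWF r2 pf12798 h12798
  have h12800 := checkRangeG_sound parWF r2 pf12799 h12799
  exact h12800

theorem c256 (h12800 : ∀ j, j < 39053 → GoodG.{u} par (db j)) : ∀ j, j < 39228 → GoodG.{u} par (db j) := by
  have h12801 := checkRangeG_sound parWF r2 pf12800 h12800
  have h12802 := checkRangeG_sound parWF r2 pf12801 h12801
  have h12803 := checkRangeG_sound parWF r2 pf12802 h12802
  have h12804 := checkRangeG_sound parWF r2 pf12803 h12803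
  have h12805 := checkRangeG_sound parWF r2 pf12804 h12804
  have h12806 := checkRangeG_sound parWF r2 pf12805 h12805
  have h12807 := checkRangeG_sound parWF r2 pf12806 h12806
  have h12808 := checkRangeG_sound parWF r2 pf12807 h12807
  have h12809 := checkRangeG_sound parWF r2 pf12808 h12808
  have h12810 := checkRangeG_sound parWF r2 pf12809 h12809
  have h12811 := checkRangeG_sound parWF r2 pf12810 h12810
  have h12812 := checkRangeG_sound parWF r2 pf12811 h12811
  have h12813 := checkRangeG_sound parWF r2 pf12812 h12812
  have h12814 := checkRangeG_sound parWF r2 pf12813 h12813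
  have h12815 := checkRangeG_sound parWF r2 pf12814 h12814
  have h12816 := checkRangeG_sound parWF r2 pf12815 h12815
  have h12817 := checkRangeG_sound parWF r2 pf12816 h12816
  have h12818 := checkRangeG_sound parWF r2 pf12817 h12817
  have h12819 := checkRangeG_sound parWF r2 pf12818 h12818
  have h12820 := checkRangeG_sound parWF r2 pf12819 h12819
  have h12821 := checkRangeG_sound parWF r2 pf12820 h12820
  have h12822 := checkRangeG_sound parWF r2 pf12821 h12821
  have h12823 := checkRangeG_sound parWF r2 pf12822 h12822
  have h12824 := checkRangeG_sound parWF r2 pf12823 h12823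
  have h12825 := checkRangeG_sound parWF r2 pf12824 h12824
  have h12826 := checkRangeG_sound parWF r2 pf12825 h12825
  have h12827 := checkRangeG_sound parWF r2 pf12826 h12826
  have h12828 := checkRangeG_sound parWF r2 pf12827 h12827
  have h12829 := checkRangeG_sound parWF r2 pf12828 h12828
  have h12830 := checkRangeG_sound parWF r2 pf12829 h12829
  have h12831 := checkRangeG_sound parWF r2 pf12830 h12830
  have h12832 := checkRangeG_sound parWF r2 pf12831 h12831
  have h12833 := checkRangeG_sound parWF r2 pf12832 h12832
  have h12834 := checkRangeG_sound parWF r2 pf12833 h12833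
  have h12835 := checkRangeG_sound parWF r2 pf12834 h12834
  have h12836 := checkRangeG_sound parWF r2 pf12835 h12835
  have h12837 := checkRangeG_sound parWF r2 pf12836 h12836
  have h12838 := checkRangeG_sound parWF r2 pf12837 h12837
  have h12839 := checkRangeG_sound parWF r2 pf12838 h12838
  have h12840 := checkRangeG_sound parWF r2 pf12839 h12839
  have h12841 := checkRangeG_sound parWF r2 pf12840 h12840
  have h12842 := checkRangeG_sound parWF r2 pf12841 h12841
  have h12843 := checkRangeG_sound parWF r2 pf12842 h12842
  have h12844 := checkRangeG_sound parWF r2 pf12843 h12843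
  have h12845 := checkRangeG_sound parWF r2 pf12844 h12844
  have h12846 := checkRangeG_sound parWF r2 pf12845 h12845
  have h12847 := checkRangeG_sound parWF r2 pf12846 h12846
  have h12848 := checkRangeG_sound parWF r2 pf12847 h12847
  have h12849 := checkRangeG_sound parWF r2 pf12848 h12848
  have h12850 := checkRangeG_sound parWF r2 pf12849 h12849
  exact h12850

theorem c257 (h12850 : ∀ j, j < 39228 → GoodG.{u} par (db j)) : ∀ j, j < 39403 → GoodG.{u} par (db j) := by
  have h12851 := checkRangeG_sound parWF r2 pf12850 h12850
  have h12852 := checkRangeG_sound parWF r2 pf12851 h12851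
  have h12853 := checkRangeG_sound parWF r2 pf12852 h12852
  have h12854 := checkRangeG_sound parWF r2 pf12853 h12853
  have h12855 := checkRangeG_sound parWF r2 pf12854 h12854
  have h12856 := checkRangeG_sound parWF r2 pf12855 h12855
  have h12857 := checkRangeG_sound parWF r2 pf12856 h12856
  have h12858 := checkRangeG_sound parWF r2 pf12857 h12857
  have h12859 := checkRangeG_sound parWF r2 pf12858 h12858
  have h12860 := checkRangeG_sound parWF r2 pf12859 h12859
  have h12861 := checkRangeG_sound parWF r2 pf12860 h12860
  have h12862 := checkRangeG_sound parWF r2 pf12861 h12861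
  have h12863 := checkRangeG_sound parWF r2 pf12862 h12862
  have h12864 := checkRangeG_sound parWF r2 pf12863 h12863
  have h12865 := checkRangeG_sound parWF r2 pf12864 h12864
  have h12866 := checkRangeG_sound parWF r2 pf12865 h12865
  have h12867 := checkRangeG_sound parWF r2 pf12866 h12866
  have h12868 := checkRangeG_sound parWF r2 pf12867 h12867
  have h12869 := checkRangeG_sound parWF r2 pf12868 h12868
  have h12870 := checkRangeG_sound parWF r2 pf12869 h12869
  have h12871 := checkRangeG_sound parWF r2 pf12870 h12870
  have h12872 := checkRangeG_sound parWF r2 pf12871 h12871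
  have h12873 := checkRangeG_sound parWF r2 pf12872 h12872
  have h12874 := checkRangeG_sound parWF r2 pf12873 h12873
  have h12875 := checkRangeG_sound parWF r2 pf12874 h12874
  have h12876 := checkRangeG_sound parWF r2 pf12875 h12875
  have h12877 := checkRangeG_sound parWF r2 pf12876 h12876
  have h12878 := checkRangeG_sound parWF r2 pf12877 h12877
  have h12879 := checkRangeG_sound parWF r2 pf12878 h12878
  have h12880 := checkRangeG_sound parWF r2 pf12879 h12879
  have h12881 := checkRangeG_sound parWF r2 pf12880 h12880
  have h12882 := checkRangeG_sound parWF r2 pf12881 h12881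
  have h12883 := checkRangeG_sound parWF r2 pf12882 h12882
  have h12884 := checkRangeG_sound parWF r2 pf12883 h12883
  have h12885 := checkRangeG_sound parWF r2 pf12884 h12884
  have h12886 := checkRangeG_sound parWF r2 pf12885 h12885
  have h12887 := checkRangeG_sound parWF r2 pf12886 h12886
  have h12888 := checkRangeG_sound parWF r2 pf12887 h12887
  have h12889 := checkRangeG_sound parWF r2 pf12888 h12888
  have h12890 := checkRangeG_sound parWF r2 pf12889 h12889
  have h12891 := checkRangeG_sound parWF r2 pf12890 h12890
  have h12892 := checkRangeG_sound parWF r2 pf12891 h12891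
  have h12893 := checkRangeG_sound parWF r2 pf12892 h12892
  have h12894 := checkRangeG_sound parWF r2 pf12893 h12893
  have h12895 := checkRangeG_sound parWF r2 pf12894 h12894
  have h12896 := checkRangeG_sound parWF r2 pf12895 h12895
  have h12897 := checkRangeG_sound parWF r2 pf12896 h12896
  have h12898 := checkRangeG_sound parWF r2 pf12897 h12897
  have h12899 := checkRangeG_sound parWF r2 pf12898 h12898
  have h12900 := checkRangeG_sound parWF r2 pf12899 h12899
  exact h12900

theorem c258 (h12900 : ∀ j, j < 39403 → GoodG.{u} par (db j)) : ∀ j, j < 39586 → GoodG.{u} par (db j) := by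
  have h12901 := checkRangeG_sound parWF r2 pf12900 h12900
  have h12902 := checkRangeG_sound parWF r2 pf12901 h12901
  have h12903 := checkRangeG_sound parWF r2 pf12902 h12902
  have h12904 := checkRangeG_sound parWF r2 pf12903 h12903
  have h12905 := checkRangeG_sound parWF r2 pf12904 h12904
  have h12906 := checkRangeG_sound parWF r2 pf12905 h12905
  have h12907 := checkRangeG_sound parWF r2 pf12906 h12906
  have h12908 := checkRangeG_sound parWF r2 pf12907 h12907
  have h12909 := checkRangeG_sound parWF r2 pf12908 h12908
  have h12910 := checkRangeG_sound parWF r2 pf12909 h12909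
  have h12911 := checkRangeG_sound parWF r2 pf12910 h12910
  have h12912 := checkRangeG_sound parWF r2 pf12911 h12911
  have h12913 := checkRangeG_sound parWF r2 pf12912 h12912
  have h12914 := checkRangeG_sound parWF r2 pf12913 h12913
  have h12915 := checkRangeG_sound parWF r2 pf12914 h12914
  have h12916 := checkRangeG_sound parWF r2 pf12915 h12915
  have h12917 := checkRangeG_sound parWF r2 pf12916 h12916
  have h12918 := checkRangeG_sound parWF r2 pf12917 h12917
  have h12919 := checkRangeG_sound parWF r2 pf12918 h12918
  have h12920 := checkRangeG_sound parWF r2 pf12919 h12919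
  have h12921 := checkRangeG_sound parWF r2 pf12920 h12920
  have h12922 := checkRangeG_sound parWF r2 pf12921 h12921
  have h12923 := checkRangeG_sound parWF r2 pf12922 h12922
  have h12924 := checkRangeG_sound parWF r2 pf12923 h12923
  have h12925 := checkRangeG_sound parWF r2 pf12924 h12924
  have h12926 := checkRangeG_sound parWF r2 pf12925 h12925
  have h12927 := checkRangeG_sound parWF r2 pf12926 h12926
  have h12928 := checkRangeG_sound parWF r2 pf12927 h12927
  have h12929 := checkRangeG_sound parWF r2 pf12928 h12928
  have h12930 := checkRangeG_sound parWF r2 pf12929 h12929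
  have h12931 := checkRangeG_sound parWF r2 pf12930 h12930
  have h12932 := checkRangeG_sound parWF r2 pf12931 h12931
  have h12933 := checkRangeG_sound parWF r2 pf12932 h12932
  have h12934 := checkRangeG_sound parWF r2 pf12933 h12933
  have h12935 := checkRangeG_sound parWF r2 pf12934 h12934
  have h12936 := checkRangeG_sound parWF r2 pf12935 h12935
  have h12937 := checkRangeG_sound parWF r2 pf12936 h12936
  have h12938 := checkRangeG_sound parWF r2 pf12937 h12937
  have h12939 := checkRangeG_sound parWF r2 pf12938 h12938
  have h12940 := checkRangeG_sound parWF r2 pf12939 h12939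
  have h12941 := checkRangeG_sound parWF r2 pf12940 h12940
  have h12942 := checkRangeG_sound parWF r2 pf12941 h12941
  have h12943 := checkRangeG_sound parWF r2 pf12942 h12942
  have h12944 := checkRangeG_sound parWF r2 pf12943 h12943
  have h12945 := checkRangeG_sound parWF r2 pf12944 h12944
  have h12946 := checkRangeG_sound parWF r2 pf12945 h12945
  have h12947 := checkRangeG_sound parWF r2 pf12946 h12946
  have h12948 := checkRangeG_sound parWF r2 pf12947 h12947
  have h12949 := checkRangeG_sound parWF r2 pf12948 h12948
  have h12950 := checkRangeG_sound parWF r2 pf12949 h12949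
  exact h12950

theorem c259 (h12950 : ∀ j, j < 39586 → GoodG.{u} par (db j)) : ∀ j, j < 39738 → GoodG.{u} par (db j) := by
  have h12951 := checkRangeG_sound parWF r2 pf12950 h12950
  have h12952 := checkRangeG_sound parWF r2 pf12951 h12951
  have h12953 := checkRangeG_sound parWF r2 pf12952 h12952
  have h12954 := checkRangeG_sound parWF r2 pf12953 h12953
  have h12955 := checkRangeG_sound parWF r2 pf12954 h12954
  have h12956 := checkRangeG_sound parWF r2 pf12955 h12955
  have h12957 := checkRangeG_sound parWF r2 pf12956 h12956
  have h12958 := checkRangeG_sound parWF r2 pf12957 h12957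
  have h12959 := checkRangeG_sound parWF r2 pf12958 h12958
  have h12960 := checkRangeG_sound parWF r2 pf12959 h12959
  have h12961 := checkRangeG_sound parWF r2 pf12960 h12960
  have h12962 := checkRangeG_sound parWF r2 pf12961 h12961
  have h12963 := checkRangeG_sound parWF r2 pf12962 h12962
  have h12964 := checkRangeG_sound parWF r2 pf12963 h12963
  have h12965 := checkRangeG_sound parWF r2 pf12964 h12964
  have h12966 := checkRangeG_sound parWF r2 pf12965 h12965
  have h12967 := checkRangeG_sound parWF r2 pf12966 h12966
  have h12968 := checkRangeG_sound parWF r2 pf12967 h12967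
  have h12969 := checkRangeG_sound parWF r2 pf12968 h12968
  have h12970 := checkRangeG_sound parWF r2 pf12969 h12969
  have h12971 := checkRangeG_sound parWF r2 pf12970 h12970
  have h12972 := checkRangeG_sound parWF r2 pf12971 h12971
  have h12973 := checkRangeG_sound parWF r2 pf12972 h12972
  have h12974 := checkRangeG_sound parWF r2 pf12973 h12973
  have h12975 := checkRangeG_sound parWF r2 pf12974 h12974
  have h12976 := checkRangeG_sound parWF r2 pf12975 h12975
  have h12977 := checkRangeG_sound parWF r2 pf12976 h12976
  have h12978 := checkRangeG_sound parWF r2 pf12977 h12977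
  have h12979 := checkRangeG_sound parWF r2 pf12978 h12978
  have h12980 := checkRangeG_sound parWF r2 pf12979 h12979
  have h12981 := checkRangeG_sound parWF r2 pf12980 h12980
  have h12982 := checkRangeG_sound parWF r2 pf12981 h12981
  have h12983 := checkRangeG_sound parWF r2 pf12982 h12982
  have h12984 := checkRangeG_sound parWF r2 pf12983 h12983
  have h12985 := checkRangeG_sound parWF r2 pf12984 h12984
  have h12986 := checkRangeG_sound parWF r2 pf12985 h12985
  have h12987 := checkRangeG_sound parWF r2 pf12986 h12986
  have h12988 := checkRangeG_sound parWF r2 pf12987 h12987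
  have h12989 := checkRangeG_sound parWF r2 pf12988 h12988
  have h12990 := checkRangeG_sound parWF r2 pf12989 h12989
  have h12991 := checkRangeG_sound parWF r2 pf12990 h12990
  have h12992 := checkRangeG_sound parWF r2 pf12991 h12991
  have h12993 := checkRangeG_sound parWF r2 pf12992 h12992
  have h12994 := checkRangeG_sound parWF r2 pf12993 h12993
  have h12995 := checkRangeG_sound parWF r2 pf12994 h12994
  have h12996 := checkRangeG_sound parWF r2 pf12995 h12995
  have h12997 := checkRangeG_sound parWF r2 pf12996 h12996
  have h12998 := checkRangeG_sound parWF r2 pf12997 h12997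
  have h12999 := checkRangeG_sound parWF r2 pf12998 h12998
  have h13000 := checkRangeG_sound parWF r2 pf12999 h12999
  exact h13000

theorem c260 (h13000 : ∀ j, j < 39738 → GoodG.{u} par (db j)) : ∀ j, j < 39911 → GoodG.{u} par (db j) := by
  have h13001 := checkRangeG_sound parWF r2 pf13000 h13000
  have h13002 := checkRangeG_sound parWF r2 pf13001 h13001
  have h13003 := checkRangeG_sound parWF r2 pf13002 h13002
  have h13004 := checkRangeG_sound parWF r2 pf13003 h13003
  have h13005 := checkRangeG_sound parWF r2 pf13004 h13004
  have h13006 := checkRangeG_sound parWF r2 pf13005 h13005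
  have h13007 := checkRangeG_sound parWF r2 pf13006 h13006
  have h13008 := checkRangeG_sound parWF r2 pf13007 h13007
  have h13009 := checkRangeG_sound parWF r2 pf13008 h13008
  have h13010 := checkRangeG_sound parWF r2 pf13009 h13009
  have h13011 := checkRangeG_sound parWF r2 pf13010 h13010
  have h13012 := checkRangeG_sound parWF r2 pf13011 h13011
  have h13013 := checkRangeG_sound parWF r2 pf13012 h13012
  have h13014 := checkRangeG_sound parWF r2 pf13013 h13013
  have h13015 := checkRangeG_sound parWF r2 pf13014 h13014
  have h13016 := checkRangeG_sound parWF r2 pf13015 h13015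
  have h13017 := checkRangeG_sound parWF r2 pf13016 h13016
  have h13018 := checkRangeG_sound parWF r2 pf13017 h13017
  have h13019 := checkRangeG_sound parWF r2 pf13018 h13018
  have h13020 := checkRangeG_sound parWF r2 pf13019 h13019
  have h13021 := checkRangeG_sound parWF r2 pf13020 h13020
  have h13022 := checkRangeG_sound parWF r2 pf13021 h13021
  have h13023 := checkRangeG_sound parWF r2 pf13022 h13022
  have h13024 := checkRangeG_sound parWF r2 pf13023 h13023
  have h13025 := checkRangeG_sound parWF r2 pf13024 h13024
  have h13026 := checkRangeG_sound parWF r2 pf13025 h13025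
  have h13027 := checkRangeG_sound parWF r2 pf13026 h13026
  have h13028 := checkRangeG_sound parWF r2 pf13027 h13027
  have h13029 := checkRangeG_sound parWF r2 pf13028 h13028
  have h13030 := checkRangeG_sound parWF r2 pf13029 h13029
  have h13031 := checkRangeG_sound parWF r2 pf13030 h13030
  have h13032 := checkRangeG_sound parWF r2 pf13031 h13031
  have h13033 := checkRangeG_sound parWF r2 pf13032 h13032
  have h13034 := checkRangeG_sound parWF r2 pf13033 h13033
  have h13035 := checkRangeG_sound parWF r2 pf13034 h13034
  have h13036 := checkRangeG_sound parWF r2 pf13035 h13035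
  have h13037 := checkRangeG_sound parWF r2 pf13036 h13036
  have h13038 := checkRangeG_sound parWF r2 pf13037 h13037
  have h13039 := checkRangeG_sound parWF r2 pf13038 h13038
  have h13040 := checkRangeG_sound parWF r2 pf13039 h13039
  have h13041 := checkRangeG_sound parWF r2 pf13040 h13040
  have h13042 := checkRangeG_sound parWF r2 pf13041 h13041
  have h13043 := checkRangeG_sound parWF r2 pf13042 h13042
  have h13044 := checkRangeG_sound parWF r2 pf13043 h13043
  have h13045 := checkRangeG_sound parWF r2 pf13044 h13044
  have h13046 := checkRangeG_sound parWF r2 pf13045 h13045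
  have h13047 := checkRangeG_sound parWF r2 pf13046 h13046
  have h13048 := checkRangeG_sound parWF r2 pf13047 h13047
  have h13049 := checkRangeG_sound parWF r2 pf13048 h13048
  have h13050 := checkRangeG_sound parWF r2 pf13049 h13049
  exact h13050

theorem c261 (h13050 : ∀ j, j < 39911 → GoodG.{u} par (db j)) : ∀ j, j < 40078 → GoodG.{u} par (db j) := by
  have h13051 := checkRangeG_sound parWF r2 pf13050 h13050
  have h13052 := checkRangeG_sound parWF r2 pf13051 h13051
  have h13053 := checkRangeG_sound parWF r2 pf13052 h13052
  have h13054 := checkRangeG_sound parWF r2 pf13053 h13053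
  have h13055 := checkRangeG_sound parWF r2 pf13054 h13054
  have h13056 := checkRangeG_sound parWF r2 pf13055 h13055
  have h13057 := checkRangeG_sound parWF r2 pf13056 h13056
  have h13058 := checkRangeG_sound parWF r2 pf13057 h13057
  have h13059 := checkRangeG_sound parWF r2 pf13058 h13058
  have h13060 := checkRangeG_sound parWF r2 pf13059 h13059
  have h13061 := checkRangeG_sound parWF r2 pf13060 h13060
  have h13062 := checkRangeG_sound parWF r2 pf13061 h13061
  have h13063 := checkRangeG_sound parWF r2 pf13062 h13062
  have h13064 := checkRangeG_sound parWF r2 pf13063 h13063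
  have h13065 := checkRangeG_sound parWF r2 pf13064 h13064
  have h13066 := checkRangeG_sound parWF r2 pf13065 h13065
  have h13067 := checkRangeG_sound parWF r2 pf13066 h13066
  have h13068 := checkRangeG_sound parWF r2 pf13067 h13067
  have h13069 := checkRangeG_sound parWF r2 pf13068 h13068
  have h13070 := checkRangeG_sound parWF r2 pf13069 h13069
  have h13071 := checkRangeG_sound parWF r2 pf13070 h13070
  have h13072 := checkRangeG_sound parWF r2 pf13071 h13071
  have h13073 := checkRangeG_sound parWF r2 pf13072 h13072
  have h13074 := checkRangeG_sound parWF r2 pf13073 h13073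
  have h13075 := checkRangeG_sound parWF r2 pf13074 h13074
  have h13076 := checkRangeG_sound parWF r2 pf13075 h13075
  have h13077 := checkRangeG_sound parWF r2 pf13076 h13076
  have h13078 := checkRangeG_sound parWF r2 pf13077 h13077
  have h13079 := checkRangeG_sound parWF r2 pf13078 h13078
  have h13080 := checkRangeG_sound parWF r2 pf13079 h13079
  have h13081 := checkRangeG_sound parWF r2 pf13080 h13080
  have h13082 := checkRangeG_sound parWF r2 pf13081 h13081
  have h13083 := checkRangeG_sound parWF r2 pf13082 h13082
  have h13084 := checkRangeG_sound parWF r2 pf13083 h13083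
  have h13085 := checkRangeG_sound parWF r2 pf13084 h13084
  have h13086 := checkRangeG_sound parWF r2 pf13085 h13085
  have h13087 := checkRangeG_sound parWF r2 pf13086 h13086
  have h13088 := checkRangeG_sound parWF r2 pf13087 h13087
  have h13089 := checkRangeG_sound parWF r2 pf13088 h13088
  have h13090 := checkRangeG_sound parWF r2 pf13089 h13089
  have h13091 := checkRangeG_sound parWF r2 pf13090 h13090
  have h13092 := checkRangeG_sound parWF r2 pf13091 h13091
  have h13093 := checkRangeG_sound parWF r2 pf13092 h13092
  have h13094 := checkRangeG_sound parWF r2 pf13093 h13093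
  have h13095 := checkRangeG_sound parWF r2 pf13094 h13094
  have h13096 := checkRangeG_sound parWF r2 pf13095 h13095
  have h13097 := checkRangeG_sound parWF r2 pf13096 h13096
  have h13098 := checkRangeG_sound parWF r2 pf13097 h13097
  have h13099 := checkRangeG_sound parWF r2 pf13098 h13098
  have h13100 := checkRangeG_sound parWF r2 pf13099 h13099
  exact h13100

theorem c262 (h13100 : ∀ j, j < 40078 → GoodG.{u} par (db j)) : ∀ j, j < 40251 → GoodG.{u} par (db j) := by
  have h13101 := checkRangeG_sound parWF r2 pf13100 h13100
  have h13102 := checkRangeG_sound parWF r2 pf13101 h13101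
  have h13103 := checkRangeG_sound parWF r2 pf13102 h13102
  have h13104 := checkRangeG_sound parWF r2 pf13103 h13103
  have h13105 := checkRangeG_sound parWF r2 pf13104 h13104
  have h13106 := checkRangeG_sound parWF r2 pf13105 h13105
  have h13107 := checkRangeG_sound parWF r2 pf13106 h13106
  have h13108 := checkRangeG_sound parWF r2 pf13107 h13107
  have h13109 := checkRangeG_sound parWF r2 pf13108 h13108
  have h13110 := checkRangeG_sound parWF r2 pf13109 h13109
  have h13111 := checkRangeG_sound parWF r2 pf13110 h13110
  have h13112 := checkRangeG_sound parWF r2 pf13111 h13111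
  have h13113 := checkRangeG_sound parWF r2 pf13112 h13112
  have h13114 := checkRangeG_sound parWF r2 pf13113 h13113
  have h13115 := checkRangeG_sound parWF r2 pf13114 h13114
  have h13116 := checkRangeG_sound parWF r2 pf13115 h13115
  have h13117 := checkRangeG_sound parWF r2 pf13116 h13116
  have h13118 := checkRangeG_sound parWF r2 pf13117 h13117
  have h13119 := checkRangeG_sound parWF r2 pf13118 h13118
  have h13120 := checkRangeG_sound parWF r2 pf13119 h13119
  have h13121 := checkRangeG_sound parWF r2 pf13120 h13120
  have h13122 := checkRangeG_sound parWF r2 pf13121 h13121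
  have h13123 := checkRangeG_sound parWF r2 pf13122 h13122
  have h13124 := checkRangeG_sound parWF r2 pf13123 h13123
  have h13125 := checkRangeG_sound parWF r2 pf13124 h13124
  have h13126 := checkRangeG_sound parWF r2 pf13125 h13125
  have h13127 := checkRangeG_sound parWF r2 pf13126 h13126
  have h13128 := checkRangeG_sound parWF r2 pf13127 h13127
  have h13129 := checkRangeG_sound parWF r2 pf13128 h13128
  have h13130 := checkRangeG_sound parWF r2 pf13129 h13129
  have h13131 := checkRangeG_sound parWF r2 pf13130 h13130
  have h13132 := checkRangeG_sound parWF r2 pf13131 h13131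
  have h13133 := checkRangeG_sound parWF r2 pf13132 h13132
  have h13134 := checkRangeG_sound parWF r2 pf13133 h13133
  have h13135 := checkRangeG_sound parWF r2 pf13134 h13134
  have h13136 := checkRangeG_sound parWF r2 pf13135 h13135
  have h13137 := checkRangeG_sound parWF r2 pf13136 h13136
  have h13138 := checkRangeG_sound parWF r2 pf13137 h13137
  have h13139 := checkRangeG_sound parWF r2 pf13138 h13138
  have h13140 := checkRangeG_sound parWF r2 pf13139 h13139
  have h13141 := checkRangeG_sound parWF r2 pf13140 h13140
  have h13142 := checkRangeG_sound parWF r2 pf13141 h13141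
  have h13143 := checkRangeG_sound parWF r2 pf13142 h13142
  have h13144 := checkRangeG_sound parWF r2 pf13143 h13143
  have h13145 := checkRangeG_sound parWF r2 pf13144 h13144
  have h13146 := checkRangeG_sound parWF r2 pf13145 h13145
  have h13147 := checkRangeG_sound parWF r2 pf13146 h13146
  have h13148 := checkRangeG_sound parWF r2 pf13147 h13147
  have h13149 := checkRangeG_sound parWF r2 pf13148 h13148
  have h13150 := checkRangeG_sound parWF r2 pf13149 h13149
  exact h13150

theorem c263 (h13150 : ∀ j, j < 40251 → GoodG.{u} par (db j)) : ∀ j, j < 40421 → GoodG.{u} par (db j) := by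
  have h13151 := checkRangeG_sound parWF r2 pf13150 h13150
  have h13152 := checkRangeG_sound parWF r2 pf13151 h13151
  have h13153 := checkRangeG_sound parWF r2 pf13152 h13152
  have h13154 := checkRangeG_sound parWF r2 pf13153 h13153
  have h13155 := checkRangeG_sound parWF r2 pf13154 h13154
  have h13156 := checkRangeG_sound parWF r2 pf13155 h13155
  have h13157 := checkRangeG_sound parWF r2 pf13156 h13156
  have h13158 := checkRangeG_sound parWF r2 pf13157 h13157
  have h13159 := checkRangeG_sound parWF r2 pf13158 h13158
  have h13160 := checkRangeG_sound parWF r2 pf13159 h13159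
  have h13161 := checkRangeG_sound parWF r2 pf13160 h13160
  have h13162 := checkRangeG_sound parWF r2 pf13161 h13161
  have h13163 := checkRangeG_sound parWF r2 pf13162 h13162
  have h13164 := checkRangeG_sound parWF r2 pf13163 h13163
  have h13165 := checkRangeG_sound parWF r2 pf13164 h13164
  have h13166 := checkRangeG_sound parWF r2 pf13165 h13165
  have h13167 := checkRangeG_sound parWF r2 pf13166 h13166
  have h13168 := checkRangeG_sound parWF r2 pf13167 h13167
  have h13169 := checkRangeG_sound parWF r2 pf13168 h13168
  have h13170 := checkRangeG_sound parWF r2 pf13169 h13169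
  have h13171 := checkRangeG_sound parWF r2 pf13170 h13170
  have h13172 := checkRangeG_sound parWF r2 pf13171 h13171
  have h13173 := checkRangeG_sound parWF r2 pf13172 h13172
  have h13174 := checkRangeG_sound parWF r2 pf13173 h13173
  have h13175 := checkRangeG_sound parWF r2 pf13174 h13174
  have h13176 := checkRangeG_sound parWF r2 pf13175 h13175
  have h13177 := checkRangeG_sound parWF r2 pf13176 h13176
  have h13178 := checkRangeG_sound parWF r2 pf13177 h13177
  have h13179 := checkRangeG_sound parWF r2 pf13178 h13178
  have h13180 := checkRangeG_sound parWF r2 pf13179 h13179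
  have h13181 := checkRangeG_sound parWF r2 pf13180 h13180
  have h13182 := checkRangeG_sound parWF r2 pf13181 h13181
  have h13183 := checkRangeG_sound parWF r2 pf13182 h13182
  have h13184 := checkRangeG_sound parWF r2 pf13183 h13183
  have h13185 := checkRangeG_sound parWF r2 pf13184 h13184
  have h13186 := checkRangeG_sound parWF r2 pf13185 h13185
  have h13187 := checkRangeG_sound parWF r2 pf13186 h13186
  have h13188 := checkRangeG_sound parWF r2 pf13187 h13187
  have h13189 := checkRangeG_sound parWF r2 pf13188 h13188
  have h13190 := checkRangeG_sound parWF r2 pf13189 h13189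
  have h13191 := checkRangeG_sound parWF r2 pf13190 h13190
  have h13192 := checkRangeG_sound parWF r2 pf13191 h13191
  have h13193 := checkRangeG_sound parWF r2 pf13192 h13192
  have h13194 := checkRangeG_sound parWF r2 pf13193 h13193
  have h13195 := checkRangeG_sound parWF r2 pf13194 h13194
  have h13196 := checkRangeG_sound parWF r2 pf13195 h13195
  have h13197 := checkRangeG_sound parWF r2 pf13196 h13196
  have h13198 := checkRangeG_sound parWF r2 pf13197 h13197
  have h13199 := checkRangeG_sound parWF r2 pf13198 h13198
  have h13200 := checkRangeG_sound parWF r2 pf13199 h13199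
  exact h13200


end Vale.Agent.P045g.C61
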