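import Vale.Agent.P045g.C61.WF
import Vale.Agent.P045g.C61.Pf220
import Vale.Agent.P045g.C61.Pf221
import Vale.Agent.P045g.C61.Pf222
import Vale.Agent.P045g.C61.Pf223
import Vale.Agent.P045g.C61.Pf224
import Vale.Agent.P045g.C61.Pf225
import Vale.Agent.P045g.C61.Pf226
import Vale.Agent.P045g.C61.Pf227
import Vale.Agent.P045g.C61.Pf228
import Vale.Agent.P045g.C61.Pf229

namespace Vale.Agent.P045g.C61

open Vale.Agent.P045b Vale.Agent.P045g

universe u

theorem c264 (h13200 : ∀ j, j < 40421 → GoodG.{u} par (db j)) : ∀ j, j < 40603 → GoodG.{u} par (db j) := by
  have h13201 := checkRangeG_sound parWF r2 pf13200 h13200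
  have h13202 := checkRangeG_sound parWF r2 pf13201 h13201
  have h13203 := checkRangeG_sound parWF r2 pf13202 h13202
  have h13204 := checkRangeG_sound parWF r2 pf13203 h13203
  have h13205 := checkRangeG_sound parWF r2 pf13204 h13204
  have h13206 := checkRangeG_sound parWF r2 pf13205 h13205
  have h13207 := checkRangeG_sound parWF r2 pf13206 h13206
  have h13208 := checkRangeG_sound parWF r2 pf13207 h13207
  have h13209 := checkRangeG_sound parWF r2 pf13208 h13208
  have h13210 := checkRangeG_sound parWF r2 pf13209 h13209
  have h13211 := checkRangeG_sound parWF r2 pf13210 h13210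
  have h13212 := checkRangeG_sound parWF r2 pf13211 h13211
  have h13213 := checkRangeG_sound parWF r2 pf13212 h13212
  have h13214 := checkRangeG_sound parWF r2 pf13213 h13213
  have h13215 := checkRangeG_sound parWF r2 pf13214 h13214
  have h13216 := checkRangeG_sound parWF r2 pf13215 h13215
  have h13217 := checkRangeG_sound parWF r2 pf13216 h13216
  have h13218 := checkRangeG_sound parWF r2 pf13217 h13217
  have h13219 := checkRangeG_sound parWF r2 pf13218 h13218
  have h13220 := checkRangeG_sound parWF r2 pf13219 h13219
  have h13221 := checkRangeG_sound parWF r2 pf13220 h13220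
  have h13222 := checkRangeG_sound parWF r2 pf13221 h13221
  have h13223 := checkRangeG_sound parWF r2 pf13222 h13222
  have h13224 := checkRangeG_sound parWF r2 pf13223 h13223
  have h13225 := checkRangeG_sound parWF r2 pf13224 h13224
  have h13226 := checkRangeG_sound parWF r2 pf13225 h13225
  have h13227 := checkRangeG_sound parWF r2 pf13226 h13226
  have h13228 := checkRangeG_sound parWF r2 pf13227 h13227
  have h13229 := checkRangeG_sound parWF r2 pf13228 h13228
  have h13230 := checkRangeG_sound parWF r2 pf13229 h13229
  have h13231 := checkRangeG_sound parWF r2 pf13230 h13230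
  have h13232 := checkRangeG_sound parWF r2 pf13231 h13231
  have h13233 := checkRangeG_sound parWF r2 pf13232 h13232
  have h13234 := checkRangeG_sound parWF r2 pf13233 h13233
  have h13235 := checkRangeG_sound parWF r2 pf13234 h13234
  have h13236 := checkRangeG_sound parWF r2 pf13235 h13235
  have h13237 := checkRangeG_sound parWF r2 pf13236 h13236
  have h13238 := checkRangeG_sound parWF r2 pf13237 h13237
  have h13239 := checkRangeG_sound parWF r2 pf13238 h13238
  have h13240 := checkRangeG_sound parWF r2 pf13239 h13239
  have h13241 := checkRangeG_sound parWF r2 pf13240 h13240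
  have h13242 := checkRangeG_sound parWF r2 pf13241 h13241
  have h13243 := checkRangeG_sound parWF r2 pf13242 h13242
  have h13244 := checkRangeG_sound parWF r2 pf13243 h13243
  have h13245 := checkRangeG_sound parWF r2 pf13244 h13244
  have h13246 := checkRangeG_sound parWF r2 pf13245 h13245
  have h13247 := checkRangeG_sound parWF r2 pf13246 h13246
  have h13248 := checkRangeG_sound parWF r2 pf13247 h13247
  have h13249 := checkRangeG_sound parWF r2 pf13248 h13248
  have h13250 := checkRangeG_sound parWF r2 pf13249 h13249
  exact h13250

theorem c265 (h13250 : ∀ j, j < 40603 → GoodG.{u} par (db j)) : ∀ j, j < 40782 → GoodG.{u} par (db j) := by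
  have h13251 := checkRangeG_sound parWF r2 pf13250 h13250
  have h13252 := checkRangeG_sound parWF r2 pf13251 h13251
  have h13253 := checkRangeG_sound parWF r2 pf13252 h13252
  have h13254 := checkRangeG_sound parWF r2 pf13253 h13253
  have h13255 := checkRangeG_sound parWF r2 pf13254 h13254
  have h13256 := checkRangeG_sound parWF r2 pf13255 h13255
  have h13257 := checkRangeG_sound parWF r2 pf13256 h13256
  have h13258 := checkRangeG_sound parWF r2 pf13257 h13257
  have h13259 := checkRangeG_sound parWF r2 pf13258 h13258
  have h13260 := checkRangeG_sound parWF r2 pf13259 h13259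
  have h13261 := checkRangeG_sound parWF r2 pf13260 h13260
  have h13262 := checkRangeG_sound parWF r2 pf13261 h13261
  have h13263 := checkRangeG_sound parWF r2 pf13262 h13262
  have h13264 := checkRangeG_sound parWF r2 pf13263 h13263
  have h13265 := checkRangeG_sound parWF r2 pf13264 h13264
  have h13266 := checkRangeG_sound parWF r2 pf13265 h13265
  have h13267 := checkRangeG_sound parWF r2 pf13266 h13266
  have h13268 := checkRangeG_sound parWF r2 pf13267 h13267
  have h13269 := checkRangeG_sound parWF r2 pf13268 h13268
  have h13270 := checkRangeG_sound parWF r2 pf13269 h13269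
  have h13271 := checkRangeG_sound parWF r2 pf13270 h13270
  have h13272 := checkRangeG_sound parWF r2 pf13271 h13271
  have h13273 := checkRangeG_sound parWF r2 pf13272 h13272
  have h13274 := checkRangeG_sound parWF r2 pf13273 h13273
  have h13275 := checkRangeG_sound parWF r2 pf13274 h13274
  have h13276 := checkRangeG_sound parWF r2 pf13275 h13275
  have h13277 := checkRangeG_sound parWF r2 pf13276 h13276
  have h13278 := checkRangeG_sound parWF r2 pf13277 h13277
  have h13279 := checkRangeG_sound parWF r2 pf13278 h13278
  have h13280 := checkRangeG_sound parWF r2 pf13279 h13279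
  have h13281 := checkRangeG_sound parWF r2 pf13280 h13280
  have h13282 := checkRangeG_sound parWF r2 pf13281 h13281
  have h13283 := checkRangeG_sound parWF r2 pf13282 h13282
  have h13284 := checkRangeG_sound parWF r2 pf13283 h13283
  have h13285 := checkRangeG_sound parWF r2 pf13284 h13284
  have h13286 := checkRangeG_sound parWF r2 pf13285 h13285
  have h13287 := checkRangeG_sound parWF r2 pf13286 h13286
  have h13288 := checkRangeG_sound parWF r2 pf13287 h13287
  have h13289 := checkRangeG_sound parWF r2 pf13288 h13288
  have h13290 := checkRangeG_sound parWF r2 pf13289 h13289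
  have h13291 := checkRangeG_sound parWF r2 pf13290 h13290
  have h13292 := checkRangeG_sound parWF r2 pf13291 h13291
  have h13293 := checkRangeG_sound parWF r2 pf13292 h13292
  have h13294 := checkRangeG_sound parWF r2 pf13293 h13293
  have h13295 := checkRangeG_sound parWF r2 pf13294 h13294
  have h13296 := checkRangeG_sound parWF r2 pf13295 h13295
  have h13297 := checkRangeG_sound parWF r2 pf13296 h13296
  have h13298 := checkRangeG_sound parWF r2 pf13297 h13297
  have h13299 := checkRangeG_sound parWF r2 pf13298 h13298
  have h13300 := checkRangeG_sound parWF r2 pf13299 h13299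
  exact h13300

theorem c266 (h13300 : ∀ j, j < 40782 → GoodG.{u} par (db j)) : ∀ j, j < 40970 → GoodG.{u} par (db j) := by
  have h13301 := checkRangeG_sound parWF r2 pf13300 h13300
  have h13302 := checkRangeG_sound parWF r2 pf13301 h13301
  have h13303 := checkRangeG_sound parWF r2 pf13302 h13302
  have h13304 := checkRangeG_sound parWF r2 pf13303 h13303
  have h13305 := checkRangeG_sound parWF r2 pf13304 h13304
  have h13306 := checkRangeG_sound parWF r2 pf13305 h13305
  have h13307 := checkRangeG_sound parWF r2 pf13306 h13306
  have h13308 := checkRangeG_sound parWF r2 pf13307 h13307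
  have h13309 := checkRangeG_sound parWF r2 pf13308 h13308
  have h13310 := checkRangeG_sound parWF r2 pf13309 h13309
  have h13311 := checkRangeG_sound parWF r2 pf13310 h13310
  have h13312 := checkRangeG_sound parWF r2 pf13311 h13311
  have h13313 := checkRangeG_sound parWF r2 pf13312 h13312
  have h13314 := checkRangeG_sound parWF r2 pf13313 h13313
  have h13315 := checkRangeG_sound parWF r2 pf13314 h13314
  have h13316 := checkRangeG_sound parWF r2 pf13315 h13315
  have h13317 := checkRangeG_sound parWF r2 pf13316 h13316
  have h13318 := checkRangeG_sound parWF r2 pf13317 h13317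
  have h13319 := checkRangeG_sound parWF r2 pf13318 h13318
  have h13320 := checkRangeG_sound parWF r2 pf13319 h13319
  have h13321 := checkRangeG_sound parWF r2 pf13320 h13320
  have h13322 := checkRangeG_sound parWF r2 pf13321 h13321
  have h13323 := checkRangeG_sound parWF r2 pf13322 h13322
  have h13324 := checkRangeG_sound parWF r2 pf13323 h13323
  have h13325 := checkRangeG_sound parWF r2 pf13324 h13324
  have h13326 := checkRangeG_sound parWF r2 pf13325 h13325
  have h13327 := checkRangeG_sound parWF r2 pf13326 h13326
  have h13328 := checkRangeG_sound parWF r2 pf13327 h13327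
  have h13329 := checkRangeG_sound parWF r2 pf13328 h13328
  have h13330 := checkRangeG_sound parWF r2 pf13329 h13329
  have h13331 := checkRangeG_sound parWF r2 pf13330 h13330
  have h13332 := checkRangeG_sound parWF r2 pf13331 h13331
  have h13333 := checkRangeG_sound parWF r2 pf13332 h13332
  have h13334 := checkRangeG_sound parWF r2 pf13333 h13333
  have h13335 := checkRangeG_sound parWF r2 pf13334 h13334
  have h13336 := checkRangeG_sound parWF r2 pf13335 h13335
  have h13337 := checkRangeG_sound parWF r2 pf13336 h13336
  have h13338 := checkRangeG_sound parWF r2 pf13337 h13337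
  have h13339 := checkRangeG_sound parWF r2 pf13338 h13338
  have h13340 := checkRangeG_sound parWF r2 pf13339 h13339
  have h13341 := checkRangeG_sound parWF r2 pf13340 h13340
  have h13342 := checkRangeG_sound parWF r2 pf13341 h13341
  have h13343 := checkRangeG_sound parWF r2 pf13342 h13342
  have h13344 := checkRangeG_sound parWF r2 pf13343 h13343
  have h13345 := checkRangeG_sound parWF r2 pf13344 h13344
  have h13346 := checkRangeG_sound parWF r2 pf13345 h13345
  have h13347 := checkRangeG_sound parWF r2 pf13346 h13346
  have h13348 := checkRangeG_sound parWF r2 pf13347 h13347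
  have h13349 := checkRangeG_sound parWF r2 pf13348 h13348
  have h13350 := checkRangeG_sound parWF r2 pf13349 h13349
  exact h13350

theorem c267 (h13350 : ∀ j, j < 40970 → GoodG.{u} par (db j)) : ∀ j, j < 41138 → GoodG.{u} par (db j) := by
  have h13351 := checkRangeG_sound parWF r2 pf13350 h13350
  have h13352 := checkRangeG_sound parWF r2 pf13351 h13351
  have h13353 := checkRangeG_sound parWF r2 pf13352 h13352
  have h13354 := checkRangeG_sound parWF r2 pf13353 h13353
  have h13355 := checkRangeG_sound parWF r2 pf13354 h13354
  have h13356 := checkRangeG_sound parWF r2 pf13355 h13355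
  have h13357 := checkRangeG_sound parWF r2 pf13356 h13356
  have h13358 := checkRangeG_sound parWF r2 pf13357 h13357
  have h13359 := checkRangeG_sound parWF r2 pf13358 h13358
  have h13360 := checkRangeG_sound parWF r2 pf13359 h13359
  have h13361 := checkRangeG_sound parWF r2 pf13360 h13360
  have h13362 := checkRangeG_sound parWF r2 pf13361 h13361
  have h13363 := checkRangeG_sound parWF r2 pf13362 h13362
  have h13364 := checkRangeG_sound parWF r2 pf13363 h13363
  have h13365 := checkRangeG_sound parWF r2 pf13364 h13364
  have h13366 := checkRangeG_sound parWF r2 pf13365 h13365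
  have h13367 := checkRangeG_sound parWF r2 pf13366 h13366
  have h13368 := checkRangeG_sound parWF r2 pf13367 h13367
  have h13369 := checkRangeG_sound parWF r2 pf13368 h13368
  have h13370 := checkRangeG_sound parWF r2 pf13369 h13369
  have h13371 := checkRangeG_sound parWF r2 pf13370 h13370
  have h13372 := checkRangeG_sound parWF r2 pf13371 h13371
  have h13373 := checkRangeG_sound parWF r2 pf13372 h13372
  have h13374 := checkRangeG_sound parWF r2 pf13373 h13373
  have h13375 := checkRangeG_sound parWF r2 pf13374 h13374
  have h13376 := checkRangeG_sound parWF r2 pf13375 h13375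
  have h13377 := checkRangeG_sound parWF r2 pf13376 h13376
  have h13378 := checkRangeG_sound parWF r2 pf13377 h13377
  have h13379 := checkRangeG_sound parWF r2 pf13378 h13378
  have h13380 := checkRangeG_sound parWF r2 pf13379 h13379
  have h13381 := checkRangeG_sound parWF r2 pf13380 h13380
  have h13382 := checkRangeG_sound parWF r2 pf13381 h13381
  have h13383 := checkRangeG_sound parWF r2 pf13382 h13382
  have h13384 := checkRangeG_sound parWF r2 pf13383 h13383
  have h13385 := checkRangeG_sound parWF r2 pf13384 h13384
  have h13386 := checkRangeG_sound parWF r2 pf13385 h13385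
  have h13387 := checkRangeG_sound parWF r2 pf13386 h13386
  have h13388 := checkRangeG_sound parWF r2 pf13387 h13387
  have h13389 := checkRangeG_sound parWF r2 pf13388 h13388
  have h13390 := checkRangeG_sound parWF r2 pf13389 h13389
  have h13391 := checkRangeG_sound parWF r2 pf13390 h13390
  have h13392 := checkRangeG_sound parWF r2 pf13391 h13391
  have h13393 := checkRangeG_sound parWF r2 pf13392 h13392
  have h13394 := checkRangeG_sound parWF r2 pf13393 h13393
  have h13395 := checkRangeG_sound parWF r2 pf13394 h13394
  have h13396 := checkRangeG_sound parWF r2 pf13395 h13395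
  have h13397 := checkRangeG_sound parWF r2 pf13396 h13396
  have h13398 := checkRangeG_sound parWF r2 pf13397 h13397
  have h13399 := checkRangeG_sound parWF r2 pf13398 h13398
  have h13400 := checkRangeG_sound parWF r2 pf13399 h13399
  exact h13400

theorem c268 (h13400 : ∀ j, j < 41138 → GoodG.{u} par (db j)) : ∀ j, j < 41335 → GoodG.{u} par (db j) := by
  have h13401 := checkRangeG_sound parWF r2 pf13400 h13400
  have h13402 := checkRangeG_sound parWF r2 pf13401 h13401
  have h13403 := checkRangeG_sound parWF r2 pf13402 h13402
  have h13404 := checkRangeG_sound parWF r2 pf13403 h13403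
  have h13405 := checkRangeG_sound parWF r2 pf13404 h13404
  have h13406 := checkRangeG_sound parWF r2 pf13405 h13405
  have h13407 := checkRangeG_sound parWF r2 pf13406 h13406
  have h13408 := checkRangeG_sound parWF r2 pf13407 h13407
  have h13409 := checkRangeG_sound parWF r2 pf13408 h13408
  have h13410 := checkRangeG_sound parWF r2 pf13409 h13409
  have h13411 := checkRangeG_sound parWF r2 pf13410 h13410
  have h13412 := checkRangeG_sound parWF r2 pf13411 h13411
  have h13413 := checkRangeG_sound parWF r2 pf13412 h13412
  have h13414 := checkRangeG_sound parWF r2 pf13413 h13413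
  have h13415 := checkRangeG_sound parWF r2 pf13414 h13414
  have h13416 := checkRangeG_sound parWF r2 pf13415 h13415
  have h13417 := checkRangeG_sound parWF r2 pf13416 h13416
  have h13418 := checkRangeG_sound parWF r2 pf13417 h13417
  have h13419 := checkRangeG_sound parWF r2 pf13418 h13418
  have h13420 := checkRangeG_sound parWF r2 pf13419 h13419
  have h13421 := checkRangeG_sound parWF r2 pf13420 h13420
  have h13422 := checkRangeG_sound parWF r2 pf13421 h13421
  have h13423 := checkRangeG_sound parWF r2 pf13422 h13422
  have h13424 := checkRangeG_sound parWF r2 pf13423 h13423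
  have h13425 := checkRangeG_sound parWF r2 pf13424 h13424
  have h13426 := checkRangeG_sound parWF r2 pf13425 h13425
  have h13427 := checkRangeG_sound parWF r2 pf13426 h13426
  have h13428 := checkRangeG_sound parWF r2 pf13427 h13427
  have h13429 := checkRangeG_sound parWF r2 pf13428 h13428
  have h13430 := checkRangeG_sound parWF r2 pf13429 h13429
  have h13431 := checkRangeG_sound parWF r2 pf13430 h13430
  have h13432 := checkRangeG_sound parWF r2 pf13431 h13431
  have h13433 := checkRangeG_sound parWF r2 pf13432 h13432
  have h13434 := checkRangeG_sound parWF r2 pf13433 h13433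
  have h13435 := checkRangeG_sound parWF r2 pf13434 h13434
  have h13436 := checkRangeG_sound parWF r2 pf13435 h13435
  have h13437 := checkRangeG_sound parWF r2 pf13436 h13436
  have h13438 := checkRangeG_sound parWF r2 pf13437 h13437
  have h13439 := checkRangeG_sound parWF r2 pf13438 h13438
  have h13440 := checkRangeG_sound parWF r2 pf13439 h13439
  have h13441 := checkRangeG_sound parWF r2 pf13440 h13440
  have h13442 := checkRangeG_sound parWF r2 pf13441 h13441
  have h13443 := checkRangeG_sound parWF r2 pf13442 h13442
  have h13444 := checkRangeG_sound parWF r2 pf13443 h13443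
  have h13445 := checkRangeG_sound parWF r2 pf13444 h13444
  have h13446 := checkRangeG_sound parWF r2 pf13445 h13445
  have h13447 := checkRangeG_sound parWF r2 pf13446 h13446
  have h13448 := checkRangeG_sound parWF r2 pf13447 h13447
  have h13449 := checkRangeG_sound parWF r2 pf13448 h13448
  have h13450 := checkRangeG_sound parWF r2 pf13449 h13449
  exact h13450

theorem c269 (h13450 : ∀ j, j < 41335 → GoodG.{u} par (db j)) : ∀ j, j < 41520 → GoodG.{u} par (db j) := by
  have h13451 := checkRangeG_sound parWF r2 pf13450 h13450
  have h13452 := checkRangeG_sound parWF r2 pf13451 h13451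
  have h13453 := checkRangeG_sound parWF r2 pf13452 h13452
  have h13454 := checkRangeG_sound parWF r2 pf13453 h13453
  have h13455 := checkRangeG_sound parWF r2 pf13454 h13454
  have h13456 := checkRangeG_sound parWF r2 pf13455 h13455
  have h13457 := checkRangeG_sound parWF r2 pf13456 h13456
  have h13458 := checkRangeG_sound parWF r2 pf13457 h13457
  have h13459 := checkRangeG_sound parWF r2 pf13458 h13458
  have h13460 := checkRangeG_sound parWF r2 pf13459 h13459
  have h13461 := checkRangeG_sound parWF r2 pf13460 h13460
  have h13462 := checkRangeG_sound parWF r2 pf13461 h13461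
  have h13463 := checkRangeG_sound parWF r2 pf13462 h13462
  have h13464 := checkRangeG_sound parWF r2 pf13463 h13463
  have h13465 := checkRangeG_sound parWF r2 pf13464 h13464
  have h13466 := checkRangeG_sound parWF r2 pf13465 h13465
  have h13467 := checkRangeG_sound parWF r2 pf13466 h13466
  have h13468 := checkRangeG_sound parWF r2 pf13467 h13467
  have h13469 := checkRangeG_sound parWF r2 pf13468 h13468
  have h13470 := checkRangeG_sound parWF r2 pf13469 h13469
  have h13471 := checkRangeG_sound parWF r2 pf13470 h13470
  have h13472 := checkRangeG_sound parWF r2 pf13471 h13471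
  have h13473 := checkRangeG_sound parWF r2 pf13472 h13472
  have h13474 := checkRangeG_sound parWF r2 pf13473 h13473
  have h13475 := checkRangeG_sound parWF r2 pf13474 h13474
  have h13476 := checkRangeG_sound parWF r2 pf13475 h13475
  have h13477 := checkRangeG_sound parWF r2 pf13476 h13476
  have h13478 := checkRangeG_sound parWF r2 pf13477 h13477
  have h13479 := checkRangeG_sound parWF r2 pf13478 h13478
  have h13480 := checkRangeG_sound parWF r2 pf13479 h13479
  have h13481 := checkRangeG_sound parWF r2 pf13480 h13480
  have h13482 := checkRangeG_sound parWF r2 pf13481 h13481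
  have h13483 := checkRangeG_sound parWF r2 pf13482 h13482
  have h13484 := checkRangeG_sound parWF r2 pf13483 h13483
  have h13485 := checkRangeG_sound parWF r2 pf13484 h13484
  have h13486 := checkRangeG_sound parWF r2 pf13485 h13485
  have h13487 := checkRangeG_sound parWF r2 pf13486 h13486
  have h13488 := checkRangeG_sound parWF r2 pf13487 h13487
  have h13489 := checkRangeG_sound parWF r2 pf13488 h13488
  have h13490 := checkRangeG_sound parWF r2 pf13489 h13489
  have h13491 := checkRangeG_sound parWF r2 pf13490 h13490
  have h13492 := checkRangeG_sound parWF r2 pf13491 h13491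
  have h13493 := checkRangeG_sound parWF r2 pf13492 h13492
  have h13494 := checkRangeG_sound parWF r2 pf13493 h13493
  have h13495 := checkRangeG_sound parWF r2 pf13494 h13494
  have h13496 := checkRangeG_sound parWF r2 pf13495 h13495
  have h13497 := checkRangeG_sound parWF r2 pf13496 h13496
  have h13498 := checkRangeG_sound parWF r2 pf13497 h13497
  have h13499 := checkRangeG_sound parWF r2 pf13498 h13498
  have h13500 := checkRangeG_sound parWF r2 pf13499 h13499
  exact h13500

theorem c270 (h13500 : ∀ j, j < 41520 → GoodG.{u} par (db j)) : ∀ j, j < 41703 → GoodG.{u} par (db j) := by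
  have h13501 := checkRangeG_sound parWF r2 pf13500 h13500
  have h13502 := checkRangeG_sound parWF r2 pf13501 h13501
  have h13503 := checkRangeG_sound parWF r2 pf13502 h13502
  have h13504 := checkRangeG_sound parWF r2 pf13503 h13503
  have h13505 := checkRangeG_sound parWF r2 pf13504 h13504
  have h13506 := checkRangeG_sound parWF r2 pf13505 h13505
  have h13507 := checkRangeG_sound parWF r2 pf13506 h13506
  have h13508 := checkRangeG_sound parWF r2 pf13507 h13507
  have h13509 := checkRangeG_sound parWF r2 pf13508 h13508
  have h13510 := checkRangeG_sound parWF r2 pf13509 h13509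
  have h13511 := checkRangeG_sound parWF r2 pf13510 h13510
  have h13512 := checkRangeG_sound parWF r2 pf13511 h13511
  have h13513 := checkRangeG_sound parWF r2 pf13512 h13512
  have h13514 := checkRangeG_sound parWF r2 pf13513 h13513
  have h13515 := checkRangeG_sound parWF r2 pf13514 h13514
  have h13516 := checkRangeG_sound parWF r2 pf13515 h13515
  have h13517 := checkRangeG_sound parWF r2 pf13516 h13516
  have h13518 := checkRangeG_sound parWF r2 pf13517 h13517
  have h13519 := checkRangeG_sound parWF r2 pf13518 h13518
  have h13520 := checkRangeG_sound parWF r2 pf13519 h13519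
  have h13521 := checkRangeG_sound parWF r2 pf13520 h13520
  have h13522 := checkRangeG_sound parWF r2 pf13521 h13521
  have h13523 := checkRangeG_sound parWF r2 pf13522 h13522
  have h13524 := checkRangeG_sound parWF r2 pf13523 h13523
  have h13525 := checkRangeG_sound parWF r2 pf13524 h13524
  have h13526 := checkRangeG_sound parWF r2 pf13525 h13525
  have h13527 := checkRangeG_sound parWF r2 pf13526 h13526
  have h13528 := checkRangeG_sound parWF r2 pf13527 h13527
  have h13529 := checkRangeG_sound parWF r2 pf13528 h13528
  have h13530 := checkRangeG_sound parWF r2 pf13529 h13529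
  have h13531 := checkRangeG_sound parWF r2 pf13530 h13530
  have h13532 := checkRangeG_sound parWF r2 pf13531 h13531
  have h13533 := checkRangeG_sound parWF r2 pf13532 h13532
  have h13534 := checkRangeG_sound parWF r2 pf13533 h13533
  have h13535 := checkRangeG_sound parWF r2 pf13534 h13534
  have h13536 := checkRangeG_sound parWF r2 pf13535 h13535
  have h13537 := checkRangeG_sound parWF r2 pf13536 h13536
  have h13538 := checkRangeG_sound parWF r2 pf13537 h13537
  have h13539 := checkRangeG_sound parWF r2 pf13538 h13538
  have h13540 := checkRangeG_sound parWF r2 pf13539 h13539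
  have h13541 := checkRangeG_sound parWF r2 pf13540 h13540
  have h13542 := checkRangeG_sound parWF r2 pf13541 h13541
  have h13543 := checkRangeG_sound parWF r2 pf13542 h13542
  have h13544 := checkRangeG_sound parWF r2 pf13543 h13543
  have h13545 := checkRangeG_sound parWF r2 pf13544 h13544
  have h13546 := checkRangeG_sound parWF r2 pf13545 h13545
  have h13547 := checkRangeG_sound parWF r2 pf13546 h13546
  have h13548 := checkRangeG_sound parWF r2 pf13547 h13547
  have h13549 := checkRangeG_sound parWF r2 pf13548 h13548
  have h13550 := checkRangeG_sound parWF r2 pf13549 h13549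
  exact h13550

theorem c271 (h13550 : ∀ j, j < 41703 → GoodG.{u} par (db j)) : ∀ j, j < 41903 → GoodG.{u} par (db j) := by
  have h13551 := checkRangeG_sound parWF r2 pf13550 h13550
  have h13552 := checkRangeG_sound parWF r2 pf13551 h13551
  have h13553 := checkRangeG_sound parWF r2 pf13552 h13552
  have h13554 := checkRangeG_sound parWF r2 pf13553 h13553
  have h13555 := checkRangeG_sound parWF r2 pf13554 h13554
  have h13556 := checkRangeG_sound parWF r2 pf13555 h13555
  have h13557 := checkRangeG_sound parWF r2 pf13556 h13556
  have h13558 := checkRangeG_sound parWF r2 pf13557 h13557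
  have h13559 := checkRangeG_sound parWF r2 pf13558 h13558
  have h13560 := checkRangeG_sound parWF r2 pf13559 h13559
  have h13561 := checkRangeG_sound parWF r2 pf13560 h13560
  have h13562 := checkRangeG_sound parWF r2 pf13561 h13561
  have h13563 := checkRangeG_sound parWF r2 pf13562 h13562
  have h13564 := checkRangeG_sound parWF r2 pf13563 h13563
  have h13565 := checkRangeG_sound parWF r2 pf13564 h13564
  have h13566 := checkRangeG_sound parWF r2 pf13565 h13565
  have h13567 := checkRangeG_sound parWF r2 pf13566 h13566
  have h13568 := checkRangeG_sound parWF r2 pf13567 h13567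
  have h13569 := checkRangeG_sound parWF r2 pf13568 h13568
  have h13570 := checkRangeG_sound parWF r2 pf13569 h13569
  have h13571 := checkRangeG_sound parWF r2 pf13570 h13570
  have h13572 := checkRangeG_sound parWF r2 pf13571 h13571
  have h13573 := checkRangeG_sound parWF r2 pf13572 h13572
  have h13574 := checkRangeG_sound parWF r2 pf13573 h13573
  have h13575 := checkRangeG_sound parWF r2 pf13574 h13574
  have h13576 := checkRangeG_sound parWF r2 pf13575 h13575
  have h13577 := checkRangeG_sound parWF r2 pf13576 h13576
  have h13578 := checkRangeG_sound parWF r2 pf13577 h13577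
  have h13579 := checkRangeG_sound parWF r2 pf13578 h13578
  have h13580 := checkRangeG_sound parWF r2 pf13579 h13579
  have h13581 := checkRangeG_sound parWF r2 pf13580 h13580
  have h13582 := checkRangeG_sound parWF r2 pf13581 h13581
  have h13583 := checkRangeG_sound parWF r2 pf13582 h13582
  have h13584 := checkRangeG_sound parWF r2 pf13583 h13583
  have h13585 := checkRangeG_sound parWF r2 pf13584 h13584
  have h13586 := checkRangeG_sound parWF r2 pf13585 h13585
  have h13587 := checkRangeG_sound parWF r2 pf13586 h13586
  have h13588 := checkRangeG_sound parWF r2 pf13587 h13587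
  have h13589 := checkRangeG_sound parWF r2 pf13588 h13588
  have h13590 := checkRangeG_sound parWF r2 pf13589 h13589
  have h13591 := checkRangeG_sound parWF r2 pf13590 h13590
  have h13592 := checkRangeG_sound parWF r2 pf13591 h13591
  have h13593 := checkRangeG_sound parWF r2 pf13592 h13592
  have h13594 := checkRangeG_sound parWF r2 pf13593 h13593
  have h13595 := checkRangeG_sound parWF r2 pf13594 h13594
  have h13596 := checkRangeG_sound parWF r2 pf13595 h13595
  have h13597 := checkRangeG_sound parWF r2 pf13596 h13596
  have h13598 := checkRangeG_sound parWF r2 pf13597 h13597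
  have h13599 := checkRangeG_sound parWF r2 pf13598 h13598
  have h13600 := checkRangeG_sound parWF r2 pf13599 h13599
  exact h13600

theorem c272 (h13600 : ∀ j, j < 41903 → GoodG.{u} par (db j)) : ∀ j, j < 42089 → GoodG.{u} par (db j) := by
  have h13601 := checkRangeG_sound parWF r2 pf13600 h13600
  have h13602 := checkRangeG_sound parWF r2 pf13601 h13601
  have h13603 := checkRangeG_sound parWF r2 pf13602 h13602
  have h13604 := checkRangeG_sound parWF r2 pf13603 h13603
  have h13605 := checkRangeG_sound parWF r2 pf13604 h13604
  have h13606 := checkRangeG_sound parWF r2 pf13605 h13605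
  have h13607 := checkRangeG_sound parWF r2 pf13606 h13606
  have h13608 := checkRangeG_sound parWF r2 pf13607 h13607
  have h13609 := checkRangeG_sound parWF r2 pf13608 h13608
  have h13610 := checkRangeG_sound parWF r2 pf13609 h13609
  have h13611 := checkRangeG_sound parWF r2 pf13610 h13610
  have h13612 := checkRangeG_sound parWF r2 pf13611 h13611
  have h13613 := checkRangeG_sound parWF r2 pf13612 h13612
  have h13614 := checkRangeG_sound parWF r2 pf13613 h13613
  have h13615 := checkRangeG_sound parWF r2 pf13614 h13614
  have h13616 := checkRangeG_sound parWF r2 pf13615 h13615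
  have h13617 := checkRangeG_sound parWF r2 pf13616 h13616
  have h13618 := checkRangeG_sound parWF r2 pf13617 h13617
  have h13619 := checkRangeG_sound parWF r2 pf13618 h13618
  have h13620 := checkRangeG_sound parWF r2 pf13619 h13619
  have h13621 := checkRangeG_sound parWF r2 pf13620 h13620
  have h13622 := checkRangeG_sound parWF r2 pf13621 h13621
  have h13623 := checkRangeG_sound parWF r2 pf13622 h13622
  have h13624 := checkRangeG_sound parWF r2 pf13623 h13623
  have h13625 := checkRangeG_sound parWF r2 pf13624 h13624
  have h13626 := checkRangeG_sound parWF r2 pf13625 h13625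
  have h13627 := checkRangeG_sound parWF r2 pf13626 h13626
  have h13628 := checkRangeG_sound parWF r2 pf13627 h13627
  have h13629 := checkRangeG_sound parWF r2 pf13628 h13628
  have h13630 := checkRangeG_sound parWF r2 pf13629 h13629
  have h13631 := checkRangeG_sound parWF r2 pf13630 h13630
  have h13632 := checkRangeG_sound parWF r2 pf13631 h13631
  have h13633 := checkRangeG_sound parWF r2 pf13632 h13632
  have h13634 := checkRangeG_sound parWF r2 pf13633 h13633
  have h13635 := checkRangeG_sound parWF r2 pf13634 h13634
  have h13636 := checkRangeG_sound parWF r2 pf13635 h13635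
  have h13637 := checkRangeG_sound parWF r2 pf13636 h13636
  have h13638 := checkRangeG_sound parWF r2 pf13637 h13637
  have h13639 := checkRangeG_sound parWF r2 pf13638 h13638
  have h13640 := checkRangeG_sound parWF r2 pf13639 h13639
  have h13641 := checkRangeG_sound parWF r2 pf13640 h13640
  have h13642 := checkRangeG_sound parWF r2 pf13641 h13641
  have h13643 := checkRangeG_sound parWF r2 pf13642 h13642
  have h13644 := checkRangeG_sound parWF r2 pf13643 h13643
  have h13645 := checkRangeG_sound parWF r2 pf13644 h13644
  have h13646 := checkRangeG_sound parWF r2 pf13645 h13645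
  have h13647 := checkRangeG_sound parWF r2 pf13646 h13646
  have h13648 := checkRangeG_sound parWF r2 pf13647 h13647
  have h13649 := checkRangeG_sound parWF r2 pf13648 h13648
  have h13650 := checkRangeG_sound parWF r2 pf13649 h13649
  exact h13650

theorem c273 (h13650 : ∀ j, j < 42089 → GoodG.{u} par (db j)) : ∀ j, j < 42284 → GoodG.{u} par (db j) := by
  have h13651 := checkRangeG_sound parWF r2 pf13650 h13650
  have h13652 := checkRangeG_sound parWF r2 pf13651 h13651
  have h13653 := checkRangeG_sound parWF r2 pf13652 h13652
  have h13654 := checkRangeG_sound parWF r2 pf13653 h13653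
  have h13655 := checkRangeG_sound parWF r2 pf13654 h13654
  have h13656 := checkRangeG_sound parWF r2 pf13655 h13655
  have h13657 := checkRangeG_sound parWF r2 pf13656 h13656
  have h13658 := checkRangeG_sound parWF r2 pf13657 h13657
  have h13659 := checkRangeG_sound parWF r2 pf13658 h13658
  have h13660 := checkRangeG_sound parWF r2 pf13659 h13659
  have h13661 := checkRangeG_sound parWF r2 pf13660 h13660
  have h13662 := checkRangeG_sound parWF r2 pf13661 h13661
  have h13663 := checkRangeG_sound parWF r2 pf13662 h13662
  have h13664 := checkRangeG_sound parWF r2 pf13663 h13663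
  have h13665 := checkRangeG_sound parWF r2 pf13664 h13664
  have h13666 := checkRangeG_sound parWF r2 pf13665 h13665
  have h13667 := checkRangeG_sound parWF r2 pf13666 h13666
  have h13668 := checkRangeG_sound parWF r2 pf13667 h13667
  have h13669 := checkRangeG_sound parWF r2 pf13668 h13668
  have h13670 := checkRangeG_sound parWF r2 pf13669 h13669
  have h13671 := checkRangeG_sound parWF r2 pf13670 h13670
  have h13672 := checkRangeG_sound parWF r2 pf13671 h13671
  have h13673 := checkRangeG_sound parWF r2 pf13672 h13672
  have h13674 := checkRangeG_sound parWF r2 pf13673 h13673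
  have h13675 := checkRangeG_sound parWF r2 pf13674 h13674
  have h13676 := checkRangeG_sound parWF r2 pf13675 h13675
  have h13677 := checkRangeG_sound parWF r2 pf13676 h13676
  have h13678 := checkRangeG_sound parWF r2 pf13677 h13677
  have h13679 := checkRangeG_sound parWF r2 pf13678 h13678
  have h13680 := checkRangeG_sound parWF r2 pf13679 h13679
  have h13681 := checkRangeG_sound parWF r2 pf13680 h13680
  have h13682 := checkRangeG_sound parWF r2 pf13681 h13681
  have h13683 := checkRangeG_sound parWF r2 pf13682 h13682
  have h13684 := checkRangeG_sound parWF r2 pf13683 h13683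
  have h13685 := checkRangeG_sound parWF r2 pf13684 h13684
  have h13686 := checkRangeG_sound parWF r2 pf13685 h13685
  have h13687 := checkRangeG_sound parWF r2 pf13686 h13686
  have h13688 := checkRangeG_sound parWF r2 pf13687 h13687
  have h13689 := checkRangeG_sound parWF r2 pf13688 h13688
  have h13690 := checkRangeG_sound parWF r2 pf13689 h13689
  have h13691 := checkRangeG_sound parWF r2 pf13690 h13690
  have h13692 := checkRangeG_sound parWF r2 pf13691 h13691
  have h13693 := checkRangeG_sound parWF r2 pf13692 h13692
  have h13694 := checkRangeG_sound parWF r2 pf13693 h13693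
  have h13695 := checkRangeG_sound parWF r2 pf13694 h13694
  have h13696 := checkRangeG_sound parWF r2 pf13695 h13695
  have h13697 := checkRangeG_sound parWF r2 pf13696 h13696
  have h13698 := checkRangeG_sound parWF r2 pf13697 h13697
  have h13699 := checkRangeG_sound parWF r2 pf13698 h13698
  have h13700 := checkRangeG_sound parWF r2 pf13699 h13699
  exact h13700

theorem c274 (h13700 : ∀ j, j < 42284 → GoodG.{u} par (db j)) : ∀ j, j < 42476 → GoodG.{u} par (db j) := by
  have h13701 := checkRangeG_sound parWF r2 pf13700 h13700
  have h13702 := checkRangeG_sound parWF r2 pf13701 h13701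
  have h13703 := checkRangeG_sound parWF r2 pf13702 h13702
  have h13704 := checkRangeG_sound parWF r2 pf13703 h13703
  have h13705 := checkRangeG_sound parWF r2 pf13704 h13704
  have h13706 := checkRangeG_sound parWF r2 pf13705 h13705
  have h13707 := checkRangeG_sound parWF r2 pf13706 h13706
  have h13708 := checkRangeG_sound parWF r2 pf13707 h13707
  have h13709 := checkRangeG_sound parWF r2 pf13708 h13708
  have h13710 := checkRangeG_sound parWF r2 pf13709 h13709
  have h13711 := checkRangeG_sound parWF r2 pf13710 h13710
  have h13712 := checkRangeG_sound parWF r2 pf13711 h13711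
  have h13713 := checkRangeG_sound parWF r2 pf13712 h13712
  have h13714 := checkRangeG_sound parWF r2 pf13713 h13713
  have h13715 := checkRangeG_sound parWF r2 pf13714 h13714
  have h13716 := checkRangeG_sound parWF r2 pf13715 h13715
  have h13717 := checkRangeG_sound parWF r2 pf13716 h13716
  have h13718 := checkRangeG_sound parWF r2 pf13717 h13717
  have h13719 := checkRangeG_sound parWF r2 pf13718 h13718
  have h13720 := checkRangeG_sound parWF r2 pf13719 h13719
  have h13721 := checkRangeG_sound parWF r2 pf13720 h13720
  have h13722 := checkRangeG_sound parWF r2 pf13721 h13721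
  have h13723 := checkRangeG_sound parWF r2 pf13722 h13722
  have h13724 := checkRangeG_sound parWF r2 pf13723 h13723
  have h13725 := checkRangeG_sound parWF r2 pf13724 h13724
  have h13726 := checkRangeG_sound parWF r2 pf13725 h13725
  have h13727 := checkRangeG_sound parWF r2 pf13726 h13726
  have h13728 := checkRangeG_sound parWF r2 pf13727 h13727
  have h13729 := checkRangeG_sound parWF r2 pf13728 h13728
  have h13730 := checkRangeG_sound parWF r2 pf13729 h13729
  have h13731 := checkRangeG_sound parWF r2 pf13730 h13730
  have h13732 := checkRangeG_sound parWF r2 pf13731 h13731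
  have h13733 := checkRangeG_sound parWF r2 pf13732 h13732
  have h13734 := checkRangeG_sound parWF r2 pf13733 h13733
  have h13735 := checkRangeG_sound parWF r2 pf13734 h13734
  have h13736 := checkRangeG_sound parWF r2 pf13735 h13735
  have h13737 := checkRangeG_sound parWF r2 pf13736 h13736
  have h13738 := checkRangeG_sound parWF r2 pf13737 h13737
  have h13739 := checkRangeG_sound parWF r2 pf13738 h13738
  have h13740 := checkRangeG_sound parWF r2 pf13739 h13739
  have h13741 := checkRangeG_sound parWF r2 pf13740 h13740
  have h13742 := checkRangeG_sound parWF r2 pf13741 h13741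
  have h13743 := checkRangeG_sound parWF r2 pf13742 h13742
  have h13744 := checkRangeG_sound parWF r2 pf13743 h13743
  have h13745 := checkRangeG_sound parWF r2 pf13744 h13744
  have h13746 := checkRangeG_sound parWF r2 pf13745 h13745
  have h13747 := checkRangeG_sound parWF r2 pf13746 h13746
  have h13748 := checkRangeG_sound parWF r2 pf13747 h13747
  have h13749 := checkRangeG_sound parWF r2 pf13748 h13748
  have h13750 := checkRangeG_sound parWF r2 pf13749 h13749
  exact h13750

theorem c275 (h13750 : ∀ j, j < 42476 → GoodG.{u} par (db j)) : ∀ j, j < 42654 → GoodG.{u} par (db j) := by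
  have h13751 := checkRangeG_sound parWF r2 pf13750 h13750
  have h13752 := checkRangeG_sound parWF r2 pf13751 h13751
  have h13753 := checkRangeG_sound parWF r2 pf13752 h13752
  have h13754 := checkRangeG_sound parWF r2 pf13753 h13753
  have h13755 := checkRangeG_sound parWF r2 pf13754 h13754
  have h13756 := checkRangeG_sound parWF r2 pf13755 h13755
  have h13757 := checkRangeG_sound parWF r2 pf13756 h13756
  have h13758 := checkRangeG_sound parWF r2 pf13757 h13757
  have h13759 := checkRangeG_sound parWF r2 pf13758 h13758
  have h13760 := checkRangeG_sound parWF r2 pf13759 h13759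
  have h13761 := checkRangeG_sound parWF r2 pf13760 h13760
  have h13762 := checkRangeG_sound parWF r2 pf13761 h13761
  have h13763 := checkRangeG_sound parWF r2 pf13762 h13762
  have h13764 := checkRangeG_sound parWF r2 pf13763 h13763
  have h13765 := checkRangeG_sound parWF r2 pf13764 h13764
  have h13766 := checkRangeG_sound parWF r2 pf13765 h13765
  have h13767 := checkRangeG_sound parWF r2 pf13766 h13766
  have h13768 := checkRangeG_sound parWF r2 pf13767 h13767
  have h13769 := checkRangeG_sound parWF r2 pf13768 h13768
  have h13770 := checkRangeG_sound parWF r2 pf13769 h13769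
  have h13771 := checkRangeG_sound parWF r2 pf13770 h13770
  have h13772 := checkRangeG_sound parWF r2 pf13771 h13771
  have h13773 := checkRangeG_sound parWF r2 pf13772 h13772
  have h13774 := checkRangeG_sound parWF r2 pf13773 h13773
  have h13775 := checkRangeG_sound parWF r2 pf13774 h13774
  have h13776 := checkRangeG_sound parWF r2 pf13775 h13775
  have h13777 := checkRangeG_sound parWF r2 pf13776 h13776
  have h13778 := checkRangeG_sound parWF r2 pf13777 h13777
  have h13779 := checkRangeG_sound parWF r2 pf13778 h13778
  have h13780 := checkRangeG_sound parWF r2 pf13779 h13779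
  have h13781 := checkRangeG_sound parWF r2 pf13780 h13780
  have h13782 := checkRangeG_sound parWF r2 pf13781 h13781
  have h13783 := checkRangeG_sound parWF r2 pf13782 h13782
  have h13784 := checkRangeG_sound parWF r2 pf13783 h13783
  have h13785 := checkRangeG_sound parWF r2 pf13784 h13784
  have h13786 := checkRangeG_sound parWF r2 pf13785 h13785
  have h13787 := checkRangeG_sound parWF r2 pf13786 h13786
  have h13788 := checkRangeG_sound parWF r2 pf13787 h13787
  have h13789 := checkRangeG_sound parWF r2 pf13788 h13788
  have h13790 := checkRangeG_sound parWF r2 pf13789 h13789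
  have h13791 := checkRangeG_sound parWF r2 pf13790 h13790
  have h13792 := checkRangeG_sound parWF r2 pf13791 h13791
  have h13793 := checkRangeG_sound parWF r2 pf13792 h13792
  have h13794 := checkRangeG_sound parWF r2 pf13793 h13793
  have h13795 := checkRangeG_sound parWF r2 pf13794 h13794
  have h13796 := checkRangeG_sound parWF r2 pf13795 h13795
  have h13797 := checkRangeG_sound parWF r2 pf13796 h13796
  have h13798 := checkRangeG_sound parWF r2 pf13797 h13797
  have h13799 := checkRangeG_sound parWF r2 pf13798 h13798
  have h13800 := checkRangeG_sound parWF r2 pf13799 h13799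
  exact h13800


end Vale.Agent.P045g.C61
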