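import Vale.Agent.P045g.C61.WF
import Vale.Agent.P045g.C61.Pf230
import Vale.Agent.P045g.C61.Pf231
import Vale.Agent.P045g.C61.Pf232
import Vale.Agent.P045g.C61.Pf233
import Vale.Agent.P045g.C61.Pf234
import Vale.Agent.P045g.C61.Pf235
import Vale.Agent.P045g.C61.Pf236
import Vale.Agent.P045g.C61.Pf237
import Vale.Agent.P045g.C61.Pf238
import Vale.Agent.P045g.C61.Pf239

namespace Vale.Agent.P045g.C61

open Vale.Agent.P045b Vale.Agent.P045g

universe u

theorem c276 (h13800 : ∀ j, j < 42654 → GoodG.{u} par (db j)) : ∀ j, j < 42822 → GoodG.{u} par (db j) := by
  have h13801 := checkRangeG_sound parWF r2 pf13800 h13800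
  have h13802 := checkRangeG_sound parWF r2 pf13801 h13801
  have h13803 := checkRangeG_sound parWF r2 pf13802 h13802
  have h13804 := checkRangeG_sound parWF r2 pf13803 h13803
  have h13805 := checkRangeG_sound parWF r2 pf13804 h13804
  have h13806 := checkRangeG_sound parWF r2 pf13805 h13805
  have h13807 := checkRangeG_sound parWF r2 pf13806 h13806
  have h13808 := checkRangeG_sound parWF r2 pf13807 h13807
  have h13809 := checkRangeG_sound parWF r2 pf13808 h13808
  have h13810 := checkRangeG_sound parWF r2 pf13809 h13809
  have h13811 := checkRangeG_sound parWF r2 pf13810 h13810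
  have h13812 := checkRangeG_sound parWF r2 pf13811 h13811
  have h13813 := checkRangeG_sound parWF r2 pf13812 h13812
  have h13814 := checkRangeG_sound parWF r2 pf13813 h13813
  have h13815 := checkRangeG_sound parWF r2 pf13814 h13814
  have h13816 := checkRangeG_sound parWF r2 pf13815 h13815
  have h13817 := checkRangeG_sound parWF r2 pf13816 h13816
  have h13818 := checkRangeG_sound parWF r2 pf13817 h13817
  have h13819 := checkRangeG_sound parWF r2 pf13818 h13818
  have h13820 := checkRangeG_sound parWF r2 pf13819 h13819
  have h13821 := checkRangeG_sound parWF r2 pf13820 h13820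
  have h13822 := checkRangeG_sound parWF r2 pf13821 h13821
  have h13823 := checkRangeG_sound parWF r2 pf13822 h13822
  have h13824 := checkRangeG_sound parWF r2 pf13823 h13823
  have h13825 := checkRangeG_sound parWF r2 pf13824 h13824
  have h13826 := checkRangeG_sound parWF r2 pf13825 h13825
  have h13827 := checkRangeG_sound parWF r2 pf13826 h13826
  have h13828 := checkRangeG_sound parWF r2 pf13827 h13827
  have h13829 := checkRangeG_sound parWF r2 pf13828 h13828
  have h13830 := checkRangeG_sound parWF r2 pf13829 h13829
  have h13831 := checkRangeG_sound parWF r2 pf13830 h13830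
  have h13832 := checkRangeG_sound parWF r2 pf13831 h13831
  have h13833 := checkRangeG_sound parWF r2 pf13832 h13832
  have h13834 := checkRangeG_sound parWF r2 pf13833 h13833
  have h13835 := checkRangeG_sound parWF r2 pf13834 h13834
  have h13836 := checkRangeG_sound parWF r2 pf13835 h13835
  have h13837 := checkRangeG_sound parWF r2 pf13836 h13836
  have h13838 := checkRangeG_sound parWF r2 pf13837 h13837
  have h13839 := checkRangeG_sound parWF r2 pf13838 h13838
  have h13840 := checkRangeG_sound parWF r2 pf13839 h13839
  have h13841 := checkRangeG_sound parWF r2 pf13840 h13840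
  have h13842 := checkRangeG_sound parWF r2 pf13841 h13841
  have h13843 := checkRangeG_sound parWF r2 pf13842 h13842
  have h13844 := checkRangeG_sound parWF r2 pf13843 h13843
  have h13845 := checkRangeG_sound parWF r2 pf13844 h13844
  have h13846 := checkRangeG_sound parWF r2 pf13845 h13845
  have h13847 := checkRangeG_sound parWF r2 pf13846 h13846
  have h13848 := checkRangeG_sound parWF r2 pf13847 h13847
  have h13849 := checkRangeG_sound parWF r2 pf13848 h13848
  have h13850 := checkRangeG_sound parWF r2 pf13849 h13849
  exact h13850

theorem c277 (h13850 : ∀ j, j < 42822 → GoodG.{u} par (db j)) : ∀ j, j < 42956 → GoodG.{u} par (db j) := by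
  have h13851 := checkRangeG_sound parWF r2 pf13850 h13850
  have h13852 := checkRangeG_sound parWF r2 pf13851 h13851
  have h13853 := checkRangeG_sound parWF r2 pf13852 h13852
  have h13854 := checkRangeG_sound parWF r2 pf13853 h13853
  have h13855 := checkRangeG_sound parWF r2 pf13854 h13854
  have h13856 := checkRangeG_sound parWF r2 pf13855 h13855
  have h13857 := checkRangeG_sound parWF r2 pf13856 h13856
  have h13858 := checkRangeG_sound parWF r2 pf13857 h13857
  have h13859 := checkRangeG_sound parWF r2 pf13858 h13858
  have h13860 := checkRangeG_sound parWF r2 pf13859 h13859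
  have h13861 := checkRangeG_sound parWF r2 pf13860 h13860
  have h13862 := checkRangeG_sound parWF r2 pf13861 h13861
  have h13863 := checkRangeG_sound parWF r2 pf13862 h13862
  have h13864 := checkRangeG_sound parWF r2 pf13863 h13863
  have h13865 := checkRangeG_sound parWF r2 pf13864 h13864
  have h13866 := checkRangeG_sound parWF r2 pf13865 h13865
  have h13867 := checkRangeG_sound parWF r2 pf13866 h13866
  have h13868 := checkRangeG_sound parWF r2 pf13867 h13867
  have h13869 := checkRangeG_sound parWF r2 pf13868 h13868
  have h13870 := checkRangeG_sound parWF r2 pf13869 h13869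
  have h13871 := checkRangeG_sound parWF r2 pf13870 h13870
  have h13872 := checkRangeG_sound parWF r2 pf13871 h13871
  have h13873 := checkRangeG_sound parWF r2 pf13872 h13872
  have h13874 := checkRangeG_sound parWF r2 pf13873 h13873
  have h13875 := checkRangeG_sound parWF r2 pf13874 h13874
  have h13876 := checkRangeG_sound parWF r2 pf13875 h13875
  have h13877 := checkRangeG_sound parWF r2 pf13876 h13876
  have h13878 := checkRangeG_sound parWF r2 pf13877 h13877
  have h13879 := checkRangeG_sound parWF r2 pf13878 h13878
  have h13880 := checkRangeG_sound parWF r2 pf13879 h13879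
  have h13881 := checkRangeG_sound parWF r2 pf13880 h13880
  have h13882 := checkRangeG_sound parWF r2 pf13881 h13881
  have h13883 := checkRangeG_sound parWF r2 pf13882 h13882
  have h13884 := checkRangeG_sound parWF r2 pf13883 h13883
  have h13885 := checkRangeG_sound parWF r2 pf13884 h13884
  have h13886 := checkRangeG_sound parWF r2 pf13885 h13885
  have h13887 := checkRangeG_sound parWF r2 pf13886 h13886
  have h13888 := checkRangeG_sound parWF r2 pf13887 h13887
  have h13889 := checkRangeG_sound parWF r2 pf13888 h13888
  have h13890 := checkRangeG_sound parWF r2 pf13889 h13889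
  have h13891 := checkRangeG_sound parWF r2 pf13890 h13890
  have h13892 := checkRangeG_sound parWF r2 pf13891 h13891
  have h13893 := checkRangeG_sound parWF r2 pf13892 h13892
  have h13894 := checkRangeG_sound parWF r2 pf13893 h13893
  have h13895 := checkRangeG_sound parWF r2 pf13894 h13894
  have h13896 := checkRangeG_sound parWF r2 pf13895 h13895
  have h13897 := checkRangeG_sound parWF r2 pf13896 h13896
  have h13898 := checkRangeG_sound parWF r2 pf13897 h13897
  have h13899 := checkRangeG_sound parWF r2 pf13898 h13898
  have h13900 := checkRangeG_sound parWF r2 pf13899 h13899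
  exact h13900

theorem c278 (h13900 : ∀ j, j < 42956 → GoodG.{u} par (db j)) : ∀ j, j < 43110 → GoodG.{u} par (db j) := by
  have h13901 := checkRangeG_sound parWF r2 pf13900 h13900
  have h13902 := checkRangeG_sound parWF r2 pf13901 h13901
  have h13903 := checkRangeG_sound parWF r2 pf13902 h13902
  have h13904 := checkRangeG_sound parWF r2 pf13903 h13903
  have h13905 := checkRangeG_sound parWF r2 pf13904 h13904
  have h13906 := checkRangeG_sound parWF r2 pf13905 h13905
  have h13907 := checkRangeG_sound parWF r2 pf13906 h13906
  have h13908 := checkRangeG_sound parWF r2 pf13907 h13907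
  have h13909 := checkRangeG_sound parWF r2 pf13908 h13908
  have h13910 := checkRangeG_sound parWF r2 pf13909 h13909
  have h13911 := checkRangeG_sound parWF r2 pf13910 h13910
  have h13912 := checkRangeG_sound parWF r2 pf13911 h13911
  have h13913 := checkRangeG_sound parWF r2 pf13912 h13912
  have h13914 := checkRangeG_sound parWF r2 pf13913 h13913
  have h13915 := checkRangeG_sound parWF r2 pf13914 h13914
  have h13916 := checkRangeG_sound parWF r2 pf13915 h13915
  have h13917 := checkRangeG_sound parWF r2 pf13916 h13916
  have h13918 := checkRangeG_sound parWF r2 pf13917 h13917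
  have h13919 := checkRangeG_sound parWF r2 pf13918 h13918
  have h13920 := checkRangeG_sound parWF r2 pf13919 h13919
  have h13921 := checkRangeG_sound parWF r2 pf13920 h13920
  have h13922 := checkRangeG_sound parWF r2 pf13921 h13921
  have h13923 := checkRangeG_sound parWF r2 pf13922 h13922
  have h13924 := checkRangeG_sound parWF r2 pf13923 h13923
  have h13925 := checkRangeG_sound parWF r2 pf13924 h13924
  have h13926 := checkRangeG_sound parWF r2 pf13925 h13925
  have h13927 := checkRangeG_sound parWF r2 pf13926 h13926
  have h13928 := checkRangeG_sound parWF r2 pf13927 h13927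
  have h13929 := checkRangeG_sound parWF r2 pf13928 h13928
  have h13930 := checkRangeG_sound parWF r2 pf13929 h13929
  have h13931 := checkRangeG_sound parWF r2 pf13930 h13930
  have h13932 := checkRangeG_sound parWF r2 pf13931 h13931
  have h13933 := checkRangeG_sound parWF r2 pf13932 h13932
  have h13934 := checkRangeG_sound parWF r2 pf13933 h13933
  have h13935 := checkRangeG_sound parWF r2 pf13934 h13934
  have h13936 := checkRangeG_sound parWF r2 pf13935 h13935
  have h13937 := checkRangeG_sound parWF r2 pf13936 h13936
  have h13938 := checkRangeG_sound parWF r2 pf13937 h13937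
  have h13939 := checkRangeG_sound parWF r2 pf13938 h13938
  have h13940 := checkRangeG_sound parWF r2 pf13939 h13939
  have h13941 := checkRangeG_sound parWF r2 pf13940 h13940
  have h13942 := checkRangeG_sound parWF r2 pf13941 h13941
  have h13943 := checkRangeG_sound parWF r2 pf13942 h13942
  have h13944 := checkRangeG_sound parWF r2 pf13943 h13943
  have h13945 := checkRangeG_sound parWF r2 pf13944 h13944
  have h13946 := checkRangeG_sound parWF r2 pf13945 h13945
  have h13947 := checkRangeG_sound parWF r2 pf13946 h13946
  have h13948 := checkRangeG_sound parWF r2 pf13947 h13947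
  have h13949 := checkRangeG_sound parWF r2 pf13948 h13948
  have h13950 := checkRangeG_sound parWF r2 pf13949 h13949
  exact h13950

theorem c279 (h13950 : ∀ j, j < 43110 → GoodG.{u} par (db j)) : ∀ j, j < 43267 → GoodG.{u} par (db j) := by
  have h13951 := checkRangeG_sound parWF r2 pf13950 h13950
  have h13952 := checkRangeG_sound parWF r2 pf13951 h13951
  have h13953 := checkRangeG_sound parWF r2 pf13952 h13952
  have h13954 := checkRangeG_sound parWF r2 pf13953 h13953
  have h13955 := checkRangeG_sound parWF r2 pf13954 h13954
  have h13956 := checkRangeG_sound parWF r2 pf13955 h13955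
  have h13957 := checkRangeG_sound parWF r2 pf13956 h13956
  have h13958 := checkRangeG_sound parWF r2 pf13957 h13957
  have h13959 := checkRangeG_sound parWF r2 pf13958 h13958
  have h13960 := checkRangeG_sound parWF r2 pf13959 h13959
  have h13961 := checkRangeG_sound parWF r2 pf13960 h13960
  have h13962 := checkRangeG_sound parWF r2 pf13961 h13961
  have h13963 := checkRangeG_sound parWF r2 pf13962 h13962
  have h13964 := checkRangeG_sound parWF r2 pf13963 h13963
  have h13965 := checkRangeG_sound parWF r2 pf13964 h13964
  have h13966 := checkRangeG_sound parWF r2 pf13965 h13965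
  have h13967 := checkRangeG_sound parWF r2 pf13966 h13966
  have h13968 := checkRangeG_sound parWF r2 pf13967 h13967
  have h13969 := checkRangeG_sound parWF r2 pf13968 h13968
  have h13970 := checkRangeG_sound parWF r2 pf13969 h13969
  have h13971 := checkRangeG_sound parWF r2 pf13970 h13970
  have h13972 := checkRangeG_sound parWF r2 pf13971 h13971
  have h13973 := checkRangeG_sound parWF r2 pf13972 h13972
  have h13974 := checkRangeG_sound parWF r2 pf13973 h13973
  have h13975 := checkRangeG_sound parWF r2 pf13974 h13974
  have h13976 := checkRangeG_sound parWF r2 pf13975 h13975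
  have h13977 := checkRangeG_sound parWF r2 pf13976 h13976
  have h13978 := checkRangeG_sound parWF r2 pf13977 h13977
  have h13979 := checkRangeG_sound parWF r2 pf13978 h13978
  have h13980 := checkRangeG_sound parWF r2 pf13979 h13979
  have h13981 := checkRangeG_sound parWF r2 pf13980 h13980
  have h13982 := checkRangeG_sound parWF r2 pf13981 h13981
  have h13983 := checkRangeG_sound parWF r2 pf13982 h13982
  have h13984 := checkRangeG_sound parWF r2 pf13983 h13983
  have h13985 := checkRangeG_sound parWF r2 pf13984 h13984
  have h13986 := checkRangeG_sound parWF r2 pf13985 h13985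
  have h13987 := checkRangeG_sound parWF r2 pf13986 h13986
  have h13988 := checkRangeG_sound parWF r2 pf13987 h13987
  have h13989 := checkRangeG_sound parWF r2 pf13988 h13988
  have h13990 := checkRangeG_sound parWF r2 pf13989 h13989
  have h13991 := checkRangeG_sound parWF r2 pf13990 h13990
  have h13992 := checkRangeG_sound parWF r2 pf13991 h13991
  have h13993 := checkRangeG_sound parWF r2 pf13992 h13992
  have h13994 := checkRangeG_sound parWF r2 pf13993 h13993
  have h13995 := checkRangeG_sound parWF r2 pf13994 h13994
  have h13996 := checkRangeG_sound parWF r2 pf13995 h13995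
  have h13997 := checkRangeG_sound parWF r2 pf13996 h13996
  have h13998 := checkRangeG_sound parWF r2 pf13997 h13997
  have h13999 := checkRangeG_sound parWF r2 pf13998 h13998
  have h14000 := checkRangeG_sound parWF r2 pf13999 h13999
  exact h14000

theorem c280 (h14000 : ∀ j, j < 43267 → GoodG.{u} par (db j)) : ∀ j, j < 43419 → GoodG.{u} par (db j) := by
  have h14001 := checkRangeG_sound parWF r2 pf14000 h14000
  have h14002 := checkRangeG_sound parWF r2 pf14001 h14001
  have h14003 := checkRangeG_sound parWF r2 pf14002 h14002
  have h14004 := checkRangeG_sound parWF r2 pf14003 h14003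
  have h14005 := checkRangeG_sound parWF r2 pf14004 h14004
  have h14006 := checkRangeG_sound parWF r2 pf14005 h14005
  have h14007 := checkRangeG_sound parWF r2 pf14006 h14006
  have h14008 := checkRangeG_sound parWF r2 pf14007 h14007
  have h14009 := checkRangeG_sound parWF r2 pf14008 h14008
  have h14010 := checkRangeG_sound parWF r2 pf14009 h14009
  have h14011 := checkRangeG_sound parWF r2 pf14010 h14010
  have h14012 := checkRangeG_sound parWF r2 pf14011 h14011
  have h14013 := checkRangeG_sound parWF r2 pf14012 h14012
  have h14014 := checkRangeG_sound parWF r2 pf14013 h14013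
  have h14015 := checkRangeG_sound parWF r2 pf14014 h14014
  have h14016 := checkRangeG_sound parWF r2 pf14015 h14015
  have h14017 := checkRangeG_sound parWF r2 pf14016 h14016
  have h14018 := checkRangeG_sound parWF r2 pf14017 h14017
  have h14019 := checkRangeG_sound parWF r2 pf14018 h14018
  have h14020 := checkRangeG_sound parWF r2 pf14019 h14019
  have h14021 := checkRangeG_sound parWF r2 pf14020 h14020
  have h14022 := checkRangeG_sound parWF r2 pf14021 h14021
  have h14023 := checkRangeG_sound parWF r2 pf14022 h14022
  have h14024 := checkRangeG_sound parWF r2 pf14023 h14023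
  have h14025 := checkRangeG_sound parWF r2 pf14024 h14024
  have h14026 := checkRangeG_sound parWF r2 pf14025 h14025
  have h14027 := checkRangeG_sound parWF r2 pf14026 h14026
  have h14028 := checkRangeG_sound parWF r2 pf14027 h14027
  have h14029 := checkRangeG_sound parWF r2 pf14028 h14028
  have h14030 := checkRangeG_sound parWF r2 pf14029 h14029
  have h14031 := checkRangeG_sound parWF r2 pf14030 h14030
  have h14032 := checkRangeG_sound parWF r2 pf14031 h14031
  have h14033 := checkRangeG_sound parWF r2 pf14032 h14032
  have h14034 := checkRangeG_sound parWF r2 pf14033 h14033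
  have h14035 := checkRangeG_sound parWF r2 pf14034 h14034
  have h14036 := checkRangeG_sound parWF r2 pf14035 h14035
  have h14037 := checkRangeG_sound parWF r2 pf14036 h14036
  have h14038 := checkRangeG_sound parWF r2 pf14037 h14037
  have h14039 := checkRangeG_sound parWF r2 pf14038 h14038
  have h14040 := checkRangeG_sound parWF r2 pf14039 h14039
  have h14041 := checkRangeG_sound parWF r2 pf14040 h14040
  have h14042 := checkRangeG_sound parWF r2 pf14041 h14041
  have h14043 := checkRangeG_sound parWF r2 pf14042 h14042
  have h14044 := checkRangeG_sound parWF r2 pf14043 h14043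
  have h14045 := checkRangeG_sound parWF r2 pf14044 h14044
  have h14046 := checkRangeG_sound parWF r2 pf14045 h14045
  have h14047 := checkRangeG_sound parWF r2 pf14046 h14046
  have h14048 := checkRangeG_sound parWF r2 pf14047 h14047
  have h14049 := checkRangeG_sound parWF r2 pf14048 h14048
  have h14050 := checkRangeG_sound parWF r2 pf14049 h14049
  exact h14050

theorem c281 (h14050 : ∀ j, j < 43419 → GoodG.{u} par (db j)) : ∀ j, j < 43575 → GoodG.{u} par (db j) := by
  have h14051 := checkRangeG_sound parWF r2 pf14050 h14050
  have h14052 := checkRangeG_sound parWF r2 pf14051 h14051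
  have h14053 := checkRangeG_sound parWF r2 pf14052 h14052
  have h14054 := checkRangeG_sound parWF r2 pf14053 h14053
  have h14055 := checkRangeG_sound parWF r2 pf14054 h14054
  have h14056 := checkRangeG_sound parWF r2 pf14055 h14055
  have h14057 := checkRangeG_sound parWF r2 pf14056 h14056
  have h14058 := checkRangeG_sound parWF r2 pf14057 h14057
  have h14059 := checkRangeG_sound parWF r2 pf14058 h14058
  have h14060 := checkRangeG_sound parWF r2 pf14059 h14059
  have h14061 := checkRangeG_sound parWF r2 pf14060 h14060
  have h14062 := checkRangeG_sound parWF r2 pf14061 h14061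
  have h14063 := checkRangeG_sound parWF r2 pf14062 h14062
  have h14064 := checkRangeG_sound parWF r2 pf14063 h14063
  have h14065 := checkRangeG_sound parWF r2 pf14064 h14064
  have h14066 := checkRangeG_sound parWF r2 pf14065 h14065
  have h14067 := checkRangeG_sound parWF r2 pf14066 h14066
  have h14068 := checkRangeG_sound parWF r2 pf14067 h14067
  have h14069 := checkRangeG_sound parWF r2 pf14068 h14068
  have h14070 := checkRangeG_sound parWF r2 pf14069 h14069
  have h14071 := checkRangeG_sound parWF r2 pf14070 h14070
  have h14072 := checkRangeG_sound parWF r2 pf14071 h14071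
  have h14073 := checkRangeG_sound parWF r2 pf14072 h14072
  have h14074 := checkRangeG_sound parWF r2 pf14073 h14073
  have h14075 := checkRangeG_sound parWF r2 pf14074 h14074
  have h14076 := checkRangeG_sound parWF r2 pf14075 h14075
  have h14077 := checkRangeG_sound parWF r2 pf14076 h14076
  have h14078 := checkRangeG_sound parWF r2 pf14077 h14077
  have h14079 := checkRangeG_sound parWF r2 pf14078 h14078
  have h14080 := checkRangeG_sound parWF r2 pf14079 h14079
  have h14081 := checkRangeG_sound parWF r2 pf14080 h14080
  have h14082 := checkRangeG_sound parWF r2 pf14081 h14081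
  have h14083 := checkRangeG_sound parWF r2 pf14082 h14082
  have h14084 := checkRangeG_sound parWF r2 pf14083 h14083
  have h14085 := checkRangeG_sound parWF r2 pf14084 h14084
  have h14086 := checkRangeG_sound parWF r2 pf14085 h14085
  have h14087 := checkRangeG_sound parWF r2 pf14086 h14086
  have h14088 := checkRangeG_sound parWF r2 pf14087 h14087
  have h14089 := checkRangeG_sound parWF r2 pf14088 h14088
  have h14090 := checkRangeG_sound parWF r2 pf14089 h14089
  have h14091 := checkRangeG_sound parWF r2 pf14090 h14090
  have h14092 := checkRangeG_sound parWF r2 pf14091 h14091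
  have h14093 := checkRangeG_sound parWF r2 pf14092 h14092
  have h14094 := checkRangeG_sound parWF r2 pf14093 h14093
  have h14095 := checkRangeG_sound parWF r2 pf14094 h14094
  have h14096 := checkRangeG_sound parWF r2 pf14095 h14095
  have h14097 := checkRangeG_sound parWF r2 pf14096 h14096
  have h14098 := checkRangeG_sound parWF r2 pf14097 h14097
  have h14099 := checkRangeG_sound parWF r2 pf14098 h14098
  have h14100 := checkRangeG_sound parWF r2 pf14099 h14099
  exact h14100

theorem c282 (h14100 : ∀ j, j < 43575 → GoodG.{u} par (db j)) : ∀ j, j < 43730 → GoodG.{u} par (db j) := by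
  have h14101 := checkRangeG_sound parWF r2 pf14100 h14100
  have h14102 := checkRangeG_sound parWF r2 pf14101 h14101
  have h14103 := checkRangeG_sound parWF r2 pf14102 h14102
  have h14104 := checkRangeG_sound parWF r2 pf14103 h14103
  have h14105 := checkRangeG_sound parWF r2 pf14104 h14104
  have h14106 := checkRangeG_sound parWF r2 pf14105 h14105
  have h14107 := checkRangeG_sound parWF r2 pf14106 h14106
  have h14108 := checkRangeG_sound parWF r2 pf14107 h14107
  have h14109 := checkRangeG_sound parWF r2 pf14108 h14108
  have h14110 := checkRangeG_sound parWF r2 pf14109 h14109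
  have h14111 := checkRangeG_sound parWF r2 pf14110 h14110
  have h14112 := checkRangeG_sound parWF r2 pf14111 h14111
  have h14113 := checkRangeG_sound parWF r2 pf14112 h14112
  have h14114 := checkRangeG_sound parWF r2 pf14113 h14113
  have h14115 := checkRangeG_sound parWF r2 pf14114 h14114
  have h14116 := checkRangeG_sound parWF r2 pf14115 h14115
  have h14117 := checkRangeG_sound parWF r2 pf14116 h14116
  have h14118 := checkRangeG_sound parWF r2 pf14117 h14117
  have h14119 := checkRangeG_sound parWF r2 pf14118 h14118
  have h14120 := checkRangeG_sound parWF r2 pf14119 h14119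
  have h14121 := checkRangeG_sound parWF r2 pf14120 h14120
  have h14122 := checkRangeG_sound parWF r2 pf14121 h14121
  have h14123 := checkRangeG_sound parWF r2 pf14122 h14122
  have h14124 := checkRangeG_sound parWF r2 pf14123 h14123
  have h14125 := checkRangeG_sound parWF r2 pf14124 h14124
  have h14126 := checkRangeG_sound parWF r2 pf14125 h14125
  have h14127 := checkRangeG_sound parWF r2 pf14126 h14126
  have h14128 := checkRangeG_sound parWF r2 pf14127 h14127
  have h14129 := checkRangeG_sound parWF r2 pf14128 h14128
  have h14130 := checkRangeG_sound parWF r2 pf14129 h14129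
  have h14131 := checkRangeG_sound parWF r2 pf14130 h14130
  have h14132 := checkRangeG_sound parWF r2 pf14131 h14131
  have h14133 := checkRangeG_sound parWF r2 pf14132 h14132
  have h14134 := checkRangeG_sound parWF r2 pf14133 h14133
  have h14135 := checkRangeG_sound parWF r2 pf14134 h14134
  have h14136 := checkRangeG_sound parWF r2 pf14135 h14135
  have h14137 := checkRangeG_sound parWF r2 pf14136 h14136
  have h14138 := checkRangeG_sound parWF r2 pf14137 h14137
  have h14139 := checkRangeG_sound parWF r2 pf14138 h14138
  have h14140 := checkRangeG_sound parWF r2 pf14139 h14139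
  have h14141 := checkRangeG_sound parWF r2 pf14140 h14140
  have h14142 := checkRangeG_sound parWF r2 pf14141 h14141
  have h14143 := checkRangeG_sound parWF r2 pf14142 h14142
  have h14144 := checkRangeG_sound parWF r2 pf14143 h14143
  have h14145 := checkRangeG_sound parWF r2 pf14144 h14144
  have h14146 := checkRangeG_sound parWF r2 pf14145 h14145
  have h14147 := checkRangeG_sound parWF r2 pf14146 h14146
  have h14148 := checkRangeG_sound parWF r2 pf14147 h14147
  have h14149 := checkRangeG_sound parWF r2 pf14148 h14148
  have h14150 := checkRangeG_sound parWF r2 pf14149 h14149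
  exact h14150

theorem c283 (h14150 : ∀ j, j < 43730 → GoodG.{u} par (db j)) : ∀ j, j < 43894 → GoodG.{u} par (db j) := by
  have h14151 := checkRangeG_sound parWF r2 pf14150 h14150
  have h14152 := checkRangeG_sound parWF r2 pf14151 h14151
  have h14153 := checkRangeG_sound parWF r2 pf14152 h14152
  have h14154 := checkRangeG_sound parWF r2 pf14153 h14153
  have h14155 := checkRangeG_sound parWF r2 pf14154 h14154
  have h14156 := checkRangeG_sound parWF r2 pf14155 h14155
  have h14157 := checkRangeG_sound parWF r2 pf14156 h14156
  have h14158 := checkRangeG_sound parWF r2 pf14157 h14157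
  have h14159 := checkRangeG_sound parWF r2 pf14158 h14158
  have h14160 := checkRangeG_sound parWF r2 pf14159 h14159
  have h14161 := checkRangeG_sound parWF r2 pf14160 h14160
  have h14162 := checkRangeG_sound parWF r2 pf14161 h14161
  have h14163 := checkRangeG_sound parWF r2 pf14162 h14162
  have h14164 := checkRangeG_sound parWF r2 pf14163 h14163
  have h14165 := checkRangeG_sound parWF r2 pf14164 h14164
  have h14166 := checkRangeG_sound parWF r2 pf14165 h14165
  have h14167 := checkRangeG_sound parWF r2 pf14166 h14166
  have h14168 := checkRangeG_sound parWF r2 pf14167 h14167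
  have h14169 := checkRangeG_sound parWF r2 pf14168 h14168
  have h14170 := checkRangeG_sound parWF r2 pf14169 h14169
  have h14171 := checkRangeG_sound parWF r2 pf14170 h14170
  have h14172 := checkRangeG_sound parWF r2 pf14171 h14171
  have h14173 := checkRangeG_sound parWF r2 pf14172 h14172
  have h14174 := checkRangeG_sound parWF r2 pf14173 h14173
  have h14175 := checkRangeG_sound parWF r2 pf14174 h14174
  have h14176 := checkRangeG_sound parWF r2 pf14175 h14175
  have h14177 := checkRangeG_sound parWF r2 pf14176 h14176
  have h14178 := checkRangeG_sound parWF r2 pf14177 h14177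
  have h14179 := checkRangeG_sound parWF r2 pf14178 h14178
  have h14180 := checkRangeG_sound parWF r2 pf14179 h14179
  have h14181 := checkRangeG_sound parWF r2 pf14180 h14180
  have h14182 := checkRangeG_sound parWF r2 pf14181 h14181
  have h14183 := checkRangeG_sound parWF r2 pf14182 h14182
  have h14184 := checkRangeG_sound parWF r2 pf14183 h14183
  have h14185 := checkRangeG_sound parWF r2 pf14184 h14184
  have h14186 := checkRangeG_sound parWF r2 pf14185 h14185
  have h14187 := checkRangeG_sound parWF r2 pf14186 h14186
  have h14188 := checkRangeG_sound parWF r2 pf14187 h14187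
  have h14189 := checkRangeG_sound parWF r2 pf14188 h14188
  have h14190 := checkRangeG_sound parWF r2 pf14189 h14189
  have h14191 := checkRangeG_sound parWF r2 pf14190 h14190
  have h14192 := checkRangeG_sound parWF r2 pf14191 h14191
  have h14193 := checkRangeG_sound parWF r2 pf14192 h14192
  have h14194 := checkRangeG_sound parWF r2 pf14193 h14193
  have h14195 := checkRangeG_sound parWF r2 pf14194 h14194
  have h14196 := checkRangeG_sound parWF r2 pf14195 h14195
  have h14197 := checkRangeG_sound parWF r2 pf14196 h14196
  have h14198 := checkRangeG_sound parWF r2 pf14197 h14197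
  have h14199 := checkRangeG_sound parWF r2 pf14198 h14198
  have h14200 := checkRangeG_sound parWF r2 pf14199 h14199
  exact h14200

theorem c284 (h14200 : ∀ j, j < 43894 → GoodG.{u} par (db j)) : ∀ j, j < 44082 → GoodG.{u} par (db j) := by
  have h14201 := checkRangeG_sound parWF r2 pf14200 h14200
  have h14202 := checkRangeG_sound parWF r2 pf14201 h14201
  have h14203 := checkRangeG_sound parWF r2 pf14202 h14202
  have h14204 := checkRangeG_sound parWF r2 pf14203 h14203
  have h14205 := checkRangeG_sound parWF r2 pf14204 h14204
  have h14206 := checkRangeG_sound parWF r2 pf14205 h14205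
  have h14207 := checkRangeG_sound parWF r2 pf14206 h14206
  have h14208 := checkRangeG_sound parWF r2 pf14207 h14207
  have h14209 := checkRangeG_sound parWF r2 pf14208 h14208
  have h14210 := checkRangeG_sound parWF r2 pf14209 h14209
  have h14211 := checkRangeG_sound parWF r2 pf14210 h14210
  have h14212 := checkRangeG_sound parWF r2 pf14211 h14211
  have h14213 := checkRangeG_sound parWF r2 pf14212 h14212
  have h14214 := checkRangeG_sound parWF r2 pf14213 h14213
  have h14215 := checkRangeG_sound parWF r2 pf14214 h14214
  have h14216 := checkRangeG_sound parWF r2 pf14215 h14215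
  have h14217 := checkRangeG_sound parWF r2 pf14216 h14216
  have h14218 := checkRangeG_sound parWF r2 pf14217 h14217
  have h14219 := checkRangeG_sound parWF r2 pf14218 h14218
  have h14220 := checkRangeG_sound parWF r2 pf14219 h14219
  have h14221 := checkRangeG_sound parWF r2 pf14220 h14220
  have h14222 := checkRangeG_sound parWF r2 pf14221 h14221
  have h14223 := checkRangeG_sound parWF r2 pf14222 h14222
  have h14224 := checkRangeG_sound parWF r2 pf14223 h14223
  have h14225 := checkRangeG_sound parWF r2 pf14224 h14224
  have h14226 := checkRangeG_sound parWF r2 pf14225 h14225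
  have h14227 := checkRangeG_sound parWF r2 pf14226 h14226
  have h14228 := checkRangeG_sound parWF r2 pf14227 h14227
  have h14229 := checkRangeG_sound parWF r2 pf14228 h14228
  have h14230 := checkRangeG_sound parWF r2 pf14229 h14229
  have h14231 := checkRangeG_sound parWF r2 pf14230 h14230
  have h14232 := checkRangeG_sound parWF r2 pf14231 h14231
  have h14233 := checkRangeG_sound parWF r2 pf14232 h14232
  have h14234 := checkRangeG_sound parWF r2 pf14233 h14233
  have h14235 := checkRangeG_sound parWF r2 pf14234 h14234
  have h14236 := checkRangeG_sound parWF r2 pf14235 h14235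
  have h14237 := checkRangeG_sound parWF r2 pf14236 h14236
  have h14238 := checkRangeG_sound parWF r2 pf14237 h14237
  have h14239 := checkRangeG_sound parWF r2 pf14238 h14238
  have h14240 := checkRangeG_sound parWF r2 pf14239 h14239
  have h14241 := checkRangeG_sound parWF r2 pf14240 h14240
  have h14242 := checkRangeG_sound parWF r2 pf14241 h14241
  have h14243 := checkRangeG_sound parWF r2 pf14242 h14242
  have h14244 := checkRangeG_sound parWF r2 pf14243 h14243
  have h14245 := checkRangeG_sound parWF r2 pf14244 h14244
  have h14246 := checkRangeG_sound parWF r2 pf14245 h14245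
  have h14247 := checkRangeG_sound parWF r2 pf14246 h14246
  have h14248 := checkRangeG_sound parWF r2 pf14247 h14247
  have h14249 := checkRangeG_sound parWF r2 pf14248 h14248
  have h14250 := checkRangeG_sound parWF r2 pf14249 h14249
  exact h14250

theorem c285 (h14250 : ∀ j, j < 44082 → GoodG.{u} par (db j)) : ∀ j, j < 44269 → GoodG.{u} par (db j) := by
  have h14251 := checkRangeG_sound parWF r2 pf14250 h14250
  have h14252 := checkRangeG_sound parWF r2 pf14251 h14251
  have h14253 := checkRangeG_sound parWF r2 pf14252 h14252
  have h14254 := checkRangeG_sound parWF r2 pf14253 h14253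
  have h14255 := checkRangeG_sound parWF r2 pf14254 h14254
  have h14256 := checkRangeG_sound parWF r2 pf14255 h14255
  have h14257 := checkRangeG_sound parWF r2 pf14256 h14256
  have h14258 := checkRangeG_sound parWF r2 pf14257 h14257
  have h14259 := checkRangeG_sound parWF r2 pf14258 h14258
  have h14260 := checkRangeG_sound parWF r2 pf14259 h14259
  have h14261 := checkRangeG_sound parWF r2 pf14260 h14260
  have h14262 := checkRangeG_sound parWF r2 pf14261 h14261
  have h14263 := checkRangeG_sound parWF r2 pf14262 h14262
  have h14264 := checkRangeG_sound parWF r2 pf14263 h14263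
  have h14265 := checkRangeG_sound parWF r2 pf14264 h14264
  have h14266 := checkRangeG_sound parWF r2 pf14265 h14265
  have h14267 := checkRangeG_sound parWF r2 pf14266 h14266
  have h14268 := checkRangeG_sound parWF r2 pf14267 h14267
  have h14269 := checkRangeG_sound parWF r2 pf14268 h14268
  have h14270 := checkRangeG_sound parWF r2 pf14269 h14269
  have h14271 := checkRangeG_sound parWF r2 pf14270 h14270
  have h14272 := checkRangeG_sound parWF r2 pf14271 h14271
  have h14273 := checkRangeG_sound parWF r2 pf14272 h14272
  have h14274 := checkRangeG_sound parWF r2 pf14273 h14273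
  have h14275 := checkRangeG_sound parWF r2 pf14274 h14274
  have h14276 := checkRangeG_sound parWF r2 pf14275 h14275
  have h14277 := checkRangeG_sound parWF r2 pf14276 h14276
  have h14278 := checkRangeG_sound parWF r2 pf14277 h14277
  have h14279 := checkRangeG_sound parWF r2 pf14278 h14278
  have h14280 := checkRangeG_sound parWF r2 pf14279 h14279
  have h14281 := checkRangeG_sound parWF r2 pf14280 h14280
  have h14282 := checkRangeG_sound parWF r2 pf14281 h14281
  have h14283 := checkRangeG_sound parWF r2 pf14282 h14282
  have h14284 := checkRangeG_sound parWF r2 pf14283 h14283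
  have h14285 := checkRangeG_sound parWF r2 pf14284 h14284
  have h14286 := checkRangeG_sound parWF r2 pf14285 h14285
  have h14287 := checkRangeG_sound parWF r2 pf14286 h14286
  have h14288 := checkRangeG_sound parWF r2 pf14287 h14287
  have h14289 := checkRangeG_sound parWF r2 pf14288 h14288
  have h14290 := checkRangeG_sound parWF r2 pf14289 h14289
  have h14291 := checkRangeG_sound parWF r2 pf14290 h14290
  have h14292 := checkRangeG_sound parWF r2 pf14291 h14291
  have h14293 := checkRangeG_sound parWF r2 pf14292 h14292
  have h14294 := checkRangeG_sound parWF r2 pf14293 h14293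
  have h14295 := checkRangeG_sound parWF r2 pf14294 h14294
  have h14296 := checkRangeG_sound parWF r2 pf14295 h14295
  have h14297 := checkRangeG_sound parWF r2 pf14296 h14296
  have h14298 := checkRangeG_sound parWF r2 pf14297 h14297
  have h14299 := checkRangeG_sound parWF r2 pf14298 h14298
  have h14300 := checkRangeG_sound parWF r2 pf14299 h14299
  exact h14300

theorem c286 (h14300 : ∀ j, j < 44269 → GoodG.{u} par (db j)) : ∀ j, j < 44457 → GoodG.{u} par (db j) := by
  have h14301 := checkRangeG_sound parWF r2 pf14300 h14300
  have h14302 := checkRangeG_sound parWF r2 pf14301 h14301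
  have h14303 := checkRangeG_sound parWF r2 pf14302 h14302
  have h14304 := checkRangeG_sound parWF r2 pf14303 h14303
  have h14305 := checkRangeG_sound parWF r2 pf14304 h14304
  have h14306 := checkRangeG_sound parWF r2 pf14305 h14305
  have h14307 := checkRangeG_sound parWF r2 pf14306 h14306
  have h14308 := checkRangeG_sound parWF r2 pf14307 h14307
  have h14309 := checkRangeG_sound parWF r2 pf14308 h14308
  have h14310 := checkRangeG_sound parWF r2 pf14309 h14309
  have h14311 := checkRangeG_sound parWF r2 pf14310 h14310
  have h14312 := checkRangeG_sound parWF r2 pf14311 h14311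
  have h14313 := checkRangeG_sound parWF r2 pf14312 h14312
  have h14314 := checkRangeG_sound parWF r2 pf14313 h14313
  have h14315 := checkRangeG_sound parWF r2 pf14314 h14314
  have h14316 := checkRangeG_sound parWF r2 pf14315 h14315
  have h14317 := checkRangeG_sound parWF r2 pf14316 h14316
  have h14318 := checkRangeG_sound parWF r2 pf14317 h14317
  have h14319 := checkRangeG_sound parWF r2 pf14318 h14318
  have h14320 := checkRangeG_sound parWF r2 pf14319 h14319
  have h14321 := checkRangeG_sound parWF r2 pf14320 h14320
  have h14322 := checkRangeG_sound parWF r2 pf14321 h14321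
  have h14323 := checkRangeG_sound parWF r2 pf14322 h14322
  have h14324 := checkRangeG_sound parWF r2 pf14323 h14323
  have h14325 := checkRangeG_sound parWF r2 pf14324 h14324
  have h14326 := checkRangeG_sound parWF r2 pf14325 h14325
  have h14327 := checkRangeG_sound parWF r2 pf14326 h14326
  have h14328 := checkRangeG_sound parWF r2 pf14327 h14327
  have h14329 := checkRangeG_sound parWF r2 pf14328 h14328
  have h14330 := checkRangeG_sound parWF r2 pf14329 h14329
  have h14331 := checkRangeG_sound parWF r2 pf14330 h14330
  have h14332 := checkRangeG_sound parWF r2 pf14331 h14331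
  have h14333 := checkRangeG_sound parWF r2 pf14332 h14332
  have h14334 := checkRangeG_sound parWF r2 pf14333 h14333
  have h14335 := checkRangeG_sound parWF r2 pf14334 h14334
  have h14336 := checkRangeG_sound parWF r2 pf14335 h14335
  have h14337 := checkRangeG_sound parWF r2 pf14336 h14336
  have h14338 := checkRangeG_sound parWF r2 pf14337 h14337
  have h14339 := checkRangeG_sound parWF r2 pf14338 h14338
  have h14340 := checkRangeG_sound parWF r2 pf14339 h14339
  have h14341 := checkRangeG_sound parWF r2 pf14340 h14340
  have h14342 := checkRangeG_sound parWF r2 pf14341 h14341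
  have h14343 := checkRangeG_sound parWF r2 pf14342 h14342
  have h14344 := checkRangeG_sound parWF r2 pf14343 h14343
  have h14345 := checkRangeG_sound parWF r2 pf14344 h14344
  have h14346 := checkRangeG_sound parWF r2 pf14345 h14345
  have h14347 := checkRangeG_sound parWF r2 pf14346 h14346
  have h14348 := checkRangeG_sound parWF r2 pf14347 h14347
  have h14349 := checkRangeG_sound parWF r2 pf14348 h14348
  have h14350 := checkRangeG_sound parWF r2 pf14349 h14349
  exact h14350

theorem c287 (h14350 : ∀ j, j < 44457 → GoodG.{u} par (db j)) : ∀ j, j < 44647 → GoodG.{u} par (db j) := by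
  have h14351 := checkRangeG_sound parWF r2 pf14350 h14350
  have h14352 := checkRangeG_sound parWF r2 pf14351 h14351
  have h14353 := checkRangeG_sound parWF r2 pf14352 h14352
  have h14354 := checkRangeG_sound parWF r2 pf14353 h14353
  have h14355 := checkRangeG_sound parWF r2 pf14354 h14354
  have h14356 := checkRangeG_sound parWF r2 pf14355 h14355
  have h14357 := checkRangeG_sound parWF r2 pf14356 h14356
  have h14358 := checkRangeG_sound parWF r2 pf14357 h14357
  have h14359 := checkRangeG_sound parWF r2 pf14358 h14358
  have h14360 := checkRangeG_sound parWF r2 pf14359 h14359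
  have h14361 := checkRangeG_sound parWF r2 pf14360 h14360
  have h14362 := checkRangeG_sound parWF r2 pf14361 h14361
  have h14363 := checkRangeG_sound parWF r2 pf14362 h14362
  have h14364 := checkRangeG_sound parWF r2 pf14363 h14363
  have h14365 := checkRangeG_sound parWF r2 pf14364 h14364
  have h14366 := checkRangeG_sound parWF r2 pf14365 h14365
  have h14367 := checkRangeG_sound parWF r2 pf14366 h14366
  have h14368 := checkRangeG_sound parWF r2 pf14367 h14367
  have h14369 := checkRangeG_sound parWF r2 pf14368 h14368
  have h14370 := checkRangeG_sound parWF r2 pf14369 h14369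
  have h14371 := checkRangeG_sound parWF r2 pf14370 h14370
  have h14372 := checkRangeG_sound parWF r2 pf14371 h14371
  have h14373 := checkRangeG_sound parWF r2 pf14372 h14372
  have h14374 := checkRangeG_sound parWF r2 pf14373 h14373
  have h14375 := checkRangeG_sound parWF r2 pf14374 h14374
  have h14376 := checkRangeG_sound parWF r2 pf14375 h14375
  have h14377 := checkRangeG_sound parWF r2 pf14376 h14376
  have h14378 := checkRangeG_sound parWF r2 pf14377 h14377
  have h14379 := checkRangeG_sound parWF r2 pf14378 h14378
  have h14380 := checkRangeG_sound parWF r2 pf14379 h14379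
  have h14381 := checkRangeG_sound parWF r2 pf14380 h14380
  have h14382 := checkRangeG_sound parWF r2 pf14381 h14381
  have h14383 := checkRangeG_sound parWF r2 pf14382 h14382
  have h14384 := checkRangeG_sound parWF r2 pf14383 h14383
  have h14385 := checkRangeG_sound parWF r2 pf14384 h14384
  have h14386 := checkRangeG_sound parWF r2 pf14385 h14385
  have h14387 := checkRangeG_sound parWF r2 pf14386 h14386
  have h14388 := checkRangeG_sound parWF r2 pf14387 h14387
  have h14389 := checkRangeG_sound parWF r2 pf14388 h14388
  have h14390 := checkRangeG_sound parWF r2 pf14389 h14389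
  have h14391 := checkRangeG_sound parWF r2 pf14390 h14390
  have h14392 := checkRangeG_sound parWF r2 pf14391 h14391
  have h14393 := checkRangeG_sound parWF r2 pf14392 h14392
  have h14394 := checkRangeG_sound parWF r2 pf14393 h14393
  have h14395 := checkRangeG_sound parWF r2 pf14394 h14394
  have h14396 := checkRangeG_sound parWF r2 pf14395 h14395
  have h14397 := checkRangeG_sound parWF r2 pf14396 h14396
  have h14398 := checkRangeG_sound parWF r2 pf14397 h14397
  have h14399 := checkRangeG_sound parWF r2 pf14398 h14398
  have h14400 := checkRangeG_sound parWF r2 pf14399 h14399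
  exact h14400


end Vale.Agent.P045g.C61
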