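import Vale.Agent.P045g.C61.WF
import Vale.Agent.P045g.C61.Pf240
import Vale.Agent.P045g.C61.Pf241
import Vale.Agent.P045g.C61.Pf242
import Vale.Agent.P045g.C61.Pf243
import Vale.Agent.P045g.C61.Pf244
import Vale.Agent.P045g.C61.Pf245
import Vale.Agent.P045g.C61.Pf246
import Vale.Agent.P045g.C61.Pf247
import Vale.Agent.P045g.C61.Pf248
import Vale.Agent.P045g.C61.Pf249

namespace Vale.Agent.P045g.C61

open Vale.Agent.P045b Vale.Agent.P045g

universe u

theorem c288 (h14400 : ∀ j, j < 44647 → GoodG.{u} par (db j)) : ∀ j, j < 44818 → GoodG.{u} par (db j) := by
  have h14401 := checkRangeG_sound parWF r2 pf14400 h14400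
  have h14402 := checkRangeG_sound parWF r2 pf14401 h14401
  have h14403 := checkRangeG_sound parWF r2 pf14402 h14402
  have h14404 := checkRangeG_sound parWF r2 pf14403 h14403
  have h14405 := checkRangeG_sound parWF r2 pf14404 h14404
  have h14406 := checkRangeG_sound parWF r2 pf14405 h14405
  have h14407 := checkRangeG_sound parWF r2 pf14406 h14406
  have h14408 := checkRangeG_sound parWF r2 pf14407 h14407
  have h14409 := checkRangeG_sound parWF r2 pf14408 h14408
  have h14410 := checkRangeG_sound parWF r2 pf14409 h14409
  have h14411 := checkRangeG_sound parWF r2 pf14410 h14410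
  have h14412 := checkRangeG_sound parWF r2 pf14411 h14411
  have h14413 := checkRangeG_sound parWF r2 pf14412 h14412
  have h14414 := checkRangeG_sound parWF r2 pf14413 h14413
  have h14415 := checkRangeG_sound parWF r2 pf14414 h14414
  have h14416 := checkRangeG_sound parWF r2 pf14415 h14415
  have h14417 := checkRangeG_sound parWF r2 pf14416 h14416
  have h14418 := checkRangeG_sound parWF r2 pf14417 h14417
  have h14419 := checkRangeG_sound parWF r2 pf14418 h14418
  have h14420 := checkRangeG_sound parWF r2 pf14419 h14419
  have h14421 := checkRangeG_sound parWF r2 pf14420 h14420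
  have h14422 := checkRangeG_sound parWF r2 pf14421 h14421
  have h14423 := checkRangeG_sound parWF r2 pf14422 h14422
  have h14424 := checkRangeG_sound parWF r2 pf14423 h14423
  have h14425 := checkRangeG_sound parWF r2 pf14424 h14424
  have h14426 := checkRangeG_sound parWF r2 pf14425 h14425
  have h14427 := checkRangeG_sound parWF r2 pf14426 h14426
  have h14428 := checkRangeG_sound parWF r2 pf14427 h14427
  have h14429 := checkRangeG_sound parWF r2 pf14428 h14428
  have h14430 := checkRangeG_sound parWF r2 pf14429 h14429
  have h14431 := checkRangeG_sound parWF r2 pf14430 h14430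
  have h14432 := checkRangeG_sound parWF r2 pf14431 h14431
  have h14433 := checkRangeG_sound parWF r2 pf14432 h14432
  have h14434 := checkRangeG_sound parWF r2 pf14433 h14433
  have h14435 := checkRangeG_sound parWF r2 pf14434 h14434
  have h14436 := checkRangeG_sound parWF r2 pf14435 h14435
  have h14437 := checkRangeG_sound parWF r2 pf14436 h14436
  have h14438 := checkRangeG_sound parWF r2 pf14437 h14437
  have h14439 := checkRangeG_sound parWF r2 pf14438 h14438
  have h14440 := checkRangeG_sound parWF r2 pf14439 h14439
  have h14441 := checkRangeG_sound parWF r2 pf14440 h14440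
  have h14442 := checkRangeG_sound parWF r2 pf14441 h14441
  have h14443 := checkRangeG_sound parWF r2 pf14442 h14442
  have h14444 := checkRangeG_sound parWF r2 pf14443 h14443
  have h14445 := checkRangeG_sound parWF r2 pf14444 h14444
  have h14446 := checkRangeG_sound parWF r2 pf14445 h14445
  have h14447 := checkRangeG_sound parWF r2 pf14446 h14446
  have h14448 := checkRangeG_sound parWF r2 pf14447 h14447
  have h14449 := checkRangeG_sound parWF r2 pf14448 h14448
  have h14450 := checkRangeG_sound parWF r2 pf14449 h14449
  exact h14450

theorem c289 (h14450 : ∀ j, j < 44818 → GoodG.{u} par (db j)) : ∀ j, j < 45014 → GoodG.{u} par (db j) := by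
  have h14451 := checkRangeG_sound parWF r2 pf14450 h14450
  have h14452 := checkRangeG_sound parWF r2 pf14451 h14451
  have h14453 := checkRangeG_sound parWF r2 pf14452 h14452
  have h14454 := checkRangeG_sound parWF r2 pf14453 h14453
  have h14455 := checkRangeG_sound parWF r2 pf14454 h14454
  have h14456 := checkRangeG_sound parWF r2 pf14455 h14455
  have h14457 := checkRangeG_sound parWF r2 pf14456 h14456
  have h14458 := checkRangeG_sound parWF r2 pf14457 h14457
  have h14459 := checkRangeG_sound parWF r2 pf14458 h14458
  have h14460 := checkRangeG_sound parWF r2 pf14459 h14459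
  have h14461 := checkRangeG_sound parWF r2 pf14460 h14460
  have h14462 := checkRangeG_sound parWF r2 pf14461 h14461
  have h14463 := checkRangeG_sound parWF r2 pf14462 h14462
  have h14464 := checkRangeG_sound parWF r2 pf14463 h14463
  have h14465 := checkRangeG_sound parWF r2 pf14464 h14464
  have h14466 := checkRangeG_sound parWF r2 pf14465 h14465
  have h14467 := checkRangeG_sound parWF r2 pf14466 h14466
  have h14468 := checkRangeG_sound parWF r2 pf14467 h14467
  have h14469 := checkRangeG_sound parWF r2 pf14468 h14468
  have h14470 := checkRangeG_sound parWF r2 pf14469 h14469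
  have h14471 := checkRangeG_sound parWF r2 pf14470 h14470
  have h14472 := checkRangeG_sound parWF r2 pf14471 h14471
  have h14473 := checkRangeG_sound parWF r2 pf14472 h14472
  have h14474 := checkRangeG_sound parWF r2 pf14473 h14473
  have h14475 := checkRangeG_sound parWF r2 pf14474 h14474
  have h14476 := checkRangeG_sound parWF r2 pf14475 h14475
  have h14477 := checkRangeG_sound parWF r2 pf14476 h14476
  have h14478 := checkRangeG_sound parWF r2 pf14477 h14477
  have h14479 := checkRangeG_sound parWF r2 pf14478 h14478
  have h14480 := checkRangeG_sound parWF r2 pf14479 h14479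
  have h14481 := checkRangeG_sound parWF r2 pf14480 h14480
  have h14482 := checkRangeG_sound parWF r2 pf14481 h14481
  have h14483 := checkRangeG_sound parWF r2 pf14482 h14482
  have h14484 := checkRangeG_sound parWF r2 pf14483 h14483
  have h14485 := checkRangeG_sound parWF r2 pf14484 h14484
  have h14486 := checkRangeG_sound parWF r2 pf14485 h14485
  have h14487 := checkRangeG_sound parWF r2 pf14486 h14486
  have h14488 := checkRangeG_sound parWF r2 pf14487 h14487
  have h14489 := checkRangeG_sound parWF r2 pf14488 h14488
  have h14490 := checkRangeG_sound parWF r2 pf14489 h14489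
  have h14491 := checkRangeG_sound parWF r2 pf14490 h14490
  have h14492 := checkRangeG_sound parWF r2 pf14491 h14491
  have h14493 := checkRangeG_sound parWF r2 pf14492 h14492
  have h14494 := checkRangeG_sound parWF r2 pf14493 h14493
  have h14495 := checkRangeG_sound parWF r2 pf14494 h14494
  have h14496 := checkRangeG_sound parWF r2 pf14495 h14495
  have h14497 := checkRangeG_sound parWF r2 pf14496 h14496
  have h14498 := checkRangeG_sound parWF r2 pf14497 h14497
  have h14499 := checkRangeG_sound parWF r2 pf14498 h14498
  have h14500 := checkRangeG_sound parWF r2 pf14499 h14499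
  exact h14500

theorem c290 (h14500 : ∀ j, j < 45014 → GoodG.{u} par (db j)) : ∀ j, j < 45199 → GoodG.{u} par (db j) := by
  have h14501 := checkRangeG_sound parWF r2 pf14500 h14500
  have h14502 := checkRangeG_sound parWF r2 pf14501 h14501
  have h14503 := checkRangeG_sound parWF r2 pf14502 h14502
  have h14504 := checkRangeG_sound parWF r2 pf14503 h14503
  have h14505 := checkRangeG_sound parWF r2 pf14504 h14504
  have h14506 := checkRangeG_sound parWF r2 pf14505 h14505
  have h14507 := checkRangeG_sound parWF r2 pf14506 h14506
  have h14508 := checkRangeG_sound parWF r2 pf14507 h14507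
  have h14509 := checkRangeG_sound parWF r2 pf14508 h14508
  have h14510 := checkRangeG_sound parWF r2 pf14509 h14509
  have h14511 := checkRangeG_sound parWF r2 pf14510 h14510
  have h14512 := checkRangeG_sound parWF r2 pf14511 h14511
  have h14513 := checkRangeG_sound parWF r2 pf14512 h14512
  have h14514 := checkRangeG_sound parWF r2 pf14513 h14513
  have h14515 := checkRangeG_sound parWF r2 pf14514 h14514
  have h14516 := checkRangeG_sound parWF r2 pf14515 h14515
  have h14517 := checkRangeG_sound parWF r2 pf14516 h14516
  have h14518 := checkRangeG_sound parWF r2 pf14517 h14517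
  have h14519 := checkRangeG_sound parWF r2 pf14518 h14518
  have h14520 := checkRangeG_sound parWF r2 pf14519 h14519
  have h14521 := checkRangeG_sound parWF r2 pf14520 h14520
  have h14522 := checkRangeG_sound parWF r2 pf14521 h14521
  have h14523 := checkRangeG_sound parWF r2 pf14522 h14522
  have h14524 := checkRangeG_sound parWF r2 pf14523 h14523
  have h14525 := checkRangeG_sound parWF r2 pf14524 h14524
  have h14526 := checkRangeG_sound parWF r2 pf14525 h14525
  have h14527 := checkRangeG_sound parWF r2 pf14526 h14526
  have h14528 := checkRangeG_sound parWF r2 pf14527 h14527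
  have h14529 := checkRangeG_sound parWF r2 pf14528 h14528
  have h14530 := checkRangeG_sound parWF r2 pf14529 h14529
  have h14531 := checkRangeG_sound parWF r2 pf14530 h14530
  have h14532 := checkRangeG_sound parWF r2 pf14531 h14531
  have h14533 := checkRangeG_sound parWF r2 pf14532 h14532
  have h14534 := checkRangeG_sound parWF r2 pf14533 h14533
  have h14535 := checkRangeG_sound parWF r2 pf14534 h14534
  have h14536 := checkRangeG_sound parWF r2 pf14535 h14535
  have h14537 := checkRangeG_sound parWF r2 pf14536 h14536
  have h14538 := checkRangeG_sound parWF r2 pf14537 h14537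
  have h14539 := checkRangeG_sound parWF r2 pf14538 h14538
  have h14540 := checkRangeG_sound parWF r2 pf14539 h14539
  have h14541 := checkRangeG_sound parWF r2 pf14540 h14540
  have h14542 := checkRangeG_sound parWF r2 pf14541 h14541
  have h14543 := checkRangeG_sound parWF r2 pf14542 h14542
  have h14544 := checkRangeG_sound parWF r2 pf14543 h14543
  have h14545 := checkRangeG_sound parWF r2 pf14544 h14544
  have h14546 := checkRangeG_sound parWF r2 pf14545 h14545
  have h14547 := checkRangeG_sound parWF r2 pf14546 h14546
  have h14548 := checkRangeG_sound parWF r2 pf14547 h14547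
  have h14549 := checkRangeG_sound parWF r2 pf14548 h14548
  have h14550 := checkRangeG_sound parWF r2 pf14549 h14549
  exact h14550

theorem c291 (h14550 : ∀ j, j < 45199 → GoodG.{u} par (db j)) : ∀ j, j < 45373 → GoodG.{u} par (db j) := by
  have h14551 := checkRangeG_sound parWF r2 pf14550 h14550
  have h14552 := checkRangeG_sound parWF r2 pf14551 h14551
  have h14553 := checkRangeG_sound parWF r2 pf14552 h14552
  have h14554 := checkRangeG_sound parWF r2 pf14553 h14553
  have h14555 := checkRangeG_sound parWF r2 pf14554 h14554
  have h14556 := checkRangeG_sound parWF r2 pf14555 h14555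
  have h14557 := checkRangeG_sound parWF r2 pf14556 h14556
  have h14558 := checkRangeG_sound parWF r2 pf14557 h14557
  have h14559 := checkRangeG_sound parWF r2 pf14558 h14558
  have h14560 := checkRangeG_sound parWF r2 pf14559 h14559
  have h14561 := checkRangeG_sound parWF r2 pf14560 h14560
  have h14562 := checkRangeG_sound parWF r2 pf14561 h14561
  have h14563 := checkRangeG_sound parWF r2 pf14562 h14562
  have h14564 := checkRangeG_sound parWF r2 pf14563 h14563
  have h14565 := checkRangeG_sound parWF r2 pf14564 h14564
  have h14566 := checkRangeG_sound parWF r2 pf14565 h14565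
  have h14567 := checkRangeG_sound parWF r2 pf14566 h14566
  have h14568 := checkRangeG_sound parWF r2 pf14567 h14567
  have h14569 := checkRangeG_sound parWF r2 pf14568 h14568
  have h14570 := checkRangeG_sound parWF r2 pf14569 h14569
  have h14571 := checkRangeG_sound parWF r2 pf14570 h14570
  have h14572 := checkRangeG_sound parWF r2 pf14571 h14571
  have h14573 := checkRangeG_sound parWF r2 pf14572 h14572
  have h14574 := checkRangeG_sound parWF r2 pf14573 h14573
  have h14575 := checkRangeG_sound parWF r2 pf14574 h14574
  have h14576 := checkRangeG_sound parWF r2 pf14575 h14575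
  have h14577 := checkRangeG_sound parWF r2 pf14576 h14576
  have h14578 := checkRangeG_sound parWF r2 pf14577 h14577
  have h14579 := checkRangeG_sound parWF r2 pf14578 h14578
  have h14580 := checkRangeG_sound parWF r2 pf14579 h14579
  have h14581 := checkRangeG_sound parWF r2 pf14580 h14580
  have h14582 := checkRangeG_sound parWF r2 pf14581 h14581
  have h14583 := checkRangeG_sound parWF r2 pf14582 h14582
  have h14584 := checkRangeG_sound parWF r2 pf14583 h14583
  have h14585 := checkRangeG_sound parWF r2 pf14584 h14584
  have h14586 := checkRangeG_sound parWF r2 pf14585 h14585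
  have h14587 := checkRangeG_sound parWF r2 pf14586 h14586
  have h14588 := checkRangeG_sound parWF r2 pf14587 h14587
  have h14589 := checkRangeG_sound parWF r2 pf14588 h14588
  have h14590 := checkRangeG_sound parWF r2 pf14589 h14589
  have h14591 := checkRangeG_sound parWF r2 pf14590 h14590
  have h14592 := checkRangeG_sound parWF r2 pf14591 h14591
  have h14593 := checkRangeG_sound parWF r2 pf14592 h14592
  have h14594 := checkRangeG_sound parWF r2 pf14593 h14593
  have h14595 := checkRangeG_sound parWF r2 pf14594 h14594
  have h14596 := checkRangeG_sound parWF r2 pf14595 h14595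
  have h14597 := checkRangeG_sound parWF r2 pf14596 h14596
  have h14598 := checkRangeG_sound parWF r2 pf14597 h14597
  have h14599 := checkRangeG_sound parWF r2 pf14598 h14598
  have h14600 := checkRangeG_sound parWF r2 pf14599 h14599
  exact h14600

theorem c292 (h14600 : ∀ j, j < 45373 → GoodG.{u} par (db j)) : ∀ j, j < 45527 → GoodG.{u} par (db j) := by
  have h14601 := checkRangeG_sound parWF r2 pf14600 h14600
  have h14602 := checkRangeG_sound parWF r2 pf14601 h14601
  have h14603 := checkRangeG_sound parWF r2 pf14602 h14602
  have h14604 := checkRangeG_sound parWF r2 pf14603 h14603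
  have h14605 := checkRangeG_sound parWF r2 pf14604 h14604
  have h14606 := checkRangeG_sound parWF r2 pf14605 h14605
  have h14607 := checkRangeG_sound parWF r2 pf14606 h14606
  have h14608 := checkRangeG_sound parWF r2 pf14607 h14607
  have h14609 := checkRangeG_sound parWF r2 pf14608 h14608
  have h14610 := checkRangeG_sound parWF r2 pf14609 h14609
  have h14611 := checkRangeG_sound parWF r2 pf14610 h14610
  have h14612 := checkRangeG_sound parWF r2 pf14611 h14611
  have h14613 := checkRangeG_sound parWF r2 pf14612 h14612
  have h14614 := checkRangeG_sound parWF r2 pf14613 h14613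
  have h14615 := checkRangeG_sound parWF r2 pf14614 h14614
  have h14616 := checkRangeG_sound parWF r2 pf14615 h14615
  have h14617 := checkRangeG_sound parWF r2 pf14616 h14616
  have h14618 := checkRangeG_sound parWF r2 pf14617 h14617
  have h14619 := checkRangeG_sound parWF r2 pf14618 h14618
  have h14620 := checkRangeG_sound parWF r2 pf14619 h14619
  have h14621 := checkRangeG_sound parWF r2 pf14620 h14620
  have h14622 := checkRangeG_sound parWF r2 pf14621 h14621
  have h14623 := checkRangeG_sound parWF r2 pf14622 h14622
  have h14624 := checkRangeG_sound parWF r2 pf14623 h14623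
  have h14625 := checkRangeG_sound parWF r2 pf14624 h14624
  have h14626 := checkRangeG_sound parWF r2 pf14625 h14625
  have h14627 := checkRangeG_sound parWF r2 pf14626 h14626
  have h14628 := checkRangeG_sound parWF r2 pf14627 h14627
  have h14629 := checkRangeG_sound parWF r2 pf14628 h14628
  have h14630 := checkRangeG_sound parWF r2 pf14629 h14629
  have h14631 := checkRangeG_sound parWF r2 pf14630 h14630
  have h14632 := checkRangeG_sound parWF r2 pf14631 h14631
  have h14633 := checkRangeG_sound parWF r2 pf14632 h14632
  have h14634 := checkRangeG_sound parWF r2 pf14633 h14633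
  have h14635 := checkRangeG_sound parWF r2 pf14634 h14634
  have h14636 := checkRangeG_sound parWF r2 pf14635 h14635
  have h14637 := checkRangeG_sound parWF r2 pf14636 h14636
  have h14638 := checkRangeG_sound parWF r2 pf14637 h14637
  have h14639 := checkRangeG_sound parWF r2 pf14638 h14638
  have h14640 := checkRangeG_sound parWF r2 pf14639 h14639
  have h14641 := checkRangeG_sound parWF r2 pf14640 h14640
  have h14642 := checkRangeG_sound parWF r2 pf14641 h14641
  have h14643 := checkRangeG_sound parWF r2 pf14642 h14642
  have h14644 := checkRangeG_sound parWF r2 pf14643 h14643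
  have h14645 := checkRangeG_sound parWF r2 pf14644 h14644
  have h14646 := checkRangeG_sound parWF r2 pf14645 h14645
  have h14647 := checkRangeG_sound parWF r2 pf14646 h14646
  have h14648 := checkRangeG_sound parWF r2 pf14647 h14647
  have h14649 := checkRangeG_sound parWF r2 pf14648 h14648
  have h14650 := checkRangeG_sound parWF r2 pf14649 h14649
  exact h14650

theorem c293 (h14650 : ∀ j, j < 45527 → GoodG.{u} par (db j)) : ∀ j, j < 45707 → GoodG.{u} par (db j) := by
  have h14651 := checkRangeG_sound parWF r2 pf14650 h14650
  have h14652 := checkRangeG_sound parWF r2 pf14651 h14651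
  have h14653 := checkRangeG_sound parWF r2 pf14652 h14652
  have h14654 := checkRangeG_sound parWF r2 pf14653 h14653
  have h14655 := checkRangeG_sound parWF r2 pf14654 h14654
  have h14656 := checkRangeG_sound parWF r2 pf14655 h14655
  have h14657 := checkRangeG_sound parWF r2 pf14656 h14656
  have h14658 := checkRangeG_sound parWF r2 pf14657 h14657
  have h14659 := checkRangeG_sound parWF r2 pf14658 h14658
  have h14660 := checkRangeG_sound parWF r2 pf14659 h14659
  have h14661 := checkRangeG_sound parWF r2 pf14660 h14660
  have h14662 := checkRangeG_sound parWF r2 pf14661 h14661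
  have h14663 := checkRangeG_sound parWF r2 pf14662 h14662
  have h14664 := checkRangeG_sound parWF r2 pf14663 h14663
  have h14665 := checkRangeG_sound parWF r2 pf14664 h14664
  have h14666 := checkRangeG_sound parWF r2 pf14665 h14665
  have h14667 := checkRangeG_sound parWF r2 pf14666 h14666
  have h14668 := checkRangeG_sound parWF r2 pf14667 h14667
  have h14669 := checkRangeG_sound parWF r2 pf14668 h14668
  have h14670 := checkRangeG_sound parWF r2 pf14669 h14669
  have h14671 := checkRangeG_sound parWF r2 pf14670 h14670
  have h14672 := checkRangeG_sound parWF r2 pf14671 h14671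
  have h14673 := checkRangeG_sound parWF r2 pf14672 h14672
  have h14674 := checkRangeG_sound parWF r2 pf14673 h14673
  have h14675 := checkRangeG_sound parWF r2 pf14674 h14674
  have h14676 := checkRangeG_sound parWF r2 pf14675 h14675
  have h14677 := checkRangeG_sound parWF r2 pf14676 h14676
  have h14678 := checkRangeG_sound parWF r2 pf14677 h14677
  have h14679 := checkRangeG_sound parWF r2 pf14678 h14678
  have h14680 := checkRangeG_sound parWF r2 pf14679 h14679
  have h14681 := checkRangeG_sound parWF r2 pf14680 h14680
  have h14682 := checkRangeG_sound parWF r2 pf14681 h14681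
  have h14683 := checkRangeG_sound parWF r2 pf14682 h14682
  have h14684 := checkRangeG_sound parWF r2 pf14683 h14683
  have h14685 := checkRangeG_sound parWF r2 pf14684 h14684
  have h14686 := checkRangeG_sound parWF r2 pf14685 h14685
  have h14687 := checkRangeG_sound parWF r2 pf14686 h14686
  have h14688 := checkRangeG_sound parWF r2 pf14687 h14687
  have h14689 := checkRangeG_sound parWF r2 pf14688 h14688
  have h14690 := checkRangeG_sound parWF r2 pf14689 h14689
  have h14691 := checkRangeG_sound parWF r2 pf14690 h14690
  have h14692 := checkRangeG_sound parWF r2 pf14691 h14691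
  have h14693 := checkRangeG_sound parWF r2 pf14692 h14692
  have h14694 := checkRangeG_sound parWF r2 pf14693 h14693
  have h14695 := checkRangeG_sound parWF r2 pf14694 h14694
  have h14696 := checkRangeG_sound parWF r2 pf14695 h14695
  have h14697 := checkRangeG_sound parWF r2 pf14696 h14696
  have h14698 := checkRangeG_sound parWF r2 pf14697 h14697
  have h14699 := checkRangeG_sound parWF r2 pf14698 h14698
  have h14700 := checkRangeG_sound parWF r2 pf14699 h14699
  exact h14700

theorem c294 (h14700 : ∀ j, j < 45707 → GoodG.{u} par (db j)) : ∀ j, j < 45883 → GoodG.{u} par (db j) := by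
  have h14701 := checkRangeG_sound parWF r2 pf14700 h14700
  have h14702 := checkRangeG_sound parWF r2 pf14701 h14701
  have h14703 := checkRangeG_sound parWF r2 pf14702 h14702
  have h14704 := checkRangeG_sound parWF r2 pf14703 h14703
  have h14705 := checkRangeG_sound parWF r2 pf14704 h14704
  have h14706 := checkRangeG_sound parWF r2 pf14705 h14705
  have h14707 := checkRangeG_sound parWF r2 pf14706 h14706
  have h14708 := checkRangeG_sound parWF r2 pf14707 h14707
  have h14709 := checkRangeG_sound parWF r2 pf14708 h14708
  have h14710 := checkRangeG_sound parWF r2 pf14709 h14709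
  have h14711 := checkRangeG_sound parWF r2 pf14710 h14710
  have h14712 := checkRangeG_sound parWF r2 pf14711 h14711
  have h14713 := checkRangeG_sound parWF r2 pf14712 h14712
  have h14714 := checkRangeG_sound parWF r2 pf14713 h14713
  have h14715 := checkRangeG_sound parWF r2 pf14714 h14714
  have h14716 := checkRangeG_sound parWF r2 pf14715 h14715
  have h14717 := checkRangeG_sound parWF r2 pf14716 h14716
  have h14718 := checkRangeG_sound parWF r2 pf14717 h14717
  have h14719 := checkRangeG_sound parWF r2 pf14718 h14718
  have h14720 := checkRangeG_sound parWF r2 pf14719 h14719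
  have h14721 := checkRangeG_sound parWF r2 pf14720 h14720
  have h14722 := checkRangeG_sound parWF r2 pf14721 h14721
  have h14723 := checkRangeG_sound parWF r2 pf14722 h14722
  have h14724 := checkRangeG_sound parWF r2 pf14723 h14723
  have h14725 := checkRangeG_sound parWF r2 pf14724 h14724
  have h14726 := checkRangeG_sound parWF r2 pf14725 h14725
  have h14727 := checkRangeG_sound parWF r2 pf14726 h14726
  have h14728 := checkRangeG_sound parWF r2 pf14727 h14727
  have h14729 := checkRangeG_sound parWF r2 pf14728 h14728
  have h14730 := checkRangeG_sound parWF r2 pf14729 h14729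
  have h14731 := checkRangeG_sound parWF r2 pf14730 h14730
  have h14732 := checkRangeG_sound parWF r2 pf14731 h14731
  have h14733 := checkRangeG_sound parWF r2 pf14732 h14732
  have h14734 := checkRangeG_sound parWF r2 pf14733 h14733
  have h14735 := checkRangeG_sound parWF r2 pf14734 h14734
  have h14736 := checkRangeG_sound parWF r2 pf14735 h14735
  have h14737 := checkRangeG_sound parWF r2 pf14736 h14736
  have h14738 := checkRangeG_sound parWF r2 pf14737 h14737
  have h14739 := checkRangeG_sound parWF r2 pf14738 h14738
  have h14740 := checkRangeG_sound parWF r2 pf14739 h14739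
  have h14741 := checkRangeG_sound parWF r2 pf14740 h14740
  have h14742 := checkRangeG_sound parWF r2 pf14741 h14741
  have h14743 := checkRangeG_sound parWF r2 pf14742 h14742
  have h14744 := checkRangeG_sound parWF r2 pf14743 h14743
  have h14745 := checkRangeG_sound parWF r2 pf14744 h14744
  have h14746 := checkRangeG_sound parWF r2 pf14745 h14745
  have h14747 := checkRangeG_sound parWF r2 pf14746 h14746
  have h14748 := checkRangeG_sound parWF r2 pf14747 h14747
  have h14749 := checkRangeG_sound parWF r2 pf14748 h14748
  have h14750 := checkRangeG_sound parWF r2 pf14749 h14749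
  exact h14750

theorem c295 (h14750 : ∀ j, j < 45883 → GoodG.{u} par (db j)) : ∀ j, j < 46065 → GoodG.{u} par (db j) := by
  have h14751 := checkRangeG_sound parWF r2 pf14750 h14750
  have h14752 := checkRangeG_sound parWF r2 pf14751 h14751
  have h14753 := checkRangeG_sound parWF r2 pf14752 h14752
  have h14754 := checkRangeG_sound parWF r2 pf14753 h14753
  have h14755 := checkRangeG_sound parWF r2 pf14754 h14754
  have h14756 := checkRangeG_sound parWF r2 pf14755 h14755
  have h14757 := checkRangeG_sound parWF r2 pf14756 h14756
  have h14758 := checkRangeG_sound parWF r2 pf14757 h14757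
  have h14759 := checkRangeG_sound parWF r2 pf14758 h14758
  have h14760 := checkRangeG_sound parWF r2 pf14759 h14759
  have h14761 := checkRangeG_sound parWF r2 pf14760 h14760
  have h14762 := checkRangeG_sound parWF r2 pf14761 h14761
  have h14763 := checkRangeG_sound parWF r2 pf14762 h14762
  have h14764 := checkRangeG_sound parWF r2 pf14763 h14763
  have h14765 := checkRangeG_sound parWF r2 pf14764 h14764
  have h14766 := checkRangeG_sound parWF r2 pf14765 h14765
  have h14767 := checkRangeG_sound parWF r2 pf14766 h14766
  have h14768 := checkRangeG_sound parWF r2 pf14767 h14767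
  have h14769 := checkRangeG_sound parWF r2 pf14768 h14768
  have h14770 := checkRangeG_sound parWF r2 pf14769 h14769
  have h14771 := checkRangeG_sound parWF r2 pf14770 h14770
  have h14772 := checkRangeG_sound parWF r2 pf14771 h14771
  have h14773 := checkRangeG_sound parWF r2 pf14772 h14772
  have h14774 := checkRangeG_sound parWF r2 pf14773 h14773
  have h14775 := checkRangeG_sound parWF r2 pf14774 h14774
  have h14776 := checkRangeG_sound parWF r2 pf14775 h14775
  have h14777 := checkRangeG_sound parWF r2 pf14776 h14776
  have h14778 := checkRangeG_sound parWF r2 pf14777 h14777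
  have h14779 := checkRangeG_sound parWF r2 pf14778 h14778
  have h14780 := checkRangeG_sound parWF r2 pf14779 h14779
  have h14781 := checkRangeG_sound parWF r2 pf14780 h14780
  have h14782 := checkRangeG_sound parWF r2 pf14781 h14781
  have h14783 := checkRangeG_sound parWF r2 pf14782 h14782
  have h14784 := checkRangeG_sound parWF r2 pf14783 h14783
  have h14785 := checkRangeG_sound parWF r2 pf14784 h14784
  have h14786 := checkRangeG_sound parWF r2 pf14785 h14785
  have h14787 := checkRangeG_sound parWF r2 pf14786 h14786
  have h14788 := checkRangeG_sound parWF r2 pf14787 h14787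
  have h14789 := checkRangeG_sound parWF r2 pf14788 h14788
  have h14790 := checkRangeG_sound parWF r2 pf14789 h14789
  have h14791 := checkRangeG_sound parWF r2 pf14790 h14790
  have h14792 := checkRangeG_sound parWF r2 pf14791 h14791
  have h14793 := checkRangeG_sound parWF r2 pf14792 h14792
  have h14794 := checkRangeG_sound parWF r2 pf14793 h14793
  have h14795 := checkRangeG_sound parWF r2 pf14794 h14794
  have h14796 := checkRangeG_sound parWF r2 pf14795 h14795
  have h14797 := checkRangeG_sound parWF r2 pf14796 h14796
  have h14798 := checkRangeG_sound parWF r2 pf14797 h14797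
  have h14799 := checkRangeG_sound parWF r2 pf14798 h14798
  have h14800 := checkRangeG_sound parWF r2 pf14799 h14799
  exact h14800

theorem c296 (h14800 : ∀ j, j < 46065 → GoodG.{u} par (db j)) : ∀ j, j < 46205 → GoodG.{u} par (db j) := by
  have h14801 := checkRangeG_sound parWF r2 pf14800 h14800
  have h14802 := checkRangeG_sound parWF r2 pf14801 h14801
  have h14803 := checkRangeG_sound parWF r2 pf14802 h14802
  have h14804 := checkRangeG_sound parWF r2 pf14803 h14803
  have h14805 := checkRangeG_sound parWF r2 pf14804 h14804
  have h14806 := checkRangeG_sound parWF r2 pf14805 h14805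
  have h14807 := checkRangeG_sound parWF r2 pf14806 h14806
  have h14808 := checkRangeG_sound parWF r2 pf14807 h14807
  have h14809 := checkRangeG_sound parWF r2 pf14808 h14808
  have h14810 := checkRangeG_sound parWF r2 pf14809 h14809
  have h14811 := checkRangeG_sound parWF r2 pf14810 h14810
  have h14812 := checkRangeG_sound parWF r2 pf14811 h14811
  have h14813 := checkRangeG_sound parWF r2 pf14812 h14812
  have h14814 := checkRangeG_sound parWF r2 pf14813 h14813
  have h14815 := checkRangeG_sound parWF r2 pf14814 h14814
  have h14816 := checkRangeG_sound parWF r2 pf14815 h14815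
  have h14817 := checkRangeG_sound parWF r2 pf14816 h14816
  have h14818 := checkRangeG_sound parWF r2 pf14817 h14817
  have h14819 := checkRangeG_sound parWF r2 pf14818 h14818
  have h14820 := checkRangeG_sound parWF r2 pf14819 h14819
  have h14821 := checkRangeG_sound parWF r2 pf14820 h14820
  have h14822 := checkRangeG_sound parWF r2 pf14821 h14821
  have h14823 := checkRangeG_sound parWF r2 pf14822 h14822
  have h14824 := checkRangeG_sound parWF r2 pf14823 h14823
  have h14825 := checkRangeG_sound parWF r2 pf14824 h14824
  have h14826 := checkRangeG_sound parWF r2 pf14825 h14825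
  have h14827 := checkRangeG_sound parWF r2 pf14826 h14826
  have h14828 := checkRangeG_sound parWF r2 pf14827 h14827
  have h14829 := checkRangeG_sound parWF r2 pf14828 h14828
  have h14830 := checkRangeG_sound parWF r2 pf14829 h14829
  have h14831 := checkRangeG_sound parWF r2 pf14830 h14830
  have h14832 := checkRangeG_sound parWF r2 pf14831 h14831
  have h14833 := checkRangeG_sound parWF r2 pf14832 h14832
  have h14834 := checkRangeG_sound parWF r2 pf14833 h14833
  have h14835 := checkRangeG_sound parWF r2 pf14834 h14834
  have h14836 := checkRangeG_sound parWF r2 pf14835 h14835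
  have h14837 := checkRangeG_sound parWF r2 pf14836 h14836
  have h14838 := checkRangeG_sound parWF r2 pf14837 h14837
  have h14839 := checkRangeG_sound parWF r2 pf14838 h14838
  have h14840 := checkRangeG_sound parWF r2 pf14839 h14839
  have h14841 := checkRangeG_sound parWF r2 pf14840 h14840
  have h14842 := checkRangeG_sound parWF r2 pf14841 h14841
  have h14843 := checkRangeG_sound parWF r2 pf14842 h14842
  have h14844 := checkRangeG_sound parWF r2 pf14843 h14843
  have h14845 := checkRangeG_sound parWF r2 pf14844 h14844
  have h14846 := checkRangeG_sound parWF r2 pf14845 h14845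
  have h14847 := checkRangeG_sound parWF r2 pf14846 h14846
  have h14848 := checkRangeG_sound parWF r2 pf14847 h14847
  have h14849 := checkRangeG_sound parWF r2 pf14848 h14848
  have h14850 := checkRangeG_sound parWF r2 pf14849 h14849
  exact h14850

theorem c297 (h14850 : ∀ j, j < 46205 → GoodG.{u} par (db j)) : ∀ j, j < 46382 → GoodG.{u} par (db j) := by
  have h14851 := checkRangeG_sound parWF r2 pf14850 h14850
  have h14852 := checkRangeG_sound parWF r2 pf14851 h14851
  have h14853 := checkRangeG_sound parWF r2 pf14852 h14852
  have h14854 := checkRangeG_sound parWF r2 pf14853 h14853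
  have h14855 := checkRangeG_sound parWF r2 pf14854 h14854
  have h14856 := checkRangeG_sound parWF r2 pf14855 h14855
  have h14857 := checkRangeG_sound parWF r2 pf14856 h14856
  have h14858 := checkRangeG_sound parWF r2 pf14857 h14857
  have h14859 := checkRangeG_sound parWF r2 pf14858 h14858
  have h14860 := checkRangeG_sound parWF r2 pf14859 h14859
  have h14861 := checkRangeG_sound parWF r2 pf14860 h14860
  have h14862 := checkRangeG_sound parWF r2 pf14861 h14861
  have h14863 := checkRangeG_sound parWF r2 pf14862 h14862
  have h14864 := checkRangeG_sound parWF r2 pf14863 h14863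
  have h14865 := checkRangeG_sound parWF r2 pf14864 h14864
  have h14866 := checkRangeG_sound parWF r2 pf14865 h14865
  have h14867 := checkRangeG_sound parWF r2 pf14866 h14866
  have h14868 := checkRangeG_sound parWF r2 pf14867 h14867
  have h14869 := checkRangeG_sound parWF r2 pf14868 h14868
  have h14870 := checkRangeG_sound parWF r2 pf14869 h14869
  have h14871 := checkRangeG_sound parWF r2 pf14870 h14870
  have h14872 := checkRangeG_sound parWF r2 pf14871 h14871
  have h14873 := checkRangeG_sound parWF r2 pf14872 h14872
  have h14874 := checkRangeG_sound parWF r2 pf14873 h14873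
  have h14875 := checkRangeG_sound parWF r2 pf14874 h14874
  have h14876 := checkRangeG_sound parWF r2 pf14875 h14875
  have h14877 := checkRangeG_sound parWF r2 pf14876 h14876
  have h14878 := checkRangeG_sound parWF r2 pf14877 h14877
  have h14879 := checkRangeG_sound parWF r2 pf14878 h14878
  have h14880 := checkRangeG_sound parWF r2 pf14879 h14879
  have h14881 := checkRangeG_sound parWF r2 pf14880 h14880
  have h14882 := checkRangeG_sound parWF r2 pf14881 h14881
  have h14883 := checkRangeG_sound parWF r2 pf14882 h14882
  have h14884 := checkRangeG_sound parWF r2 pf14883 h14883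
  have h14885 := checkRangeG_sound parWF r2 pf14884 h14884
  have h14886 := checkRangeG_sound parWF r2 pf14885 h14885
  have h14887 := checkRangeG_sound parWF r2 pf14886 h14886
  have h14888 := checkRangeG_sound parWF r2 pf14887 h14887
  have h14889 := checkRangeG_sound parWF r2 pf14888 h14888
  have h14890 := checkRangeG_sound parWF r2 pf14889 h14889
  have h14891 := checkRangeG_sound parWF r2 pf14890 h14890
  have h14892 := checkRangeG_sound parWF r2 pf14891 h14891
  have h14893 := checkRangeG_sound parWF r2 pf14892 h14892
  have h14894 := checkRangeG_sound parWF r2 pf14893 h14893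
  have h14895 := checkRangeG_sound parWF r2 pf14894 h14894
  have h14896 := checkRangeG_sound parWF r2 pf14895 h14895
  have h14897 := checkRangeG_sound parWF r2 pf14896 h14896
  have h14898 := checkRangeG_sound parWF r2 pf14897 h14897
  have h14899 := checkRangeG_sound parWF r2 pf14898 h14898
  have h14900 := checkRangeG_sound parWF r2 pf14899 h14899
  exact h14900

theorem c298 (h14900 : ∀ j, j < 46382 → GoodG.{u} par (db j)) : ∀ j, j < 46555 → GoodG.{u} par (db j) := by
  have h14901 := checkRangeG_sound parWF r2 pf14900 h14900
  have h14902 := checkRangeG_sound parWF r2 pf14901 h14901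
  have h14903 := checkRangeG_sound parWF r2 pf14902 h14902
  have h14904 := checkRangeG_sound parWF r2 pf14903 h14903
  have h14905 := checkRangeG_sound parWF r2 pf14904 h14904
  have h14906 := checkRangeG_sound parWF r2 pf14905 h14905
  have h14907 := checkRangeG_sound parWF r2 pf14906 h14906
  have h14908 := checkRangeG_sound parWF r2 pf14907 h14907
  have h14909 := checkRangeG_sound parWF r2 pf14908 h14908
  have h14910 := checkRangeG_sound parWF r2 pf14909 h14909
  have h14911 := checkRangeG_sound parWF r2 pf14910 h14910
  have h14912 := checkRangeG_sound parWF r2 pf14911 h14911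
  have h14913 := checkRangeG_sound parWF r2 pf14912 h14912
  have h14914 := checkRangeG_sound parWF r2 pf14913 h14913
  have h14915 := checkRangeG_sound parWF r2 pf14914 h14914
  have h14916 := checkRangeG_sound parWF r2 pf14915 h14915
  have h14917 := checkRangeG_sound parWF r2 pf14916 h14916
  have h14918 := checkRangeG_sound parWF r2 pf14917 h14917
  have h14919 := checkRangeG_sound parWF r2 pf14918 h14918
  have h14920 := checkRangeG_sound parWF r2 pf14919 h14919
  have h14921 := checkRangeG_sound parWF r2 pf14920 h14920
  have h14922 := checkRangeG_sound parWF r2 pf14921 h14921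
  have h14923 := checkRangeG_sound parWF r2 pf14922 h14922
  have h14924 := checkRangeG_sound parWF r2 pf14923 h14923
  have h14925 := checkRangeG_sound parWF r2 pf14924 h14924
  have h14926 := checkRangeG_sound parWF r2 pf14925 h14925
  have h14927 := checkRangeG_sound parWF r2 pf14926 h14926
  have h14928 := checkRangeG_sound parWF r2 pf14927 h14927
  have h14929 := checkRangeG_sound parWF r2 pf14928 h14928
  have h14930 := checkRangeG_sound parWF r2 pf14929 h14929
  have h14931 := checkRangeG_sound parWF r2 pf14930 h14930
  have h14932 := checkRangeG_sound parWF r2 pf14931 h14931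
  have h14933 := checkRangeG_sound parWF r2 pf14932 h14932
  have h14934 := checkRangeG_sound parWF r2 pf14933 h14933
  have h14935 := checkRangeG_sound parWF r2 pf14934 h14934
  have h14936 := checkRangeG_sound parWF r2 pf14935 h14935
  have h14937 := checkRangeG_sound parWF r2 pf14936 h14936
  have h14938 := checkRangeG_sound parWF r2 pf14937 h14937
  have h14939 := checkRangeG_sound parWF r2 pf14938 h14938
  have h14940 := checkRangeG_sound parWF r2 pf14939 h14939
  have h14941 := checkRangeG_sound parWF r2 pf14940 h14940
  have h14942 := checkRangeG_sound parWF r2 pf14941 h14941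
  have h14943 := checkRangeG_sound parWF r2 pf14942 h14942
  have h14944 := checkRangeG_sound parWF r2 pf14943 h14943
  have h14945 := checkRangeG_sound parWF r2 pf14944 h14944
  have h14946 := checkRangeG_sound parWF r2 pf14945 h14945
  have h14947 := checkRangeG_sound parWF r2 pf14946 h14946
  have h14948 := checkRangeG_sound parWF r2 pf14947 h14947
  have h14949 := checkRangeG_sound parWF r2 pf14948 h14948
  have h14950 := checkRangeG_sound parWF r2 pf14949 h14949
  exact h14950

theorem c299 (h14950 : ∀ j, j < 46555 → GoodG.{u} par (db j)) : ∀ j, j < 46709 → GoodG.{u} par (db j) := by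
  have h14951 := checkRangeG_sound parWF r2 pf14950 h14950
  have h14952 := checkRangeG_sound parWF r2 pf14951 h14951
  have h14953 := checkRangeG_sound parWF r2 pf14952 h14952
  have h14954 := checkRangeG_sound parWF r2 pf14953 h14953
  have h14955 := checkRangeG_sound parWF r2 pf14954 h14954
  have h14956 := checkRangeG_sound parWF r2 pf14955 h14955
  have h14957 := checkRangeG_sound parWF r2 pf14956 h14956
  have h14958 := checkRangeG_sound parWF r2 pf14957 h14957
  have h14959 := checkRangeG_sound parWF r2 pf14958 h14958
  have h14960 := checkRangeG_sound parWF r2 pf14959 h14959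
  have h14961 := checkRangeG_sound parWF r2 pf14960 h14960
  have h14962 := checkRangeG_sound parWF r2 pf14961 h14961
  have h14963 := checkRangeG_sound parWF r2 pf14962 h14962
  have h14964 := checkRangeG_sound parWF r2 pf14963 h14963
  have h14965 := checkRangeG_sound parWF r2 pf14964 h14964
  have h14966 := checkRangeG_sound parWF r2 pf14965 h14965
  have h14967 := checkRangeG_sound parWF r2 pf14966 h14966
  have h14968 := checkRangeG_sound parWF r2 pf14967 h14967
  have h14969 := checkRangeG_sound parWF r2 pf14968 h14968
  have h14970 := checkRangeG_sound parWF r2 pf14969 h14969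
  have h14971 := checkRangeG_sound parWF r2 pf14970 h14970
  have h14972 := checkRangeG_sound parWF r2 pf14971 h14971
  have h14973 := checkRangeG_sound parWF r2 pf14972 h14972
  have h14974 := checkRangeG_sound parWF r2 pf14973 h14973
  have h14975 := checkRangeG_sound parWF r2 pf14974 h14974
  have h14976 := checkRangeG_sound parWF r2 pf14975 h14975
  have h14977 := checkRangeG_sound parWF r2 pf14976 h14976
  have h14978 := checkRangeG_sound parWF r2 pf14977 h14977
  have h14979 := checkRangeG_sound parWF r2 pf14978 h14978
  have h14980 := checkRangeG_sound parWF r2 pf14979 h14979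
  have h14981 := checkRangeG_sound parWF r2 pf14980 h14980
  have h14982 := checkRangeG_sound parWF r2 pf14981 h14981
  have h14983 := checkRangeG_sound parWF r2 pf14982 h14982
  have h14984 := checkRangeG_sound parWF r2 pf14983 h14983
  have h14985 := checkRangeG_sound parWF r2 pf14984 h14984
  have h14986 := checkRangeG_sound parWF r2 pf14985 h14985
  have h14987 := checkRangeG_sound parWF r2 pf14986 h14986
  have h14988 := checkRangeG_sound parWF r2 pf14987 h14987
  have h14989 := checkRangeG_sound parWF r2 pf14988 h14988
  have h14990 := checkRangeG_sound parWF r2 pf14989 h14989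
  have h14991 := checkRangeG_sound parWF r2 pf14990 h14990
  have h14992 := checkRangeG_sound parWF r2 pf14991 h14991
  have h14993 := checkRangeG_sound parWF r2 pf14992 h14992
  have h14994 := checkRangeG_sound parWF r2 pf14993 h14993
  have h14995 := checkRangeG_sound parWF r2 pf14994 h14994
  have h14996 := checkRangeG_sound parWF r2 pf14995 h14995
  have h14997 := checkRangeG_sound parWF r2 pf14996 h14996
  have h14998 := checkRangeG_sound parWF r2 pf14997 h14997
  have h14999 := checkRangeG_sound parWF r2 pf14998 h14998
  have h15000 := checkRangeG_sound parWF r2 pf14999 h14999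
  exact h15000


end Vale.Agent.P045g.C61
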