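import Vale.Agent.P045g.C61.WF
import Vale.Agent.P045g.C61.Pf250
import Vale.Agent.P045g.C61.Pf251
import Vale.Agent.P045g.C61.Pf252
import Vale.Agent.P045g.C61.Pf253
import Vale.Agent.P045g.C61.Pf254
import Vale.Agent.P045g.C61.Pf255
import Vale.Agent.P045g.C61.Pf256
import Vale.Agent.P045g.C61.Pf257
import Vale.Agent.P045g.C61.Pf258
import Vale.Agent.P045g.C61.Pf259

namespace Vale.Agent.P045g.C61

open Vale.Agent.P045b Vale.Agent.P045g

universe u

theorem c300 (h15000 : ∀ j, j < 46709 → GoodG.{u} par (db j)) : ∀ j, j < 46867 → GoodG.{u} par (db j) := by
  have h15001 := checkRangeG_sound parWF r2 pf15000 h15000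
  have h15002 := checkRangeG_sound parWF r2 pf15001 h15001
  have h15003 := checkRangeG_sound parWF r2 pf15002 h15002
  have h15004 := checkRangeG_sound parWF r2 pf15003 h15003
  have h15005 := checkRangeG_sound parWF r2 pf15004 h15004
  have h15006 := checkRangeG_sound parWF r2 pf15005 h15005
  have h15007 := checkRangeG_sound parWF r2 pf15006 h15006
  have h15008 := checkRangeG_sound parWF r2 pf15007 h15007
  have h15009 := checkRangeG_sound parWF r2 pf15008 h15008
  have h15010 := checkRangeG_sound parWF r2 pf15009 h15009
  have h15011 := checkRangeG_sound parWF r2 pf15010 h15010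
  have h15012 := checkRangeG_sound parWF r2 pf15011 h15011
  have h15013 := checkRangeG_sound parWF r2 pf15012 h15012
  have h15014 := checkRangeG_sound parWF r2 pf15013 h15013
  have h15015 := checkRangeG_sound parWF r2 pf15014 h15014
  have h15016 := checkRangeG_sound parWF r2 pf15015 h15015
  have h15017 := checkRangeG_sound parWF r2 pf15016 h15016
  have h15018 := checkRangeG_sound parWF r2 pf15017 h15017
  have h15019 := checkRangeG_sound parWF r2 pf15018 h15018
  have h15020 := checkRangeG_sound parWF r2 pf15019 h15019
  have h15021 := checkRangeG_sound parWF r2 pf15020 h15020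
  have h15022 := checkRangeG_sound parWF r2 pf15021 h15021
  have h15023 := checkRangeG_sound parWF r2 pf15022 h15022
  have h15024 := checkRangeG_sound parWF r2 pf15023 h15023
  have h15025 := checkRangeG_sound parWF r2 pf15024 h15024
  have h15026 := checkRangeG_sound parWF r2 pf15025 h15025
  have h15027 := checkRangeG_sound parWF r2 pf15026 h15026
  have h15028 := checkRangeG_sound parWF r2 pf15027 h15027
  have h15029 := checkRangeG_sound parWF r2 pf15028 h15028
  have h15030 := checkRangeG_sound parWF r2 pf15029 h15029
  have h15031 := checkRangeG_sound parWF r2 pf15030 h15030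
  have h15032 := checkRangeG_sound parWF r2 pf15031 h15031
  have h15033 := checkRangeG_sound parWF r2 pf15032 h15032
  have h15034 := checkRangeG_sound parWF r2 pf15033 h15033
  have h15035 := checkRangeG_sound parWF r2 pf15034 h15034
  have h15036 := checkRangeG_sound parWF r2 pf15035 h15035
  have h15037 := checkRangeG_sound parWF r2 pf15036 h15036
  have h15038 := checkRangeG_sound parWF r2 pf15037 h15037
  have h15039 := checkRangeG_sound parWF r2 pf15038 h15038
  have h15040 := checkRangeG_sound parWF r2 pf15039 h15039
  have h15041 := checkRangeG_sound parWF r2 pf15040 h15040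
  have h15042 := checkRangeG_sound parWF r2 pf15041 h15041
  have h15043 := checkRangeG_sound parWF r2 pf15042 h15042
  have h15044 := checkRangeG_sound parWF r2 pf15043 h15043
  have h15045 := checkRangeG_sound parWF r2 pf15044 h15044
  have h15046 := checkRangeG_sound parWF r2 pf15045 h15045
  have h15047 := checkRangeG_sound parWF r2 pf15046 h15046
  have h15048 := checkRangeG_sound parWF r2 pf15047 h15047
  have h15049 := checkRangeG_sound parWF r2 pf15048 h15048
  have h15050 := checkRangeG_sound parWF r2 pf15049 h15049
  exact h15050

theorem c301 (h15050 : ∀ j, j < 46867 → GoodG.{u} par (db j)) : ∀ j, j < 47033 → GoodG.{u} par (db j) := by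
  have h15051 := checkRangeG_sound parWF r2 pf15050 h15050
  have h15052 := checkRangeG_sound parWF r2 pf15051 h15051
  have h15053 := checkRangeG_sound parWF r2 pf15052 h15052
  have h15054 := checkRangeG_sound parWF r2 pf15053 h15053
  have h15055 := checkRangeG_sound parWF r2 pf15054 h15054
  have h15056 := checkRangeG_sound parWF r2 pf15055 h15055
  have h15057 := checkRangeG_sound parWF r2 pf15056 h15056
  have h15058 := checkRangeG_sound parWF r2 pf15057 h15057
  have h15059 := checkRangeG_sound parWF r2 pf15058 h15058
  have h15060 := checkRangeG_sound parWF r2 pf15059 h15059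
  have h15061 := checkRangeG_sound parWF r2 pf15060 h15060
  have h15062 := checkRangeG_sound parWF r2 pf15061 h15061
  have h15063 := checkRangeG_sound parWF r2 pf15062 h15062
  have h15064 := checkRangeG_sound parWF r2 pf15063 h15063
  have h15065 := checkRangeG_sound parWF r2 pf15064 h15064
  have h15066 := checkRangeG_sound parWF r2 pf15065 h15065
  have h15067 := checkRangeG_sound parWF r2 pf15066 h15066
  have h15068 := checkRangeG_sound parWF r2 pf15067 h15067
  have h15069 := checkRangeG_sound parWF r2 pf15068 h15068
  have h15070 := checkRangeG_sound parWF r2 pf15069 h15069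
  have h15071 := checkRangeG_sound parWF r2 pf15070 h15070
  have h15072 := checkRangeG_sound parWF r2 pf15071 h15071
  have h15073 := checkRangeG_sound parWF r2 pf15072 h15072
  have h15074 := checkRangeG_sound parWF r2 pf15073 h15073
  have h15075 := checkRangeG_sound parWF r2 pf15074 h15074
  have h15076 := checkRangeG_sound parWF r2 pf15075 h15075
  have h15077 := checkRangeG_sound parWF r2 pf15076 h15076
  have h15078 := checkRangeG_sound parWF r2 pf15077 h15077
  have h15079 := checkRangeG_sound parWF r2 pf15078 h15078
  have h15080 := checkRangeG_sound parWF r2 pf15079 h15079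
  have h15081 := checkRangeG_sound parWF r2 pf15080 h15080
  have h15082 := checkRangeG_sound parWF r2 pf15081 h15081
  have h15083 := checkRangeG_sound parWF r2 pf15082 h15082
  have h15084 := checkRangeG_sound parWF r2 pf15083 h15083
  have h15085 := checkRangeG_sound parWF r2 pf15084 h15084
  have h15086 := checkRangeG_sound parWF r2 pf15085 h15085
  have h15087 := checkRangeG_sound parWF r2 pf15086 h15086
  have h15088 := checkRangeG_sound parWF r2 pf15087 h15087
  have h15089 := checkRangeG_sound parWF r2 pf15088 h15088
  have h15090 := checkRangeG_sound parWF r2 pf15089 h15089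
  have h15091 := checkRangeG_sound parWF r2 pf15090 h15090
  have h15092 := checkRangeG_sound parWF r2 pf15091 h15091
  have h15093 := checkRangeG_sound parWF r2 pf15092 h15092
  have h15094 := checkRangeG_sound parWF r2 pf15093 h15093
  have h15095 := checkRangeG_sound parWF r2 pf15094 h15094
  have h15096 := checkRangeG_sound parWF r2 pf15095 h15095
  have h15097 := checkRangeG_sound parWF r2 pf15096 h15096
  have h15098 := checkRangeG_sound parWF r2 pf15097 h15097
  have h15099 := checkRangeG_sound parWF r2 pf15098 h15098
  have h15100 := checkRangeG_sound parWF r2 pf15099 h15099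
  exact h15100

theorem c302 (h15100 : ∀ j, j < 47033 → GoodG.{u} par (db j)) : ∀ j, j < 47197 → GoodG.{u} par (db j) := by
  have h15101 := checkRangeG_sound parWF r2 pf15100 h15100
  have h15102 := checkRangeG_sound parWF r2 pf15101 h15101
  have h15103 := checkRangeG_sound parWF r2 pf15102 h15102
  have h15104 := checkRangeG_sound parWF r2 pf15103 h15103
  have h15105 := checkRangeG_sound parWF r2 pf15104 h15104
  have h15106 := checkRangeG_sound parWF r2 pf15105 h15105
  have h15107 := checkRangeG_sound parWF r2 pf15106 h15106
  have h15108 := checkRangeG_sound parWF r2 pf15107 h15107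
  have h15109 := checkRangeG_sound parWF r2 pf15108 h15108
  have h15110 := checkRangeG_sound parWF r2 pf15109 h15109
  have h15111 := checkRangeG_sound parWF r2 pf15110 h15110
  have h15112 := checkRangeG_sound parWF r2 pf15111 h15111
  have h15113 := checkRangeG_sound parWF r2 pf15112 h15112
  have h15114 := checkRangeG_sound parWF r2 pf15113 h15113
  have h15115 := checkRangeG_sound parWF r2 pf15114 h15114
  have h15116 := checkRangeG_sound parWF r2 pf15115 h15115
  have h15117 := checkRangeG_sound parWF r2 pf15116 h15116
  have h15118 := checkRangeG_sound parWF r2 pf15117 h15117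
  have h15119 := checkRangeG_sound parWF r2 pf15118 h15118
  have h15120 := checkRangeG_sound parWF r2 pf15119 h15119
  have h15121 := checkRangeG_sound parWF r2 pf15120 h15120
  have h15122 := checkRangeG_sound parWF r2 pf15121 h15121
  have h15123 := checkRangeG_sound parWF r2 pf15122 h15122
  have h15124 := checkRangeG_sound parWF r2 pf15123 h15123
  have h15125 := checkRangeG_sound parWF r2 pf15124 h15124
  have h15126 := checkRangeG_sound parWF r2 pf15125 h15125
  have h15127 := checkRangeG_sound parWF r2 pf15126 h15126
  have h15128 := checkRangeG_sound parWF r2 pf15127 h15127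
  have h15129 := checkRangeG_sound parWF r2 pf15128 h15128
  have h15130 := checkRangeG_sound parWF r2 pf15129 h15129
  have h15131 := checkRangeG_sound parWF r2 pf15130 h15130
  have h15132 := checkRangeG_sound parWF r2 pf15131 h15131
  have h15133 := checkRangeG_sound parWF r2 pf15132 h15132
  have h15134 := checkRangeG_sound parWF r2 pf15133 h15133
  have h15135 := checkRangeG_sound parWF r2 pf15134 h15134
  have h15136 := checkRangeG_sound parWF r2 pf15135 h15135
  have h15137 := checkRangeG_sound parWF r2 pf15136 h15136
  have h15138 := checkRangeG_sound parWF r2 pf15137 h15137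
  have h15139 := checkRangeG_sound parWF r2 pf15138 h15138
  have h15140 := checkRangeG_sound parWF r2 pf15139 h15139
  have h15141 := checkRangeG_sound parWF r2 pf15140 h15140
  have h15142 := checkRangeG_sound parWF r2 pf15141 h15141
  have h15143 := checkRangeG_sound parWF r2 pf15142 h15142
  have h15144 := checkRangeG_sound parWF r2 pf15143 h15143
  have h15145 := checkRangeG_sound parWF r2 pf15144 h15144
  have h15146 := checkRangeG_sound parWF r2 pf15145 h15145
  have h15147 := checkRangeG_sound parWF r2 pf15146 h15146
  have h15148 := checkRangeG_sound parWF r2 pf15147 h15147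
  have h15149 := checkRangeG_sound parWF r2 pf15148 h15148
  have h15150 := checkRangeG_sound parWF r2 pf15149 h15149
  exact h15150

theorem c303 (h15150 : ∀ j, j < 47197 → GoodG.{u} par (db j)) : ∀ j, j < 47365 → GoodG.{u} par (db j) := by
  have h15151 := checkRangeG_sound parWF r2 pf15150 h15150
  have h15152 := checkRangeG_sound parWF r2 pf15151 h15151
  have h15153 := checkRangeG_sound parWF r2 pf15152 h15152
  have h15154 := checkRangeG_sound parWF r2 pf15153 h15153
  have h15155 := checkRangeG_sound parWF r2 pf15154 h15154
  have h15156 := checkRangeG_sound parWF r2 pf15155 h15155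
  have h15157 := checkRangeG_sound parWF r2 pf15156 h15156
  have h15158 := checkRangeG_sound parWF r2 pf15157 h15157
  have h15159 := checkRangeG_sound parWF r2 pf15158 h15158
  have h15160 := checkRangeG_sound parWF r2 pf15159 h15159
  have h15161 := checkRangeG_sound parWF r2 pf15160 h15160
  have h15162 := checkRangeG_sound parWF r2 pf15161 h15161
  have h15163 := checkRangeG_sound parWF r2 pf15162 h15162
  have h15164 := checkRangeG_sound parWF r2 pf15163 h15163
  have h15165 := checkRangeG_sound parWF r2 pf15164 h15164
  have h15166 := checkRangeG_sound parWF r2 pf15165 h15165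
  have h15167 := checkRangeG_sound parWF r2 pf15166 h15166
  have h15168 := checkRangeG_sound parWF r2 pf15167 h15167
  have h15169 := checkRangeG_sound parWF r2 pf15168 h15168
  have h15170 := checkRangeG_sound parWF r2 pf15169 h15169
  have h15171 := checkRangeG_sound parWF r2 pf15170 h15170
  have h15172 := checkRangeG_sound parWF r2 pf15171 h15171
  have h15173 := checkRangeG_sound parWF r2 pf15172 h15172
  have h15174 := checkRangeG_sound parWF r2 pf15173 h15173
  have h15175 := checkRangeG_sound parWF r2 pf15174 h15174
  have h15176 := checkRangeG_sound parWF r2 pf15175 h15175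
  have h15177 := checkRangeG_sound parWF r2 pf15176 h15176
  have h15178 := checkRangeG_sound parWF r2 pf15177 h15177
  have h15179 := checkRangeG_sound parWF r2 pf15178 h15178
  have h15180 := checkRangeG_sound parWF r2 pf15179 h15179
  have h15181 := checkRangeG_sound parWF r2 pf15180 h15180
  have h15182 := checkRangeG_sound parWF r2 pf15181 h15181
  have h15183 := checkRangeG_sound parWF r2 pf15182 h15182
  have h15184 := checkRangeG_sound parWF r2 pf15183 h15183
  have h15185 := checkRangeG_sound parWF r2 pf15184 h15184
  have h15186 := checkRangeG_sound parWF r2 pf15185 h15185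
  have h15187 := checkRangeG_sound parWF r2 pf15186 h15186
  have h15188 := checkRangeG_sound parWF r2 pf15187 h15187
  have h15189 := checkRangeG_sound parWF r2 pf15188 h15188
  have h15190 := checkRangeG_sound parWF r2 pf15189 h15189
  have h15191 := checkRangeG_sound parWF r2 pf15190 h15190
  have h15192 := checkRangeG_sound parWF r2 pf15191 h15191
  have h15193 := checkRangeG_sound parWF r2 pf15192 h15192
  have h15194 := checkRangeG_sound parWF r2 pf15193 h15193
  have h15195 := checkRangeG_sound parWF r2 pf15194 h15194
  have h15196 := checkRangeG_sound parWF r2 pf15195 h15195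
  have h15197 := checkRangeG_sound parWF r2 pf15196 h15196
  have h15198 := checkRangeG_sound parWF r2 pf15197 h15197
  have h15199 := checkRangeG_sound parWF r2 pf15198 h15198
  have h15200 := checkRangeG_sound parWF r2 pf15199 h15199
  exact h15200

theorem c304 (h15200 : ∀ j, j < 47365 → GoodG.{u} par (db j)) : ∀ j, j < 47538 → GoodG.{u} par (db j) := by
  have h15201 := checkRangeG_sound parWF r2 pf15200 h15200
  have h15202 := checkRangeG_sound parWF r2 pf15201 h15201
  have h15203 := checkRangeG_sound parWF r2 pf15202 h15202
  have h15204 := checkRangeG_sound parWF r2 pf15203 h15203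
  have h15205 := checkRangeG_sound parWF r2 pf15204 h15204
  have h15206 := checkRangeG_sound parWF r2 pf15205 h15205
  have h15207 := checkRangeG_sound parWF r2 pf15206 h15206
  have h15208 := checkRangeG_sound parWF r2 pf15207 h15207
  have h15209 := checkRangeG_sound parWF r2 pf15208 h15208
  have h15210 := checkRangeG_sound parWF r2 pf15209 h15209
  have h15211 := checkRangeG_sound parWF r2 pf15210 h15210
  have h15212 := checkRangeG_sound parWF r2 pf15211 h15211
  have h15213 := checkRangeG_sound parWF r2 pf15212 h15212
  have h15214 := checkRangeG_sound parWF r2 pf15213 h15213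
  have h15215 := checkRangeG_sound parWF r2 pf15214 h15214
  have h15216 := checkRangeG_sound parWF r2 pf15215 h15215
  have h15217 := checkRangeG_sound parWF r2 pf15216 h15216
  have h15218 := checkRangeG_sound parWF r2 pf15217 h15217
  have h15219 := checkRangeG_sound parWF r2 pf15218 h15218
  have h15220 := checkRangeG_sound parWF r2 pf15219 h15219
  have h15221 := checkRangeG_sound parWF r2 pf15220 h15220
  have h15222 := checkRangeG_sound parWF r2 pf15221 h15221
  have h15223 := checkRangeG_sound parWF r2 pf15222 h15222
  have h15224 := checkRangeG_sound parWF r2 pf15223 h15223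
  have h15225 := checkRangeG_sound parWF r2 pf15224 h15224
  have h15226 := checkRangeG_sound parWF r2 pf15225 h15225
  have h15227 := checkRangeG_sound parWF r2 pf15226 h15226
  have h15228 := checkRangeG_sound parWF r2 pf15227 h15227
  have h15229 := checkRangeG_sound parWF r2 pf15228 h15228
  have h15230 := checkRangeG_sound parWF r2 pf15229 h15229
  have h15231 := checkRangeG_sound parWF r2 pf15230 h15230
  have h15232 := checkRangeG_sound parWF r2 pf15231 h15231
  have h15233 := checkRangeG_sound parWF r2 pf15232 h15232
  have h15234 := checkRangeG_sound parWF r2 pf15233 h15233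
  have h15235 := checkRangeG_sound parWF r2 pf15234 h15234
  have h15236 := checkRangeG_sound parWF r2 pf15235 h15235
  have h15237 := checkRangeG_sound parWF r2 pf15236 h15236
  have h15238 := checkRangeG_sound parWF r2 pf15237 h15237
  have h15239 := checkRangeG_sound parWF r2 pf15238 h15238
  have h15240 := checkRangeG_sound parWF r2 pf15239 h15239
  have h15241 := checkRangeG_sound parWF r2 pf15240 h15240
  have h15242 := checkRangeG_sound parWF r2 pf15241 h15241
  have h15243 := checkRangeG_sound parWF r2 pf15242 h15242
  have h15244 := checkRangeG_sound parWF r2 pf15243 h15243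
  have h15245 := checkRangeG_sound parWF r2 pf15244 h15244
  have h15246 := checkRangeG_sound parWF r2 pf15245 h15245
  have h15247 := checkRangeG_sound parWF r2 pf15246 h15246
  have h15248 := checkRangeG_sound parWF r2 pf15247 h15247
  have h15249 := checkRangeG_sound parWF r2 pf15248 h15248
  have h15250 := checkRangeG_sound parWF r2 pf15249 h15249
  exact h15250

theorem c305 (h15250 : ∀ j, j < 47538 → GoodG.{u} par (db j)) : ∀ j, j < 47670 → GoodG.{u} par (db j) := by
  have h15251 := checkRangeG_sound parWF r2 pf15250 h15250
  have h15252 := checkRangeG_sound parWF r2 pf15251 h15251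
  have h15253 := checkRangeG_sound parWF r2 pf15252 h15252
  have h15254 := checkRangeG_sound parWF r2 pf15253 h15253
  have h15255 := checkRangeG_sound parWF r2 pf15254 h15254
  have h15256 := checkRangeG_sound parWF r2 pf15255 h15255
  have h15257 := checkRangeG_sound parWF r2 pf15256 h15256
  have h15258 := checkRangeG_sound parWF r2 pf15257 h15257
  have h15259 := checkRangeG_sound parWF r2 pf15258 h15258
  have h15260 := checkRangeG_sound parWF r2 pf15259 h15259
  have h15261 := checkRangeG_sound parWF r2 pf15260 h15260
  have h15262 := checkRangeG_sound parWF r2 pf15261 h15261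
  have h15263 := checkRangeG_sound parWF r2 pf15262 h15262
  have h15264 := checkRangeG_sound parWF r2 pf15263 h15263
  have h15265 := checkRangeG_sound parWF r2 pf15264 h15264
  have h15266 := checkRangeG_sound parWF r2 pf15265 h15265
  have h15267 := checkRangeG_sound parWF r2 pf15266 h15266
  have h15268 := checkRangeG_sound parWF r2 pf15267 h15267
  have h15269 := checkRangeG_sound parWF r2 pf15268 h15268
  have h15270 := checkRangeG_sound parWF r2 pf15269 h15269
  have h15271 := checkRangeG_sound parWF r2 pf15270 h15270
  have h15272 := checkRangeG_sound parWF r2 pf15271 h15271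
  have h15273 := checkRangeG_sound parWF r2 pf15272 h15272
  have h15274 := checkRangeG_sound parWF r2 pf15273 h15273
  have h15275 := checkRangeG_sound parWF r2 pf15274 h15274
  have h15276 := checkRangeG_sound parWF r2 pf15275 h15275
  have h15277 := checkRangeG_sound parWF r2 pf15276 h15276
  have h15278 := checkRangeG_sound parWF r2 pf15277 h15277
  have h15279 := checkRangeG_sound parWF r2 pf15278 h15278
  have h15280 := checkRangeG_sound parWF r2 pf15279 h15279
  have h15281 := checkRangeG_sound parWF r2 pf15280 h15280
  have h15282 := checkRangeG_sound parWF r2 pf15281 h15281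
  have h15283 := checkRangeG_sound parWF r2 pf15282 h15282
  have h15284 := checkRangeG_sound parWF r2 pf15283 h15283
  have h15285 := checkRangeG_sound parWF r2 pf15284 h15284
  have h15286 := checkRangeG_sound parWF r2 pf15285 h15285
  have h15287 := checkRangeG_sound parWF r2 pf15286 h15286
  have h15288 := checkRangeG_sound parWF r2 pf15287 h15287
  have h15289 := checkRangeG_sound parWF r2 pf15288 h15288
  have h15290 := checkRangeG_sound parWF r2 pf15289 h15289
  have h15291 := checkRangeG_sound parWF r2 pf15290 h15290
  have h15292 := checkRangeG_sound parWF r2 pf15291 h15291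
  have h15293 := checkRangeG_sound parWF r2 pf15292 h15292
  have h15294 := checkRangeG_sound parWF r2 pf15293 h15293
  have h15295 := checkRangeG_sound parWF r2 pf15294 h15294
  have h15296 := checkRangeG_sound parWF r2 pf15295 h15295
  have h15297 := checkRangeG_sound parWF r2 pf15296 h15296
  have h15298 := checkRangeG_sound parWF r2 pf15297 h15297
  have h15299 := checkRangeG_sound parWF r2 pf15298 h15298
  have h15300 := checkRangeG_sound parWF r2 pf15299 h15299
  exact h15300

theorem c306 (h15300 : ∀ j, j < 47670 → GoodG.{u} par (db j)) : ∀ j, j < 47817 → GoodG.{u} par (db j) := by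
  have h15301 := checkRangeG_sound parWF r2 pf15300 h15300
  have h15302 := checkRangeG_sound parWF r2 pf15301 h15301
  have h15303 := checkRangeG_sound parWF r2 pf15302 h15302
  have h15304 := checkRangeG_sound parWF r2 pf15303 h15303
  have h15305 := checkRangeG_sound parWF r2 pf15304 h15304
  have h15306 := checkRangeG_sound parWF r2 pf15305 h15305
  have h15307 := checkRangeG_sound parWF r2 pf15306 h15306
  have h15308 := checkRangeG_sound parWF r2 pf15307 h15307
  have h15309 := checkRangeG_sound parWF r2 pf15308 h15308
  have h15310 := checkRangeG_sound parWF r2 pf15309 h15309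
  have h15311 := checkRangeG_sound parWF r2 pf15310 h15310
  have h15312 := checkRangeG_sound parWF r2 pf15311 h15311
  have h15313 := checkRangeG_sound parWF r2 pf15312 h15312
  have h15314 := checkRangeG_sound parWF r2 pf15313 h15313
  have h15315 := checkRangeG_sound parWF r2 pf15314 h15314
  have h15316 := checkRangeG_sound parWF r2 pf15315 h15315
  have h15317 := checkRangeG_sound parWF r2 pf15316 h15316
  have h15318 := checkRangeG_sound parWF r2 pf15317 h15317
  have h15319 := checkRangeG_sound parWF r2 pf15318 h15318
  have h15320 := checkRangeG_sound parWF r2 pf15319 h15319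
  have h15321 := checkRangeG_sound parWF r2 pf15320 h15320
  have h15322 := checkRangeG_sound parWF r2 pf15321 h15321
  have h15323 := checkRangeG_sound parWF r2 pf15322 h15322
  have h15324 := checkRangeG_sound parWF r2 pf15323 h15323
  have h15325 := checkRangeG_sound parWF r2 pf15324 h15324
  have h15326 := checkRangeG_sound parWF r2 pf15325 h15325
  have h15327 := checkRangeG_sound parWF r2 pf15326 h15326
  have h15328 := checkRangeG_sound parWF r2 pf15327 h15327
  have h15329 := checkRangeG_sound parWF r2 pf15328 h15328
  have h15330 := checkRangeG_sound parWF r2 pf15329 h15329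
  have h15331 := checkRangeG_sound parWF r2 pf15330 h15330
  have h15332 := checkRangeG_sound parWF r2 pf15331 h15331
  have h15333 := checkRangeG_sound parWF r2 pf15332 h15332
  have h15334 := checkRangeG_sound parWF r2 pf15333 h15333
  have h15335 := checkRangeG_sound parWF r2 pf15334 h15334
  have h15336 := checkRangeG_sound parWF r2 pf15335 h15335
  have h15337 := checkRangeG_sound parWF r2 pf15336 h15336
  have h15338 := checkRangeG_sound parWF r2 pf15337 h15337
  have h15339 := checkRangeG_sound parWF r2 pf15338 h15338
  have h15340 := checkRangeG_sound parWF r2 pf15339 h15339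
  have h15341 := checkRangeG_sound parWF r2 pf15340 h15340
  have h15342 := checkRangeG_sound parWF r2 pf15341 h15341
  have h15343 := checkRangeG_sound parWF r2 pf15342 h15342
  have h15344 := checkRangeG_sound parWF r2 pf15343 h15343
  have h15345 := checkRangeG_sound parWF r2 pf15344 h15344
  have h15346 := checkRangeG_sound parWF r2 pf15345 h15345
  have h15347 := checkRangeG_sound parWF r2 pf15346 h15346
  have h15348 := checkRangeG_sound parWF r2 pf15347 h15347
  have h15349 := checkRangeG_sound parWF r2 pf15348 h15348
  have h15350 := checkRangeG_sound parWF r2 pf15349 h15349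
  exact h15350

theorem c307 (h15350 : ∀ j, j < 47817 → GoodG.{u} par (db j)) : ∀ j, j < 47937 → GoodG.{u} par (db j) := by
  have h15351 := checkRangeG_sound parWF r2 pf15350 h15350
  have h15352 := checkRangeG_sound parWF r2 pf15351 h15351
  have h15353 := checkRangeG_sound parWF r2 pf15352 h15352
  have h15354 := checkRangeG_sound parWF r2 pf15353 h15353
  have h15355 := checkRangeG_sound parWF r2 pf15354 h15354
  have h15356 := checkRangeG_sound parWF r2 pf15355 h15355
  have h15357 := checkRangeG_sound parWF r2 pf15356 h15356
  have h15358 := checkRangeG_sound parWF r2 pf15357 h15357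
  have h15359 := checkRangeG_sound parWF r2 pf15358 h15358
  have h15360 := checkRangeG_sound parWF r2 pf15359 h15359
  have h15361 := checkRangeG_sound parWF r2 pf15360 h15360
  have h15362 := checkRangeG_sound parWF r2 pf15361 h15361
  have h15363 := checkRangeG_sound parWF r2 pf15362 h15362
  have h15364 := checkRangeG_sound parWF r2 pf15363 h15363
  have h15365 := checkRangeG_sound parWF r2 pf15364 h15364
  have h15366 := checkRangeG_sound parWF r2 pf15365 h15365
  have h15367 := checkRangeG_sound parWF r2 pf15366 h15366
  have h15368 := checkRangeG_sound parWF r2 pf15367 h15367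
  have h15369 := checkRangeG_sound parWF r2 pf15368 h15368
  have h15370 := checkRangeG_sound parWF r2 pf15369 h15369
  have h15371 := checkRangeG_sound parWF r2 pf15370 h15370
  have h15372 := checkRangeG_sound parWF r2 pf15371 h15371
  have h15373 := checkRangeG_sound parWF r2 pf15372 h15372
  have h15374 := checkRangeG_sound parWF r2 pf15373 h15373
  have h15375 := checkRangeG_sound parWF r2 pf15374 h15374
  have h15376 := checkRangeG_sound parWF r2 pf15375 h15375
  have h15377 := checkRangeG_sound parWF r2 pf15376 h15376
  have h15378 := checkRangeG_sound parWF r2 pf15377 h15377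
  have h15379 := checkRangeG_sound parWF r2 pf15378 h15378
  have h15380 := checkRangeG_sound parWF r2 pf15379 h15379
  have h15381 := checkRangeG_sound parWF r2 pf15380 h15380
  have h15382 := checkRangeG_sound parWF r2 pf15381 h15381
  have h15383 := checkRangeG_sound parWF r2 pf15382 h15382
  have h15384 := checkRangeG_sound parWF r2 pf15383 h15383
  have h15385 := checkRangeG_sound parWF r2 pf15384 h15384
  have h15386 := checkRangeG_sound parWF r2 pf15385 h15385
  have h15387 := checkRangeG_sound parWF r2 pf15386 h15386
  have h15388 := checkRangeG_sound parWF r2 pf15387 h15387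
  have h15389 := checkRangeG_sound parWF r2 pf15388 h15388
  have h15390 := checkRangeG_sound parWF r2 pf15389 h15389
  have h15391 := checkRangeG_sound parWF r2 pf15390 h15390
  have h15392 := checkRangeG_sound parWF r2 pf15391 h15391
  have h15393 := checkRangeG_sound parWF r2 pf15392 h15392
  have h15394 := checkRangeG_sound parWF r2 pf15393 h15393
  have h15395 := checkRangeG_sound parWF r2 pf15394 h15394
  have h15396 := checkRangeG_sound parWF r2 pf15395 h15395
  have h15397 := checkRangeG_sound parWF r2 pf15396 h15396
  have h15398 := checkRangeG_sound parWF r2 pf15397 h15397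
  have h15399 := checkRangeG_sound parWF r2 pf15398 h15398
  have h15400 := checkRangeG_sound parWF r2 pf15399 h15399
  exact h15400

theorem c308 (h15400 : ∀ j, j < 47937 → GoodG.{u} par (db j)) : ∀ j, j < 48077 → GoodG.{u} par (db j) := by
  have h15401 := checkRangeG_sound parWF r2 pf15400 h15400
  have h15402 := checkRangeG_sound parWF r2 pf15401 h15401
  have h15403 := checkRangeG_sound parWF r2 pf15402 h15402
  have h15404 := checkRangeG_sound parWF r2 pf15403 h15403
  have h15405 := checkRangeG_sound parWF r2 pf15404 h15404
  have h15406 := checkRangeG_sound parWF r2 pf15405 h15405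
  have h15407 := checkRangeG_sound parWF r2 pf15406 h15406
  have h15408 := checkRangeG_sound parWF r2 pf15407 h15407
  have h15409 := checkRangeG_sound parWF r2 pf15408 h15408
  have h15410 := checkRangeG_sound parWF r2 pf15409 h15409
  have h15411 := checkRangeG_sound parWF r2 pf15410 h15410
  have h15412 := checkRangeG_sound parWF r2 pf15411 h15411
  have h15413 := checkRangeG_sound parWF r2 pf15412 h15412
  have h15414 := checkRangeG_sound parWF r2 pf15413 h15413
  have h15415 := checkRangeG_sound parWF r2 pf15414 h15414
  have h15416 := checkRangeG_sound parWF r2 pf15415 h15415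
  have h15417 := checkRangeG_sound parWF r2 pf15416 h15416
  have h15418 := checkRangeG_sound parWF r2 pf15417 h15417
  have h15419 := checkRangeG_sound parWF r2 pf15418 h15418
  have h15420 := checkRangeG_sound parWF r2 pf15419 h15419
  have h15421 := checkRangeG_sound parWF r2 pf15420 h15420
  have h15422 := checkRangeG_sound parWF r2 pf15421 h15421
  have h15423 := checkRangeG_sound parWF r2 pf15422 h15422
  have h15424 := checkRangeG_sound parWF r2 pf15423 h15423
  have h15425 := checkRangeG_sound parWF r2 pf15424 h15424
  have h15426 := checkRangeG_sound parWF r2 pf15425 h15425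
  have h15427 := checkRangeG_sound parWF r2 pf15426 h15426
  have h15428 := checkRangeG_sound parWF r2 pf15427 h15427
  have h15429 := checkRangeG_sound parWF r2 pf15428 h15428
  have h15430 := checkRangeG_sound parWF r2 pf15429 h15429
  have h15431 := checkRangeG_sound parWF r2 pf15430 h15430
  have h15432 := checkRangeG_sound parWF r2 pf15431 h15431
  have h15433 := checkRangeG_sound parWF r2 pf15432 h15432
  have h15434 := checkRangeG_sound parWF r2 pf15433 h15433
  have h15435 := checkRangeG_sound parWF r2 pf15434 h15434
  have h15436 := checkRangeG_sound parWF r2 pf15435 h15435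
  have h15437 := checkRangeG_sound parWF r2 pf15436 h15436
  have h15438 := checkRangeG_sound parWF r2 pf15437 h15437
  have h15439 := checkRangeG_sound parWF r2 pf15438 h15438
  have h15440 := checkRangeG_sound parWF r2 pf15439 h15439
  have h15441 := checkRangeG_sound parWF r2 pf15440 h15440
  have h15442 := checkRangeG_sound parWF r2 pf15441 h15441
  have h15443 := checkRangeG_sound parWF r2 pf15442 h15442
  have h15444 := checkRangeG_sound parWF r2 pf15443 h15443
  have h15445 := checkRangeG_sound parWF r2 pf15444 h15444
  have h15446 := checkRangeG_sound parWF r2 pf15445 h15445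
  have h15447 := checkRangeG_sound parWF r2 pf15446 h15446
  have h15448 := checkRangeG_sound parWF r2 pf15447 h15447
  have h15449 := checkRangeG_sound parWF r2 pf15448 h15448
  have h15450 := checkRangeG_sound parWF r2 pf15449 h15449
  exact h15450

theorem c309 (h15450 : ∀ j, j < 48077 → GoodG.{u} par (db j)) : ∀ j, j < 48211 → GoodG.{u} par (db j) := by
  have h15451 := checkRangeG_sound parWF r2 pf15450 h15450
  have h15452 := checkRangeG_sound parWF r2 pf15451 h15451
  have h15453 := checkRangeG_sound parWF r2 pf15452 h15452
  have h15454 := checkRangeG_sound parWF r2 pf15453 h15453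
  have h15455 := checkRangeG_sound parWF r2 pf15454 h15454
  have h15456 := checkRangeG_sound parWF r2 pf15455 h15455
  have h15457 := checkRangeG_sound parWF r2 pf15456 h15456
  have h15458 := checkRangeG_sound parWF r2 pf15457 h15457
  have h15459 := checkRangeG_sound parWF r2 pf15458 h15458
  have h15460 := checkRangeG_sound parWF r2 pf15459 h15459
  have h15461 := checkRangeG_sound parWF r2 pf15460 h15460
  have h15462 := checkRangeG_sound parWF r2 pf15461 h15461
  have h15463 := checkRangeG_sound parWF r2 pf15462 h15462
  have h15464 := checkRangeG_sound parWF r2 pf15463 h15463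
  have h15465 := checkRangeG_sound parWF r2 pf15464 h15464
  have h15466 := checkRangeG_sound parWF r2 pf15465 h15465
  have h15467 := checkRangeG_sound parWF r2 pf15466 h15466
  have h15468 := checkRangeG_sound parWF r2 pf15467 h15467
  have h15469 := checkRangeG_sound parWF r2 pf15468 h15468
  have h15470 := checkRangeG_sound parWF r2 pf15469 h15469
  have h15471 := checkRangeG_sound parWF r2 pf15470 h15470
  have h15472 := checkRangeG_sound parWF r2 pf15471 h15471
  have h15473 := checkRangeG_sound parWF r2 pf15472 h15472
  have h15474 := checkRangeG_sound parWF r2 pf15473 h15473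
  have h15475 := checkRangeG_sound parWF r2 pf15474 h15474
  have h15476 := checkRangeG_sound parWF r2 pf15475 h15475
  have h15477 := checkRangeG_sound parWF r2 pf15476 h15476
  have h15478 := checkRangeG_sound parWF r2 pf15477 h15477
  have h15479 := checkRangeG_sound parWF r2 pf15478 h15478
  have h15480 := checkRangeG_sound parWF r2 pf15479 h15479
  have h15481 := checkRangeG_sound parWF r2 pf15480 h15480
  have h15482 := checkRangeG_sound parWF r2 pf15481 h15481
  have h15483 := checkRangeG_sound parWF r2 pf15482 h15482
  have h15484 := checkRangeG_sound parWF r2 pf15483 h15483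
  have h15485 := checkRangeG_sound parWF r2 pf15484 h15484
  have h15486 := checkRangeG_sound parWF r2 pf15485 h15485
  have h15487 := checkRangeG_sound parWF r2 pf15486 h15486
  have h15488 := checkRangeG_sound parWF r2 pf15487 h15487
  have h15489 := checkRangeG_sound parWF r2 pf15488 h15488
  have h15490 := checkRangeG_sound parWF r2 pf15489 h15489
  have h15491 := checkRangeG_sound parWF r2 pf15490 h15490
  have h15492 := checkRangeG_sound parWF r2 pf15491 h15491
  have h15493 := checkRangeG_sound parWF r2 pf15492 h15492
  have h15494 := checkRangeG_sound parWF r2 pf15493 h15493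
  have h15495 := checkRangeG_sound parWF r2 pf15494 h15494
  have h15496 := checkRangeG_sound parWF r2 pf15495 h15495
  have h15497 := checkRangeG_sound parWF r2 pf15496 h15496
  have h15498 := checkRangeG_sound parWF r2 pf15497 h15497
  have h15499 := checkRangeG_sound parWF r2 pf15498 h15498
  have h15500 := checkRangeG_sound parWF r2 pf15499 h15499
  exact h15500

theorem c310 (h15500 : ∀ j, j < 48211 → GoodG.{u} par (db j)) : ∀ j, j < 48355 → GoodG.{u} par (db j) := by
  have h15501 := checkRangeG_sound parWF r2 pf15500 h15500
  have h15502 := checkRangeG_sound parWF r2 pf15501 h15501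
  have h15503 := checkRangeG_sound parWF r2 pf15502 h15502
  have h15504 := checkRangeG_sound parWF r2 pf15503 h15503
  have h15505 := checkRangeG_sound parWF r2 pf15504 h15504
  have h15506 := checkRangeG_sound parWF r2 pf15505 h15505
  have h15507 := checkRangeG_sound parWF r2 pf15506 h15506
  have h15508 := checkRangeG_sound parWF r2 pf15507 h15507
  have h15509 := checkRangeG_sound parWF r2 pf15508 h15508
  have h15510 := checkRangeG_sound parWF r2 pf15509 h15509
  have h15511 := checkRangeG_sound parWF r2 pf15510 h15510
  have h15512 := checkRangeG_sound parWF r2 pf15511 h15511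
  have h15513 := checkRangeG_sound parWF r2 pf15512 h15512
  have h15514 := checkRangeG_sound parWF r2 pf15513 h15513
  have h15515 := checkRangeG_sound parWF r2 pf15514 h15514
  have h15516 := checkRangeG_sound parWF r2 pf15515 h15515
  have h15517 := checkRangeG_sound parWF r2 pf15516 h15516
  have h15518 := checkRangeG_sound parWF r2 pf15517 h15517
  have h15519 := checkRangeG_sound parWF r2 pf15518 h15518
  have h15520 := checkRangeG_sound parWF r2 pf15519 h15519
  have h15521 := checkRangeG_sound parWF r2 pf15520 h15520
  have h15522 := checkRangeG_sound parWF r2 pf15521 h15521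
  have h15523 := checkRangeG_sound parWF r2 pf15522 h15522
  have h15524 := checkRangeG_sound parWF r2 pf15523 h15523
  have h15525 := checkRangeG_sound parWF r2 pf15524 h15524
  have h15526 := checkRangeG_sound parWF r2 pf15525 h15525
  have h15527 := checkRangeG_sound parWF r2 pf15526 h15526
  have h15528 := checkRangeG_sound parWF r2 pf15527 h15527
  have h15529 := checkRangeG_sound parWF r2 pf15528 h15528
  have h15530 := checkRangeG_sound parWF r2 pf15529 h15529
  have h15531 := checkRangeG_sound parWF r2 pf15530 h15530
  have h15532 := checkRangeG_sound parWF r2 pf15531 h15531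
  have h15533 := checkRangeG_sound parWF r2 pf15532 h15532
  have h15534 := checkRangeG_sound parWF r2 pf15533 h15533
  have h15535 := checkRangeG_sound parWF r2 pf15534 h15534
  have h15536 := checkRangeG_sound parWF r2 pf15535 h15535
  have h15537 := checkRangeG_sound parWF r2 pf15536 h15536
  have h15538 := checkRangeG_sound parWF r2 pf15537 h15537
  have h15539 := checkRangeG_sound parWF r2 pf15538 h15538
  have h15540 := checkRangeG_sound parWF r2 pf15539 h15539
  have h15541 := checkRangeG_sound parWF r2 pf15540 h15540
  have h15542 := checkRangeG_sound parWF r2 pf15541 h15541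
  have h15543 := checkRangeG_sound parWF r2 pf15542 h15542
  have h15544 := checkRangeG_sound parWF r2 pf15543 h15543
  have h15545 := checkRangeG_sound parWF r2 pf15544 h15544
  have h15546 := checkRangeG_sound parWF r2 pf15545 h15545
  have h15547 := checkRangeG_sound parWF r2 pf15546 h15546
  have h15548 := checkRangeG_sound parWF r2 pf15547 h15547
  have h15549 := checkRangeG_sound parWF r2 pf15548 h15548
  have h15550 := checkRangeG_sound parWF r2 pf15549 h15549
  exact h15550

theorem c311 (h15550 : ∀ j, j < 48355 → GoodG.{u} par (db j)) : ∀ j, j < 48512 → GoodG.{u} par (db j) := by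
  have h15551 := checkRangeG_sound parWF r2 pf15550 h15550
  have h15552 := checkRangeG_sound parWF r2 pf15551 h15551
  have h15553 := checkRangeG_sound parWF r2 pf15552 h15552
  have h15554 := checkRangeG_sound parWF r2 pf15553 h15553
  have h15555 := checkRangeG_sound parWF r2 pf15554 h15554
  have h15556 := checkRangeG_sound parWF r2 pf15555 h15555
  have h15557 := checkRangeG_sound parWF r2 pf15556 h15556
  have h15558 := checkRangeG_sound parWF r2 pf15557 h15557
  have h15559 := checkRangeG_sound parWF r2 pf15558 h15558
  have h15560 := checkRangeG_sound parWF r2 pf15559 h15559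
  have h15561 := checkRangeG_sound parWF r2 pf15560 h15560
  have h15562 := checkRangeG_sound parWF r2 pf15561 h15561
  have h15563 := checkRangeG_sound parWF r2 pf15562 h15562
  have h15564 := checkRangeG_sound parWF r2 pf15563 h15563
  have h15565 := checkRangeG_sound parWF r2 pf15564 h15564
  have h15566 := checkRangeG_sound parWF r2 pf15565 h15565
  have h15567 := checkRangeG_sound parWF r2 pf15566 h15566
  have h15568 := checkRangeG_sound parWF r2 pf15567 h15567
  have h15569 := checkRangeG_sound parWF r2 pf15568 h15568
  have h15570 := checkRangeG_sound parWF r2 pf15569 h15569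
  have h15571 := checkRangeG_sound parWF r2 pf15570 h15570
  have h15572 := checkRangeG_sound parWF r2 pf15571 h15571
  have h15573 := checkRangeG_sound parWF r2 pf15572 h15572
  have h15574 := checkRangeG_sound parWF r2 pf15573 h15573
  have h15575 := checkRangeG_sound parWF r2 pf15574 h15574
  have h15576 := checkRangeG_sound parWF r2 pf15575 h15575
  have h15577 := checkRangeG_sound parWF r2 pf15576 h15576
  have h15578 := checkRangeG_sound parWF r2 pf15577 h15577
  have h15579 := checkRangeG_sound parWF r2 pf15578 h15578
  have h15580 := checkRangeG_sound parWF r2 pf15579 h15579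
  have h15581 := checkRangeG_sound parWF r2 pf15580 h15580
  have h15582 := checkRangeG_sound parWF r2 pf15581 h15581
  have h15583 := checkRangeG_sound parWF r2 pf15582 h15582
  have h15584 := checkRangeG_sound parWF r2 pf15583 h15583
  have h15585 := checkRangeG_sound parWF r2 pf15584 h15584
  have h15586 := checkRangeG_sound parWF r2 pf15585 h15585
  have h15587 := checkRangeG_sound parWF r2 pf15586 h15586
  have h15588 := checkRangeG_sound parWF r2 pf15587 h15587
  have h15589 := checkRangeG_sound parWF r2 pf15588 h15588
  have h15590 := checkRangeG_sound parWF r2 pf15589 h15589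
  have h15591 := checkRangeG_sound parWF r2 pf15590 h15590
  have h15592 := checkRangeG_sound parWF r2 pf15591 h15591
  have h15593 := checkRangeG_sound parWF r2 pf15592 h15592
  have h15594 := checkRangeG_sound parWF r2 pf15593 h15593
  have h15595 := checkRangeG_sound parWF r2 pf15594 h15594
  have h15596 := checkRangeG_sound parWF r2 pf15595 h15595
  have h15597 := checkRangeG_sound parWF r2 pf15596 h15596
  have h15598 := checkRangeG_sound parWF r2 pf15597 h15597
  have h15599 := checkRangeG_sound parWF r2 pf15598 h15598
  have h15600 := checkRangeG_sound parWF r2 pf15599 h15599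
  exact h15600


end Vale.Agent.P045g.C61
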