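import Vale.Agent.P045g.C61.WF
import Vale.Agent.P045g.C61.Pf260
import Vale.Agent.P045g.C61.Pf261
import Vale.Agent.P045g.C61.Pf262
import Vale.Agent.P045g.C61.Pf263
import Vale.Agent.P045g.C61.Pf264
import Vale.Agent.P045g.C61.Pf265
import Vale.Agent.P045g.C61.Pf266
import Vale.Agent.P045g.C61.Pf267
import Vale.Agent.P045g.C61.Pf268
import Vale.Agent.P045g.C61.Pf269

namespace Vale.Agent.P045g.C61

open Vale.Agent.P045b Vale.Agent.P045g

universe u

theorem c312 (h15600 : ∀ j, j < 48512 → GoodG.{u} par (db j)) : ∀ j, j < 48639 → GoodG.{u} par (db j) := by
  have h15601 := checkRangeG_sound parWF r2 pf15600 h15600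
  have h15602 := checkRangeG_sound parWF r2 pf15601 h15601
  have h15603 := checkRangeG_sound parWF r2 pf15602 h15602
  have h15604 := checkRangeG_sound parWF r2 pf15603 h15603
  have h15605 := checkRangeG_sound parWF r2 pf15604 h15604
  have h15606 := checkRangeG_sound parWF r2 pf15605 h15605
  have h15607 := checkRangeG_sound parWF r2 pf15606 h15606
  have h15608 := checkRangeG_sound parWF r2 pf15607 h15607
  have h15609 := checkRangeG_sound parWF r2 pf15608 h15608
  have h15610 := checkRangeG_sound parWF r2 pf15609 h15609
  have h15611 := checkRangeG_sound parWF r2 pf15610 h15610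
  have h15612 := checkRangeG_sound parWF r2 pf15611 h15611
  have h15613 := checkRangeG_sound parWF r2 pf15612 h15612
  have h15614 := checkRangeG_sound parWF r2 pf15613 h15613
  have h15615 := checkRangeG_sound parWF r2 pf15614 h15614
  have h15616 := checkRangeG_sound parWF r2 pf15615 h15615
  have h15617 := checkRangeG_sound parWF r2 pf15616 h15616
  have h15618 := checkRangeG_sound parWF r2 pf15617 h15617
  have h15619 := checkRangeG_sound parWF r2 pf15618 h15618
  have h15620 := checkRangeG_sound parWF r2 pf15619 h15619
  have h15621 := checkRangeG_sound parWF r2 pf15620 h15620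
  have h15622 := checkRangeG_sound parWF r2 pf15621 h15621
  have h15623 := checkRangeG_sound parWF r2 pf15622 h15622
  have h15624 := checkRangeG_sound parWF r2 pf15623 h15623
  have h15625 := checkRangeG_sound parWF r2 pf15624 h15624
  have h15626 := checkRangeG_sound parWF r2 pf15625 h15625
  have h15627 := checkRangeG_sound parWF r2 pf15626 h15626
  have h15628 := checkRangeG_sound parWF r2 pf15627 h15627
  have h15629 := checkRangeG_sound parWF r2 pf15628 h15628
  have h15630 := checkRangeG_sound parWF r2 pf15629 h15629
  have h15631 := checkRangeG_sound parWF r2 pf15630 h15630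
  have h15632 := checkRangeG_sound parWF r2 pf15631 h15631
  have h15633 := checkRangeG_sound parWF r2 pf15632 h15632
  have h15634 := checkRangeG_sound parWF r2 pf15633 h15633
  have h15635 := checkRangeG_sound parWF r2 pf15634 h15634
  have h15636 := checkRangeG_sound parWF r2 pf15635 h15635
  have h15637 := checkRangeG_sound parWF r2 pf15636 h15636
  have h15638 := checkRangeG_sound parWF r2 pf15637 h15637
  have h15639 := checkRangeG_sound parWF r2 pf15638 h15638
  have h15640 := checkRangeG_sound parWF r2 pf15639 h15639
  have h15641 := checkRangeG_sound parWF r2 pf15640 h15640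
  have h15642 := checkRangeG_sound parWF r2 pf15641 h15641
  have h15643 := checkRangeG_sound parWF r2 pf15642 h15642
  have h15644 := checkRangeG_sound parWF r2 pf15643 h15643
  have h15645 := checkRangeG_sound parWF r2 pf15644 h15644
  have h15646 := checkRangeG_sound parWF r2 pf15645 h15645
  have h15647 := checkRangeG_sound parWF r2 pf15646 h15646
  have h15648 := checkRangeG_sound parWF r2 pf15647 h15647
  have h15649 := checkRangeG_sound parWF r2 pf15648 h15648
  have h15650 := checkRangeG_sound parWF r2 pf15649 h15649
  exact h15650

theorem c313 (h15650 : ∀ j, j < 48639 → GoodG.{u} par (db j)) : ∀ j, j < 48795 → GoodG.{u} par (db j) := by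
  have h15651 := checkRangeG_sound parWF r2 pf15650 h15650
  have h15652 := checkRangeG_sound parWF r2 pf15651 h15651
  have h15653 := checkRangeG_sound parWF r2 pf15652 h15652
  have h15654 := checkRangeG_sound parWF r2 pf15653 h15653
  have h15655 := checkRangeG_sound parWF r2 pf15654 h15654
  have h15656 := checkRangeG_sound parWF r2 pf15655 h15655
  have h15657 := checkRangeG_sound parWF r2 pf15656 h15656
  have h15658 := checkRangeG_sound parWF r2 pf15657 h15657
  have h15659 := checkRangeG_sound parWF r2 pf15658 h15658
  have h15660 := checkRangeG_sound parWF r2 pf15659 h15659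
  have h15661 := checkRangeG_sound parWF r2 pf15660 h15660
  have h15662 := checkRangeG_sound parWF r2 pf15661 h15661
  have h15663 := checkRangeG_sound parWF r2 pf15662 h15662
  have h15664 := checkRangeG_sound parWF r2 pf15663 h15663
  have h15665 := checkRangeG_sound parWF r2 pf15664 h15664
  have h15666 := checkRangeG_sound parWF r2 pf15665 h15665
  have h15667 := checkRangeG_sound parWF r2 pf15666 h15666
  have h15668 := checkRangeG_sound parWF r2 pf15667 h15667
  have h15669 := checkRangeG_sound parWF r2 pf15668 h15668
  have h15670 := checkRangeG_sound parWF r2 pf15669 h15669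
  have h15671 := checkRangeG_sound parWF r2 pf15670 h15670
  have h15672 := checkRangeG_sound parWF r2 pf15671 h15671
  have h15673 := checkRangeG_sound parWF r2 pf15672 h15672
  have h15674 := checkRangeG_sound parWF r2 pf15673 h15673
  have h15675 := checkRangeG_sound parWF r2 pf15674 h15674
  have h15676 := checkRangeG_sound parWF r2 pf15675 h15675
  have h15677 := checkRangeG_sound parWF r2 pf15676 h15676
  have h15678 := checkRangeG_sound parWF r2 pf15677 h15677
  have h15679 := checkRangeG_sound parWF r2 pf15678 h15678
  have h15680 := checkRangeG_sound parWF r2 pf15679 h15679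
  have h15681 := checkRangeG_sound parWF r2 pf15680 h15680
  have h15682 := checkRangeG_sound parWF r2 pf15681 h15681
  have h15683 := checkRangeG_sound parWF r2 pf15682 h15682
  have h15684 := checkRangeG_sound parWF r2 pf15683 h15683
  have h15685 := checkRangeG_sound parWF r2 pf15684 h15684
  have h15686 := checkRangeG_sound parWF r2 pf15685 h15685
  have h15687 := checkRangeG_sound parWF r2 pf15686 h15686
  have h15688 := checkRangeG_sound parWF r2 pf15687 h15687
  have h15689 := checkRangeG_sound parWF r2 pf15688 h15688
  have h15690 := checkRangeG_sound parWF r2 pf15689 h15689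
  have h15691 := checkRangeG_sound parWF r2 pf15690 h15690
  have h15692 := checkRangeG_sound parWF r2 pf15691 h15691
  have h15693 := checkRangeG_sound parWF r2 pf15692 h15692
  have h15694 := checkRangeG_sound parWF r2 pf15693 h15693
  have h15695 := checkRangeG_sound parWF r2 pf15694 h15694
  have h15696 := checkRangeG_sound parWF r2 pf15695 h15695
  have h15697 := checkRangeG_sound parWF r2 pf15696 h15696
  have h15698 := checkRangeG_sound parWF r2 pf15697 h15697
  have h15699 := checkRangeG_sound parWF r2 pf15698 h15698
  have h15700 := checkRangeG_sound parWF r2 pf15699 h15699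
  exact h15700

theorem c314 (h15700 : ∀ j, j < 48795 → GoodG.{u} par (db j)) : ∀ j, j < 48945 → GoodG.{u} par (db j) := by
  have h15701 := checkRangeG_sound parWF r2 pf15700 h15700
  have h15702 := checkRangeG_sound parWF r2 pf15701 h15701
  have h15703 := checkRangeG_sound parWF r2 pf15702 h15702
  have h15704 := checkRangeG_sound parWF r2 pf15703 h15703
  have h15705 := checkRangeG_sound parWF r2 pf15704 h15704
  have h15706 := checkRangeG_sound parWF r2 pf15705 h15705
  have h15707 := checkRangeG_sound parWF r2 pf15706 h15706
  have h15708 := checkRangeG_sound parWF r2 pf15707 h15707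
  have h15709 := checkRangeG_sound parWF r2 pf15708 h15708
  have h15710 := checkRangeG_sound parWF r2 pf15709 h15709
  have h15711 := checkRangeG_sound parWF r2 pf15710 h15710
  have h15712 := checkRangeG_sound parWF r2 pf15711 h15711
  have h15713 := checkRangeG_sound parWF r2 pf15712 h15712
  have h15714 := checkRangeG_sound parWF r2 pf15713 h15713
  have h15715 := checkRangeG_sound parWF r2 pf15714 h15714
  have h15716 := checkRangeG_sound parWF r2 pf15715 h15715
  have h15717 := checkRangeG_sound parWF r2 pf15716 h15716
  have h15718 := checkRangeG_sound parWF r2 pf15717 h15717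
  have h15719 := checkRangeG_sound parWF r2 pf15718 h15718
  have h15720 := checkRangeG_sound parWF r2 pf15719 h15719
  have h15721 := checkRangeG_sound parWF r2 pf15720 h15720
  have h15722 := checkRangeG_sound parWF r2 pf15721 h15721
  have h15723 := checkRangeG_sound parWF r2 pf15722 h15722
  have h15724 := checkRangeG_sound parWF r2 pf15723 h15723
  have h15725 := checkRangeG_sound parWF r2 pf15724 h15724
  have h15726 := checkRangeG_sound parWF r2 pf15725 h15725
  have h15727 := checkRangeG_sound parWF r2 pf15726 h15726
  have h15728 := checkRangeG_sound parWF r2 pf15727 h15727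
  have h15729 := checkRangeG_sound parWF r2 pf15728 h15728
  have h15730 := checkRangeG_sound parWF r2 pf15729 h15729
  have h15731 := checkRangeG_sound parWF r2 pf15730 h15730
  have h15732 := checkRangeG_sound parWF r2 pf15731 h15731
  have h15733 := checkRangeG_sound parWF r2 pf15732 h15732
  have h15734 := checkRangeG_sound parWF r2 pf15733 h15733
  have h15735 := checkRangeG_sound parWF r2 pf15734 h15734
  have h15736 := checkRangeG_sound parWF r2 pf15735 h15735
  have h15737 := checkRangeG_sound parWF r2 pf15736 h15736
  have h15738 := checkRangeG_sound parWF r2 pf15737 h15737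
  have h15739 := checkRangeG_sound parWF r2 pf15738 h15738
  have h15740 := checkRangeG_sound parWF r2 pf15739 h15739
  have h15741 := checkRangeG_sound parWF r2 pf15740 h15740
  have h15742 := checkRangeG_sound parWF r2 pf15741 h15741
  have h15743 := checkRangeG_sound parWF r2 pf15742 h15742
  have h15744 := checkRangeG_sound parWF r2 pf15743 h15743
  have h15745 := checkRangeG_sound parWF r2 pf15744 h15744
  have h15746 := checkRangeG_sound parWF r2 pf15745 h15745
  have h15747 := checkRangeG_sound parWF r2 pf15746 h15746
  have h15748 := checkRangeG_sound parWF r2 pf15747 h15747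
  have h15749 := checkRangeG_sound parWF r2 pf15748 h15748
  have h15750 := checkRangeG_sound parWF r2 pf15749 h15749
  exact h15750

theorem c315 (h15750 : ∀ j, j < 48945 → GoodG.{u} par (db j)) : ∀ j, j < 49100 → GoodG.{u} par (db j) := by
  have h15751 := checkRangeG_sound parWF r2 pf15750 h15750
  have h15752 := checkRangeG_sound parWF r2 pf15751 h15751
  have h15753 := checkRangeG_sound parWF r2 pf15752 h15752
  have h15754 := checkRangeG_sound parWF r2 pf15753 h15753
  have h15755 := checkRangeG_sound parWF r2 pf15754 h15754
  have h15756 := checkRangeG_sound parWF r2 pf15755 h15755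
  have h15757 := checkRangeG_sound parWF r2 pf15756 h15756
  have h15758 := checkRangeG_sound parWF r2 pf15757 h15757
  have h15759 := checkRangeG_sound parWF r2 pf15758 h15758
  have h15760 := checkRangeG_sound parWF r2 pf15759 h15759
  have h15761 := checkRangeG_sound parWF r2 pf15760 h15760
  have h15762 := checkRangeG_sound parWF r2 pf15761 h15761
  have h15763 := checkRangeG_sound parWF r2 pf15762 h15762
  have h15764 := checkRangeG_sound parWF r2 pf15763 h15763
  have h15765 := checkRangeG_sound parWF r2 pf15764 h15764
  have h15766 := checkRangeG_sound parWF r2 pf15765 h15765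
  have h15767 := checkRangeG_sound parWF r2 pf15766 h15766
  have h15768 := checkRangeG_sound parWF r2 pf15767 h15767
  have h15769 := checkRangeG_sound parWF r2 pf15768 h15768
  have h15770 := checkRangeG_sound parWF r2 pf15769 h15769
  have h15771 := checkRangeG_sound parWF r2 pf15770 h15770
  have h15772 := checkRangeG_sound parWF r2 pf15771 h15771
  have h15773 := checkRangeG_sound parWF r2 pf15772 h15772
  have h15774 := checkRangeG_sound parWF r2 pf15773 h15773
  have h15775 := checkRangeG_sound parWF r2 pf15774 h15774
  have h15776 := checkRangeG_sound parWF r2 pf15775 h15775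
  have h15777 := checkRangeG_sound parWF r2 pf15776 h15776
  have h15778 := checkRangeG_sound parWF r2 pf15777 h15777
  have h15779 := checkRangeG_sound parWF r2 pf15778 h15778
  have h15780 := checkRangeG_sound parWF r2 pf15779 h15779
  have h15781 := checkRangeG_sound parWF r2 pf15780 h15780
  have h15782 := checkRangeG_sound parWF r2 pf15781 h15781
  have h15783 := checkRangeG_sound parWF r2 pf15782 h15782
  have h15784 := checkRangeG_sound parWF r2 pf15783 h15783
  have h15785 := checkRangeG_sound parWF r2 pf15784 h15784
  have h15786 := checkRangeG_sound parWF r2 pf15785 h15785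
  have h15787 := checkRangeG_sound parWF r2 pf15786 h15786
  have h15788 := checkRangeG_sound parWF r2 pf15787 h15787
  have h15789 := checkRangeG_sound parWF r2 pf15788 h15788
  have h15790 := checkRangeG_sound parWF r2 pf15789 h15789
  have h15791 := checkRangeG_sound parWF r2 pf15790 h15790
  have h15792 := checkRangeG_sound parWF r2 pf15791 h15791
  have h15793 := checkRangeG_sound parWF r2 pf15792 h15792
  have h15794 := checkRangeG_sound parWF r2 pf15793 h15793
  have h15795 := checkRangeG_sound parWF r2 pf15794 h15794
  have h15796 := checkRangeG_sound parWF r2 pf15795 h15795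
  have h15797 := checkRangeG_sound parWF r2 pf15796 h15796
  have h15798 := checkRangeG_sound parWF r2 pf15797 h15797
  have h15799 := checkRangeG_sound parWF r2 pf15798 h15798
  have h15800 := checkRangeG_sound parWF r2 pf15799 h15799
  exact h15800

theorem c316 (h15800 : ∀ j, j < 49100 → GoodG.{u} par (db j)) : ∀ j, j < 49261 → GoodG.{u} par (db j) := by
  have h15801 := checkRangeG_sound parWF r2 pf15800 h15800
  have h15802 := checkRangeG_sound parWF r2 pf15801 h15801
  have h15803 := checkRangeG_sound parWF r2 pf15802 h15802
  have h15804 := checkRangeG_sound parWF r2 pf15803 h15803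
  have h15805 := checkRangeG_sound parWF r2 pf15804 h15804
  have h15806 := checkRangeG_sound parWF r2 pf15805 h15805
  have h15807 := checkRangeG_sound parWF r2 pf15806 h15806
  have h15808 := checkRangeG_sound parWF r2 pf15807 h15807
  have h15809 := checkRangeG_sound parWF r2 pf15808 h15808
  have h15810 := checkRangeG_sound parWF r2 pf15809 h15809
  have h15811 := checkRangeG_sound parWF r2 pf15810 h15810
  have h15812 := checkRangeG_sound parWF r2 pf15811 h15811
  have h15813 := checkRangeG_sound parWF r2 pf15812 h15812
  have h15814 := checkRangeG_sound parWF r2 pf15813 h15813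
  have h15815 := checkRangeG_sound parWF r2 pf15814 h15814
  have h15816 := checkRangeG_sound parWF r2 pf15815 h15815
  have h15817 := checkRangeG_sound parWF r2 pf15816 h15816
  have h15818 := checkRangeG_sound parWF r2 pf15817 h15817
  have h15819 := checkRangeG_sound parWF r2 pf15818 h15818
  have h15820 := checkRangeG_sound parWF r2 pf15819 h15819
  have h15821 := checkRangeG_sound parWF r2 pf15820 h15820
  have h15822 := checkRangeG_sound parWF r2 pf15821 h15821
  have h15823 := checkRangeG_sound parWF r2 pf15822 h15822
  have h15824 := checkRangeG_sound parWF r2 pf15823 h15823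
  have h15825 := checkRangeG_sound parWF r2 pf15824 h15824
  have h15826 := checkRangeG_sound parWF r2 pf15825 h15825
  have h15827 := checkRangeG_sound parWF r2 pf15826 h15826
  have h15828 := checkRangeG_sound parWF r2 pf15827 h15827
  have h15829 := checkRangeG_sound parWF r2 pf15828 h15828
  have h15830 := checkRangeG_sound parWF r2 pf15829 h15829
  have h15831 := checkRangeG_sound parWF r2 pf15830 h15830
  have h15832 := checkRangeG_sound parWF r2 pf15831 h15831
  have h15833 := checkRangeG_sound parWF r2 pf15832 h15832
  have h15834 := checkRangeG_sound parWF r2 pf15833 h15833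
  have h15835 := checkRangeG_sound parWF r2 pf15834 h15834
  have h15836 := checkRangeG_sound parWF r2 pf15835 h15835
  have h15837 := checkRangeG_sound parWF r2 pf15836 h15836
  have h15838 := checkRangeG_sound parWF r2 pf15837 h15837
  have h15839 := checkRangeG_sound parWF r2 pf15838 h15838
  have h15840 := checkRangeG_sound parWF r2 pf15839 h15839
  have h15841 := checkRangeG_sound parWF r2 pf15840 h15840
  have h15842 := checkRangeG_sound parWF r2 pf15841 h15841
  have h15843 := checkRangeG_sound parWF r2 pf15842 h15842
  have h15844 := checkRangeG_sound parWF r2 pf15843 h15843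
  have h15845 := checkRangeG_sound parWF r2 pf15844 h15844
  have h15846 := checkRangeG_sound parWF r2 pf15845 h15845
  have h15847 := checkRangeG_sound parWF r2 pf15846 h15846
  have h15848 := checkRangeG_sound parWF r2 pf15847 h15847
  have h15849 := checkRangeG_sound parWF r2 pf15848 h15848
  have h15850 := checkRangeG_sound parWF r2 pf15849 h15849
  exact h15850

theorem c317 (h15850 : ∀ j, j < 49261 → GoodG.{u} par (db j)) : ∀ j, j < 49420 → GoodG.{u} par (db j) := by
  have h15851 := checkRangeG_sound parWF r2 pf15850 h15850
  have h15852 := checkRangeG_sound parWF r2 pf15851 h15851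
  have h15853 := checkRangeG_sound parWF r2 pf15852 h15852
  have h15854 := checkRangeG_sound parWF r2 pf15853 h15853
  have h15855 := checkRangeG_sound parWF r2 pf15854 h15854
  have h15856 := checkRangeG_sound parWF r2 pf15855 h15855
  have h15857 := checkRangeG_sound parWF r2 pf15856 h15856
  have h15858 := checkRangeG_sound parWF r2 pf15857 h15857
  have h15859 := checkRangeG_sound parWF r2 pf15858 h15858
  have h15860 := checkRangeG_sound parWF r2 pf15859 h15859
  have h15861 := checkRangeG_sound parWF r2 pf15860 h15860
  have h15862 := checkRangeG_sound parWF r2 pf15861 h15861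
  have h15863 := checkRangeG_sound parWF r2 pf15862 h15862
  have h15864 := checkRangeG_sound parWF r2 pf15863 h15863
  have h15865 := checkRangeG_sound parWF r2 pf15864 h15864
  have h15866 := checkRangeG_sound parWF r2 pf15865 h15865
  have h15867 := checkRangeG_sound parWF r2 pf15866 h15866
  have h15868 := checkRangeG_sound parWF r2 pf15867 h15867
  have h15869 := checkRangeG_sound parWF r2 pf15868 h15868
  have h15870 := checkRangeG_sound parWF r2 pf15869 h15869
  have h15871 := checkRangeG_sound parWF r2 pf15870 h15870
  have h15872 := checkRangeG_sound parWF r2 pf15871 h15871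
  have h15873 := checkRangeG_sound parWF r2 pf15872 h15872
  have h15874 := checkRangeG_sound parWF r2 pf15873 h15873
  have h15875 := checkRangeG_sound parWF r2 pf15874 h15874
  have h15876 := checkRangeG_sound parWF r2 pf15875 h15875
  have h15877 := checkRangeG_sound parWF r2 pf15876 h15876
  have h15878 := checkRangeG_sound parWF r2 pf15877 h15877
  have h15879 := checkRangeG_sound parWF r2 pf15878 h15878
  have h15880 := checkRangeG_sound parWF r2 pf15879 h15879
  have h15881 := checkRangeG_sound parWF r2 pf15880 h15880
  have h15882 := checkRangeG_sound parWF r2 pf15881 h15881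
  have h15883 := checkRangeG_sound parWF r2 pf15882 h15882
  have h15884 := checkRangeG_sound parWF r2 pf15883 h15883
  have h15885 := checkRangeG_sound parWF r2 pf15884 h15884
  have h15886 := checkRangeG_sound parWF r2 pf15885 h15885
  have h15887 := checkRangeG_sound parWF r2 pf15886 h15886
  have h15888 := checkRangeG_sound parWF r2 pf15887 h15887
  have h15889 := checkRangeG_sound parWF r2 pf15888 h15888
  have h15890 := checkRangeG_sound parWF r2 pf15889 h15889
  have h15891 := checkRangeG_sound parWF r2 pf15890 h15890
  have h15892 := checkRangeG_sound parWF r2 pf15891 h15891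
  have h15893 := checkRangeG_sound parWF r2 pf15892 h15892
  have h15894 := checkRangeG_sound parWF r2 pf15893 h15893
  have h15895 := checkRangeG_sound parWF r2 pf15894 h15894
  have h15896 := checkRangeG_sound parWF r2 pf15895 h15895
  have h15897 := checkRangeG_sound parWF r2 pf15896 h15896
  have h15898 := checkRangeG_sound parWF r2 pf15897 h15897
  have h15899 := checkRangeG_sound parWF r2 pf15898 h15898
  have h15900 := checkRangeG_sound parWF r2 pf15899 h15899
  exact h15900

theorem c318 (h15900 : ∀ j, j < 49420 → GoodG.{u} par (db j)) : ∀ j, j < 49589 → GoodG.{u} par (db j) := by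
  have h15901 := checkRangeG_sound parWF r2 pf15900 h15900
  have h15902 := checkRangeG_sound parWF r2 pf15901 h15901
  have h15903 := checkRangeG_sound parWF r2 pf15902 h15902
  have h15904 := checkRangeG_sound parWF r2 pf15903 h15903
  have h15905 := checkRangeG_sound parWF r2 pf15904 h15904
  have h15906 := checkRangeG_sound parWF r2 pf15905 h15905
  have h15907 := checkRangeG_sound parWF r2 pf15906 h15906
  have h15908 := checkRangeG_sound parWF r2 pf15907 h15907
  have h15909 := checkRangeG_sound parWF r2 pf15908 h15908
  have h15910 := checkRangeG_sound parWF r2 pf15909 h15909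
  have h15911 := checkRangeG_sound parWF r2 pf15910 h15910
  have h15912 := checkRangeG_sound parWF r2 pf15911 h15911
  have h15913 := checkRangeG_sound parWF r2 pf15912 h15912
  have h15914 := checkRangeG_sound parWF r2 pf15913 h15913
  have h15915 := checkRangeG_sound parWF r2 pf15914 h15914
  have h15916 := checkRangeG_sound parWF r2 pf15915 h15915
  have h15917 := checkRangeG_sound parWF r2 pf15916 h15916
  have h15918 := checkRangeG_sound parWF r2 pf15917 h15917
  have h15919 := checkRangeG_sound parWF r2 pf15918 h15918
  have h15920 := checkRangeG_sound parWF r2 pf15919 h15919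
  have h15921 := checkRangeG_sound parWF r2 pf15920 h15920
  have h15922 := checkRangeG_sound parWF r2 pf15921 h15921
  have h15923 := checkRangeG_sound parWF r2 pf15922 h15922
  have h15924 := checkRangeG_sound parWF r2 pf15923 h15923
  have h15925 := checkRangeG_sound parWF r2 pf15924 h15924
  have h15926 := checkRangeG_sound parWF r2 pf15925 h15925
  have h15927 := checkRangeG_sound parWF r2 pf15926 h15926
  have h15928 := checkRangeG_sound parWF r2 pf15927 h15927
  have h15929 := checkRangeG_sound parWF r2 pf15928 h15928
  have h15930 := checkRangeG_sound parWF r2 pf15929 h15929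
  have h15931 := checkRangeG_sound parWF r2 pf15930 h15930
  have h15932 := checkRangeG_sound parWF r2 pf15931 h15931
  have h15933 := checkRangeG_sound parWF r2 pf15932 h15932
  have h15934 := checkRangeG_sound parWF r2 pf15933 h15933
  have h15935 := checkRangeG_sound parWF r2 pf15934 h15934
  have h15936 := checkRangeG_sound parWF r2 pf15935 h15935
  have h15937 := checkRangeG_sound parWF r2 pf15936 h15936
  have h15938 := checkRangeG_sound parWF r2 pf15937 h15937
  have h15939 := checkRangeG_sound parWF r2 pf15938 h15938
  have h15940 := checkRangeG_sound parWF r2 pf15939 h15939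
  have h15941 := checkRangeG_sound parWF r2 pf15940 h15940
  have h15942 := checkRangeG_sound parWF r2 pf15941 h15941
  have h15943 := checkRangeG_sound parWF r2 pf15942 h15942
  have h15944 := checkRangeG_sound parWF r2 pf15943 h15943
  have h15945 := checkRangeG_sound parWF r2 pf15944 h15944
  have h15946 := checkRangeG_sound parWF r2 pf15945 h15945
  have h15947 := checkRangeG_sound parWF r2 pf15946 h15946
  have h15948 := checkRangeG_sound parWF r2 pf15947 h15947
  have h15949 := checkRangeG_sound parWF r2 pf15948 h15948
  have h15950 := checkRangeG_sound parWF r2 pf15949 h15949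
  exact h15950

theorem c319 (h15950 : ∀ j, j < 49589 → GoodG.{u} par (db j)) : ∀ j, j < 49753 → GoodG.{u} par (db j) := by
  have h15951 := checkRangeG_sound parWF r2 pf15950 h15950
  have h15952 := checkRangeG_sound parWF r2 pf15951 h15951
  have h15953 := checkRangeG_sound parWF r2 pf15952 h15952
  have h15954 := checkRangeG_sound parWF r2 pf15953 h15953
  have h15955 := checkRangeG_sound parWF r2 pf15954 h15954
  have h15956 := checkRangeG_sound parWF r2 pf15955 h15955
  have h15957 := checkRangeG_sound parWF r2 pf15956 h15956
  have h15958 := checkRangeG_sound parWF r2 pf15957 h15957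
  have h15959 := checkRangeG_sound parWF r2 pf15958 h15958
  have h15960 := checkRangeG_sound parWF r2 pf15959 h15959
  have h15961 := checkRangeG_sound parWF r2 pf15960 h15960
  have h15962 := checkRangeG_sound parWF r2 pf15961 h15961
  have h15963 := checkRangeG_sound parWF r2 pf15962 h15962
  have h15964 := checkRangeG_sound parWF r2 pf15963 h15963
  have h15965 := checkRangeG_sound parWF r2 pf15964 h15964
  have h15966 := checkRangeG_sound parWF r2 pf15965 h15965
  have h15967 := checkRangeG_sound parWF r2 pf15966 h15966
  have h15968 := checkRangeG_sound parWF r2 pf15967 h15967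
  have h15969 := checkRangeG_sound parWF r2 pf15968 h15968
  have h15970 := checkRangeG_sound parWF r2 pf15969 h15969
  have h15971 := checkRangeG_sound parWF r2 pf15970 h15970
  have h15972 := checkRangeG_sound parWF r2 pf15971 h15971
  have h15973 := checkRangeG_sound parWF r2 pf15972 h15972
  have h15974 := checkRangeG_sound parWF r2 pf15973 h15973
  have h15975 := checkRangeG_sound parWF r2 pf15974 h15974
  have h15976 := checkRangeG_sound parWF r2 pf15975 h15975
  have h15977 := checkRangeG_sound parWF r2 pf15976 h15976
  have h15978 := checkRangeG_sound parWF r2 pf15977 h15977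
  have h15979 := checkRangeG_sound parWF r2 pf15978 h15978
  have h15980 := checkRangeG_sound parWF r2 pf15979 h15979
  have h15981 := checkRangeG_sound parWF r2 pf15980 h15980
  have h15982 := checkRangeG_sound parWF r2 pf15981 h15981
  have h15983 := checkRangeG_sound parWF r2 pf15982 h15982
  have h15984 := checkRangeG_sound parWF r2 pf15983 h15983
  have h15985 := checkRangeG_sound parWF r2 pf15984 h15984
  have h15986 := checkRangeG_sound parWF r2 pf15985 h15985
  have h15987 := checkRangeG_sound parWF r2 pf15986 h15986
  have h15988 := checkRangeG_sound parWF r2 pf15987 h15987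
  have h15989 := checkRangeG_sound parWF r2 pf15988 h15988
  have h15990 := checkRangeG_sound parWF r2 pf15989 h15989
  have h15991 := checkRangeG_sound parWF r2 pf15990 h15990
  have h15992 := checkRangeG_sound parWF r2 pf15991 h15991
  have h15993 := checkRangeG_sound parWF r2 pf15992 h15992
  have h15994 := checkRangeG_sound parWF r2 pf15993 h15993
  have h15995 := checkRangeG_sound parWF r2 pf15994 h15994
  have h15996 := checkRangeG_sound parWF r2 pf15995 h15995
  have h15997 := checkRangeG_sound parWF r2 pf15996 h15996
  have h15998 := checkRangeG_sound parWF r2 pf15997 h15997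
  have h15999 := checkRangeG_sound parWF r2 pf15998 h15998
  have h16000 := checkRangeG_sound parWF r2 pf15999 h15999
  exact h16000

theorem c320 (h16000 : ∀ j, j < 49753 → GoodG.{u} par (db j)) : ∀ j, j < 49888 → GoodG.{u} par (db j) := by
  have h16001 := checkRangeG_sound parWF r2 pf16000 h16000
  have h16002 := checkRangeG_sound parWF r2 pf16001 h16001
  have h16003 := checkRangeG_sound parWF r2 pf16002 h16002
  have h16004 := checkRangeG_sound parWF r2 pf16003 h16003
  have h16005 := checkRangeG_sound parWF r2 pf16004 h16004
  have h16006 := checkRangeG_sound parWF r2 pf16005 h16005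
  have h16007 := checkRangeG_sound parWF r2 pf16006 h16006
  have h16008 := checkRangeG_sound parWF r2 pf16007 h16007
  have h16009 := checkRangeG_sound parWF r2 pf16008 h16008
  have h16010 := checkRangeG_sound parWF r2 pf16009 h16009
  have h16011 := checkRangeG_sound parWF r2 pf16010 h16010
  have h16012 := checkRangeG_sound parWF r2 pf16011 h16011
  have h16013 := checkRangeG_sound parWF r2 pf16012 h16012
  have h16014 := checkRangeG_sound parWF r2 pf16013 h16013
  have h16015 := checkRangeG_sound parWF r2 pf16014 h16014
  have h16016 := checkRangeG_sound parWF r2 pf16015 h16015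
  have h16017 := checkRangeG_sound parWF r2 pf16016 h16016
  have h16018 := checkRangeG_sound parWF r2 pf16017 h16017
  have h16019 := checkRangeG_sound parWF r2 pf16018 h16018
  have h16020 := checkRangeG_sound parWF r2 pf16019 h16019
  have h16021 := checkRangeG_sound parWF r2 pf16020 h16020
  have h16022 := checkRangeG_sound parWF r2 pf16021 h16021
  have h16023 := checkRangeG_sound parWF r2 pf16022 h16022
  have h16024 := checkRangeG_sound parWF r2 pf16023 h16023
  have h16025 := checkRangeG_sound parWF r2 pf16024 h16024
  have h16026 := checkRangeG_sound parWF r2 pf16025 h16025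
  have h16027 := checkRangeG_sound parWF r2 pf16026 h16026
  have h16028 := checkRangeG_sound parWF r2 pf16027 h16027
  have h16029 := checkRangeG_sound parWF r2 pf16028 h16028
  have h16030 := checkRangeG_sound parWF r2 pf16029 h16029
  have h16031 := checkRangeG_sound parWF r2 pf16030 h16030
  have h16032 := checkRangeG_sound parWF r2 pf16031 h16031
  have h16033 := checkRangeG_sound parWF r2 pf16032 h16032
  have h16034 := checkRangeG_sound parWF r2 pf16033 h16033
  have h16035 := checkRangeG_sound parWF r2 pf16034 h16034
  have h16036 := checkRangeG_sound parWF r2 pf16035 h16035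
  have h16037 := checkRangeG_sound parWF r2 pf16036 h16036
  have h16038 := checkRangeG_sound parWF r2 pf16037 h16037
  have h16039 := checkRangeG_sound parWF r2 pf16038 h16038
  have h16040 := checkRangeG_sound parWF r2 pf16039 h16039
  have h16041 := checkRangeG_sound parWF r2 pf16040 h16040
  have h16042 := checkRangeG_sound parWF r2 pf16041 h16041
  have h16043 := checkRangeG_sound parWF r2 pf16042 h16042
  have h16044 := checkRangeG_sound parWF r2 pf16043 h16043
  have h16045 := checkRangeG_sound parWF r2 pf16044 h16044
  have h16046 := checkRangeG_sound parWF r2 pf16045 h16045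
  have h16047 := checkRangeG_sound parWF r2 pf16046 h16046
  have h16048 := checkRangeG_sound parWF r2 pf16047 h16047
  have h16049 := checkRangeG_sound parWF r2 pf16048 h16048
  have h16050 := checkRangeG_sound parWF r2 pf16049 h16049
  exact h16050

theorem c321 (h16050 : ∀ j, j < 49888 → GoodG.{u} par (db j)) : ∀ j, j < 50037 → GoodG.{u} par (db j) := by
  have h16051 := checkRangeG_sound parWF r2 pf16050 h16050
  have h16052 := checkRangeG_sound parWF r2 pf16051 h16051
  have h16053 := checkRangeG_sound parWF r2 pf16052 h16052
  have h16054 := checkRangeG_sound parWF r2 pf16053 h16053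
  have h16055 := checkRangeG_sound parWF r2 pf16054 h16054
  have h16056 := checkRangeG_sound parWF r2 pf16055 h16055
  have h16057 := checkRangeG_sound parWF r2 pf16056 h16056
  have h16058 := checkRangeG_sound parWF r2 pf16057 h16057
  have h16059 := checkRangeG_sound parWF r2 pf16058 h16058
  have h16060 := checkRangeG_sound parWF r2 pf16059 h16059
  have h16061 := checkRangeG_sound parWF r2 pf16060 h16060
  have h16062 := checkRangeG_sound parWF r2 pf16061 h16061
  have h16063 := checkRangeG_sound parWF r2 pf16062 h16062
  have h16064 := checkRangeG_sound parWF r2 pf16063 h16063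
  have h16065 := checkRangeG_sound parWF r2 pf16064 h16064
  have h16066 := checkRangeG_sound parWF r2 pf16065 h16065
  have h16067 := checkRangeG_sound parWF r2 pf16066 h16066
  have h16068 := checkRangeG_sound parWF r2 pf16067 h16067
  have h16069 := checkRangeG_sound parWF r2 pf16068 h16068
  have h16070 := checkRangeG_sound parWF r2 pf16069 h16069
  have h16071 := checkRangeG_sound parWF r2 pf16070 h16070
  have h16072 := checkRangeG_sound parWF r2 pf16071 h16071
  have h16073 := checkRangeG_sound parWF r2 pf16072 h16072
  have h16074 := checkRangeG_sound parWF r2 pf16073 h16073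
  have h16075 := checkRangeG_sound parWF r2 pf16074 h16074
  have h16076 := checkRangeG_sound parWF r2 pf16075 h16075
  have h16077 := checkRangeG_sound parWF r2 pf16076 h16076
  have h16078 := checkRangeG_sound parWF r2 pf16077 h16077
  have h16079 := checkRangeG_sound parWF r2 pf16078 h16078
  have h16080 := checkRangeG_sound parWF r2 pf16079 h16079
  have h16081 := checkRangeG_sound parWF r2 pf16080 h16080
  have h16082 := checkRangeG_sound parWF r2 pf16081 h16081
  have h16083 := checkRangeG_sound parWF r2 pf16082 h16082
  have h16084 := checkRangeG_sound parWF r2 pf16083 h16083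
  have h16085 := checkRangeG_sound parWF r2 pf16084 h16084
  have h16086 := checkRangeG_sound parWF r2 pf16085 h16085
  have h16087 := checkRangeG_sound parWF r2 pf16086 h16086
  have h16088 := checkRangeG_sound parWF r2 pf16087 h16087
  have h16089 := checkRangeG_sound parWF r2 pf16088 h16088
  have h16090 := checkRangeG_sound parWF r2 pf16089 h16089
  have h16091 := checkRangeG_sound parWF r2 pf16090 h16090
  have h16092 := checkRangeG_sound parWF r2 pf16091 h16091
  have h16093 := checkRangeG_sound parWF r2 pf16092 h16092
  have h16094 := checkRangeG_sound parWF r2 pf16093 h16093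
  have h16095 := checkRangeG_sound parWF r2 pf16094 h16094
  have h16096 := checkRangeG_sound parWF r2 pf16095 h16095
  have h16097 := checkRangeG_sound parWF r2 pf16096 h16096
  have h16098 := checkRangeG_sound parWF r2 pf16097 h16097
  have h16099 := checkRangeG_sound parWF r2 pf16098 h16098
  have h16100 := checkRangeG_sound parWF r2 pf16099 h16099
  exact h16100

theorem c322 (h16100 : ∀ j, j < 50037 → GoodG.{u} par (db j)) : ∀ j, j < 50200 → GoodG.{u} par (db j) := by
  have h16101 := checkRangeG_sound parWF r2 pf16100 h16100
  have h16102 := checkRangeG_sound parWF r2 pf16101 h16101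
  have h16103 := checkRangeG_sound parWF r2 pf16102 h16102
  have h16104 := checkRangeG_sound parWF r2 pf16103 h16103
  have h16105 := checkRangeG_sound parWF r2 pf16104 h16104
  have h16106 := checkRangeG_sound parWF r2 pf16105 h16105
  have h16107 := checkRangeG_sound parWF r2 pf16106 h16106
  have h16108 := checkRangeG_sound parWF r2 pf16107 h16107
  have h16109 := checkRangeG_sound parWF r2 pf16108 h16108
  have h16110 := checkRangeG_sound parWF r2 pf16109 h16109
  have h16111 := checkRangeG_sound parWF r2 pf16110 h16110
  have h16112 := checkRangeG_sound parWF r2 pf16111 h16111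
  have h16113 := checkRangeG_sound parWF r2 pf16112 h16112
  have h16114 := checkRangeG_sound parWF r2 pf16113 h16113
  have h16115 := checkRangeG_sound parWF r2 pf16114 h16114
  have h16116 := checkRangeG_sound parWF r2 pf16115 h16115
  have h16117 := checkRangeG_sound parWF r2 pf16116 h16116
  have h16118 := checkRangeG_sound parWF r2 pf16117 h16117
  have h16119 := checkRangeG_sound parWF r2 pf16118 h16118
  have h16120 := checkRangeG_sound parWF r2 pf16119 h16119
  have h16121 := checkRangeG_sound parWF r2 pf16120 h16120
  have h16122 := checkRangeG_sound parWF r2 pf16121 h16121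
  have h16123 := checkRangeG_sound parWF r2 pf16122 h16122
  have h16124 := checkRangeG_sound parWF r2 pf16123 h16123
  have h16125 := checkRangeG_sound parWF r2 pf16124 h16124
  have h16126 := checkRangeG_sound parWF r2 pf16125 h16125
  have h16127 := checkRangeG_sound parWF r2 pf16126 h16126
  have h16128 := checkRangeG_sound parWF r2 pf16127 h16127
  have h16129 := checkRangeG_sound parWF r2 pf16128 h16128
  have h16130 := checkRangeG_sound parWF r2 pf16129 h16129
  have h16131 := checkRangeG_sound parWF r2 pf16130 h16130
  have h16132 := checkRangeG_sound parWF r2 pf16131 h16131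
  have h16133 := checkRangeG_sound parWF r2 pf16132 h16132
  have h16134 := checkRangeG_sound parWF r2 pf16133 h16133
  have h16135 := checkRangeG_sound parWF r2 pf16134 h16134
  have h16136 := checkRangeG_sound parWF r2 pf16135 h16135
  have h16137 := checkRangeG_sound parWF r2 pf16136 h16136
  have h16138 := checkRangeG_sound parWF r2 pf16137 h16137
  have h16139 := checkRangeG_sound parWF r2 pf16138 h16138
  have h16140 := checkRangeG_sound parWF r2 pf16139 h16139
  have h16141 := checkRangeG_sound parWF r2 pf16140 h16140
  have h16142 := checkRangeG_sound parWF r2 pf16141 h16141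
  have h16143 := checkRangeG_sound parWF r2 pf16142 h16142
  have h16144 := checkRangeG_sound parWF r2 pf16143 h16143
  have h16145 := checkRangeG_sound parWF r2 pf16144 h16144
  have h16146 := checkRangeG_sound parWF r2 pf16145 h16145
  have h16147 := checkRangeG_sound parWF r2 pf16146 h16146
  have h16148 := checkRangeG_sound parWF r2 pf16147 h16147
  have h16149 := checkRangeG_sound parWF r2 pf16148 h16148
  have h16150 := checkRangeG_sound parWF r2 pf16149 h16149
  exact h16150

theorem c323 (h16150 : ∀ j, j < 50200 → GoodG.{u} par (db j)) : ∀ j, j < 50347 → GoodG.{u} par (db j) := by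
  have h16151 := checkRangeG_sound parWF r2 pf16150 h16150
  have h16152 := checkRangeG_sound parWF r2 pf16151 h16151
  have h16153 := checkRangeG_sound parWF r2 pf16152 h16152
  have h16154 := checkRangeG_sound parWF r2 pf16153 h16153
  have h16155 := checkRangeG_sound parWF r2 pf16154 h16154
  have h16156 := checkRangeG_sound parWF r2 pf16155 h16155
  have h16157 := checkRangeG_sound parWF r2 pf16156 h16156
  have h16158 := checkRangeG_sound parWF r2 pf16157 h16157
  have h16159 := checkRangeG_sound parWF r2 pf16158 h16158
  have h16160 := checkRangeG_sound parWF r2 pf16159 h16159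
  have h16161 := checkRangeG_sound parWF r2 pf16160 h16160
  have h16162 := checkRangeG_sound parWF r2 pf16161 h16161
  have h16163 := checkRangeG_sound parWF r2 pf16162 h16162
  have h16164 := checkRangeG_sound parWF r2 pf16163 h16163
  have h16165 := checkRangeG_sound parWF r2 pf16164 h16164
  have h16166 := checkRangeG_sound parWF r2 pf16165 h16165
  have h16167 := checkRangeG_sound parWF r2 pf16166 h16166
  have h16168 := checkRangeG_sound parWF r2 pf16167 h16167
  have h16169 := checkRangeG_sound parWF r2 pf16168 h16168
  have h16170 := checkRangeG_sound parWF r2 pf16169 h16169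
  have h16171 := checkRangeG_sound parWF r2 pf16170 h16170
  have h16172 := checkRangeG_sound parWF r2 pf16171 h16171
  have h16173 := checkRangeG_sound parWF r2 pf16172 h16172
  have h16174 := checkRangeG_sound parWF r2 pf16173 h16173
  have h16175 := checkRangeG_sound parWF r2 pf16174 h16174
  have h16176 := checkRangeG_sound parWF r2 pf16175 h16175
  have h16177 := checkRangeG_sound parWF r2 pf16176 h16176
  have h16178 := checkRangeG_sound parWF r2 pf16177 h16177
  have h16179 := checkRangeG_sound parWF r2 pf16178 h16178
  have h16180 := checkRangeG_sound parWF r2 pf16179 h16179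
  have h16181 := checkRangeG_sound parWF r2 pf16180 h16180
  have h16182 := checkRangeG_sound parWF r2 pf16181 h16181
  have h16183 := checkRangeG_sound parWF r2 pf16182 h16182
  have h16184 := checkRangeG_sound parWF r2 pf16183 h16183
  have h16185 := checkRangeG_sound parWF r2 pf16184 h16184
  have h16186 := checkRangeG_sound parWF r2 pf16185 h16185
  have h16187 := checkRangeG_sound parWF r2 pf16186 h16186
  have h16188 := checkRangeG_sound parWF r2 pf16187 h16187
  have h16189 := checkRangeG_sound parWF r2 pf16188 h16188
  have h16190 := checkRangeG_sound parWF r2 pf16189 h16189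
  have h16191 := checkRangeG_sound parWF r2 pf16190 h16190
  have h16192 := checkRangeG_sound parWF r2 pf16191 h16191
  have h16193 := checkRangeG_sound parWF r2 pf16192 h16192
  have h16194 := checkRangeG_sound parWF r2 pf16193 h16193
  have h16195 := checkRangeG_sound parWF r2 pf16194 h16194
  have h16196 := checkRangeG_sound parWF r2 pf16195 h16195
  have h16197 := checkRangeG_sound parWF r2 pf16196 h16196
  have h16198 := checkRangeG_sound parWF r2 pf16197 h16197
  have h16199 := checkRangeG_sound parWF r2 pf16198 h16198
  have h16200 := checkRangeG_sound parWF r2 pf16199 h16199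
  exact h16200


end Vale.Agent.P045g.C61
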