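import Vale.Agent.P045g.C61.WF
import Vale.Agent.P045g.C61.Pf270
import Vale.Agent.P045g.C61.Pf271
import Vale.Agent.P045g.C61.Pf272
import Vale.Agent.P045g.C61.Pf273
import Vale.Agent.P045g.C61.Pf274
import Vale.Agent.P045g.C61.Pf275
import Vale.Agent.P045g.C61.Pf276
import Vale.Agent.P045g.C61.Pf277
import Vale.Agent.P045g.C61.Pf278
import Vale.Agent.P045g.C61.Pf279

namespace Vale.Agent.P045g.C61

open Vale.Agent.P045b Vale.Agent.P045g

universe u

theorem c324 (h16200 : ∀ j, j < 50347 → GoodG.{u} par (db j)) : ∀ j, j < 50500 → GoodG.{u} par (db j) := by
  have h16201 := checkRangeG_sound parWF r2 pf16200 h16200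
  have h16202 := checkRangeG_sound parWF r2 pf16201 h16201
  have h16203 := checkRangeG_sound parWF r2 pf16202 h16202
  have h16204 := checkRangeG_sound parWF r2 pf16203 h16203
  have h16205 := checkRangeG_sound parWF r2 pf16204 h16204
  have h16206 := checkRangeG_sound parWF r2 pf16205 h16205
  have h16207 := checkRangeG_sound parWF r2 pf16206 h16206
  have h16208 := checkRangeG_sound parWF r2 pf16207 h16207
  have h16209 := checkRangeG_sound parWF r2 pf16208 h16208
  have h16210 := checkRangeG_sound parWF r2 pf16209 h16209
  have h16211 := checkRangeG_sound parWF r2 pf16210 h16210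
  have h16212 := checkRangeG_sound parWF r2 pf16211 h16211
  have h16213 := checkRangeG_sound parWF r2 pf16212 h16212
  have h16214 := checkRangeG_sound parWF r2 pf16213 h16213
  have h16215 := checkRangeG_sound parWF r2 pf16214 h16214
  have h16216 := checkRangeG_sound parWF r2 pf16215 h16215
  have h16217 := checkRangeG_sound parWF r2 pf16216 h16216
  have h16218 := checkRangeG_sound parWF r2 pf16217 h16217
  have h16219 := checkRangeG_sound parWF r2 pf16218 h16218
  have h16220 := checkRangeG_sound parWF r2 pf16219 h16219
  have h16221 := checkRangeG_sound parWF r2 pf16220 h16220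
  have h16222 := checkRangeG_sound parWF r2 pf16221 h16221
  have h16223 := checkRangeG_sound parWF r2 pf16222 h16222
  have h16224 := checkRangeG_sound parWF r2 pf16223 h16223
  have h16225 := checkRangeG_sound parWF r2 pf16224 h16224
  have h16226 := checkRangeG_sound parWF r2 pf16225 h16225
  have h16227 := checkRangeG_sound parWF r2 pf16226 h16226
  have h16228 := checkRangeG_sound parWF r2 pf16227 h16227
  have h16229 := checkRangeG_sound parWF r2 pf16228 h16228
  have h16230 := checkRangeG_sound parWF r2 pf16229 h16229
  have h16231 := checkRangeG_sound parWF r2 pf16230 h16230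
  have h16232 := checkRangeG_sound parWF r2 pf16231 h16231
  have h16233 := checkRangeG_sound parWF r2 pf16232 h16232
  have h16234 := checkRangeG_sound parWF r2 pf16233 h16233
  have h16235 := checkRangeG_sound parWF r2 pf16234 h16234
  have h16236 := checkRangeG_sound parWF r2 pf16235 h16235
  have h16237 := checkRangeG_sound parWF r2 pf16236 h16236
  have h16238 := checkRangeG_sound parWF r2 pf16237 h16237
  have h16239 := checkRangeG_sound parWF r2 pf16238 h16238
  have h16240 := checkRangeG_sound parWF r2 pf16239 h16239
  have h16241 := checkRangeG_sound parWF r2 pf16240 h16240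
  have h16242 := checkRangeG_sound parWF r2 pf16241 h16241
  have h16243 := checkRangeG_sound parWF r2 pf16242 h16242
  have h16244 := checkRangeG_sound parWF r2 pf16243 h16243
  have h16245 := checkRangeG_sound parWF r2 pf16244 h16244
  have h16246 := checkRangeG_sound parWF r2 pf16245 h16245
  have h16247 := checkRangeG_sound parWF r2 pf16246 h16246
  have h16248 := checkRangeG_sound parWF r2 pf16247 h16247
  have h16249 := checkRangeG_sound parWF r2 pf16248 h16248
  have h16250 := checkRangeG_sound parWF r2 pf16249 h16249
  exact h16250

theorem c325 (h16250 : ∀ j, j < 50500 → GoodG.{u} par (db j)) : ∀ j, j < 50618 → GoodG.{u} par (db j) := by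
  have h16251 := checkRangeG_sound parWF r2 pf16250 h16250
  have h16252 := checkRangeG_sound parWF r2 pf16251 h16251
  have h16253 := checkRangeG_sound parWF r2 pf16252 h16252
  have h16254 := checkRangeG_sound parWF r2 pf16253 h16253
  have h16255 := checkRangeG_sound parWF r2 pf16254 h16254
  have h16256 := checkRangeG_sound parWF r2 pf16255 h16255
  have h16257 := checkRangeG_sound parWF r2 pf16256 h16256
  have h16258 := checkRangeG_sound parWF r2 pf16257 h16257
  have h16259 := checkRangeG_sound parWF r2 pf16258 h16258
  have h16260 := checkRangeG_sound parWF r2 pf16259 h16259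
  have h16261 := checkRangeG_sound parWF r2 pf16260 h16260
  have h16262 := checkRangeG_sound parWF r2 pf16261 h16261
  have h16263 := checkRangeG_sound parWF r2 pf16262 h16262
  have h16264 := checkRangeG_sound parWF r2 pf16263 h16263
  have h16265 := checkRangeG_sound parWF r2 pf16264 h16264
  have h16266 := checkRangeG_sound parWF r2 pf16265 h16265
  have h16267 := checkRangeG_sound parWF r2 pf16266 h16266
  have h16268 := checkRangeG_sound parWF r2 pf16267 h16267
  have h16269 := checkRangeG_sound parWF r2 pf16268 h16268
  have h16270 := checkRangeG_sound parWF r2 pf16269 h16269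
  have h16271 := checkRangeG_sound parWF r2 pf16270 h16270
  have h16272 := checkRangeG_sound parWF r2 pf16271 h16271
  have h16273 := checkRangeG_sound parWF r2 pf16272 h16272
  have h16274 := checkRangeG_sound parWF r2 pf16273 h16273
  have h16275 := checkRangeG_sound parWF r2 pf16274 h16274
  have h16276 := checkRangeG_sound parWF r2 pf16275 h16275
  have h16277 := checkRangeG_sound parWF r2 pf16276 h16276
  have h16278 := checkRangeG_sound parWF r2 pf16277 h16277
  have h16279 := checkRangeG_sound parWF r2 pf16278 h16278
  have h16280 := checkRangeG_sound parWF r2 pf16279 h16279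
  have h16281 := checkRangeG_sound parWF r2 pf16280 h16280
  have h16282 := checkRangeG_sound parWF r2 pf16281 h16281
  have h16283 := checkRangeG_sound parWF r2 pf16282 h16282
  have h16284 := checkRangeG_sound parWF r2 pf16283 h16283
  have h16285 := checkRangeG_sound parWF r2 pf16284 h16284
  have h16286 := checkRangeG_sound parWF r2 pf16285 h16285
  have h16287 := checkRangeG_sound parWF r2 pf16286 h16286
  have h16288 := checkRangeG_sound parWF r2 pf16287 h16287
  have h16289 := checkRangeG_sound parWF r2 pf16288 h16288
  have h16290 := checkRangeG_sound parWF r2 pf16289 h16289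
  have h16291 := checkRangeG_sound parWF r2 pf16290 h16290
  have h16292 := checkRangeG_sound parWF r2 pf16291 h16291
  have h16293 := checkRangeG_sound parWF r2 pf16292 h16292
  have h16294 := checkRangeG_sound parWF r2 pf16293 h16293
  have h16295 := checkRangeG_sound parWF r2 pf16294 h16294
  have h16296 := checkRangeG_sound parWF r2 pf16295 h16295
  have h16297 := checkRangeG_sound parWF r2 pf16296 h16296
  have h16298 := checkRangeG_sound parWF r2 pf16297 h16297
  have h16299 := checkRangeG_sound parWF r2 pf16298 h16298
  have h16300 := checkRangeG_sound parWF r2 pf16299 h16299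
  exact h16300

theorem c326 (h16300 : ∀ j, j < 50618 → GoodG.{u} par (db j)) : ∀ j, j < 50762 → GoodG.{u} par (db j) := by
  have h16301 := checkRangeG_sound parWF r2 pf16300 h16300
  have h16302 := checkRangeG_sound parWF r2 pf16301 h16301
  have h16303 := checkRangeG_sound parWF r2 pf16302 h16302
  have h16304 := checkRangeG_sound parWF r2 pf16303 h16303
  have h16305 := checkRangeG_sound parWF r2 pf16304 h16304
  have h16306 := checkRangeG_sound parWF r2 pf16305 h16305
  have h16307 := checkRangeG_sound parWF r2 pf16306 h16306
  have h16308 := checkRangeG_sound parWF r2 pf16307 h16307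
  have h16309 := checkRangeG_sound parWF r2 pf16308 h16308
  have h16310 := checkRangeG_sound parWF r2 pf16309 h16309
  have h16311 := checkRangeG_sound parWF r2 pf16310 h16310
  have h16312 := checkRangeG_sound parWF r2 pf16311 h16311
  have h16313 := checkRangeG_sound parWF r2 pf16312 h16312
  have h16314 := checkRangeG_sound parWF r2 pf16313 h16313
  have h16315 := checkRangeG_sound parWF r2 pf16314 h16314
  have h16316 := checkRangeG_sound parWF r2 pf16315 h16315
  have h16317 := checkRangeG_sound parWF r2 pf16316 h16316
  have h16318 := checkRangeG_sound parWF r2 pf16317 h16317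
  have h16319 := checkRangeG_sound parWF r2 pf16318 h16318
  have h16320 := checkRangeG_sound parWF r2 pf16319 h16319
  have h16321 := checkRangeG_sound parWF r2 pf16320 h16320
  have h16322 := checkRangeG_sound parWF r2 pf16321 h16321
  have h16323 := checkRangeG_sound parWF r2 pf16322 h16322
  have h16324 := checkRangeG_sound parWF r2 pf16323 h16323
  have h16325 := checkRangeG_sound parWF r2 pf16324 h16324
  have h16326 := checkRangeG_sound parWF r2 pf16325 h16325
  have h16327 := checkRangeG_sound parWF r2 pf16326 h16326
  have h16328 := checkRangeG_sound parWF r2 pf16327 h16327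
  have h16329 := checkRangeG_sound parWF r2 pf16328 h16328
  have h16330 := checkRangeG_sound parWF r2 pf16329 h16329
  have h16331 := checkRangeG_sound parWF r2 pf16330 h16330
  have h16332 := checkRangeG_sound parWF r2 pf16331 h16331
  have h16333 := checkRangeG_sound parWF r2 pf16332 h16332
  have h16334 := checkRangeG_sound parWF r2 pf16333 h16333
  have h16335 := checkRangeG_sound parWF r2 pf16334 h16334
  have h16336 := checkRangeG_sound parWF r2 pf16335 h16335
  have h16337 := checkRangeG_sound parWF r2 pf16336 h16336
  have h16338 := checkRangeG_sound parWF r2 pf16337 h16337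
  have h16339 := checkRangeG_sound parWF r2 pf16338 h16338
  have h16340 := checkRangeG_sound parWF r2 pf16339 h16339
  have h16341 := checkRangeG_sound parWF r2 pf16340 h16340
  have h16342 := checkRangeG_sound parWF r2 pf16341 h16341
  have h16343 := checkRangeG_sound parWF r2 pf16342 h16342
  have h16344 := checkRangeG_sound parWF r2 pf16343 h16343
  have h16345 := checkRangeG_sound parWF r2 pf16344 h16344
  have h16346 := checkRangeG_sound parWF r2 pf16345 h16345
  have h16347 := checkRangeG_sound parWF r2 pf16346 h16346
  have h16348 := checkRangeG_sound parWF r2 pf16347 h16347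
  have h16349 := checkRangeG_sound parWF r2 pf16348 h16348
  have h16350 := checkRangeG_sound parWF r2 pf16349 h16349
  exact h16350

theorem c327 (h16350 : ∀ j, j < 50762 → GoodG.{u} par (db j)) : ∀ j, j < 50992 → GoodG.{u} par (db j) := by
  have h16351 := checkRangeG_sound parWF r2 pf16350 h16350
  have h16352 := checkRangeG_sound parWF r2 pf16351 h16351
  have h16353 := checkRangeG_sound parWF r2 pf16352 h16352
  have h16354 := checkRangeG_sound parWF r2 pf16353 h16353
  have h16355 := checkRangeG_sound parWF r2 pf16354 h16354
  have h16356 := checkRangeG_sound parWF r2 pf16355 h16355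
  have h16357 := checkRangeG_sound parWF r2 pf16356 h16356
  have h16358 := checkRangeG_sound parWF r2 pf16357 h16357
  have h16359 := checkRangeG_sound parWF r2 pf16358 h16358
  have h16360 := checkRangeG_sound parWF r2 pf16359 h16359
  have h16361 := checkRangeG_sound parWF r2 pf16360 h16360
  have h16362 := checkRangeG_sound parWF r2 pf16361 h16361
  have h16363 := checkRangeG_sound parWF r2 pf16362 h16362
  have h16364 := checkRangeG_sound parWF r2 pf16363 h16363
  have h16365 := checkRangeG_sound parWF r2 pf16364 h16364
  have h16366 := checkRangeG_sound parWF r2 pf16365 h16365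
  have h16367 := checkRangeG_sound parWF r2 pf16366 h16366
  have h16368 := checkRangeG_sound parWF r2 pf16367 h16367
  have h16369 := checkRangeG_sound parWF r2 pf16368 h16368
  have h16370 := checkRangeG_sound parWF r2 pf16369 h16369
  have h16371 := checkRangeG_sound parWF r2 pf16370 h16370
  have h16372 := checkRangeG_sound parWF r2 pf16371 h16371
  have h16373 := checkRangeG_sound parWF r2 pf16372 h16372
  have h16374 := checkRangeG_sound parWF r2 pf16373 h16373
  have h16375 := checkRangeG_sound parWF r2 pf16374 h16374
  have h16376 := checkRangeG_sound parWF r2 pf16375 h16375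
  have h16377 := checkRangeG_sound parWF r2 pf16376 h16376
  have h16378 := checkRangeG_sound parWF r2 pf16377 h16377
  have h16379 := checkRangeG_sound parWF r2 pf16378 h16378
  have h16380 := checkRangeG_sound parWF r2 pf16379 h16379
  have h16381 := checkRangeG_sound parWF r2 pf16380 h16380
  have h16382 := checkRangeG_sound parWF r2 pf16381 h16381
  have h16383 := checkRangeG_sound parWF r2 pf16382 h16382
  have h16384 := checkRangeG_sound parWF r2 pf16383 h16383
  have h16385 := checkRangeG_sound parWF r2 pf16384 h16384
  have h16386 := checkRangeG_sound parWF r2 pf16385 h16385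
  have h16387 := checkRangeG_sound parWF r2 pf16386 h16386
  have h16388 := checkRangeG_sound parWF r2 pf16387 h16387
  have h16389 := checkRangeG_sound parWF r2 pf16388 h16388
  have h16390 := checkRangeG_sound parWF r2 pf16389 h16389
  have h16391 := checkRangeG_sound parWF r2 pf16390 h16390
  have h16392 := checkRangeG_sound parWF r2 pf16391 h16391
  have h16393 := checkRangeG_sound parWF r2 pf16392 h16392
  have h16394 := checkRangeG_sound parWF r2 pf16393 h16393
  have h16395 := checkRangeG_sound parWF r2 pf16394 h16394
  have h16396 := checkRangeG_sound parWF r2 pf16395 h16395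
  have h16397 := checkRangeG_sound parWF r2 pf16396 h16396
  have h16398 := checkRangeG_sound parWF r2 pf16397 h16397
  have h16399 := checkRangeG_sound parWF r2 pf16398 h16398
  have h16400 := checkRangeG_sound parWF r2 pf16399 h16399
  exact h16400

theorem c328 (h16400 : ∀ j, j < 50992 → GoodG.{u} par (db j)) : ∀ j, j < 51216 → GoodG.{u} par (db j) := by
  have h16401 := checkRangeG_sound parWF r2 pf16400 h16400
  have h16402 := checkRangeG_sound parWF r2 pf16401 h16401
  have h16403 := checkRangeG_sound parWF r2 pf16402 h16402
  have h16404 := checkRangeG_sound parWF r2 pf16403 h16403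
  have h16405 := checkRangeG_sound parWF r2 pf16404 h16404
  have h16406 := checkRangeG_sound parWF r2 pf16405 h16405
  have h16407 := checkRangeG_sound parWF r2 pf16406 h16406
  have h16408 := checkRangeG_sound parWF r2 pf16407 h16407
  have h16409 := checkRangeG_sound parWF r2 pf16408 h16408
  have h16410 := checkRangeG_sound parWF r2 pf16409 h16409
  have h16411 := checkRangeG_sound parWF r2 pf16410 h16410
  have h16412 := checkRangeG_sound parWF r2 pf16411 h16411
  have h16413 := checkRangeG_sound parWF r2 pf16412 h16412
  have h16414 := checkRangeG_sound parWF r2 pf16413 h16413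
  have h16415 := checkRangeG_sound parWF r2 pf16414 h16414
  have h16416 := checkRangeG_sound parWF r2 pf16415 h16415
  have h16417 := checkRangeG_sound parWF r2 pf16416 h16416
  have h16418 := checkRangeG_sound parWF r2 pf16417 h16417
  have h16419 := checkRangeG_sound parWF r2 pf16418 h16418
  have h16420 := checkRangeG_sound parWF r2 pf16419 h16419
  have h16421 := checkRangeG_sound parWF r2 pf16420 h16420
  have h16422 := checkRangeG_sound parWF r2 pf16421 h16421
  have h16423 := checkRangeG_sound parWF r2 pf16422 h16422
  have h16424 := checkRangeG_sound parWF r2 pf16423 h16423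
  have h16425 := checkRangeG_sound parWF r2 pf16424 h16424
  have h16426 := checkRangeG_sound parWF r2 pf16425 h16425
  have h16427 := checkRangeG_sound parWF r2 pf16426 h16426
  have h16428 := checkRangeG_sound parWF r2 pf16427 h16427
  have h16429 := checkRangeG_sound parWF r2 pf16428 h16428
  have h16430 := checkRangeG_sound parWF r2 pf16429 h16429
  have h16431 := checkRangeG_sound parWF r2 pf16430 h16430
  have h16432 := checkRangeG_sound parWF r2 pf16431 h16431
  have h16433 := checkRangeG_sound parWF r2 pf16432 h16432
  have h16434 := checkRangeG_sound parWF r2 pf16433 h16433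
  have h16435 := checkRangeG_sound parWF r2 pf16434 h16434
  have h16436 := checkRangeG_sound parWF r2 pf16435 h16435
  have h16437 := checkRangeG_sound parWF r2 pf16436 h16436
  have h16438 := checkRangeG_sound parWF r2 pf16437 h16437
  have h16439 := checkRangeG_sound parWF r2 pf16438 h16438
  have h16440 := checkRangeG_sound parWF r2 pf16439 h16439
  have h16441 := checkRangeG_sound parWF r2 pf16440 h16440
  have h16442 := checkRangeG_sound parWF r2 pf16441 h16441
  have h16443 := checkRangeG_sound parWF r2 pf16442 h16442
  have h16444 := checkRangeG_sound parWF r2 pf16443 h16443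
  have h16445 := checkRangeG_sound parWF r2 pf16444 h16444
  have h16446 := checkRangeG_sound parWF r2 pf16445 h16445
  have h16447 := checkRangeG_sound parWF r2 pf16446 h16446
  have h16448 := checkRangeG_sound parWF r2 pf16447 h16447
  have h16449 := checkRangeG_sound parWF r2 pf16448 h16448
  have h16450 := checkRangeG_sound parWF r2 pf16449 h16449
  exact h16450

theorem c329 (h16450 : ∀ j, j < 51216 → GoodG.{u} par (db j)) : ∀ j, j < 51438 → GoodG.{u} par (db j) := by
  have h16451 := checkRangeG_sound parWF r2 pf16450 h16450
  have h16452 := checkRangeG_sound parWF r2 pf16451 h16451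
  have h16453 := checkRangeG_sound parWF r2 pf16452 h16452
  have h16454 := checkRangeG_sound parWF r2 pf16453 h16453
  have h16455 := checkRangeG_sound parWF r2 pf16454 h16454
  have h16456 := checkRangeG_sound parWF r2 pf16455 h16455
  have h16457 := checkRangeG_sound parWF r2 pf16456 h16456
  have h16458 := checkRangeG_sound parWF r2 pf16457 h16457
  have h16459 := checkRangeG_sound parWF r2 pf16458 h16458
  have h16460 := checkRangeG_sound parWF r2 pf16459 h16459
  have h16461 := checkRangeG_sound parWF r2 pf16460 h16460
  have h16462 := checkRangeG_sound parWF r2 pf16461 h16461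
  have h16463 := checkRangeG_sound parWF r2 pf16462 h16462
  have h16464 := checkRangeG_sound parWF r2 pf16463 h16463
  have h16465 := checkRangeG_sound parWF r2 pf16464 h16464
  have h16466 := checkRangeG_sound parWF r2 pf16465 h16465
  have h16467 := checkRangeG_sound parWF r2 pf16466 h16466
  have h16468 := checkRangeG_sound parWF r2 pf16467 h16467
  have h16469 := checkRangeG_sound parWF r2 pf16468 h16468
  have h16470 := checkRangeG_sound parWF r2 pf16469 h16469
  have h16471 := checkRangeG_sound parWF r2 pf16470 h16470
  have h16472 := checkRangeG_sound parWF r2 pf16471 h16471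
  have h16473 := checkRangeG_sound parWF r2 pf16472 h16472
  have h16474 := checkRangeG_sound parWF r2 pf16473 h16473
  have h16475 := checkRangeG_sound parWF r2 pf16474 h16474
  have h16476 := checkRangeG_sound parWF r2 pf16475 h16475
  have h16477 := checkRangeG_sound parWF r2 pf16476 h16476
  have h16478 := checkRangeG_sound parWF r2 pf16477 h16477
  have h16479 := checkRangeG_sound parWF r2 pf16478 h16478
  have h16480 := checkRangeG_sound parWF r2 pf16479 h16479
  have h16481 := checkRangeG_sound parWF r2 pf16480 h16480
  have h16482 := checkRangeG_sound parWF r2 pf16481 h16481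
  have h16483 := checkRangeG_sound parWF r2 pf16482 h16482
  have h16484 := checkRangeG_sound parWF r2 pf16483 h16483
  have h16485 := checkRangeG_sound parWF r2 pf16484 h16484
  have h16486 := checkRangeG_sound parWF r2 pf16485 h16485
  have h16487 := checkRangeG_sound parWF r2 pf16486 h16486
  have h16488 := checkRangeG_sound parWF r2 pf16487 h16487
  have h16489 := checkRangeG_sound parWF r2 pf16488 h16488
  have h16490 := checkRangeG_sound parWF r2 pf16489 h16489
  have h16491 := checkRangeG_sound parWF r2 pf16490 h16490
  have h16492 := checkRangeG_sound parWF r2 pf16491 h16491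
  have h16493 := checkRangeG_sound parWF r2 pf16492 h16492
  have h16494 := checkRangeG_sound parWF r2 pf16493 h16493
  have h16495 := checkRangeG_sound parWF r2 pf16494 h16494
  have h16496 := checkRangeG_sound parWF r2 pf16495 h16495
  have h16497 := checkRangeG_sound parWF r2 pf16496 h16496
  have h16498 := checkRangeG_sound parWF r2 pf16497 h16497
  have h16499 := checkRangeG_sound parWF r2 pf16498 h16498
  have h16500 := checkRangeG_sound parWF r2 pf16499 h16499
  exact h16500

theorem c330 (h16500 : ∀ j, j < 51438 → GoodG.{u} par (db j)) : ∀ j, j < 51628 → GoodG.{u} par (db j) := by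
  have h16501 := checkRangeG_sound parWF r2 pf16500 h16500
  have h16502 := checkRangeG_sound parWF r2 pf16501 h16501
  have h16503 := checkRangeG_sound parWF r2 pf16502 h16502
  have h16504 := checkRangeG_sound parWF r2 pf16503 h16503
  have h16505 := checkRangeG_sound parWF r2 pf16504 h16504
  have h16506 := checkRangeG_sound parWF r2 pf16505 h16505
  have h16507 := checkRangeG_sound parWF r2 pf16506 h16506
  have h16508 := checkRangeG_sound parWF r2 pf16507 h16507
  have h16509 := checkRangeG_sound parWF r2 pf16508 h16508
  have h16510 := checkRangeG_sound parWF r2 pf16509 h16509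
  have h16511 := checkRangeG_sound parWF r2 pf16510 h16510
  have h16512 := checkRangeG_sound parWF r2 pf16511 h16511
  have h16513 := checkRangeG_sound parWF r2 pf16512 h16512
  have h16514 := checkRangeG_sound parWF r2 pf16513 h16513
  have h16515 := checkRangeG_sound parWF r2 pf16514 h16514
  have h16516 := checkRangeG_sound parWF r2 pf16515 h16515
  have h16517 := checkRangeG_sound parWF r2 pf16516 h16516
  have h16518 := checkRangeG_sound parWF r2 pf16517 h16517
  have h16519 := checkRangeG_sound parWF r2 pf16518 h16518
  have h16520 := checkRangeG_sound parWF r2 pf16519 h16519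
  have h16521 := checkRangeG_sound parWF r2 pf16520 h16520
  have h16522 := checkRangeG_sound parWF r2 pf16521 h16521
  have h16523 := checkRangeG_sound parWF r2 pf16522 h16522
  have h16524 := checkRangeG_sound parWF r2 pf16523 h16523
  have h16525 := checkRangeG_sound parWF r2 pf16524 h16524
  have h16526 := checkRangeG_sound parWF r2 pf16525 h16525
  have h16527 := checkRangeG_sound parWF r2 pf16526 h16526
  have h16528 := checkRangeG_sound parWF r2 pf16527 h16527
  have h16529 := checkRangeG_sound parWF r2 pf16528 h16528
  have h16530 := checkRangeG_sound parWF r2 pf16529 h16529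
  have h16531 := checkRangeG_sound parWF r2 pf16530 h16530
  have h16532 := checkRangeG_sound parWF r2 pf16531 h16531
  have h16533 := checkRangeG_sound parWF r2 pf16532 h16532
  have h16534 := checkRangeG_sound parWF r2 pf16533 h16533
  have h16535 := checkRangeG_sound parWF r2 pf16534 h16534
  have h16536 := checkRangeG_sound parWF r2 pf16535 h16535
  have h16537 := checkRangeG_sound parWF r2 pf16536 h16536
  have h16538 := checkRangeG_sound parWF r2 pf16537 h16537
  have h16539 := checkRangeG_sound parWF r2 pf16538 h16538
  have h16540 := checkRangeG_sound parWF r2 pf16539 h16539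
  have h16541 := checkRangeG_sound parWF r2 pf16540 h16540
  have h16542 := checkRangeG_sound parWF r2 pf16541 h16541
  have h16543 := checkRangeG_sound parWF r2 pf16542 h16542
  have h16544 := checkRangeG_sound parWF r2 pf16543 h16543
  have h16545 := checkRangeG_sound parWF r2 pf16544 h16544
  have h16546 := checkRangeG_sound parWF r2 pf16545 h16545
  have h16547 := checkRangeG_sound parWF r2 pf16546 h16546
  have h16548 := checkRangeG_sound parWF r2 pf16547 h16547
  have h16549 := checkRangeG_sound parWF r2 pf16548 h16548
  have h16550 := checkRangeG_sound parWF r2 pf16549 h16549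
  exact h16550

theorem c331 (h16550 : ∀ j, j < 51628 → GoodG.{u} par (db j)) : ∀ j, j < 51805 → GoodG.{u} par (db j) := by
  have h16551 := checkRangeG_sound parWF r2 pf16550 h16550
  have h16552 := checkRangeG_sound parWF r2 pf16551 h16551
  have h16553 := checkRangeG_sound parWF r2 pf16552 h16552
  have h16554 := checkRangeG_sound parWF r2 pf16553 h16553
  have h16555 := checkRangeG_sound parWF r2 pf16554 h16554
  have h16556 := checkRangeG_sound parWF r2 pf16555 h16555
  have h16557 := checkRangeG_sound parWF r2 pf16556 h16556
  have h16558 := checkRangeG_sound parWF r2 pf16557 h16557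
  have h16559 := checkRangeG_sound parWF r2 pf16558 h16558
  have h16560 := checkRangeG_sound parWF r2 pf16559 h16559
  have h16561 := checkRangeG_sound parWF r2 pf16560 h16560
  have h16562 := checkRangeG_sound parWF r2 pf16561 h16561
  have h16563 := checkRangeG_sound parWF r2 pf16562 h16562
  have h16564 := checkRangeG_sound parWF r2 pf16563 h16563
  have h16565 := checkRangeG_sound parWF r2 pf16564 h16564
  have h16566 := checkRangeG_sound parWF r2 pf16565 h16565
  have h16567 := checkRangeG_sound parWF r2 pf16566 h16566
  have h16568 := checkRangeG_sound parWF r2 pf16567 h16567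
  have h16569 := checkRangeG_sound parWF r2 pf16568 h16568
  have h16570 := checkRangeG_sound parWF r2 pf16569 h16569
  have h16571 := checkRangeG_sound parWF r2 pf16570 h16570
  have h16572 := checkRangeG_sound parWF r2 pf16571 h16571
  have h16573 := checkRangeG_sound parWF r2 pf16572 h16572
  have h16574 := checkRangeG_sound parWF r2 pf16573 h16573
  have h16575 := checkRangeG_sound parWF r2 pf16574 h16574
  have h16576 := checkRangeG_sound parWF r2 pf16575 h16575
  have h16577 := checkRangeG_sound parWF r2 pf16576 h16576
  have h16578 := checkRangeG_sound parWF r2 pf16577 h16577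
  have h16579 := checkRangeG_sound parWF r2 pf16578 h16578
  have h16580 := checkRangeG_sound parWF r2 pf16579 h16579
  have h16581 := checkRangeG_sound parWF r2 pf16580 h16580
  have h16582 := checkRangeG_sound parWF r2 pf16581 h16581
  have h16583 := checkRangeG_sound parWF r2 pf16582 h16582
  have h16584 := checkRangeG_sound parWF r2 pf16583 h16583
  have h16585 := checkRangeG_sound parWF r2 pf16584 h16584
  have h16586 := checkRangeG_sound parWF r2 pf16585 h16585
  have h16587 := checkRangeG_sound parWF r2 pf16586 h16586
  have h16588 := checkRangeG_sound parWF r2 pf16587 h16587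
  have h16589 := checkRangeG_sound parWF r2 pf16588 h16588
  have h16590 := checkRangeG_sound parWF r2 pf16589 h16589
  have h16591 := checkRangeG_sound parWF r2 pf16590 h16590
  have h16592 := checkRangeG_sound parWF r2 pf16591 h16591
  have h16593 := checkRangeG_sound parWF r2 pf16592 h16592
  have h16594 := checkRangeG_sound parWF r2 pf16593 h16593
  have h16595 := checkRangeG_sound parWF r2 pf16594 h16594
  have h16596 := checkRangeG_sound parWF r2 pf16595 h16595
  have h16597 := checkRangeG_sound parWF r2 pf16596 h16596
  have h16598 := checkRangeG_sound parWF r2 pf16597 h16597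
  have h16599 := checkRangeG_sound parWF r2 pf16598 h16598
  have h16600 := checkRangeG_sound parWF r2 pf16599 h16599
  exact h16600

theorem c332 (h16600 : ∀ j, j < 51805 → GoodG.{u} par (db j)) : ∀ j, j < 52014 → GoodG.{u} par (db j) := by
  have h16601 := checkRangeG_sound parWF r2 pf16600 h16600
  have h16602 := checkRangeG_sound parWF r2 pf16601 h16601
  have h16603 := checkRangeG_sound parWF r2 pf16602 h16602
  have h16604 := checkRangeG_sound parWF r2 pf16603 h16603
  have h16605 := checkRangeG_sound parWF r2 pf16604 h16604
  have h16606 := checkRangeG_sound parWF r2 pf16605 h16605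
  have h16607 := checkRangeG_sound parWF r2 pf16606 h16606
  have h16608 := checkRangeG_sound parWF r2 pf16607 h16607
  have h16609 := checkRangeG_sound parWF r2 pf16608 h16608
  have h16610 := checkRangeG_sound parWF r2 pf16609 h16609
  have h16611 := checkRangeG_sound parWF r2 pf16610 h16610
  have h16612 := checkRangeG_sound parWF r2 pf16611 h16611
  have h16613 := checkRangeG_sound parWF r2 pf16612 h16612
  have h16614 := checkRangeG_sound parWF r2 pf16613 h16613
  have h16615 := checkRangeG_sound parWF r2 pf16614 h16614
  have h16616 := checkRangeG_sound parWF r2 pf16615 h16615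
  have h16617 := checkRangeG_sound parWF r2 pf16616 h16616
  have h16618 := checkRangeG_sound parWF r2 pf16617 h16617
  have h16619 := checkRangeG_sound parWF r2 pf16618 h16618
  have h16620 := checkRangeG_sound parWF r2 pf16619 h16619
  have h16621 := checkRangeG_sound parWF r2 pf16620 h16620
  have h16622 := checkRangeG_sound parWF r2 pf16621 h16621
  have h16623 := checkRangeG_sound parWF r2 pf16622 h16622
  have h16624 := checkRangeG_sound parWF r2 pf16623 h16623
  have h16625 := checkRangeG_sound parWF r2 pf16624 h16624
  have h16626 := checkRangeG_sound parWF r2 pf16625 h16625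
  have h16627 := checkRangeG_sound parWF r2 pf16626 h16626
  have h16628 := checkRangeG_sound parWF r2 pf16627 h16627
  have h16629 := checkRangeG_sound parWF r2 pf16628 h16628
  have h16630 := checkRangeG_sound parWF r2 pf16629 h16629
  have h16631 := checkRangeG_sound parWF r2 pf16630 h16630
  have h16632 := checkRangeG_sound parWF r2 pf16631 h16631
  have h16633 := checkRangeG_sound parWF r2 pf16632 h16632
  have h16634 := checkRangeG_sound parWF r2 pf16633 h16633
  have h16635 := checkRangeG_sound parWF r2 pf16634 h16634
  have h16636 := checkRangeG_sound parWF r2 pf16635 h16635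
  have h16637 := checkRangeG_sound parWF r2 pf16636 h16636
  have h16638 := checkRangeG_sound parWF r2 pf16637 h16637
  have h16639 := checkRangeG_sound parWF r2 pf16638 h16638
  have h16640 := checkRangeG_sound parWF r2 pf16639 h16639
  have h16641 := checkRangeG_sound parWF r2 pf16640 h16640
  have h16642 := checkRangeG_sound parWF r2 pf16641 h16641
  have h16643 := checkRangeG_sound parWF r2 pf16642 h16642
  have h16644 := checkRangeG_sound parWF r2 pf16643 h16643
  have h16645 := checkRangeG_sound parWF r2 pf16644 h16644
  have h16646 := checkRangeG_sound parWF r2 pf16645 h16645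
  have h16647 := checkRangeG_sound parWF r2 pf16646 h16646
  have h16648 := checkRangeG_sound parWF r2 pf16647 h16647
  have h16649 := checkRangeG_sound parWF r2 pf16648 h16648
  have h16650 := checkRangeG_sound parWF r2 pf16649 h16649
  exact h16650

theorem c333 (h16650 : ∀ j, j < 52014 → GoodG.{u} par (db j)) : ∀ j, j < 52180 → GoodG.{u} par (db j) := by
  have h16651 := checkRangeG_sound parWF r2 pf16650 h16650
  have h16652 := checkRangeG_sound parWF r2 pf16651 h16651
  have h16653 := checkRangeG_sound parWF r2 pf16652 h16652
  have h16654 := checkRangeG_sound parWF r2 pf16653 h16653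
  have h16655 := checkRangeG_sound parWF r2 pf16654 h16654
  have h16656 := checkRangeG_sound parWF r2 pf16655 h16655
  have h16657 := checkRangeG_sound parWF r2 pf16656 h16656
  have h16658 := checkRangeG_sound parWF r2 pf16657 h16657
  have h16659 := checkRangeG_sound parWF r2 pf16658 h16658
  have h16660 := checkRangeG_sound parWF r2 pf16659 h16659
  have h16661 := checkRangeG_sound parWF r2 pf16660 h16660
  have h16662 := checkRangeG_sound parWF r2 pf16661 h16661
  have h16663 := checkRangeG_sound parWF r2 pf16662 h16662
  have h16664 := checkRangeG_sound parWF r2 pf16663 h16663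
  have h16665 := checkRangeG_sound parWF r2 pf16664 h16664
  have h16666 := checkRangeG_sound parWF r2 pf16665 h16665
  have h16667 := checkRangeG_sound parWF r2 pf16666 h16666
  have h16668 := checkRangeG_sound parWF r2 pf16667 h16667
  have h16669 := checkRangeG_sound parWF r2 pf16668 h16668
  have h16670 := checkRangeG_sound parWF r2 pf16669 h16669
  have h16671 := checkRangeG_sound parWF r2 pf16670 h16670
  have h16672 := checkRangeG_sound parWF r2 pf16671 h16671
  have h16673 := checkRangeG_sound parWF r2 pf16672 h16672
  have h16674 := checkRangeG_sound parWF r2 pf16673 h16673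
  have h16675 := checkRangeG_sound parWF r2 pf16674 h16674
  have h16676 := checkRangeG_sound parWF r2 pf16675 h16675
  have h16677 := checkRangeG_sound parWF r2 pf16676 h16676
  have h16678 := checkRangeG_sound parWF r2 pf16677 h16677
  have h16679 := checkRangeG_sound parWF r2 pf16678 h16678
  have h16680 := checkRangeG_sound parWF r2 pf16679 h16679
  have h16681 := checkRangeG_sound parWF r2 pf16680 h16680
  have h16682 := checkRangeG_sound parWF r2 pf16681 h16681
  have h16683 := checkRangeG_sound parWF r2 pf16682 h16682
  have h16684 := checkRangeG_sound parWF r2 pf16683 h16683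
  have h16685 := checkRangeG_sound parWF r2 pf16684 h16684
  have h16686 := checkRangeG_sound parWF r2 pf16685 h16685
  have h16687 := checkRangeG_sound parWF r2 pf16686 h16686
  have h16688 := checkRangeG_sound parWF r2 pf16687 h16687
  have h16689 := checkRangeG_sound parWF r2 pf16688 h16688
  have h16690 := checkRangeG_sound parWF r2 pf16689 h16689
  have h16691 := checkRangeG_sound parWF r2 pf16690 h16690
  have h16692 := checkRangeG_sound parWF r2 pf16691 h16691
  have h16693 := checkRangeG_sound parWF r2 pf16692 h16692
  have h16694 := checkRangeG_sound parWF r2 pf16693 h16693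
  have h16695 := checkRangeG_sound parWF r2 pf16694 h16694
  have h16696 := checkRangeG_sound parWF r2 pf16695 h16695
  have h16697 := checkRangeG_sound parWF r2 pf16696 h16696
  have h16698 := checkRangeG_sound parWF r2 pf16697 h16697
  have h16699 := checkRangeG_sound parWF r2 pf16698 h16698
  have h16700 := checkRangeG_sound parWF r2 pf16699 h16699
  exact h16700

theorem c334 (h16700 : ∀ j, j < 52180 → GoodG.{u} par (db j)) : ∀ j, j < 52321 → GoodG.{u} par (db j) := by
  have h16701 := checkRangeG_sound parWF r2 pf16700 h16700
  have h16702 := checkRangeG_sound parWF r2 pf16701 h16701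
  have h16703 := checkRangeG_sound parWF r2 pf16702 h16702
  have h16704 := checkRangeG_sound parWF r2 pf16703 h16703
  have h16705 := checkRangeG_sound parWF r2 pf16704 h16704
  have h16706 := checkRangeG_sound parWF r2 pf16705 h16705
  have h16707 := checkRangeG_sound parWF r2 pf16706 h16706
  have h16708 := checkRangeG_sound parWF r2 pf16707 h16707
  have h16709 := checkRangeG_sound parWF r2 pf16708 h16708
  have h16710 := checkRangeG_sound parWF r2 pf16709 h16709
  have h16711 := checkRangeG_sound parWF r2 pf16710 h16710
  have h16712 := checkRangeG_sound parWF r2 pf16711 h16711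
  have h16713 := checkRangeG_sound parWF r2 pf16712 h16712
  have h16714 := checkRangeG_sound parWF r2 pf16713 h16713
  have h16715 := checkRangeG_sound parWF r2 pf16714 h16714
  have h16716 := checkRangeG_sound parWF r2 pf16715 h16715
  have h16717 := checkRangeG_sound parWF r2 pf16716 h16716
  have h16718 := checkRangeG_sound parWF r2 pf16717 h16717
  have h16719 := checkRangeG_sound parWF r2 pf16718 h16718
  have h16720 := checkRangeG_sound parWF r2 pf16719 h16719
  have h16721 := checkRangeG_sound parWF r2 pf16720 h16720
  have h16722 := checkRangeG_sound parWF r2 pf16721 h16721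
  have h16723 := checkRangeG_sound parWF r2 pf16722 h16722
  have h16724 := checkRangeG_sound parWF r2 pf16723 h16723
  have h16725 := checkRangeG_sound parWF r2 pf16724 h16724
  have h16726 := checkRangeG_sound parWF r2 pf16725 h16725
  have h16727 := checkRangeG_sound parWF r2 pf16726 h16726
  have h16728 := checkRangeG_sound parWF r2 pf16727 h16727
  have h16729 := checkRangeG_sound parWF r2 pf16728 h16728
  have h16730 := checkRangeG_sound parWF r2 pf16729 h16729
  have h16731 := checkRangeG_sound parWF r2 pf16730 h16730
  have h16732 := checkRangeG_sound parWF r2 pf16731 h16731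
  have h16733 := checkRangeG_sound parWF r2 pf16732 h16732
  have h16734 := checkRangeG_sound parWF r2 pf16733 h16733
  have h16735 := checkRangeG_sound parWF r2 pf16734 h16734
  have h16736 := checkRangeG_sound parWF r2 pf16735 h16735
  have h16737 := checkRangeG_sound parWF r2 pf16736 h16736
  have h16738 := checkRangeG_sound parWF r2 pf16737 h16737
  have h16739 := checkRangeG_sound parWF r2 pf16738 h16738
  have h16740 := checkRangeG_sound parWF r2 pf16739 h16739
  have h16741 := checkRangeG_sound parWF r2 pf16740 h16740
  have h16742 := checkRangeG_sound parWF r2 pf16741 h16741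
  have h16743 := checkRangeG_sound parWF r2 pf16742 h16742
  have h16744 := checkRangeG_sound parWF r2 pf16743 h16743
  have h16745 := checkRangeG_sound parWF r2 pf16744 h16744
  have h16746 := checkRangeG_sound parWF r2 pf16745 h16745
  have h16747 := checkRangeG_sound parWF r2 pf16746 h16746
  have h16748 := checkRangeG_sound parWF r2 pf16747 h16747
  have h16749 := checkRangeG_sound parWF r2 pf16748 h16748
  have h16750 := checkRangeG_sound parWF r2 pf16749 h16749
  exact h16750

theorem c335 (h16750 : ∀ j, j < 52321 → GoodG.{u} par (db j)) : ∀ j, j < 52460 → GoodG.{u} par (db j) := by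
  have h16751 := checkRangeG_sound parWF r2 pf16750 h16750
  have h16752 := checkRangeG_sound parWF r2 pf16751 h16751
  have h16753 := checkRangeG_sound parWF r2 pf16752 h16752
  have h16754 := checkRangeG_sound parWF r2 pf16753 h16753
  have h16755 := checkRangeG_sound parWF r2 pf16754 h16754
  have h16756 := checkRangeG_sound parWF r2 pf16755 h16755
  have h16757 := checkRangeG_sound parWF r2 pf16756 h16756
  have h16758 := checkRangeG_sound parWF r2 pf16757 h16757
  have h16759 := checkRangeG_sound parWF r2 pf16758 h16758
  have h16760 := checkRangeG_sound parWF r2 pf16759 h16759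
  have h16761 := checkRangeG_sound parWF r2 pf16760 h16760
  have h16762 := checkRangeG_sound parWF r2 pf16761 h16761
  have h16763 := checkRangeG_sound parWF r2 pf16762 h16762
  have h16764 := checkRangeG_sound parWF r2 pf16763 h16763
  have h16765 := checkRangeG_sound parWF r2 pf16764 h16764
  have h16766 := checkRangeG_sound parWF r2 pf16765 h16765
  have h16767 := checkRangeG_sound parWF r2 pf16766 h16766
  have h16768 := checkRangeG_sound parWF r2 pf16767 h16767
  have h16769 := checkRangeG_sound parWF r2 pf16768 h16768
  have h16770 := checkRangeG_sound parWF r2 pf16769 h16769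
  have h16771 := checkRangeG_sound parWF r2 pf16770 h16770
  have h16772 := checkRangeG_sound parWF r2 pf16771 h16771
  have h16773 := checkRangeG_sound parWF r2 pf16772 h16772
  have h16774 := checkRangeG_sound parWF r2 pf16773 h16773
  have h16775 := checkRangeG_sound parWF r2 pf16774 h16774
  have h16776 := checkRangeG_sound parWF r2 pf16775 h16775
  have h16777 := checkRangeG_sound parWF r2 pf16776 h16776
  have h16778 := checkRangeG_sound parWF r2 pf16777 h16777
  have h16779 := checkRangeG_sound parWF r2 pf16778 h16778
  have h16780 := checkRangeG_sound parWF r2 pf16779 h16779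
  have h16781 := checkRangeG_sound parWF r2 pf16780 h16780
  have h16782 := checkRangeG_sound parWF r2 pf16781 h16781
  have h16783 := checkRangeG_sound parWF r2 pf16782 h16782
  have h16784 := checkRangeG_sound parWF r2 pf16783 h16783
  have h16785 := checkRangeG_sound parWF r2 pf16784 h16784
  have h16786 := checkRangeG_sound parWF r2 pf16785 h16785
  have h16787 := checkRangeG_sound parWF r2 pf16786 h16786
  have h16788 := checkRangeG_sound parWF r2 pf16787 h16787
  have h16789 := checkRangeG_sound parWF r2 pf16788 h16788
  have h16790 := checkRangeG_sound parWF r2 pf16789 h16789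
  have h16791 := checkRangeG_sound parWF r2 pf16790 h16790
  have h16792 := checkRangeG_sound parWF r2 pf16791 h16791
  have h16793 := checkRangeG_sound parWF r2 pf16792 h16792
  have h16794 := checkRangeG_sound parWF r2 pf16793 h16793
  have h16795 := checkRangeG_sound parWF r2 pf16794 h16794
  have h16796 := checkRangeG_sound parWF r2 pf16795 h16795
  have h16797 := checkRangeG_sound parWF r2 pf16796 h16796
  have h16798 := checkRangeG_sound parWF r2 pf16797 h16797
  have h16799 := checkRangeG_sound parWF r2 pf16798 h16798
  have h16800 := checkRangeG_sound parWF r2 pf16799 h16799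
  exact h16800


end Vale.Agent.P045g.C61
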