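import Vale.Agent.P045g.C61.WF
import Vale.Agent.P045g.C61.Pf280
import Vale.Agent.P045g.C61.Pf281
import Vale.Agent.P045g.C61.Pf282
import Vale.Agent.P045g.C61.Pf283
import Vale.Agent.P045g.C61.Pf284
import Vale.Agent.P045g.C61.Pf285
import Vale.Agent.P045g.C61.Pf286
import Vale.Agent.P045g.C61.Pf287
import Vale.Agent.P045g.C61.Pf288
import Vale.Agent.P045g.C61.Pf289

namespace Vale.Agent.P045g.C61

open Vale.Agent.P045b Vale.Agent.P045g

universe u

theorem c336 (h16800 : ∀ j, j < 52460 → GoodG.{u} par (db j)) : ∀ j, j < 52604 → GoodG.{u} par (db j) := by
  have h16801 := checkRangeG_sound parWF r2 pf16800 h16800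
  have h16802 := checkRangeG_sound parWF r2 pf16801 h16801
  have h16803 := checkRangeG_sound parWF r2 pf16802 h16802
  have h16804 := checkRangeG_sound parWF r2 pf16803 h16803
  have h16805 := checkRangeG_sound parWF r2 pf16804 h16804
  have h16806 := checkRangeG_sound parWF r2 pf16805 h16805
  have h16807 := checkRangeG_sound parWF r2 pf16806 h16806
  have h16808 := checkRangeG_sound parWF r2 pf16807 h16807
  have h16809 := checkRangeG_sound parWF r2 pf16808 h16808
  have h16810 := checkRangeG_sound parWF r2 pf16809 h16809
  have h16811 := checkRangeG_sound parWF r2 pf16810 h16810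
  have h16812 := checkRangeG_sound parWF r2 pf16811 h16811
  have h16813 := checkRangeG_sound parWF r2 pf16812 h16812
  have h16814 := checkRangeG_sound parWF r2 pf16813 h16813
  have h16815 := checkRangeG_sound parWF r2 pf16814 h16814
  have h16816 := checkRangeG_sound parWF r2 pf16815 h16815
  have h16817 := checkRangeG_sound parWF r2 pf16816 h16816
  have h16818 := checkRangeG_sound parWF r2 pf16817 h16817
  have h16819 := checkRangeG_sound parWF r2 pf16818 h16818
  have h16820 := checkRangeG_sound parWF r2 pf16819 h16819
  have h16821 := checkRangeG_sound parWF r2 pf16820 h16820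
  have h16822 := checkRangeG_sound parWF r2 pf16821 h16821
  have h16823 := checkRangeG_sound parWF r2 pf16822 h16822
  have h16824 := checkRangeG_sound parWF r2 pf16823 h16823
  have h16825 := checkRangeG_sound parWF r2 pf16824 h16824
  have h16826 := checkRangeG_sound parWF r2 pf16825 h16825
  have h16827 := checkRangeG_sound parWF r2 pf16826 h16826
  have h16828 := checkRangeG_sound parWF r2 pf16827 h16827
  have h16829 := checkRangeG_sound parWF r2 pf16828 h16828
  have h16830 := checkRangeG_sound parWF r2 pf16829 h16829
  have h16831 := checkRangeG_sound parWF r2 pf16830 h16830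
  have h16832 := checkRangeG_sound parWF r2 pf16831 h16831
  have h16833 := checkRangeG_sound parWF r2 pf16832 h16832
  have h16834 := checkRangeG_sound parWF r2 pf16833 h16833
  have h16835 := checkRangeG_sound parWF r2 pf16834 h16834
  have h16836 := checkRangeG_sound parWF r2 pf16835 h16835
  have h16837 := checkRangeG_sound parWF r2 pf16836 h16836
  have h16838 := checkRangeG_sound parWF r2 pf16837 h16837
  have h16839 := checkRangeG_sound parWF r2 pf16838 h16838
  have h16840 := checkRangeG_sound parWF r2 pf16839 h16839
  have h16841 := checkRangeG_sound parWF r2 pf16840 h16840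
  have h16842 := checkRangeG_sound parWF r2 pf16841 h16841
  have h16843 := checkRangeG_sound parWF r2 pf16842 h16842
  have h16844 := checkRangeG_sound parWF r2 pf16843 h16843
  have h16845 := checkRangeG_sound parWF r2 pf16844 h16844
  have h16846 := checkRangeG_sound parWF r2 pf16845 h16845
  have h16847 := checkRangeG_sound parWF r2 pf16846 h16846
  have h16848 := checkRangeG_sound parWF r2 pf16847 h16847
  have h16849 := checkRangeG_sound parWF r2 pf16848 h16848
  have h16850 := checkRangeG_sound parWF r2 pf16849 h16849
  exact h16850

theorem c337 (h16850 : ∀ j, j < 52604 → GoodG.{u} par (db j)) : ∀ j, j < 52770 → GoodG.{u} par (db j) := by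
  have h16851 := checkRangeG_sound parWF r2 pf16850 h16850
  have h16852 := checkRangeG_sound parWF r2 pf16851 h16851
  have h16853 := checkRangeG_sound parWF r2 pf16852 h16852
  have h16854 := checkRangeG_sound parWF r2 pf16853 h16853
  have h16855 := checkRangeG_sound parWF r2 pf16854 h16854
  have h16856 := checkRangeG_sound parWF r2 pf16855 h16855
  have h16857 := checkRangeG_sound parWF r2 pf16856 h16856
  have h16858 := checkRangeG_sound parWF r2 pf16857 h16857
  have h16859 := checkRangeG_sound parWF r2 pf16858 h16858
  have h16860 := checkRangeG_sound parWF r2 pf16859 h16859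
  have h16861 := checkRangeG_sound parWF r2 pf16860 h16860
  have h16862 := checkRangeG_sound parWF r2 pf16861 h16861
  have h16863 := checkRangeG_sound parWF r2 pf16862 h16862
  have h16864 := checkRangeG_sound parWF r2 pf16863 h16863
  have h16865 := checkRangeG_sound parWF r2 pf16864 h16864
  have h16866 := checkRangeG_sound parWF r2 pf16865 h16865
  have h16867 := checkRangeG_sound parWF r2 pf16866 h16866
  have h16868 := checkRangeG_sound parWF r2 pf16867 h16867
  have h16869 := checkRangeG_sound parWF r2 pf16868 h16868
  have h16870 := checkRangeG_sound parWF r2 pf16869 h16869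
  have h16871 := checkRangeG_sound parWF r2 pf16870 h16870
  have h16872 := checkRangeG_sound parWF r2 pf16871 h16871
  have h16873 := checkRangeG_sound parWF r2 pf16872 h16872
  have h16874 := checkRangeG_sound parWF r2 pf16873 h16873
  have h16875 := checkRangeG_sound parWF r2 pf16874 h16874
  have h16876 := checkRangeG_sound parWF r2 pf16875 h16875
  have h16877 := checkRangeG_sound parWF r2 pf16876 h16876
  have h16878 := checkRangeG_sound parWF r2 pf16877 h16877
  have h16879 := checkRangeG_sound parWF r2 pf16878 h16878
  have h16880 := checkRangeG_sound parWF r2 pf16879 h16879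
  have h16881 := checkRangeG_sound parWF r2 pf16880 h16880
  have h16882 := checkRangeG_sound parWF r2 pf16881 h16881
  have h16883 := checkRangeG_sound parWF r2 pf16882 h16882
  have h16884 := checkRangeG_sound parWF r2 pf16883 h16883
  have h16885 := checkRangeG_sound parWF r2 pf16884 h16884
  have h16886 := checkRangeG_sound parWF r2 pf16885 h16885
  have h16887 := checkRangeG_sound parWF r2 pf16886 h16886
  have h16888 := checkRangeG_sound parWF r2 pf16887 h16887
  have h16889 := checkRangeG_sound parWF r2 pf16888 h16888
  have h16890 := checkRangeG_sound parWF r2 pf16889 h16889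
  have h16891 := checkRangeG_sound parWF r2 pf16890 h16890
  have h16892 := checkRangeG_sound parWF r2 pf16891 h16891
  have h16893 := checkRangeG_sound parWF r2 pf16892 h16892
  have h16894 := checkRangeG_sound parWF r2 pf16893 h16893
  have h16895 := checkRangeG_sound parWF r2 pf16894 h16894
  have h16896 := checkRangeG_sound parWF r2 pf16895 h16895
  have h16897 := checkRangeG_sound parWF r2 pf16896 h16896
  have h16898 := checkRangeG_sound parWF r2 pf16897 h16897
  have h16899 := checkRangeG_sound parWF r2 pf16898 h16898
  have h16900 := checkRangeG_sound parWF r2 pf16899 h16899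
  exact h16900

theorem c338 (h16900 : ∀ j, j < 52770 → GoodG.{u} par (db j)) : ∀ j, j < 52914 → GoodG.{u} par (db j) := by
  have h16901 := checkRangeG_sound parWF r2 pf16900 h16900
  have h16902 := checkRangeG_sound parWF r2 pf16901 h16901
  have h16903 := checkRangeG_sound parWF r2 pf16902 h16902
  have h16904 := checkRangeG_sound parWF r2 pf16903 h16903
  have h16905 := checkRangeG_sound parWF r2 pf16904 h16904
  have h16906 := checkRangeG_sound parWF r2 pf16905 h16905
  have h16907 := checkRangeG_sound parWF r2 pf16906 h16906
  have h16908 := checkRangeG_sound parWF r2 pf16907 h16907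
  have h16909 := checkRangeG_sound parWF r2 pf16908 h16908
  have h16910 := checkRangeG_sound parWF r2 pf16909 h16909
  have h16911 := checkRangeG_sound parWF r2 pf16910 h16910
  have h16912 := checkRangeG_sound parWF r2 pf16911 h16911
  have h16913 := checkRangeG_sound parWF r2 pf16912 h16912
  have h16914 := checkRangeG_sound parWF r2 pf16913 h16913
  have h16915 := checkRangeG_sound parWF r2 pf16914 h16914
  have h16916 := checkRangeG_sound parWF r2 pf16915 h16915
  have h16917 := checkRangeG_sound parWF r2 pf16916 h16916
  have h16918 := checkRangeG_sound parWF r2 pf16917 h16917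
  have h16919 := checkRangeG_sound parWF r2 pf16918 h16918
  have h16920 := checkRangeG_sound parWF r2 pf16919 h16919
  have h16921 := checkRangeG_sound parWF r2 pf16920 h16920
  have h16922 := checkRangeG_sound parWF r2 pf16921 h16921
  have h16923 := checkRangeG_sound parWF r2 pf16922 h16922
  have h16924 := checkRangeG_sound parWF r2 pf16923 h16923
  have h16925 := checkRangeG_sound parWF r2 pf16924 h16924
  have h16926 := checkRangeG_sound parWF r2 pf16925 h16925
  have h16927 := checkRangeG_sound parWF r2 pf16926 h16926
  have h16928 := checkRangeG_sound parWF r2 pf16927 h16927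
  have h16929 := checkRangeG_sound parWF r2 pf16928 h16928
  have h16930 := checkRangeG_sound parWF r2 pf16929 h16929
  have h16931 := checkRangeG_sound parWF r2 pf16930 h16930
  have h16932 := checkRangeG_sound parWF r2 pf16931 h16931
  have h16933 := checkRangeG_sound parWF r2 pf16932 h16932
  have h16934 := checkRangeG_sound parWF r2 pf16933 h16933
  have h16935 := checkRangeG_sound parWF r2 pf16934 h16934
  have h16936 := checkRangeG_sound parWF r2 pf16935 h16935
  have h16937 := checkRangeG_sound parWF r2 pf16936 h16936
  have h16938 := checkRangeG_sound parWF r2 pf16937 h16937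
  have h16939 := checkRangeG_sound parWF r2 pf16938 h16938
  have h16940 := checkRangeG_sound parWF r2 pf16939 h16939
  have h16941 := checkRangeG_sound parWF r2 pf16940 h16940
  have h16942 := checkRangeG_sound parWF r2 pf16941 h16941
  have h16943 := checkRangeG_sound parWF r2 pf16942 h16942
  have h16944 := checkRangeG_sound parWF r2 pf16943 h16943
  have h16945 := checkRangeG_sound parWF r2 pf16944 h16944
  have h16946 := checkRangeG_sound parWF r2 pf16945 h16945
  have h16947 := checkRangeG_sound parWF r2 pf16946 h16946
  have h16948 := checkRangeG_sound parWF r2 pf16947 h16947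
  have h16949 := checkRangeG_sound parWF r2 pf16948 h16948
  have h16950 := checkRangeG_sound parWF r2 pf16949 h16949
  exact h16950

theorem c339 (h16950 : ∀ j, j < 52914 → GoodG.{u} par (db j)) : ∀ j, j < 53053 → GoodG.{u} par (db j) := by
  have h16951 := checkRangeG_sound parWF r2 pf16950 h16950
  have h16952 := checkRangeG_sound parWF r2 pf16951 h16951
  have h16953 := checkRangeG_sound parWF r2 pf16952 h16952
  have h16954 := checkRangeG_sound parWF r2 pf16953 h16953
  have h16955 := checkRangeG_sound parWF r2 pf16954 h16954
  have h16956 := checkRangeG_sound parWF r2 pf16955 h16955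
  have h16957 := checkRangeG_sound parWF r2 pf16956 h16956
  have h16958 := checkRangeG_sound parWF r2 pf16957 h16957
  have h16959 := checkRangeG_sound parWF r2 pf16958 h16958
  have h16960 := checkRangeG_sound parWF r2 pf16959 h16959
  have h16961 := checkRangeG_sound parWF r2 pf16960 h16960
  have h16962 := checkRangeG_sound parWF r2 pf16961 h16961
  have h16963 := checkRangeG_sound parWF r2 pf16962 h16962
  have h16964 := checkRangeG_sound parWF r2 pf16963 h16963
  have h16965 := checkRangeG_sound parWF r2 pf16964 h16964
  have h16966 := checkRangeG_sound parWF r2 pf16965 h16965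
  have h16967 := checkRangeG_sound parWF r2 pf16966 h16966
  have h16968 := checkRangeG_sound parWF r2 pf16967 h16967
  have h16969 := checkRangeG_sound parWF r2 pf16968 h16968
  have h16970 := checkRangeG_sound parWF r2 pf16969 h16969
  have h16971 := checkRangeG_sound parWF r2 pf16970 h16970
  have h16972 := checkRangeG_sound parWF r2 pf16971 h16971
  have h16973 := checkRangeG_sound parWF r2 pf16972 h16972
  have h16974 := checkRangeG_sound parWF r2 pf16973 h16973
  have h16975 := checkRangeG_sound parWF r2 pf16974 h16974
  have h16976 := checkRangeG_sound parWF r2 pf16975 h16975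
  have h16977 := checkRangeG_sound parWF r2 pf16976 h16976
  have h16978 := checkRangeG_sound parWF r2 pf16977 h16977
  have h16979 := checkRangeG_sound parWF r2 pf16978 h16978
  have h16980 := checkRangeG_sound parWF r2 pf16979 h16979
  have h16981 := checkRangeG_sound parWF r2 pf16980 h16980
  have h16982 := checkRangeG_sound parWF r2 pf16981 h16981
  have h16983 := checkRangeG_sound parWF r2 pf16982 h16982
  have h16984 := checkRangeG_sound parWF r2 pf16983 h16983
  have h16985 := checkRangeG_sound parWF r2 pf16984 h16984
  have h16986 := checkRangeG_sound parWF r2 pf16985 h16985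
  have h16987 := checkRangeG_sound parWF r2 pf16986 h16986
  have h16988 := checkRangeG_sound parWF r2 pf16987 h16987
  have h16989 := checkRangeG_sound parWF r2 pf16988 h16988
  have h16990 := checkRangeG_sound parWF r2 pf16989 h16989
  have h16991 := checkRangeG_sound parWF r2 pf16990 h16990
  have h16992 := checkRangeG_sound parWF r2 pf16991 h16991
  have h16993 := checkRangeG_sound parWF r2 pf16992 h16992
  have h16994 := checkRangeG_sound parWF r2 pf16993 h16993
  have h16995 := checkRangeG_sound parWF r2 pf16994 h16994
  have h16996 := checkRangeG_sound parWF r2 pf16995 h16995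
  have h16997 := checkRangeG_sound parWF r2 pf16996 h16996
  have h16998 := checkRangeG_sound parWF r2 pf16997 h16997
  have h16999 := checkRangeG_sound parWF r2 pf16998 h16998
  have h17000 := checkRangeG_sound parWF r2 pf16999 h16999
  exact h17000

theorem c340 (h17000 : ∀ j, j < 53053 → GoodG.{u} par (db j)) : ∀ j, j < 53195 → GoodG.{u} par (db j) := by
  have h17001 := checkRangeG_sound parWF r2 pf17000 h17000
  have h17002 := checkRangeG_sound parWF r2 pf17001 h17001
  have h17003 := checkRangeG_sound parWF r2 pf17002 h17002
  have h17004 := checkRangeG_sound parWF r2 pf17003 h17003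
  have h17005 := checkRangeG_sound parWF r2 pf17004 h17004
  have h17006 := checkRangeG_sound parWF r2 pf17005 h17005
  have h17007 := checkRangeG_sound parWF r2 pf17006 h17006
  have h17008 := checkRangeG_sound parWF r2 pf17007 h17007
  have h17009 := checkRangeG_sound parWF r2 pf17008 h17008
  have h17010 := checkRangeG_sound parWF r2 pf17009 h17009
  have h17011 := checkRangeG_sound parWF r2 pf17010 h17010
  have h17012 := checkRangeG_sound parWF r2 pf17011 h17011
  have h17013 := checkRangeG_sound parWF r2 pf17012 h17012
  have h17014 := checkRangeG_sound parWF r2 pf17013 h17013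
  have h17015 := checkRangeG_sound parWF r2 pf17014 h17014
  have h17016 := checkRangeG_sound parWF r2 pf17015 h17015
  have h17017 := checkRangeG_sound parWF r2 pf17016 h17016
  have h17018 := checkRangeG_sound parWF r2 pf17017 h17017
  have h17019 := checkRangeG_sound parWF r2 pf17018 h17018
  have h17020 := checkRangeG_sound parWF r2 pf17019 h17019
  have h17021 := checkRangeG_sound parWF r2 pf17020 h17020
  have h17022 := checkRangeG_sound parWF r2 pf17021 h17021
  have h17023 := checkRangeG_sound parWF r2 pf17022 h17022
  have h17024 := checkRangeG_sound parWF r2 pf17023 h17023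
  have h17025 := checkRangeG_sound parWF r2 pf17024 h17024
  have h17026 := checkRangeG_sound parWF r2 pf17025 h17025
  have h17027 := checkRangeG_sound parWF r2 pf17026 h17026
  have h17028 := checkRangeG_sound parWF r2 pf17027 h17027
  have h17029 := checkRangeG_sound parWF r2 pf17028 h17028
  have h17030 := checkRangeG_sound parWF r2 pf17029 h17029
  have h17031 := checkRangeG_sound parWF r2 pf17030 h17030
  have h17032 := checkRangeG_sound parWF r2 pf17031 h17031
  have h17033 := checkRangeG_sound parWF r2 pf17032 h17032
  have h17034 := checkRangeG_sound parWF r2 pf17033 h17033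
  have h17035 := checkRangeG_sound parWF r2 pf17034 h17034
  have h17036 := checkRangeG_sound parWF r2 pf17035 h17035
  have h17037 := checkRangeG_sound parWF r2 pf17036 h17036
  have h17038 := checkRangeG_sound parWF r2 pf17037 h17037
  have h17039 := checkRangeG_sound parWF r2 pf17038 h17038
  have h17040 := checkRangeG_sound parWF r2 pf17039 h17039
  have h17041 := checkRangeG_sound parWF r2 pf17040 h17040
  have h17042 := checkRangeG_sound parWF r2 pf17041 h17041
  have h17043 := checkRangeG_sound parWF r2 pf17042 h17042
  have h17044 := checkRangeG_sound parWF r2 pf17043 h17043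
  have h17045 := checkRangeG_sound parWF r2 pf17044 h17044
  have h17046 := checkRangeG_sound parWF r2 pf17045 h17045
  have h17047 := checkRangeG_sound parWF r2 pf17046 h17046
  have h17048 := checkRangeG_sound parWF r2 pf17047 h17047
  have h17049 := checkRangeG_sound parWF r2 pf17048 h17048
  have h17050 := checkRangeG_sound parWF r2 pf17049 h17049
  exact h17050

theorem c341 (h17050 : ∀ j, j < 53195 → GoodG.{u} par (db j)) : ∀ j, j < 53356 → GoodG.{u} par (db j) := by
  have h17051 := checkRangeG_sound parWF r2 pf17050 h17050
  have h17052 := checkRangeG_sound parWF r2 pf17051 h17051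
  have h17053 := checkRangeG_sound parWF r2 pf17052 h17052
  have h17054 := checkRangeG_sound parWF r2 pf17053 h17053
  have h17055 := checkRangeG_sound parWF r2 pf17054 h17054
  have h17056 := checkRangeG_sound parWF r2 pf17055 h17055
  have h17057 := checkRangeG_sound parWF r2 pf17056 h17056
  have h17058 := checkRangeG_sound parWF r2 pf17057 h17057
  have h17059 := checkRangeG_sound parWF r2 pf17058 h17058
  have h17060 := checkRangeG_sound parWF r2 pf17059 h17059
  have h17061 := checkRangeG_sound parWF r2 pf17060 h17060
  have h17062 := checkRangeG_sound parWF r2 pf17061 h17061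
  have h17063 := checkRangeG_sound parWF r2 pf17062 h17062
  have h17064 := checkRangeG_sound parWF r2 pf17063 h17063
  have h17065 := checkRangeG_sound parWF r2 pf17064 h17064
  have h17066 := checkRangeG_sound parWF r2 pf17065 h17065
  have h17067 := checkRangeG_sound parWF r2 pf17066 h17066
  have h17068 := checkRangeG_sound parWF r2 pf17067 h17067
  have h17069 := checkRangeG_sound parWF r2 pf17068 h17068
  have h17070 := checkRangeG_sound parWF r2 pf17069 h17069
  have h17071 := checkRangeG_sound parWF r2 pf17070 h17070
  have h17072 := checkRangeG_sound parWF r2 pf17071 h17071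
  have h17073 := checkRangeG_sound parWF r2 pf17072 h17072
  have h17074 := checkRangeG_sound parWF r2 pf17073 h17073
  have h17075 := checkRangeG_sound parWF r2 pf17074 h17074
  have h17076 := checkRangeG_sound parWF r2 pf17075 h17075
  have h17077 := checkRangeG_sound parWF r2 pf17076 h17076
  have h17078 := checkRangeG_sound parWF r2 pf17077 h17077
  have h17079 := checkRangeG_sound parWF r2 pf17078 h17078
  have h17080 := checkRangeG_sound parWF r2 pf17079 h17079
  have h17081 := checkRangeG_sound parWF r2 pf17080 h17080
  have h17082 := checkRangeG_sound parWF r2 pf17081 h17081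
  have h17083 := checkRangeG_sound parWF r2 pf17082 h17082
  have h17084 := checkRangeG_sound parWF r2 pf17083 h17083
  have h17085 := checkRangeG_sound parWF r2 pf17084 h17084
  have h17086 := checkRangeG_sound parWF r2 pf17085 h17085
  have h17087 := checkRangeG_sound parWF r2 pf17086 h17086
  have h17088 := checkRangeG_sound parWF r2 pf17087 h17087
  have h17089 := checkRangeG_sound parWF r2 pf17088 h17088
  have h17090 := checkRangeG_sound parWF r2 pf17089 h17089
  have h17091 := checkRangeG_sound parWF r2 pf17090 h17090
  have h17092 := checkRangeG_sound parWF r2 pf17091 h17091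
  have h17093 := checkRangeG_sound parWF r2 pf17092 h17092
  have h17094 := checkRangeG_sound parWF r2 pf17093 h17093
  have h17095 := checkRangeG_sound parWF r2 pf17094 h17094
  have h17096 := checkRangeG_sound parWF r2 pf17095 h17095
  have h17097 := checkRangeG_sound parWF r2 pf17096 h17096
  have h17098 := checkRangeG_sound parWF r2 pf17097 h17097
  have h17099 := checkRangeG_sound parWF r2 pf17098 h17098
  have h17100 := checkRangeG_sound parWF r2 pf17099 h17099
  exact h17100

theorem c342 (h17100 : ∀ j, j < 53356 → GoodG.{u} par (db j)) : ∀ j, j < 53497 → GoodG.{u} par (db j) := by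
  have h17101 := checkRangeG_sound parWF r2 pf17100 h17100
  have h17102 := checkRangeG_sound parWF r2 pf17101 h17101
  have h17103 := checkRangeG_sound parWF r2 pf17102 h17102
  have h17104 := checkRangeG_sound parWF r2 pf17103 h17103
  have h17105 := checkRangeG_sound parWF r2 pf17104 h17104
  have h17106 := checkRangeG_sound parWF r2 pf17105 h17105
  have h17107 := checkRangeG_sound parWF r2 pf17106 h17106
  have h17108 := checkRangeG_sound parWF r2 pf17107 h17107
  have h17109 := checkRangeG_sound parWF r2 pf17108 h17108
  have h17110 := checkRangeG_sound parWF r2 pf17109 h17109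
  have h17111 := checkRangeG_sound parWF r2 pf17110 h17110
  have h17112 := checkRangeG_sound parWF r2 pf17111 h17111
  have h17113 := checkRangeG_sound parWF r2 pf17112 h17112
  have h17114 := checkRangeG_sound parWF r2 pf17113 h17113
  have h17115 := checkRangeG_sound parWF r2 pf17114 h17114
  have h17116 := checkRangeG_sound parWF r2 pf17115 h17115
  have h17117 := checkRangeG_sound parWF r2 pf17116 h17116
  have h17118 := checkRangeG_sound parWF r2 pf17117 h17117
  have h17119 := checkRangeG_sound parWF r2 pf17118 h17118
  have h17120 := checkRangeG_sound parWF r2 pf17119 h17119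
  have h17121 := checkRangeG_sound parWF r2 pf17120 h17120
  have h17122 := checkRangeG_sound parWF r2 pf17121 h17121
  have h17123 := checkRangeG_sound parWF r2 pf17122 h17122
  have h17124 := checkRangeG_sound parWF r2 pf17123 h17123
  have h17125 := checkRangeG_sound parWF r2 pf17124 h17124
  have h17126 := checkRangeG_sound parWF r2 pf17125 h17125
  have h17127 := checkRangeG_sound parWF r2 pf17126 h17126
  have h17128 := checkRangeG_sound parWF r2 pf17127 h17127
  have h17129 := checkRangeG_sound parWF r2 pf17128 h17128
  have h17130 := checkRangeG_sound parWF r2 pf17129 h17129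
  have h17131 := checkRangeG_sound parWF r2 pf17130 h17130
  have h17132 := checkRangeG_sound parWF r2 pf17131 h17131
  have h17133 := checkRangeG_sound parWF r2 pf17132 h17132
  have h17134 := checkRangeG_sound parWF r2 pf17133 h17133
  have h17135 := checkRangeG_sound parWF r2 pf17134 h17134
  have h17136 := checkRangeG_sound parWF r2 pf17135 h17135
  have h17137 := checkRangeG_sound parWF r2 pf17136 h17136
  have h17138 := checkRangeG_sound parWF r2 pf17137 h17137
  have h17139 := checkRangeG_sound parWF r2 pf17138 h17138
  have h17140 := checkRangeG_sound parWF r2 pf17139 h17139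
  have h17141 := checkRangeG_sound parWF r2 pf17140 h17140
  have h17142 := checkRangeG_sound parWF r2 pf17141 h17141
  have h17143 := checkRangeG_sound parWF r2 pf17142 h17142
  have h17144 := checkRangeG_sound parWF r2 pf17143 h17143
  have h17145 := checkRangeG_sound parWF r2 pf17144 h17144
  have h17146 := checkRangeG_sound parWF r2 pf17145 h17145
  have h17147 := checkRangeG_sound parWF r2 pf17146 h17146
  have h17148 := checkRangeG_sound parWF r2 pf17147 h17147
  have h17149 := checkRangeG_sound parWF r2 pf17148 h17148
  have h17150 := checkRangeG_sound parWF r2 pf17149 h17149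
  exact h17150

theorem c343 (h17150 : ∀ j, j < 53497 → GoodG.{u} par (db j)) : ∀ j, j < 53652 → GoodG.{u} par (db j) := by
  have h17151 := checkRangeG_sound parWF r2 pf17150 h17150
  have h17152 := checkRangeG_sound parWF r2 pf17151 h17151
  have h17153 := checkRangeG_sound parWF r2 pf17152 h17152
  have h17154 := checkRangeG_sound parWF r2 pf17153 h17153
  have h17155 := checkRangeG_sound parWF r2 pf17154 h17154
  have h17156 := checkRangeG_sound parWF r2 pf17155 h17155
  have h17157 := checkRangeG_sound parWF r2 pf17156 h17156
  have h17158 := checkRangeG_sound parWF r2 pf17157 h17157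
  have h17159 := checkRangeG_sound parWF r2 pf17158 h17158
  have h17160 := checkRangeG_sound parWF r2 pf17159 h17159
  have h17161 := checkRangeG_sound parWF r2 pf17160 h17160
  have h17162 := checkRangeG_sound parWF r2 pf17161 h17161
  have h17163 := checkRangeG_sound parWF r2 pf17162 h17162
  have h17164 := checkRangeG_sound parWF r2 pf17163 h17163
  have h17165 := checkRangeG_sound parWF r2 pf17164 h17164
  have h17166 := checkRangeG_sound parWF r2 pf17165 h17165
  have h17167 := checkRangeG_sound parWF r2 pf17166 h17166
  have h17168 := checkRangeG_sound parWF r2 pf17167 h17167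
  have h17169 := checkRangeG_sound parWF r2 pf17168 h17168
  have h17170 := checkRangeG_sound parWF r2 pf17169 h17169
  have h17171 := checkRangeG_sound parWF r2 pf17170 h17170
  have h17172 := checkRangeG_sound parWF r2 pf17171 h17171
  have h17173 := checkRangeG_sound parWF r2 pf17172 h17172
  have h17174 := checkRangeG_sound parWF r2 pf17173 h17173
  have h17175 := checkRangeG_sound parWF r2 pf17174 h17174
  have h17176 := checkRangeG_sound parWF r2 pf17175 h17175
  have h17177 := checkRangeG_sound parWF r2 pf17176 h17176
  have h17178 := checkRangeG_sound parWF r2 pf17177 h17177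
  have h17179 := checkRangeG_sound parWF r2 pf17178 h17178
  have h17180 := checkRangeG_sound parWF r2 pf17179 h17179
  have h17181 := checkRangeG_sound parWF r2 pf17180 h17180
  have h17182 := checkRangeG_sound parWF r2 pf17181 h17181
  have h17183 := checkRangeG_sound parWF r2 pf17182 h17182
  have h17184 := checkRangeG_sound parWF r2 pf17183 h17183
  have h17185 := checkRangeG_sound parWF r2 pf17184 h17184
  have h17186 := checkRangeG_sound parWF r2 pf17185 h17185
  have h17187 := checkRangeG_sound parWF r2 pf17186 h17186
  have h17188 := checkRangeG_sound parWF r2 pf17187 h17187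
  have h17189 := checkRangeG_sound parWF r2 pf17188 h17188
  have h17190 := checkRangeG_sound parWF r2 pf17189 h17189
  have h17191 := checkRangeG_sound parWF r2 pf17190 h17190
  have h17192 := checkRangeG_sound parWF r2 pf17191 h17191
  have h17193 := checkRangeG_sound parWF r2 pf17192 h17192
  have h17194 := checkRangeG_sound parWF r2 pf17193 h17193
  have h17195 := checkRangeG_sound parWF r2 pf17194 h17194
  have h17196 := checkRangeG_sound parWF r2 pf17195 h17195
  have h17197 := checkRangeG_sound parWF r2 pf17196 h17196
  have h17198 := checkRangeG_sound parWF r2 pf17197 h17197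
  have h17199 := checkRangeG_sound parWF r2 pf17198 h17198
  have h17200 := checkRangeG_sound parWF r2 pf17199 h17199
  exact h17200

theorem c344 (h17200 : ∀ j, j < 53652 → GoodG.{u} par (db j)) : ∀ j, j < 53797 → GoodG.{u} par (db j) := by
  have h17201 := checkRangeG_sound parWF r2 pf17200 h17200
  have h17202 := checkRangeG_sound parWF r2 pf17201 h17201
  have h17203 := checkRangeG_sound parWF r2 pf17202 h17202
  have h17204 := checkRangeG_sound parWF r2 pf17203 h17203
  have h17205 := checkRangeG_sound parWF r2 pf17204 h17204
  have h17206 := checkRangeG_sound parWF r2 pf17205 h17205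
  have h17207 := checkRangeG_sound parWF r2 pf17206 h17206
  have h17208 := checkRangeG_sound parWF r2 pf17207 h17207
  have h17209 := checkRangeG_sound parWF r2 pf17208 h17208
  have h17210 := checkRangeG_sound parWF r2 pf17209 h17209
  have h17211 := checkRangeG_sound parWF r2 pf17210 h17210
  have h17212 := checkRangeG_sound parWF r2 pf17211 h17211
  have h17213 := checkRangeG_sound parWF r2 pf17212 h17212
  have h17214 := checkRangeG_sound parWF r2 pf17213 h17213
  have h17215 := checkRangeG_sound parWF r2 pf17214 h17214
  have h17216 := checkRangeG_sound parWF r2 pf17215 h17215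
  have h17217 := checkRangeG_sound parWF r2 pf17216 h17216
  have h17218 := checkRangeG_sound parWF r2 pf17217 h17217
  have h17219 := checkRangeG_sound parWF r2 pf17218 h17218
  have h17220 := checkRangeG_sound parWF r2 pf17219 h17219
  have h17221 := checkRangeG_sound parWF r2 pf17220 h17220
  have h17222 := checkRangeG_sound parWF r2 pf17221 h17221
  have h17223 := checkRangeG_sound parWF r2 pf17222 h17222
  have h17224 := checkRangeG_sound parWF r2 pf17223 h17223
  have h17225 := checkRangeG_sound parWF r2 pf17224 h17224
  have h17226 := checkRangeG_sound parWF r2 pf17225 h17225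
  have h17227 := checkRangeG_sound parWF r2 pf17226 h17226
  have h17228 := checkRangeG_sound parWF r2 pf17227 h17227
  have h17229 := checkRangeG_sound parWF r2 pf17228 h17228
  have h17230 := checkRangeG_sound parWF r2 pf17229 h17229
  have h17231 := checkRangeG_sound parWF r2 pf17230 h17230
  have h17232 := checkRangeG_sound parWF r2 pf17231 h17231
  have h17233 := checkRangeG_sound parWF r2 pf17232 h17232
  have h17234 := checkRangeG_sound parWF r2 pf17233 h17233
  have h17235 := checkRangeG_sound parWF r2 pf17234 h17234
  have h17236 := checkRangeG_sound parWF r2 pf17235 h17235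
  have h17237 := checkRangeG_sound parWF r2 pf17236 h17236
  have h17238 := checkRangeG_sound parWF r2 pf17237 h17237
  have h17239 := checkRangeG_sound parWF r2 pf17238 h17238
  have h17240 := checkRangeG_sound parWF r2 pf17239 h17239
  have h17241 := checkRangeG_sound parWF r2 pf17240 h17240
  have h17242 := checkRangeG_sound parWF r2 pf17241 h17241
  have h17243 := checkRangeG_sound parWF r2 pf17242 h17242
  have h17244 := checkRangeG_sound parWF r2 pf17243 h17243
  have h17245 := checkRangeG_sound parWF r2 pf17244 h17244
  have h17246 := checkRangeG_sound parWF r2 pf17245 h17245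
  have h17247 := checkRangeG_sound parWF r2 pf17246 h17246
  have h17248 := checkRangeG_sound parWF r2 pf17247 h17247
  have h17249 := checkRangeG_sound parWF r2 pf17248 h17248
  have h17250 := checkRangeG_sound parWF r2 pf17249 h17249
  exact h17250

theorem c345 (h17250 : ∀ j, j < 53797 → GoodG.{u} par (db j)) : ∀ j, j < 53959 → GoodG.{u} par (db j) := by
  have h17251 := checkRangeG_sound parWF r2 pf17250 h17250
  have h17252 := checkRangeG_sound parWF r2 pf17251 h17251
  have h17253 := checkRangeG_sound parWF r2 pf17252 h17252
  have h17254 := checkRangeG_sound parWF r2 pf17253 h17253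
  have h17255 := checkRangeG_sound parWF r2 pf17254 h17254
  have h17256 := checkRangeG_sound parWF r2 pf17255 h17255
  have h17257 := checkRangeG_sound parWF r2 pf17256 h17256
  have h17258 := checkRangeG_sound parWF r2 pf17257 h17257
  have h17259 := checkRangeG_sound parWF r2 pf17258 h17258
  have h17260 := checkRangeG_sound parWF r2 pf17259 h17259
  have h17261 := checkRangeG_sound parWF r2 pf17260 h17260
  have h17262 := checkRangeG_sound parWF r2 pf17261 h17261
  have h17263 := checkRangeG_sound parWF r2 pf17262 h17262
  have h17264 := checkRangeG_sound parWF r2 pf17263 h17263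
  have h17265 := checkRangeG_sound parWF r2 pf17264 h17264
  have h17266 := checkRangeG_sound parWF r2 pf17265 h17265
  have h17267 := checkRangeG_sound parWF r2 pf17266 h17266
  have h17268 := checkRangeG_sound parWF r2 pf17267 h17267
  have h17269 := checkRangeG_sound parWF r2 pf17268 h17268
  have h17270 := checkRangeG_sound parWF r2 pf17269 h17269
  have h17271 := checkRangeG_sound parWF r2 pf17270 h17270
  have h17272 := checkRangeG_sound parWF r2 pf17271 h17271
  have h17273 := checkRangeG_sound parWF r2 pf17272 h17272
  have h17274 := checkRangeG_sound parWF r2 pf17273 h17273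
  have h17275 := checkRangeG_sound parWF r2 pf17274 h17274
  have h17276 := checkRangeG_sound parWF r2 pf17275 h17275
  have h17277 := checkRangeG_sound parWF r2 pf17276 h17276
  have h17278 := checkRangeG_sound parWF r2 pf17277 h17277
  have h17279 := checkRangeG_sound parWF r2 pf17278 h17278
  have h17280 := checkRangeG_sound parWF r2 pf17279 h17279
  have h17281 := checkRangeG_sound parWF r2 pf17280 h17280
  have h17282 := checkRangeG_sound parWF r2 pf17281 h17281
  have h17283 := checkRangeG_sound parWF r2 pf17282 h17282
  have h17284 := checkRangeG_sound parWF r2 pf17283 h17283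
  have h17285 := checkRangeG_sound parWF r2 pf17284 h17284
  have h17286 := checkRangeG_sound parWF r2 pf17285 h17285
  have h17287 := checkRangeG_sound parWF r2 pf17286 h17286
  have h17288 := checkRangeG_sound parWF r2 pf17287 h17287
  have h17289 := checkRangeG_sound parWF r2 pf17288 h17288
  have h17290 := checkRangeG_sound parWF r2 pf17289 h17289
  have h17291 := checkRangeG_sound parWF r2 pf17290 h17290
  have h17292 := checkRangeG_sound parWF r2 pf17291 h17291
  have h17293 := checkRangeG_sound parWF r2 pf17292 h17292
  have h17294 := checkRangeG_sound parWF r2 pf17293 h17293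
  have h17295 := checkRangeG_sound parWF r2 pf17294 h17294
  have h17296 := checkRangeG_sound parWF r2 pf17295 h17295
  have h17297 := checkRangeG_sound parWF r2 pf17296 h17296
  have h17298 := checkRangeG_sound parWF r2 pf17297 h17297
  have h17299 := checkRangeG_sound parWF r2 pf17298 h17298
  have h17300 := checkRangeG_sound parWF r2 pf17299 h17299
  exact h17300

theorem c346 (h17300 : ∀ j, j < 53959 → GoodG.{u} par (db j)) : ∀ j, j < 54144 → GoodG.{u} par (db j) := by
  have h17301 := checkRangeG_sound parWF r2 pf17300 h17300
  have h17302 := checkRangeG_sound parWF r2 pf17301 h17301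
  have h17303 := checkRangeG_sound parWF r2 pf17302 h17302
  have h17304 := checkRangeG_sound parWF r2 pf17303 h17303
  have h17305 := checkRangeG_sound parWF r2 pf17304 h17304
  have h17306 := checkRangeG_sound parWF r2 pf17305 h17305
  have h17307 := checkRangeG_sound parWF r2 pf17306 h17306
  have h17308 := checkRangeG_sound parWF r2 pf17307 h17307
  have h17309 := checkRangeG_sound parWF r2 pf17308 h17308
  have h17310 := checkRangeG_sound parWF r2 pf17309 h17309
  have h17311 := checkRangeG_sound parWF r2 pf17310 h17310
  have h17312 := checkRangeG_sound parWF r2 pf17311 h17311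
  have h17313 := checkRangeG_sound parWF r2 pf17312 h17312
  have h17314 := checkRangeG_sound parWF r2 pf17313 h17313
  have h17315 := checkRangeG_sound parWF r2 pf17314 h17314
  have h17316 := checkRangeG_sound parWF r2 pf17315 h17315
  have h17317 := checkRangeG_sound parWF r2 pf17316 h17316
  have h17318 := checkRangeG_sound parWF r2 pf17317 h17317
  have h17319 := checkRangeG_sound parWF r2 pf17318 h17318
  have h17320 := checkRangeG_sound parWF r2 pf17319 h17319
  have h17321 := checkRangeG_sound parWF r2 pf17320 h17320
  have h17322 := checkRangeG_sound parWF r2 pf17321 h17321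
  have h17323 := checkRangeG_sound parWF r2 pf17322 h17322
  have h17324 := checkRangeG_sound parWF r2 pf17323 h17323
  have h17325 := checkRangeG_sound parWF r2 pf17324 h17324
  have h17326 := checkRangeG_sound parWF r2 pf17325 h17325
  have h17327 := checkRangeG_sound parWF r2 pf17326 h17326
  have h17328 := checkRangeG_sound parWF r2 pf17327 h17327
  have h17329 := checkRangeG_sound parWF r2 pf17328 h17328
  have h17330 := checkRangeG_sound parWF r2 pf17329 h17329
  have h17331 := checkRangeG_sound parWF r2 pf17330 h17330
  have h17332 := checkRangeG_sound parWF r2 pf17331 h17331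
  have h17333 := checkRangeG_sound parWF r2 pf17332 h17332
  have h17334 := checkRangeG_sound parWF r2 pf17333 h17333
  have h17335 := checkRangeG_sound parWF r2 pf17334 h17334
  have h17336 := checkRangeG_sound parWF r2 pf17335 h17335
  have h17337 := checkRangeG_sound parWF r2 pf17336 h17336
  have h17338 := checkRangeG_sound parWF r2 pf17337 h17337
  have h17339 := checkRangeG_sound parWF r2 pf17338 h17338
  have h17340 := checkRangeG_sound parWF r2 pf17339 h17339
  have h17341 := checkRangeG_sound parWF r2 pf17340 h17340
  have h17342 := checkRangeG_sound parWF r2 pf17341 h17341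
  have h17343 := checkRangeG_sound parWF r2 pf17342 h17342
  have h17344 := checkRangeG_sound parWF r2 pf17343 h17343
  have h17345 := checkRangeG_sound parWF r2 pf17344 h17344
  have h17346 := checkRangeG_sound parWF r2 pf17345 h17345
  have h17347 := checkRangeG_sound parWF r2 pf17346 h17346
  have h17348 := checkRangeG_sound parWF r2 pf17347 h17347
  have h17349 := checkRangeG_sound parWF r2 pf17348 h17348
  have h17350 := checkRangeG_sound parWF r2 pf17349 h17349
  exact h17350

theorem c347 (h17350 : ∀ j, j < 54144 → GoodG.{u} par (db j)) : ∀ j, j < 54302 → GoodG.{u} par (db j) := by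
  have h17351 := checkRangeG_sound parWF r2 pf17350 h17350
  have h17352 := checkRangeG_sound parWF r2 pf17351 h17351
  have h17353 := checkRangeG_sound parWF r2 pf17352 h17352
  have h17354 := checkRangeG_sound parWF r2 pf17353 h17353
  have h17355 := checkRangeG_sound parWF r2 pf17354 h17354
  have h17356 := checkRangeG_sound parWF r2 pf17355 h17355
  have h17357 := checkRangeG_sound parWF r2 pf17356 h17356
  have h17358 := checkRangeG_sound parWF r2 pf17357 h17357
  have h17359 := checkRangeG_sound parWF r2 pf17358 h17358
  have h17360 := checkRangeG_sound parWF r2 pf17359 h17359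
  have h17361 := checkRangeG_sound parWF r2 pf17360 h17360
  have h17362 := checkRangeG_sound parWF r2 pf17361 h17361
  have h17363 := checkRangeG_sound parWF r2 pf17362 h17362
  have h17364 := checkRangeG_sound parWF r2 pf17363 h17363
  have h17365 := checkRangeG_sound parWF r2 pf17364 h17364
  have h17366 := checkRangeG_sound parWF r2 pf17365 h17365
  have h17367 := checkRangeG_sound parWF r2 pf17366 h17366
  have h17368 := checkRangeG_sound parWF r2 pf17367 h17367
  have h17369 := checkRangeG_sound parWF r2 pf17368 h17368
  have h17370 := checkRangeG_sound parWF r2 pf17369 h17369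
  have h17371 := checkRangeG_sound parWF r2 pf17370 h17370
  have h17372 := checkRangeG_sound parWF r2 pf17371 h17371
  have h17373 := checkRangeG_sound parWF r2 pf17372 h17372
  have h17374 := checkRangeG_sound parWF r2 pf17373 h17373
  have h17375 := checkRangeG_sound parWF r2 pf17374 h17374
  have h17376 := checkRangeG_sound parWF r2 pf17375 h17375
  have h17377 := checkRangeG_sound parWF r2 pf17376 h17376
  have h17378 := checkRangeG_sound parWF r2 pf17377 h17377
  have h17379 := checkRangeG_sound parWF r2 pf17378 h17378
  have h17380 := checkRangeG_sound parWF r2 pf17379 h17379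
  have h17381 := checkRangeG_sound parWF r2 pf17380 h17380
  have h17382 := checkRangeG_sound parWF r2 pf17381 h17381
  have h17383 := checkRangeG_sound parWF r2 pf17382 h17382
  have h17384 := checkRangeG_sound parWF r2 pf17383 h17383
  have h17385 := checkRangeG_sound parWF r2 pf17384 h17384
  have h17386 := checkRangeG_sound parWF r2 pf17385 h17385
  have h17387 := checkRangeG_sound parWF r2 pf17386 h17386
  have h17388 := checkRangeG_sound parWF r2 pf17387 h17387
  have h17389 := checkRangeG_sound parWF r2 pf17388 h17388
  have h17390 := checkRangeG_sound parWF r2 pf17389 h17389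
  have h17391 := checkRangeG_sound parWF r2 pf17390 h17390
  have h17392 := checkRangeG_sound parWF r2 pf17391 h17391
  have h17393 := checkRangeG_sound parWF r2 pf17392 h17392
  have h17394 := checkRangeG_sound parWF r2 pf17393 h17393
  have h17395 := checkRangeG_sound parWF r2 pf17394 h17394
  have h17396 := checkRangeG_sound parWF r2 pf17395 h17395
  have h17397 := checkRangeG_sound parWF r2 pf17396 h17396
  have h17398 := checkRangeG_sound parWF r2 pf17397 h17397
  have h17399 := checkRangeG_sound parWF r2 pf17398 h17398
  have h17400 := checkRangeG_sound parWF r2 pf17399 h17399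
  exact h17400


end Vale.Agent.P045g.C61
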