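import Vale.Agent.P045g.C61.WF
import Vale.Agent.P045g.C61.Pf290
import Vale.Agent.P045g.C61.Pf291
import Vale.Agent.P045g.C61.Pf292
import Vale.Agent.P045g.C61.Pf293
import Vale.Agent.P045g.C61.Pf294
import Vale.Agent.P045g.C61.Pf295
import Vale.Agent.P045g.C61.Pf296
import Vale.Agent.P045g.C61.Pf297
import Vale.Agent.P045g.C61.Pf298
import Vale.Agent.P045g.C61.Pf299

namespace Vale.Agent.P045g.C61

open Vale.Agent.P045b Vale.Agent.P045g

universe u

theorem c348 (h17400 : ∀ j, j < 54302 → GoodG.{u} par (db j)) : ∀ j, j < 54480 → GoodG.{u} par (db j) := by
  have h17401 := checkRangeG_sound parWF r2 pf17400 h17400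
  have h17402 := checkRangeG_sound parWF r2 pf17401 h17401
  have h17403 := checkRangeG_sound parWF r2 pf17402 h17402
  have h17404 := checkRangeG_sound parWF r2 pf17403 h17403
  have h17405 := checkRangeG_sound parWF r2 pf17404 h17404
  have h17406 := checkRangeG_sound parWF r2 pf17405 h17405
  have h17407 := checkRangeG_sound parWF r2 pf17406 h17406
  have h17408 := checkRangeG_sound parWF r2 pf17407 h17407
  have h17409 := checkRangeG_sound parWF r2 pf17408 h17408
  have h17410 := checkRangeG_sound parWF r2 pf17409 h17409
  have h17411 := checkRangeG_sound parWF r2 pf17410 h17410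
  have h17412 := checkRangeG_sound parWF r2 pf17411 h17411
  have h17413 := checkRangeG_sound parWF r2 pf17412 h17412
  have h17414 := checkRangeG_sound parWF r2 pf17413 h17413
  have h17415 := checkRangeG_sound parWF r2 pf17414 h17414
  have h17416 := checkRangeG_sound parWF r2 pf17415 h17415
  have h17417 := checkRangeG_sound parWF r2 pf17416 h17416
  have h17418 := checkRangeG_sound parWF r2 pf17417 h17417
  have h17419 := checkRangeG_sound parWF r2 pf17418 h17418
  have h17420 := checkRangeG_sound parWF r2 pf17419 h17419
  have h17421 := checkRangeG_sound parWF r2 pf17420 h17420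
  have h17422 := checkRangeG_sound parWF r2 pf17421 h17421
  have h17423 := checkRangeG_sound parWF r2 pf17422 h17422
  have h17424 := checkRangeG_sound parWF r2 pf17423 h17423
  have h17425 := checkRangeG_sound parWF r2 pf17424 h17424
  have h17426 := checkRangeG_sound parWF r2 pf17425 h17425
  have h17427 := checkRangeG_sound parWF r2 pf17426 h17426
  have h17428 := checkRangeG_sound parWF r2 pf17427 h17427
  have h17429 := checkRangeG_sound parWF r2 pf17428 h17428
  have h17430 := checkRangeG_sound parWF r2 pf17429 h17429
  have h17431 := checkRangeG_sound parWF r2 pf17430 h17430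
  have h17432 := checkRangeG_sound parWF r2 pf17431 h17431
  have h17433 := checkRangeG_sound parWF r2 pf17432 h17432
  have h17434 := checkRangeG_sound parWF r2 pf17433 h17433
  have h17435 := checkRangeG_sound parWF r2 pf17434 h17434
  have h17436 := checkRangeG_sound parWF r2 pf17435 h17435
  have h17437 := checkRangeG_sound parWF r2 pf17436 h17436
  have h17438 := checkRangeG_sound parWF r2 pf17437 h17437
  have h17439 := checkRangeG_sound parWF r2 pf17438 h17438
  have h17440 := checkRangeG_sound parWF r2 pf17439 h17439
  have h17441 := checkRangeG_sound parWF r2 pf17440 h17440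
  have h17442 := checkRangeG_sound parWF r2 pf17441 h17441
  have h17443 := checkRangeG_sound parWF r2 pf17442 h17442
  have h17444 := checkRangeG_sound parWF r2 pf17443 h17443
  have h17445 := checkRangeG_sound parWF r2 pf17444 h17444
  have h17446 := checkRangeG_sound parWF r2 pf17445 h17445
  have h17447 := checkRangeG_sound parWF r2 pf17446 h17446
  have h17448 := checkRangeG_sound parWF r2 pf17447 h17447
  have h17449 := checkRangeG_sound parWF r2 pf17448 h17448
  have h17450 := checkRangeG_sound parWF r2 pf17449 h17449
  exact h17450

theorem c349 (h17450 : ∀ j, j < 54480 → GoodG.{u} par (db j)) : ∀ j, j < 54701 → GoodG.{u} par (db j) := by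
  have h17451 := checkRangeG_sound parWF r2 pf17450 h17450
  have h17452 := checkRangeG_sound parWF r2 pf17451 h17451
  have h17453 := checkRangeG_sound parWF r2 pf17452 h17452
  have h17454 := checkRangeG_sound parWF r2 pf17453 h17453
  have h17455 := checkRangeG_sound parWF r2 pf17454 h17454
  have h17456 := checkRangeG_sound parWF r2 pf17455 h17455
  have h17457 := checkRangeG_sound parWF r2 pf17456 h17456
  have h17458 := checkRangeG_sound parWF r2 pf17457 h17457
  have h17459 := checkRangeG_sound parWF r2 pf17458 h17458
  have h17460 := checkRangeG_sound parWF r2 pf17459 h17459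
  have h17461 := checkRangeG_sound parWF r2 pf17460 h17460
  have h17462 := checkRangeG_sound parWF r2 pf17461 h17461
  have h17463 := checkRangeG_sound parWF r2 pf17462 h17462
  have h17464 := checkRangeG_sound parWF r2 pf17463 h17463
  have h17465 := checkRangeG_sound parWF r2 pf17464 h17464
  have h17466 := checkRangeG_sound parWF r2 pf17465 h17465
  have h17467 := checkRangeG_sound parWF r2 pf17466 h17466
  have h17468 := checkRangeG_sound parWF r2 pf17467 h17467
  have h17469 := checkRangeG_sound parWF r2 pf17468 h17468
  have h17470 := checkRangeG_sound parWF r2 pf17469 h17469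
  have h17471 := checkRangeG_sound parWF r2 pf17470 h17470
  have h17472 := checkRangeG_sound parWF r2 pf17471 h17471
  have h17473 := checkRangeG_sound parWF r2 pf17472 h17472
  have h17474 := checkRangeG_sound parWF r2 pf17473 h17473
  have h17475 := checkRangeG_sound parWF r2 pf17474 h17474
  have h17476 := checkRangeG_sound parWF r2 pf17475 h17475
  have h17477 := checkRangeG_sound parWF r2 pf17476 h17476
  have h17478 := checkRangeG_sound parWF r2 pf17477 h17477
  have h17479 := checkRangeG_sound parWF r2 pf17478 h17478
  have h17480 := checkRangeG_sound parWF r2 pf17479 h17479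
  have h17481 := checkRangeG_sound parWF r2 pf17480 h17480
  have h17482 := checkRangeG_sound parWF r2 pf17481 h17481
  have h17483 := checkRangeG_sound parWF r2 pf17482 h17482
  have h17484 := checkRangeG_sound parWF r2 pf17483 h17483
  have h17485 := checkRangeG_sound parWF r2 pf17484 h17484
  have h17486 := checkRangeG_sound parWF r2 pf17485 h17485
  have h17487 := checkRangeG_sound parWF r2 pf17486 h17486
  have h17488 := checkRangeG_sound parWF r2 pf17487 h17487
  have h17489 := checkRangeG_sound parWF r2 pf17488 h17488
  have h17490 := checkRangeG_sound parWF r2 pf17489 h17489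
  have h17491 := checkRangeG_sound parWF r2 pf17490 h17490
  have h17492 := checkRangeG_sound parWF r2 pf17491 h17491
  have h17493 := checkRangeG_sound parWF r2 pf17492 h17492
  have h17494 := checkRangeG_sound parWF r2 pf17493 h17493
  have h17495 := checkRangeG_sound parWF r2 pf17494 h17494
  have h17496 := checkRangeG_sound parWF r2 pf17495 h17495
  have h17497 := checkRangeG_sound parWF r2 pf17496 h17496
  have h17498 := checkRangeG_sound parWF r2 pf17497 h17497
  have h17499 := checkRangeG_sound parWF r2 pf17498 h17498
  have h17500 := checkRangeG_sound parWF r2 pf17499 h17499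
  exact h17500

theorem c350 (h17500 : ∀ j, j < 54701 → GoodG.{u} par (db j)) : ∀ j, j < 54869 → GoodG.{u} par (db j) := by
  have h17501 := checkRangeG_sound parWF r2 pf17500 h17500
  have h17502 := checkRangeG_sound parWF r2 pf17501 h17501
  have h17503 := checkRangeG_sound parWF r2 pf17502 h17502
  have h17504 := checkRangeG_sound parWF r2 pf17503 h17503
  have h17505 := checkRangeG_sound parWF r2 pf17504 h17504
  have h17506 := checkRangeG_sound parWF r2 pf17505 h17505
  have h17507 := checkRangeG_sound parWF r2 pf17506 h17506
  have h17508 := checkRangeG_sound parWF r2 pf17507 h17507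
  have h17509 := checkRangeG_sound parWF r2 pf17508 h17508
  have h17510 := checkRangeG_sound parWF r2 pf17509 h17509
  have h17511 := checkRangeG_sound parWF r2 pf17510 h17510
  have h17512 := checkRangeG_sound parWF r2 pf17511 h17511
  have h17513 := checkRangeG_sound parWF r2 pf17512 h17512
  have h17514 := checkRangeG_sound parWF r2 pf17513 h17513
  have h17515 := checkRangeG_sound parWF r2 pf17514 h17514
  have h17516 := checkRangeG_sound parWF r2 pf17515 h17515
  have h17517 := checkRangeG_sound parWF r2 pf17516 h17516
  have h17518 := checkRangeG_sound parWF r2 pf17517 h17517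
  have h17519 := checkRangeG_sound parWF r2 pf17518 h17518
  have h17520 := checkRangeG_sound parWF r2 pf17519 h17519
  have h17521 := checkRangeG_sound parWF r2 pf17520 h17520
  have h17522 := checkRangeG_sound parWF r2 pf17521 h17521
  have h17523 := checkRangeG_sound parWF r2 pf17522 h17522
  have h17524 := checkRangeG_sound parWF r2 pf17523 h17523
  have h17525 := checkRangeG_sound parWF r2 pf17524 h17524
  have h17526 := checkRangeG_sound parWF r2 pf17525 h17525
  have h17527 := checkRangeG_sound parWF r2 pf17526 h17526
  have h17528 := checkRangeG_sound parWF r2 pf17527 h17527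
  have h17529 := checkRangeG_sound parWF r2 pf17528 h17528
  have h17530 := checkRangeG_sound parWF r2 pf17529 h17529
  have h17531 := checkRangeG_sound parWF r2 pf17530 h17530
  have h17532 := checkRangeG_sound parWF r2 pf17531 h17531
  have h17533 := checkRangeG_sound parWF r2 pf17532 h17532
  have h17534 := checkRangeG_sound parWF r2 pf17533 h17533
  have h17535 := checkRangeG_sound parWF r2 pf17534 h17534
  have h17536 := checkRangeG_sound parWF r2 pf17535 h17535
  have h17537 := checkRangeG_sound parWF r2 pf17536 h17536
  have h17538 := checkRangeG_sound parWF r2 pf17537 h17537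
  have h17539 := checkRangeG_sound parWF r2 pf17538 h17538
  have h17540 := checkRangeG_sound parWF r2 pf17539 h17539
  have h17541 := checkRangeG_sound parWF r2 pf17540 h17540
  have h17542 := checkRangeG_sound parWF r2 pf17541 h17541
  have h17543 := checkRangeG_sound parWF r2 pf17542 h17542
  have h17544 := checkRangeG_sound parWF r2 pf17543 h17543
  have h17545 := checkRangeG_sound parWF r2 pf17544 h17544
  have h17546 := checkRangeG_sound parWF r2 pf17545 h17545
  have h17547 := checkRangeG_sound parWF r2 pf17546 h17546
  have h17548 := checkRangeG_sound parWF r2 pf17547 h17547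
  have h17549 := checkRangeG_sound parWF r2 pf17548 h17548
  have h17550 := checkRangeG_sound parWF r2 pf17549 h17549
  exact h17550

theorem c351 (h17550 : ∀ j, j < 54869 → GoodG.{u} par (db j)) : ∀ j, j < 55017 → GoodG.{u} par (db j) := by
  have h17551 := checkRangeG_sound parWF r2 pf17550 h17550
  have h17552 := checkRangeG_sound parWF r2 pf17551 h17551
  have h17553 := checkRangeG_sound parWF r2 pf17552 h17552
  have h17554 := checkRangeG_sound parWF r2 pf17553 h17553
  have h17555 := checkRangeG_sound parWF r2 pf17554 h17554
  have h17556 := checkRangeG_sound parWF r2 pf17555 h17555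
  have h17557 := checkRangeG_sound parWF r2 pf17556 h17556
  have h17558 := checkRangeG_sound parWF r2 pf17557 h17557
  have h17559 := checkRangeG_sound parWF r2 pf17558 h17558
  have h17560 := checkRangeG_sound parWF r2 pf17559 h17559
  have h17561 := checkRangeG_sound parWF r2 pf17560 h17560
  have h17562 := checkRangeG_sound parWF r2 pf17561 h17561
  have h17563 := checkRangeG_sound parWF r2 pf17562 h17562
  have h17564 := checkRangeG_sound parWF r2 pf17563 h17563
  have h17565 := checkRangeG_sound parWF r2 pf17564 h17564
  have h17566 := checkRangeG_sound parWF r2 pf17565 h17565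
  have h17567 := checkRangeG_sound parWF r2 pf17566 h17566
  have h17568 := checkRangeG_sound parWF r2 pf17567 h17567
  have h17569 := checkRangeG_sound parWF r2 pf17568 h17568
  have h17570 := checkRangeG_sound parWF r2 pf17569 h17569
  have h17571 := checkRangeG_sound parWF r2 pf17570 h17570
  have h17572 := checkRangeG_sound parWF r2 pf17571 h17571
  have h17573 := checkRangeG_sound parWF r2 pf17572 h17572
  have h17574 := checkRangeG_sound parWF r2 pf17573 h17573
  have h17575 := checkRangeG_sound parWF r2 pf17574 h17574
  have h17576 := checkRangeG_sound parWF r2 pf17575 h17575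
  have h17577 := checkRangeG_sound parWF r2 pf17576 h17576
  have h17578 := checkRangeG_sound parWF r2 pf17577 h17577
  have h17579 := checkRangeG_sound parWF r2 pf17578 h17578
  have h17580 := checkRangeG_sound parWF r2 pf17579 h17579
  have h17581 := checkRangeG_sound parWF r2 pf17580 h17580
  have h17582 := checkRangeG_sound parWF r2 pf17581 h17581
  have h17583 := checkRangeG_sound parWF r2 pf17582 h17582
  have h17584 := checkRangeG_sound parWF r2 pf17583 h17583
  have h17585 := checkRangeG_sound parWF r2 pf17584 h17584
  have h17586 := checkRangeG_sound parWF r2 pf17585 h17585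
  have h17587 := checkRangeG_sound parWF r2 pf17586 h17586
  have h17588 := checkRangeG_sound parWF r2 pf17587 h17587
  have h17589 := checkRangeG_sound parWF r2 pf17588 h17588
  have h17590 := checkRangeG_sound parWF r2 pf17589 h17589
  have h17591 := checkRangeG_sound parWF r2 pf17590 h17590
  have h17592 := checkRangeG_sound parWF r2 pf17591 h17591
  have h17593 := checkRangeG_sound parWF r2 pf17592 h17592
  have h17594 := checkRangeG_sound parWF r2 pf17593 h17593
  have h17595 := checkRangeG_sound parWF r2 pf17594 h17594
  have h17596 := checkRangeG_sound parWF r2 pf17595 h17595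
  have h17597 := checkRangeG_sound parWF r2 pf17596 h17596
  have h17598 := checkRangeG_sound parWF r2 pf17597 h17597
  have h17599 := checkRangeG_sound parWF r2 pf17598 h17598
  have h17600 := checkRangeG_sound parWF r2 pf17599 h17599
  exact h17600

theorem c352 (h17600 : ∀ j, j < 55017 → GoodG.{u} par (db j)) : ∀ j, j < 55176 → GoodG.{u} par (db j) := by
  have h17601 := checkRangeG_sound parWF r2 pf17600 h17600
  have h17602 := checkRangeG_sound parWF r2 pf17601 h17601
  have h17603 := checkRangeG_sound parWF r2 pf17602 h17602
  have h17604 := checkRangeG_sound parWF r2 pf17603 h17603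
  have h17605 := checkRangeG_sound parWF r2 pf17604 h17604
  have h17606 := checkRangeG_sound parWF r2 pf17605 h17605
  have h17607 := checkRangeG_sound parWF r2 pf17606 h17606
  have h17608 := checkRangeG_sound parWF r2 pf17607 h17607
  have h17609 := checkRangeG_sound parWF r2 pf17608 h17608
  have h17610 := checkRangeG_sound parWF r2 pf17609 h17609
  have h17611 := checkRangeG_sound parWF r2 pf17610 h17610
  have h17612 := checkRangeG_sound parWF r2 pf17611 h17611
  have h17613 := checkRangeG_sound parWF r2 pf17612 h17612
  have h17614 := checkRangeG_sound parWF r2 pf17613 h17613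
  have h17615 := checkRangeG_sound parWF r2 pf17614 h17614
  have h17616 := checkRangeG_sound parWF r2 pf17615 h17615
  have h17617 := checkRangeG_sound parWF r2 pf17616 h17616
  have h17618 := checkRangeG_sound parWF r2 pf17617 h17617
  have h17619 := checkRangeG_sound parWF r2 pf17618 h17618
  have h17620 := checkRangeG_sound parWF r2 pf17619 h17619
  have h17621 := checkRangeG_sound parWF r2 pf17620 h17620
  have h17622 := checkRangeG_sound parWF r2 pf17621 h17621
  have h17623 := checkRangeG_sound parWF r2 pf17622 h17622
  have h17624 := checkRangeG_sound parWF r2 pf17623 h17623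
  have h17625 := checkRangeG_sound parWF r2 pf17624 h17624
  have h17626 := checkRangeG_sound parWF r2 pf17625 h17625
  have h17627 := checkRangeG_sound parWF r2 pf17626 h17626
  have h17628 := checkRangeG_sound parWF r2 pf17627 h17627
  have h17629 := checkRangeG_sound parWF r2 pf17628 h17628
  have h17630 := checkRangeG_sound parWF r2 pf17629 h17629
  have h17631 := checkRangeG_sound parWF r2 pf17630 h17630
  have h17632 := checkRangeG_sound parWF r2 pf17631 h17631
  have h17633 := checkRangeG_sound parWF r2 pf17632 h17632
  have h17634 := checkRangeG_sound parWF r2 pf17633 h17633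
  have h17635 := checkRangeG_sound parWF r2 pf17634 h17634
  have h17636 := checkRangeG_sound parWF r2 pf17635 h17635
  have h17637 := checkRangeG_sound parWF r2 pf17636 h17636
  have h17638 := checkRangeG_sound parWF r2 pf17637 h17637
  have h17639 := checkRangeG_sound parWF r2 pf17638 h17638
  have h17640 := checkRangeG_sound parWF r2 pf17639 h17639
  have h17641 := checkRangeG_sound parWF r2 pf17640 h17640
  have h17642 := checkRangeG_sound parWF r2 pf17641 h17641
  have h17643 := checkRangeG_sound parWF r2 pf17642 h17642
  have h17644 := checkRangeG_sound parWF r2 pf17643 h17643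
  have h17645 := checkRangeG_sound parWF r2 pf17644 h17644
  have h17646 := checkRangeG_sound parWF r2 pf17645 h17645
  have h17647 := checkRangeG_sound parWF r2 pf17646 h17646
  have h17648 := checkRangeG_sound parWF r2 pf17647 h17647
  have h17649 := checkRangeG_sound parWF r2 pf17648 h17648
  have h17650 := checkRangeG_sound parWF r2 pf17649 h17649
  exact h17650

theorem c353 (h17650 : ∀ j, j < 55176 → GoodG.{u} par (db j)) : ∀ j, j < 55357 → GoodG.{u} par (db j) := by
  have h17651 := checkRangeG_sound parWF r2 pf17650 h17650
  have h17652 := checkRangeG_sound parWF r2 pf17651 h17651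
  have h17653 := checkRangeG_sound parWF r2 pf17652 h17652
  have h17654 := checkRangeG_sound parWF r2 pf17653 h17653
  have h17655 := checkRangeG_sound parWF r2 pf17654 h17654
  have h17656 := checkRangeG_sound parWF r2 pf17655 h17655
  have h17657 := checkRangeG_sound parWF r2 pf17656 h17656
  have h17658 := checkRangeG_sound parWF r2 pf17657 h17657
  have h17659 := checkRangeG_sound parWF r2 pf17658 h17658
  have h17660 := checkRangeG_sound parWF r2 pf17659 h17659
  have h17661 := checkRangeG_sound parWF r2 pf17660 h17660
  have h17662 := checkRangeG_sound parWF r2 pf17661 h17661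
  have h17663 := checkRangeG_sound parWF r2 pf17662 h17662
  have h17664 := checkRangeG_sound parWF r2 pf17663 h17663
  have h17665 := checkRangeG_sound parWF r2 pf17664 h17664
  have h17666 := checkRangeG_sound parWF r2 pf17665 h17665
  have h17667 := checkRangeG_sound parWF r2 pf17666 h17666
  have h17668 := checkRangeG_sound parWF r2 pf17667 h17667
  have h17669 := checkRangeG_sound parWF r2 pf17668 h17668
  have h17670 := checkRangeG_sound parWF r2 pf17669 h17669
  have h17671 := checkRangeG_sound parWF r2 pf17670 h17670
  have h17672 := checkRangeG_sound parWF r2 pf17671 h17671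
  have h17673 := checkRangeG_sound parWF r2 pf17672 h17672
  have h17674 := checkRangeG_sound parWF r2 pf17673 h17673
  have h17675 := checkRangeG_sound parWF r2 pf17674 h17674
  have h17676 := checkRangeG_sound parWF r2 pf17675 h17675
  have h17677 := checkRangeG_sound parWF r2 pf17676 h17676
  have h17678 := checkRangeG_sound parWF r2 pf17677 h17677
  have h17679 := checkRangeG_sound parWF r2 pf17678 h17678
  have h17680 := checkRangeG_sound parWF r2 pf17679 h17679
  have h17681 := checkRangeG_sound parWF r2 pf17680 h17680
  have h17682 := checkRangeG_sound parWF r2 pf17681 h17681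
  have h17683 := checkRangeG_sound parWF r2 pf17682 h17682
  have h17684 := checkRangeG_sound parWF r2 pf17683 h17683
  have h17685 := checkRangeG_sound parWF r2 pf17684 h17684
  have h17686 := checkRangeG_sound parWF r2 pf17685 h17685
  have h17687 := checkRangeG_sound parWF r2 pf17686 h17686
  have h17688 := checkRangeG_sound parWF r2 pf17687 h17687
  have h17689 := checkRangeG_sound parWF r2 pf17688 h17688
  have h17690 := checkRangeG_sound parWF r2 pf17689 h17689
  have h17691 := checkRangeG_sound parWF r2 pf17690 h17690
  have h17692 := checkRangeG_sound parWF r2 pf17691 h17691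
  have h17693 := checkRangeG_sound parWF r2 pf17692 h17692
  have h17694 := checkRangeG_sound parWF r2 pf17693 h17693
  have h17695 := checkRangeG_sound parWF r2 pf17694 h17694
  have h17696 := checkRangeG_sound parWF r2 pf17695 h17695
  have h17697 := checkRangeG_sound parWF r2 pf17696 h17696
  have h17698 := checkRangeG_sound parWF r2 pf17697 h17697
  have h17699 := checkRangeG_sound parWF r2 pf17698 h17698
  have h17700 := checkRangeG_sound parWF r2 pf17699 h17699
  exact h17700

theorem c354 (h17700 : ∀ j, j < 55357 → GoodG.{u} par (db j)) : ∀ j, j < 55513 → GoodG.{u} par (db j) := by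
  have h17701 := checkRangeG_sound parWF r2 pf17700 h17700
  have h17702 := checkRangeG_sound parWF r2 pf17701 h17701
  have h17703 := checkRangeG_sound parWF r2 pf17702 h17702
  have h17704 := checkRangeG_sound parWF r2 pf17703 h17703
  have h17705 := checkRangeG_sound parWF r2 pf17704 h17704
  have h17706 := checkRangeG_sound parWF r2 pf17705 h17705
  have h17707 := checkRangeG_sound parWF r2 pf17706 h17706
  have h17708 := checkRangeG_sound parWF r2 pf17707 h17707
  have h17709 := checkRangeG_sound parWF r2 pf17708 h17708
  have h17710 := checkRangeG_sound parWF r2 pf17709 h17709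
  have h17711 := checkRangeG_sound parWF r2 pf17710 h17710
  have h17712 := checkRangeG_sound parWF r2 pf17711 h17711
  have h17713 := checkRangeG_sound parWF r2 pf17712 h17712
  have h17714 := checkRangeG_sound parWF r2 pf17713 h17713
  have h17715 := checkRangeG_sound parWF r2 pf17714 h17714
  have h17716 := checkRangeG_sound parWF r2 pf17715 h17715
  have h17717 := checkRangeG_sound parWF r2 pf17716 h17716
  have h17718 := checkRangeG_sound parWF r2 pf17717 h17717
  have h17719 := checkRangeG_sound parWF r2 pf17718 h17718
  have h17720 := checkRangeG_sound parWF r2 pf17719 h17719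
  have h17721 := checkRangeG_sound parWF r2 pf17720 h17720
  have h17722 := checkRangeG_sound parWF r2 pf17721 h17721
  have h17723 := checkRangeG_sound parWF r2 pf17722 h17722
  have h17724 := checkRangeG_sound parWF r2 pf17723 h17723
  have h17725 := checkRangeG_sound parWF r2 pf17724 h17724
  have h17726 := checkRangeG_sound parWF r2 pf17725 h17725
  have h17727 := checkRangeG_sound parWF r2 pf17726 h17726
  have h17728 := checkRangeG_sound parWF r2 pf17727 h17727
  have h17729 := checkRangeG_sound parWF r2 pf17728 h17728
  have h17730 := checkRangeG_sound parWF r2 pf17729 h17729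
  have h17731 := checkRangeG_sound parWF r2 pf17730 h17730
  have h17732 := checkRangeG_sound parWF r2 pf17731 h17731
  have h17733 := checkRangeG_sound parWF r2 pf17732 h17732
  have h17734 := checkRangeG_sound parWF r2 pf17733 h17733
  have h17735 := checkRangeG_sound parWF r2 pf17734 h17734
  have h17736 := checkRangeG_sound parWF r2 pf17735 h17735
  have h17737 := checkRangeG_sound parWF r2 pf17736 h17736
  have h17738 := checkRangeG_sound parWF r2 pf17737 h17737
  have h17739 := checkRangeG_sound parWF r2 pf17738 h17738
  have h17740 := checkRangeG_sound parWF r2 pf17739 h17739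
  have h17741 := checkRangeG_sound parWF r2 pf17740 h17740
  have h17742 := checkRangeG_sound parWF r2 pf17741 h17741
  have h17743 := checkRangeG_sound parWF r2 pf17742 h17742
  have h17744 := checkRangeG_sound parWF r2 pf17743 h17743
  have h17745 := checkRangeG_sound parWF r2 pf17744 h17744
  have h17746 := checkRangeG_sound parWF r2 pf17745 h17745
  have h17747 := checkRangeG_sound parWF r2 pf17746 h17746
  have h17748 := checkRangeG_sound parWF r2 pf17747 h17747
  have h17749 := checkRangeG_sound parWF r2 pf17748 h17748
  have h17750 := checkRangeG_sound parWF r2 pf17749 h17749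
  exact h17750

theorem c355 (h17750 : ∀ j, j < 55513 → GoodG.{u} par (db j)) : ∀ j, j < 55677 → GoodG.{u} par (db j) := by
  have h17751 := checkRangeG_sound parWF r2 pf17750 h17750
  have h17752 := checkRangeG_sound parWF r2 pf17751 h17751
  have h17753 := checkRangeG_sound parWF r2 pf17752 h17752
  have h17754 := checkRangeG_sound parWF r2 pf17753 h17753
  have h17755 := checkRangeG_sound parWF r2 pf17754 h17754
  have h17756 := checkRangeG_sound parWF r2 pf17755 h17755
  have h17757 := checkRangeG_sound parWF r2 pf17756 h17756
  have h17758 := checkRangeG_sound parWF r2 pf17757 h17757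
  have h17759 := checkRangeG_sound parWF r2 pf17758 h17758
  have h17760 := checkRangeG_sound parWF r2 pf17759 h17759
  have h17761 := checkRangeG_sound parWF r2 pf17760 h17760
  have h17762 := checkRangeG_sound parWF r2 pf17761 h17761
  have h17763 := checkRangeG_sound parWF r2 pf17762 h17762
  have h17764 := checkRangeG_sound parWF r2 pf17763 h17763
  have h17765 := checkRangeG_sound parWF r2 pf17764 h17764
  have h17766 := checkRangeG_sound parWF r2 pf17765 h17765
  have h17767 := checkRangeG_sound parWF r2 pf17766 h17766
  have h17768 := checkRangeG_sound parWF r2 pf17767 h17767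
  have h17769 := checkRangeG_sound parWF r2 pf17768 h17768
  have h17770 := checkRangeG_sound parWF r2 pf17769 h17769
  have h17771 := checkRangeG_sound parWF r2 pf17770 h17770
  have h17772 := checkRangeG_sound parWF r2 pf17771 h17771
  have h17773 := checkRangeG_sound parWF r2 pf17772 h17772
  have h17774 := checkRangeG_sound parWF r2 pf17773 h17773
  have h17775 := checkRangeG_sound parWF r2 pf17774 h17774
  have h17776 := checkRangeG_sound parWF r2 pf17775 h17775
  have h17777 := checkRangeG_sound parWF r2 pf17776 h17776
  have h17778 := checkRangeG_sound parWF r2 pf17777 h17777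
  have h17779 := checkRangeG_sound parWF r2 pf17778 h17778
  have h17780 := checkRangeG_sound parWF r2 pf17779 h17779
  have h17781 := checkRangeG_sound parWF r2 pf17780 h17780
  have h17782 := checkRangeG_sound parWF r2 pf17781 h17781
  have h17783 := checkRangeG_sound parWF r2 pf17782 h17782
  have h17784 := checkRangeG_sound parWF r2 pf17783 h17783
  have h17785 := checkRangeG_sound parWF r2 pf17784 h17784
  have h17786 := checkRangeG_sound parWF r2 pf17785 h17785
  have h17787 := checkRangeG_sound parWF r2 pf17786 h17786
  have h17788 := checkRangeG_sound parWF r2 pf17787 h17787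
  have h17789 := checkRangeG_sound parWF r2 pf17788 h17788
  have h17790 := checkRangeG_sound parWF r2 pf17789 h17789
  have h17791 := checkRangeG_sound parWF r2 pf17790 h17790
  have h17792 := checkRangeG_sound parWF r2 pf17791 h17791
  have h17793 := checkRangeG_sound parWF r2 pf17792 h17792
  have h17794 := checkRangeG_sound parWF r2 pf17793 h17793
  have h17795 := checkRangeG_sound parWF r2 pf17794 h17794
  have h17796 := checkRangeG_sound parWF r2 pf17795 h17795
  have h17797 := checkRangeG_sound parWF r2 pf17796 h17796
  have h17798 := checkRangeG_sound parWF r2 pf17797 h17797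
  have h17799 := checkRangeG_sound parWF r2 pf17798 h17798
  have h17800 := checkRangeG_sound parWF r2 pf17799 h17799
  exact h17800

theorem c356 (h17800 : ∀ j, j < 55677 → GoodG.{u} par (db j)) : ∀ j, j < 55831 → GoodG.{u} par (db j) := by
  have h17801 := checkRangeG_sound parWF r2 pf17800 h17800
  have h17802 := checkRangeG_sound parWF r2 pf17801 h17801
  have h17803 := checkRangeG_sound parWF r2 pf17802 h17802
  have h17804 := checkRangeG_sound parWF r2 pf17803 h17803
  have h17805 := checkRangeG_sound parWF r2 pf17804 h17804
  have h17806 := checkRangeG_sound parWF r2 pf17805 h17805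
  have h17807 := checkRangeG_sound parWF r2 pf17806 h17806
  have h17808 := checkRangeG_sound parWF r2 pf17807 h17807
  have h17809 := checkRangeG_sound parWF r2 pf17808 h17808
  have h17810 := checkRangeG_sound parWF r2 pf17809 h17809
  have h17811 := checkRangeG_sound parWF r2 pf17810 h17810
  have h17812 := checkRangeG_sound parWF r2 pf17811 h17811
  have h17813 := checkRangeG_sound parWF r2 pf17812 h17812
  have h17814 := checkRangeG_sound parWF r2 pf17813 h17813
  have h17815 := checkRangeG_sound parWF r2 pf17814 h17814
  have h17816 := checkRangeG_sound parWF r2 pf17815 h17815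
  have h17817 := checkRangeG_sound parWF r2 pf17816 h17816
  have h17818 := checkRangeG_sound parWF r2 pf17817 h17817
  have h17819 := checkRangeG_sound parWF r2 pf17818 h17818
  have h17820 := checkRangeG_sound parWF r2 pf17819 h17819
  have h17821 := checkRangeG_sound parWF r2 pf17820 h17820
  have h17822 := checkRangeG_sound parWF r2 pf17821 h17821
  have h17823 := checkRangeG_sound parWF r2 pf17822 h17822
  have h17824 := checkRangeG_sound parWF r2 pf17823 h17823
  have h17825 := checkRangeG_sound parWF r2 pf17824 h17824
  have h17826 := checkRangeG_sound parWF r2 pf17825 h17825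
  have h17827 := checkRangeG_sound parWF r2 pf17826 h17826
  have h17828 := checkRangeG_sound parWF r2 pf17827 h17827
  have h17829 := checkRangeG_sound parWF r2 pf17828 h17828
  have h17830 := checkRangeG_sound parWF r2 pf17829 h17829
  have h17831 := checkRangeG_sound parWF r2 pf17830 h17830
  have h17832 := checkRangeG_sound parWF r2 pf17831 h17831
  have h17833 := checkRangeG_sound parWF r2 pf17832 h17832
  have h17834 := checkRangeG_sound parWF r2 pf17833 h17833
  have h17835 := checkRangeG_sound parWF r2 pf17834 h17834
  have h17836 := checkRangeG_sound parWF r2 pf17835 h17835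
  have h17837 := checkRangeG_sound parWF r2 pf17836 h17836
  have h17838 := checkRangeG_sound parWF r2 pf17837 h17837
  have h17839 := checkRangeG_sound parWF r2 pf17838 h17838
  have h17840 := checkRangeG_sound parWF r2 pf17839 h17839
  have h17841 := checkRangeG_sound parWF r2 pf17840 h17840
  have h17842 := checkRangeG_sound parWF r2 pf17841 h17841
  have h17843 := checkRangeG_sound parWF r2 pf17842 h17842
  have h17844 := checkRangeG_sound parWF r2 pf17843 h17843
  have h17845 := checkRangeG_sound parWF r2 pf17844 h17844
  have h17846 := checkRangeG_sound parWF r2 pf17845 h17845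
  have h17847 := checkRangeG_sound parWF r2 pf17846 h17846
  have h17848 := checkRangeG_sound parWF r2 pf17847 h17847
  have h17849 := checkRangeG_sound parWF r2 pf17848 h17848
  have h17850 := checkRangeG_sound parWF r2 pf17849 h17849
  exact h17850

theorem c357 (h17850 : ∀ j, j < 55831 → GoodG.{u} par (db j)) : ∀ j, j < 55979 → GoodG.{u} par (db j) := by
  have h17851 := checkRangeG_sound parWF r2 pf17850 h17850
  have h17852 := checkRangeG_sound parWF r2 pf17851 h17851
  have h17853 := checkRangeG_sound parWF r2 pf17852 h17852
  have h17854 := checkRangeG_sound parWF r2 pf17853 h17853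
  have h17855 := checkRangeG_sound parWF r2 pf17854 h17854
  have h17856 := checkRangeG_sound parWF r2 pf17855 h17855
  have h17857 := checkRangeG_sound parWF r2 pf17856 h17856
  have h17858 := checkRangeG_sound parWF r2 pf17857 h17857
  have h17859 := checkRangeG_sound parWF r2 pf17858 h17858
  have h17860 := checkRangeG_sound parWF r2 pf17859 h17859
  have h17861 := checkRangeG_sound parWF r2 pf17860 h17860
  have h17862 := checkRangeG_sound parWF r2 pf17861 h17861
  have h17863 := checkRangeG_sound parWF r2 pf17862 h17862
  have h17864 := checkRangeG_sound parWF r2 pf17863 h17863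
  have h17865 := checkRangeG_sound parWF r2 pf17864 h17864
  have h17866 := checkRangeG_sound parWF r2 pf17865 h17865
  have h17867 := checkRangeG_sound parWF r2 pf17866 h17866
  have h17868 := checkRangeG_sound parWF r2 pf17867 h17867
  have h17869 := checkRangeG_sound parWF r2 pf17868 h17868
  have h17870 := checkRangeG_sound parWF r2 pf17869 h17869
  have h17871 := checkRangeG_sound parWF r2 pf17870 h17870
  have h17872 := checkRangeG_sound parWF r2 pf17871 h17871
  have h17873 := checkRangeG_sound parWF r2 pf17872 h17872
  have h17874 := checkRangeG_sound parWF r2 pf17873 h17873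
  have h17875 := checkRangeG_sound parWF r2 pf17874 h17874
  have h17876 := checkRangeG_sound parWF r2 pf17875 h17875
  have h17877 := checkRangeG_sound parWF r2 pf17876 h17876
  have h17878 := checkRangeG_sound parWF r2 pf17877 h17877
  have h17879 := checkRangeG_sound parWF r2 pf17878 h17878
  have h17880 := checkRangeG_sound parWF r2 pf17879 h17879
  have h17881 := checkRangeG_sound parWF r2 pf17880 h17880
  have h17882 := checkRangeG_sound parWF r2 pf17881 h17881
  have h17883 := checkRangeG_sound parWF r2 pf17882 h17882
  have h17884 := checkRangeG_sound parWF r2 pf17883 h17883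
  have h17885 := checkRangeG_sound parWF r2 pf17884 h17884
  have h17886 := checkRangeG_sound parWF r2 pf17885 h17885
  have h17887 := checkRangeG_sound parWF r2 pf17886 h17886
  have h17888 := checkRangeG_sound parWF r2 pf17887 h17887
  have h17889 := checkRangeG_sound parWF r2 pf17888 h17888
  have h17890 := checkRangeG_sound parWF r2 pf17889 h17889
  have h17891 := checkRangeG_sound parWF r2 pf17890 h17890
  have h17892 := checkRangeG_sound parWF r2 pf17891 h17891
  have h17893 := checkRangeG_sound parWF r2 pf17892 h17892
  have h17894 := checkRangeG_sound parWF r2 pf17893 h17893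
  have h17895 := checkRangeG_sound parWF r2 pf17894 h17894
  have h17896 := checkRangeG_sound parWF r2 pf17895 h17895
  have h17897 := checkRangeG_sound parWF r2 pf17896 h17896
  have h17898 := checkRangeG_sound parWF r2 pf17897 h17897
  have h17899 := checkRangeG_sound parWF r2 pf17898 h17898
  have h17900 := checkRangeG_sound parWF r2 pf17899 h17899
  exact h17900

theorem c358 (h17900 : ∀ j, j < 55979 → GoodG.{u} par (db j)) : ∀ j, j < 56124 → GoodG.{u} par (db j) := by
  have h17901 := checkRangeG_sound parWF r2 pf17900 h17900
  have h17902 := checkRangeG_sound parWF r2 pf17901 h17901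
  have h17903 := checkRangeG_sound parWF r2 pf17902 h17902
  have h17904 := checkRangeG_sound parWF r2 pf17903 h17903
  have h17905 := checkRangeG_sound parWF r2 pf17904 h17904
  have h17906 := checkRangeG_sound parWF r2 pf17905 h17905
  have h17907 := checkRangeG_sound parWF r2 pf17906 h17906
  have h17908 := checkRangeG_sound parWF r2 pf17907 h17907
  have h17909 := checkRangeG_sound parWF r2 pf17908 h17908
  have h17910 := checkRangeG_sound parWF r2 pf17909 h17909
  have h17911 := checkRangeG_sound parWF r2 pf17910 h17910
  have h17912 := checkRangeG_sound parWF r2 pf17911 h17911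
  have h17913 := checkRangeG_sound parWF r2 pf17912 h17912
  have h17914 := checkRangeG_sound parWF r2 pf17913 h17913
  have h17915 := checkRangeG_sound parWF r2 pf17914 h17914
  have h17916 := checkRangeG_sound parWF r2 pf17915 h17915
  have h17917 := checkRangeG_sound parWF r2 pf17916 h17916
  have h17918 := checkRangeG_sound parWF r2 pf17917 h17917
  have h17919 := checkRangeG_sound parWF r2 pf17918 h17918
  have h17920 := checkRangeG_sound parWF r2 pf17919 h17919
  have h17921 := checkRangeG_sound parWF r2 pf17920 h17920
  have h17922 := checkRangeG_sound parWF r2 pf17921 h17921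
  have h17923 := checkRangeG_sound parWF r2 pf17922 h17922
  have h17924 := checkRangeG_sound parWF r2 pf17923 h17923
  have h17925 := checkRangeG_sound parWF r2 pf17924 h17924
  have h17926 := checkRangeG_sound parWF r2 pf17925 h17925
  have h17927 := checkRangeG_sound parWF r2 pf17926 h17926
  have h17928 := checkRangeG_sound parWF r2 pf17927 h17927
  have h17929 := checkRangeG_sound parWF r2 pf17928 h17928
  have h17930 := checkRangeG_sound parWF r2 pf17929 h17929
  have h17931 := checkRangeG_sound parWF r2 pf17930 h17930
  have h17932 := checkRangeG_sound parWF r2 pf17931 h17931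
  have h17933 := checkRangeG_sound parWF r2 pf17932 h17932
  have h17934 := checkRangeG_sound parWF r2 pf17933 h17933
  have h17935 := checkRangeG_sound parWF r2 pf17934 h17934
  have h17936 := checkRangeG_sound parWF r2 pf17935 h17935
  have h17937 := checkRangeG_sound parWF r2 pf17936 h17936
  have h17938 := checkRangeG_sound parWF r2 pf17937 h17937
  have h17939 := checkRangeG_sound parWF r2 pf17938 h17938
  have h17940 := checkRangeG_sound parWF r2 pf17939 h17939
  have h17941 := checkRangeG_sound parWF r2 pf17940 h17940
  have h17942 := checkRangeG_sound parWF r2 pf17941 h17941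
  have h17943 := checkRangeG_sound parWF r2 pf17942 h17942
  have h17944 := checkRangeG_sound parWF r2 pf17943 h17943
  have h17945 := checkRangeG_sound parWF r2 pf17944 h17944
  have h17946 := checkRangeG_sound parWF r2 pf17945 h17945
  have h17947 := checkRangeG_sound parWF r2 pf17946 h17946
  have h17948 := checkRangeG_sound parWF r2 pf17947 h17947
  have h17949 := checkRangeG_sound parWF r2 pf17948 h17948
  have h17950 := checkRangeG_sound parWF r2 pf17949 h17949
  exact h17950

theorem c359 (h17950 : ∀ j, j < 56124 → GoodG.{u} par (db j)) : ∀ j, j < 56306 → GoodG.{u} par (db j) := by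
  have h17951 := checkRangeG_sound parWF r2 pf17950 h17950
  have h17952 := checkRangeG_sound parWF r2 pf17951 h17951
  have h17953 := checkRangeG_sound parWF r2 pf17952 h17952
  have h17954 := checkRangeG_sound parWF r2 pf17953 h17953
  have h17955 := checkRangeG_sound parWF r2 pf17954 h17954
  have h17956 := checkRangeG_sound parWF r2 pf17955 h17955
  have h17957 := checkRangeG_sound parWF r2 pf17956 h17956
  have h17958 := checkRangeG_sound parWF r2 pf17957 h17957
  have h17959 := checkRangeG_sound parWF r2 pf17958 h17958
  have h17960 := checkRangeG_sound parWF r2 pf17959 h17959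
  have h17961 := checkRangeG_sound parWF r2 pf17960 h17960
  have h17962 := checkRangeG_sound parWF r2 pf17961 h17961
  have h17963 := checkRangeG_sound parWF r2 pf17962 h17962
  have h17964 := checkRangeG_sound parWF r2 pf17963 h17963
  have h17965 := checkRangeG_sound parWF r2 pf17964 h17964
  have h17966 := checkRangeG_sound parWF r2 pf17965 h17965
  have h17967 := checkRangeG_sound parWF r2 pf17966 h17966
  have h17968 := checkRangeG_sound parWF r2 pf17967 h17967
  have h17969 := checkRangeG_sound parWF r2 pf17968 h17968
  have h17970 := checkRangeG_sound parWF r2 pf17969 h17969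
  have h17971 := checkRangeG_sound parWF r2 pf17970 h17970
  have h17972 := checkRangeG_sound parWF r2 pf17971 h17971
  have h17973 := checkRangeG_sound parWF r2 pf17972 h17972
  have h17974 := checkRangeG_sound parWF r2 pf17973 h17973
  have h17975 := checkRangeG_sound parWF r2 pf17974 h17974
  have h17976 := checkRangeG_sound parWF r2 pf17975 h17975
  have h17977 := checkRangeG_sound parWF r2 pf17976 h17976
  have h17978 := checkRangeG_sound parWF r2 pf17977 h17977
  have h17979 := checkRangeG_sound parWF r2 pf17978 h17978
  have h17980 := checkRangeG_sound parWF r2 pf17979 h17979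
  have h17981 := checkRangeG_sound parWF r2 pf17980 h17980
  have h17982 := checkRangeG_sound parWF r2 pf17981 h17981
  have h17983 := checkRangeG_sound parWF r2 pf17982 h17982
  have h17984 := checkRangeG_sound parWF r2 pf17983 h17983
  have h17985 := checkRangeG_sound parWF r2 pf17984 h17984
  have h17986 := checkRangeG_sound parWF r2 pf17985 h17985
  have h17987 := checkRangeG_sound parWF r2 pf17986 h17986
  have h17988 := checkRangeG_sound parWF r2 pf17987 h17987
  have h17989 := checkRangeG_sound parWF r2 pf17988 h17988
  have h17990 := checkRangeG_sound parWF r2 pf17989 h17989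
  have h17991 := checkRangeG_sound parWF r2 pf17990 h17990
  have h17992 := checkRangeG_sound parWF r2 pf17991 h17991
  have h17993 := checkRangeG_sound parWF r2 pf17992 h17992
  have h17994 := checkRangeG_sound parWF r2 pf17993 h17993
  have h17995 := checkRangeG_sound parWF r2 pf17994 h17994
  have h17996 := checkRangeG_sound parWF r2 pf17995 h17995
  have h17997 := checkRangeG_sound parWF r2 pf17996 h17996
  have h17998 := checkRangeG_sound parWF r2 pf17997 h17997
  have h17999 := checkRangeG_sound parWF r2 pf17998 h17998
  have h18000 := checkRangeG_sound parWF r2 pf17999 h17999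
  exact h18000


end Vale.Agent.P045g.C61
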