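import Vale.Agent.P045g.C61.WF
import Vale.Agent.P045g.C61.Pf30
import Vale.Agent.P045g.C61.Pf31
import Vale.Agent.P045g.C61.Pf32
import Vale.Agent.P045g.C61.Pf33
import Vale.Agent.P045g.C61.Pf34
import Vale.Agent.P045g.C61.Pf35
import Vale.Agent.P045g.C61.Pf36
import Vale.Agent.P045g.C61.Pf37
import Vale.Agent.P045g.C61.Pf38
import Vale.Agent.P045g.C61.Pf39

namespace Vale.Agent.P045g.C61

open Vale.Agent.P045b Vale.Agent.P045g

universe u

theorem c36 (h1800 : ∀ j, j < 5231 → GoodG.{u} par (db j)) : ∀ j, j < 5381 → GoodG.{u} par (db j) := by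
  have h1801 := checkRangeG_sound parWF r2 pf1800 h1800
  have h1802 := checkRangeG_sound parWF r2 pf1801 h1801
  have h1803 := checkRangeG_sound parWF r2 pf1802 h1802
  have h1804 := checkRangeG_sound parWF r2 pf1803 h1803
  have h1805 := checkRangeG_sound parWF r2 pf1804 h1804
  have h1806 := checkRangeG_sound parWF r2 pf1805 h1805
  have h1807 := checkRangeG_sound parWF r2 pf1806 h1806
  have h1808 := checkRangeG_sound parWF r2 pf1807 h1807
  have h1809 := checkRangeG_sound parWF r2 pf1808 h1808
  have h1810 := checkRangeG_sound parWF r2 pf1809 h1809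
  have h1811 := checkRangeG_sound parWF r2 pf1810 h1810
  have h1812 := checkRangeG_sound parWF r2 pf1811 h1811
  have h1813 := checkRangeG_sound parWF r2 pf1812 h1812
  have h1814 := checkRangeG_sound parWF r2 pf1813 h1813
  have h1815 := checkRangeG_sound parWF r2 pf1814 h1814
  have h1816 := checkRangeG_sound parWF r2 pf1815 h1815
  have h1817 := checkRangeG_sound parWF r2 pf1816 h1816
  have h1818 := checkRangeG_sound parWF r2 pf1817 h1817
  have h1819 := checkRangeG_sound parWF r2 pf1818 h1818
  have h1820 := checkRangeG_sound parWF r2 pf1819 h1819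
  have h1821 := checkRangeG_sound parWF r2 pf1820 h1820
  have h1822 := checkRangeG_sound parWF r2 pf1821 h1821
  have h1823 := checkRangeG_sound parWF r2 pf1822 h1822
  have h1824 := checkRangeG_sound parWF r2 pf1823 h1823
  have h1825 := checkRangeG_sound parWF r2 pf1824 h1824
  have h1826 := checkRangeG_sound parWF r2 pf1825 h1825
  have h1827 := checkRangeG_sound parWF r2 pf1826 h1826
  have h1828 := checkRangeG_sound parWF r2 pf1827 h1827
  have h1829 := checkRangeG_sound parWF r2 pf1828 h1828
  have h1830 := checkRangeG_sound parWF r2 pf1829 h1829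
  have h1831 := checkRangeG_sound parWF r2 pf1830 h1830
  have h1832 := checkRangeG_sound parWF r2 pf1831 h1831
  have h1833 := checkRangeG_sound parWF r2 pf1832 h1832
  have h1834 := checkRangeG_sound parWF r2 pf1833 h1833
  have h1835 := checkRangeG_sound parWF r2 pf1834 h1834
  have h1836 := checkRangeG_sound parWF r2 pf1835 h1835
  have h1837 := checkRangeG_sound parWF r2 pf1836 h1836
  have h1838 := checkRangeG_sound parWF r2 pf1837 h1837
  have h1839 := checkRangeG_sound parWF r2 pf1838 h1838
  have h1840 := checkRangeG_sound parWF r2 pf1839 h1839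
  have h1841 := checkRangeG_sound parWF r2 pf1840 h1840
  have h1842 := checkRangeG_sound parWF r2 pf1841 h1841
  have h1843 := checkRangeG_sound parWF r2 pf1842 h1842
  have h1844 := checkRangeG_sound parWF r2 pf1843 h1843
  have h1845 := checkRangeG_sound parWF r2 pf1844 h1844
  have h1846 := checkRangeG_sound parWF r2 pf1845 h1845
  have h1847 := checkRangeG_sound parWF r2 pf1846 h1846
  have h1848 := checkRangeG_sound parWF r2 pf1847 h1847
  have h1849 := checkRangeG_sound parWF r2 pf1848 h1848
  have h1850 := checkRangeG_sound parWF r2 pf1849 h1849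
  exact h1850

theorem c37 (h1850 : ∀ j, j < 5381 → GoodG.{u} par (db j)) : ∀ j, j < 5509 → GoodG.{u} par (db j) := by
  have h1851 := checkRangeG_sound parWF r2 pf1850 h1850
  have h1852 := checkRangeG_sound parWF r2 pf1851 h1851
  have h1853 := checkRangeG_sound parWF r2 pf1852 h1852
  have h1854 := checkRangeG_sound parWF r2 pf1853 h1853
  have h1855 := checkRangeG_sound parWF r2 pf1854 h1854
  have h1856 := checkRangeG_sound parWF r2 pf1855 h1855
  have h1857 := checkRangeG_sound parWF r2 pf1856 h1856
  have h1858 := checkRangeG_sound parWF r2 pf1857 h1857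
  have h1859 := checkRangeG_sound parWF r2 pf1858 h1858
  have h1860 := checkRangeG_sound parWF r2 pf1859 h1859
  have h1861 := checkRangeG_sound parWF r2 pf1860 h1860
  have h1862 := checkRangeG_sound parWF r2 pf1861 h1861
  have h1863 := checkRangeG_sound parWF r2 pf1862 h1862
  have h1864 := checkRangeG_sound parWF r2 pf1863 h1863
  have h1865 := checkRangeG_sound parWF r2 pf1864 h1864
  have h1866 := checkRangeG_sound parWF r2 pf1865 h1865
  have h1867 := checkRangeG_sound parWF r2 pf1866 h1866
  have h1868 := checkRangeG_sound parWF r2 pf1867 h1867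
  have h1869 := checkRangeG_sound parWF r2 pf1868 h1868
  have h1870 := checkRangeG_sound parWF r2 pf1869 h1869
  have h1871 := checkRangeG_sound parWF r2 pf1870 h1870
  have h1872 := checkRangeG_sound parWF r2 pf1871 h1871
  have h1873 := checkRangeG_sound parWF r2 pf1872 h1872
  have h1874 := checkRangeG_sound parWF r2 pf1873 h1873
  have h1875 := checkRangeG_sound parWF r2 pf1874 h1874
  have h1876 := checkRangeG_sound parWF r2 pf1875 h1875
  have h1877 := checkRangeG_sound parWF r2 pf1876 h1876
  have h1878 := checkRangeG_sound parWF r2 pf1877 h1877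
  have h1879 := checkRangeG_sound parWF r2 pf1878 h1878
  have h1880 := checkRangeG_sound parWF r2 pf1879 h1879
  have h1881 := checkRangeG_sound parWF r2 pf1880 h1880
  have h1882 := checkRangeG_sound parWF r2 pf1881 h1881
  have h1883 := checkRangeG_sound parWF r2 pf1882 h1882
  have h1884 := checkRangeG_sound parWF r2 pf1883 h1883
  have h1885 := checkRangeG_sound parWF r2 pf1884 h1884
  have h1886 := checkRangeG_sound parWF r2 pf1885 h1885
  have h1887 := checkRangeG_sound parWF r2 pf1886 h1886
  have h1888 := checkRangeG_sound parWF r2 pf1887 h1887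
  have h1889 := checkRangeG_sound parWF r2 pf1888 h1888
  have h1890 := checkRangeG_sound parWF r2 pf1889 h1889
  have h1891 := checkRangeG_sound parWF r2 pf1890 h1890
  have h1892 := checkRangeG_sound parWF r2 pf1891 h1891
  have h1893 := checkRangeG_sound parWF r2 pf1892 h1892
  have h1894 := checkRangeG_sound parWF r2 pf1893 h1893
  have h1895 := checkRangeG_sound parWF r2 pf1894 h1894
  have h1896 := checkRangeG_sound parWF r2 pf1895 h1895
  have h1897 := checkRangeG_sound parWF r2 pf1896 h1896
  have h1898 := checkRangeG_sound parWF r2 pf1897 h1897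
  have h1899 := checkRangeG_sound parWF r2 pf1898 h1898
  have h1900 := checkRangeG_sound parWF r2 pf1899 h1899
  exact h1900

theorem c38 (h1900 : ∀ j, j < 5509 → GoodG.{u} par (db j)) : ∀ j, j < 5636 → GoodG.{u} par (db j) := by
  have h1901 := checkRangeG_sound parWF r2 pf1900 h1900
  have h1902 := checkRangeG_sound parWF r2 pf1901 h1901
  have h1903 := checkRangeG_sound parWF r2 pf1902 h1902
  have h1904 := checkRangeG_sound parWF r2 pf1903 h1903
  have h1905 := checkRangeG_sound parWF r2 pf1904 h1904
  have h1906 := checkRangeG_sound parWF r2 pf1905 h1905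
  have h1907 := checkRangeG_sound parWF r2 pf1906 h1906
  have h1908 := checkRangeG_sound parWF r2 pf1907 h1907
  have h1909 := checkRangeG_sound parWF r2 pf1908 h1908
  have h1910 := checkRangeG_sound parWF r2 pf1909 h1909
  have h1911 := checkRangeG_sound parWF r2 pf1910 h1910
  have h1912 := checkRangeG_sound parWF r2 pf1911 h1911
  have h1913 := checkRangeG_sound parWF r2 pf1912 h1912
  have h1914 := checkRangeG_sound parWF r2 pf1913 h1913
  have h1915 := checkRangeG_sound parWF r2 pf1914 h1914
  have h1916 := checkRangeG_sound parWF r2 pf1915 h1915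
  have h1917 := checkRangeG_sound parWF r2 pf1916 h1916
  have h1918 := checkRangeG_sound parWF r2 pf1917 h1917
  have h1919 := checkRangeG_sound parWF r2 pf1918 h1918
  have h1920 := checkRangeG_sound parWF r2 pf1919 h1919
  have h1921 := checkRangeG_sound parWF r2 pf1920 h1920
  have h1922 := checkRangeG_sound parWF r2 pf1921 h1921
  have h1923 := checkRangeG_sound parWF r2 pf1922 h1922
  have h1924 := checkRangeG_sound parWF r2 pf1923 h1923
  have h1925 := checkRangeG_sound parWF r2 pf1924 h1924
  have h1926 := checkRangeG_sound parWF r2 pf1925 h1925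
  have h1927 := checkRangeG_sound parWF r2 pf1926 h1926
  have h1928 := checkRangeG_sound parWF r2 pf1927 h1927
  have h1929 := checkRangeG_sound parWF r2 pf1928 h1928
  have h1930 := checkRangeG_sound parWF r2 pf1929 h1929
  have h1931 := checkRangeG_sound parWF r2 pf1930 h1930
  have h1932 := checkRangeG_sound parWF r2 pf1931 h1931
  have h1933 := checkRangeG_sound parWF r2 pf1932 h1932
  have h1934 := checkRangeG_sound parWF r2 pf1933 h1933
  have h1935 := checkRangeG_sound parWF r2 pf1934 h1934
  have h1936 := checkRangeG_sound parWF r2 pf1935 h1935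
  have h1937 := checkRangeG_sound parWF r2 pf1936 h1936
  have h1938 := checkRangeG_sound parWF r2 pf1937 h1937
  have h1939 := checkRangeG_sound parWF r2 pf1938 h1938
  have h1940 := checkRangeG_sound parWF r2 pf1939 h1939
  have h1941 := checkRangeG_sound parWF r2 pf1940 h1940
  have h1942 := checkRangeG_sound parWF r2 pf1941 h1941
  have h1943 := checkRangeG_sound parWF r2 pf1942 h1942
  have h1944 := checkRangeG_sound parWF r2 pf1943 h1943
  have h1945 := checkRangeG_sound parWF r2 pf1944 h1944
  have h1946 := checkRangeG_sound parWF r2 pf1945 h1945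
  have h1947 := checkRangeG_sound parWF r2 pf1946 h1946
  have h1948 := checkRangeG_sound parWF r2 pf1947 h1947
  have h1949 := checkRangeG_sound parWF r2 pf1948 h1948
  have h1950 := checkRangeG_sound parWF r2 pf1949 h1949
  exact h1950

theorem c39 (h1950 : ∀ j, j < 5636 → GoodG.{u} par (db j)) : ∀ j, j < 5754 → GoodG.{u} par (db j) := by
  have h1951 := checkRangeG_sound parWF r2 pf1950 h1950
  have h1952 := checkRangeG_sound parWF r2 pf1951 h1951
  have h1953 := checkRangeG_sound parWF r2 pf1952 h1952
  have h1954 := checkRangeG_sound parWF r2 pf1953 h1953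
  have h1955 := checkRangeG_sound parWF r2 pf1954 h1954
  have h1956 := checkRangeG_sound parWF r2 pf1955 h1955
  have h1957 := checkRangeG_sound parWF r2 pf1956 h1956
  have h1958 := checkRangeG_sound parWF r2 pf1957 h1957
  have h1959 := checkRangeG_sound parWF r2 pf1958 h1958
  have h1960 := checkRangeG_sound parWF r2 pf1959 h1959
  have h1961 := checkRangeG_sound parWF r2 pf1960 h1960
  have h1962 := checkRangeG_sound parWF r2 pf1961 h1961
  have h1963 := checkRangeG_sound parWF r2 pf1962 h1962
  have h1964 := checkRangeG_sound parWF r2 pf1963 h1963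
  have h1965 := checkRangeG_sound parWF r2 pf1964 h1964
  have h1966 := checkRangeG_sound parWF r2 pf1965 h1965
  have h1967 := checkRangeG_sound parWF r2 pf1966 h1966
  have h1968 := checkRangeG_sound parWF r2 pf1967 h1967
  have h1969 := checkRangeG_sound parWF r2 pf1968 h1968
  have h1970 := checkRangeG_sound parWF r2 pf1969 h1969
  have h1971 := checkRangeG_sound parWF r2 pf1970 h1970
  have h1972 := checkRangeG_sound parWF r2 pf1971 h1971
  have h1973 := checkRangeG_sound parWF r2 pf1972 h1972
  have h1974 := checkRangeG_sound parWF r2 pf1973 h1973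
  have h1975 := checkRangeG_sound parWF r2 pf1974 h1974
  have h1976 := checkRangeG_sound parWF r2 pf1975 h1975
  have h1977 := checkRangeG_sound parWF r2 pf1976 h1976
  have h1978 := checkRangeG_sound parWF r2 pf1977 h1977
  have h1979 := checkRangeG_sound parWF r2 pf1978 h1978
  have h1980 := checkRangeG_sound parWF r2 pf1979 h1979
  have h1981 := checkRangeG_sound parWF r2 pf1980 h1980
  have h1982 := checkRangeG_sound parWF r2 pf1981 h1981
  have h1983 := checkRangeG_sound parWF r2 pf1982 h1982
  have h1984 := checkRangeG_sound parWF r2 pf1983 h1983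
  have h1985 := checkRangeG_sound parWF r2 pf1984 h1984
  have h1986 := checkRangeG_sound parWF r2 pf1985 h1985
  have h1987 := checkRangeG_sound parWF r2 pf1986 h1986
  have h1988 := checkRangeG_sound parWF r2 pf1987 h1987
  have h1989 := checkRangeG_sound parWF r2 pf1988 h1988
  have h1990 := checkRangeG_sound parWF r2 pf1989 h1989
  have h1991 := checkRangeG_sound parWF r2 pf1990 h1990
  have h1992 := checkRangeG_sound parWF r2 pf1991 h1991
  have h1993 := checkRangeG_sound parWF r2 pf1992 h1992
  have h1994 := checkRangeG_sound parWF r2 pf1993 h1993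
  have h1995 := checkRangeG_sound parWF r2 pf1994 h1994
  have h1996 := checkRangeG_sound parWF r2 pf1995 h1995
  have h1997 := checkRangeG_sound parWF r2 pf1996 h1996
  have h1998 := checkRangeG_sound parWF r2 pf1997 h1997
  have h1999 := checkRangeG_sound parWF r2 pf1998 h1998
  have h2000 := checkRangeG_sound parWF r2 pf1999 h1999
  exact h2000

theorem c40 (h2000 : ∀ j, j < 5754 → GoodG.{u} par (db j)) : ∀ j, j < 5881 → GoodG.{u} par (db j) := by
  have h2001 := checkRangeG_sound parWF r2 pf2000 h2000
  have h2002 := checkRangeG_sound parWF r2 pf2001 h2001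
  have h2003 := checkRangeG_sound parWF r2 pf2002 h2002
  have h2004 := checkRangeG_sound parWF r2 pf2003 h2003
  have h2005 := checkRangeG_sound parWF r2 pf2004 h2004
  have h2006 := checkRangeG_sound parWF r2 pf2005 h2005
  have h2007 := checkRangeG_sound parWF r2 pf2006 h2006
  have h2008 := checkRangeG_sound parWF r2 pf2007 h2007
  have h2009 := checkRangeG_sound parWF r2 pf2008 h2008
  have h2010 := checkRangeG_sound parWF r2 pf2009 h2009
  have h2011 := checkRangeG_sound parWF r2 pf2010 h2010
  have h2012 := checkRangeG_sound parWF r2 pf2011 h2011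
  have h2013 := checkRangeG_sound parWF r2 pf2012 h2012
  have h2014 := checkRangeG_sound parWF r2 pf2013 h2013
  have h2015 := checkRangeG_sound parWF r2 pf2014 h2014
  have h2016 := checkRangeG_sound parWF r2 pf2015 h2015
  have h2017 := checkRangeG_sound parWF r2 pf2016 h2016
  have h2018 := checkRangeG_sound parWF r2 pf2017 h2017
  have h2019 := checkRangeG_sound parWF r2 pf2018 h2018
  have h2020 := checkRangeG_sound parWF r2 pf2019 h2019
  have h2021 := checkRangeG_sound parWF r2 pf2020 h2020
  have h2022 := checkRangeG_sound parWF r2 pf2021 h2021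
  have h2023 := checkRangeG_sound parWF r2 pf2022 h2022
  have h2024 := checkRangeG_sound parWF r2 pf2023 h2023
  have h2025 := checkRangeG_sound parWF r2 pf2024 h2024
  have h2026 := checkRangeG_sound parWF r2 pf2025 h2025
  have h2027 := checkRangeG_sound parWF r2 pf2026 h2026
  have h2028 := checkRangeG_sound parWF r2 pf2027 h2027
  have h2029 := checkRangeG_sound parWF r2 pf2028 h2028
  have h2030 := checkRangeG_sound parWF r2 pf2029 h2029
  have h2031 := checkRangeG_sound parWF r2 pf2030 h2030
  have h2032 := checkRangeG_sound parWF r2 pf2031 h2031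
  have h2033 := checkRangeG_sound parWF r2 pf2032 h2032
  have h2034 := checkRangeG_sound parWF r2 pf2033 h2033
  have h2035 := checkRangeG_sound parWF r2 pf2034 h2034
  have h2036 := checkRangeG_sound parWF r2 pf2035 h2035
  have h2037 := checkRangeG_sound parWF r2 pf2036 h2036
  have h2038 := checkRangeG_sound parWF r2 pf2037 h2037
  have h2039 := checkRangeG_sound parWF r2 pf2038 h2038
  have h2040 := checkRangeG_sound parWF r2 pf2039 h2039
  have h2041 := checkRangeG_sound parWF r2 pf2040 h2040
  have h2042 := checkRangeG_sound parWF r2 pf2041 h2041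
  have h2043 := checkRangeG_sound parWF r2 pf2042 h2042
  have h2044 := checkRangeG_sound parWF r2 pf2043 h2043
  have h2045 := checkRangeG_sound parWF r2 pf2044 h2044
  have h2046 := checkRangeG_sound parWF r2 pf2045 h2045
  have h2047 := checkRangeG_sound parWF r2 pf2046 h2046
  have h2048 := checkRangeG_sound parWF r2 pf2047 h2047
  have h2049 := checkRangeG_sound parWF r2 pf2048 h2048
  have h2050 := checkRangeG_sound parWF r2 pf2049 h2049
  exact h2050

theorem c41 (h2050 : ∀ j, j < 5881 → GoodG.{u} par (db j)) : ∀ j, j < 6015 → GoodG.{u} par (db j) := by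
  have h2051 := checkRangeG_sound parWF r2 pf2050 h2050
  have h2052 := checkRangeG_sound parWF r2 pf2051 h2051
  have h2053 := checkRangeG_sound parWF r2 pf2052 h2052
  have h2054 := checkRangeG_sound parWF r2 pf2053 h2053
  have h2055 := checkRangeG_sound parWF r2 pf2054 h2054
  have h2056 := checkRangeG_sound parWF r2 pf2055 h2055
  have h2057 := checkRangeG_sound parWF r2 pf2056 h2056
  have h2058 := checkRangeG_sound parWF r2 pf2057 h2057
  have h2059 := checkRangeG_sound parWF r2 pf2058 h2058
  have h2060 := checkRangeG_sound parWF r2 pf2059 h2059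
  have h2061 := checkRangeG_sound parWF r2 pf2060 h2060
  have h2062 := checkRangeG_sound parWF r2 pf2061 h2061
  have h2063 := checkRangeG_sound parWF r2 pf2062 h2062
  have h2064 := checkRangeG_sound parWF r2 pf2063 h2063
  have h2065 := checkRangeG_sound parWF r2 pf2064 h2064
  have h2066 := checkRangeG_sound parWF r2 pf2065 h2065
  have h2067 := checkRangeG_sound parWF r2 pf2066 h2066
  have h2068 := checkRangeG_sound parWF r2 pf2067 h2067
  have h2069 := checkRangeG_sound parWF r2 pf2068 h2068
  have h2070 := checkRangeG_sound parWF r2 pf2069 h2069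
  have h2071 := checkRangeG_sound parWF r2 pf2070 h2070
  have h2072 := checkRangeG_sound parWF r2 pf2071 h2071
  have h2073 := checkRangeG_sound parWF r2 pf2072 h2072
  have h2074 := checkRangeG_sound parWF r2 pf2073 h2073
  have h2075 := checkRangeG_sound parWF r2 pf2074 h2074
  have h2076 := checkRangeG_sound parWF r2 pf2075 h2075
  have h2077 := checkRangeG_sound parWF r2 pf2076 h2076
  have h2078 := checkRangeG_sound parWF r2 pf2077 h2077
  have h2079 := checkRangeG_sound parWF r2 pf2078 h2078
  have h2080 := checkRangeG_sound parWF r2 pf2079 h2079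
  have h2081 := checkRangeG_sound parWF r2 pf2080 h2080
  have h2082 := checkRangeG_sound parWF r2 pf2081 h2081
  have h2083 := checkRangeG_sound parWF r2 pf2082 h2082
  have h2084 := checkRangeG_sound parWF r2 pf2083 h2083
  have h2085 := checkRangeG_sound parWF r2 pf2084 h2084
  have h2086 := checkRangeG_sound parWF r2 pf2085 h2085
  have h2087 := checkRangeG_sound parWF r2 pf2086 h2086
  have h2088 := checkRangeG_sound parWF r2 pf2087 h2087
  have h2089 := checkRangeG_sound parWF r2 pf2088 h2088
  have h2090 := checkRangeG_sound parWF r2 pf2089 h2089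
  have h2091 := checkRangeG_sound parWF r2 pf2090 h2090
  have h2092 := checkRangeG_sound parWF r2 pf2091 h2091
  have h2093 := checkRangeG_sound parWF r2 pf2092 h2092
  have h2094 := checkRangeG_sound parWF r2 pf2093 h2093
  have h2095 := checkRangeG_sound parWF r2 pf2094 h2094
  have h2096 := checkRangeG_sound parWF r2 pf2095 h2095
  have h2097 := checkRangeG_sound parWF r2 pf2096 h2096
  have h2098 := checkRangeG_sound parWF r2 pf2097 h2097
  have h2099 := checkRangeG_sound parWF r2 pf2098 h2098
  have h2100 := checkRangeG_sound parWF r2 pf2099 h2099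
  exact h2100

theorem c42 (h2100 : ∀ j, j < 6015 → GoodG.{u} par (db j)) : ∀ j, j < 6150 → GoodG.{u} par (db j) := by
  have h2101 := checkRangeG_sound parWF r2 pf2100 h2100
  have h2102 := checkRangeG_sound parWF r2 pf2101 h2101
  have h2103 := checkRangeG_sound parWF r2 pf2102 h2102
  have h2104 := checkRangeG_sound parWF r2 pf2103 h2103
  have h2105 := checkRangeG_sound parWF r2 pf2104 h2104
  have h2106 := checkRangeG_sound parWF r2 pf2105 h2105
  have h2107 := checkRangeG_sound parWF r2 pf2106 h2106
  have h2108 := checkRangeG_sound parWF r2 pf2107 h2107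
  have h2109 := checkRangeG_sound parWF r2 pf2108 h2108
  have h2110 := checkRangeG_sound parWF r2 pf2109 h2109
  have h2111 := checkRangeG_sound parWF r2 pf2110 h2110
  have h2112 := checkRangeG_sound parWF r2 pf2111 h2111
  have h2113 := checkRangeG_sound parWF r2 pf2112 h2112
  have h2114 := checkRangeG_sound parWF r2 pf2113 h2113
  have h2115 := checkRangeG_sound parWF r2 pf2114 h2114
  have h2116 := checkRangeG_sound parWF r2 pf2115 h2115
  have h2117 := checkRangeG_sound parWF r2 pf2116 h2116
  have h2118 := checkRangeG_sound parWF r2 pf2117 h2117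
  have h2119 := checkRangeG_sound parWF r2 pf2118 h2118
  have h2120 := checkRangeG_sound parWF r2 pf2119 h2119
  have h2121 := checkRangeG_sound parWF r2 pf2120 h2120
  have h2122 := checkRangeG_sound parWF r2 pf2121 h2121
  have h2123 := checkRangeG_sound parWF r2 pf2122 h2122
  have h2124 := checkRangeG_sound parWF r2 pf2123 h2123
  have h2125 := checkRangeG_sound parWF r2 pf2124 h2124
  have h2126 := checkRangeG_sound parWF r2 pf2125 h2125
  have h2127 := checkRangeG_sound parWF r2 pf2126 h2126
  have h2128 := checkRangeG_sound parWF r2 pf2127 h2127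
  have h2129 := checkRangeG_sound parWF r2 pf2128 h2128
  have h2130 := checkRangeG_sound parWF r2 pf2129 h2129
  have h2131 := checkRangeG_sound parWF r2 pf2130 h2130
  have h2132 := checkRangeG_sound parWF r2 pf2131 h2131
  have h2133 := checkRangeG_sound parWF r2 pf2132 h2132
  have h2134 := checkRangeG_sound parWF r2 pf2133 h2133
  have h2135 := checkRangeG_sound parWF r2 pf2134 h2134
  have h2136 := checkRangeG_sound parWF r2 pf2135 h2135
  have h2137 := checkRangeG_sound parWF r2 pf2136 h2136
  have h2138 := checkRangeG_sound parWF r2 pf2137 h2137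
  have h2139 := checkRangeG_sound parWF r2 pf2138 h2138
  have h2140 := checkRangeG_sound parWF r2 pf2139 h2139
  have h2141 := checkRangeG_sound parWF r2 pf2140 h2140
  have h2142 := checkRangeG_sound parWF r2 pf2141 h2141
  have h2143 := checkRangeG_sound parWF r2 pf2142 h2142
  have h2144 := checkRangeG_sound parWF r2 pf2143 h2143
  have h2145 := checkRangeG_sound parWF r2 pf2144 h2144
  have h2146 := checkRangeG_sound parWF r2 pf2145 h2145
  have h2147 := checkRangeG_sound parWF r2 pf2146 h2146
  have h2148 := checkRangeG_sound parWF r2 pf2147 h2147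
  have h2149 := checkRangeG_sound parWF r2 pf2148 h2148
  have h2150 := checkRangeG_sound parWF r2 pf2149 h2149
  exact h2150

theorem c43 (h2150 : ∀ j, j < 6150 → GoodG.{u} par (db j)) : ∀ j, j < 6277 → GoodG.{u} par (db j) := by
  have h2151 := checkRangeG_sound parWF r2 pf2150 h2150
  have h2152 := checkRangeG_sound parWF r2 pf2151 h2151
  have h2153 := checkRangeG_sound parWF r2 pf2152 h2152
  have h2154 := checkRangeG_sound parWF r2 pf2153 h2153
  have h2155 := checkRangeG_sound parWF r2 pf2154 h2154
  have h2156 := checkRangeG_sound parWF r2 pf2155 h2155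
  have h2157 := checkRangeG_sound parWF r2 pf2156 h2156
  have h2158 := checkRangeG_sound parWF r2 pf2157 h2157
  have h2159 := checkRangeG_sound parWF r2 pf2158 h2158
  have h2160 := checkRangeG_sound parWF r2 pf2159 h2159
  have h2161 := checkRangeG_sound parWF r2 pf2160 h2160
  have h2162 := checkRangeG_sound parWF r2 pf2161 h2161
  have h2163 := checkRangeG_sound parWF r2 pf2162 h2162
  have h2164 := checkRangeG_sound parWF r2 pf2163 h2163
  have h2165 := checkRangeG_sound parWF r2 pf2164 h2164
  have h2166 := checkRangeG_sound parWF r2 pf2165 h2165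
  have h2167 := checkRangeG_sound parWF r2 pf2166 h2166
  have h2168 := checkRangeG_sound parWF r2 pf2167 h2167
  have h2169 := checkRangeG_sound parWF r2 pf2168 h2168
  have h2170 := checkRangeG_sound parWF r2 pf2169 h2169
  have h2171 := checkRangeG_sound parWF r2 pf2170 h2170
  have h2172 := checkRangeG_sound parWF r2 pf2171 h2171
  have h2173 := checkRangeG_sound parWF r2 pf2172 h2172
  have h2174 := checkRangeG_sound parWF r2 pf2173 h2173
  have h2175 := checkRangeG_sound parWF r2 pf2174 h2174
  have h2176 := checkRangeG_sound parWF r2 pf2175 h2175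
  have h2177 := checkRangeG_sound parWF r2 pf2176 h2176
  have h2178 := checkRangeG_sound parWF r2 pf2177 h2177
  have h2179 := checkRangeG_sound parWF r2 pf2178 h2178
  have h2180 := checkRangeG_sound parWF r2 pf2179 h2179
  have h2181 := checkRangeG_sound parWF r2 pf2180 h2180
  have h2182 := checkRangeG_sound parWF r2 pf2181 h2181
  have h2183 := checkRangeG_sound parWF r2 pf2182 h2182
  have h2184 := checkRangeG_sound parWF r2 pf2183 h2183
  have h2185 := checkRangeG_sound parWF r2 pf2184 h2184
  have h2186 := checkRangeG_sound parWF r2 pf2185 h2185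
  have h2187 := checkRangeG_sound parWF r2 pf2186 h2186
  have h2188 := checkRangeG_sound parWF r2 pf2187 h2187
  have h2189 := checkRangeG_sound parWF r2 pf2188 h2188
  have h2190 := checkRangeG_sound parWF r2 pf2189 h2189
  have h2191 := checkRangeG_sound parWF r2 pf2190 h2190
  have h2192 := checkRangeG_sound parWF r2 pf2191 h2191
  have h2193 := checkRangeG_sound parWF r2 pf2192 h2192
  have h2194 := checkRangeG_sound parWF r2 pf2193 h2193
  have h2195 := checkRangeG_sound parWF r2 pf2194 h2194
  have h2196 := checkRangeG_sound parWF r2 pf2195 h2195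
  have h2197 := checkRangeG_sound parWF r2 pf2196 h2196
  have h2198 := checkRangeG_sound parWF r2 pf2197 h2197
  have h2199 := checkRangeG_sound parWF r2 pf2198 h2198
  have h2200 := checkRangeG_sound parWF r2 pf2199 h2199
  exact h2200

theorem c44 (h2200 : ∀ j, j < 6277 → GoodG.{u} par (db j)) : ∀ j, j < 6406 → GoodG.{u} par (db j) := by
  have h2201 := checkRangeG_sound parWF r2 pf2200 h2200
  have h2202 := checkRangeG_sound parWF r2 pf2201 h2201
  have h2203 := checkRangeG_sound parWF r2 pf2202 h2202
  have h2204 := checkRangeG_sound parWF r2 pf2203 h2203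
  have h2205 := checkRangeG_sound parWF r2 pf2204 h2204
  have h2206 := checkRangeG_sound parWF r2 pf2205 h2205
  have h2207 := checkRangeG_sound parWF r2 pf2206 h2206
  have h2208 := checkRangeG_sound parWF r2 pf2207 h2207
  have h2209 := checkRangeG_sound parWF r2 pf2208 h2208
  have h2210 := checkRangeG_sound parWF r2 pf2209 h2209
  have h2211 := checkRangeG_sound parWF r2 pf2210 h2210
  have h2212 := checkRangeG_sound parWF r2 pf2211 h2211
  have h2213 := checkRangeG_sound parWF r2 pf2212 h2212
  have h2214 := checkRangeG_sound parWF r2 pf2213 h2213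
  have h2215 := checkRangeG_sound parWF r2 pf2214 h2214
  have h2216 := checkRangeG_sound parWF r2 pf2215 h2215
  have h2217 := checkRangeG_sound parWF r2 pf2216 h2216
  have h2218 := checkRangeG_sound parWF r2 pf2217 h2217
  have h2219 := checkRangeG_sound parWF r2 pf2218 h2218
  have h2220 := checkRangeG_sound parWF r2 pf2219 h2219
  have h2221 := checkRangeG_sound parWF r2 pf2220 h2220
  have h2222 := checkRangeG_sound parWF r2 pf2221 h2221
  have h2223 := checkRangeG_sound parWF r2 pf2222 h2222
  have h2224 := checkRangeG_sound parWF r2 pf2223 h2223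
  have h2225 := checkRangeG_sound parWF r2 pf2224 h2224
  have h2226 := checkRangeG_sound parWF r2 pf2225 h2225
  have h2227 := checkRangeG_sound parWF r2 pf2226 h2226
  have h2228 := checkRangeG_sound parWF r2 pf2227 h2227
  have h2229 := checkRangeG_sound parWF r2 pf2228 h2228
  have h2230 := checkRangeG_sound parWF r2 pf2229 h2229
  have h2231 := checkRangeG_sound parWF r2 pf2230 h2230
  have h2232 := checkRangeG_sound parWF r2 pf2231 h2231
  have h2233 := checkRangeG_sound parWF r2 pf2232 h2232
  have h2234 := checkRangeG_sound parWF r2 pf2233 h2233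
  have h2235 := checkRangeG_sound parWF r2 pf2234 h2234
  have h2236 := checkRangeG_sound parWF r2 pf2235 h2235
  have h2237 := checkRangeG_sound parWF r2 pf2236 h2236
  have h2238 := checkRangeG_sound parWF r2 pf2237 h2237
  have h2239 := checkRangeG_sound parWF r2 pf2238 h2238
  have h2240 := checkRangeG_sound parWF r2 pf2239 h2239
  have h2241 := checkRangeG_sound parWF r2 pf2240 h2240
  have h2242 := checkRangeG_sound parWF r2 pf2241 h2241
  have h2243 := checkRangeG_sound parWF r2 pf2242 h2242
  have h2244 := checkRangeG_sound parWF r2 pf2243 h2243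
  have h2245 := checkRangeG_sound parWF r2 pf2244 h2244
  have h2246 := checkRangeG_sound parWF r2 pf2245 h2245
  have h2247 := checkRangeG_sound parWF r2 pf2246 h2246
  have h2248 := checkRangeG_sound parWF r2 pf2247 h2247
  have h2249 := checkRangeG_sound parWF r2 pf2248 h2248
  have h2250 := checkRangeG_sound parWF r2 pf2249 h2249
  exact h2250

theorem c45 (h2250 : ∀ j, j < 6406 → GoodG.{u} par (db j)) : ∀ j, j < 6565 → GoodG.{u} par (db j) := by
  have h2251 := checkRangeG_sound parWF r2 pf2250 h2250
  have h2252 := checkRangeG_sound parWF r2 pf2251 h2251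
  have h2253 := checkRangeG_sound parWF r2 pf2252 h2252
  have h2254 := checkRangeG_sound parWF r2 pf2253 h2253
  have h2255 := checkRangeG_sound parWF r2 pf2254 h2254
  have h2256 := checkRangeG_sound parWF r2 pf2255 h2255
  have h2257 := checkRangeG_sound parWF r2 pf2256 h2256
  have h2258 := checkRangeG_sound parWF r2 pf2257 h2257
  have h2259 := checkRangeG_sound parWF r2 pf2258 h2258
  have h2260 := checkRangeG_sound parWF r2 pf2259 h2259
  have h2261 := checkRangeG_sound parWF r2 pf2260 h2260
  have h2262 := checkRangeG_sound parWF r2 pf2261 h2261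
  have h2263 := checkRangeG_sound parWF r2 pf2262 h2262
  have h2264 := checkRangeG_sound parWF r2 pf2263 h2263
  have h2265 := checkRangeG_sound parWF r2 pf2264 h2264
  have h2266 := checkRangeG_sound parWF r2 pf2265 h2265
  have h2267 := checkRangeG_sound parWF r2 pf2266 h2266
  have h2268 := checkRangeG_sound parWF r2 pf2267 h2267
  have h2269 := checkRangeG_sound parWF r2 pf2268 h2268
  have h2270 := checkRangeG_sound parWF r2 pf2269 h2269
  have h2271 := checkRangeG_sound parWF r2 pf2270 h2270
  have h2272 := checkRangeG_sound parWF r2 pf2271 h2271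
  have h2273 := checkRangeG_sound parWF r2 pf2272 h2272
  have h2274 := checkRangeG_sound parWF r2 pf2273 h2273
  have h2275 := checkRangeG_sound parWF r2 pf2274 h2274
  have h2276 := checkRangeG_sound parWF r2 pf2275 h2275
  have h2277 := checkRangeG_sound parWF r2 pf2276 h2276
  have h2278 := checkRangeG_sound parWF r2 pf2277 h2277
  have h2279 := checkRangeG_sound parWF r2 pf2278 h2278
  have h2280 := checkRangeG_sound parWF r2 pf2279 h2279
  have h2281 := checkRangeG_sound parWF r2 pf2280 h2280
  have h2282 := checkRangeG_sound parWF r2 pf2281 h2281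
  have h2283 := checkRangeG_sound parWF r2 pf2282 h2282
  have h2284 := checkRangeG_sound parWF r2 pf2283 h2283
  have h2285 := checkRangeG_sound parWF r2 pf2284 h2284
  have h2286 := checkRangeG_sound parWF r2 pf2285 h2285
  have h2287 := checkRangeG_sound parWF r2 pf2286 h2286
  have h2288 := checkRangeG_sound parWF r2 pf2287 h2287
  have h2289 := checkRangeG_sound parWF r2 pf2288 h2288
  have h2290 := checkRangeG_sound parWF r2 pf2289 h2289
  have h2291 := checkRangeG_sound parWF r2 pf2290 h2290
  have h2292 := checkRangeG_sound parWF r2 pf2291 h2291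
  have h2293 := checkRangeG_sound parWF r2 pf2292 h2292
  have h2294 := checkRangeG_sound parWF r2 pf2293 h2293
  have h2295 := checkRangeG_sound parWF r2 pf2294 h2294
  have h2296 := checkRangeG_sound parWF r2 pf2295 h2295
  have h2297 := checkRangeG_sound parWF r2 pf2296 h2296
  have h2298 := checkRangeG_sound parWF r2 pf2297 h2297
  have h2299 := checkRangeG_sound parWF r2 pf2298 h2298
  have h2300 := checkRangeG_sound parWF r2 pf2299 h2299
  exact h2300

theorem c46 (h2300 : ∀ j, j < 6565 → GoodG.{u} par (db j)) : ∀ j, j < 6730 → GoodG.{u} par (db j) := by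
  have h2301 := checkRangeG_sound parWF r2 pf2300 h2300
  have h2302 := checkRangeG_sound parWF r2 pf2301 h2301
  have h2303 := checkRangeG_sound parWF r2 pf2302 h2302
  have h2304 := checkRangeG_sound parWF r2 pf2303 h2303
  have h2305 := checkRangeG_sound parWF r2 pf2304 h2304
  have h2306 := checkRangeG_sound parWF r2 pf2305 h2305
  have h2307 := checkRangeG_sound parWF r2 pf2306 h2306
  have h2308 := checkRangeG_sound parWF r2 pf2307 h2307
  have h2309 := checkRangeG_sound parWF r2 pf2308 h2308
  have h2310 := checkRangeG_sound parWF r2 pf2309 h2309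
  have h2311 := checkRangeG_sound parWF r2 pf2310 h2310
  have h2312 := checkRangeG_sound parWF r2 pf2311 h2311
  have h2313 := checkRangeG_sound parWF r2 pf2312 h2312
  have h2314 := checkRangeG_sound parWF r2 pf2313 h2313
  have h2315 := checkRangeG_sound parWF r2 pf2314 h2314
  have h2316 := checkRangeG_sound parWF r2 pf2315 h2315
  have h2317 := checkRangeG_sound parWF r2 pf2316 h2316
  have h2318 := checkRangeG_sound parWF r2 pf2317 h2317
  have h2319 := checkRangeG_sound parWF r2 pf2318 h2318
  have h2320 := checkRangeG_sound parWF r2 pf2319 h2319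
  have h2321 := checkRangeG_sound parWF r2 pf2320 h2320
  have h2322 := checkRangeG_sound parWF r2 pf2321 h2321
  have h2323 := checkRangeG_sound parWF r2 pf2322 h2322
  have h2324 := checkRangeG_sound parWF r2 pf2323 h2323
  have h2325 := checkRangeG_sound parWF r2 pf2324 h2324
  have h2326 := checkRangeG_sound parWF r2 pf2325 h2325
  have h2327 := checkRangeG_sound parWF r2 pf2326 h2326
  have h2328 := checkRangeG_sound parWF r2 pf2327 h2327
  have h2329 := checkRangeG_sound parWF r2 pf2328 h2328
  have h2330 := checkRangeG_sound parWF r2 pf2329 h2329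
  have h2331 := checkRangeG_sound parWF r2 pf2330 h2330
  have h2332 := checkRangeG_sound parWF r2 pf2331 h2331
  have h2333 := checkRangeG_sound parWF r2 pf2332 h2332
  have h2334 := checkRangeG_sound parWF r2 pf2333 h2333
  have h2335 := checkRangeG_sound parWF r2 pf2334 h2334
  have h2336 := checkRangeG_sound parWF r2 pf2335 h2335
  have h2337 := checkRangeG_sound parWF r2 pf2336 h2336
  have h2338 := checkRangeG_sound parWF r2 pf2337 h2337
  have h2339 := checkRangeG_sound parWF r2 pf2338 h2338
  have h2340 := checkRangeG_sound parWF r2 pf2339 h2339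
  have h2341 := checkRangeG_sound parWF r2 pf2340 h2340
  have h2342 := checkRangeG_sound parWF r2 pf2341 h2341
  have h2343 := checkRangeG_sound parWF r2 pf2342 h2342
  have h2344 := checkRangeG_sound parWF r2 pf2343 h2343
  have h2345 := checkRangeG_sound parWF r2 pf2344 h2344
  have h2346 := checkRangeG_sound parWF r2 pf2345 h2345
  have h2347 := checkRangeG_sound parWF r2 pf2346 h2346
  have h2348 := checkRangeG_sound parWF r2 pf2347 h2347
  have h2349 := checkRangeG_sound parWF r2 pf2348 h2348
  have h2350 := checkRangeG_sound parWF r2 pf2349 h2349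
  exact h2350

theorem c47 (h2350 : ∀ j, j < 6730 → GoodG.{u} par (db j)) : ∀ j, j < 6935 → GoodG.{u} par (db j) := by
  have h2351 := checkRangeG_sound parWF r2 pf2350 h2350
  have h2352 := checkRangeG_sound parWF r2 pf2351 h2351
  have h2353 := checkRangeG_sound parWF r2 pf2352 h2352
  have h2354 := checkRangeG_sound parWF r2 pf2353 h2353
  have h2355 := checkRangeG_sound parWF r2 pf2354 h2354
  have h2356 := checkRangeG_sound parWF r2 pf2355 h2355
  have h2357 := checkRangeG_sound parWF r2 pf2356 h2356
  have h2358 := checkRangeG_sound parWF r2 pf2357 h2357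
  have h2359 := checkRangeG_sound parWF r2 pf2358 h2358
  have h2360 := checkRangeG_sound parWF r2 pf2359 h2359
  have h2361 := checkRangeG_sound parWF r2 pf2360 h2360
  have h2362 := checkRangeG_sound parWF r2 pf2361 h2361
  have h2363 := checkRangeG_sound parWF r2 pf2362 h2362
  have h2364 := checkRangeG_sound parWF r2 pf2363 h2363
  have h2365 := checkRangeG_sound parWF r2 pf2364 h2364
  have h2366 := checkRangeG_sound parWF r2 pf2365 h2365
  have h2367 := checkRangeG_sound parWF r2 pf2366 h2366
  have h2368 := checkRangeG_sound parWF r2 pf2367 h2367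
  have h2369 := checkRangeG_sound parWF r2 pf2368 h2368
  have h2370 := checkRangeG_sound parWF r2 pf2369 h2369
  have h2371 := checkRangeG_sound parWF r2 pf2370 h2370
  have h2372 := checkRangeG_sound parWF r2 pf2371 h2371
  have h2373 := checkRangeG_sound parWF r2 pf2372 h2372
  have h2374 := checkRangeG_sound parWF r2 pf2373 h2373
  have h2375 := checkRangeG_sound parWF r2 pf2374 h2374
  have h2376 := checkRangeG_sound parWF r2 pf2375 h2375
  have h2377 := checkRangeG_sound parWF r2 pf2376 h2376
  have h2378 := checkRangeG_sound parWF r2 pf2377 h2377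
  have h2379 := checkRangeG_sound parWF r2 pf2378 h2378
  have h2380 := checkRangeG_sound parWF r2 pf2379 h2379
  have h2381 := checkRangeG_sound parWF r2 pf2380 h2380
  have h2382 := checkRangeG_sound parWF r2 pf2381 h2381
  have h2383 := checkRangeG_sound parWF r2 pf2382 h2382
  have h2384 := checkRangeG_sound parWF r2 pf2383 h2383
  have h2385 := checkRangeG_sound parWF r2 pf2384 h2384
  have h2386 := checkRangeG_sound parWF r2 pf2385 h2385
  have h2387 := checkRangeG_sound parWF r2 pf2386 h2386
  have h2388 := checkRangeG_sound parWF r2 pf2387 h2387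
  have h2389 := checkRangeG_sound parWF r2 pf2388 h2388
  have h2390 := checkRangeG_sound parWF r2 pf2389 h2389
  have h2391 := checkRangeG_sound parWF r2 pf2390 h2390
  have h2392 := checkRangeG_sound parWF r2 pf2391 h2391
  have h2393 := checkRangeG_sound parWF r2 pf2392 h2392
  have h2394 := checkRangeG_sound parWF r2 pf2393 h2393
  have h2395 := checkRangeG_sound parWF r2 pf2394 h2394
  have h2396 := checkRangeG_sound parWF r2 pf2395 h2395
  have h2397 := checkRangeG_sound parWF r2 pf2396 h2396
  have h2398 := checkRangeG_sound parWF r2 pf2397 h2397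
  have h2399 := checkRangeG_sound parWF r2 pf2398 h2398
  have h2400 := checkRangeG_sound parWF r2 pf2399 h2399
  exact h2400


end Vale.Agent.P045g.C61
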