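import Vale.Agent.P045g.C61.WF
import Vale.Agent.P045g.C61.Pf300
import Vale.Agent.P045g.C61.Pf301
import Vale.Agent.P045g.C61.Pf302
import Vale.Agent.P045g.C61.Pf303
import Vale.Agent.P045g.C61.Pf304
import Vale.Agent.P045g.C61.Pf305
import Vale.Agent.P045g.C61.Pf306
import Vale.Agent.P045g.C61.Pf307
import Vale.Agent.P045g.C61.Pf308
import Vale.Agent.P045g.C61.Pf309

namespace Vale.Agent.P045g.C61

open Vale.Agent.P045b Vale.Agent.P045g

universe u

theorem c360 (h18000 : ∀ j, j < 56306 → GoodG.{u} par (db j)) : ∀ j, j < 56476 → GoodG.{u} par (db j) := by
  have h18001 := checkRangeG_sound parWF r2 pf18000 h18000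
  have h18002 := checkRangeG_sound parWF r2 pf18001 h18001
  have h18003 := checkRangeG_sound parWF r2 pf18002 h18002
  have h18004 := checkRangeG_sound parWF r2 pf18003 h18003
  have h18005 := checkRangeG_sound parWF r2 pf18004 h18004
  have h18006 := checkRangeG_sound parWF r2 pf18005 h18005
  have h18007 := checkRangeG_sound parWF r2 pf18006 h18006
  have h18008 := checkRangeG_sound parWF r2 pf18007 h18007
  have h18009 := checkRangeG_sound parWF r2 pf18008 h18008
  have h18010 := checkRangeG_sound parWF r2 pf18009 h18009
  have h18011 := checkRangeG_sound parWF r2 pf18010 h18010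
  have h18012 := checkRangeG_sound parWF r2 pf18011 h18011
  have h18013 := checkRangeG_sound parWF r2 pf18012 h18012
  have h18014 := checkRangeG_sound parWF r2 pf18013 h18013
  have h18015 := checkRangeG_sound parWF r2 pf18014 h18014
  have h18016 := checkRangeG_sound parWF r2 pf18015 h18015
  have h18017 := checkRangeG_sound parWF r2 pf18016 h18016
  have h18018 := checkRangeG_sound parWF r2 pf18017 h18017
  have h18019 := checkRangeG_sound parWF r2 pf18018 h18018
  have h18020 := checkRangeG_sound parWF r2 pf18019 h18019
  have h18021 := checkRangeG_sound parWF r2 pf18020 h18020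
  have h18022 := checkRangeG_sound parWF r2 pf18021 h18021
  have h18023 := checkRangeG_sound parWF r2 pf18022 h18022
  have h18024 := checkRangeG_sound parWF r2 pf18023 h18023
  have h18025 := checkRangeG_sound parWF r2 pf18024 h18024
  have h18026 := checkRangeG_sound parWF r2 pf18025 h18025
  have h18027 := checkRangeG_sound parWF r2 pf18026 h18026
  have h18028 := checkRangeG_sound parWF r2 pf18027 h18027
  have h18029 := checkRangeG_sound parWF r2 pf18028 h18028
  have h18030 := checkRangeG_sound parWF r2 pf18029 h18029
  have h18031 := checkRangeG_sound parWF r2 pf18030 h18030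
  have h18032 := checkRangeG_sound parWF r2 pf18031 h18031
  have h18033 := checkRangeG_sound parWF r2 pf18032 h18032
  have h18034 := checkRangeG_sound parWF r2 pf18033 h18033
  have h18035 := checkRangeG_sound parWF r2 pf18034 h18034
  have h18036 := checkRangeG_sound parWF r2 pf18035 h18035
  have h18037 := checkRangeG_sound parWF r2 pf18036 h18036
  have h18038 := checkRangeG_sound parWF r2 pf18037 h18037
  have h18039 := checkRangeG_sound parWF r2 pf18038 h18038
  have h18040 := checkRangeG_sound parWF r2 pf18039 h18039
  have h18041 := checkRangeG_sound parWF r2 pf18040 h18040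
  have h18042 := checkRangeG_sound parWF r2 pf18041 h18041
  have h18043 := checkRangeG_sound parWF r2 pf18042 h18042
  have h18044 := checkRangeG_sound parWF r2 pf18043 h18043
  have h18045 := checkRangeG_sound parWF r2 pf18044 h18044
  have h18046 := checkRangeG_sound parWF r2 pf18045 h18045
  have h18047 := checkRangeG_sound parWF r2 pf18046 h18046
  have h18048 := checkRangeG_sound parWF r2 pf18047 h18047
  have h18049 := checkRangeG_sound parWF r2 pf18048 h18048
  have h18050 := checkRangeG_sound parWF r2 pf18049 h18049
  exact h18050

theorem c361 (h18050 : ∀ j, j < 56476 → GoodG.{u} par (db j)) : ∀ j, j < 56614 → GoodG.{u} par (db j) := by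
  have h18051 := checkRangeG_sound parWF r2 pf18050 h18050
  have h18052 := checkRangeG_sound parWF r2 pf18051 h18051
  have h18053 := checkRangeG_sound parWF r2 pf18052 h18052
  have h18054 := checkRangeG_sound parWF r2 pf18053 h18053
  have h18055 := checkRangeG_sound parWF r2 pf18054 h18054
  have h18056 := checkRangeG_sound parWF r2 pf18055 h18055
  have h18057 := checkRangeG_sound parWF r2 pf18056 h18056
  have h18058 := checkRangeG_sound parWF r2 pf18057 h18057
  have h18059 := checkRangeG_sound parWF r2 pf18058 h18058
  have h18060 := checkRangeG_sound parWF r2 pf18059 h18059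
  have h18061 := checkRangeG_sound parWF r2 pf18060 h18060
  have h18062 := checkRangeG_sound parWF r2 pf18061 h18061
  have h18063 := checkRangeG_sound parWF r2 pf18062 h18062
  have h18064 := checkRangeG_sound parWF r2 pf18063 h18063
  have h18065 := checkRangeG_sound parWF r2 pf18064 h18064
  have h18066 := checkRangeG_sound parWF r2 pf18065 h18065
  have h18067 := checkRangeG_sound parWF r2 pf18066 h18066
  have h18068 := checkRangeG_sound parWF r2 pf18067 h18067
  have h18069 := checkRangeG_sound parWF r2 pf18068 h18068
  have h18070 := checkRangeG_sound parWF r2 pf18069 h18069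
  have h18071 := checkRangeG_sound parWF r2 pf18070 h18070
  have h18072 := checkRangeG_sound parWF r2 pf18071 h18071
  have h18073 := checkRangeG_sound parWF r2 pf18072 h18072
  have h18074 := checkRangeG_sound parWF r2 pf18073 h18073
  have h18075 := checkRangeG_sound parWF r2 pf18074 h18074
  have h18076 := checkRangeG_sound parWF r2 pf18075 h18075
  have h18077 := checkRangeG_sound parWF r2 pf18076 h18076
  have h18078 := checkRangeG_sound parWF r2 pf18077 h18077
  have h18079 := checkRangeG_sound parWF r2 pf18078 h18078
  have h18080 := checkRangeG_sound parWF r2 pf18079 h18079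
  have h18081 := checkRangeG_sound parWF r2 pf18080 h18080
  have h18082 := checkRangeG_sound parWF r2 pf18081 h18081
  have h18083 := checkRangeG_sound parWF r2 pf18082 h18082
  have h18084 := checkRangeG_sound parWF r2 pf18083 h18083
  have h18085 := checkRangeG_sound parWF r2 pf18084 h18084
  have h18086 := checkRangeG_sound parWF r2 pf18085 h18085
  have h18087 := checkRangeG_sound parWF r2 pf18086 h18086
  have h18088 := checkRangeG_sound parWF r2 pf18087 h18087
  have h18089 := checkRangeG_sound parWF r2 pf18088 h18088
  have h18090 := checkRangeG_sound parWF r2 pf18089 h18089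
  have h18091 := checkRangeG_sound parWF r2 pf18090 h18090
  have h18092 := checkRangeG_sound parWF r2 pf18091 h18091
  have h18093 := checkRangeG_sound parWF r2 pf18092 h18092
  have h18094 := checkRangeG_sound parWF r2 pf18093 h18093
  have h18095 := checkRangeG_sound parWF r2 pf18094 h18094
  have h18096 := checkRangeG_sound parWF r2 pf18095 h18095
  have h18097 := checkRangeG_sound parWF r2 pf18096 h18096
  have h18098 := checkRangeG_sound parWF r2 pf18097 h18097
  have h18099 := checkRangeG_sound parWF r2 pf18098 h18098
  have h18100 := checkRangeG_sound parWF r2 pf18099 h18099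
  exact h18100

theorem c362 (h18100 : ∀ j, j < 56614 → GoodG.{u} par (db j)) : ∀ j, j < 56754 → GoodG.{u} par (db j) := by
  have h18101 := checkRangeG_sound parWF r2 pf18100 h18100
  have h18102 := checkRangeG_sound parWF r2 pf18101 h18101
  have h18103 := checkRangeG_sound parWF r2 pf18102 h18102
  have h18104 := checkRangeG_sound parWF r2 pf18103 h18103
  have h18105 := checkRangeG_sound parWF r2 pf18104 h18104
  have h18106 := checkRangeG_sound parWF r2 pf18105 h18105
  have h18107 := checkRangeG_sound parWF r2 pf18106 h18106
  have h18108 := checkRangeG_sound parWF r2 pf18107 h18107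
  have h18109 := checkRangeG_sound parWF r2 pf18108 h18108
  have h18110 := checkRangeG_sound parWF r2 pf18109 h18109
  have h18111 := checkRangeG_sound parWF r2 pf18110 h18110
  have h18112 := checkRangeG_sound parWF r2 pf18111 h18111
  have h18113 := checkRangeG_sound parWF r2 pf18112 h18112
  have h18114 := checkRangeG_sound parWF r2 pf18113 h18113
  have h18115 := checkRangeG_sound parWF r2 pf18114 h18114
  have h18116 := checkRangeG_sound parWF r2 pf18115 h18115
  have h18117 := checkRangeG_sound parWF r2 pf18116 h18116
  have h18118 := checkRangeG_sound parWF r2 pf18117 h18117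
  have h18119 := checkRangeG_sound parWF r2 pf18118 h18118
  have h18120 := checkRangeG_sound parWF r2 pf18119 h18119
  have h18121 := checkRangeG_sound parWF r2 pf18120 h18120
  have h18122 := checkRangeG_sound parWF r2 pf18121 h18121
  have h18123 := checkRangeG_sound parWF r2 pf18122 h18122
  have h18124 := checkRangeG_sound parWF r2 pf18123 h18123
  have h18125 := checkRangeG_sound parWF r2 pf18124 h18124
  have h18126 := checkRangeG_sound parWF r2 pf18125 h18125
  have h18127 := checkRangeG_sound parWF r2 pf18126 h18126
  have h18128 := checkRangeG_sound parWF r2 pf18127 h18127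
  have h18129 := checkRangeG_sound parWF r2 pf18128 h18128
  have h18130 := checkRangeG_sound parWF r2 pf18129 h18129
  have h18131 := checkRangeG_sound parWF r2 pf18130 h18130
  have h18132 := checkRangeG_sound parWF r2 pf18131 h18131
  have h18133 := checkRangeG_sound parWF r2 pf18132 h18132
  have h18134 := checkRangeG_sound parWF r2 pf18133 h18133
  have h18135 := checkRangeG_sound parWF r2 pf18134 h18134
  have h18136 := checkRangeG_sound parWF r2 pf18135 h18135
  have h18137 := checkRangeG_sound parWF r2 pf18136 h18136
  have h18138 := checkRangeG_sound parWF r2 pf18137 h18137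
  have h18139 := checkRangeG_sound parWF r2 pf18138 h18138
  have h18140 := checkRangeG_sound parWF r2 pf18139 h18139
  have h18141 := checkRangeG_sound parWF r2 pf18140 h18140
  have h18142 := checkRangeG_sound parWF r2 pf18141 h18141
  have h18143 := checkRangeG_sound parWF r2 pf18142 h18142
  have h18144 := checkRangeG_sound parWF r2 pf18143 h18143
  have h18145 := checkRangeG_sound parWF r2 pf18144 h18144
  have h18146 := checkRangeG_sound parWF r2 pf18145 h18145
  have h18147 := checkRangeG_sound parWF r2 pf18146 h18146
  have h18148 := checkRangeG_sound parWF r2 pf18147 h18147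
  have h18149 := checkRangeG_sound parWF r2 pf18148 h18148
  have h18150 := checkRangeG_sound parWF r2 pf18149 h18149
  exact h18150

theorem c363 (h18150 : ∀ j, j < 56754 → GoodG.{u} par (db j)) : ∀ j, j < 56906 → GoodG.{u} par (db j) := by
  have h18151 := checkRangeG_sound parWF r2 pf18150 h18150
  have h18152 := checkRangeG_sound parWF r2 pf18151 h18151
  have h18153 := checkRangeG_sound parWF r2 pf18152 h18152
  have h18154 := checkRangeG_sound parWF r2 pf18153 h18153
  have h18155 := checkRangeG_sound parWF r2 pf18154 h18154
  have h18156 := checkRangeG_sound parWF r2 pf18155 h18155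
  have h18157 := checkRangeG_sound parWF r2 pf18156 h18156
  have h18158 := checkRangeG_sound parWF r2 pf18157 h18157
  have h18159 := checkRangeG_sound parWF r2 pf18158 h18158
  have h18160 := checkRangeG_sound parWF r2 pf18159 h18159
  have h18161 := checkRangeG_sound parWF r2 pf18160 h18160
  have h18162 := checkRangeG_sound parWF r2 pf18161 h18161
  have h18163 := checkRangeG_sound parWF r2 pf18162 h18162
  have h18164 := checkRangeG_sound parWF r2 pf18163 h18163
  have h18165 := checkRangeG_sound parWF r2 pf18164 h18164
  have h18166 := checkRangeG_sound parWF r2 pf18165 h18165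
  have h18167 := checkRangeG_sound parWF r2 pf18166 h18166
  have h18168 := checkRangeG_sound parWF r2 pf18167 h18167
  have h18169 := checkRangeG_sound parWF r2 pf18168 h18168
  have h18170 := checkRangeG_sound parWF r2 pf18169 h18169
  have h18171 := checkRangeG_sound parWF r2 pf18170 h18170
  have h18172 := checkRangeG_sound parWF r2 pf18171 h18171
  have h18173 := checkRangeG_sound parWF r2 pf18172 h18172
  have h18174 := checkRangeG_sound parWF r2 pf18173 h18173
  have h18175 := checkRangeG_sound parWF r2 pf18174 h18174
  have h18176 := checkRangeG_sound parWF r2 pf18175 h18175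
  have h18177 := checkRangeG_sound parWF r2 pf18176 h18176
  have h18178 := checkRangeG_sound parWF r2 pf18177 h18177
  have h18179 := checkRangeG_sound parWF r2 pf18178 h18178
  have h18180 := checkRangeG_sound parWF r2 pf18179 h18179
  have h18181 := checkRangeG_sound parWF r2 pf18180 h18180
  have h18182 := checkRangeG_sound parWF r2 pf18181 h18181
  have h18183 := checkRangeG_sound parWF r2 pf18182 h18182
  have h18184 := checkRangeG_sound parWF r2 pf18183 h18183
  have h18185 := checkRangeG_sound parWF r2 pf18184 h18184
  have h18186 := checkRangeG_sound parWF r2 pf18185 h18185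
  have h18187 := checkRangeG_sound parWF r2 pf18186 h18186
  have h18188 := checkRangeG_sound parWF r2 pf18187 h18187
  have h18189 := checkRangeG_sound parWF r2 pf18188 h18188
  have h18190 := checkRangeG_sound parWF r2 pf18189 h18189
  have h18191 := checkRangeG_sound parWF r2 pf18190 h18190
  have h18192 := checkRangeG_sound parWF r2 pf18191 h18191
  have h18193 := checkRangeG_sound parWF r2 pf18192 h18192
  have h18194 := checkRangeG_sound parWF r2 pf18193 h18193
  have h18195 := checkRangeG_sound parWF r2 pf18194 h18194
  have h18196 := checkRangeG_sound parWF r2 pf18195 h18195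
  have h18197 := checkRangeG_sound parWF r2 pf18196 h18196
  have h18198 := checkRangeG_sound parWF r2 pf18197 h18197
  have h18199 := checkRangeG_sound parWF r2 pf18198 h18198
  have h18200 := checkRangeG_sound parWF r2 pf18199 h18199
  exact h18200

theorem c364 (h18200 : ∀ j, j < 56906 → GoodG.{u} par (db j)) : ∀ j, j < 57046 → GoodG.{u} par (db j) := by
  have h18201 := checkRangeG_sound parWF r2 pf18200 h18200
  have h18202 := checkRangeG_sound parWF r2 pf18201 h18201
  have h18203 := checkRangeG_sound parWF r2 pf18202 h18202
  have h18204 := checkRangeG_sound parWF r2 pf18203 h18203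
  have h18205 := checkRangeG_sound parWF r2 pf18204 h18204
  have h18206 := checkRangeG_sound parWF r2 pf18205 h18205
  have h18207 := checkRangeG_sound parWF r2 pf18206 h18206
  have h18208 := checkRangeG_sound parWF r2 pf18207 h18207
  have h18209 := checkRangeG_sound parWF r2 pf18208 h18208
  have h18210 := checkRangeG_sound parWF r2 pf18209 h18209
  have h18211 := checkRangeG_sound parWF r2 pf18210 h18210
  have h18212 := checkRangeG_sound parWF r2 pf18211 h18211
  have h18213 := checkRangeG_sound parWF r2 pf18212 h18212
  have h18214 := checkRangeG_sound parWF r2 pf18213 h18213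
  have h18215 := checkRangeG_sound parWF r2 pf18214 h18214
  have h18216 := checkRangeG_sound parWF r2 pf18215 h18215
  have h18217 := checkRangeG_sound parWF r2 pf18216 h18216
  have h18218 := checkRangeG_sound parWF r2 pf18217 h18217
  have h18219 := checkRangeG_sound parWF r2 pf18218 h18218
  have h18220 := checkRangeG_sound parWF r2 pf18219 h18219
  have h18221 := checkRangeG_sound parWF r2 pf18220 h18220
  have h18222 := checkRangeG_sound parWF r2 pf18221 h18221
  have h18223 := checkRangeG_sound parWF r2 pf18222 h18222
  have h18224 := checkRangeG_sound parWF r2 pf18223 h18223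
  have h18225 := checkRangeG_sound parWF r2 pf18224 h18224
  have h18226 := checkRangeG_sound parWF r2 pf18225 h18225
  have h18227 := checkRangeG_sound parWF r2 pf18226 h18226
  have h18228 := checkRangeG_sound parWF r2 pf18227 h18227
  have h18229 := checkRangeG_sound parWF r2 pf18228 h18228
  have h18230 := checkRangeG_sound parWF r2 pf18229 h18229
  have h18231 := checkRangeG_sound parWF r2 pf18230 h18230
  have h18232 := checkRangeG_sound parWF r2 pf18231 h18231
  have h18233 := checkRangeG_sound parWF r2 pf18232 h18232
  have h18234 := checkRangeG_sound parWF r2 pf18233 h18233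
  have h18235 := checkRangeG_sound parWF r2 pf18234 h18234
  have h18236 := checkRangeG_sound parWF r2 pf18235 h18235
  have h18237 := checkRangeG_sound parWF r2 pf18236 h18236
  have h18238 := checkRangeG_sound parWF r2 pf18237 h18237
  have h18239 := checkRangeG_sound parWF r2 pf18238 h18238
  have h18240 := checkRangeG_sound parWF r2 pf18239 h18239
  have h18241 := checkRangeG_sound parWF r2 pf18240 h18240
  have h18242 := checkRangeG_sound parWF r2 pf18241 h18241
  have h18243 := checkRangeG_sound parWF r2 pf18242 h18242
  have h18244 := checkRangeG_sound parWF r2 pf18243 h18243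
  have h18245 := checkRangeG_sound parWF r2 pf18244 h18244
  have h18246 := checkRangeG_sound parWF r2 pf18245 h18245
  have h18247 := checkRangeG_sound parWF r2 pf18246 h18246
  have h18248 := checkRangeG_sound parWF r2 pf18247 h18247
  have h18249 := checkRangeG_sound parWF r2 pf18248 h18248
  have h18250 := checkRangeG_sound parWF r2 pf18249 h18249
  exact h18250

theorem c365 (h18250 : ∀ j, j < 57046 → GoodG.{u} par (db j)) : ∀ j, j < 57189 → GoodG.{u} par (db j) := by
  have h18251 := checkRangeG_sound parWF r2 pf18250 h18250
  have h18252 := checkRangeG_sound parWF r2 pf18251 h18251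
  have h18253 := checkRangeG_sound parWF r2 pf18252 h18252
  have h18254 := checkRangeG_sound parWF r2 pf18253 h18253
  have h18255 := checkRangeG_sound parWF r2 pf18254 h18254
  have h18256 := checkRangeG_sound parWF r2 pf18255 h18255
  have h18257 := checkRangeG_sound parWF r2 pf18256 h18256
  have h18258 := checkRangeG_sound parWF r2 pf18257 h18257
  have h18259 := checkRangeG_sound parWF r2 pf18258 h18258
  have h18260 := checkRangeG_sound parWF r2 pf18259 h18259
  have h18261 := checkRangeG_sound parWF r2 pf18260 h18260
  have h18262 := checkRangeG_sound parWF r2 pf18261 h18261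
  have h18263 := checkRangeG_sound parWF r2 pf18262 h18262
  have h18264 := checkRangeG_sound parWF r2 pf18263 h18263
  have h18265 := checkRangeG_sound parWF r2 pf18264 h18264
  have h18266 := checkRangeG_sound parWF r2 pf18265 h18265
  have h18267 := checkRangeG_sound parWF r2 pf18266 h18266
  have h18268 := checkRangeG_sound parWF r2 pf18267 h18267
  have h18269 := checkRangeG_sound parWF r2 pf18268 h18268
  have h18270 := checkRangeG_sound parWF r2 pf18269 h18269
  have h18271 := checkRangeG_sound parWF r2 pf18270 h18270
  have h18272 := checkRangeG_sound parWF r2 pf18271 h18271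
  have h18273 := checkRangeG_sound parWF r2 pf18272 h18272
  have h18274 := checkRangeG_sound parWF r2 pf18273 h18273
  have h18275 := checkRangeG_sound parWF r2 pf18274 h18274
  have h18276 := checkRangeG_sound parWF r2 pf18275 h18275
  have h18277 := checkRangeG_sound parWF r2 pf18276 h18276
  have h18278 := checkRangeG_sound parWF r2 pf18277 h18277
  have h18279 := checkRangeG_sound parWF r2 pf18278 h18278
  have h18280 := checkRangeG_sound parWF r2 pf18279 h18279
  have h18281 := checkRangeG_sound parWF r2 pf18280 h18280
  have h18282 := checkRangeG_sound parWF r2 pf18281 h18281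
  have h18283 := checkRangeG_sound parWF r2 pf18282 h18282
  have h18284 := checkRangeG_sound parWF r2 pf18283 h18283
  have h18285 := checkRangeG_sound parWF r2 pf18284 h18284
  have h18286 := checkRangeG_sound parWF r2 pf18285 h18285
  have h18287 := checkRangeG_sound parWF r2 pf18286 h18286
  have h18288 := checkRangeG_sound parWF r2 pf18287 h18287
  have h18289 := checkRangeG_sound parWF r2 pf18288 h18288
  have h18290 := checkRangeG_sound parWF r2 pf18289 h18289
  have h18291 := checkRangeG_sound parWF r2 pf18290 h18290
  have h18292 := checkRangeG_sound parWF r2 pf18291 h18291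
  have h18293 := checkRangeG_sound parWF r2 pf18292 h18292
  have h18294 := checkRangeG_sound parWF r2 pf18293 h18293
  have h18295 := checkRangeG_sound parWF r2 pf18294 h18294
  have h18296 := checkRangeG_sound parWF r2 pf18295 h18295
  have h18297 := checkRangeG_sound parWF r2 pf18296 h18296
  have h18298 := checkRangeG_sound parWF r2 pf18297 h18297
  have h18299 := checkRangeG_sound parWF r2 pf18298 h18298
  have h18300 := checkRangeG_sound parWF r2 pf18299 h18299
  exact h18300

theorem c366 (h18300 : ∀ j, j < 57189 → GoodG.{u} par (db j)) : ∀ j, j < 57330 → GoodG.{u} par (db j) := by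
  have h18301 := checkRangeG_sound parWF r2 pf18300 h18300
  have h18302 := checkRangeG_sound parWF r2 pf18301 h18301
  have h18303 := checkRangeG_sound parWF r2 pf18302 h18302
  have h18304 := checkRangeG_sound parWF r2 pf18303 h18303
  have h18305 := checkRangeG_sound parWF r2 pf18304 h18304
  have h18306 := checkRangeG_sound parWF r2 pf18305 h18305
  have h18307 := checkRangeG_sound parWF r2 pf18306 h18306
  have h18308 := checkRangeG_sound parWF r2 pf18307 h18307
  have h18309 := checkRangeG_sound parWF r2 pf18308 h18308
  have h18310 := checkRangeG_sound parWF r2 pf18309 h18309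
  have h18311 := checkRangeG_sound parWF r2 pf18310 h18310
  have h18312 := checkRangeG_sound parWF r2 pf18311 h18311
  have h18313 := checkRangeG_sound parWF r2 pf18312 h18312
  have h18314 := checkRangeG_sound parWF r2 pf18313 h18313
  have h18315 := checkRangeG_sound parWF r2 pf18314 h18314
  have h18316 := checkRangeG_sound parWF r2 pf18315 h18315
  have h18317 := checkRangeG_sound parWF r2 pf18316 h18316
  have h18318 := checkRangeG_sound parWF r2 pf18317 h18317
  have h18319 := checkRangeG_sound parWF r2 pf18318 h18318
  have h18320 := checkRangeG_sound parWF r2 pf18319 h18319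
  have h18321 := checkRangeG_sound parWF r2 pf18320 h18320
  have h18322 := checkRangeG_sound parWF r2 pf18321 h18321
  have h18323 := checkRangeG_sound parWF r2 pf18322 h18322
  have h18324 := checkRangeG_sound parWF r2 pf18323 h18323
  have h18325 := checkRangeG_sound parWF r2 pf18324 h18324
  have h18326 := checkRangeG_sound parWF r2 pf18325 h18325
  have h18327 := checkRangeG_sound parWF r2 pf18326 h18326
  have h18328 := checkRangeG_sound parWF r2 pf18327 h18327
  have h18329 := checkRangeG_sound parWF r2 pf18328 h18328
  have h18330 := checkRangeG_sound parWF r2 pf18329 h18329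
  have h18331 := checkRangeG_sound parWF r2 pf18330 h18330
  have h18332 := checkRangeG_sound parWF r2 pf18331 h18331
  have h18333 := checkRangeG_sound parWF r2 pf18332 h18332
  have h18334 := checkRangeG_sound parWF r2 pf18333 h18333
  have h18335 := checkRangeG_sound parWF r2 pf18334 h18334
  have h18336 := checkRangeG_sound parWF r2 pf18335 h18335
  have h18337 := checkRangeG_sound parWF r2 pf18336 h18336
  have h18338 := checkRangeG_sound parWF r2 pf18337 h18337
  have h18339 := checkRangeG_sound parWF r2 pf18338 h18338
  have h18340 := checkRangeG_sound parWF r2 pf18339 h18339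
  have h18341 := checkRangeG_sound parWF r2 pf18340 h18340
  have h18342 := checkRangeG_sound parWF r2 pf18341 h18341
  have h18343 := checkRangeG_sound parWF r2 pf18342 h18342
  have h18344 := checkRangeG_sound parWF r2 pf18343 h18343
  have h18345 := checkRangeG_sound parWF r2 pf18344 h18344
  have h18346 := checkRangeG_sound parWF r2 pf18345 h18345
  have h18347 := checkRangeG_sound parWF r2 pf18346 h18346
  have h18348 := checkRangeG_sound parWF r2 pf18347 h18347
  have h18349 := checkRangeG_sound parWF r2 pf18348 h18348
  have h18350 := checkRangeG_sound parWF r2 pf18349 h18349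
  exact h18350

theorem c367 (h18350 : ∀ j, j < 57330 → GoodG.{u} par (db j)) : ∀ j, j < 57469 → GoodG.{u} par (db j) := by
  have h18351 := checkRangeG_sound parWF r2 pf18350 h18350
  have h18352 := checkRangeG_sound parWF r2 pf18351 h18351
  have h18353 := checkRangeG_sound parWF r2 pf18352 h18352
  have h18354 := checkRangeG_sound parWF r2 pf18353 h18353
  have h18355 := checkRangeG_sound parWF r2 pf18354 h18354
  have h18356 := checkRangeG_sound parWF r2 pf18355 h18355
  have h18357 := checkRangeG_sound parWF r2 pf18356 h18356
  have h18358 := checkRangeG_sound parWF r2 pf18357 h18357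
  have h18359 := checkRangeG_sound parWF r2 pf18358 h18358
  have h18360 := checkRangeG_sound parWF r2 pf18359 h18359
  have h18361 := checkRangeG_sound parWF r2 pf18360 h18360
  have h18362 := checkRangeG_sound parWF r2 pf18361 h18361
  have h18363 := checkRangeG_sound parWF r2 pf18362 h18362
  have h18364 := checkRangeG_sound parWF r2 pf18363 h18363
  have h18365 := checkRangeG_sound parWF r2 pf18364 h18364
  have h18366 := checkRangeG_sound parWF r2 pf18365 h18365
  have h18367 := checkRangeG_sound parWF r2 pf18366 h18366
  have h18368 := checkRangeG_sound parWF r2 pf18367 h18367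
  have h18369 := checkRangeG_sound parWF r2 pf18368 h18368
  have h18370 := checkRangeG_sound parWF r2 pf18369 h18369
  have h18371 := checkRangeG_sound parWF r2 pf18370 h18370
  have h18372 := checkRangeG_sound parWF r2 pf18371 h18371
  have h18373 := checkRangeG_sound parWF r2 pf18372 h18372
  have h18374 := checkRangeG_sound parWF r2 pf18373 h18373
  have h18375 := checkRangeG_sound parWF r2 pf18374 h18374
  have h18376 := checkRangeG_sound parWF r2 pf18375 h18375
  have h18377 := checkRangeG_sound parWF r2 pf18376 h18376
  have h18378 := checkRangeG_sound parWF r2 pf18377 h18377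
  have h18379 := checkRangeG_sound parWF r2 pf18378 h18378
  have h18380 := checkRangeG_sound parWF r2 pf18379 h18379
  have h18381 := checkRangeG_sound parWF r2 pf18380 h18380
  have h18382 := checkRangeG_sound parWF r2 pf18381 h18381
  have h18383 := checkRangeG_sound parWF r2 pf18382 h18382
  have h18384 := checkRangeG_sound parWF r2 pf18383 h18383
  have h18385 := checkRangeG_sound parWF r2 pf18384 h18384
  have h18386 := checkRangeG_sound parWF r2 pf18385 h18385
  have h18387 := checkRangeG_sound parWF r2 pf18386 h18386
  have h18388 := checkRangeG_sound parWF r2 pf18387 h18387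
  have h18389 := checkRangeG_sound parWF r2 pf18388 h18388
  have h18390 := checkRangeG_sound parWF r2 pf18389 h18389
  have h18391 := checkRangeG_sound parWF r2 pf18390 h18390
  have h18392 := checkRangeG_sound parWF r2 pf18391 h18391
  have h18393 := checkRangeG_sound parWF r2 pf18392 h18392
  have h18394 := checkRangeG_sound parWF r2 pf18393 h18393
  have h18395 := checkRangeG_sound parWF r2 pf18394 h18394
  have h18396 := checkRangeG_sound parWF r2 pf18395 h18395
  have h18397 := checkRangeG_sound parWF r2 pf18396 h18396
  have h18398 := checkRangeG_sound parWF r2 pf18397 h18397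
  have h18399 := checkRangeG_sound parWF r2 pf18398 h18398
  have h18400 := checkRangeG_sound parWF r2 pf18399 h18399
  exact h18400

theorem c368 (h18400 : ∀ j, j < 57469 → GoodG.{u} par (db j)) : ∀ j, j < 57621 → GoodG.{u} par (db j) := by
  have h18401 := checkRangeG_sound parWF r2 pf18400 h18400
  have h18402 := checkRangeG_sound parWF r2 pf18401 h18401
  have h18403 := checkRangeG_sound parWF r2 pf18402 h18402
  have h18404 := checkRangeG_sound parWF r2 pf18403 h18403
  have h18405 := checkRangeG_sound parWF r2 pf18404 h18404
  have h18406 := checkRangeG_sound parWF r2 pf18405 h18405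
  have h18407 := checkRangeG_sound parWF r2 pf18406 h18406
  have h18408 := checkRangeG_sound parWF r2 pf18407 h18407
  have h18409 := checkRangeG_sound parWF r2 pf18408 h18408
  have h18410 := checkRangeG_sound parWF r2 pf18409 h18409
  have h18411 := checkRangeG_sound parWF r2 pf18410 h18410
  have h18412 := checkRangeG_sound parWF r2 pf18411 h18411
  have h18413 := checkRangeG_sound parWF r2 pf18412 h18412
  have h18414 := checkRangeG_sound parWF r2 pf18413 h18413
  have h18415 := checkRangeG_sound parWF r2 pf18414 h18414
  have h18416 := checkRangeG_sound parWF r2 pf18415 h18415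
  have h18417 := checkRangeG_sound parWF r2 pf18416 h18416
  have h18418 := checkRangeG_sound parWF r2 pf18417 h18417
  have h18419 := checkRangeG_sound parWF r2 pf18418 h18418
  have h18420 := checkRangeG_sound parWF r2 pf18419 h18419
  have h18421 := checkRangeG_sound parWF r2 pf18420 h18420
  have h18422 := checkRangeG_sound parWF r2 pf18421 h18421
  have h18423 := checkRangeG_sound parWF r2 pf18422 h18422
  have h18424 := checkRangeG_sound parWF r2 pf18423 h18423
  have h18425 := checkRangeG_sound parWF r2 pf18424 h18424
  have h18426 := checkRangeG_sound parWF r2 pf18425 h18425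
  have h18427 := checkRangeG_sound parWF r2 pf18426 h18426
  have h18428 := checkRangeG_sound parWF r2 pf18427 h18427
  have h18429 := checkRangeG_sound parWF r2 pf18428 h18428
  have h18430 := checkRangeG_sound parWF r2 pf18429 h18429
  have h18431 := checkRangeG_sound parWF r2 pf18430 h18430
  have h18432 := checkRangeG_sound parWF r2 pf18431 h18431
  have h18433 := checkRangeG_sound parWF r2 pf18432 h18432
  have h18434 := checkRangeG_sound parWF r2 pf18433 h18433
  have h18435 := checkRangeG_sound parWF r2 pf18434 h18434
  have h18436 := checkRangeG_sound parWF r2 pf18435 h18435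
  have h18437 := checkRangeG_sound parWF r2 pf18436 h18436
  have h18438 := checkRangeG_sound parWF r2 pf18437 h18437
  have h18439 := checkRangeG_sound parWF r2 pf18438 h18438
  have h18440 := checkRangeG_sound parWF r2 pf18439 h18439
  have h18441 := checkRangeG_sound parWF r2 pf18440 h18440
  have h18442 := checkRangeG_sound parWF r2 pf18441 h18441
  have h18443 := checkRangeG_sound parWF r2 pf18442 h18442
  have h18444 := checkRangeG_sound parWF r2 pf18443 h18443
  have h18445 := checkRangeG_sound parWF r2 pf18444 h18444
  have h18446 := checkRangeG_sound parWF r2 pf18445 h18445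
  have h18447 := checkRangeG_sound parWF r2 pf18446 h18446
  have h18448 := checkRangeG_sound parWF r2 pf18447 h18447
  have h18449 := checkRangeG_sound parWF r2 pf18448 h18448
  have h18450 := checkRangeG_sound parWF r2 pf18449 h18449
  exact h18450

theorem c369 (h18450 : ∀ j, j < 57621 → GoodG.{u} par (db j)) : ∀ j, j < 57772 → GoodG.{u} par (db j) := by
  have h18451 := checkRangeG_sound parWF r2 pf18450 h18450
  have h18452 := checkRangeG_sound parWF r2 pf18451 h18451
  have h18453 := checkRangeG_sound parWF r2 pf18452 h18452
  have h18454 := checkRangeG_sound parWF r2 pf18453 h18453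
  have h18455 := checkRangeG_sound parWF r2 pf18454 h18454
  have h18456 := checkRangeG_sound parWF r2 pf18455 h18455
  have h18457 := checkRangeG_sound parWF r2 pf18456 h18456
  have h18458 := checkRangeG_sound parWF r2 pf18457 h18457
  have h18459 := checkRangeG_sound parWF r2 pf18458 h18458
  have h18460 := checkRangeG_sound parWF r2 pf18459 h18459
  have h18461 := checkRangeG_sound parWF r2 pf18460 h18460
  have h18462 := checkRangeG_sound parWF r2 pf18461 h18461
  have h18463 := checkRangeG_sound parWF r2 pf18462 h18462
  have h18464 := checkRangeG_sound parWF r2 pf18463 h18463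
  have h18465 := checkRangeG_sound parWF r2 pf18464 h18464
  have h18466 := checkRangeG_sound parWF r2 pf18465 h18465
  have h18467 := checkRangeG_sound parWF r2 pf18466 h18466
  have h18468 := checkRangeG_sound parWF r2 pf18467 h18467
  have h18469 := checkRangeG_sound parWF r2 pf18468 h18468
  have h18470 := checkRangeG_sound parWF r2 pf18469 h18469
  have h18471 := checkRangeG_sound parWF r2 pf18470 h18470
  have h18472 := checkRangeG_sound parWF r2 pf18471 h18471
  have h18473 := checkRangeG_sound parWF r2 pf18472 h18472
  have h18474 := checkRangeG_sound parWF r2 pf18473 h18473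
  have h18475 := checkRangeG_sound parWF r2 pf18474 h18474
  have h18476 := checkRangeG_sound parWF r2 pf18475 h18475
  have h18477 := checkRangeG_sound parWF r2 pf18476 h18476
  have h18478 := checkRangeG_sound parWF r2 pf18477 h18477
  have h18479 := checkRangeG_sound parWF r2 pf18478 h18478
  have h18480 := checkRangeG_sound parWF r2 pf18479 h18479
  have h18481 := checkRangeG_sound parWF r2 pf18480 h18480
  have h18482 := checkRangeG_sound parWF r2 pf18481 h18481
  have h18483 := checkRangeG_sound parWF r2 pf18482 h18482
  have h18484 := checkRangeG_sound parWF r2 pf18483 h18483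
  have h18485 := checkRangeG_sound parWF r2 pf18484 h18484
  have h18486 := checkRangeG_sound parWF r2 pf18485 h18485
  have h18487 := checkRangeG_sound parWF r2 pf18486 h18486
  have h18488 := checkRangeG_sound parWF r2 pf18487 h18487
  have h18489 := checkRangeG_sound parWF r2 pf18488 h18488
  have h18490 := checkRangeG_sound parWF r2 pf18489 h18489
  have h18491 := checkRangeG_sound parWF r2 pf18490 h18490
  have h18492 := checkRangeG_sound parWF r2 pf18491 h18491
  have h18493 := checkRangeG_sound parWF r2 pf18492 h18492
  have h18494 := checkRangeG_sound parWF r2 pf18493 h18493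
  have h18495 := checkRangeG_sound parWF r2 pf18494 h18494
  have h18496 := checkRangeG_sound parWF r2 pf18495 h18495
  have h18497 := checkRangeG_sound parWF r2 pf18496 h18496
  have h18498 := checkRangeG_sound parWF r2 pf18497 h18497
  have h18499 := checkRangeG_sound parWF r2 pf18498 h18498
  have h18500 := checkRangeG_sound parWF r2 pf18499 h18499
  exact h18500

theorem c370 (h18500 : ∀ j, j < 57772 → GoodG.{u} par (db j)) : ∀ j, j < 57946 → GoodG.{u} par (db j) := by
  have h18501 := checkRangeG_sound parWF r2 pf18500 h18500
  have h18502 := checkRangeG_sound parWF r2 pf18501 h18501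
  have h18503 := checkRangeG_sound parWF r2 pf18502 h18502
  have h18504 := checkRangeG_sound parWF r2 pf18503 h18503
  have h18505 := checkRangeG_sound parWF r2 pf18504 h18504
  have h18506 := checkRangeG_sound parWF r2 pf18505 h18505
  have h18507 := checkRangeG_sound parWF r2 pf18506 h18506
  have h18508 := checkRangeG_sound parWF r2 pf18507 h18507
  have h18509 := checkRangeG_sound parWF r2 pf18508 h18508
  have h18510 := checkRangeG_sound parWF r2 pf18509 h18509
  have h18511 := checkRangeG_sound parWF r2 pf18510 h18510
  have h18512 := checkRangeG_sound parWF r2 pf18511 h18511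
  have h18513 := checkRangeG_sound parWF r2 pf18512 h18512
  have h18514 := checkRangeG_sound parWF r2 pf18513 h18513
  have h18515 := checkRangeG_sound parWF r2 pf18514 h18514
  have h18516 := checkRangeG_sound parWF r2 pf18515 h18515
  have h18517 := checkRangeG_sound parWF r2 pf18516 h18516
  have h18518 := checkRangeG_sound parWF r2 pf18517 h18517
  have h18519 := checkRangeG_sound parWF r2 pf18518 h18518
  have h18520 := checkRangeG_sound parWF r2 pf18519 h18519
  have h18521 := checkRangeG_sound parWF r2 pf18520 h18520
  have h18522 := checkRangeG_sound parWF r2 pf18521 h18521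
  have h18523 := checkRangeG_sound parWF r2 pf18522 h18522
  have h18524 := checkRangeG_sound parWF r2 pf18523 h18523
  have h18525 := checkRangeG_sound parWF r2 pf18524 h18524
  have h18526 := checkRangeG_sound parWF r2 pf18525 h18525
  have h18527 := checkRangeG_sound parWF r2 pf18526 h18526
  have h18528 := checkRangeG_sound parWF r2 pf18527 h18527
  have h18529 := checkRangeG_sound parWF r2 pf18528 h18528
  have h18530 := checkRangeG_sound parWF r2 pf18529 h18529
  have h18531 := checkRangeG_sound parWF r2 pf18530 h18530
  have h18532 := checkRangeG_sound parWF r2 pf18531 h18531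
  have h18533 := checkRangeG_sound parWF r2 pf18532 h18532
  have h18534 := checkRangeG_sound parWF r2 pf18533 h18533
  have h18535 := checkRangeG_sound parWF r2 pf18534 h18534
  have h18536 := checkRangeG_sound parWF r2 pf18535 h18535
  have h18537 := checkRangeG_sound parWF r2 pf18536 h18536
  have h18538 := checkRangeG_sound parWF r2 pf18537 h18537
  have h18539 := checkRangeG_sound parWF r2 pf18538 h18538
  have h18540 := checkRangeG_sound parWF r2 pf18539 h18539
  have h18541 := checkRangeG_sound parWF r2 pf18540 h18540
  have h18542 := checkRangeG_sound parWF r2 pf18541 h18541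
  have h18543 := checkRangeG_sound parWF r2 pf18542 h18542
  have h18544 := checkRangeG_sound parWF r2 pf18543 h18543
  have h18545 := checkRangeG_sound parWF r2 pf18544 h18544
  have h18546 := checkRangeG_sound parWF r2 pf18545 h18545
  have h18547 := checkRangeG_sound parWF r2 pf18546 h18546
  have h18548 := checkRangeG_sound parWF r2 pf18547 h18547
  have h18549 := checkRangeG_sound parWF r2 pf18548 h18548
  have h18550 := checkRangeG_sound parWF r2 pf18549 h18549
  exact h18550

theorem c371 (h18550 : ∀ j, j < 57946 → GoodG.{u} par (db j)) : ∀ j, j < 58136 → GoodG.{u} par (db j) := by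
  have h18551 := checkRangeG_sound parWF r2 pf18550 h18550
  have h18552 := checkRangeG_sound parWF r2 pf18551 h18551
  have h18553 := checkRangeG_sound parWF r2 pf18552 h18552
  have h18554 := checkRangeG_sound parWF r2 pf18553 h18553
  have h18555 := checkRangeG_sound parWF r2 pf18554 h18554
  have h18556 := checkRangeG_sound parWF r2 pf18555 h18555
  have h18557 := checkRangeG_sound parWF r2 pf18556 h18556
  have h18558 := checkRangeG_sound parWF r2 pf18557 h18557
  have h18559 := checkRangeG_sound parWF r2 pf18558 h18558
  have h18560 := checkRangeG_sound parWF r2 pf18559 h18559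
  have h18561 := checkRangeG_sound parWF r2 pf18560 h18560
  have h18562 := checkRangeG_sound parWF r2 pf18561 h18561
  have h18563 := checkRangeG_sound parWF r2 pf18562 h18562
  have h18564 := checkRangeG_sound parWF r2 pf18563 h18563
  have h18565 := checkRangeG_sound parWF r2 pf18564 h18564
  have h18566 := checkRangeG_sound parWF r2 pf18565 h18565
  have h18567 := checkRangeG_sound parWF r2 pf18566 h18566
  have h18568 := checkRangeG_sound parWF r2 pf18567 h18567
  have h18569 := checkRangeG_sound parWF r2 pf18568 h18568
  have h18570 := checkRangeG_sound parWF r2 pf18569 h18569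
  have h18571 := checkRangeG_sound parWF r2 pf18570 h18570
  have h18572 := checkRangeG_sound parWF r2 pf18571 h18571
  have h18573 := checkRangeG_sound parWF r2 pf18572 h18572
  have h18574 := checkRangeG_sound parWF r2 pf18573 h18573
  have h18575 := checkRangeG_sound parWF r2 pf18574 h18574
  have h18576 := checkRangeG_sound parWF r2 pf18575 h18575
  have h18577 := checkRangeG_sound parWF r2 pf18576 h18576
  have h18578 := checkRangeG_sound parWF r2 pf18577 h18577
  have h18579 := checkRangeG_sound parWF r2 pf18578 h18578
  have h18580 := checkRangeG_sound parWF r2 pf18579 h18579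
  have h18581 := checkRangeG_sound parWF r2 pf18580 h18580
  have h18582 := checkRangeG_sound parWF r2 pf18581 h18581
  have h18583 := checkRangeG_sound parWF r2 pf18582 h18582
  have h18584 := checkRangeG_sound parWF r2 pf18583 h18583
  have h18585 := checkRangeG_sound parWF r2 pf18584 h18584
  have h18586 := checkRangeG_sound parWF r2 pf18585 h18585
  have h18587 := checkRangeG_sound parWF r2 pf18586 h18586
  have h18588 := checkRangeG_sound parWF r2 pf18587 h18587
  have h18589 := checkRangeG_sound parWF r2 pf18588 h18588
  have h18590 := checkRangeG_sound parWF r2 pf18589 h18589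
  have h18591 := checkRangeG_sound parWF r2 pf18590 h18590
  have h18592 := checkRangeG_sound parWF r2 pf18591 h18591
  have h18593 := checkRangeG_sound parWF r2 pf18592 h18592
  have h18594 := checkRangeG_sound parWF r2 pf18593 h18593
  have h18595 := checkRangeG_sound parWF r2 pf18594 h18594
  have h18596 := checkRangeG_sound parWF r2 pf18595 h18595
  have h18597 := checkRangeG_sound parWF r2 pf18596 h18596
  have h18598 := checkRangeG_sound parWF r2 pf18597 h18597
  have h18599 := checkRangeG_sound parWF r2 pf18598 h18598
  have h18600 := checkRangeG_sound parWF r2 pf18599 h18599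
  exact h18600


end Vale.Agent.P045g.C61
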