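import Vale.Agent.P045g.C61.WF
import Vale.Agent.P045g.C61.Pf310
import Vale.Agent.P045g.C61.Pf311
import Vale.Agent.P045g.C61.Pf312
import Vale.Agent.P045g.C61.Pf313
import Vale.Agent.P045g.C61.Pf314
import Vale.Agent.P045g.C61.Pf315
import Vale.Agent.P045g.C61.Pf316
import Vale.Agent.P045g.C61.Pf317
import Vale.Agent.P045g.C61.Pf318
import Vale.Agent.P045g.C61.Pf319

namespace Vale.Agent.P045g.C61

open Vale.Agent.P045b Vale.Agent.P045g

universe u

theorem c372 (h18600 : ∀ j, j < 58136 → GoodG.{u} par (db j)) : ∀ j, j < 58315 → GoodG.{u} par (db j) := by
  have h18601 := checkRangeG_sound parWF r2 pf18600 h18600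
  have h18602 := checkRangeG_sound parWF r2 pf18601 h18601
  have h18603 := checkRangeG_sound parWF r2 pf18602 h18602
  have h18604 := checkRangeG_sound parWF r2 pf18603 h18603
  have h18605 := checkRangeG_sound parWF r2 pf18604 h18604
  have h18606 := checkRangeG_sound parWF r2 pf18605 h18605
  have h18607 := checkRangeG_sound parWF r2 pf18606 h18606
  have h18608 := checkRangeG_sound parWF r2 pf18607 h18607
  have h18609 := checkRangeG_sound parWF r2 pf18608 h18608
  have h18610 := checkRangeG_sound parWF r2 pf18609 h18609
  have h18611 := checkRangeG_sound parWF r2 pf18610 h18610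
  have h18612 := checkRangeG_sound parWF r2 pf18611 h18611
  have h18613 := checkRangeG_sound parWF r2 pf18612 h18612
  have h18614 := checkRangeG_sound parWF r2 pf18613 h18613
  have h18615 := checkRangeG_sound parWF r2 pf18614 h18614
  have h18616 := checkRangeG_sound parWF r2 pf18615 h18615
  have h18617 := checkRangeG_sound parWF r2 pf18616 h18616
  have h18618 := checkRangeG_sound parWF r2 pf18617 h18617
  have h18619 := checkRangeG_sound parWF r2 pf18618 h18618
  have h18620 := checkRangeG_sound parWF r2 pf18619 h18619
  have h18621 := checkRangeG_sound parWF r2 pf18620 h18620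
  have h18622 := checkRangeG_sound parWF r2 pf18621 h18621
  have h18623 := checkRangeG_sound parWF r2 pf18622 h18622
  have h18624 := checkRangeG_sound parWF r2 pf18623 h18623
  have h18625 := checkRangeG_sound parWF r2 pf18624 h18624
  have h18626 := checkRangeG_sound parWF r2 pf18625 h18625
  have h18627 := checkRangeG_sound parWF r2 pf18626 h18626
  have h18628 := checkRangeG_sound parWF r2 pf18627 h18627
  have h18629 := checkRangeG_sound parWF r2 pf18628 h18628
  have h18630 := checkRangeG_sound parWF r2 pf18629 h18629
  have h18631 := checkRangeG_sound parWF r2 pf18630 h18630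
  have h18632 := checkRangeG_sound parWF r2 pf18631 h18631
  have h18633 := checkRangeG_sound parWF r2 pf18632 h18632
  have h18634 := checkRangeG_sound parWF r2 pf18633 h18633
  have h18635 := checkRangeG_sound parWF r2 pf18634 h18634
  have h18636 := checkRangeG_sound parWF r2 pf18635 h18635
  have h18637 := checkRangeG_sound parWF r2 pf18636 h18636
  have h18638 := checkRangeG_sound parWF r2 pf18637 h18637
  have h18639 := checkRangeG_sound parWF r2 pf18638 h18638
  have h18640 := checkRangeG_sound parWF r2 pf18639 h18639
  have h18641 := checkRangeG_sound parWF r2 pf18640 h18640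
  have h18642 := checkRangeG_sound parWF r2 pf18641 h18641
  have h18643 := checkRangeG_sound parWF r2 pf18642 h18642
  have h18644 := checkRangeG_sound parWF r2 pf18643 h18643
  have h18645 := checkRangeG_sound parWF r2 pf18644 h18644
  have h18646 := checkRangeG_sound parWF r2 pf18645 h18645
  have h18647 := checkRangeG_sound parWF r2 pf18646 h18646
  have h18648 := checkRangeG_sound parWF r2 pf18647 h18647
  have h18649 := checkRangeG_sound parWF r2 pf18648 h18648
  have h18650 := checkRangeG_sound parWF r2 pf18649 h18649
  exact h18650

theorem c373 (h18650 : ∀ j, j < 58315 → GoodG.{u} par (db j)) : ∀ j, j < 58483 → GoodG.{u} par (db j) := by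
  have h18651 := checkRangeG_sound parWF r2 pf18650 h18650
  have h18652 := checkRangeG_sound parWF r2 pf18651 h18651
  have h18653 := checkRangeG_sound parWF r2 pf18652 h18652
  have h18654 := checkRangeG_sound parWF r2 pf18653 h18653
  have h18655 := checkRangeG_sound parWF r2 pf18654 h18654
  have h18656 := checkRangeG_sound parWF r2 pf18655 h18655
  have h18657 := checkRangeG_sound parWF r2 pf18656 h18656
  have h18658 := checkRangeG_sound parWF r2 pf18657 h18657
  have h18659 := checkRangeG_sound parWF r2 pf18658 h18658
  have h18660 := checkRangeG_sound parWF r2 pf18659 h18659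
  have h18661 := checkRangeG_sound parWF r2 pf18660 h18660
  have h18662 := checkRangeG_sound parWF r2 pf18661 h18661
  have h18663 := checkRangeG_sound parWF r2 pf18662 h18662
  have h18664 := checkRangeG_sound parWF r2 pf18663 h18663
  have h18665 := checkRangeG_sound parWF r2 pf18664 h18664
  have h18666 := checkRangeG_sound parWF r2 pf18665 h18665
  have h18667 := checkRangeG_sound parWF r2 pf18666 h18666
  have h18668 := checkRangeG_sound parWF r2 pf18667 h18667
  have h18669 := checkRangeG_sound parWF r2 pf18668 h18668
  have h18670 := checkRangeG_sound parWF r2 pf18669 h18669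
  have h18671 := checkRangeG_sound parWF r2 pf18670 h18670
  have h18672 := checkRangeG_sound parWF r2 pf18671 h18671
  have h18673 := checkRangeG_sound parWF r2 pf18672 h18672
  have h18674 := checkRangeG_sound parWF r2 pf18673 h18673
  have h18675 := checkRangeG_sound parWF r2 pf18674 h18674
  have h18676 := checkRangeG_sound parWF r2 pf18675 h18675
  have h18677 := checkRangeG_sound parWF r2 pf18676 h18676
  have h18678 := checkRangeG_sound parWF r2 pf18677 h18677
  have h18679 := checkRangeG_sound parWF r2 pf18678 h18678
  have h18680 := checkRangeG_sound parWF r2 pf18679 h18679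
  have h18681 := checkRangeG_sound parWF r2 pf18680 h18680
  have h18682 := checkRangeG_sound parWF r2 pf18681 h18681
  have h18683 := checkRangeG_sound parWF r2 pf18682 h18682
  have h18684 := checkRangeG_sound parWF r2 pf18683 h18683
  have h18685 := checkRangeG_sound parWF r2 pf18684 h18684
  have h18686 := checkRangeG_sound parWF r2 pf18685 h18685
  have h18687 := checkRangeG_sound parWF r2 pf18686 h18686
  have h18688 := checkRangeG_sound parWF r2 pf18687 h18687
  have h18689 := checkRangeG_sound parWF r2 pf18688 h18688
  have h18690 := checkRangeG_sound parWF r2 pf18689 h18689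
  have h18691 := checkRangeG_sound parWF r2 pf18690 h18690
  have h18692 := checkRangeG_sound parWF r2 pf18691 h18691
  have h18693 := checkRangeG_sound parWF r2 pf18692 h18692
  have h18694 := checkRangeG_sound parWF r2 pf18693 h18693
  have h18695 := checkRangeG_sound parWF r2 pf18694 h18694
  have h18696 := checkRangeG_sound parWF r2 pf18695 h18695
  have h18697 := checkRangeG_sound parWF r2 pf18696 h18696
  have h18698 := checkRangeG_sound parWF r2 pf18697 h18697
  have h18699 := checkRangeG_sound parWF r2 pf18698 h18698
  have h18700 := checkRangeG_sound parWF r2 pf18699 h18699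
  exact h18700

theorem c374 (h18700 : ∀ j, j < 58483 → GoodG.{u} par (db j)) : ∀ j, j < 58633 → GoodG.{u} par (db j) := by
  have h18701 := checkRangeG_sound parWF r2 pf18700 h18700
  have h18702 := checkRangeG_sound parWF r2 pf18701 h18701
  have h18703 := checkRangeG_sound parWF r2 pf18702 h18702
  have h18704 := checkRangeG_sound parWF r2 pf18703 h18703
  have h18705 := checkRangeG_sound parWF r2 pf18704 h18704
  have h18706 := checkRangeG_sound parWF r2 pf18705 h18705
  have h18707 := checkRangeG_sound parWF r2 pf18706 h18706
  have h18708 := checkRangeG_sound parWF r2 pf18707 h18707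
  have h18709 := checkRangeG_sound parWF r2 pf18708 h18708
  have h18710 := checkRangeG_sound parWF r2 pf18709 h18709
  have h18711 := checkRangeG_sound parWF r2 pf18710 h18710
  have h18712 := checkRangeG_sound parWF r2 pf18711 h18711
  have h18713 := checkRangeG_sound parWF r2 pf18712 h18712
  have h18714 := checkRangeG_sound parWF r2 pf18713 h18713
  have h18715 := checkRangeG_sound parWF r2 pf18714 h18714
  have h18716 := checkRangeG_sound parWF r2 pf18715 h18715
  have h18717 := checkRangeG_sound parWF r2 pf18716 h18716
  have h18718 := checkRangeG_sound parWF r2 pf18717 h18717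
  have h18719 := checkRangeG_sound parWF r2 pf18718 h18718
  have h18720 := checkRangeG_sound parWF r2 pf18719 h18719
  have h18721 := checkRangeG_sound parWF r2 pf18720 h18720
  have h18722 := checkRangeG_sound parWF r2 pf18721 h18721
  have h18723 := checkRangeG_sound parWF r2 pf18722 h18722
  have h18724 := checkRangeG_sound parWF r2 pf18723 h18723
  have h18725 := checkRangeG_sound parWF r2 pf18724 h18724
  have h18726 := checkRangeG_sound parWF r2 pf18725 h18725
  have h18727 := checkRangeG_sound parWF r2 pf18726 h18726
  have h18728 := checkRangeG_sound parWF r2 pf18727 h18727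
  have h18729 := checkRangeG_sound parWF r2 pf18728 h18728
  have h18730 := checkRangeG_sound parWF r2 pf18729 h18729
  have h18731 := checkRangeG_sound parWF r2 pf18730 h18730
  have h18732 := checkRangeG_sound parWF r2 pf18731 h18731
  have h18733 := checkRangeG_sound parWF r2 pf18732 h18732
  have h18734 := checkRangeG_sound parWF r2 pf18733 h18733
  have h18735 := checkRangeG_sound parWF r2 pf18734 h18734
  have h18736 := checkRangeG_sound parWF r2 pf18735 h18735
  have h18737 := checkRangeG_sound parWF r2 pf18736 h18736
  have h18738 := checkRangeG_sound parWF r2 pf18737 h18737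
  have h18739 := checkRangeG_sound parWF r2 pf18738 h18738
  have h18740 := checkRangeG_sound parWF r2 pf18739 h18739
  have h18741 := checkRangeG_sound parWF r2 pf18740 h18740
  have h18742 := checkRangeG_sound parWF r2 pf18741 h18741
  have h18743 := checkRangeG_sound parWF r2 pf18742 h18742
  have h18744 := checkRangeG_sound parWF r2 pf18743 h18743
  have h18745 := checkRangeG_sound parWF r2 pf18744 h18744
  have h18746 := checkRangeG_sound parWF r2 pf18745 h18745
  have h18747 := checkRangeG_sound parWF r2 pf18746 h18746
  have h18748 := checkRangeG_sound parWF r2 pf18747 h18747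
  have h18749 := checkRangeG_sound parWF r2 pf18748 h18748
  have h18750 := checkRangeG_sound parWF r2 pf18749 h18749
  exact h18750

theorem c375 (h18750 : ∀ j, j < 58633 → GoodG.{u} par (db j)) : ∀ j, j < 58784 → GoodG.{u} par (db j) := by
  have h18751 := checkRangeG_sound parWF r2 pf18750 h18750
  have h18752 := checkRangeG_sound parWF r2 pf18751 h18751
  have h18753 := checkRangeG_sound parWF r2 pf18752 h18752
  have h18754 := checkRangeG_sound parWF r2 pf18753 h18753
  have h18755 := checkRangeG_sound parWF r2 pf18754 h18754
  have h18756 := checkRangeG_sound parWF r2 pf18755 h18755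
  have h18757 := checkRangeG_sound parWF r2 pf18756 h18756
  have h18758 := checkRangeG_sound parWF r2 pf18757 h18757
  have h18759 := checkRangeG_sound parWF r2 pf18758 h18758
  have h18760 := checkRangeG_sound parWF r2 pf18759 h18759
  have h18761 := checkRangeG_sound parWF r2 pf18760 h18760
  have h18762 := checkRangeG_sound parWF r2 pf18761 h18761
  have h18763 := checkRangeG_sound parWF r2 pf18762 h18762
  have h18764 := checkRangeG_sound parWF r2 pf18763 h18763
  have h18765 := checkRangeG_sound parWF r2 pf18764 h18764
  have h18766 := checkRangeG_sound parWF r2 pf18765 h18765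
  have h18767 := checkRangeG_sound parWF r2 pf18766 h18766
  have h18768 := checkRangeG_sound parWF r2 pf18767 h18767
  have h18769 := checkRangeG_sound parWF r2 pf18768 h18768
  have h18770 := checkRangeG_sound parWF r2 pf18769 h18769
  have h18771 := checkRangeG_sound parWF r2 pf18770 h18770
  have h18772 := checkRangeG_sound parWF r2 pf18771 h18771
  have h18773 := checkRangeG_sound parWF r2 pf18772 h18772
  have h18774 := checkRangeG_sound parWF r2 pf18773 h18773
  have h18775 := checkRangeG_sound parWF r2 pf18774 h18774
  have h18776 := checkRangeG_sound parWF r2 pf18775 h18775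
  have h18777 := checkRangeG_sound parWF r2 pf18776 h18776
  have h18778 := checkRangeG_sound parWF r2 pf18777 h18777
  have h18779 := checkRangeG_sound parWF r2 pf18778 h18778
  have h18780 := checkRangeG_sound parWF r2 pf18779 h18779
  have h18781 := checkRangeG_sound parWF r2 pf18780 h18780
  have h18782 := checkRangeG_sound parWF r2 pf18781 h18781
  have h18783 := checkRangeG_sound parWF r2 pf18782 h18782
  have h18784 := checkRangeG_sound parWF r2 pf18783 h18783
  have h18785 := checkRangeG_sound parWF r2 pf18784 h18784
  have h18786 := checkRangeG_sound parWF r2 pf18785 h18785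
  have h18787 := checkRangeG_sound parWF r2 pf18786 h18786
  have h18788 := checkRangeG_sound parWF r2 pf18787 h18787
  have h18789 := checkRangeG_sound parWF r2 pf18788 h18788
  have h18790 := checkRangeG_sound parWF r2 pf18789 h18789
  have h18791 := checkRangeG_sound parWF r2 pf18790 h18790
  have h18792 := checkRangeG_sound parWF r2 pf18791 h18791
  have h18793 := checkRangeG_sound parWF r2 pf18792 h18792
  have h18794 := checkRangeG_sound parWF r2 pf18793 h18793
  have h18795 := checkRangeG_sound parWF r2 pf18794 h18794
  have h18796 := checkRangeG_sound parWF r2 pf18795 h18795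
  have h18797 := checkRangeG_sound parWF r2 pf18796 h18796
  have h18798 := checkRangeG_sound parWF r2 pf18797 h18797
  have h18799 := checkRangeG_sound parWF r2 pf18798 h18798
  have h18800 := checkRangeG_sound parWF r2 pf18799 h18799
  exact h18800

theorem c376 (h18800 : ∀ j, j < 58784 → GoodG.{u} par (db j)) : ∀ j, j < 58954 → GoodG.{u} par (db j) := by
  have h18801 := checkRangeG_sound parWF r2 pf18800 h18800
  have h18802 := checkRangeG_sound parWF r2 pf18801 h18801
  have h18803 := checkRangeG_sound parWF r2 pf18802 h18802
  have h18804 := checkRangeG_sound parWF r2 pf18803 h18803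
  have h18805 := checkRangeG_sound parWF r2 pf18804 h18804
  have h18806 := checkRangeG_sound parWF r2 pf18805 h18805
  have h18807 := checkRangeG_sound parWF r2 pf18806 h18806
  have h18808 := checkRangeG_sound parWF r2 pf18807 h18807
  have h18809 := checkRangeG_sound parWF r2 pf18808 h18808
  have h18810 := checkRangeG_sound parWF r2 pf18809 h18809
  have h18811 := checkRangeG_sound parWF r2 pf18810 h18810
  have h18812 := checkRangeG_sound parWF r2 pf18811 h18811
  have h18813 := checkRangeG_sound parWF r2 pf18812 h18812
  have h18814 := checkRangeG_sound parWF r2 pf18813 h18813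
  have h18815 := checkRangeG_sound parWF r2 pf18814 h18814
  have h18816 := checkRangeG_sound parWF r2 pf18815 h18815
  have h18817 := checkRangeG_sound parWF r2 pf18816 h18816
  have h18818 := checkRangeG_sound parWF r2 pf18817 h18817
  have h18819 := checkRangeG_sound parWF r2 pf18818 h18818
  have h18820 := checkRangeG_sound parWF r2 pf18819 h18819
  have h18821 := checkRangeG_sound parWF r2 pf18820 h18820
  have h18822 := checkRangeG_sound parWF r2 pf18821 h18821
  have h18823 := checkRangeG_sound parWF r2 pf18822 h18822
  have h18824 := checkRangeG_sound parWF r2 pf18823 h18823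
  have h18825 := checkRangeG_sound parWF r2 pf18824 h18824
  have h18826 := checkRangeG_sound parWF r2 pf18825 h18825
  have h18827 := checkRangeG_sound parWF r2 pf18826 h18826
  have h18828 := checkRangeG_sound parWF r2 pf18827 h18827
  have h18829 := checkRangeG_sound parWF r2 pf18828 h18828
  have h18830 := checkRangeG_sound parWF r2 pf18829 h18829
  have h18831 := checkRangeG_sound parWF r2 pf18830 h18830
  have h18832 := checkRangeG_sound parWF r2 pf18831 h18831
  have h18833 := checkRangeG_sound parWF r2 pf18832 h18832
  have h18834 := checkRangeG_sound parWF r2 pf18833 h18833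
  have h18835 := checkRangeG_sound parWF r2 pf18834 h18834
  have h18836 := checkRangeG_sound parWF r2 pf18835 h18835
  have h18837 := checkRangeG_sound parWF r2 pf18836 h18836
  have h18838 := checkRangeG_sound parWF r2 pf18837 h18837
  have h18839 := checkRangeG_sound parWF r2 pf18838 h18838
  have h18840 := checkRangeG_sound parWF r2 pf18839 h18839
  have h18841 := checkRangeG_sound parWF r2 pf18840 h18840
  have h18842 := checkRangeG_sound parWF r2 pf18841 h18841
  have h18843 := checkRangeG_sound parWF r2 pf18842 h18842
  have h18844 := checkRangeG_sound parWF r2 pf18843 h18843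
  have h18845 := checkRangeG_sound parWF r2 pf18844 h18844
  have h18846 := checkRangeG_sound parWF r2 pf18845 h18845
  have h18847 := checkRangeG_sound parWF r2 pf18846 h18846
  have h18848 := checkRangeG_sound parWF r2 pf18847 h18847
  have h18849 := checkRangeG_sound parWF r2 pf18848 h18848
  have h18850 := checkRangeG_sound parWF r2 pf18849 h18849
  exact h18850

theorem c377 (h18850 : ∀ j, j < 58954 → GoodG.{u} par (db j)) : ∀ j, j < 59131 → GoodG.{u} par (db j) := by
  have h18851 := checkRangeG_sound parWF r2 pf18850 h18850
  have h18852 := checkRangeG_sound parWF r2 pf18851 h18851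
  have h18853 := checkRangeG_sound parWF r2 pf18852 h18852
  have h18854 := checkRangeG_sound parWF r2 pf18853 h18853
  have h18855 := checkRangeG_sound parWF r2 pf18854 h18854
  have h18856 := checkRangeG_sound parWF r2 pf18855 h18855
  have h18857 := checkRangeG_sound parWF r2 pf18856 h18856
  have h18858 := checkRangeG_sound parWF r2 pf18857 h18857
  have h18859 := checkRangeG_sound parWF r2 pf18858 h18858
  have h18860 := checkRangeG_sound parWF r2 pf18859 h18859
  have h18861 := checkRangeG_sound parWF r2 pf18860 h18860
  have h18862 := checkRangeG_sound parWF r2 pf18861 h18861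
  have h18863 := checkRangeG_sound parWF r2 pf18862 h18862
  have h18864 := checkRangeG_sound parWF r2 pf18863 h18863
  have h18865 := checkRangeG_sound parWF r2 pf18864 h18864
  have h18866 := checkRangeG_sound parWF r2 pf18865 h18865
  have h18867 := checkRangeG_sound parWF r2 pf18866 h18866
  have h18868 := checkRangeG_sound parWF r2 pf18867 h18867
  have h18869 := checkRangeG_sound parWF r2 pf18868 h18868
  have h18870 := checkRangeG_sound parWF r2 pf18869 h18869
  have h18871 := checkRangeG_sound parWF r2 pf18870 h18870
  have h18872 := checkRangeG_sound parWF r2 pf18871 h18871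
  have h18873 := checkRangeG_sound parWF r2 pf18872 h18872
  have h18874 := checkRangeG_sound parWF r2 pf18873 h18873
  have h18875 := checkRangeG_sound parWF r2 pf18874 h18874
  have h18876 := checkRangeG_sound parWF r2 pf18875 h18875
  have h18877 := checkRangeG_sound parWF r2 pf18876 h18876
  have h18878 := checkRangeG_sound parWF r2 pf18877 h18877
  have h18879 := checkRangeG_sound parWF r2 pf18878 h18878
  have h18880 := checkRangeG_sound parWF r2 pf18879 h18879
  have h18881 := checkRangeG_sound parWF r2 pf18880 h18880
  have h18882 := checkRangeG_sound parWF r2 pf18881 h18881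
  have h18883 := checkRangeG_sound parWF r2 pf18882 h18882
  have h18884 := checkRangeG_sound parWF r2 pf18883 h18883
  have h18885 := checkRangeG_sound parWF r2 pf18884 h18884
  have h18886 := checkRangeG_sound parWF r2 pf18885 h18885
  have h18887 := checkRangeG_sound parWF r2 pf18886 h18886
  have h18888 := checkRangeG_sound parWF r2 pf18887 h18887
  have h18889 := checkRangeG_sound parWF r2 pf18888 h18888
  have h18890 := checkRangeG_sound parWF r2 pf18889 h18889
  have h18891 := checkRangeG_sound parWF r2 pf18890 h18890
  have h18892 := checkRangeG_sound parWF r2 pf18891 h18891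
  have h18893 := checkRangeG_sound parWF r2 pf18892 h18892
  have h18894 := checkRangeG_sound parWF r2 pf18893 h18893
  have h18895 := checkRangeG_sound parWF r2 pf18894 h18894
  have h18896 := checkRangeG_sound parWF r2 pf18895 h18895
  have h18897 := checkRangeG_sound parWF r2 pf18896 h18896
  have h18898 := checkRangeG_sound parWF r2 pf18897 h18897
  have h18899 := checkRangeG_sound parWF r2 pf18898 h18898
  have h18900 := checkRangeG_sound parWF r2 pf18899 h18899
  exact h18900

theorem c378 (h18900 : ∀ j, j < 59131 → GoodG.{u} par (db j)) : ∀ j, j < 59318 → GoodG.{u} par (db j) := by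
  have h18901 := checkRangeG_sound parWF r2 pf18900 h18900
  have h18902 := checkRangeG_sound parWF r2 pf18901 h18901
  have h18903 := checkRangeG_sound parWF r2 pf18902 h18902
  have h18904 := checkRangeG_sound parWF r2 pf18903 h18903
  have h18905 := checkRangeG_sound parWF r2 pf18904 h18904
  have h18906 := checkRangeG_sound parWF r2 pf18905 h18905
  have h18907 := checkRangeG_sound parWF r2 pf18906 h18906
  have h18908 := checkRangeG_sound parWF r2 pf18907 h18907
  have h18909 := checkRangeG_sound parWF r2 pf18908 h18908
  have h18910 := checkRangeG_sound parWF r2 pf18909 h18909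
  have h18911 := checkRangeG_sound parWF r2 pf18910 h18910
  have h18912 := checkRangeG_sound parWF r2 pf18911 h18911
  have h18913 := checkRangeG_sound parWF r2 pf18912 h18912
  have h18914 := checkRangeG_sound parWF r2 pf18913 h18913
  have h18915 := checkRangeG_sound parWF r2 pf18914 h18914
  have h18916 := checkRangeG_sound parWF r2 pf18915 h18915
  have h18917 := checkRangeG_sound parWF r2 pf18916 h18916
  have h18918 := checkRangeG_sound parWF r2 pf18917 h18917
  have h18919 := checkRangeG_sound parWF r2 pf18918 h18918
  have h18920 := checkRangeG_sound parWF r2 pf18919 h18919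
  have h18921 := checkRangeG_sound parWF r2 pf18920 h18920
  have h18922 := checkRangeG_sound parWF r2 pf18921 h18921
  have h18923 := checkRangeG_sound parWF r2 pf18922 h18922
  have h18924 := checkRangeG_sound parWF r2 pf18923 h18923
  have h18925 := checkRangeG_sound parWF r2 pf18924 h18924
  have h18926 := checkRangeG_sound parWF r2 pf18925 h18925
  have h18927 := checkRangeG_sound parWF r2 pf18926 h18926
  have h18928 := checkRangeG_sound parWF r2 pf18927 h18927
  have h18929 := checkRangeG_sound parWF r2 pf18928 h18928
  have h18930 := checkRangeG_sound parWF r2 pf18929 h18929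
  have h18931 := checkRangeG_sound parWF r2 pf18930 h18930
  have h18932 := checkRangeG_sound parWF r2 pf18931 h18931
  have h18933 := checkRangeG_sound parWF r2 pf18932 h18932
  have h18934 := checkRangeG_sound parWF r2 pf18933 h18933
  have h18935 := checkRangeG_sound parWF r2 pf18934 h18934
  have h18936 := checkRangeG_sound parWF r2 pf18935 h18935
  have h18937 := checkRangeG_sound parWF r2 pf18936 h18936
  have h18938 := checkRangeG_sound parWF r2 pf18937 h18937
  have h18939 := checkRangeG_sound parWF r2 pf18938 h18938
  have h18940 := checkRangeG_sound parWF r2 pf18939 h18939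
  have h18941 := checkRangeG_sound parWF r2 pf18940 h18940
  have h18942 := checkRangeG_sound parWF r2 pf18941 h18941
  have h18943 := checkRangeG_sound parWF r2 pf18942 h18942
  have h18944 := checkRangeG_sound parWF r2 pf18943 h18943
  have h18945 := checkRangeG_sound parWF r2 pf18944 h18944
  have h18946 := checkRangeG_sound parWF r2 pf18945 h18945
  have h18947 := checkRangeG_sound parWF r2 pf18946 h18946
  have h18948 := checkRangeG_sound parWF r2 pf18947 h18947
  have h18949 := checkRangeG_sound parWF r2 pf18948 h18948
  have h18950 := checkRangeG_sound parWF r2 pf18949 h18949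
  exact h18950

theorem c379 (h18950 : ∀ j, j < 59318 → GoodG.{u} par (db j)) : ∀ j, j < 59489 → GoodG.{u} par (db j) := by
  have h18951 := checkRangeG_sound parWF r2 pf18950 h18950
  have h18952 := checkRangeG_sound parWF r2 pf18951 h18951
  have h18953 := checkRangeG_sound parWF r2 pf18952 h18952
  have h18954 := checkRangeG_sound parWF r2 pf18953 h18953
  have h18955 := checkRangeG_sound parWF r2 pf18954 h18954
  have h18956 := checkRangeG_sound parWF r2 pf18955 h18955
  have h18957 := checkRangeG_sound parWF r2 pf18956 h18956
  have h18958 := checkRangeG_sound parWF r2 pf18957 h18957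
  have h18959 := checkRangeG_sound parWF r2 pf18958 h18958
  have h18960 := checkRangeG_sound parWF r2 pf18959 h18959
  have h18961 := checkRangeG_sound parWF r2 pf18960 h18960
  have h18962 := checkRangeG_sound parWF r2 pf18961 h18961
  have h18963 := checkRangeG_sound parWF r2 pf18962 h18962
  have h18964 := checkRangeG_sound parWF r2 pf18963 h18963
  have h18965 := checkRangeG_sound parWF r2 pf18964 h18964
  have h18966 := checkRangeG_sound parWF r2 pf18965 h18965
  have h18967 := checkRangeG_sound parWF r2 pf18966 h18966
  have h18968 := checkRangeG_sound parWF r2 pf18967 h18967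
  have h18969 := checkRangeG_sound parWF r2 pf18968 h18968
  have h18970 := checkRangeG_sound parWF r2 pf18969 h18969
  have h18971 := checkRangeG_sound parWF r2 pf18970 h18970
  have h18972 := checkRangeG_sound parWF r2 pf18971 h18971
  have h18973 := checkRangeG_sound parWF r2 pf18972 h18972
  have h18974 := checkRangeG_sound parWF r2 pf18973 h18973
  have h18975 := checkRangeG_sound parWF r2 pf18974 h18974
  have h18976 := checkRangeG_sound parWF r2 pf18975 h18975
  have h18977 := checkRangeG_sound parWF r2 pf18976 h18976
  have h18978 := checkRangeG_sound parWF r2 pf18977 h18977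
  have h18979 := checkRangeG_sound parWF r2 pf18978 h18978
  have h18980 := checkRangeG_sound parWF r2 pf18979 h18979
  have h18981 := checkRangeG_sound parWF r2 pf18980 h18980
  have h18982 := checkRangeG_sound parWF r2 pf18981 h18981
  have h18983 := checkRangeG_sound parWF r2 pf18982 h18982
  have h18984 := checkRangeG_sound parWF r2 pf18983 h18983
  have h18985 := checkRangeG_sound parWF r2 pf18984 h18984
  have h18986 := checkRangeG_sound parWF r2 pf18985 h18985
  have h18987 := checkRangeG_sound parWF r2 pf18986 h18986
  have h18988 := checkRangeG_sound parWF r2 pf18987 h18987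
  have h18989 := checkRangeG_sound parWF r2 pf18988 h18988
  have h18990 := checkRangeG_sound parWF r2 pf18989 h18989
  have h18991 := checkRangeG_sound parWF r2 pf18990 h18990
  have h18992 := checkRangeG_sound parWF r2 pf18991 h18991
  have h18993 := checkRangeG_sound parWF r2 pf18992 h18992
  have h18994 := checkRangeG_sound parWF r2 pf18993 h18993
  have h18995 := checkRangeG_sound parWF r2 pf18994 h18994
  have h18996 := checkRangeG_sound parWF r2 pf18995 h18995
  have h18997 := checkRangeG_sound parWF r2 pf18996 h18996
  have h18998 := checkRangeG_sound parWF r2 pf18997 h18997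
  have h18999 := checkRangeG_sound parWF r2 pf18998 h18998
  have h19000 := checkRangeG_sound parWF r2 pf18999 h18999
  exact h19000

theorem c380 (h19000 : ∀ j, j < 59489 → GoodG.{u} par (db j)) : ∀ j, j < 59667 → GoodG.{u} par (db j) := by
  have h19001 := checkRangeG_sound parWF r2 pf19000 h19000
  have h19002 := checkRangeG_sound parWF r2 pf19001 h19001
  have h19003 := checkRangeG_sound parWF r2 pf19002 h19002
  have h19004 := checkRangeG_sound parWF r2 pf19003 h19003
  have h19005 := checkRangeG_sound parWF r2 pf19004 h19004
  have h19006 := checkRangeG_sound parWF r2 pf19005 h19005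
  have h19007 := checkRangeG_sound parWF r2 pf19006 h19006
  have h19008 := checkRangeG_sound parWF r2 pf19007 h19007
  have h19009 := checkRangeG_sound parWF r2 pf19008 h19008
  have h19010 := checkRangeG_sound parWF r2 pf19009 h19009
  have h19011 := checkRangeG_sound parWF r2 pf19010 h19010
  have h19012 := checkRangeG_sound parWF r2 pf19011 h19011
  have h19013 := checkRangeG_sound parWF r2 pf19012 h19012
  have h19014 := checkRangeG_sound parWF r2 pf19013 h19013
  have h19015 := checkRangeG_sound parWF r2 pf19014 h19014
  have h19016 := checkRangeG_sound parWF r2 pf19015 h19015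
  have h19017 := checkRangeG_sound parWF r2 pf19016 h19016
  have h19018 := checkRangeG_sound parWF r2 pf19017 h19017
  have h19019 := checkRangeG_sound parWF r2 pf19018 h19018
  have h19020 := checkRangeG_sound parWF r2 pf19019 h19019
  have h19021 := checkRangeG_sound parWF r2 pf19020 h19020
  have h19022 := checkRangeG_sound parWF r2 pf19021 h19021
  have h19023 := checkRangeG_sound parWF r2 pf19022 h19022
  have h19024 := checkRangeG_sound parWF r2 pf19023 h19023
  have h19025 := checkRangeG_sound parWF r2 pf19024 h19024
  have h19026 := checkRangeG_sound parWF r2 pf19025 h19025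
  have h19027 := checkRangeG_sound parWF r2 pf19026 h19026
  have h19028 := checkRangeG_sound parWF r2 pf19027 h19027
  have h19029 := checkRangeG_sound parWF r2 pf19028 h19028
  have h19030 := checkRangeG_sound parWF r2 pf19029 h19029
  have h19031 := checkRangeG_sound parWF r2 pf19030 h19030
  have h19032 := checkRangeG_sound parWF r2 pf19031 h19031
  have h19033 := checkRangeG_sound parWF r2 pf19032 h19032
  have h19034 := checkRangeG_sound parWF r2 pf19033 h19033
  have h19035 := checkRangeG_sound parWF r2 pf19034 h19034
  have h19036 := checkRangeG_sound parWF r2 pf19035 h19035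
  have h19037 := checkRangeG_sound parWF r2 pf19036 h19036
  have h19038 := checkRangeG_sound parWF r2 pf19037 h19037
  have h19039 := checkRangeG_sound parWF r2 pf19038 h19038
  have h19040 := checkRangeG_sound parWF r2 pf19039 h19039
  have h19041 := checkRangeG_sound parWF r2 pf19040 h19040
  have h19042 := checkRangeG_sound parWF r2 pf19041 h19041
  have h19043 := checkRangeG_sound parWF r2 pf19042 h19042
  have h19044 := checkRangeG_sound parWF r2 pf19043 h19043
  have h19045 := checkRangeG_sound parWF r2 pf19044 h19044
  have h19046 := checkRangeG_sound parWF r2 pf19045 h19045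
  have h19047 := checkRangeG_sound parWF r2 pf19046 h19046
  have h19048 := checkRangeG_sound parWF r2 pf19047 h19047
  have h19049 := checkRangeG_sound parWF r2 pf19048 h19048
  have h19050 := checkRangeG_sound parWF r2 pf19049 h19049
  exact h19050

theorem c381 (h19050 : ∀ j, j < 59667 → GoodG.{u} par (db j)) : ∀ j, j < 59839 → GoodG.{u} par (db j) := by
  have h19051 := checkRangeG_sound parWF r2 pf19050 h19050
  have h19052 := checkRangeG_sound parWF r2 pf19051 h19051
  have h19053 := checkRangeG_sound parWF r2 pf19052 h19052
  have h19054 := checkRangeG_sound parWF r2 pf19053 h19053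
  have h19055 := checkRangeG_sound parWF r2 pf19054 h19054
  have h19056 := checkRangeG_sound parWF r2 pf19055 h19055
  have h19057 := checkRangeG_sound parWF r2 pf19056 h19056
  have h19058 := checkRangeG_sound parWF r2 pf19057 h19057
  have h19059 := checkRangeG_sound parWF r2 pf19058 h19058
  have h19060 := checkRangeG_sound parWF r2 pf19059 h19059
  have h19061 := checkRangeG_sound parWF r2 pf19060 h19060
  have h19062 := checkRangeG_sound parWF r2 pf19061 h19061
  have h19063 := checkRangeG_sound parWF r2 pf19062 h19062
  have h19064 := checkRangeG_sound parWF r2 pf19063 h19063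
  have h19065 := checkRangeG_sound parWF r2 pf19064 h19064
  have h19066 := checkRangeG_sound parWF r2 pf19065 h19065
  have h19067 := checkRangeG_sound parWF r2 pf19066 h19066
  have h19068 := checkRangeG_sound parWF r2 pf19067 h19067
  have h19069 := checkRangeG_sound parWF r2 pf19068 h19068
  have h19070 := checkRangeG_sound parWF r2 pf19069 h19069
  have h19071 := checkRangeG_sound parWF r2 pf19070 h19070
  have h19072 := checkRangeG_sound parWF r2 pf19071 h19071
  have h19073 := checkRangeG_sound parWF r2 pf19072 h19072
  have h19074 := checkRangeG_sound parWF r2 pf19073 h19073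
  have h19075 := checkRangeG_sound parWF r2 pf19074 h19074
  have h19076 := checkRangeG_sound parWF r2 pf19075 h19075
  have h19077 := checkRangeG_sound parWF r2 pf19076 h19076
  have h19078 := checkRangeG_sound parWF r2 pf19077 h19077
  have h19079 := checkRangeG_sound parWF r2 pf19078 h19078
  have h19080 := checkRangeG_sound parWF r2 pf19079 h19079
  have h19081 := checkRangeG_sound parWF r2 pf19080 h19080
  have h19082 := checkRangeG_sound parWF r2 pf19081 h19081
  have h19083 := checkRangeG_sound parWF r2 pf19082 h19082
  have h19084 := checkRangeG_sound parWF r2 pf19083 h19083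
  have h19085 := checkRangeG_sound parWF r2 pf19084 h19084
  have h19086 := checkRangeG_sound parWF r2 pf19085 h19085
  have h19087 := checkRangeG_sound parWF r2 pf19086 h19086
  have h19088 := checkRangeG_sound parWF r2 pf19087 h19087
  have h19089 := checkRangeG_sound parWF r2 pf19088 h19088
  have h19090 := checkRangeG_sound parWF r2 pf19089 h19089
  have h19091 := checkRangeG_sound parWF r2 pf19090 h19090
  have h19092 := checkRangeG_sound parWF r2 pf19091 h19091
  have h19093 := checkRangeG_sound parWF r2 pf19092 h19092
  have h19094 := checkRangeG_sound parWF r2 pf19093 h19093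
  have h19095 := checkRangeG_sound parWF r2 pf19094 h19094
  have h19096 := checkRangeG_sound parWF r2 pf19095 h19095
  have h19097 := checkRangeG_sound parWF r2 pf19096 h19096
  have h19098 := checkRangeG_sound parWF r2 pf19097 h19097
  have h19099 := checkRangeG_sound parWF r2 pf19098 h19098
  have h19100 := checkRangeG_sound parWF r2 pf19099 h19099
  exact h19100

theorem c382 (h19100 : ∀ j, j < 59839 → GoodG.{u} par (db j)) : ∀ j, j < 59991 → GoodG.{u} par (db j) := by
  have h19101 := checkRangeG_sound parWF r2 pf19100 h19100
  have h19102 := checkRangeG_sound parWF r2 pf19101 h19101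
  have h19103 := checkRangeG_sound parWF r2 pf19102 h19102
  have h19104 := checkRangeG_sound parWF r2 pf19103 h19103
  have h19105 := checkRangeG_sound parWF r2 pf19104 h19104
  have h19106 := checkRangeG_sound parWF r2 pf19105 h19105
  have h19107 := checkRangeG_sound parWF r2 pf19106 h19106
  have h19108 := checkRangeG_sound parWF r2 pf19107 h19107
  have h19109 := checkRangeG_sound parWF r2 pf19108 h19108
  have h19110 := checkRangeG_sound parWF r2 pf19109 h19109
  have h19111 := checkRangeG_sound parWF r2 pf19110 h19110
  have h19112 := checkRangeG_sound parWF r2 pf19111 h19111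
  have h19113 := checkRangeG_sound parWF r2 pf19112 h19112
  have h19114 := checkRangeG_sound parWF r2 pf19113 h19113
  have h19115 := checkRangeG_sound parWF r2 pf19114 h19114
  have h19116 := checkRangeG_sound parWF r2 pf19115 h19115
  have h19117 := checkRangeG_sound parWF r2 pf19116 h19116
  have h19118 := checkRangeG_sound parWF r2 pf19117 h19117
  have h19119 := checkRangeG_sound parWF r2 pf19118 h19118
  have h19120 := checkRangeG_sound parWF r2 pf19119 h19119
  have h19121 := checkRangeG_sound parWF r2 pf19120 h19120
  have h19122 := checkRangeG_sound parWF r2 pf19121 h19121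
  have h19123 := checkRangeG_sound parWF r2 pf19122 h19122
  have h19124 := checkRangeG_sound parWF r2 pf19123 h19123
  have h19125 := checkRangeG_sound parWF r2 pf19124 h19124
  have h19126 := checkRangeG_sound parWF r2 pf19125 h19125
  have h19127 := checkRangeG_sound parWF r2 pf19126 h19126
  have h19128 := checkRangeG_sound parWF r2 pf19127 h19127
  have h19129 := checkRangeG_sound parWF r2 pf19128 h19128
  have h19130 := checkRangeG_sound parWF r2 pf19129 h19129
  have h19131 := checkRangeG_sound parWF r2 pf19130 h19130
  have h19132 := checkRangeG_sound parWF r2 pf19131 h19131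
  have h19133 := checkRangeG_sound parWF r2 pf19132 h19132
  have h19134 := checkRangeG_sound parWF r2 pf19133 h19133
  have h19135 := checkRangeG_sound parWF r2 pf19134 h19134
  have h19136 := checkRangeG_sound parWF r2 pf19135 h19135
  have h19137 := checkRangeG_sound parWF r2 pf19136 h19136
  have h19138 := checkRangeG_sound parWF r2 pf19137 h19137
  have h19139 := checkRangeG_sound parWF r2 pf19138 h19138
  have h19140 := checkRangeG_sound parWF r2 pf19139 h19139
  have h19141 := checkRangeG_sound parWF r2 pf19140 h19140
  have h19142 := checkRangeG_sound parWF r2 pf19141 h19141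
  have h19143 := checkRangeG_sound parWF r2 pf19142 h19142
  have h19144 := checkRangeG_sound parWF r2 pf19143 h19143
  have h19145 := checkRangeG_sound parWF r2 pf19144 h19144
  have h19146 := checkRangeG_sound parWF r2 pf19145 h19145
  have h19147 := checkRangeG_sound parWF r2 pf19146 h19146
  have h19148 := checkRangeG_sound parWF r2 pf19147 h19147
  have h19149 := checkRangeG_sound parWF r2 pf19148 h19148
  have h19150 := checkRangeG_sound parWF r2 pf19149 h19149
  exact h19150

theorem c383 (h19150 : ∀ j, j < 59991 → GoodG.{u} par (db j)) : ∀ j, j < 60137 → GoodG.{u} par (db j) := by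
  have h19151 := checkRangeG_sound parWF r2 pf19150 h19150
  have h19152 := checkRangeG_sound parWF r2 pf19151 h19151
  have h19153 := checkRangeG_sound parWF r2 pf19152 h19152
  have h19154 := checkRangeG_sound parWF r2 pf19153 h19153
  have h19155 := checkRangeG_sound parWF r2 pf19154 h19154
  have h19156 := checkRangeG_sound parWF r2 pf19155 h19155
  have h19157 := checkRangeG_sound parWF r2 pf19156 h19156
  have h19158 := checkRangeG_sound parWF r2 pf19157 h19157
  have h19159 := checkRangeG_sound parWF r2 pf19158 h19158
  have h19160 := checkRangeG_sound parWF r2 pf19159 h19159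
  have h19161 := checkRangeG_sound parWF r2 pf19160 h19160
  have h19162 := checkRangeG_sound parWF r2 pf19161 h19161
  have h19163 := checkRangeG_sound parWF r2 pf19162 h19162
  have h19164 := checkRangeG_sound parWF r2 pf19163 h19163
  have h19165 := checkRangeG_sound parWF r2 pf19164 h19164
  have h19166 := checkRangeG_sound parWF r2 pf19165 h19165
  have h19167 := checkRangeG_sound parWF r2 pf19166 h19166
  have h19168 := checkRangeG_sound parWF r2 pf19167 h19167
  have h19169 := checkRangeG_sound parWF r2 pf19168 h19168
  have h19170 := checkRangeG_sound parWF r2 pf19169 h19169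
  have h19171 := checkRangeG_sound parWF r2 pf19170 h19170
  have h19172 := checkRangeG_sound parWF r2 pf19171 h19171
  have h19173 := checkRangeG_sound parWF r2 pf19172 h19172
  have h19174 := checkRangeG_sound parWF r2 pf19173 h19173
  have h19175 := checkRangeG_sound parWF r2 pf19174 h19174
  have h19176 := checkRangeG_sound parWF r2 pf19175 h19175
  have h19177 := checkRangeG_sound parWF r2 pf19176 h19176
  have h19178 := checkRangeG_sound parWF r2 pf19177 h19177
  have h19179 := checkRangeG_sound parWF r2 pf19178 h19178
  have h19180 := checkRangeG_sound parWF r2 pf19179 h19179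
  have h19181 := checkRangeG_sound parWF r2 pf19180 h19180
  have h19182 := checkRangeG_sound parWF r2 pf19181 h19181
  have h19183 := checkRangeG_sound parWF r2 pf19182 h19182
  have h19184 := checkRangeG_sound parWF r2 pf19183 h19183
  have h19185 := checkRangeG_sound parWF r2 pf19184 h19184
  have h19186 := checkRangeG_sound parWF r2 pf19185 h19185
  have h19187 := checkRangeG_sound parWF r2 pf19186 h19186
  have h19188 := checkRangeG_sound parWF r2 pf19187 h19187
  have h19189 := checkRangeG_sound parWF r2 pf19188 h19188
  have h19190 := checkRangeG_sound parWF r2 pf19189 h19189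
  have h19191 := checkRangeG_sound parWF r2 pf19190 h19190
  have h19192 := checkRangeG_sound parWF r2 pf19191 h19191
  have h19193 := checkRangeG_sound parWF r2 pf19192 h19192
  have h19194 := checkRangeG_sound parWF r2 pf19193 h19193
  have h19195 := checkRangeG_sound parWF r2 pf19194 h19194
  have h19196 := checkRangeG_sound parWF r2 pf19195 h19195
  have h19197 := checkRangeG_sound parWF r2 pf19196 h19196
  have h19198 := checkRangeG_sound parWF r2 pf19197 h19197
  have h19199 := checkRangeG_sound parWF r2 pf19198 h19198
  have h19200 := checkRangeG_sound parWF r2 pf19199 h19199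
  exact h19200


end Vale.Agent.P045g.C61
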