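import Vale.Agent.P045g.C61.WF
import Vale.Agent.P045g.C61.Pf320
import Vale.Agent.P045g.C61.Pf321
import Vale.Agent.P045g.C61.Pf322
import Vale.Agent.P045g.C61.Pf323
import Vale.Agent.P045g.C61.Pf324
import Vale.Agent.P045g.C61.Pf325
import Vale.Agent.P045g.C61.Pf326
import Vale.Agent.P045g.C61.Pf327
import Vale.Agent.P045g.C61.Pf328
import Vale.Agent.P045g.C61.Pf329

namespace Vale.Agent.P045g.C61

open Vale.Agent.P045b Vale.Agent.P045g

universe u

theorem c384 (h19200 : ∀ j, j < 60137 → GoodG.{u} par (db j)) : ∀ j, j < 60286 → GoodG.{u} par (db j) := by
  have h19201 := checkRangeG_sound parWF r2 pf19200 h19200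
  have h19202 := checkRangeG_sound parWF r2 pf19201 h19201
  have h19203 := checkRangeG_sound parWF r2 pf19202 h19202
  have h19204 := checkRangeG_sound parWF r2 pf19203 h19203
  have h19205 := checkRangeG_sound parWF r2 pf19204 h19204
  have h19206 := checkRangeG_sound parWF r2 pf19205 h19205
  have h19207 := checkRangeG_sound parWF r2 pf19206 h19206
  have h19208 := checkRangeG_sound parWF r2 pf19207 h19207
  have h19209 := checkRangeG_sound parWF r2 pf19208 h19208
  have h19210 := checkRangeG_sound parWF r2 pf19209 h19209
  have h19211 := checkRangeG_sound parWF r2 pf19210 h19210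
  have h19212 := checkRangeG_sound parWF r2 pf19211 h19211
  have h19213 := checkRangeG_sound parWF r2 pf19212 h19212
  have h19214 := checkRangeG_sound parWF r2 pf19213 h19213
  have h19215 := checkRangeG_sound parWF r2 pf19214 h19214
  have h19216 := checkRangeG_sound parWF r2 pf19215 h19215
  have h19217 := checkRangeG_sound parWF r2 pf19216 h19216
  have h19218 := checkRangeG_sound parWF r2 pf19217 h19217
  have h19219 := checkRangeG_sound parWF r2 pf19218 h19218
  have h19220 := checkRangeG_sound parWF r2 pf19219 h19219
  have h19221 := checkRangeG_sound parWF r2 pf19220 h19220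
  have h19222 := checkRangeG_sound parWF r2 pf19221 h19221
  have h19223 := checkRangeG_sound parWF r2 pf19222 h19222
  have h19224 := checkRangeG_sound parWF r2 pf19223 h19223
  have h19225 := checkRangeG_sound parWF r2 pf19224 h19224
  have h19226 := checkRangeG_sound parWF r2 pf19225 h19225
  have h19227 := checkRangeG_sound parWF r2 pf19226 h19226
  have h19228 := checkRangeG_sound parWF r2 pf19227 h19227
  have h19229 := checkRangeG_sound parWF r2 pf19228 h19228
  have h19230 := checkRangeG_sound parWF r2 pf19229 h19229
  have h19231 := checkRangeG_sound parWF r2 pf19230 h19230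
  have h19232 := checkRangeG_sound parWF r2 pf19231 h19231
  have h19233 := checkRangeG_sound parWF r2 pf19232 h19232
  have h19234 := checkRangeG_sound parWF r2 pf19233 h19233
  have h19235 := checkRangeG_sound parWF r2 pf19234 h19234
  have h19236 := checkRangeG_sound parWF r2 pf19235 h19235
  have h19237 := checkRangeG_sound parWF r2 pf19236 h19236
  have h19238 := checkRangeG_sound parWF r2 pf19237 h19237
  have h19239 := checkRangeG_sound parWF r2 pf19238 h19238
  have h19240 := checkRangeG_sound parWF r2 pf19239 h19239
  have h19241 := checkRangeG_sound parWF r2 pf19240 h19240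
  have h19242 := checkRangeG_sound parWF r2 pf19241 h19241
  have h19243 := checkRangeG_sound parWF r2 pf19242 h19242
  have h19244 := checkRangeG_sound parWF r2 pf19243 h19243
  have h19245 := checkRangeG_sound parWF r2 pf19244 h19244
  have h19246 := checkRangeG_sound parWF r2 pf19245 h19245
  have h19247 := checkRangeG_sound parWF r2 pf19246 h19246
  have h19248 := checkRangeG_sound parWF r2 pf19247 h19247
  have h19249 := checkRangeG_sound parWF r2 pf19248 h19248
  have h19250 := checkRangeG_sound parWF r2 pf19249 h19249
  exact h19250

theorem c385 (h19250 : ∀ j, j < 60286 → GoodG.{u} par (db j)) : ∀ j, j < 60429 → GoodG.{u} par (db j) := by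
  have h19251 := checkRangeG_sound parWF r2 pf19250 h19250
  have h19252 := checkRangeG_sound parWF r2 pf19251 h19251
  have h19253 := checkRangeG_sound parWF r2 pf19252 h19252
  have h19254 := checkRangeG_sound parWF r2 pf19253 h19253
  have h19255 := checkRangeG_sound parWF r2 pf19254 h19254
  have h19256 := checkRangeG_sound parWF r2 pf19255 h19255
  have h19257 := checkRangeG_sound parWF r2 pf19256 h19256
  have h19258 := checkRangeG_sound parWF r2 pf19257 h19257
  have h19259 := checkRangeG_sound parWF r2 pf19258 h19258
  have h19260 := checkRangeG_sound parWF r2 pf19259 h19259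
  have h19261 := checkRangeG_sound parWF r2 pf19260 h19260
  have h19262 := checkRangeG_sound parWF r2 pf19261 h19261
  have h19263 := checkRangeG_sound parWF r2 pf19262 h19262
  have h19264 := checkRangeG_sound parWF r2 pf19263 h19263
  have h19265 := checkRangeG_sound parWF r2 pf19264 h19264
  have h19266 := checkRangeG_sound parWF r2 pf19265 h19265
  have h19267 := checkRangeG_sound parWF r2 pf19266 h19266
  have h19268 := checkRangeG_sound parWF r2 pf19267 h19267
  have h19269 := checkRangeG_sound parWF r2 pf19268 h19268
  have h19270 := checkRangeG_sound parWF r2 pf19269 h19269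
  have h19271 := checkRangeG_sound parWF r2 pf19270 h19270
  have h19272 := checkRangeG_sound parWF r2 pf19271 h19271
  have h19273 := checkRangeG_sound parWF r2 pf19272 h19272
  have h19274 := checkRangeG_sound parWF r2 pf19273 h19273
  have h19275 := checkRangeG_sound parWF r2 pf19274 h19274
  have h19276 := checkRangeG_sound parWF r2 pf19275 h19275
  have h19277 := checkRangeG_sound parWF r2 pf19276 h19276
  have h19278 := checkRangeG_sound parWF r2 pf19277 h19277
  have h19279 := checkRangeG_sound parWF r2 pf19278 h19278
  have h19280 := checkRangeG_sound parWF r2 pf19279 h19279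
  have h19281 := checkRangeG_sound parWF r2 pf19280 h19280
  have h19282 := checkRangeG_sound parWF r2 pf19281 h19281
  have h19283 := checkRangeG_sound parWF r2 pf19282 h19282
  have h19284 := checkRangeG_sound parWF r2 pf19283 h19283
  have h19285 := checkRangeG_sound parWF r2 pf19284 h19284
  have h19286 := checkRangeG_sound parWF r2 pf19285 h19285
  have h19287 := checkRangeG_sound parWF r2 pf19286 h19286
  have h19288 := checkRangeG_sound parWF r2 pf19287 h19287
  have h19289 := checkRangeG_sound parWF r2 pf19288 h19288
  have h19290 := checkRangeG_sound parWF r2 pf19289 h19289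
  have h19291 := checkRangeG_sound parWF r2 pf19290 h19290
  have h19292 := checkRangeG_sound parWF r2 pf19291 h19291
  have h19293 := checkRangeG_sound parWF r2 pf19292 h19292
  have h19294 := checkRangeG_sound parWF r2 pf19293 h19293
  have h19295 := checkRangeG_sound parWF r2 pf19294 h19294
  have h19296 := checkRangeG_sound parWF r2 pf19295 h19295
  have h19297 := checkRangeG_sound parWF r2 pf19296 h19296
  have h19298 := checkRangeG_sound parWF r2 pf19297 h19297
  have h19299 := checkRangeG_sound parWF r2 pf19298 h19298
  have h19300 := checkRangeG_sound parWF r2 pf19299 h19299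
  exact h19300

theorem c386 (h19300 : ∀ j, j < 60429 → GoodG.{u} par (db j)) : ∀ j, j < 60580 → GoodG.{u} par (db j) := by
  have h19301 := checkRangeG_sound parWF r2 pf19300 h19300
  have h19302 := checkRangeG_sound parWF r2 pf19301 h19301
  have h19303 := checkRangeG_sound parWF r2 pf19302 h19302
  have h19304 := checkRangeG_sound parWF r2 pf19303 h19303
  have h19305 := checkRangeG_sound parWF r2 pf19304 h19304
  have h19306 := checkRangeG_sound parWF r2 pf19305 h19305
  have h19307 := checkRangeG_sound parWF r2 pf19306 h19306
  have h19308 := checkRangeG_sound parWF r2 pf19307 h19307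
  have h19309 := checkRangeG_sound parWF r2 pf19308 h19308
  have h19310 := checkRangeG_sound parWF r2 pf19309 h19309
  have h19311 := checkRangeG_sound parWF r2 pf19310 h19310
  have h19312 := checkRangeG_sound parWF r2 pf19311 h19311
  have h19313 := checkRangeG_sound parWF r2 pf19312 h19312
  have h19314 := checkRangeG_sound parWF r2 pf19313 h19313
  have h19315 := checkRangeG_sound parWF r2 pf19314 h19314
  have h19316 := checkRangeG_sound parWF r2 pf19315 h19315
  have h19317 := checkRangeG_sound parWF r2 pf19316 h19316
  have h19318 := checkRangeG_sound parWF r2 pf19317 h19317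
  have h19319 := checkRangeG_sound parWF r2 pf19318 h19318
  have h19320 := checkRangeG_sound parWF r2 pf19319 h19319
  have h19321 := checkRangeG_sound parWF r2 pf19320 h19320
  have h19322 := checkRangeG_sound parWF r2 pf19321 h19321
  have h19323 := checkRangeG_sound parWF r2 pf19322 h19322
  have h19324 := checkRangeG_sound parWF r2 pf19323 h19323
  have h19325 := checkRangeG_sound parWF r2 pf19324 h19324
  have h19326 := checkRangeG_sound parWF r2 pf19325 h19325
  have h19327 := checkRangeG_sound parWF r2 pf19326 h19326
  have h19328 := checkRangeG_sound parWF r2 pf19327 h19327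
  have h19329 := checkRangeG_sound parWF r2 pf19328 h19328
  have h19330 := checkRangeG_sound parWF r2 pf19329 h19329
  have h19331 := checkRangeG_sound parWF r2 pf19330 h19330
  have h19332 := checkRangeG_sound parWF r2 pf19331 h19331
  have h19333 := checkRangeG_sound parWF r2 pf19332 h19332
  have h19334 := checkRangeG_sound parWF r2 pf19333 h19333
  have h19335 := checkRangeG_sound parWF r2 pf19334 h19334
  have h19336 := checkRangeG_sound parWF r2 pf19335 h19335
  have h19337 := checkRangeG_sound parWF r2 pf19336 h19336
  have h19338 := checkRangeG_sound parWF r2 pf19337 h19337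
  have h19339 := checkRangeG_sound parWF r2 pf19338 h19338
  have h19340 := checkRangeG_sound parWF r2 pf19339 h19339
  have h19341 := checkRangeG_sound parWF r2 pf19340 h19340
  have h19342 := checkRangeG_sound parWF r2 pf19341 h19341
  have h19343 := checkRangeG_sound parWF r2 pf19342 h19342
  have h19344 := checkRangeG_sound parWF r2 pf19343 h19343
  have h19345 := checkRangeG_sound parWF r2 pf19344 h19344
  have h19346 := checkRangeG_sound parWF r2 pf19345 h19345
  have h19347 := checkRangeG_sound parWF r2 pf19346 h19346
  have h19348 := checkRangeG_sound parWF r2 pf19347 h19347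
  have h19349 := checkRangeG_sound parWF r2 pf19348 h19348
  have h19350 := checkRangeG_sound parWF r2 pf19349 h19349
  exact h19350

theorem c387 (h19350 : ∀ j, j < 60580 → GoodG.{u} par (db j)) : ∀ j, j < 60729 → GoodG.{u} par (db j) := by
  have h19351 := checkRangeG_sound parWF r2 pf19350 h19350
  have h19352 := checkRangeG_sound parWF r2 pf19351 h19351
  have h19353 := checkRangeG_sound parWF r2 pf19352 h19352
  have h19354 := checkRangeG_sound parWF r2 pf19353 h19353
  have h19355 := checkRangeG_sound parWF r2 pf19354 h19354
  have h19356 := checkRangeG_sound parWF r2 pf19355 h19355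
  have h19357 := checkRangeG_sound parWF r2 pf19356 h19356
  have h19358 := checkRangeG_sound parWF r2 pf19357 h19357
  have h19359 := checkRangeG_sound parWF r2 pf19358 h19358
  have h19360 := checkRangeG_sound parWF r2 pf19359 h19359
  have h19361 := checkRangeG_sound parWF r2 pf19360 h19360
  have h19362 := checkRangeG_sound parWF r2 pf19361 h19361
  have h19363 := checkRangeG_sound parWF r2 pf19362 h19362
  have h19364 := checkRangeG_sound parWF r2 pf19363 h19363
  have h19365 := checkRangeG_sound parWF r2 pf19364 h19364
  have h19366 := checkRangeG_sound parWF r2 pf19365 h19365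
  have h19367 := checkRangeG_sound parWF r2 pf19366 h19366
  have h19368 := checkRangeG_sound parWF r2 pf19367 h19367
  have h19369 := checkRangeG_sound parWF r2 pf19368 h19368
  have h19370 := checkRangeG_sound parWF r2 pf19369 h19369
  have h19371 := checkRangeG_sound parWF r2 pf19370 h19370
  have h19372 := checkRangeG_sound parWF r2 pf19371 h19371
  have h19373 := checkRangeG_sound parWF r2 pf19372 h19372
  have h19374 := checkRangeG_sound parWF r2 pf19373 h19373
  have h19375 := checkRangeG_sound parWF r2 pf19374 h19374
  have h19376 := checkRangeG_sound parWF r2 pf19375 h19375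
  have h19377 := checkRangeG_sound parWF r2 pf19376 h19376
  have h19378 := checkRangeG_sound parWF r2 pf19377 h19377
  have h19379 := checkRangeG_sound parWF r2 pf19378 h19378
  have h19380 := checkRangeG_sound parWF r2 pf19379 h19379
  have h19381 := checkRangeG_sound parWF r2 pf19380 h19380
  have h19382 := checkRangeG_sound parWF r2 pf19381 h19381
  have h19383 := checkRangeG_sound parWF r2 pf19382 h19382
  have h19384 := checkRangeG_sound parWF r2 pf19383 h19383
  have h19385 := checkRangeG_sound parWF r2 pf19384 h19384
  have h19386 := checkRangeG_sound parWF r2 pf19385 h19385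
  have h19387 := checkRangeG_sound parWF r2 pf19386 h19386
  have h19388 := checkRangeG_sound parWF r2 pf19387 h19387
  have h19389 := checkRangeG_sound parWF r2 pf19388 h19388
  have h19390 := checkRangeG_sound parWF r2 pf19389 h19389
  have h19391 := checkRangeG_sound parWF r2 pf19390 h19390
  have h19392 := checkRangeG_sound parWF r2 pf19391 h19391
  have h19393 := checkRangeG_sound parWF r2 pf19392 h19392
  have h19394 := checkRangeG_sound parWF r2 pf19393 h19393
  have h19395 := checkRangeG_sound parWF r2 pf19394 h19394
  have h19396 := checkRangeG_sound parWF r2 pf19395 h19395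
  have h19397 := checkRangeG_sound parWF r2 pf19396 h19396
  have h19398 := checkRangeG_sound parWF r2 pf19397 h19397
  have h19399 := checkRangeG_sound parWF r2 pf19398 h19398
  have h19400 := checkRangeG_sound parWF r2 pf19399 h19399
  exact h19400

theorem c388 (h19400 : ∀ j, j < 60729 → GoodG.{u} par (db j)) : ∀ j, j < 60890 → GoodG.{u} par (db j) := by
  have h19401 := checkRangeG_sound parWF r2 pf19400 h19400
  have h19402 := checkRangeG_sound parWF r2 pf19401 h19401
  have h19403 := checkRangeG_sound parWF r2 pf19402 h19402
  have h19404 := checkRangeG_sound parWF r2 pf19403 h19403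
  have h19405 := checkRangeG_sound parWF r2 pf19404 h19404
  have h19406 := checkRangeG_sound parWF r2 pf19405 h19405
  have h19407 := checkRangeG_sound parWF r2 pf19406 h19406
  have h19408 := checkRangeG_sound parWF r2 pf19407 h19407
  have h19409 := checkRangeG_sound parWF r2 pf19408 h19408
  have h19410 := checkRangeG_sound parWF r2 pf19409 h19409
  have h19411 := checkRangeG_sound parWF r2 pf19410 h19410
  have h19412 := checkRangeG_sound parWF r2 pf19411 h19411
  have h19413 := checkRangeG_sound parWF r2 pf19412 h19412
  have h19414 := checkRangeG_sound parWF r2 pf19413 h19413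
  have h19415 := checkRangeG_sound parWF r2 pf19414 h19414
  have h19416 := checkRangeG_sound parWF r2 pf19415 h19415
  have h19417 := checkRangeG_sound parWF r2 pf19416 h19416
  have h19418 := checkRangeG_sound parWF r2 pf19417 h19417
  have h19419 := checkRangeG_sound parWF r2 pf19418 h19418
  have h19420 := checkRangeG_sound parWF r2 pf19419 h19419
  have h19421 := checkRangeG_sound parWF r2 pf19420 h19420
  have h19422 := checkRangeG_sound parWF r2 pf19421 h19421
  have h19423 := checkRangeG_sound parWF r2 pf19422 h19422
  have h19424 := checkRangeG_sound parWF r2 pf19423 h19423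
  have h19425 := checkRangeG_sound parWF r2 pf19424 h19424
  have h19426 := checkRangeG_sound parWF r2 pf19425 h19425
  have h19427 := checkRangeG_sound parWF r2 pf19426 h19426
  have h19428 := checkRangeG_sound parWF r2 pf19427 h19427
  have h19429 := checkRangeG_sound parWF r2 pf19428 h19428
  have h19430 := checkRangeG_sound parWF r2 pf19429 h19429
  have h19431 := checkRangeG_sound parWF r2 pf19430 h19430
  have h19432 := checkRangeG_sound parWF r2 pf19431 h19431
  have h19433 := checkRangeG_sound parWF r2 pf19432 h19432
  have h19434 := checkRangeG_sound parWF r2 pf19433 h19433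
  have h19435 := checkRangeG_sound parWF r2 pf19434 h19434
  have h19436 := checkRangeG_sound parWF r2 pf19435 h19435
  have h19437 := checkRangeG_sound parWF r2 pf19436 h19436
  have h19438 := checkRangeG_sound parWF r2 pf19437 h19437
  have h19439 := checkRangeG_sound parWF r2 pf19438 h19438
  have h19440 := checkRangeG_sound parWF r2 pf19439 h19439
  have h19441 := checkRangeG_sound parWF r2 pf19440 h19440
  have h19442 := checkRangeG_sound parWF r2 pf19441 h19441
  have h19443 := checkRangeG_sound parWF r2 pf19442 h19442
  have h19444 := checkRangeG_sound parWF r2 pf19443 h19443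
  have h19445 := checkRangeG_sound parWF r2 pf19444 h19444
  have h19446 := checkRangeG_sound parWF r2 pf19445 h19445
  have h19447 := checkRangeG_sound parWF r2 pf19446 h19446
  have h19448 := checkRangeG_sound parWF r2 pf19447 h19447
  have h19449 := checkRangeG_sound parWF r2 pf19448 h19448
  have h19450 := checkRangeG_sound parWF r2 pf19449 h19449
  exact h19450

theorem c389 (h19450 : ∀ j, j < 60890 → GoodG.{u} par (db j)) : ∀ j, j < 61117 → GoodG.{u} par (db j) := by
  have h19451 := checkRangeG_sound parWF r2 pf19450 h19450
  have h19452 := checkRangeG_sound parWF r2 pf19451 h19451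
  have h19453 := checkRangeG_sound parWF r2 pf19452 h19452
  have h19454 := checkRangeG_sound parWF r2 pf19453 h19453
  have h19455 := checkRangeG_sound parWF r2 pf19454 h19454
  have h19456 := checkRangeG_sound parWF r2 pf19455 h19455
  have h19457 := checkRangeG_sound parWF r2 pf19456 h19456
  have h19458 := checkRangeG_sound parWF r2 pf19457 h19457
  have h19459 := checkRangeG_sound parWF r2 pf19458 h19458
  have h19460 := checkRangeG_sound parWF r2 pf19459 h19459
  have h19461 := checkRangeG_sound parWF r2 pf19460 h19460
  have h19462 := checkRangeG_sound parWF r2 pf19461 h19461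
  have h19463 := checkRangeG_sound parWF r2 pf19462 h19462
  have h19464 := checkRangeG_sound parWF r2 pf19463 h19463
  have h19465 := checkRangeG_sound parWF r2 pf19464 h19464
  have h19466 := checkRangeG_sound parWF r2 pf19465 h19465
  have h19467 := checkRangeG_sound parWF r2 pf19466 h19466
  have h19468 := checkRangeG_sound parWF r2 pf19467 h19467
  have h19469 := checkRangeG_sound parWF r2 pf19468 h19468
  have h19470 := checkRangeG_sound parWF r2 pf19469 h19469
  have h19471 := checkRangeG_sound parWF r2 pf19470 h19470
  have h19472 := checkRangeG_sound parWF r2 pf19471 h19471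
  have h19473 := checkRangeG_sound parWF r2 pf19472 h19472
  have h19474 := checkRangeG_sound parWF r2 pf19473 h19473
  have h19475 := checkRangeG_sound parWF r2 pf19474 h19474
  have h19476 := checkRangeG_sound parWF r2 pf19475 h19475
  have h19477 := checkRangeG_sound parWF r2 pf19476 h19476
  have h19478 := checkRangeG_sound parWF r2 pf19477 h19477
  have h19479 := checkRangeG_sound parWF r2 pf19478 h19478
  have h19480 := checkRangeG_sound parWF r2 pf19479 h19479
  have h19481 := checkRangeG_sound parWF r2 pf19480 h19480
  have h19482 := checkRangeG_sound parWF r2 pf19481 h19481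
  have h19483 := checkRangeG_sound parWF r2 pf19482 h19482
  have h19484 := checkRangeG_sound parWF r2 pf19483 h19483
  have h19485 := checkRangeG_sound parWF r2 pf19484 h19484
  have h19486 := checkRangeG_sound parWF r2 pf19485 h19485
  have h19487 := checkRangeG_sound parWF r2 pf19486 h19486
  have h19488 := checkRangeG_sound parWF r2 pf19487 h19487
  have h19489 := checkRangeG_sound parWF r2 pf19488 h19488
  have h19490 := checkRangeG_sound parWF r2 pf19489 h19489
  have h19491 := checkRangeG_sound parWF r2 pf19490 h19490
  have h19492 := checkRangeG_sound parWF r2 pf19491 h19491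
  have h19493 := checkRangeG_sound parWF r2 pf19492 h19492
  have h19494 := checkRangeG_sound parWF r2 pf19493 h19493
  have h19495 := checkRangeG_sound parWF r2 pf19494 h19494
  have h19496 := checkRangeG_sound parWF r2 pf19495 h19495
  have h19497 := checkRangeG_sound parWF r2 pf19496 h19496
  have h19498 := checkRangeG_sound parWF r2 pf19497 h19497
  have h19499 := checkRangeG_sound parWF r2 pf19498 h19498
  have h19500 := checkRangeG_sound parWF r2 pf19499 h19499
  exact h19500

theorem c390 (h19500 : ∀ j, j < 61117 → GoodG.{u} par (db j)) : ∀ j, j < 61319 → GoodG.{u} par (db j) := by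
  have h19501 := checkRangeG_sound parWF r2 pf19500 h19500
  have h19502 := checkRangeG_sound parWF r2 pf19501 h19501
  have h19503 := checkRangeG_sound parWF r2 pf19502 h19502
  have h19504 := checkRangeG_sound parWF r2 pf19503 h19503
  have h19505 := checkRangeG_sound parWF r2 pf19504 h19504
  have h19506 := checkRangeG_sound parWF r2 pf19505 h19505
  have h19507 := checkRangeG_sound parWF r2 pf19506 h19506
  have h19508 := checkRangeG_sound parWF r2 pf19507 h19507
  have h19509 := checkRangeG_sound parWF r2 pf19508 h19508
  have h19510 := checkRangeG_sound parWF r2 pf19509 h19509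
  have h19511 := checkRangeG_sound parWF r2 pf19510 h19510
  have h19512 := checkRangeG_sound parWF r2 pf19511 h19511
  have h19513 := checkRangeG_sound parWF r2 pf19512 h19512
  have h19514 := checkRangeG_sound parWF r2 pf19513 h19513
  have h19515 := checkRangeG_sound parWF r2 pf19514 h19514
  have h19516 := checkRangeG_sound parWF r2 pf19515 h19515
  have h19517 := checkRangeG_sound parWF r2 pf19516 h19516
  have h19518 := checkRangeG_sound parWF r2 pf19517 h19517
  have h19519 := checkRangeG_sound parWF r2 pf19518 h19518
  have h19520 := checkRangeG_sound parWF r2 pf19519 h19519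
  have h19521 := checkRangeG_sound parWF r2 pf19520 h19520
  have h19522 := checkRangeG_sound parWF r2 pf19521 h19521
  have h19523 := checkRangeG_sound parWF r2 pf19522 h19522
  have h19524 := checkRangeG_sound parWF r2 pf19523 h19523
  have h19525 := checkRangeG_sound parWF r2 pf19524 h19524
  have h19526 := checkRangeG_sound parWF r2 pf19525 h19525
  have h19527 := checkRangeG_sound parWF r2 pf19526 h19526
  have h19528 := checkRangeG_sound parWF r2 pf19527 h19527
  have h19529 := checkRangeG_sound parWF r2 pf19528 h19528
  have h19530 := checkRangeG_sound parWF r2 pf19529 h19529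
  have h19531 := checkRangeG_sound parWF r2 pf19530 h19530
  have h19532 := checkRangeG_sound parWF r2 pf19531 h19531
  have h19533 := checkRangeG_sound parWF r2 pf19532 h19532
  have h19534 := checkRangeG_sound parWF r2 pf19533 h19533
  have h19535 := checkRangeG_sound parWF r2 pf19534 h19534
  have h19536 := checkRangeG_sound parWF r2 pf19535 h19535
  have h19537 := checkRangeG_sound parWF r2 pf19536 h19536
  have h19538 := checkRangeG_sound parWF r2 pf19537 h19537
  have h19539 := checkRangeG_sound parWF r2 pf19538 h19538
  have h19540 := checkRangeG_sound parWF r2 pf19539 h19539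
  have h19541 := checkRangeG_sound parWF r2 pf19540 h19540
  have h19542 := checkRangeG_sound parWF r2 pf19541 h19541
  have h19543 := checkRangeG_sound parWF r2 pf19542 h19542
  have h19544 := checkRangeG_sound parWF r2 pf19543 h19543
  have h19545 := checkRangeG_sound parWF r2 pf19544 h19544
  have h19546 := checkRangeG_sound parWF r2 pf19545 h19545
  have h19547 := checkRangeG_sound parWF r2 pf19546 h19546
  have h19548 := checkRangeG_sound parWF r2 pf19547 h19547
  have h19549 := checkRangeG_sound parWF r2 pf19548 h19548
  have h19550 := checkRangeG_sound parWF r2 pf19549 h19549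
  exact h19550

theorem c391 (h19550 : ∀ j, j < 61319 → GoodG.{u} par (db j)) : ∀ j, j < 61492 → GoodG.{u} par (db j) := by
  have h19551 := checkRangeG_sound parWF r2 pf19550 h19550
  have h19552 := checkRangeG_sound parWF r2 pf19551 h19551
  have h19553 := checkRangeG_sound parWF r2 pf19552 h19552
  have h19554 := checkRangeG_sound parWF r2 pf19553 h19553
  have h19555 := checkRangeG_sound parWF r2 pf19554 h19554
  have h19556 := checkRangeG_sound parWF r2 pf19555 h19555
  have h19557 := checkRangeG_sound parWF r2 pf19556 h19556
  have h19558 := checkRangeG_sound parWF r2 pf19557 h19557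
  have h19559 := checkRangeG_sound parWF r2 pf19558 h19558
  have h19560 := checkRangeG_sound parWF r2 pf19559 h19559
  have h19561 := checkRangeG_sound parWF r2 pf19560 h19560
  have h19562 := checkRangeG_sound parWF r2 pf19561 h19561
  have h19563 := checkRangeG_sound parWF r2 pf19562 h19562
  have h19564 := checkRangeG_sound parWF r2 pf19563 h19563
  have h19565 := checkRangeG_sound parWF r2 pf19564 h19564
  have h19566 := checkRangeG_sound parWF r2 pf19565 h19565
  have h19567 := checkRangeG_sound parWF r2 pf19566 h19566
  have h19568 := checkRangeG_sound parWF r2 pf19567 h19567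
  have h19569 := checkRangeG_sound parWF r2 pf19568 h19568
  have h19570 := checkRangeG_sound parWF r2 pf19569 h19569
  have h19571 := checkRangeG_sound parWF r2 pf19570 h19570
  have h19572 := checkRangeG_sound parWF r2 pf19571 h19571
  have h19573 := checkRangeG_sound parWF r2 pf19572 h19572
  have h19574 := checkRangeG_sound parWF r2 pf19573 h19573
  have h19575 := checkRangeG_sound parWF r2 pf19574 h19574
  have h19576 := checkRangeG_sound parWF r2 pf19575 h19575
  have h19577 := checkRangeG_sound parWF r2 pf19576 h19576
  have h19578 := checkRangeG_sound parWF r2 pf19577 h19577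
  have h19579 := checkRangeG_sound parWF r2 pf19578 h19578
  have h19580 := checkRangeG_sound parWF r2 pf19579 h19579
  have h19581 := checkRangeG_sound parWF r2 pf19580 h19580
  have h19582 := checkRangeG_sound parWF r2 pf19581 h19581
  have h19583 := checkRangeG_sound parWF r2 pf19582 h19582
  have h19584 := checkRangeG_sound parWF r2 pf19583 h19583
  have h19585 := checkRangeG_sound parWF r2 pf19584 h19584
  have h19586 := checkRangeG_sound parWF r2 pf19585 h19585
  have h19587 := checkRangeG_sound parWF r2 pf19586 h19586
  have h19588 := checkRangeG_sound parWF r2 pf19587 h19587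
  have h19589 := checkRangeG_sound parWF r2 pf19588 h19588
  have h19590 := checkRangeG_sound parWF r2 pf19589 h19589
  have h19591 := checkRangeG_sound parWF r2 pf19590 h19590
  have h19592 := checkRangeG_sound parWF r2 pf19591 h19591
  have h19593 := checkRangeG_sound parWF r2 pf19592 h19592
  have h19594 := checkRangeG_sound parWF r2 pf19593 h19593
  have h19595 := checkRangeG_sound parWF r2 pf19594 h19594
  have h19596 := checkRangeG_sound parWF r2 pf19595 h19595
  have h19597 := checkRangeG_sound parWF r2 pf19596 h19596
  have h19598 := checkRangeG_sound parWF r2 pf19597 h19597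
  have h19599 := checkRangeG_sound parWF r2 pf19598 h19598
  have h19600 := checkRangeG_sound parWF r2 pf19599 h19599
  exact h19600

theorem c392 (h19600 : ∀ j, j < 61492 → GoodG.{u} par (db j)) : ∀ j, j < 61673 → GoodG.{u} par (db j) := by
  have h19601 := checkRangeG_sound parWF r2 pf19600 h19600
  have h19602 := checkRangeG_sound parWF r2 pf19601 h19601
  have h19603 := checkRangeG_sound parWF r2 pf19602 h19602
  have h19604 := checkRangeG_sound parWF r2 pf19603 h19603
  have h19605 := checkRangeG_sound parWF r2 pf19604 h19604
  have h19606 := checkRangeG_sound parWF r2 pf19605 h19605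
  have h19607 := checkRangeG_sound parWF r2 pf19606 h19606
  have h19608 := checkRangeG_sound parWF r2 pf19607 h19607
  have h19609 := checkRangeG_sound parWF r2 pf19608 h19608
  have h19610 := checkRangeG_sound parWF r2 pf19609 h19609
  have h19611 := checkRangeG_sound parWF r2 pf19610 h19610
  have h19612 := checkRangeG_sound parWF r2 pf19611 h19611
  have h19613 := checkRangeG_sound parWF r2 pf19612 h19612
  have h19614 := checkRangeG_sound parWF r2 pf19613 h19613
  have h19615 := checkRangeG_sound parWF r2 pf19614 h19614
  have h19616 := checkRangeG_sound parWF r2 pf19615 h19615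
  have h19617 := checkRangeG_sound parWF r2 pf19616 h19616
  have h19618 := checkRangeG_sound parWF r2 pf19617 h19617
  have h19619 := checkRangeG_sound parWF r2 pf19618 h19618
  have h19620 := checkRangeG_sound parWF r2 pf19619 h19619
  have h19621 := checkRangeG_sound parWF r2 pf19620 h19620
  have h19622 := checkRangeG_sound parWF r2 pf19621 h19621
  have h19623 := checkRangeG_sound parWF r2 pf19622 h19622
  have h19624 := checkRangeG_sound parWF r2 pf19623 h19623
  have h19625 := checkRangeG_sound parWF r2 pf19624 h19624
  have h19626 := checkRangeG_sound parWF r2 pf19625 h19625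
  have h19627 := checkRangeG_sound parWF r2 pf19626 h19626
  have h19628 := checkRangeG_sound parWF r2 pf19627 h19627
  have h19629 := checkRangeG_sound parWF r2 pf19628 h19628
  have h19630 := checkRangeG_sound parWF r2 pf19629 h19629
  have h19631 := checkRangeG_sound parWF r2 pf19630 h19630
  have h19632 := checkRangeG_sound parWF r2 pf19631 h19631
  have h19633 := checkRangeG_sound parWF r2 pf19632 h19632
  have h19634 := checkRangeG_sound parWF r2 pf19633 h19633
  have h19635 := checkRangeG_sound parWF r2 pf19634 h19634
  have h19636 := checkRangeG_sound parWF r2 pf19635 h19635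
  have h19637 := checkRangeG_sound parWF r2 pf19636 h19636
  have h19638 := checkRangeG_sound parWF r2 pf19637 h19637
  have h19639 := checkRangeG_sound parWF r2 pf19638 h19638
  have h19640 := checkRangeG_sound parWF r2 pf19639 h19639
  have h19641 := checkRangeG_sound parWF r2 pf19640 h19640
  have h19642 := checkRangeG_sound parWF r2 pf19641 h19641
  have h19643 := checkRangeG_sound parWF r2 pf19642 h19642
  have h19644 := checkRangeG_sound parWF r2 pf19643 h19643
  have h19645 := checkRangeG_sound parWF r2 pf19644 h19644
  have h19646 := checkRangeG_sound parWF r2 pf19645 h19645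
  have h19647 := checkRangeG_sound parWF r2 pf19646 h19646
  have h19648 := checkRangeG_sound parWF r2 pf19647 h19647
  have h19649 := checkRangeG_sound parWF r2 pf19648 h19648
  have h19650 := checkRangeG_sound parWF r2 pf19649 h19649
  exact h19650

theorem c393 (h19650 : ∀ j, j < 61673 → GoodG.{u} par (db j)) : ∀ j, j < 61826 → GoodG.{u} par (db j) := by
  have h19651 := checkRangeG_sound parWF r2 pf19650 h19650
  have h19652 := checkRangeG_sound parWF r2 pf19651 h19651
  have h19653 := checkRangeG_sound parWF r2 pf19652 h19652
  have h19654 := checkRangeG_sound parWF r2 pf19653 h19653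
  have h19655 := checkRangeG_sound parWF r2 pf19654 h19654
  have h19656 := checkRangeG_sound parWF r2 pf19655 h19655
  have h19657 := checkRangeG_sound parWF r2 pf19656 h19656
  have h19658 := checkRangeG_sound parWF r2 pf19657 h19657
  have h19659 := checkRangeG_sound parWF r2 pf19658 h19658
  have h19660 := checkRangeG_sound parWF r2 pf19659 h19659
  have h19661 := checkRangeG_sound parWF r2 pf19660 h19660
  have h19662 := checkRangeG_sound parWF r2 pf19661 h19661
  have h19663 := checkRangeG_sound parWF r2 pf19662 h19662
  have h19664 := checkRangeG_sound parWF r2 pf19663 h19663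
  have h19665 := checkRangeG_sound parWF r2 pf19664 h19664
  have h19666 := checkRangeG_sound parWF r2 pf19665 h19665
  have h19667 := checkRangeG_sound parWF r2 pf19666 h19666
  have h19668 := checkRangeG_sound parWF r2 pf19667 h19667
  have h19669 := checkRangeG_sound parWF r2 pf19668 h19668
  have h19670 := checkRangeG_sound parWF r2 pf19669 h19669
  have h19671 := checkRangeG_sound parWF r2 pf19670 h19670
  have h19672 := checkRangeG_sound parWF r2 pf19671 h19671
  have h19673 := checkRangeG_sound parWF r2 pf19672 h19672
  have h19674 := checkRangeG_sound parWF r2 pf19673 h19673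
  have h19675 := checkRangeG_sound parWF r2 pf19674 h19674
  have h19676 := checkRangeG_sound parWF r2 pf19675 h19675
  have h19677 := checkRangeG_sound parWF r2 pf19676 h19676
  have h19678 := checkRangeG_sound parWF r2 pf19677 h19677
  have h19679 := checkRangeG_sound parWF r2 pf19678 h19678
  have h19680 := checkRangeG_sound parWF r2 pf19679 h19679
  have h19681 := checkRangeG_sound parWF r2 pf19680 h19680
  have h19682 := checkRangeG_sound parWF r2 pf19681 h19681
  have h19683 := checkRangeG_sound parWF r2 pf19682 h19682
  have h19684 := checkRangeG_sound parWF r2 pf19683 h19683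
  have h19685 := checkRangeG_sound parWF r2 pf19684 h19684
  have h19686 := checkRangeG_sound parWF r2 pf19685 h19685
  have h19687 := checkRangeG_sound parWF r2 pf19686 h19686
  have h19688 := checkRangeG_sound parWF r2 pf19687 h19687
  have h19689 := checkRangeG_sound parWF r2 pf19688 h19688
  have h19690 := checkRangeG_sound parWF r2 pf19689 h19689
  have h19691 := checkRangeG_sound parWF r2 pf19690 h19690
  have h19692 := checkRangeG_sound parWF r2 pf19691 h19691
  have h19693 := checkRangeG_sound parWF r2 pf19692 h19692
  have h19694 := checkRangeG_sound parWF r2 pf19693 h19693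
  have h19695 := checkRangeG_sound parWF r2 pf19694 h19694
  have h19696 := checkRangeG_sound parWF r2 pf19695 h19695
  have h19697 := checkRangeG_sound parWF r2 pf19696 h19696
  have h19698 := checkRangeG_sound parWF r2 pf19697 h19697
  have h19699 := checkRangeG_sound parWF r2 pf19698 h19698
  have h19700 := checkRangeG_sound parWF r2 pf19699 h19699
  exact h19700

theorem c394 (h19700 : ∀ j, j < 61826 → GoodG.{u} par (db j)) : ∀ j, j < 61971 → GoodG.{u} par (db j) := by
  have h19701 := checkRangeG_sound parWF r2 pf19700 h19700
  have h19702 := checkRangeG_sound parWF r2 pf19701 h19701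
  have h19703 := checkRangeG_sound parWF r2 pf19702 h19702
  have h19704 := checkRangeG_sound parWF r2 pf19703 h19703
  have h19705 := checkRangeG_sound parWF r2 pf19704 h19704
  have h19706 := checkRangeG_sound parWF r2 pf19705 h19705
  have h19707 := checkRangeG_sound parWF r2 pf19706 h19706
  have h19708 := checkRangeG_sound parWF r2 pf19707 h19707
  have h19709 := checkRangeG_sound parWF r2 pf19708 h19708
  have h19710 := checkRangeG_sound parWF r2 pf19709 h19709
  have h19711 := checkRangeG_sound parWF r2 pf19710 h19710
  have h19712 := checkRangeG_sound parWF r2 pf19711 h19711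
  have h19713 := checkRangeG_sound parWF r2 pf19712 h19712
  have h19714 := checkRangeG_sound parWF r2 pf19713 h19713
  have h19715 := checkRangeG_sound parWF r2 pf19714 h19714
  have h19716 := checkRangeG_sound parWF r2 pf19715 h19715
  have h19717 := checkRangeG_sound parWF r2 pf19716 h19716
  have h19718 := checkRangeG_sound parWF r2 pf19717 h19717
  have h19719 := checkRangeG_sound parWF r2 pf19718 h19718
  have h19720 := checkRangeG_sound parWF r2 pf19719 h19719
  have h19721 := checkRangeG_sound parWF r2 pf19720 h19720
  have h19722 := checkRangeG_sound parWF r2 pf19721 h19721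
  have h19723 := checkRangeG_sound parWF r2 pf19722 h19722
  have h19724 := checkRangeG_sound parWF r2 pf19723 h19723
  have h19725 := checkRangeG_sound parWF r2 pf19724 h19724
  have h19726 := checkRangeG_sound parWF r2 pf19725 h19725
  have h19727 := checkRangeG_sound parWF r2 pf19726 h19726
  have h19728 := checkRangeG_sound parWF r2 pf19727 h19727
  have h19729 := checkRangeG_sound parWF r2 pf19728 h19728
  have h19730 := checkRangeG_sound parWF r2 pf19729 h19729
  have h19731 := checkRangeG_sound parWF r2 pf19730 h19730
  have h19732 := checkRangeG_sound parWF r2 pf19731 h19731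
  have h19733 := checkRangeG_sound parWF r2 pf19732 h19732
  have h19734 := checkRangeG_sound parWF r2 pf19733 h19733
  have h19735 := checkRangeG_sound parWF r2 pf19734 h19734
  have h19736 := checkRangeG_sound parWF r2 pf19735 h19735
  have h19737 := checkRangeG_sound parWF r2 pf19736 h19736
  have h19738 := checkRangeG_sound parWF r2 pf19737 h19737
  have h19739 := checkRangeG_sound parWF r2 pf19738 h19738
  have h19740 := checkRangeG_sound parWF r2 pf19739 h19739
  have h19741 := checkRangeG_sound parWF r2 pf19740 h19740
  have h19742 := checkRangeG_sound parWF r2 pf19741 h19741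
  have h19743 := checkRangeG_sound parWF r2 pf19742 h19742
  have h19744 := checkRangeG_sound parWF r2 pf19743 h19743
  have h19745 := checkRangeG_sound parWF r2 pf19744 h19744
  have h19746 := checkRangeG_sound parWF r2 pf19745 h19745
  have h19747 := checkRangeG_sound parWF r2 pf19746 h19746
  have h19748 := checkRangeG_sound parWF r2 pf19747 h19747
  have h19749 := checkRangeG_sound parWF r2 pf19748 h19748
  have h19750 := checkRangeG_sound parWF r2 pf19749 h19749
  exact h19750

theorem c395 (h19750 : ∀ j, j < 61971 → GoodG.{u} par (db j)) : ∀ j, j < 62131 → GoodG.{u} par (db j) := by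
  have h19751 := checkRangeG_sound parWF r2 pf19750 h19750
  have h19752 := checkRangeG_sound parWF r2 pf19751 h19751
  have h19753 := checkRangeG_sound parWF r2 pf19752 h19752
  have h19754 := checkRangeG_sound parWF r2 pf19753 h19753
  have h19755 := checkRangeG_sound parWF r2 pf19754 h19754
  have h19756 := checkRangeG_sound parWF r2 pf19755 h19755
  have h19757 := checkRangeG_sound parWF r2 pf19756 h19756
  have h19758 := checkRangeG_sound parWF r2 pf19757 h19757
  have h19759 := checkRangeG_sound parWF r2 pf19758 h19758
  have h19760 := checkRangeG_sound parWF r2 pf19759 h19759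
  have h19761 := checkRangeG_sound parWF r2 pf19760 h19760
  have h19762 := checkRangeG_sound parWF r2 pf19761 h19761
  have h19763 := checkRangeG_sound parWF r2 pf19762 h19762
  have h19764 := checkRangeG_sound parWF r2 pf19763 h19763
  have h19765 := checkRangeG_sound parWF r2 pf19764 h19764
  have h19766 := checkRangeG_sound parWF r2 pf19765 h19765
  have h19767 := checkRangeG_sound parWF r2 pf19766 h19766
  have h19768 := checkRangeG_sound parWF r2 pf19767 h19767
  have h19769 := checkRangeG_sound parWF r2 pf19768 h19768
  have h19770 := checkRangeG_sound parWF r2 pf19769 h19769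
  have h19771 := checkRangeG_sound parWF r2 pf19770 h19770
  have h19772 := checkRangeG_sound parWF r2 pf19771 h19771
  have h19773 := checkRangeG_sound parWF r2 pf19772 h19772
  have h19774 := checkRangeG_sound parWF r2 pf19773 h19773
  have h19775 := checkRangeG_sound parWF r2 pf19774 h19774
  have h19776 := checkRangeG_sound parWF r2 pf19775 h19775
  have h19777 := checkRangeG_sound parWF r2 pf19776 h19776
  have h19778 := checkRangeG_sound parWF r2 pf19777 h19777
  have h19779 := checkRangeG_sound parWF r2 pf19778 h19778
  have h19780 := checkRangeG_sound parWF r2 pf19779 h19779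
  have h19781 := checkRangeG_sound parWF r2 pf19780 h19780
  have h19782 := checkRangeG_sound parWF r2 pf19781 h19781
  have h19783 := checkRangeG_sound parWF r2 pf19782 h19782
  have h19784 := checkRangeG_sound parWF r2 pf19783 h19783
  have h19785 := checkRangeG_sound parWF r2 pf19784 h19784
  have h19786 := checkRangeG_sound parWF r2 pf19785 h19785
  have h19787 := checkRangeG_sound parWF r2 pf19786 h19786
  have h19788 := checkRangeG_sound parWF r2 pf19787 h19787
  have h19789 := checkRangeG_sound parWF r2 pf19788 h19788
  have h19790 := checkRangeG_sound parWF r2 pf19789 h19789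
  have h19791 := checkRangeG_sound parWF r2 pf19790 h19790
  have h19792 := checkRangeG_sound parWF r2 pf19791 h19791
  have h19793 := checkRangeG_sound parWF r2 pf19792 h19792
  have h19794 := checkRangeG_sound parWF r2 pf19793 h19793
  have h19795 := checkRangeG_sound parWF r2 pf19794 h19794
  have h19796 := checkRangeG_sound parWF r2 pf19795 h19795
  have h19797 := checkRangeG_sound parWF r2 pf19796 h19796
  have h19798 := checkRangeG_sound parWF r2 pf19797 h19797
  have h19799 := checkRangeG_sound parWF r2 pf19798 h19798
  have h19800 := checkRangeG_sound parWF r2 pf19799 h19799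
  exact h19800


end Vale.Agent.P045g.C61
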