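import Vale.Agent.P045g.C61.WF
import Vale.Agent.P045g.C61.Pf330
import Vale.Agent.P045g.C61.Pf331
import Vale.Agent.P045g.C61.Pf332
import Vale.Agent.P045g.C61.Pf333
import Vale.Agent.P045g.C61.Pf334
import Vale.Agent.P045g.C61.Pf335
import Vale.Agent.P045g.C61.Pf336
import Vale.Agent.P045g.C61.Pf337
import Vale.Agent.P045g.C61.Pf338
import Vale.Agent.P045g.C61.Pf339

namespace Vale.Agent.P045g.C61

open Vale.Agent.P045b Vale.Agent.P045g

universe u

theorem c396 (h19800 : ∀ j, j < 62131 → GoodG.{u} par (db j)) : ∀ j, j < 62292 → GoodG.{u} par (db j) := by
  have h19801 := checkRangeG_sound parWF r2 pf19800 h19800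
  have h19802 := checkRangeG_sound parWF r2 pf19801 h19801
  have h19803 := checkRangeG_sound parWF r2 pf19802 h19802
  have h19804 := checkRangeG_sound parWF r2 pf19803 h19803
  have h19805 := checkRangeG_sound parWF r2 pf19804 h19804
  have h19806 := checkRangeG_sound parWF r2 pf19805 h19805
  have h19807 := checkRangeG_sound parWF r2 pf19806 h19806
  have h19808 := checkRangeG_sound parWF r2 pf19807 h19807
  have h19809 := checkRangeG_sound parWF r2 pf19808 h19808
  have h19810 := checkRangeG_sound parWF r2 pf19809 h19809
  have h19811 := checkRangeG_sound parWF r2 pf19810 h19810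
  have h19812 := checkRangeG_sound parWF r2 pf19811 h19811
  have h19813 := checkRangeG_sound parWF r2 pf19812 h19812
  have h19814 := checkRangeG_sound parWF r2 pf19813 h19813
  have h19815 := checkRangeG_sound parWF r2 pf19814 h19814
  have h19816 := checkRangeG_sound parWF r2 pf19815 h19815
  have h19817 := checkRangeG_sound parWF r2 pf19816 h19816
  have h19818 := checkRangeG_sound parWF r2 pf19817 h19817
  have h19819 := checkRangeG_sound parWF r2 pf19818 h19818
  have h19820 := checkRangeG_sound parWF r2 pf19819 h19819
  have h19821 := checkRangeG_sound parWF r2 pf19820 h19820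
  have h19822 := checkRangeG_sound parWF r2 pf19821 h19821
  have h19823 := checkRangeG_sound parWF r2 pf19822 h19822
  have h19824 := checkRangeG_sound parWF r2 pf19823 h19823
  have h19825 := checkRangeG_sound parWF r2 pf19824 h19824
  have h19826 := checkRangeG_sound parWF r2 pf19825 h19825
  have h19827 := checkRangeG_sound parWF r2 pf19826 h19826
  have h19828 := checkRangeG_sound parWF r2 pf19827 h19827
  have h19829 := checkRangeG_sound parWF r2 pf19828 h19828
  have h19830 := checkRangeG_sound parWF r2 pf19829 h19829
  have h19831 := checkRangeG_sound parWF r2 pf19830 h19830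
  have h19832 := checkRangeG_sound parWF r2 pf19831 h19831
  have h19833 := checkRangeG_sound parWF r2 pf19832 h19832
  have h19834 := checkRangeG_sound parWF r2 pf19833 h19833
  have h19835 := checkRangeG_sound parWF r2 pf19834 h19834
  have h19836 := checkRangeG_sound parWF r2 pf19835 h19835
  have h19837 := checkRangeG_sound parWF r2 pf19836 h19836
  have h19838 := checkRangeG_sound parWF r2 pf19837 h19837
  have h19839 := checkRangeG_sound parWF r2 pf19838 h19838
  have h19840 := checkRangeG_sound parWF r2 pf19839 h19839
  have h19841 := checkRangeG_sound parWF r2 pf19840 h19840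
  have h19842 := checkRangeG_sound parWF r2 pf19841 h19841
  have h19843 := checkRangeG_sound parWF r2 pf19842 h19842
  have h19844 := checkRangeG_sound parWF r2 pf19843 h19843
  have h19845 := checkRangeG_sound parWF r2 pf19844 h19844
  have h19846 := checkRangeG_sound parWF r2 pf19845 h19845
  have h19847 := checkRangeG_sound parWF r2 pf19846 h19846
  have h19848 := checkRangeG_sound parWF r2 pf19847 h19847
  have h19849 := checkRangeG_sound parWF r2 pf19848 h19848
  have h19850 := checkRangeG_sound parWF r2 pf19849 h19849
  exact h19850

theorem c397 (h19850 : ∀ j, j < 62292 → GoodG.{u} par (db j)) : ∀ j, j < 62456 → GoodG.{u} par (db j) := by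
  have h19851 := checkRangeG_sound parWF r2 pf19850 h19850
  have h19852 := checkRangeG_sound parWF r2 pf19851 h19851
  have h19853 := checkRangeG_sound parWF r2 pf19852 h19852
  have h19854 := checkRangeG_sound parWF r2 pf19853 h19853
  have h19855 := checkRangeG_sound parWF r2 pf19854 h19854
  have h19856 := checkRangeG_sound parWF r2 pf19855 h19855
  have h19857 := checkRangeG_sound parWF r2 pf19856 h19856
  have h19858 := checkRangeG_sound parWF r2 pf19857 h19857
  have h19859 := checkRangeG_sound parWF r2 pf19858 h19858
  have h19860 := checkRangeG_sound parWF r2 pf19859 h19859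
  have h19861 := checkRangeG_sound parWF r2 pf19860 h19860
  have h19862 := checkRangeG_sound parWF r2 pf19861 h19861
  have h19863 := checkRangeG_sound parWF r2 pf19862 h19862
  have h19864 := checkRangeG_sound parWF r2 pf19863 h19863
  have h19865 := checkRangeG_sound parWF r2 pf19864 h19864
  have h19866 := checkRangeG_sound parWF r2 pf19865 h19865
  have h19867 := checkRangeG_sound parWF r2 pf19866 h19866
  have h19868 := checkRangeG_sound parWF r2 pf19867 h19867
  have h19869 := checkRangeG_sound parWF r2 pf19868 h19868
  have h19870 := checkRangeG_sound parWF r2 pf19869 h19869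
  have h19871 := checkRangeG_sound parWF r2 pf19870 h19870
  have h19872 := checkRangeG_sound parWF r2 pf19871 h19871
  have h19873 := checkRangeG_sound parWF r2 pf19872 h19872
  have h19874 := checkRangeG_sound parWF r2 pf19873 h19873
  have h19875 := checkRangeG_sound parWF r2 pf19874 h19874
  have h19876 := checkRangeG_sound parWF r2 pf19875 h19875
  have h19877 := checkRangeG_sound parWF r2 pf19876 h19876
  have h19878 := checkRangeG_sound parWF r2 pf19877 h19877
  have h19879 := checkRangeG_sound parWF r2 pf19878 h19878
  have h19880 := checkRangeG_sound parWF r2 pf19879 h19879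
  have h19881 := checkRangeG_sound parWF r2 pf19880 h19880
  have h19882 := checkRangeG_sound parWF r2 pf19881 h19881
  have h19883 := checkRangeG_sound parWF r2 pf19882 h19882
  have h19884 := checkRangeG_sound parWF r2 pf19883 h19883
  have h19885 := checkRangeG_sound parWF r2 pf19884 h19884
  have h19886 := checkRangeG_sound parWF r2 pf19885 h19885
  have h19887 := checkRangeG_sound parWF r2 pf19886 h19886
  have h19888 := checkRangeG_sound parWF r2 pf19887 h19887
  have h19889 := checkRangeG_sound parWF r2 pf19888 h19888
  have h19890 := checkRangeG_sound parWF r2 pf19889 h19889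
  have h19891 := checkRangeG_sound parWF r2 pf19890 h19890
  have h19892 := checkRangeG_sound parWF r2 pf19891 h19891
  have h19893 := checkRangeG_sound parWF r2 pf19892 h19892
  have h19894 := checkRangeG_sound parWF r2 pf19893 h19893
  have h19895 := checkRangeG_sound parWF r2 pf19894 h19894
  have h19896 := checkRangeG_sound parWF r2 pf19895 h19895
  have h19897 := checkRangeG_sound parWF r2 pf19896 h19896
  have h19898 := checkRangeG_sound parWF r2 pf19897 h19897
  have h19899 := checkRangeG_sound parWF r2 pf19898 h19898
  have h19900 := checkRangeG_sound parWF r2 pf19899 h19899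
  exact h19900

theorem c398 (h19900 : ∀ j, j < 62456 → GoodG.{u} par (db j)) : ∀ j, j < 62612 → GoodG.{u} par (db j) := by
  have h19901 := checkRangeG_sound parWF r2 pf19900 h19900
  have h19902 := checkRangeG_sound parWF r2 pf19901 h19901
  have h19903 := checkRangeG_sound parWF r2 pf19902 h19902
  have h19904 := checkRangeG_sound parWF r2 pf19903 h19903
  have h19905 := checkRangeG_sound parWF r2 pf19904 h19904
  have h19906 := checkRangeG_sound parWF r2 pf19905 h19905
  have h19907 := checkRangeG_sound parWF r2 pf19906 h19906
  have h19908 := checkRangeG_sound parWF r2 pf19907 h19907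
  have h19909 := checkRangeG_sound parWF r2 pf19908 h19908
  have h19910 := checkRangeG_sound parWF r2 pf19909 h19909
  have h19911 := checkRangeG_sound parWF r2 pf19910 h19910
  have h19912 := checkRangeG_sound parWF r2 pf19911 h19911
  have h19913 := checkRangeG_sound parWF r2 pf19912 h19912
  have h19914 := checkRangeG_sound parWF r2 pf19913 h19913
  have h19915 := checkRangeG_sound parWF r2 pf19914 h19914
  have h19916 := checkRangeG_sound parWF r2 pf19915 h19915
  have h19917 := checkRangeG_sound parWF r2 pf19916 h19916
  have h19918 := checkRangeG_sound parWF r2 pf19917 h19917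
  have h19919 := checkRangeG_sound parWF r2 pf19918 h19918
  have h19920 := checkRangeG_sound parWF r2 pf19919 h19919
  have h19921 := checkRangeG_sound parWF r2 pf19920 h19920
  have h19922 := checkRangeG_sound parWF r2 pf19921 h19921
  have h19923 := checkRangeG_sound parWF r2 pf19922 h19922
  have h19924 := checkRangeG_sound parWF r2 pf19923 h19923
  have h19925 := checkRangeG_sound parWF r2 pf19924 h19924
  have h19926 := checkRangeG_sound parWF r2 pf19925 h19925
  have h19927 := checkRangeG_sound parWF r2 pf19926 h19926
  have h19928 := checkRangeG_sound parWF r2 pf19927 h19927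
  have h19929 := checkRangeG_sound parWF r2 pf19928 h19928
  have h19930 := checkRangeG_sound parWF r2 pf19929 h19929
  have h19931 := checkRangeG_sound parWF r2 pf19930 h19930
  have h19932 := checkRangeG_sound parWF r2 pf19931 h19931
  have h19933 := checkRangeG_sound parWF r2 pf19932 h19932
  have h19934 := checkRangeG_sound parWF r2 pf19933 h19933
  have h19935 := checkRangeG_sound parWF r2 pf19934 h19934
  have h19936 := checkRangeG_sound parWF r2 pf19935 h19935
  have h19937 := checkRangeG_sound parWF r2 pf19936 h19936
  have h19938 := checkRangeG_sound parWF r2 pf19937 h19937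
  have h19939 := checkRangeG_sound parWF r2 pf19938 h19938
  have h19940 := checkRangeG_sound parWF r2 pf19939 h19939
  have h19941 := checkRangeG_sound parWF r2 pf19940 h19940
  have h19942 := checkRangeG_sound parWF r2 pf19941 h19941
  have h19943 := checkRangeG_sound parWF r2 pf19942 h19942
  have h19944 := checkRangeG_sound parWF r2 pf19943 h19943
  have h19945 := checkRangeG_sound parWF r2 pf19944 h19944
  have h19946 := checkRangeG_sound parWF r2 pf19945 h19945
  have h19947 := checkRangeG_sound parWF r2 pf19946 h19946
  have h19948 := checkRangeG_sound parWF r2 pf19947 h19947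
  have h19949 := checkRangeG_sound parWF r2 pf19948 h19948
  have h19950 := checkRangeG_sound parWF r2 pf19949 h19949
  exact h19950

theorem c399 (h19950 : ∀ j, j < 62612 → GoodG.{u} par (db j)) : ∀ j, j < 62777 → GoodG.{u} par (db j) := by
  have h19951 := checkRangeG_sound parWF r2 pf19950 h19950
  have h19952 := checkRangeG_sound parWF r2 pf19951 h19951
  have h19953 := checkRangeG_sound parWF r2 pf19952 h19952
  have h19954 := checkRangeG_sound parWF r2 pf19953 h19953
  have h19955 := checkRangeG_sound parWF r2 pf19954 h19954
  have h19956 := checkRangeG_sound parWF r2 pf19955 h19955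
  have h19957 := checkRangeG_sound parWF r2 pf19956 h19956
  have h19958 := checkRangeG_sound parWF r2 pf19957 h19957
  have h19959 := checkRangeG_sound parWF r2 pf19958 h19958
  have h19960 := checkRangeG_sound parWF r2 pf19959 h19959
  have h19961 := checkRangeG_sound parWF r2 pf19960 h19960
  have h19962 := checkRangeG_sound parWF r2 pf19961 h19961
  have h19963 := checkRangeG_sound parWF r2 pf19962 h19962
  have h19964 := checkRangeG_sound parWF r2 pf19963 h19963
  have h19965 := checkRangeG_sound parWF r2 pf19964 h19964
  have h19966 := checkRangeG_sound parWF r2 pf19965 h19965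
  have h19967 := checkRangeG_sound parWF r2 pf19966 h19966
  have h19968 := checkRangeG_sound parWF r2 pf19967 h19967
  have h19969 := checkRangeG_sound parWF r2 pf19968 h19968
  have h19970 := checkRangeG_sound parWF r2 pf19969 h19969
  have h19971 := checkRangeG_sound parWF r2 pf19970 h19970
  have h19972 := checkRangeG_sound parWF r2 pf19971 h19971
  have h19973 := checkRangeG_sound parWF r2 pf19972 h19972
  have h19974 := checkRangeG_sound parWF r2 pf19973 h19973
  have h19975 := checkRangeG_sound parWF r2 pf19974 h19974
  have h19976 := checkRangeG_sound parWF r2 pf19975 h19975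
  have h19977 := checkRangeG_sound parWF r2 pf19976 h19976
  have h19978 := checkRangeG_sound parWF r2 pf19977 h19977
  have h19979 := checkRangeG_sound parWF r2 pf19978 h19978
  have h19980 := checkRangeG_sound parWF r2 pf19979 h19979
  have h19981 := checkRangeG_sound parWF r2 pf19980 h19980
  have h19982 := checkRangeG_sound parWF r2 pf19981 h19981
  have h19983 := checkRangeG_sound parWF r2 pf19982 h19982
  have h19984 := checkRangeG_sound parWF r2 pf19983 h19983
  have h19985 := checkRangeG_sound parWF r2 pf19984 h19984
  have h19986 := checkRangeG_sound parWF r2 pf19985 h19985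
  have h19987 := checkRangeG_sound parWF r2 pf19986 h19986
  have h19988 := checkRangeG_sound parWF r2 pf19987 h19987
  have h19989 := checkRangeG_sound parWF r2 pf19988 h19988
  have h19990 := checkRangeG_sound parWF r2 pf19989 h19989
  have h19991 := checkRangeG_sound parWF r2 pf19990 h19990
  have h19992 := checkRangeG_sound parWF r2 pf19991 h19991
  have h19993 := checkRangeG_sound parWF r2 pf19992 h19992
  have h19994 := checkRangeG_sound parWF r2 pf19993 h19993
  have h19995 := checkRangeG_sound parWF r2 pf19994 h19994
  have h19996 := checkRangeG_sound parWF r2 pf19995 h19995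
  have h19997 := checkRangeG_sound parWF r2 pf19996 h19996
  have h19998 := checkRangeG_sound parWF r2 pf19997 h19997
  have h19999 := checkRangeG_sound parWF r2 pf19998 h19998
  have h20000 := checkRangeG_sound parWF r2 pf19999 h19999
  exact h20000

theorem c400 (h20000 : ∀ j, j < 62777 → GoodG.{u} par (db j)) : ∀ j, j < 62943 → GoodG.{u} par (db j) := by
  have h20001 := checkRangeG_sound parWF r2 pf20000 h20000
  have h20002 := checkRangeG_sound parWF r2 pf20001 h20001
  have h20003 := checkRangeG_sound parWF r2 pf20002 h20002
  have h20004 := checkRangeG_sound parWF r2 pf20003 h20003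
  have h20005 := checkRangeG_sound parWF r2 pf20004 h20004
  have h20006 := checkRangeG_sound parWF r2 pf20005 h20005
  have h20007 := checkRangeG_sound parWF r2 pf20006 h20006
  have h20008 := checkRangeG_sound parWF r2 pf20007 h20007
  have h20009 := checkRangeG_sound parWF r2 pf20008 h20008
  have h20010 := checkRangeG_sound parWF r2 pf20009 h20009
  have h20011 := checkRangeG_sound parWF r2 pf20010 h20010
  have h20012 := checkRangeG_sound parWF r2 pf20011 h20011
  have h20013 := checkRangeG_sound parWF r2 pf20012 h20012
  have h20014 := checkRangeG_sound parWF r2 pf20013 h20013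
  have h20015 := checkRangeG_sound parWF r2 pf20014 h20014
  have h20016 := checkRangeG_sound parWF r2 pf20015 h20015
  have h20017 := checkRangeG_sound parWF r2 pf20016 h20016
  have h20018 := checkRangeG_sound parWF r2 pf20017 h20017
  have h20019 := checkRangeG_sound parWF r2 pf20018 h20018
  have h20020 := checkRangeG_sound parWF r2 pf20019 h20019
  have h20021 := checkRangeG_sound parWF r2 pf20020 h20020
  have h20022 := checkRangeG_sound parWF r2 pf20021 h20021
  have h20023 := checkRangeG_sound parWF r2 pf20022 h20022
  have h20024 := checkRangeG_sound parWF r2 pf20023 h20023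
  have h20025 := checkRangeG_sound parWF r2 pf20024 h20024
  have h20026 := checkRangeG_sound parWF r2 pf20025 h20025
  have h20027 := checkRangeG_sound parWF r2 pf20026 h20026
  have h20028 := checkRangeG_sound parWF r2 pf20027 h20027
  have h20029 := checkRangeG_sound parWF r2 pf20028 h20028
  have h20030 := checkRangeG_sound parWF r2 pf20029 h20029
  have h20031 := checkRangeG_sound parWF r2 pf20030 h20030
  have h20032 := checkRangeG_sound parWF r2 pf20031 h20031
  have h20033 := checkRangeG_sound parWF r2 pf20032 h20032
  have h20034 := checkRangeG_sound parWF r2 pf20033 h20033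
  have h20035 := checkRangeG_sound parWF r2 pf20034 h20034
  have h20036 := checkRangeG_sound parWF r2 pf20035 h20035
  have h20037 := checkRangeG_sound parWF r2 pf20036 h20036
  have h20038 := checkRangeG_sound parWF r2 pf20037 h20037
  have h20039 := checkRangeG_sound parWF r2 pf20038 h20038
  have h20040 := checkRangeG_sound parWF r2 pf20039 h20039
  have h20041 := checkRangeG_sound parWF r2 pf20040 h20040
  have h20042 := checkRangeG_sound parWF r2 pf20041 h20041
  have h20043 := checkRangeG_sound parWF r2 pf20042 h20042
  have h20044 := checkRangeG_sound parWF r2 pf20043 h20043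
  have h20045 := checkRangeG_sound parWF r2 pf20044 h20044
  have h20046 := checkRangeG_sound parWF r2 pf20045 h20045
  have h20047 := checkRangeG_sound parWF r2 pf20046 h20046
  have h20048 := checkRangeG_sound parWF r2 pf20047 h20047
  have h20049 := checkRangeG_sound parWF r2 pf20048 h20048
  have h20050 := checkRangeG_sound parWF r2 pf20049 h20049
  exact h20050

theorem c401 (h20050 : ∀ j, j < 62943 → GoodG.{u} par (db j)) : ∀ j, j < 63113 → GoodG.{u} par (db j) := by
  have h20051 := checkRangeG_sound parWF r2 pf20050 h20050
  have h20052 := checkRangeG_sound parWF r2 pf20051 h20051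
  have h20053 := checkRangeG_sound parWF r2 pf20052 h20052
  have h20054 := checkRangeG_sound parWF r2 pf20053 h20053
  have h20055 := checkRangeG_sound parWF r2 pf20054 h20054
  have h20056 := checkRangeG_sound parWF r2 pf20055 h20055
  have h20057 := checkRangeG_sound parWF r2 pf20056 h20056
  have h20058 := checkRangeG_sound parWF r2 pf20057 h20057
  have h20059 := checkRangeG_sound parWF r2 pf20058 h20058
  have h20060 := checkRangeG_sound parWF r2 pf20059 h20059
  have h20061 := checkRangeG_sound parWF r2 pf20060 h20060
  have h20062 := checkRangeG_sound parWF r2 pf20061 h20061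
  have h20063 := checkRangeG_sound parWF r2 pf20062 h20062
  have h20064 := checkRangeG_sound parWF r2 pf20063 h20063
  have h20065 := checkRangeG_sound parWF r2 pf20064 h20064
  have h20066 := checkRangeG_sound parWF r2 pf20065 h20065
  have h20067 := checkRangeG_sound parWF r2 pf20066 h20066
  have h20068 := checkRangeG_sound parWF r2 pf20067 h20067
  have h20069 := checkRangeG_sound parWF r2 pf20068 h20068
  have h20070 := checkRangeG_sound parWF r2 pf20069 h20069
  have h20071 := checkRangeG_sound parWF r2 pf20070 h20070
  have h20072 := checkRangeG_sound parWF r2 pf20071 h20071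
  have h20073 := checkRangeG_sound parWF r2 pf20072 h20072
  have h20074 := checkRangeG_sound parWF r2 pf20073 h20073
  have h20075 := checkRangeG_sound parWF r2 pf20074 h20074
  have h20076 := checkRangeG_sound parWF r2 pf20075 h20075
  have h20077 := checkRangeG_sound parWF r2 pf20076 h20076
  have h20078 := checkRangeG_sound parWF r2 pf20077 h20077
  have h20079 := checkRangeG_sound parWF r2 pf20078 h20078
  have h20080 := checkRangeG_sound parWF r2 pf20079 h20079
  have h20081 := checkRangeG_sound parWF r2 pf20080 h20080
  have h20082 := checkRangeG_sound parWF r2 pf20081 h20081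
  have h20083 := checkRangeG_sound parWF r2 pf20082 h20082
  have h20084 := checkRangeG_sound parWF r2 pf20083 h20083
  have h20085 := checkRangeG_sound parWF r2 pf20084 h20084
  have h20086 := checkRangeG_sound parWF r2 pf20085 h20085
  have h20087 := checkRangeG_sound parWF r2 pf20086 h20086
  have h20088 := checkRangeG_sound parWF r2 pf20087 h20087
  have h20089 := checkRangeG_sound parWF r2 pf20088 h20088
  have h20090 := checkRangeG_sound parWF r2 pf20089 h20089
  have h20091 := checkRangeG_sound parWF r2 pf20090 h20090
  have h20092 := checkRangeG_sound parWF r2 pf20091 h20091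
  have h20093 := checkRangeG_sound parWF r2 pf20092 h20092
  have h20094 := checkRangeG_sound parWF r2 pf20093 h20093
  have h20095 := checkRangeG_sound parWF r2 pf20094 h20094
  have h20096 := checkRangeG_sound parWF r2 pf20095 h20095
  have h20097 := checkRangeG_sound parWF r2 pf20096 h20096
  have h20098 := checkRangeG_sound parWF r2 pf20097 h20097
  have h20099 := checkRangeG_sound parWF r2 pf20098 h20098
  have h20100 := checkRangeG_sound parWF r2 pf20099 h20099
  exact h20100

theorem c402 (h20100 : ∀ j, j < 63113 → GoodG.{u} par (db j)) : ∀ j, j < 63274 → GoodG.{u} par (db j) := by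
  have h20101 := checkRangeG_sound parWF r2 pf20100 h20100
  have h20102 := checkRangeG_sound parWF r2 pf20101 h20101
  have h20103 := checkRangeG_sound parWF r2 pf20102 h20102
  have h20104 := checkRangeG_sound parWF r2 pf20103 h20103
  have h20105 := checkRangeG_sound parWF r2 pf20104 h20104
  have h20106 := checkRangeG_sound parWF r2 pf20105 h20105
  have h20107 := checkRangeG_sound parWF r2 pf20106 h20106
  have h20108 := checkRangeG_sound parWF r2 pf20107 h20107
  have h20109 := checkRangeG_sound parWF r2 pf20108 h20108
  have h20110 := checkRangeG_sound parWF r2 pf20109 h20109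
  have h20111 := checkRangeG_sound parWF r2 pf20110 h20110
  have h20112 := checkRangeG_sound parWF r2 pf20111 h20111
  have h20113 := checkRangeG_sound parWF r2 pf20112 h20112
  have h20114 := checkRangeG_sound parWF r2 pf20113 h20113
  have h20115 := checkRangeG_sound parWF r2 pf20114 h20114
  have h20116 := checkRangeG_sound parWF r2 pf20115 h20115
  have h20117 := checkRangeG_sound parWF r2 pf20116 h20116
  have h20118 := checkRangeG_sound parWF r2 pf20117 h20117
  have h20119 := checkRangeG_sound parWF r2 pf20118 h20118
  have h20120 := checkRangeG_sound parWF r2 pf20119 h20119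
  have h20121 := checkRangeG_sound parWF r2 pf20120 h20120
  have h20122 := checkRangeG_sound parWF r2 pf20121 h20121
  have h20123 := checkRangeG_sound parWF r2 pf20122 h20122
  have h20124 := checkRangeG_sound parWF r2 pf20123 h20123
  have h20125 := checkRangeG_sound parWF r2 pf20124 h20124
  have h20126 := checkRangeG_sound parWF r2 pf20125 h20125
  have h20127 := checkRangeG_sound parWF r2 pf20126 h20126
  have h20128 := checkRangeG_sound parWF r2 pf20127 h20127
  have h20129 := checkRangeG_sound parWF r2 pf20128 h20128
  have h20130 := checkRangeG_sound parWF r2 pf20129 h20129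
  have h20131 := checkRangeG_sound parWF r2 pf20130 h20130
  have h20132 := checkRangeG_sound parWF r2 pf20131 h20131
  have h20133 := checkRangeG_sound parWF r2 pf20132 h20132
  have h20134 := checkRangeG_sound parWF r2 pf20133 h20133
  have h20135 := checkRangeG_sound parWF r2 pf20134 h20134
  have h20136 := checkRangeG_sound parWF r2 pf20135 h20135
  have h20137 := checkRangeG_sound parWF r2 pf20136 h20136
  have h20138 := checkRangeG_sound parWF r2 pf20137 h20137
  have h20139 := checkRangeG_sound parWF r2 pf20138 h20138
  have h20140 := checkRangeG_sound parWF r2 pf20139 h20139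
  have h20141 := checkRangeG_sound parWF r2 pf20140 h20140
  have h20142 := checkRangeG_sound parWF r2 pf20141 h20141
  have h20143 := checkRangeG_sound parWF r2 pf20142 h20142
  have h20144 := checkRangeG_sound parWF r2 pf20143 h20143
  have h20145 := checkRangeG_sound parWF r2 pf20144 h20144
  have h20146 := checkRangeG_sound parWF r2 pf20145 h20145
  have h20147 := checkRangeG_sound parWF r2 pf20146 h20146
  have h20148 := checkRangeG_sound parWF r2 pf20147 h20147
  have h20149 := checkRangeG_sound parWF r2 pf20148 h20148
  have h20150 := checkRangeG_sound parWF r2 pf20149 h20149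
  exact h20150

theorem c403 (h20150 : ∀ j, j < 63274 → GoodG.{u} par (db j)) : ∀ j, j < 63446 → GoodG.{u} par (db j) := by
  have h20151 := checkRangeG_sound parWF r2 pf20150 h20150
  have h20152 := checkRangeG_sound parWF r2 pf20151 h20151
  have h20153 := checkRangeG_sound parWF r2 pf20152 h20152
  have h20154 := checkRangeG_sound parWF r2 pf20153 h20153
  have h20155 := checkRangeG_sound parWF r2 pf20154 h20154
  have h20156 := checkRangeG_sound parWF r2 pf20155 h20155
  have h20157 := checkRangeG_sound parWF r2 pf20156 h20156
  have h20158 := checkRangeG_sound parWF r2 pf20157 h20157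
  have h20159 := checkRangeG_sound parWF r2 pf20158 h20158
  have h20160 := checkRangeG_sound parWF r2 pf20159 h20159
  have h20161 := checkRangeG_sound parWF r2 pf20160 h20160
  have h20162 := checkRangeG_sound parWF r2 pf20161 h20161
  have h20163 := checkRangeG_sound parWF r2 pf20162 h20162
  have h20164 := checkRangeG_sound parWF r2 pf20163 h20163
  have h20165 := checkRangeG_sound parWF r2 pf20164 h20164
  have h20166 := checkRangeG_sound parWF r2 pf20165 h20165
  have h20167 := checkRangeG_sound parWF r2 pf20166 h20166
  have h20168 := checkRangeG_sound parWF r2 pf20167 h20167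
  have h20169 := checkRangeG_sound parWF r2 pf20168 h20168
  have h20170 := checkRangeG_sound parWF r2 pf20169 h20169
  have h20171 := checkRangeG_sound parWF r2 pf20170 h20170
  have h20172 := checkRangeG_sound parWF r2 pf20171 h20171
  have h20173 := checkRangeG_sound parWF r2 pf20172 h20172
  have h20174 := checkRangeG_sound parWF r2 pf20173 h20173
  have h20175 := checkRangeG_sound parWF r2 pf20174 h20174
  have h20176 := checkRangeG_sound parWF r2 pf20175 h20175
  have h20177 := checkRangeG_sound parWF r2 pf20176 h20176
  have h20178 := checkRangeG_sound parWF r2 pf20177 h20177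
  have h20179 := checkRangeG_sound parWF r2 pf20178 h20178
  have h20180 := checkRangeG_sound parWF r2 pf20179 h20179
  have h20181 := checkRangeG_sound parWF r2 pf20180 h20180
  have h20182 := checkRangeG_sound parWF r2 pf20181 h20181
  have h20183 := checkRangeG_sound parWF r2 pf20182 h20182
  have h20184 := checkRangeG_sound parWF r2 pf20183 h20183
  have h20185 := checkRangeG_sound parWF r2 pf20184 h20184
  have h20186 := checkRangeG_sound parWF r2 pf20185 h20185
  have h20187 := checkRangeG_sound parWF r2 pf20186 h20186
  have h20188 := checkRangeG_sound parWF r2 pf20187 h20187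
  have h20189 := checkRangeG_sound parWF r2 pf20188 h20188
  have h20190 := checkRangeG_sound parWF r2 pf20189 h20189
  have h20191 := checkRangeG_sound parWF r2 pf20190 h20190
  have h20192 := checkRangeG_sound parWF r2 pf20191 h20191
  have h20193 := checkRangeG_sound parWF r2 pf20192 h20192
  have h20194 := checkRangeG_sound parWF r2 pf20193 h20193
  have h20195 := checkRangeG_sound parWF r2 pf20194 h20194
  have h20196 := checkRangeG_sound parWF r2 pf20195 h20195
  have h20197 := checkRangeG_sound parWF r2 pf20196 h20196
  have h20198 := checkRangeG_sound parWF r2 pf20197 h20197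
  have h20199 := checkRangeG_sound parWF r2 pf20198 h20198
  have h20200 := checkRangeG_sound parWF r2 pf20199 h20199
  exact h20200

theorem c404 (h20200 : ∀ j, j < 63446 → GoodG.{u} par (db j)) : ∀ j, j < 63617 → GoodG.{u} par (db j) := by
  have h20201 := checkRangeG_sound parWF r2 pf20200 h20200
  have h20202 := checkRangeG_sound parWF r2 pf20201 h20201
  have h20203 := checkRangeG_sound parWF r2 pf20202 h20202
  have h20204 := checkRangeG_sound parWF r2 pf20203 h20203
  have h20205 := checkRangeG_sound parWF r2 pf20204 h20204
  have h20206 := checkRangeG_sound parWF r2 pf20205 h20205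
  have h20207 := checkRangeG_sound parWF r2 pf20206 h20206
  have h20208 := checkRangeG_sound parWF r2 pf20207 h20207
  have h20209 := checkRangeG_sound parWF r2 pf20208 h20208
  have h20210 := checkRangeG_sound parWF r2 pf20209 h20209
  have h20211 := checkRangeG_sound parWF r2 pf20210 h20210
  have h20212 := checkRangeG_sound parWF r2 pf20211 h20211
  have h20213 := checkRangeG_sound parWF r2 pf20212 h20212
  have h20214 := checkRangeG_sound parWF r2 pf20213 h20213
  have h20215 := checkRangeG_sound parWF r2 pf20214 h20214
  have h20216 := checkRangeG_sound parWF r2 pf20215 h20215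
  have h20217 := checkRangeG_sound parWF r2 pf20216 h20216
  have h20218 := checkRangeG_sound parWF r2 pf20217 h20217
  have h20219 := checkRangeG_sound parWF r2 pf20218 h20218
  have h20220 := checkRangeG_sound parWF r2 pf20219 h20219
  have h20221 := checkRangeG_sound parWF r2 pf20220 h20220
  have h20222 := checkRangeG_sound parWF r2 pf20221 h20221
  have h20223 := checkRangeG_sound parWF r2 pf20222 h20222
  have h20224 := checkRangeG_sound parWF r2 pf20223 h20223
  have h20225 := checkRangeG_sound parWF r2 pf20224 h20224
  have h20226 := checkRangeG_sound parWF r2 pf20225 h20225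
  have h20227 := checkRangeG_sound parWF r2 pf20226 h20226
  have h20228 := checkRangeG_sound parWF r2 pf20227 h20227
  have h20229 := checkRangeG_sound parWF r2 pf20228 h20228
  have h20230 := checkRangeG_sound parWF r2 pf20229 h20229
  have h20231 := checkRangeG_sound parWF r2 pf20230 h20230
  have h20232 := checkRangeG_sound parWF r2 pf20231 h20231
  have h20233 := checkRangeG_sound parWF r2 pf20232 h20232
  have h20234 := checkRangeG_sound parWF r2 pf20233 h20233
  have h20235 := checkRangeG_sound parWF r2 pf20234 h20234
  have h20236 := checkRangeG_sound parWF r2 pf20235 h20235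
  have h20237 := checkRangeG_sound parWF r2 pf20236 h20236
  have h20238 := checkRangeG_sound parWF r2 pf20237 h20237
  have h20239 := checkRangeG_sound parWF r2 pf20238 h20238
  have h20240 := checkRangeG_sound parWF r2 pf20239 h20239
  have h20241 := checkRangeG_sound parWF r2 pf20240 h20240
  have h20242 := checkRangeG_sound parWF r2 pf20241 h20241
  have h20243 := checkRangeG_sound parWF r2 pf20242 h20242
  have h20244 := checkRangeG_sound parWF r2 pf20243 h20243
  have h20245 := checkRangeG_sound parWF r2 pf20244 h20244
  have h20246 := checkRangeG_sound parWF r2 pf20245 h20245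
  have h20247 := checkRangeG_sound parWF r2 pf20246 h20246
  have h20248 := checkRangeG_sound parWF r2 pf20247 h20247
  have h20249 := checkRangeG_sound parWF r2 pf20248 h20248
  have h20250 := checkRangeG_sound parWF r2 pf20249 h20249
  exact h20250

theorem c405 (h20250 : ∀ j, j < 63617 → GoodG.{u} par (db j)) : ∀ j, j < 63795 → GoodG.{u} par (db j) := by
  have h20251 := checkRangeG_sound parWF r2 pf20250 h20250
  have h20252 := checkRangeG_sound parWF r2 pf20251 h20251
  have h20253 := checkRangeG_sound parWF r2 pf20252 h20252
  have h20254 := checkRangeG_sound parWF r2 pf20253 h20253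
  have h20255 := checkRangeG_sound parWF r2 pf20254 h20254
  have h20256 := checkRangeG_sound parWF r2 pf20255 h20255
  have h20257 := checkRangeG_sound parWF r2 pf20256 h20256
  have h20258 := checkRangeG_sound parWF r2 pf20257 h20257
  have h20259 := checkRangeG_sound parWF r2 pf20258 h20258
  have h20260 := checkRangeG_sound parWF r2 pf20259 h20259
  have h20261 := checkRangeG_sound parWF r2 pf20260 h20260
  have h20262 := checkRangeG_sound parWF r2 pf20261 h20261
  have h20263 := checkRangeG_sound parWF r2 pf20262 h20262
  have h20264 := checkRangeG_sound parWF r2 pf20263 h20263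
  have h20265 := checkRangeG_sound parWF r2 pf20264 h20264
  have h20266 := checkRangeG_sound parWF r2 pf20265 h20265
  have h20267 := checkRangeG_sound parWF r2 pf20266 h20266
  have h20268 := checkRangeG_sound parWF r2 pf20267 h20267
  have h20269 := checkRangeG_sound parWF r2 pf20268 h20268
  have h20270 := checkRangeG_sound parWF r2 pf20269 h20269
  have h20271 := checkRangeG_sound parWF r2 pf20270 h20270
  have h20272 := checkRangeG_sound parWF r2 pf20271 h20271
  have h20273 := checkRangeG_sound parWF r2 pf20272 h20272
  have h20274 := checkRangeG_sound parWF r2 pf20273 h20273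
  have h20275 := checkRangeG_sound parWF r2 pf20274 h20274
  have h20276 := checkRangeG_sound parWF r2 pf20275 h20275
  have h20277 := checkRangeG_sound parWF r2 pf20276 h20276
  have h20278 := checkRangeG_sound parWF r2 pf20277 h20277
  have h20279 := checkRangeG_sound parWF r2 pf20278 h20278
  have h20280 := checkRangeG_sound parWF r2 pf20279 h20279
  have h20281 := checkRangeG_sound parWF r2 pf20280 h20280
  have h20282 := checkRangeG_sound parWF r2 pf20281 h20281
  have h20283 := checkRangeG_sound parWF r2 pf20282 h20282
  have h20284 := checkRangeG_sound parWF r2 pf20283 h20283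
  have h20285 := checkRangeG_sound parWF r2 pf20284 h20284
  have h20286 := checkRangeG_sound parWF r2 pf20285 h20285
  have h20287 := checkRangeG_sound parWF r2 pf20286 h20286
  have h20288 := checkRangeG_sound parWF r2 pf20287 h20287
  have h20289 := checkRangeG_sound parWF r2 pf20288 h20288
  have h20290 := checkRangeG_sound parWF r2 pf20289 h20289
  have h20291 := checkRangeG_sound parWF r2 pf20290 h20290
  have h20292 := checkRangeG_sound parWF r2 pf20291 h20291
  have h20293 := checkRangeG_sound parWF r2 pf20292 h20292
  have h20294 := checkRangeG_sound parWF r2 pf20293 h20293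
  have h20295 := checkRangeG_sound parWF r2 pf20294 h20294
  have h20296 := checkRangeG_sound parWF r2 pf20295 h20295
  have h20297 := checkRangeG_sound parWF r2 pf20296 h20296
  have h20298 := checkRangeG_sound parWF r2 pf20297 h20297
  have h20299 := checkRangeG_sound parWF r2 pf20298 h20298
  have h20300 := checkRangeG_sound parWF r2 pf20299 h20299
  exact h20300

theorem c406 (h20300 : ∀ j, j < 63795 → GoodG.{u} par (db j)) : ∀ j, j < 63975 → GoodG.{u} par (db j) := by
  have h20301 := checkRangeG_sound parWF r2 pf20300 h20300
  have h20302 := checkRangeG_sound parWF r2 pf20301 h20301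
  have h20303 := checkRangeG_sound parWF r2 pf20302 h20302
  have h20304 := checkRangeG_sound parWF r2 pf20303 h20303
  have h20305 := checkRangeG_sound parWF r2 pf20304 h20304
  have h20306 := checkRangeG_sound parWF r2 pf20305 h20305
  have h20307 := checkRangeG_sound parWF r2 pf20306 h20306
  have h20308 := checkRangeG_sound parWF r2 pf20307 h20307
  have h20309 := checkRangeG_sound parWF r2 pf20308 h20308
  have h20310 := checkRangeG_sound parWF r2 pf20309 h20309
  have h20311 := checkRangeG_sound parWF r2 pf20310 h20310
  have h20312 := checkRangeG_sound parWF r2 pf20311 h20311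
  have h20313 := checkRangeG_sound parWF r2 pf20312 h20312
  have h20314 := checkRangeG_sound parWF r2 pf20313 h20313
  have h20315 := checkRangeG_sound parWF r2 pf20314 h20314
  have h20316 := checkRangeG_sound parWF r2 pf20315 h20315
  have h20317 := checkRangeG_sound parWF r2 pf20316 h20316
  have h20318 := checkRangeG_sound parWF r2 pf20317 h20317
  have h20319 := checkRangeG_sound parWF r2 pf20318 h20318
  have h20320 := checkRangeG_sound parWF r2 pf20319 h20319
  have h20321 := checkRangeG_sound parWF r2 pf20320 h20320
  have h20322 := checkRangeG_sound parWF r2 pf20321 h20321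
  have h20323 := checkRangeG_sound parWF r2 pf20322 h20322
  have h20324 := checkRangeG_sound parWF r2 pf20323 h20323
  have h20325 := checkRangeG_sound parWF r2 pf20324 h20324
  have h20326 := checkRangeG_sound parWF r2 pf20325 h20325
  have h20327 := checkRangeG_sound parWF r2 pf20326 h20326
  have h20328 := checkRangeG_sound parWF r2 pf20327 h20327
  have h20329 := checkRangeG_sound parWF r2 pf20328 h20328
  have h20330 := checkRangeG_sound parWF r2 pf20329 h20329
  have h20331 := checkRangeG_sound parWF r2 pf20330 h20330
  have h20332 := checkRangeG_sound parWF r2 pf20331 h20331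
  have h20333 := checkRangeG_sound parWF r2 pf20332 h20332
  have h20334 := checkRangeG_sound parWF r2 pf20333 h20333
  have h20335 := checkRangeG_sound parWF r2 pf20334 h20334
  have h20336 := checkRangeG_sound parWF r2 pf20335 h20335
  have h20337 := checkRangeG_sound parWF r2 pf20336 h20336
  have h20338 := checkRangeG_sound parWF r2 pf20337 h20337
  have h20339 := checkRangeG_sound parWF r2 pf20338 h20338
  have h20340 := checkRangeG_sound parWF r2 pf20339 h20339
  have h20341 := checkRangeG_sound parWF r2 pf20340 h20340
  have h20342 := checkRangeG_sound parWF r2 pf20341 h20341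
  have h20343 := checkRangeG_sound parWF r2 pf20342 h20342
  have h20344 := checkRangeG_sound parWF r2 pf20343 h20343
  have h20345 := checkRangeG_sound parWF r2 pf20344 h20344
  have h20346 := checkRangeG_sound parWF r2 pf20345 h20345
  have h20347 := checkRangeG_sound parWF r2 pf20346 h20346
  have h20348 := checkRangeG_sound parWF r2 pf20347 h20347
  have h20349 := checkRangeG_sound parWF r2 pf20348 h20348
  have h20350 := checkRangeG_sound parWF r2 pf20349 h20349
  exact h20350

theorem c407 (h20350 : ∀ j, j < 63975 → GoodG.{u} par (db j)) : ∀ j, j < 64123 → GoodG.{u} par (db j) := by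
  have h20351 := checkRangeG_sound parWF r2 pf20350 h20350
  have h20352 := checkRangeG_sound parWF r2 pf20351 h20351
  have h20353 := checkRangeG_sound parWF r2 pf20352 h20352
  have h20354 := checkRangeG_sound parWF r2 pf20353 h20353
  have h20355 := checkRangeG_sound parWF r2 pf20354 h20354
  have h20356 := checkRangeG_sound parWF r2 pf20355 h20355
  have h20357 := checkRangeG_sound parWF r2 pf20356 h20356
  have h20358 := checkRangeG_sound parWF r2 pf20357 h20357
  have h20359 := checkRangeG_sound parWF r2 pf20358 h20358
  have h20360 := checkRangeG_sound parWF r2 pf20359 h20359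
  have h20361 := checkRangeG_sound parWF r2 pf20360 h20360
  have h20362 := checkRangeG_sound parWF r2 pf20361 h20361
  have h20363 := checkRangeG_sound parWF r2 pf20362 h20362
  have h20364 := checkRangeG_sound parWF r2 pf20363 h20363
  have h20365 := checkRangeG_sound parWF r2 pf20364 h20364
  have h20366 := checkRangeG_sound parWF r2 pf20365 h20365
  have h20367 := checkRangeG_sound parWF r2 pf20366 h20366
  have h20368 := checkRangeG_sound parWF r2 pf20367 h20367
  have h20369 := checkRangeG_sound parWF r2 pf20368 h20368
  have h20370 := checkRangeG_sound parWF r2 pf20369 h20369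
  have h20371 := checkRangeG_sound parWF r2 pf20370 h20370
  have h20372 := checkRangeG_sound parWF r2 pf20371 h20371
  have h20373 := checkRangeG_sound parWF r2 pf20372 h20372
  have h20374 := checkRangeG_sound parWF r2 pf20373 h20373
  have h20375 := checkRangeG_sound parWF r2 pf20374 h20374
  have h20376 := checkRangeG_sound parWF r2 pf20375 h20375
  have h20377 := checkRangeG_sound parWF r2 pf20376 h20376
  have h20378 := checkRangeG_sound parWF r2 pf20377 h20377
  have h20379 := checkRangeG_sound parWF r2 pf20378 h20378
  have h20380 := checkRangeG_sound parWF r2 pf20379 h20379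
  have h20381 := checkRangeG_sound parWF r2 pf20380 h20380
  have h20382 := checkRangeG_sound parWF r2 pf20381 h20381
  have h20383 := checkRangeG_sound parWF r2 pf20382 h20382
  have h20384 := checkRangeG_sound parWF r2 pf20383 h20383
  have h20385 := checkRangeG_sound parWF r2 pf20384 h20384
  have h20386 := checkRangeG_sound parWF r2 pf20385 h20385
  have h20387 := checkRangeG_sound parWF r2 pf20386 h20386
  have h20388 := checkRangeG_sound parWF r2 pf20387 h20387
  have h20389 := checkRangeG_sound parWF r2 pf20388 h20388
  have h20390 := checkRangeG_sound parWF r2 pf20389 h20389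
  have h20391 := checkRangeG_sound parWF r2 pf20390 h20390
  have h20392 := checkRangeG_sound parWF r2 pf20391 h20391
  have h20393 := checkRangeG_sound parWF r2 pf20392 h20392
  have h20394 := checkRangeG_sound parWF r2 pf20393 h20393
  have h20395 := checkRangeG_sound parWF r2 pf20394 h20394
  have h20396 := checkRangeG_sound parWF r2 pf20395 h20395
  have h20397 := checkRangeG_sound parWF r2 pf20396 h20396
  have h20398 := checkRangeG_sound parWF r2 pf20397 h20397
  have h20399 := checkRangeG_sound parWF r2 pf20398 h20398
  have h20400 := checkRangeG_sound parWF r2 pf20399 h20399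
  exact h20400


end Vale.Agent.P045g.C61
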