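import Vale.Agent.P045g.C61.WF
import Vale.Agent.P045g.C61.Pf340
import Vale.Agent.P045g.C61.Pf341
import Vale.Agent.P045g.C61.Pf342
import Vale.Agent.P045g.C61.Pf343
import Vale.Agent.P045g.C61.Pf344
import Vale.Agent.P045g.C61.Pf345
import Vale.Agent.P045g.C61.Pf346
import Vale.Agent.P045g.C61.Pf347
import Vale.Agent.P045g.C61.Pf348
import Vale.Agent.P045g.C61.Pf349

namespace Vale.Agent.P045g.C61

open Vale.Agent.P045b Vale.Agent.P045g

universe u

theorem c408 (h20400 : ∀ j, j < 64123 → GoodG.{u} par (db j)) : ∀ j, j < 64276 → GoodG.{u} par (db j) := by
  have h20401 := checkRangeG_sound parWF r2 pf20400 h20400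
  have h20402 := checkRangeG_sound parWF r2 pf20401 h20401
  have h20403 := checkRangeG_sound parWF r2 pf20402 h20402
  have h20404 := checkRangeG_sound parWF r2 pf20403 h20403
  have h20405 := checkRangeG_sound parWF r2 pf20404 h20404
  have h20406 := checkRangeG_sound parWF r2 pf20405 h20405
  have h20407 := checkRangeG_sound parWF r2 pf20406 h20406
  have h20408 := checkRangeG_sound parWF r2 pf20407 h20407
  have h20409 := checkRangeG_sound parWF r2 pf20408 h20408
  have h20410 := checkRangeG_sound parWF r2 pf20409 h20409
  have h20411 := checkRangeG_sound parWF r2 pf20410 h20410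
  have h20412 := checkRangeG_sound parWF r2 pf20411 h20411
  have h20413 := checkRangeG_sound parWF r2 pf20412 h20412
  have h20414 := checkRangeG_sound parWF r2 pf20413 h20413
  have h20415 := checkRangeG_sound parWF r2 pf20414 h20414
  have h20416 := checkRangeG_sound parWF r2 pf20415 h20415
  have h20417 := checkRangeG_sound parWF r2 pf20416 h20416
  have h20418 := checkRangeG_sound parWF r2 pf20417 h20417
  have h20419 := checkRangeG_sound parWF r2 pf20418 h20418
  have h20420 := checkRangeG_sound parWF r2 pf20419 h20419
  have h20421 := checkRangeG_sound parWF r2 pf20420 h20420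
  have h20422 := checkRangeG_sound parWF r2 pf20421 h20421
  have h20423 := checkRangeG_sound parWF r2 pf20422 h20422
  have h20424 := checkRangeG_sound parWF r2 pf20423 h20423
  have h20425 := checkRangeG_sound parWF r2 pf20424 h20424
  have h20426 := checkRangeG_sound parWF r2 pf20425 h20425
  have h20427 := checkRangeG_sound parWF r2 pf20426 h20426
  have h20428 := checkRangeG_sound parWF r2 pf20427 h20427
  have h20429 := checkRangeG_sound parWF r2 pf20428 h20428
  have h20430 := checkRangeG_sound parWF r2 pf20429 h20429
  have h20431 := checkRangeG_sound parWF r2 pf20430 h20430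
  have h20432 := checkRangeG_sound parWF r2 pf20431 h20431
  have h20433 := checkRangeG_sound parWF r2 pf20432 h20432
  have h20434 := checkRangeG_sound parWF r2 pf20433 h20433
  have h20435 := checkRangeG_sound parWF r2 pf20434 h20434
  have h20436 := checkRangeG_sound parWF r2 pf20435 h20435
  have h20437 := checkRangeG_sound parWF r2 pf20436 h20436
  have h20438 := checkRangeG_sound parWF r2 pf20437 h20437
  have h20439 := checkRangeG_sound parWF r2 pf20438 h20438
  have h20440 := checkRangeG_sound parWF r2 pf20439 h20439
  have h20441 := checkRangeG_sound parWF r2 pf20440 h20440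
  have h20442 := checkRangeG_sound parWF r2 pf20441 h20441
  have h20443 := checkRangeG_sound parWF r2 pf20442 h20442
  have h20444 := checkRangeG_sound parWF r2 pf20443 h20443
  have h20445 := checkRangeG_sound parWF r2 pf20444 h20444
  have h20446 := checkRangeG_sound parWF r2 pf20445 h20445
  have h20447 := checkRangeG_sound parWF r2 pf20446 h20446
  have h20448 := checkRangeG_sound parWF r2 pf20447 h20447
  have h20449 := checkRangeG_sound parWF r2 pf20448 h20448
  have h20450 := checkRangeG_sound parWF r2 pf20449 h20449
  exact h20450

theorem c409 (h20450 : ∀ j, j < 64276 → GoodG.{u} par (db j)) : ∀ j, j < 64423 → GoodG.{u} par (db j) := by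
  have h20451 := checkRangeG_sound parWF r2 pf20450 h20450
  have h20452 := checkRangeG_sound parWF r2 pf20451 h20451
  have h20453 := checkRangeG_sound parWF r2 pf20452 h20452
  have h20454 := checkRangeG_sound parWF r2 pf20453 h20453
  have h20455 := checkRangeG_sound parWF r2 pf20454 h20454
  have h20456 := checkRangeG_sound parWF r2 pf20455 h20455
  have h20457 := checkRangeG_sound parWF r2 pf20456 h20456
  have h20458 := checkRangeG_sound parWF r2 pf20457 h20457
  have h20459 := checkRangeG_sound parWF r2 pf20458 h20458
  have h20460 := checkRangeG_sound parWF r2 pf20459 h20459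
  have h20461 := checkRangeG_sound parWF r2 pf20460 h20460
  have h20462 := checkRangeG_sound parWF r2 pf20461 h20461
  have h20463 := checkRangeG_sound parWF r2 pf20462 h20462
  have h20464 := checkRangeG_sound parWF r2 pf20463 h20463
  have h20465 := checkRangeG_sound parWF r2 pf20464 h20464
  have h20466 := checkRangeG_sound parWF r2 pf20465 h20465
  have h20467 := checkRangeG_sound parWF r2 pf20466 h20466
  have h20468 := checkRangeG_sound parWF r2 pf20467 h20467
  have h20469 := checkRangeG_sound parWF r2 pf20468 h20468
  have h20470 := checkRangeG_sound parWF r2 pf20469 h20469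
  have h20471 := checkRangeG_sound parWF r2 pf20470 h20470
  have h20472 := checkRangeG_sound parWF r2 pf20471 h20471
  have h20473 := checkRangeG_sound parWF r2 pf20472 h20472
  have h20474 := checkRangeG_sound parWF r2 pf20473 h20473
  have h20475 := checkRangeG_sound parWF r2 pf20474 h20474
  have h20476 := checkRangeG_sound parWF r2 pf20475 h20475
  have h20477 := checkRangeG_sound parWF r2 pf20476 h20476
  have h20478 := checkRangeG_sound parWF r2 pf20477 h20477
  have h20479 := checkRangeG_sound parWF r2 pf20478 h20478
  have h20480 := checkRangeG_sound parWF r2 pf20479 h20479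
  have h20481 := checkRangeG_sound parWF r2 pf20480 h20480
  have h20482 := checkRangeG_sound parWF r2 pf20481 h20481
  have h20483 := checkRangeG_sound parWF r2 pf20482 h20482
  have h20484 := checkRangeG_sound parWF r2 pf20483 h20483
  have h20485 := checkRangeG_sound parWF r2 pf20484 h20484
  have h20486 := checkRangeG_sound parWF r2 pf20485 h20485
  have h20487 := checkRangeG_sound parWF r2 pf20486 h20486
  have h20488 := checkRangeG_sound parWF r2 pf20487 h20487
  have h20489 := checkRangeG_sound parWF r2 pf20488 h20488
  have h20490 := checkRangeG_sound parWF r2 pf20489 h20489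
  have h20491 := checkRangeG_sound parWF r2 pf20490 h20490
  have h20492 := checkRangeG_sound parWF r2 pf20491 h20491
  have h20493 := checkRangeG_sound parWF r2 pf20492 h20492
  have h20494 := checkRangeG_sound parWF r2 pf20493 h20493
  have h20495 := checkRangeG_sound parWF r2 pf20494 h20494
  have h20496 := checkRangeG_sound parWF r2 pf20495 h20495
  have h20497 := checkRangeG_sound parWF r2 pf20496 h20496
  have h20498 := checkRangeG_sound parWF r2 pf20497 h20497
  have h20499 := checkRangeG_sound parWF r2 pf20498 h20498
  have h20500 := checkRangeG_sound parWF r2 pf20499 h20499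
  exact h20500

theorem c410 (h20500 : ∀ j, j < 64423 → GoodG.{u} par (db j)) : ∀ j, j < 64586 → GoodG.{u} par (db j) := by
  have h20501 := checkRangeG_sound parWF r2 pf20500 h20500
  have h20502 := checkRangeG_sound parWF r2 pf20501 h20501
  have h20503 := checkRangeG_sound parWF r2 pf20502 h20502
  have h20504 := checkRangeG_sound parWF r2 pf20503 h20503
  have h20505 := checkRangeG_sound parWF r2 pf20504 h20504
  have h20506 := checkRangeG_sound parWF r2 pf20505 h20505
  have h20507 := checkRangeG_sound parWF r2 pf20506 h20506
  have h20508 := checkRangeG_sound parWF r2 pf20507 h20507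
  have h20509 := checkRangeG_sound parWF r2 pf20508 h20508
  have h20510 := checkRangeG_sound parWF r2 pf20509 h20509
  have h20511 := checkRangeG_sound parWF r2 pf20510 h20510
  have h20512 := checkRangeG_sound parWF r2 pf20511 h20511
  have h20513 := checkRangeG_sound parWF r2 pf20512 h20512
  have h20514 := checkRangeG_sound parWF r2 pf20513 h20513
  have h20515 := checkRangeG_sound parWF r2 pf20514 h20514
  have h20516 := checkRangeG_sound parWF r2 pf20515 h20515
  have h20517 := checkRangeG_sound parWF r2 pf20516 h20516
  have h20518 := checkRangeG_sound parWF r2 pf20517 h20517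
  have h20519 := checkRangeG_sound parWF r2 pf20518 h20518
  have h20520 := checkRangeG_sound parWF r2 pf20519 h20519
  have h20521 := checkRangeG_sound parWF r2 pf20520 h20520
  have h20522 := checkRangeG_sound parWF r2 pf20521 h20521
  have h20523 := checkRangeG_sound parWF r2 pf20522 h20522
  have h20524 := checkRangeG_sound parWF r2 pf20523 h20523
  have h20525 := checkRangeG_sound parWF r2 pf20524 h20524
  have h20526 := checkRangeG_sound parWF r2 pf20525 h20525
  have h20527 := checkRangeG_sound parWF r2 pf20526 h20526
  have h20528 := checkRangeG_sound parWF r2 pf20527 h20527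
  have h20529 := checkRangeG_sound parWF r2 pf20528 h20528
  have h20530 := checkRangeG_sound parWF r2 pf20529 h20529
  have h20531 := checkRangeG_sound parWF r2 pf20530 h20530
  have h20532 := checkRangeG_sound parWF r2 pf20531 h20531
  have h20533 := checkRangeG_sound parWF r2 pf20532 h20532
  have h20534 := checkRangeG_sound parWF r2 pf20533 h20533
  have h20535 := checkRangeG_sound parWF r2 pf20534 h20534
  have h20536 := checkRangeG_sound parWF r2 pf20535 h20535
  have h20537 := checkRangeG_sound parWF r2 pf20536 h20536
  have h20538 := checkRangeG_sound parWF r2 pf20537 h20537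
  have h20539 := checkRangeG_sound parWF r2 pf20538 h20538
  have h20540 := checkRangeG_sound parWF r2 pf20539 h20539
  have h20541 := checkRangeG_sound parWF r2 pf20540 h20540
  have h20542 := checkRangeG_sound parWF r2 pf20541 h20541
  have h20543 := checkRangeG_sound parWF r2 pf20542 h20542
  have h20544 := checkRangeG_sound parWF r2 pf20543 h20543
  have h20545 := checkRangeG_sound parWF r2 pf20544 h20544
  have h20546 := checkRangeG_sound parWF r2 pf20545 h20545
  have h20547 := checkRangeG_sound parWF r2 pf20546 h20546
  have h20548 := checkRangeG_sound parWF r2 pf20547 h20547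
  have h20549 := checkRangeG_sound parWF r2 pf20548 h20548
  have h20550 := checkRangeG_sound parWF r2 pf20549 h20549
  exact h20550

theorem c411 (h20550 : ∀ j, j < 64586 → GoodG.{u} par (db j)) : ∀ j, j < 64751 → GoodG.{u} par (db j) := by
  have h20551 := checkRangeG_sound parWF r2 pf20550 h20550
  have h20552 := checkRangeG_sound parWF r2 pf20551 h20551
  have h20553 := checkRangeG_sound parWF r2 pf20552 h20552
  have h20554 := checkRangeG_sound parWF r2 pf20553 h20553
  have h20555 := checkRangeG_sound parWF r2 pf20554 h20554
  have h20556 := checkRangeG_sound parWF r2 pf20555 h20555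
  have h20557 := checkRangeG_sound parWF r2 pf20556 h20556
  have h20558 := checkRangeG_sound parWF r2 pf20557 h20557
  have h20559 := checkRangeG_sound parWF r2 pf20558 h20558
  have h20560 := checkRangeG_sound parWF r2 pf20559 h20559
  have h20561 := checkRangeG_sound parWF r2 pf20560 h20560
  have h20562 := checkRangeG_sound parWF r2 pf20561 h20561
  have h20563 := checkRangeG_sound parWF r2 pf20562 h20562
  have h20564 := checkRangeG_sound parWF r2 pf20563 h20563
  have h20565 := checkRangeG_sound parWF r2 pf20564 h20564
  have h20566 := checkRangeG_sound parWF r2 pf20565 h20565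
  have h20567 := checkRangeG_sound parWF r2 pf20566 h20566
  have h20568 := checkRangeG_sound parWF r2 pf20567 h20567
  have h20569 := checkRangeG_sound parWF r2 pf20568 h20568
  have h20570 := checkRangeG_sound parWF r2 pf20569 h20569
  have h20571 := checkRangeG_sound parWF r2 pf20570 h20570
  have h20572 := checkRangeG_sound parWF r2 pf20571 h20571
  have h20573 := checkRangeG_sound parWF r2 pf20572 h20572
  have h20574 := checkRangeG_sound parWF r2 pf20573 h20573
  have h20575 := checkRangeG_sound parWF r2 pf20574 h20574
  have h20576 := checkRangeG_sound parWF r2 pf20575 h20575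
  have h20577 := checkRangeG_sound parWF r2 pf20576 h20576
  have h20578 := checkRangeG_sound parWF r2 pf20577 h20577
  have h20579 := checkRangeG_sound parWF r2 pf20578 h20578
  have h20580 := checkRangeG_sound parWF r2 pf20579 h20579
  have h20581 := checkRangeG_sound parWF r2 pf20580 h20580
  have h20582 := checkRangeG_sound parWF r2 pf20581 h20581
  have h20583 := checkRangeG_sound parWF r2 pf20582 h20582
  have h20584 := checkRangeG_sound parWF r2 pf20583 h20583
  have h20585 := checkRangeG_sound parWF r2 pf20584 h20584
  have h20586 := checkRangeG_sound parWF r2 pf20585 h20585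
  have h20587 := checkRangeG_sound parWF r2 pf20586 h20586
  have h20588 := checkRangeG_sound parWF r2 pf20587 h20587
  have h20589 := checkRangeG_sound parWF r2 pf20588 h20588
  have h20590 := checkRangeG_sound parWF r2 pf20589 h20589
  have h20591 := checkRangeG_sound parWF r2 pf20590 h20590
  have h20592 := checkRangeG_sound parWF r2 pf20591 h20591
  have h20593 := checkRangeG_sound parWF r2 pf20592 h20592
  have h20594 := checkRangeG_sound parWF r2 pf20593 h20593
  have h20595 := checkRangeG_sound parWF r2 pf20594 h20594
  have h20596 := checkRangeG_sound parWF r2 pf20595 h20595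
  have h20597 := checkRangeG_sound parWF r2 pf20596 h20596
  have h20598 := checkRangeG_sound parWF r2 pf20597 h20597
  have h20599 := checkRangeG_sound parWF r2 pf20598 h20598
  have h20600 := checkRangeG_sound parWF r2 pf20599 h20599
  exact h20600

theorem c412 (h20600 : ∀ j, j < 64751 → GoodG.{u} par (db j)) : ∀ j, j < 64934 → GoodG.{u} par (db j) := by
  have h20601 := checkRangeG_sound parWF r2 pf20600 h20600
  have h20602 := checkRangeG_sound parWF r2 pf20601 h20601
  have h20603 := checkRangeG_sound parWF r2 pf20602 h20602
  have h20604 := checkRangeG_sound parWF r2 pf20603 h20603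
  have h20605 := checkRangeG_sound parWF r2 pf20604 h20604
  have h20606 := checkRangeG_sound parWF r2 pf20605 h20605
  have h20607 := checkRangeG_sound parWF r2 pf20606 h20606
  have h20608 := checkRangeG_sound parWF r2 pf20607 h20607
  have h20609 := checkRangeG_sound parWF r2 pf20608 h20608
  have h20610 := checkRangeG_sound parWF r2 pf20609 h20609
  have h20611 := checkRangeG_sound parWF r2 pf20610 h20610
  have h20612 := checkRangeG_sound parWF r2 pf20611 h20611
  have h20613 := checkRangeG_sound parWF r2 pf20612 h20612
  have h20614 := checkRangeG_sound parWF r2 pf20613 h20613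
  have h20615 := checkRangeG_sound parWF r2 pf20614 h20614
  have h20616 := checkRangeG_sound parWF r2 pf20615 h20615
  have h20617 := checkRangeG_sound parWF r2 pf20616 h20616
  have h20618 := checkRangeG_sound parWF r2 pf20617 h20617
  have h20619 := checkRangeG_sound parWF r2 pf20618 h20618
  have h20620 := checkRangeG_sound parWF r2 pf20619 h20619
  have h20621 := checkRangeG_sound parWF r2 pf20620 h20620
  have h20622 := checkRangeG_sound parWF r2 pf20621 h20621
  have h20623 := checkRangeG_sound parWF r2 pf20622 h20622
  have h20624 := checkRangeG_sound parWF r2 pf20623 h20623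
  have h20625 := checkRangeG_sound parWF r2 pf20624 h20624
  have h20626 := checkRangeG_sound parWF r2 pf20625 h20625
  have h20627 := checkRangeG_sound parWF r2 pf20626 h20626
  have h20628 := checkRangeG_sound parWF r2 pf20627 h20627
  have h20629 := checkRangeG_sound parWF r2 pf20628 h20628
  have h20630 := checkRangeG_sound parWF r2 pf20629 h20629
  have h20631 := checkRangeG_sound parWF r2 pf20630 h20630
  have h20632 := checkRangeG_sound parWF r2 pf20631 h20631
  have h20633 := checkRangeG_sound parWF r2 pf20632 h20632
  have h20634 := checkRangeG_sound parWF r2 pf20633 h20633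
  have h20635 := checkRangeG_sound parWF r2 pf20634 h20634
  have h20636 := checkRangeG_sound parWF r2 pf20635 h20635
  have h20637 := checkRangeG_sound parWF r2 pf20636 h20636
  have h20638 := checkRangeG_sound parWF r2 pf20637 h20637
  have h20639 := checkRangeG_sound parWF r2 pf20638 h20638
  have h20640 := checkRangeG_sound parWF r2 pf20639 h20639
  have h20641 := checkRangeG_sound parWF r2 pf20640 h20640
  have h20642 := checkRangeG_sound parWF r2 pf20641 h20641
  have h20643 := checkRangeG_sound parWF r2 pf20642 h20642
  have h20644 := checkRangeG_sound parWF r2 pf20643 h20643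
  have h20645 := checkRangeG_sound parWF r2 pf20644 h20644
  have h20646 := checkRangeG_sound parWF r2 pf20645 h20645
  have h20647 := checkRangeG_sound parWF r2 pf20646 h20646
  have h20648 := checkRangeG_sound parWF r2 pf20647 h20647
  have h20649 := checkRangeG_sound parWF r2 pf20648 h20648
  have h20650 := checkRangeG_sound parWF r2 pf20649 h20649
  exact h20650

theorem c413 (h20650 : ∀ j, j < 64934 → GoodG.{u} par (db j)) : ∀ j, j < 65104 → GoodG.{u} par (db j) := by
  have h20651 := checkRangeG_sound parWF r2 pf20650 h20650
  have h20652 := checkRangeG_sound parWF r2 pf20651 h20651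
  have h20653 := checkRangeG_sound parWF r2 pf20652 h20652
  have h20654 := checkRangeG_sound parWF r2 pf20653 h20653
  have h20655 := checkRangeG_sound parWF r2 pf20654 h20654
  have h20656 := checkRangeG_sound parWF r2 pf20655 h20655
  have h20657 := checkRangeG_sound parWF r2 pf20656 h20656
  have h20658 := checkRangeG_sound parWF r2 pf20657 h20657
  have h20659 := checkRangeG_sound parWF r2 pf20658 h20658
  have h20660 := checkRangeG_sound parWF r2 pf20659 h20659
  have h20661 := checkRangeG_sound parWF r2 pf20660 h20660
  have h20662 := checkRangeG_sound parWF r2 pf20661 h20661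
  have h20663 := checkRangeG_sound parWF r2 pf20662 h20662
  have h20664 := checkRangeG_sound parWF r2 pf20663 h20663
  have h20665 := checkRangeG_sound parWF r2 pf20664 h20664
  have h20666 := checkRangeG_sound parWF r2 pf20665 h20665
  have h20667 := checkRangeG_sound parWF r2 pf20666 h20666
  have h20668 := checkRangeG_sound parWF r2 pf20667 h20667
  have h20669 := checkRangeG_sound parWF r2 pf20668 h20668
  have h20670 := checkRangeG_sound parWF r2 pf20669 h20669
  have h20671 := checkRangeG_sound parWF r2 pf20670 h20670
  have h20672 := checkRangeG_sound parWF r2 pf20671 h20671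
  have h20673 := checkRangeG_sound parWF r2 pf20672 h20672
  have h20674 := checkRangeG_sound parWF r2 pf20673 h20673
  have h20675 := checkRangeG_sound parWF r2 pf20674 h20674
  have h20676 := checkRangeG_sound parWF r2 pf20675 h20675
  have h20677 := checkRangeG_sound parWF r2 pf20676 h20676
  have h20678 := checkRangeG_sound parWF r2 pf20677 h20677
  have h20679 := checkRangeG_sound parWF r2 pf20678 h20678
  have h20680 := checkRangeG_sound parWF r2 pf20679 h20679
  have h20681 := checkRangeG_sound parWF r2 pf20680 h20680
  have h20682 := checkRangeG_sound parWF r2 pf20681 h20681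
  have h20683 := checkRangeG_sound parWF r2 pf20682 h20682
  have h20684 := checkRangeG_sound parWF r2 pf20683 h20683
  have h20685 := checkRangeG_sound parWF r2 pf20684 h20684
  have h20686 := checkRangeG_sound parWF r2 pf20685 h20685
  have h20687 := checkRangeG_sound parWF r2 pf20686 h20686
  have h20688 := checkRangeG_sound parWF r2 pf20687 h20687
  have h20689 := checkRangeG_sound parWF r2 pf20688 h20688
  have h20690 := checkRangeG_sound parWF r2 pf20689 h20689
  have h20691 := checkRangeG_sound parWF r2 pf20690 h20690
  have h20692 := checkRangeG_sound parWF r2 pf20691 h20691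
  have h20693 := checkRangeG_sound parWF r2 pf20692 h20692
  have h20694 := checkRangeG_sound parWF r2 pf20693 h20693
  have h20695 := checkRangeG_sound parWF r2 pf20694 h20694
  have h20696 := checkRangeG_sound parWF r2 pf20695 h20695
  have h20697 := checkRangeG_sound parWF r2 pf20696 h20696
  have h20698 := checkRangeG_sound parWF r2 pf20697 h20697
  have h20699 := checkRangeG_sound parWF r2 pf20698 h20698
  have h20700 := checkRangeG_sound parWF r2 pf20699 h20699
  exact h20700

theorem c414 (h20700 : ∀ j, j < 65104 → GoodG.{u} par (db j)) : ∀ j, j < 65293 → GoodG.{u} par (db j) := by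
  have h20701 := checkRangeG_sound parWF r2 pf20700 h20700
  have h20702 := checkRangeG_sound parWF r2 pf20701 h20701
  have h20703 := checkRangeG_sound parWF r2 pf20702 h20702
  have h20704 := checkRangeG_sound parWF r2 pf20703 h20703
  have h20705 := checkRangeG_sound parWF r2 pf20704 h20704
  have h20706 := checkRangeG_sound parWF r2 pf20705 h20705
  have h20707 := checkRangeG_sound parWF r2 pf20706 h20706
  have h20708 := checkRangeG_sound parWF r2 pf20707 h20707
  have h20709 := checkRangeG_sound parWF r2 pf20708 h20708
  have h20710 := checkRangeG_sound parWF r2 pf20709 h20709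
  have h20711 := checkRangeG_sound parWF r2 pf20710 h20710
  have h20712 := checkRangeG_sound parWF r2 pf20711 h20711
  have h20713 := checkRangeG_sound parWF r2 pf20712 h20712
  have h20714 := checkRangeG_sound parWF r2 pf20713 h20713
  have h20715 := checkRangeG_sound parWF r2 pf20714 h20714
  have h20716 := checkRangeG_sound parWF r2 pf20715 h20715
  have h20717 := checkRangeG_sound parWF r2 pf20716 h20716
  have h20718 := checkRangeG_sound parWF r2 pf20717 h20717
  have h20719 := checkRangeG_sound parWF r2 pf20718 h20718
  have h20720 := checkRangeG_sound parWF r2 pf20719 h20719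
  have h20721 := checkRangeG_sound parWF r2 pf20720 h20720
  have h20722 := checkRangeG_sound parWF r2 pf20721 h20721
  have h20723 := checkRangeG_sound parWF r2 pf20722 h20722
  have h20724 := checkRangeG_sound parWF r2 pf20723 h20723
  have h20725 := checkRangeG_sound parWF r2 pf20724 h20724
  have h20726 := checkRangeG_sound parWF r2 pf20725 h20725
  have h20727 := checkRangeG_sound parWF r2 pf20726 h20726
  have h20728 := checkRangeG_sound parWF r2 pf20727 h20727
  have h20729 := checkRangeG_sound parWF r2 pf20728 h20728
  have h20730 := checkRangeG_sound parWF r2 pf20729 h20729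
  have h20731 := checkRangeG_sound parWF r2 pf20730 h20730
  have h20732 := checkRangeG_sound parWF r2 pf20731 h20731
  have h20733 := checkRangeG_sound parWF r2 pf20732 h20732
  have h20734 := checkRangeG_sound parWF r2 pf20733 h20733
  have h20735 := checkRangeG_sound parWF r2 pf20734 h20734
  have h20736 := checkRangeG_sound parWF r2 pf20735 h20735
  have h20737 := checkRangeG_sound parWF r2 pf20736 h20736
  have h20738 := checkRangeG_sound parWF r2 pf20737 h20737
  have h20739 := checkRangeG_sound parWF r2 pf20738 h20738
  have h20740 := checkRangeG_sound parWF r2 pf20739 h20739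
  have h20741 := checkRangeG_sound parWF r2 pf20740 h20740
  have h20742 := checkRangeG_sound parWF r2 pf20741 h20741
  have h20743 := checkRangeG_sound parWF r2 pf20742 h20742
  have h20744 := checkRangeG_sound parWF r2 pf20743 h20743
  have h20745 := checkRangeG_sound parWF r2 pf20744 h20744
  have h20746 := checkRangeG_sound parWF r2 pf20745 h20745
  have h20747 := checkRangeG_sound parWF r2 pf20746 h20746
  have h20748 := checkRangeG_sound parWF r2 pf20747 h20747
  have h20749 := checkRangeG_sound parWF r2 pf20748 h20748
  have h20750 := checkRangeG_sound parWF r2 pf20749 h20749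
  exact h20750

theorem c415 (h20750 : ∀ j, j < 65293 → GoodG.{u} par (db j)) : ∀ j, j < 65478 → GoodG.{u} par (db j) := by
  have h20751 := checkRangeG_sound parWF r2 pf20750 h20750
  have h20752 := checkRangeG_sound parWF r2 pf20751 h20751
  have h20753 := checkRangeG_sound parWF r2 pf20752 h20752
  have h20754 := checkRangeG_sound parWF r2 pf20753 h20753
  have h20755 := checkRangeG_sound parWF r2 pf20754 h20754
  have h20756 := checkRangeG_sound parWF r2 pf20755 h20755
  have h20757 := checkRangeG_sound parWF r2 pf20756 h20756
  have h20758 := checkRangeG_sound parWF r2 pf20757 h20757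
  have h20759 := checkRangeG_sound parWF r2 pf20758 h20758
  have h20760 := checkRangeG_sound parWF r2 pf20759 h20759
  have h20761 := checkRangeG_sound parWF r2 pf20760 h20760
  have h20762 := checkRangeG_sound parWF r2 pf20761 h20761
  have h20763 := checkRangeG_sound parWF r2 pf20762 h20762
  have h20764 := checkRangeG_sound parWF r2 pf20763 h20763
  have h20765 := checkRangeG_sound parWF r2 pf20764 h20764
  have h20766 := checkRangeG_sound parWF r2 pf20765 h20765
  have h20767 := checkRangeG_sound parWF r2 pf20766 h20766
  have h20768 := checkRangeG_sound parWF r2 pf20767 h20767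
  have h20769 := checkRangeG_sound parWF r2 pf20768 h20768
  have h20770 := checkRangeG_sound parWF r2 pf20769 h20769
  have h20771 := checkRangeG_sound parWF r2 pf20770 h20770
  have h20772 := checkRangeG_sound parWF r2 pf20771 h20771
  have h20773 := checkRangeG_sound parWF r2 pf20772 h20772
  have h20774 := checkRangeG_sound parWF r2 pf20773 h20773
  have h20775 := checkRangeG_sound parWF r2 pf20774 h20774
  have h20776 := checkRangeG_sound parWF r2 pf20775 h20775
  have h20777 := checkRangeG_sound parWF r2 pf20776 h20776
  have h20778 := checkRangeG_sound parWF r2 pf20777 h20777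
  have h20779 := checkRangeG_sound parWF r2 pf20778 h20778
  have h20780 := checkRangeG_sound parWF r2 pf20779 h20779
  have h20781 := checkRangeG_sound parWF r2 pf20780 h20780
  have h20782 := checkRangeG_sound parWF r2 pf20781 h20781
  have h20783 := checkRangeG_sound parWF r2 pf20782 h20782
  have h20784 := checkRangeG_sound parWF r2 pf20783 h20783
  have h20785 := checkRangeG_sound parWF r2 pf20784 h20784
  have h20786 := checkRangeG_sound parWF r2 pf20785 h20785
  have h20787 := checkRangeG_sound parWF r2 pf20786 h20786
  have h20788 := checkRangeG_sound parWF r2 pf20787 h20787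
  have h20789 := checkRangeG_sound parWF r2 pf20788 h20788
  have h20790 := checkRangeG_sound parWF r2 pf20789 h20789
  have h20791 := checkRangeG_sound parWF r2 pf20790 h20790
  have h20792 := checkRangeG_sound parWF r2 pf20791 h20791
  have h20793 := checkRangeG_sound parWF r2 pf20792 h20792
  have h20794 := checkRangeG_sound parWF r2 pf20793 h20793
  have h20795 := checkRangeG_sound parWF r2 pf20794 h20794
  have h20796 := checkRangeG_sound parWF r2 pf20795 h20795
  have h20797 := checkRangeG_sound parWF r2 pf20796 h20796
  have h20798 := checkRangeG_sound parWF r2 pf20797 h20797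
  have h20799 := checkRangeG_sound parWF r2 pf20798 h20798
  have h20800 := checkRangeG_sound parWF r2 pf20799 h20799
  exact h20800

theorem c416 (h20800 : ∀ j, j < 65478 → GoodG.{u} par (db j)) : ∀ j, j < 65665 → GoodG.{u} par (db j) := by
  have h20801 := checkRangeG_sound parWF r2 pf20800 h20800
  have h20802 := checkRangeG_sound parWF r2 pf20801 h20801
  have h20803 := checkRangeG_sound parWF r2 pf20802 h20802
  have h20804 := checkRangeG_sound parWF r2 pf20803 h20803
  have h20805 := checkRangeG_sound parWF r2 pf20804 h20804
  have h20806 := checkRangeG_sound parWF r2 pf20805 h20805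
  have h20807 := checkRangeG_sound parWF r2 pf20806 h20806
  have h20808 := checkRangeG_sound parWF r2 pf20807 h20807
  have h20809 := checkRangeG_sound parWF r2 pf20808 h20808
  have h20810 := checkRangeG_sound parWF r2 pf20809 h20809
  have h20811 := checkRangeG_sound parWF r2 pf20810 h20810
  have h20812 := checkRangeG_sound parWF r2 pf20811 h20811
  have h20813 := checkRangeG_sound parWF r2 pf20812 h20812
  have h20814 := checkRangeG_sound parWF r2 pf20813 h20813
  have h20815 := checkRangeG_sound parWF r2 pf20814 h20814
  have h20816 := checkRangeG_sound parWF r2 pf20815 h20815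
  have h20817 := checkRangeG_sound parWF r2 pf20816 h20816
  have h20818 := checkRangeG_sound parWF r2 pf20817 h20817
  have h20819 := checkRangeG_sound parWF r2 pf20818 h20818
  have h20820 := checkRangeG_sound parWF r2 pf20819 h20819
  have h20821 := checkRangeG_sound parWF r2 pf20820 h20820
  have h20822 := checkRangeG_sound parWF r2 pf20821 h20821
  have h20823 := checkRangeG_sound parWF r2 pf20822 h20822
  have h20824 := checkRangeG_sound parWF r2 pf20823 h20823
  have h20825 := checkRangeG_sound parWF r2 pf20824 h20824
  have h20826 := checkRangeG_sound parWF r2 pf20825 h20825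
  have h20827 := checkRangeG_sound parWF r2 pf20826 h20826
  have h20828 := checkRangeG_sound parWF r2 pf20827 h20827
  have h20829 := checkRangeG_sound parWF r2 pf20828 h20828
  have h20830 := checkRangeG_sound parWF r2 pf20829 h20829
  have h20831 := checkRangeG_sound parWF r2 pf20830 h20830
  have h20832 := checkRangeG_sound parWF r2 pf20831 h20831
  have h20833 := checkRangeG_sound parWF r2 pf20832 h20832
  have h20834 := checkRangeG_sound parWF r2 pf20833 h20833
  have h20835 := checkRangeG_sound parWF r2 pf20834 h20834
  have h20836 := checkRangeG_sound parWF r2 pf20835 h20835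
  have h20837 := checkRangeG_sound parWF r2 pf20836 h20836
  have h20838 := checkRangeG_sound parWF r2 pf20837 h20837
  have h20839 := checkRangeG_sound parWF r2 pf20838 h20838
  have h20840 := checkRangeG_sound parWF r2 pf20839 h20839
  have h20841 := checkRangeG_sound parWF r2 pf20840 h20840
  have h20842 := checkRangeG_sound parWF r2 pf20841 h20841
  have h20843 := checkRangeG_sound parWF r2 pf20842 h20842
  have h20844 := checkRangeG_sound parWF r2 pf20843 h20843
  have h20845 := checkRangeG_sound parWF r2 pf20844 h20844
  have h20846 := checkRangeG_sound parWF r2 pf20845 h20845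
  have h20847 := checkRangeG_sound parWF r2 pf20846 h20846
  have h20848 := checkRangeG_sound parWF r2 pf20847 h20847
  have h20849 := checkRangeG_sound parWF r2 pf20848 h20848
  have h20850 := checkRangeG_sound parWF r2 pf20849 h20849
  exact h20850

theorem c417 (h20850 : ∀ j, j < 65665 → GoodG.{u} par (db j)) : ∀ j, j < 65848 → GoodG.{u} par (db j) := by
  have h20851 := checkRangeG_sound parWF r2 pf20850 h20850
  have h20852 := checkRangeG_sound parWF r2 pf20851 h20851
  have h20853 := checkRangeG_sound parWF r2 pf20852 h20852
  have h20854 := checkRangeG_sound parWF r2 pf20853 h20853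
  have h20855 := checkRangeG_sound parWF r2 pf20854 h20854
  have h20856 := checkRangeG_sound parWF r2 pf20855 h20855
  have h20857 := checkRangeG_sound parWF r2 pf20856 h20856
  have h20858 := checkRangeG_sound parWF r2 pf20857 h20857
  have h20859 := checkRangeG_sound parWF r2 pf20858 h20858
  have h20860 := checkRangeG_sound parWF r2 pf20859 h20859
  have h20861 := checkRangeG_sound parWF r2 pf20860 h20860
  have h20862 := checkRangeG_sound parWF r2 pf20861 h20861
  have h20863 := checkRangeG_sound parWF r2 pf20862 h20862
  have h20864 := checkRangeG_sound parWF r2 pf20863 h20863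
  have h20865 := checkRangeG_sound parWF r2 pf20864 h20864
  have h20866 := checkRangeG_sound parWF r2 pf20865 h20865
  have h20867 := checkRangeG_sound parWF r2 pf20866 h20866
  have h20868 := checkRangeG_sound parWF r2 pf20867 h20867
  have h20869 := checkRangeG_sound parWF r2 pf20868 h20868
  have h20870 := checkRangeG_sound parWF r2 pf20869 h20869
  have h20871 := checkRangeG_sound parWF r2 pf20870 h20870
  have h20872 := checkRangeG_sound parWF r2 pf20871 h20871
  have h20873 := checkRangeG_sound parWF r2 pf20872 h20872
  have h20874 := checkRangeG_sound parWF r2 pf20873 h20873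
  have h20875 := checkRangeG_sound parWF r2 pf20874 h20874
  have h20876 := checkRangeG_sound parWF r2 pf20875 h20875
  have h20877 := checkRangeG_sound parWF r2 pf20876 h20876
  have h20878 := checkRangeG_sound parWF r2 pf20877 h20877
  have h20879 := checkRangeG_sound parWF r2 pf20878 h20878
  have h20880 := checkRangeG_sound parWF r2 pf20879 h20879
  have h20881 := checkRangeG_sound parWF r2 pf20880 h20880
  have h20882 := checkRangeG_sound parWF r2 pf20881 h20881
  have h20883 := checkRangeG_sound parWF r2 pf20882 h20882
  have h20884 := checkRangeG_sound parWF r2 pf20883 h20883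
  have h20885 := checkRangeG_sound parWF r2 pf20884 h20884
  have h20886 := checkRangeG_sound parWF r2 pf20885 h20885
  have h20887 := checkRangeG_sound parWF r2 pf20886 h20886
  have h20888 := checkRangeG_sound parWF r2 pf20887 h20887
  have h20889 := checkRangeG_sound parWF r2 pf20888 h20888
  have h20890 := checkRangeG_sound parWF r2 pf20889 h20889
  have h20891 := checkRangeG_sound parWF r2 pf20890 h20890
  have h20892 := checkRangeG_sound parWF r2 pf20891 h20891
  have h20893 := checkRangeG_sound parWF r2 pf20892 h20892
  have h20894 := checkRangeG_sound parWF r2 pf20893 h20893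
  have h20895 := checkRangeG_sound parWF r2 pf20894 h20894
  have h20896 := checkRangeG_sound parWF r2 pf20895 h20895
  have h20897 := checkRangeG_sound parWF r2 pf20896 h20896
  have h20898 := checkRangeG_sound parWF r2 pf20897 h20897
  have h20899 := checkRangeG_sound parWF r2 pf20898 h20898
  have h20900 := checkRangeG_sound parWF r2 pf20899 h20899
  exact h20900

theorem c418 (h20900 : ∀ j, j < 65848 → GoodG.{u} par (db j)) : ∀ j, j < 66022 → GoodG.{u} par (db j) := by
  have h20901 := checkRangeG_sound parWF r2 pf20900 h20900
  have h20902 := checkRangeG_sound parWF r2 pf20901 h20901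
  have h20903 := checkRangeG_sound parWF r2 pf20902 h20902
  have h20904 := checkRangeG_sound parWF r2 pf20903 h20903
  have h20905 := checkRangeG_sound parWF r2 pf20904 h20904
  have h20906 := checkRangeG_sound parWF r2 pf20905 h20905
  have h20907 := checkRangeG_sound parWF r2 pf20906 h20906
  have h20908 := checkRangeG_sound parWF r2 pf20907 h20907
  have h20909 := checkRangeG_sound parWF r2 pf20908 h20908
  have h20910 := checkRangeG_sound parWF r2 pf20909 h20909
  have h20911 := checkRangeG_sound parWF r2 pf20910 h20910
  have h20912 := checkRangeG_sound parWF r2 pf20911 h20911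
  have h20913 := checkRangeG_sound parWF r2 pf20912 h20912
  have h20914 := checkRangeG_sound parWF r2 pf20913 h20913
  have h20915 := checkRangeG_sound parWF r2 pf20914 h20914
  have h20916 := checkRangeG_sound parWF r2 pf20915 h20915
  have h20917 := checkRangeG_sound parWF r2 pf20916 h20916
  have h20918 := checkRangeG_sound parWF r2 pf20917 h20917
  have h20919 := checkRangeG_sound parWF r2 pf20918 h20918
  have h20920 := checkRangeG_sound parWF r2 pf20919 h20919
  have h20921 := checkRangeG_sound parWF r2 pf20920 h20920
  have h20922 := checkRangeG_sound parWF r2 pf20921 h20921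
  have h20923 := checkRangeG_sound parWF r2 pf20922 h20922
  have h20924 := checkRangeG_sound parWF r2 pf20923 h20923
  have h20925 := checkRangeG_sound parWF r2 pf20924 h20924
  have h20926 := checkRangeG_sound parWF r2 pf20925 h20925
  have h20927 := checkRangeG_sound parWF r2 pf20926 h20926
  have h20928 := checkRangeG_sound parWF r2 pf20927 h20927
  have h20929 := checkRangeG_sound parWF r2 pf20928 h20928
  have h20930 := checkRangeG_sound parWF r2 pf20929 h20929
  have h20931 := checkRangeG_sound parWF r2 pf20930 h20930
  have h20932 := checkRangeG_sound parWF r2 pf20931 h20931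
  have h20933 := checkRangeG_sound parWF r2 pf20932 h20932
  have h20934 := checkRangeG_sound parWF r2 pf20933 h20933
  have h20935 := checkRangeG_sound parWF r2 pf20934 h20934
  have h20936 := checkRangeG_sound parWF r2 pf20935 h20935
  have h20937 := checkRangeG_sound parWF r2 pf20936 h20936
  have h20938 := checkRangeG_sound parWF r2 pf20937 h20937
  have h20939 := checkRangeG_sound parWF r2 pf20938 h20938
  have h20940 := checkRangeG_sound parWF r2 pf20939 h20939
  have h20941 := checkRangeG_sound parWF r2 pf20940 h20940
  have h20942 := checkRangeG_sound parWF r2 pf20941 h20941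
  have h20943 := checkRangeG_sound parWF r2 pf20942 h20942
  have h20944 := checkRangeG_sound parWF r2 pf20943 h20943
  have h20945 := checkRangeG_sound parWF r2 pf20944 h20944
  have h20946 := checkRangeG_sound parWF r2 pf20945 h20945
  have h20947 := checkRangeG_sound parWF r2 pf20946 h20946
  have h20948 := checkRangeG_sound parWF r2 pf20947 h20947
  have h20949 := checkRangeG_sound parWF r2 pf20948 h20948
  have h20950 := checkRangeG_sound parWF r2 pf20949 h20949
  exact h20950

theorem c419 (h20950 : ∀ j, j < 66022 → GoodG.{u} par (db j)) : ∀ j, j < 66206 → GoodG.{u} par (db j) := by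
  have h20951 := checkRangeG_sound parWF r2 pf20950 h20950
  have h20952 := checkRangeG_sound parWF r2 pf20951 h20951
  have h20953 := checkRangeG_sound parWF r2 pf20952 h20952
  have h20954 := checkRangeG_sound parWF r2 pf20953 h20953
  have h20955 := checkRangeG_sound parWF r2 pf20954 h20954
  have h20956 := checkRangeG_sound parWF r2 pf20955 h20955
  have h20957 := checkRangeG_sound parWF r2 pf20956 h20956
  have h20958 := checkRangeG_sound parWF r2 pf20957 h20957
  have h20959 := checkRangeG_sound parWF r2 pf20958 h20958
  have h20960 := checkRangeG_sound parWF r2 pf20959 h20959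
  have h20961 := checkRangeG_sound parWF r2 pf20960 h20960
  have h20962 := checkRangeG_sound parWF r2 pf20961 h20961
  have h20963 := checkRangeG_sound parWF r2 pf20962 h20962
  have h20964 := checkRangeG_sound parWF r2 pf20963 h20963
  have h20965 := checkRangeG_sound parWF r2 pf20964 h20964
  have h20966 := checkRangeG_sound parWF r2 pf20965 h20965
  have h20967 := checkRangeG_sound parWF r2 pf20966 h20966
  have h20968 := checkRangeG_sound parWF r2 pf20967 h20967
  have h20969 := checkRangeG_sound parWF r2 pf20968 h20968
  have h20970 := checkRangeG_sound parWF r2 pf20969 h20969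
  have h20971 := checkRangeG_sound parWF r2 pf20970 h20970
  have h20972 := checkRangeG_sound parWF r2 pf20971 h20971
  have h20973 := checkRangeG_sound parWF r2 pf20972 h20972
  have h20974 := checkRangeG_sound parWF r2 pf20973 h20973
  have h20975 := checkRangeG_sound parWF r2 pf20974 h20974
  have h20976 := checkRangeG_sound parWF r2 pf20975 h20975
  have h20977 := checkRangeG_sound parWF r2 pf20976 h20976
  have h20978 := checkRangeG_sound parWF r2 pf20977 h20977
  have h20979 := checkRangeG_sound parWF r2 pf20978 h20978
  have h20980 := checkRangeG_sound parWF r2 pf20979 h20979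
  have h20981 := checkRangeG_sound parWF r2 pf20980 h20980
  have h20982 := checkRangeG_sound parWF r2 pf20981 h20981
  have h20983 := checkRangeG_sound parWF r2 pf20982 h20982
  have h20984 := checkRangeG_sound parWF r2 pf20983 h20983
  have h20985 := checkRangeG_sound parWF r2 pf20984 h20984
  have h20986 := checkRangeG_sound parWF r2 pf20985 h20985
  have h20987 := checkRangeG_sound parWF r2 pf20986 h20986
  have h20988 := checkRangeG_sound parWF r2 pf20987 h20987
  have h20989 := checkRangeG_sound parWF r2 pf20988 h20988
  have h20990 := checkRangeG_sound parWF r2 pf20989 h20989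
  have h20991 := checkRangeG_sound parWF r2 pf20990 h20990
  have h20992 := checkRangeG_sound parWF r2 pf20991 h20991
  have h20993 := checkRangeG_sound parWF r2 pf20992 h20992
  have h20994 := checkRangeG_sound parWF r2 pf20993 h20993
  have h20995 := checkRangeG_sound parWF r2 pf20994 h20994
  have h20996 := checkRangeG_sound parWF r2 pf20995 h20995
  have h20997 := checkRangeG_sound parWF r2 pf20996 h20996
  have h20998 := checkRangeG_sound parWF r2 pf20997 h20997
  have h20999 := checkRangeG_sound parWF r2 pf20998 h20998
  have h21000 := checkRangeG_sound parWF r2 pf20999 h20999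
  exact h21000


end Vale.Agent.P045g.C61
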