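import Vale.Agent.P045g.C61.WF
import Vale.Agent.P045g.C61.Pf350
import Vale.Agent.P045g.C61.Pf351
import Vale.Agent.P045g.C61.Pf352
import Vale.Agent.P045g.C61.Pf353
import Vale.Agent.P045g.C61.Pf354
import Vale.Agent.P045g.C61.Pf355
import Vale.Agent.P045g.C61.Pf356
import Vale.Agent.P045g.C61.Pf357
import Vale.Agent.P045g.C61.Pf358
import Vale.Agent.P045g.C61.Pf359

namespace Vale.Agent.P045g.C61

open Vale.Agent.P045b Vale.Agent.P045g

universe u

theorem c420 (h21000 : ∀ j, j < 66206 → GoodG.{u} par (db j)) : ∀ j, j < 66427 → GoodG.{u} par (db j) := by
  have h21001 := checkRangeG_sound parWF r2 pf21000 h21000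
  have h21002 := checkRangeG_sound parWF r2 pf21001 h21001
  have h21003 := checkRangeG_sound parWF r2 pf21002 h21002
  have h21004 := checkRangeG_sound parWF r2 pf21003 h21003
  have h21005 := checkRangeG_sound parWF r2 pf21004 h21004
  have h21006 := checkRangeG_sound parWF r2 pf21005 h21005
  have h21007 := checkRangeG_sound parWF r2 pf21006 h21006
  have h21008 := checkRangeG_sound parWF r2 pf21007 h21007
  have h21009 := checkRangeG_sound parWF r2 pf21008 h21008
  have h21010 := checkRangeG_sound parWF r2 pf21009 h21009
  have h21011 := checkRangeG_sound parWF r2 pf21010 h21010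
  have h21012 := checkRangeG_sound parWF r2 pf21011 h21011
  have h21013 := checkRangeG_sound parWF r2 pf21012 h21012
  have h21014 := checkRangeG_sound parWF r2 pf21013 h21013
  have h21015 := checkRangeG_sound parWF r2 pf21014 h21014
  have h21016 := checkRangeG_sound parWF r2 pf21015 h21015
  have h21017 := checkRangeG_sound parWF r2 pf21016 h21016
  have h21018 := checkRangeG_sound parWF r2 pf21017 h21017
  have h21019 := checkRangeG_sound parWF r2 pf21018 h21018
  have h21020 := checkRangeG_sound parWF r2 pf21019 h21019
  have h21021 := checkRangeG_sound parWF r2 pf21020 h21020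
  have h21022 := checkRangeG_sound parWF r2 pf21021 h21021
  have h21023 := checkRangeG_sound parWF r2 pf21022 h21022
  have h21024 := checkRangeG_sound parWF r2 pf21023 h21023
  have h21025 := checkRangeG_sound parWF r2 pf21024 h21024
  have h21026 := checkRangeG_sound parWF r2 pf21025 h21025
  have h21027 := checkRangeG_sound parWF r2 pf21026 h21026
  have h21028 := checkRangeG_sound parWF r2 pf21027 h21027
  have h21029 := checkRangeG_sound parWF r2 pf21028 h21028
  have h21030 := checkRangeG_sound parWF r2 pf21029 h21029
  have h21031 := checkRangeG_sound parWF r2 pf21030 h21030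
  have h21032 := checkRangeG_sound parWF r2 pf21031 h21031
  have h21033 := checkRangeG_sound parWF r2 pf21032 h21032
  have h21034 := checkRangeG_sound parWF r2 pf21033 h21033
  have h21035 := checkRangeG_sound parWF r2 pf21034 h21034
  have h21036 := checkRangeG_sound parWF r2 pf21035 h21035
  have h21037 := checkRangeG_sound parWF r2 pf21036 h21036
  have h21038 := checkRangeG_sound parWF r2 pf21037 h21037
  have h21039 := checkRangeG_sound parWF r2 pf21038 h21038
  have h21040 := checkRangeG_sound parWF r2 pf21039 h21039
  have h21041 := checkRangeG_sound parWF r2 pf21040 h21040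
  have h21042 := checkRangeG_sound parWF r2 pf21041 h21041
  have h21043 := checkRangeG_sound parWF r2 pf21042 h21042
  have h21044 := checkRangeG_sound parWF r2 pf21043 h21043
  have h21045 := checkRangeG_sound parWF r2 pf21044 h21044
  have h21046 := checkRangeG_sound parWF r2 pf21045 h21045
  have h21047 := checkRangeG_sound parWF r2 pf21046 h21046
  have h21048 := checkRangeG_sound parWF r2 pf21047 h21047
  have h21049 := checkRangeG_sound parWF r2 pf21048 h21048
  have h21050 := checkRangeG_sound parWF r2 pf21049 h21049
  exact h21050

theorem c421 (h21050 : ∀ j, j < 66427 → GoodG.{u} par (db j)) : ∀ j, j < 66611 → GoodG.{u} par (db j) := by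
  have h21051 := checkRangeG_sound parWF r2 pf21050 h21050
  have h21052 := checkRangeG_sound parWF r2 pf21051 h21051
  have h21053 := checkRangeG_sound parWF r2 pf21052 h21052
  have h21054 := checkRangeG_sound parWF r2 pf21053 h21053
  have h21055 := checkRangeG_sound parWF r2 pf21054 h21054
  have h21056 := checkRangeG_sound parWF r2 pf21055 h21055
  have h21057 := checkRangeG_sound parWF r2 pf21056 h21056
  have h21058 := checkRangeG_sound parWF r2 pf21057 h21057
  have h21059 := checkRangeG_sound parWF r2 pf21058 h21058
  have h21060 := checkRangeG_sound parWF r2 pf21059 h21059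
  have h21061 := checkRangeG_sound parWF r2 pf21060 h21060
  have h21062 := checkRangeG_sound parWF r2 pf21061 h21061
  have h21063 := checkRangeG_sound parWF r2 pf21062 h21062
  have h21064 := checkRangeG_sound parWF r2 pf21063 h21063
  have h21065 := checkRangeG_sound parWF r2 pf21064 h21064
  have h21066 := checkRangeG_sound parWF r2 pf21065 h21065
  have h21067 := checkRangeG_sound parWF r2 pf21066 h21066
  have h21068 := checkRangeG_sound parWF r2 pf21067 h21067
  have h21069 := checkRangeG_sound parWF r2 pf21068 h21068
  have h21070 := checkRangeG_sound parWF r2 pf21069 h21069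
  have h21071 := checkRangeG_sound parWF r2 pf21070 h21070
  have h21072 := checkRangeG_sound parWF r2 pf21071 h21071
  have h21073 := checkRangeG_sound parWF r2 pf21072 h21072
  have h21074 := checkRangeG_sound parWF r2 pf21073 h21073
  have h21075 := checkRangeG_sound parWF r2 pf21074 h21074
  have h21076 := checkRangeG_sound parWF r2 pf21075 h21075
  have h21077 := checkRangeG_sound parWF r2 pf21076 h21076
  have h21078 := checkRangeG_sound parWF r2 pf21077 h21077
  have h21079 := checkRangeG_sound parWF r2 pf21078 h21078
  have h21080 := checkRangeG_sound parWF r2 pf21079 h21079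
  have h21081 := checkRangeG_sound parWF r2 pf21080 h21080
  have h21082 := checkRangeG_sound parWF r2 pf21081 h21081
  have h21083 := checkRangeG_sound parWF r2 pf21082 h21082
  have h21084 := checkRangeG_sound parWF r2 pf21083 h21083
  have h21085 := checkRangeG_sound parWF r2 pf21084 h21084
  have h21086 := checkRangeG_sound parWF r2 pf21085 h21085
  have h21087 := checkRangeG_sound parWF r2 pf21086 h21086
  have h21088 := checkRangeG_sound parWF r2 pf21087 h21087
  have h21089 := checkRangeG_sound parWF r2 pf21088 h21088
  have h21090 := checkRangeG_sound parWF r2 pf21089 h21089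
  have h21091 := checkRangeG_sound parWF r2 pf21090 h21090
  have h21092 := checkRangeG_sound parWF r2 pf21091 h21091
  have h21093 := checkRangeG_sound parWF r2 pf21092 h21092
  have h21094 := checkRangeG_sound parWF r2 pf21093 h21093
  have h21095 := checkRangeG_sound parWF r2 pf21094 h21094
  have h21096 := checkRangeG_sound parWF r2 pf21095 h21095
  have h21097 := checkRangeG_sound parWF r2 pf21096 h21096
  have h21098 := checkRangeG_sound parWF r2 pf21097 h21097
  have h21099 := checkRangeG_sound parWF r2 pf21098 h21098
  have h21100 := checkRangeG_sound parWF r2 pf21099 h21099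
  exact h21100

theorem c422 (h21100 : ∀ j, j < 66611 → GoodG.{u} par (db j)) : ∀ j, j < 66817 → GoodG.{u} par (db j) := by
  have h21101 := checkRangeG_sound parWF r2 pf21100 h21100
  have h21102 := checkRangeG_sound parWF r2 pf21101 h21101
  have h21103 := checkRangeG_sound parWF r2 pf21102 h21102
  have h21104 := checkRangeG_sound parWF r2 pf21103 h21103
  have h21105 := checkRangeG_sound parWF r2 pf21104 h21104
  have h21106 := checkRangeG_sound parWF r2 pf21105 h21105
  have h21107 := checkRangeG_sound parWF r2 pf21106 h21106
  have h21108 := checkRangeG_sound parWF r2 pf21107 h21107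
  have h21109 := checkRangeG_sound parWF r2 pf21108 h21108
  have h21110 := checkRangeG_sound parWF r2 pf21109 h21109
  have h21111 := checkRangeG_sound parWF r2 pf21110 h21110
  have h21112 := checkRangeG_sound parWF r2 pf21111 h21111
  have h21113 := checkRangeG_sound parWF r2 pf21112 h21112
  have h21114 := checkRangeG_sound parWF r2 pf21113 h21113
  have h21115 := checkRangeG_sound parWF r2 pf21114 h21114
  have h21116 := checkRangeG_sound parWF r2 pf21115 h21115
  have h21117 := checkRangeG_sound parWF r2 pf21116 h21116
  have h21118 := checkRangeG_sound parWF r2 pf21117 h21117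
  have h21119 := checkRangeG_sound parWF r2 pf21118 h21118
  have h21120 := checkRangeG_sound parWF r2 pf21119 h21119
  have h21121 := checkRangeG_sound parWF r2 pf21120 h21120
  have h21122 := checkRangeG_sound parWF r2 pf21121 h21121
  have h21123 := checkRangeG_sound parWF r2 pf21122 h21122
  have h21124 := checkRangeG_sound parWF r2 pf21123 h21123
  have h21125 := checkRangeG_sound parWF r2 pf21124 h21124
  have h21126 := checkRangeG_sound parWF r2 pf21125 h21125
  have h21127 := checkRangeG_sound parWF r2 pf21126 h21126
  have h21128 := checkRangeG_sound parWF r2 pf21127 h21127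
  have h21129 := checkRangeG_sound parWF r2 pf21128 h21128
  have h21130 := checkRangeG_sound parWF r2 pf21129 h21129
  have h21131 := checkRangeG_sound parWF r2 pf21130 h21130
  have h21132 := checkRangeG_sound parWF r2 pf21131 h21131
  have h21133 := checkRangeG_sound parWF r2 pf21132 h21132
  have h21134 := checkRangeG_sound parWF r2 pf21133 h21133
  have h21135 := checkRangeG_sound parWF r2 pf21134 h21134
  have h21136 := checkRangeG_sound parWF r2 pf21135 h21135
  have h21137 := checkRangeG_sound parWF r2 pf21136 h21136
  have h21138 := checkRangeG_sound parWF r2 pf21137 h21137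
  have h21139 := checkRangeG_sound parWF r2 pf21138 h21138
  have h21140 := checkRangeG_sound parWF r2 pf21139 h21139
  have h21141 := checkRangeG_sound parWF r2 pf21140 h21140
  have h21142 := checkRangeG_sound parWF r2 pf21141 h21141
  have h21143 := checkRangeG_sound parWF r2 pf21142 h21142
  have h21144 := checkRangeG_sound parWF r2 pf21143 h21143
  have h21145 := checkRangeG_sound parWF r2 pf21144 h21144
  have h21146 := checkRangeG_sound parWF r2 pf21145 h21145
  have h21147 := checkRangeG_sound parWF r2 pf21146 h21146
  have h21148 := checkRangeG_sound parWF r2 pf21147 h21147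
  have h21149 := checkRangeG_sound parWF r2 pf21148 h21148
  have h21150 := checkRangeG_sound parWF r2 pf21149 h21149
  exact h21150

theorem c423 (h21150 : ∀ j, j < 66817 → GoodG.{u} par (db j)) : ∀ j, j < 67013 → GoodG.{u} par (db j) := by
  have h21151 := checkRangeG_sound parWF r2 pf21150 h21150
  have h21152 := checkRangeG_sound parWF r2 pf21151 h21151
  have h21153 := checkRangeG_sound parWF r2 pf21152 h21152
  have h21154 := checkRangeG_sound parWF r2 pf21153 h21153
  have h21155 := checkRangeG_sound parWF r2 pf21154 h21154
  have h21156 := checkRangeG_sound parWF r2 pf21155 h21155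
  have h21157 := checkRangeG_sound parWF r2 pf21156 h21156
  have h21158 := checkRangeG_sound parWF r2 pf21157 h21157
  have h21159 := checkRangeG_sound parWF r2 pf21158 h21158
  have h21160 := checkRangeG_sound parWF r2 pf21159 h21159
  have h21161 := checkRangeG_sound parWF r2 pf21160 h21160
  have h21162 := checkRangeG_sound parWF r2 pf21161 h21161
  have h21163 := checkRangeG_sound parWF r2 pf21162 h21162
  have h21164 := checkRangeG_sound parWF r2 pf21163 h21163
  have h21165 := checkRangeG_sound parWF r2 pf21164 h21164
  have h21166 := checkRangeG_sound parWF r2 pf21165 h21165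
  have h21167 := checkRangeG_sound parWF r2 pf21166 h21166
  have h21168 := checkRangeG_sound parWF r2 pf21167 h21167
  have h21169 := checkRangeG_sound parWF r2 pf21168 h21168
  have h21170 := checkRangeG_sound parWF r2 pf21169 h21169
  have h21171 := checkRangeG_sound parWF r2 pf21170 h21170
  have h21172 := checkRangeG_sound parWF r2 pf21171 h21171
  have h21173 := checkRangeG_sound parWF r2 pf21172 h21172
  have h21174 := checkRangeG_sound parWF r2 pf21173 h21173
  have h21175 := checkRangeG_sound parWF r2 pf21174 h21174
  have h21176 := checkRangeG_sound parWF r2 pf21175 h21175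
  have h21177 := checkRangeG_sound parWF r2 pf21176 h21176
  have h21178 := checkRangeG_sound parWF r2 pf21177 h21177
  have h21179 := checkRangeG_sound parWF r2 pf21178 h21178
  have h21180 := checkRangeG_sound parWF r2 pf21179 h21179
  have h21181 := checkRangeG_sound parWF r2 pf21180 h21180
  have h21182 := checkRangeG_sound parWF r2 pf21181 h21181
  have h21183 := checkRangeG_sound parWF r2 pf21182 h21182
  have h21184 := checkRangeG_sound parWF r2 pf21183 h21183
  have h21185 := checkRangeG_sound parWF r2 pf21184 h21184
  have h21186 := checkRangeG_sound parWF r2 pf21185 h21185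
  have h21187 := checkRangeG_sound parWF r2 pf21186 h21186
  have h21188 := checkRangeG_sound parWF r2 pf21187 h21187
  have h21189 := checkRangeG_sound parWF r2 pf21188 h21188
  have h21190 := checkRangeG_sound parWF r2 pf21189 h21189
  have h21191 := checkRangeG_sound parWF r2 pf21190 h21190
  have h21192 := checkRangeG_sound parWF r2 pf21191 h21191
  have h21193 := checkRangeG_sound parWF r2 pf21192 h21192
  have h21194 := checkRangeG_sound parWF r2 pf21193 h21193
  have h21195 := checkRangeG_sound parWF r2 pf21194 h21194
  have h21196 := checkRangeG_sound parWF r2 pf21195 h21195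
  have h21197 := checkRangeG_sound parWF r2 pf21196 h21196
  have h21198 := checkRangeG_sound parWF r2 pf21197 h21197
  have h21199 := checkRangeG_sound parWF r2 pf21198 h21198
  have h21200 := checkRangeG_sound parWF r2 pf21199 h21199
  exact h21200

theorem c424 (h21200 : ∀ j, j < 67013 → GoodG.{u} par (db j)) : ∀ j, j < 67201 → GoodG.{u} par (db j) := by
  have h21201 := checkRangeG_sound parWF r2 pf21200 h21200
  have h21202 := checkRangeG_sound parWF r2 pf21201 h21201
  have h21203 := checkRangeG_sound parWF r2 pf21202 h21202
  have h21204 := checkRangeG_sound parWF r2 pf21203 h21203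
  have h21205 := checkRangeG_sound parWF r2 pf21204 h21204
  have h21206 := checkRangeG_sound parWF r2 pf21205 h21205
  have h21207 := checkRangeG_sound parWF r2 pf21206 h21206
  have h21208 := checkRangeG_sound parWF r2 pf21207 h21207
  have h21209 := checkRangeG_sound parWF r2 pf21208 h21208
  have h21210 := checkRangeG_sound parWF r2 pf21209 h21209
  have h21211 := checkRangeG_sound parWF r2 pf21210 h21210
  have h21212 := checkRangeG_sound parWF r2 pf21211 h21211
  have h21213 := checkRangeG_sound parWF r2 pf21212 h21212
  have h21214 := checkRangeG_sound parWF r2 pf21213 h21213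
  have h21215 := checkRangeG_sound parWF r2 pf21214 h21214
  have h21216 := checkRangeG_sound parWF r2 pf21215 h21215
  have h21217 := checkRangeG_sound parWF r2 pf21216 h21216
  have h21218 := checkRangeG_sound parWF r2 pf21217 h21217
  have h21219 := checkRangeG_sound parWF r2 pf21218 h21218
  have h21220 := checkRangeG_sound parWF r2 pf21219 h21219
  have h21221 := checkRangeG_sound parWF r2 pf21220 h21220
  have h21222 := checkRangeG_sound parWF r2 pf21221 h21221
  have h21223 := checkRangeG_sound parWF r2 pf21222 h21222
  have h21224 := checkRangeG_sound parWF r2 pf21223 h21223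
  have h21225 := checkRangeG_sound parWF r2 pf21224 h21224
  have h21226 := checkRangeG_sound parWF r2 pf21225 h21225
  have h21227 := checkRangeG_sound parWF r2 pf21226 h21226
  have h21228 := checkRangeG_sound parWF r2 pf21227 h21227
  have h21229 := checkRangeG_sound parWF r2 pf21228 h21228
  have h21230 := checkRangeG_sound parWF r2 pf21229 h21229
  have h21231 := checkRangeG_sound parWF r2 pf21230 h21230
  have h21232 := checkRangeG_sound parWF r2 pf21231 h21231
  have h21233 := checkRangeG_sound parWF r2 pf21232 h21232
  have h21234 := checkRangeG_sound parWF r2 pf21233 h21233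
  have h21235 := checkRangeG_sound parWF r2 pf21234 h21234
  have h21236 := checkRangeG_sound parWF r2 pf21235 h21235
  have h21237 := checkRangeG_sound parWF r2 pf21236 h21236
  have h21238 := checkRangeG_sound parWF r2 pf21237 h21237
  have h21239 := checkRangeG_sound parWF r2 pf21238 h21238
  have h21240 := checkRangeG_sound parWF r2 pf21239 h21239
  have h21241 := checkRangeG_sound parWF r2 pf21240 h21240
  have h21242 := checkRangeG_sound parWF r2 pf21241 h21241
  have h21243 := checkRangeG_sound parWF r2 pf21242 h21242
  have h21244 := checkRangeG_sound parWF r2 pf21243 h21243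
  have h21245 := checkRangeG_sound parWF r2 pf21244 h21244
  have h21246 := checkRangeG_sound parWF r2 pf21245 h21245
  have h21247 := checkRangeG_sound parWF r2 pf21246 h21246
  have h21248 := checkRangeG_sound parWF r2 pf21247 h21247
  have h21249 := checkRangeG_sound parWF r2 pf21248 h21248
  have h21250 := checkRangeG_sound parWF r2 pf21249 h21249
  exact h21250

theorem c425 (h21250 : ∀ j, j < 67201 → GoodG.{u} par (db j)) : ∀ j, j < 67402 → GoodG.{u} par (db j) := by
  have h21251 := checkRangeG_sound parWF r2 pf21250 h21250
  have h21252 := checkRangeG_sound parWF r2 pf21251 h21251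
  have h21253 := checkRangeG_sound parWF r2 pf21252 h21252
  have h21254 := checkRangeG_sound parWF r2 pf21253 h21253
  have h21255 := checkRangeG_sound parWF r2 pf21254 h21254
  have h21256 := checkRangeG_sound parWF r2 pf21255 h21255
  have h21257 := checkRangeG_sound parWF r2 pf21256 h21256
  have h21258 := checkRangeG_sound parWF r2 pf21257 h21257
  have h21259 := checkRangeG_sound parWF r2 pf21258 h21258
  have h21260 := checkRangeG_sound parWF r2 pf21259 h21259
  have h21261 := checkRangeG_sound parWF r2 pf21260 h21260
  have h21262 := checkRangeG_sound parWF r2 pf21261 h21261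
  have h21263 := checkRangeG_sound parWF r2 pf21262 h21262
  have h21264 := checkRangeG_sound parWF r2 pf21263 h21263
  have h21265 := checkRangeG_sound parWF r2 pf21264 h21264
  have h21266 := checkRangeG_sound parWF r2 pf21265 h21265
  have h21267 := checkRangeG_sound parWF r2 pf21266 h21266
  have h21268 := checkRangeG_sound parWF r2 pf21267 h21267
  have h21269 := checkRangeG_sound parWF r2 pf21268 h21268
  have h21270 := checkRangeG_sound parWF r2 pf21269 h21269
  have h21271 := checkRangeG_sound parWF r2 pf21270 h21270
  have h21272 := checkRangeG_sound parWF r2 pf21271 h21271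
  have h21273 := checkRangeG_sound parWF r2 pf21272 h21272
  have h21274 := checkRangeG_sound parWF r2 pf21273 h21273
  have h21275 := checkRangeG_sound parWF r2 pf21274 h21274
  have h21276 := checkRangeG_sound parWF r2 pf21275 h21275
  have h21277 := checkRangeG_sound parWF r2 pf21276 h21276
  have h21278 := checkRangeG_sound parWF r2 pf21277 h21277
  have h21279 := checkRangeG_sound parWF r2 pf21278 h21278
  have h21280 := checkRangeG_sound parWF r2 pf21279 h21279
  have h21281 := checkRangeG_sound parWF r2 pf21280 h21280
  have h21282 := checkRangeG_sound parWF r2 pf21281 h21281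
  have h21283 := checkRangeG_sound parWF r2 pf21282 h21282
  have h21284 := checkRangeG_sound parWF r2 pf21283 h21283
  have h21285 := checkRangeG_sound parWF r2 pf21284 h21284
  have h21286 := checkRangeG_sound parWF r2 pf21285 h21285
  have h21287 := checkRangeG_sound parWF r2 pf21286 h21286
  have h21288 := checkRangeG_sound parWF r2 pf21287 h21287
  have h21289 := checkRangeG_sound parWF r2 pf21288 h21288
  have h21290 := checkRangeG_sound parWF r2 pf21289 h21289
  have h21291 := checkRangeG_sound parWF r2 pf21290 h21290
  have h21292 := checkRangeG_sound parWF r2 pf21291 h21291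
  have h21293 := checkRangeG_sound parWF r2 pf21292 h21292
  have h21294 := checkRangeG_sound parWF r2 pf21293 h21293
  have h21295 := checkRangeG_sound parWF r2 pf21294 h21294
  have h21296 := checkRangeG_sound parWF r2 pf21295 h21295
  have h21297 := checkRangeG_sound parWF r2 pf21296 h21296
  have h21298 := checkRangeG_sound parWF r2 pf21297 h21297
  have h21299 := checkRangeG_sound parWF r2 pf21298 h21298
  have h21300 := checkRangeG_sound parWF r2 pf21299 h21299
  exact h21300

theorem c426 (h21300 : ∀ j, j < 67402 → GoodG.{u} par (db j)) : ∀ j, j < 67581 → GoodG.{u} par (db j) := by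
  have h21301 := checkRangeG_sound parWF r2 pf21300 h21300
  have h21302 := checkRangeG_sound parWF r2 pf21301 h21301
  have h21303 := checkRangeG_sound parWF r2 pf21302 h21302
  have h21304 := checkRangeG_sound parWF r2 pf21303 h21303
  have h21305 := checkRangeG_sound parWF r2 pf21304 h21304
  have h21306 := checkRangeG_sound parWF r2 pf21305 h21305
  have h21307 := checkRangeG_sound parWF r2 pf21306 h21306
  have h21308 := checkRangeG_sound parWF r2 pf21307 h21307
  have h21309 := checkRangeG_sound parWF r2 pf21308 h21308
  have h21310 := checkRangeG_sound parWF r2 pf21309 h21309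
  have h21311 := checkRangeG_sound parWF r2 pf21310 h21310
  have h21312 := checkRangeG_sound parWF r2 pf21311 h21311
  have h21313 := checkRangeG_sound parWF r2 pf21312 h21312
  have h21314 := checkRangeG_sound parWF r2 pf21313 h21313
  have h21315 := checkRangeG_sound parWF r2 pf21314 h21314
  have h21316 := checkRangeG_sound parWF r2 pf21315 h21315
  have h21317 := checkRangeG_sound parWF r2 pf21316 h21316
  have h21318 := checkRangeG_sound parWF r2 pf21317 h21317
  have h21319 := checkRangeG_sound parWF r2 pf21318 h21318
  have h21320 := checkRangeG_sound parWF r2 pf21319 h21319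
  have h21321 := checkRangeG_sound parWF r2 pf21320 h21320
  have h21322 := checkRangeG_sound parWF r2 pf21321 h21321
  have h21323 := checkRangeG_sound parWF r2 pf21322 h21322
  have h21324 := checkRangeG_sound parWF r2 pf21323 h21323
  have h21325 := checkRangeG_sound parWF r2 pf21324 h21324
  have h21326 := checkRangeG_sound parWF r2 pf21325 h21325
  have h21327 := checkRangeG_sound parWF r2 pf21326 h21326
  have h21328 := checkRangeG_sound parWF r2 pf21327 h21327
  have h21329 := checkRangeG_sound parWF r2 pf21328 h21328
  have h21330 := checkRangeG_sound parWF r2 pf21329 h21329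
  have h21331 := checkRangeG_sound parWF r2 pf21330 h21330
  have h21332 := checkRangeG_sound parWF r2 pf21331 h21331
  have h21333 := checkRangeG_sound parWF r2 pf21332 h21332
  have h21334 := checkRangeG_sound parWF r2 pf21333 h21333
  have h21335 := checkRangeG_sound parWF r2 pf21334 h21334
  have h21336 := checkRangeG_sound parWF r2 pf21335 h21335
  have h21337 := checkRangeG_sound parWF r2 pf21336 h21336
  have h21338 := checkRangeG_sound parWF r2 pf21337 h21337
  have h21339 := checkRangeG_sound parWF r2 pf21338 h21338
  have h21340 := checkRangeG_sound parWF r2 pf21339 h21339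
  have h21341 := checkRangeG_sound parWF r2 pf21340 h21340
  have h21342 := checkRangeG_sound parWF r2 pf21341 h21341
  have h21343 := checkRangeG_sound parWF r2 pf21342 h21342
  have h21344 := checkRangeG_sound parWF r2 pf21343 h21343
  have h21345 := checkRangeG_sound parWF r2 pf21344 h21344
  have h21346 := checkRangeG_sound parWF r2 pf21345 h21345
  have h21347 := checkRangeG_sound parWF r2 pf21346 h21346
  have h21348 := checkRangeG_sound parWF r2 pf21347 h21347
  have h21349 := checkRangeG_sound parWF r2 pf21348 h21348
  have h21350 := checkRangeG_sound parWF r2 pf21349 h21349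
  exact h21350

theorem c427 (h21350 : ∀ j, j < 67581 → GoodG.{u} par (db j)) : ∀ j, j < 67760 → GoodG.{u} par (db j) := by
  have h21351 := checkRangeG_sound parWF r2 pf21350 h21350
  have h21352 := checkRangeG_sound parWF r2 pf21351 h21351
  have h21353 := checkRangeG_sound parWF r2 pf21352 h21352
  have h21354 := checkRangeG_sound parWF r2 pf21353 h21353
  have h21355 := checkRangeG_sound parWF r2 pf21354 h21354
  have h21356 := checkRangeG_sound parWF r2 pf21355 h21355
  have h21357 := checkRangeG_sound parWF r2 pf21356 h21356
  have h21358 := checkRangeG_sound parWF r2 pf21357 h21357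
  have h21359 := checkRangeG_sound parWF r2 pf21358 h21358
  have h21360 := checkRangeG_sound parWF r2 pf21359 h21359
  have h21361 := checkRangeG_sound parWF r2 pf21360 h21360
  have h21362 := checkRangeG_sound parWF r2 pf21361 h21361
  have h21363 := checkRangeG_sound parWF r2 pf21362 h21362
  have h21364 := checkRangeG_sound parWF r2 pf21363 h21363
  have h21365 := checkRangeG_sound parWF r2 pf21364 h21364
  have h21366 := checkRangeG_sound parWF r2 pf21365 h21365
  have h21367 := checkRangeG_sound parWF r2 pf21366 h21366
  have h21368 := checkRangeG_sound parWF r2 pf21367 h21367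
  have h21369 := checkRangeG_sound parWF r2 pf21368 h21368
  have h21370 := checkRangeG_sound parWF r2 pf21369 h21369
  have h21371 := checkRangeG_sound parWF r2 pf21370 h21370
  have h21372 := checkRangeG_sound parWF r2 pf21371 h21371
  have h21373 := checkRangeG_sound parWF r2 pf21372 h21372
  have h21374 := checkRangeG_sound parWF r2 pf21373 h21373
  have h21375 := checkRangeG_sound parWF r2 pf21374 h21374
  have h21376 := checkRangeG_sound parWF r2 pf21375 h21375
  have h21377 := checkRangeG_sound parWF r2 pf21376 h21376
  have h21378 := checkRangeG_sound parWF r2 pf21377 h21377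
  have h21379 := checkRangeG_sound parWF r2 pf21378 h21378
  have h21380 := checkRangeG_sound parWF r2 pf21379 h21379
  have h21381 := checkRangeG_sound parWF r2 pf21380 h21380
  have h21382 := checkRangeG_sound parWF r2 pf21381 h21381
  have h21383 := checkRangeG_sound parWF r2 pf21382 h21382
  have h21384 := checkRangeG_sound parWF r2 pf21383 h21383
  have h21385 := checkRangeG_sound parWF r2 pf21384 h21384
  have h21386 := checkRangeG_sound parWF r2 pf21385 h21385
  have h21387 := checkRangeG_sound parWF r2 pf21386 h21386
  have h21388 := checkRangeG_sound parWF r2 pf21387 h21387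
  have h21389 := checkRangeG_sound parWF r2 pf21388 h21388
  have h21390 := checkRangeG_sound parWF r2 pf21389 h21389
  have h21391 := checkRangeG_sound parWF r2 pf21390 h21390
  have h21392 := checkRangeG_sound parWF r2 pf21391 h21391
  have h21393 := checkRangeG_sound parWF r2 pf21392 h21392
  have h21394 := checkRangeG_sound parWF r2 pf21393 h21393
  have h21395 := checkRangeG_sound parWF r2 pf21394 h21394
  have h21396 := checkRangeG_sound parWF r2 pf21395 h21395
  have h21397 := checkRangeG_sound parWF r2 pf21396 h21396
  have h21398 := checkRangeG_sound parWF r2 pf21397 h21397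
  have h21399 := checkRangeG_sound parWF r2 pf21398 h21398
  have h21400 := checkRangeG_sound parWF r2 pf21399 h21399
  exact h21400

theorem c428 (h21400 : ∀ j, j < 67760 → GoodG.{u} par (db j)) : ∀ j, j < 67934 → GoodG.{u} par (db j) := by
  have h21401 := checkRangeG_sound parWF r2 pf21400 h21400
  have h21402 := checkRangeG_sound parWF r2 pf21401 h21401
  have h21403 := checkRangeG_sound parWF r2 pf21402 h21402
  have h21404 := checkRangeG_sound parWF r2 pf21403 h21403
  have h21405 := checkRangeG_sound parWF r2 pf21404 h21404
  have h21406 := checkRangeG_sound parWF r2 pf21405 h21405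
  have h21407 := checkRangeG_sound parWF r2 pf21406 h21406
  have h21408 := checkRangeG_sound parWF r2 pf21407 h21407
  have h21409 := checkRangeG_sound parWF r2 pf21408 h21408
  have h21410 := checkRangeG_sound parWF r2 pf21409 h21409
  have h21411 := checkRangeG_sound parWF r2 pf21410 h21410
  have h21412 := checkRangeG_sound parWF r2 pf21411 h21411
  have h21413 := checkRangeG_sound parWF r2 pf21412 h21412
  have h21414 := checkRangeG_sound parWF r2 pf21413 h21413
  have h21415 := checkRangeG_sound parWF r2 pf21414 h21414
  have h21416 := checkRangeG_sound parWF r2 pf21415 h21415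
  have h21417 := checkRangeG_sound parWF r2 pf21416 h21416
  have h21418 := checkRangeG_sound parWF r2 pf21417 h21417
  have h21419 := checkRangeG_sound parWF r2 pf21418 h21418
  have h21420 := checkRangeG_sound parWF r2 pf21419 h21419
  have h21421 := checkRangeG_sound parWF r2 pf21420 h21420
  have h21422 := checkRangeG_sound parWF r2 pf21421 h21421
  have h21423 := checkRangeG_sound parWF r2 pf21422 h21422
  have h21424 := checkRangeG_sound parWF r2 pf21423 h21423
  have h21425 := checkRangeG_sound parWF r2 pf21424 h21424
  have h21426 := checkRangeG_sound parWF r2 pf21425 h21425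
  have h21427 := checkRangeG_sound parWF r2 pf21426 h21426
  have h21428 := checkRangeG_sound parWF r2 pf21427 h21427
  have h21429 := checkRangeG_sound parWF r2 pf21428 h21428
  have h21430 := checkRangeG_sound parWF r2 pf21429 h21429
  have h21431 := checkRangeG_sound parWF r2 pf21430 h21430
  have h21432 := checkRangeG_sound parWF r2 pf21431 h21431
  have h21433 := checkRangeG_sound parWF r2 pf21432 h21432
  have h21434 := checkRangeG_sound parWF r2 pf21433 h21433
  have h21435 := checkRangeG_sound parWF r2 pf21434 h21434
  have h21436 := checkRangeG_sound parWF r2 pf21435 h21435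
  have h21437 := checkRangeG_sound parWF r2 pf21436 h21436
  have h21438 := checkRangeG_sound parWF r2 pf21437 h21437
  have h21439 := checkRangeG_sound parWF r2 pf21438 h21438
  have h21440 := checkRangeG_sound parWF r2 pf21439 h21439
  have h21441 := checkRangeG_sound parWF r2 pf21440 h21440
  have h21442 := checkRangeG_sound parWF r2 pf21441 h21441
  have h21443 := checkRangeG_sound parWF r2 pf21442 h21442
  have h21444 := checkRangeG_sound parWF r2 pf21443 h21443
  have h21445 := checkRangeG_sound parWF r2 pf21444 h21444
  have h21446 := checkRangeG_sound parWF r2 pf21445 h21445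
  have h21447 := checkRangeG_sound parWF r2 pf21446 h21446
  have h21448 := checkRangeG_sound parWF r2 pf21447 h21447
  have h21449 := checkRangeG_sound parWF r2 pf21448 h21448
  have h21450 := checkRangeG_sound parWF r2 pf21449 h21449
  exact h21450

theorem c429 (h21450 : ∀ j, j < 67934 → GoodG.{u} par (db j)) : ∀ j, j < 68097 → GoodG.{u} par (db j) := by
  have h21451 := checkRangeG_sound parWF r2 pf21450 h21450
  have h21452 := checkRangeG_sound parWF r2 pf21451 h21451
  have h21453 := checkRangeG_sound parWF r2 pf21452 h21452
  have h21454 := checkRangeG_sound parWF r2 pf21453 h21453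
  have h21455 := checkRangeG_sound parWF r2 pf21454 h21454
  have h21456 := checkRangeG_sound parWF r2 pf21455 h21455
  have h21457 := checkRangeG_sound parWF r2 pf21456 h21456
  have h21458 := checkRangeG_sound parWF r2 pf21457 h21457
  have h21459 := checkRangeG_sound parWF r2 pf21458 h21458
  have h21460 := checkRangeG_sound parWF r2 pf21459 h21459
  have h21461 := checkRangeG_sound parWF r2 pf21460 h21460
  have h21462 := checkRangeG_sound parWF r2 pf21461 h21461
  have h21463 := checkRangeG_sound parWF r2 pf21462 h21462
  have h21464 := checkRangeG_sound parWF r2 pf21463 h21463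
  have h21465 := checkRangeG_sound parWF r2 pf21464 h21464
  have h21466 := checkRangeG_sound parWF r2 pf21465 h21465
  have h21467 := checkRangeG_sound parWF r2 pf21466 h21466
  have h21468 := checkRangeG_sound parWF r2 pf21467 h21467
  have h21469 := checkRangeG_sound parWF r2 pf21468 h21468
  have h21470 := checkRangeG_sound parWF r2 pf21469 h21469
  have h21471 := checkRangeG_sound parWF r2 pf21470 h21470
  have h21472 := checkRangeG_sound parWF r2 pf21471 h21471
  have h21473 := checkRangeG_sound parWF r2 pf21472 h21472
  have h21474 := checkRangeG_sound parWF r2 pf21473 h21473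
  have h21475 := checkRangeG_sound parWF r2 pf21474 h21474
  have h21476 := checkRangeG_sound parWF r2 pf21475 h21475
  have h21477 := checkRangeG_sound parWF r2 pf21476 h21476
  have h21478 := checkRangeG_sound parWF r2 pf21477 h21477
  have h21479 := checkRangeG_sound parWF r2 pf21478 h21478
  have h21480 := checkRangeG_sound parWF r2 pf21479 h21479
  have h21481 := checkRangeG_sound parWF r2 pf21480 h21480
  have h21482 := checkRangeG_sound parWF r2 pf21481 h21481
  have h21483 := checkRangeG_sound parWF r2 pf21482 h21482
  have h21484 := checkRangeG_sound parWF r2 pf21483 h21483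
  have h21485 := checkRangeG_sound parWF r2 pf21484 h21484
  have h21486 := checkRangeG_sound parWF r2 pf21485 h21485
  have h21487 := checkRangeG_sound parWF r2 pf21486 h21486
  have h21488 := checkRangeG_sound parWF r2 pf21487 h21487
  have h21489 := checkRangeG_sound parWF r2 pf21488 h21488
  have h21490 := checkRangeG_sound parWF r2 pf21489 h21489
  have h21491 := checkRangeG_sound parWF r2 pf21490 h21490
  have h21492 := checkRangeG_sound parWF r2 pf21491 h21491
  have h21493 := checkRangeG_sound parWF r2 pf21492 h21492
  have h21494 := checkRangeG_sound parWF r2 pf21493 h21493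
  have h21495 := checkRangeG_sound parWF r2 pf21494 h21494
  have h21496 := checkRangeG_sound parWF r2 pf21495 h21495
  have h21497 := checkRangeG_sound parWF r2 pf21496 h21496
  have h21498 := checkRangeG_sound parWF r2 pf21497 h21497
  have h21499 := checkRangeG_sound parWF r2 pf21498 h21498
  have h21500 := checkRangeG_sound parWF r2 pf21499 h21499
  exact h21500

theorem c430 (h21500 : ∀ j, j < 68097 → GoodG.{u} par (db j)) : ∀ j, j < 68239 → GoodG.{u} par (db j) := by
  have h21501 := checkRangeG_sound parWF r2 pf21500 h21500
  have h21502 := checkRangeG_sound parWF r2 pf21501 h21501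
  have h21503 := checkRangeG_sound parWF r2 pf21502 h21502
  have h21504 := checkRangeG_sound parWF r2 pf21503 h21503
  have h21505 := checkRangeG_sound parWF r2 pf21504 h21504
  have h21506 := checkRangeG_sound parWF r2 pf21505 h21505
  have h21507 := checkRangeG_sound parWF r2 pf21506 h21506
  have h21508 := checkRangeG_sound parWF r2 pf21507 h21507
  have h21509 := checkRangeG_sound parWF r2 pf21508 h21508
  have h21510 := checkRangeG_sound parWF r2 pf21509 h21509
  have h21511 := checkRangeG_sound parWF r2 pf21510 h21510
  have h21512 := checkRangeG_sound parWF r2 pf21511 h21511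
  have h21513 := checkRangeG_sound parWF r2 pf21512 h21512
  have h21514 := checkRangeG_sound parWF r2 pf21513 h21513
  have h21515 := checkRangeG_sound parWF r2 pf21514 h21514
  have h21516 := checkRangeG_sound parWF r2 pf21515 h21515
  have h21517 := checkRangeG_sound parWF r2 pf21516 h21516
  have h21518 := checkRangeG_sound parWF r2 pf21517 h21517
  have h21519 := checkRangeG_sound parWF r2 pf21518 h21518
  have h21520 := checkRangeG_sound parWF r2 pf21519 h21519
  have h21521 := checkRangeG_sound parWF r2 pf21520 h21520
  have h21522 := checkRangeG_sound parWF r2 pf21521 h21521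
  have h21523 := checkRangeG_sound parWF r2 pf21522 h21522
  have h21524 := checkRangeG_sound parWF r2 pf21523 h21523
  have h21525 := checkRangeG_sound parWF r2 pf21524 h21524
  have h21526 := checkRangeG_sound parWF r2 pf21525 h21525
  have h21527 := checkRangeG_sound parWF r2 pf21526 h21526
  have h21528 := checkRangeG_sound parWF r2 pf21527 h21527
  have h21529 := checkRangeG_sound parWF r2 pf21528 h21528
  have h21530 := checkRangeG_sound parWF r2 pf21529 h21529
  have h21531 := checkRangeG_sound parWF r2 pf21530 h21530
  have h21532 := checkRangeG_sound parWF r2 pf21531 h21531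
  have h21533 := checkRangeG_sound parWF r2 pf21532 h21532
  have h21534 := checkRangeG_sound parWF r2 pf21533 h21533
  have h21535 := checkRangeG_sound parWF r2 pf21534 h21534
  have h21536 := checkRangeG_sound parWF r2 pf21535 h21535
  have h21537 := checkRangeG_sound parWF r2 pf21536 h21536
  have h21538 := checkRangeG_sound parWF r2 pf21537 h21537
  have h21539 := checkRangeG_sound parWF r2 pf21538 h21538
  have h21540 := checkRangeG_sound parWF r2 pf21539 h21539
  have h21541 := checkRangeG_sound parWF r2 pf21540 h21540
  have h21542 := checkRangeG_sound parWF r2 pf21541 h21541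
  have h21543 := checkRangeG_sound parWF r2 pf21542 h21542
  have h21544 := checkRangeG_sound parWF r2 pf21543 h21543
  have h21545 := checkRangeG_sound parWF r2 pf21544 h21544
  have h21546 := checkRangeG_sound parWF r2 pf21545 h21545
  have h21547 := checkRangeG_sound parWF r2 pf21546 h21546
  have h21548 := checkRangeG_sound parWF r2 pf21547 h21547
  have h21549 := checkRangeG_sound parWF r2 pf21548 h21548
  have h21550 := checkRangeG_sound parWF r2 pf21549 h21549
  exact h21550

theorem c431 (h21550 : ∀ j, j < 68239 → GoodG.{u} par (db j)) : ∀ j, j < 68382 → GoodG.{u} par (db j) := by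
  have h21551 := checkRangeG_sound parWF r2 pf21550 h21550
  have h21552 := checkRangeG_sound parWF r2 pf21551 h21551
  have h21553 := checkRangeG_sound parWF r2 pf21552 h21552
  have h21554 := checkRangeG_sound parWF r2 pf21553 h21553
  have h21555 := checkRangeG_sound parWF r2 pf21554 h21554
  have h21556 := checkRangeG_sound parWF r2 pf21555 h21555
  have h21557 := checkRangeG_sound parWF r2 pf21556 h21556
  have h21558 := checkRangeG_sound parWF r2 pf21557 h21557
  have h21559 := checkRangeG_sound parWF r2 pf21558 h21558
  have h21560 := checkRangeG_sound parWF r2 pf21559 h21559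
  have h21561 := checkRangeG_sound parWF r2 pf21560 h21560
  have h21562 := checkRangeG_sound parWF r2 pf21561 h21561
  have h21563 := checkRangeG_sound parWF r2 pf21562 h21562
  have h21564 := checkRangeG_sound parWF r2 pf21563 h21563
  have h21565 := checkRangeG_sound parWF r2 pf21564 h21564
  have h21566 := checkRangeG_sound parWF r2 pf21565 h21565
  have h21567 := checkRangeG_sound parWF r2 pf21566 h21566
  have h21568 := checkRangeG_sound parWF r2 pf21567 h21567
  have h21569 := checkRangeG_sound parWF r2 pf21568 h21568
  have h21570 := checkRangeG_sound parWF r2 pf21569 h21569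
  have h21571 := checkRangeG_sound parWF r2 pf21570 h21570
  have h21572 := checkRangeG_sound parWF r2 pf21571 h21571
  have h21573 := checkRangeG_sound parWF r2 pf21572 h21572
  have h21574 := checkRangeG_sound parWF r2 pf21573 h21573
  have h21575 := checkRangeG_sound parWF r2 pf21574 h21574
  have h21576 := checkRangeG_sound parWF r2 pf21575 h21575
  have h21577 := checkRangeG_sound parWF r2 pf21576 h21576
  have h21578 := checkRangeG_sound parWF r2 pf21577 h21577
  have h21579 := checkRangeG_sound parWF r2 pf21578 h21578
  have h21580 := checkRangeG_sound parWF r2 pf21579 h21579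
  have h21581 := checkRangeG_sound parWF r2 pf21580 h21580
  have h21582 := checkRangeG_sound parWF r2 pf21581 h21581
  have h21583 := checkRangeG_sound parWF r2 pf21582 h21582
  have h21584 := checkRangeG_sound parWF r2 pf21583 h21583
  have h21585 := checkRangeG_sound parWF r2 pf21584 h21584
  have h21586 := checkRangeG_sound parWF r2 pf21585 h21585
  have h21587 := checkRangeG_sound parWF r2 pf21586 h21586
  have h21588 := checkRangeG_sound parWF r2 pf21587 h21587
  have h21589 := checkRangeG_sound parWF r2 pf21588 h21588
  have h21590 := checkRangeG_sound parWF r2 pf21589 h21589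
  have h21591 := checkRangeG_sound parWF r2 pf21590 h21590
  have h21592 := checkRangeG_sound parWF r2 pf21591 h21591
  have h21593 := checkRangeG_sound parWF r2 pf21592 h21592
  have h21594 := checkRangeG_sound parWF r2 pf21593 h21593
  have h21595 := checkRangeG_sound parWF r2 pf21594 h21594
  have h21596 := checkRangeG_sound parWF r2 pf21595 h21595
  have h21597 := checkRangeG_sound parWF r2 pf21596 h21596
  have h21598 := checkRangeG_sound parWF r2 pf21597 h21597
  have h21599 := checkRangeG_sound parWF r2 pf21598 h21598
  have h21600 := checkRangeG_sound parWF r2 pf21599 h21599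
  exact h21600


end Vale.Agent.P045g.C61
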