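import Vale.Agent.P045g.C61.WF
import Vale.Agent.P045g.C61.Pf360
import Vale.Agent.P045g.C61.Pf361
import Vale.Agent.P045g.C61.Pf362
import Vale.Agent.P045g.C61.Pf363
import Vale.Agent.P045g.C61.Pf364
import Vale.Agent.P045g.C61.Pf365
import Vale.Agent.P045g.C61.Pf366
import Vale.Agent.P045g.C61.Pf367
import Vale.Agent.P045g.C61.Pf368
import Vale.Agent.P045g.C61.Pf369

namespace Vale.Agent.P045g.C61

open Vale.Agent.P045b Vale.Agent.P045g

universe u

theorem c432 (h21600 : ∀ j, j < 68382 → GoodG.{u} par (db j)) : ∀ j, j < 68536 → GoodG.{u} par (db j) := by
  have h21601 := checkRangeG_sound parWF r2 pf21600 h21600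
  have h21602 := checkRangeG_sound parWF r2 pf21601 h21601
  have h21603 := checkRangeG_sound parWF r2 pf21602 h21602
  have h21604 := checkRangeG_sound parWF r2 pf21603 h21603
  have h21605 := checkRangeG_sound parWF r2 pf21604 h21604
  have h21606 := checkRangeG_sound parWF r2 pf21605 h21605
  have h21607 := checkRangeG_sound parWF r2 pf21606 h21606
  have h21608 := checkRangeG_sound parWF r2 pf21607 h21607
  have h21609 := checkRangeG_sound parWF r2 pf21608 h21608
  have h21610 := checkRangeG_sound parWF r2 pf21609 h21609
  have h21611 := checkRangeG_sound parWF r2 pf21610 h21610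
  have h21612 := checkRangeG_sound parWF r2 pf21611 h21611
  have h21613 := checkRangeG_sound parWF r2 pf21612 h21612
  have h21614 := checkRangeG_sound parWF r2 pf21613 h21613
  have h21615 := checkRangeG_sound parWF r2 pf21614 h21614
  have h21616 := checkRangeG_sound parWF r2 pf21615 h21615
  have h21617 := checkRangeG_sound parWF r2 pf21616 h21616
  have h21618 := checkRangeG_sound parWF r2 pf21617 h21617
  have h21619 := checkRangeG_sound parWF r2 pf21618 h21618
  have h21620 := checkRangeG_sound parWF r2 pf21619 h21619
  have h21621 := checkRangeG_sound parWF r2 pf21620 h21620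
  have h21622 := checkRangeG_sound parWF r2 pf21621 h21621
  have h21623 := checkRangeG_sound parWF r2 pf21622 h21622
  have h21624 := checkRangeG_sound parWF r2 pf21623 h21623
  have h21625 := checkRangeG_sound parWF r2 pf21624 h21624
  have h21626 := checkRangeG_sound parWF r2 pf21625 h21625
  have h21627 := checkRangeG_sound parWF r2 pf21626 h21626
  have h21628 := checkRangeG_sound parWF r2 pf21627 h21627
  have h21629 := checkRangeG_sound parWF r2 pf21628 h21628
  have h21630 := checkRangeG_sound parWF r2 pf21629 h21629
  have h21631 := checkRangeG_sound parWF r2 pf21630 h21630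
  have h21632 := checkRangeG_sound parWF r2 pf21631 h21631
  have h21633 := checkRangeG_sound parWF r2 pf21632 h21632
  have h21634 := checkRangeG_sound parWF r2 pf21633 h21633
  have h21635 := checkRangeG_sound parWF r2 pf21634 h21634
  have h21636 := checkRangeG_sound parWF r2 pf21635 h21635
  have h21637 := checkRangeG_sound parWF r2 pf21636 h21636
  have h21638 := checkRangeG_sound parWF r2 pf21637 h21637
  have h21639 := checkRangeG_sound parWF r2 pf21638 h21638
  have h21640 := checkRangeG_sound parWF r2 pf21639 h21639
  have h21641 := checkRangeG_sound parWF r2 pf21640 h21640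
  have h21642 := checkRangeG_sound parWF r2 pf21641 h21641
  have h21643 := checkRangeG_sound parWF r2 pf21642 h21642
  have h21644 := checkRangeG_sound parWF r2 pf21643 h21643
  have h21645 := checkRangeG_sound parWF r2 pf21644 h21644
  have h21646 := checkRangeG_sound parWF r2 pf21645 h21645
  have h21647 := checkRangeG_sound parWF r2 pf21646 h21646
  have h21648 := checkRangeG_sound parWF r2 pf21647 h21647
  have h21649 := checkRangeG_sound parWF r2 pf21648 h21648
  have h21650 := checkRangeG_sound parWF r2 pf21649 h21649
  exact h21650

theorem c433 (h21650 : ∀ j, j < 68536 → GoodG.{u} par (db j)) : ∀ j, j < 68694 → GoodG.{u} par (db j) := by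
  have h21651 := checkRangeG_sound parWF r2 pf21650 h21650
  have h21652 := checkRangeG_sound parWF r2 pf21651 h21651
  have h21653 := checkRangeG_sound parWF r2 pf21652 h21652
  have h21654 := checkRangeG_sound parWF r2 pf21653 h21653
  have h21655 := checkRangeG_sound parWF r2 pf21654 h21654
  have h21656 := checkRangeG_sound parWF r2 pf21655 h21655
  have h21657 := checkRangeG_sound parWF r2 pf21656 h21656
  have h21658 := checkRangeG_sound parWF r2 pf21657 h21657
  have h21659 := checkRangeG_sound parWF r2 pf21658 h21658
  have h21660 := checkRangeG_sound parWF r2 pf21659 h21659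
  have h21661 := checkRangeG_sound parWF r2 pf21660 h21660
  have h21662 := checkRangeG_sound parWF r2 pf21661 h21661
  have h21663 := checkRangeG_sound parWF r2 pf21662 h21662
  have h21664 := checkRangeG_sound parWF r2 pf21663 h21663
  have h21665 := checkRangeG_sound parWF r2 pf21664 h21664
  have h21666 := checkRangeG_sound parWF r2 pf21665 h21665
  have h21667 := checkRangeG_sound parWF r2 pf21666 h21666
  have h21668 := checkRangeG_sound parWF r2 pf21667 h21667
  have h21669 := checkRangeG_sound parWF r2 pf21668 h21668
  have h21670 := checkRangeG_sound parWF r2 pf21669 h21669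
  have h21671 := checkRangeG_sound parWF r2 pf21670 h21670
  have h21672 := checkRangeG_sound parWF r2 pf21671 h21671
  have h21673 := checkRangeG_sound parWF r2 pf21672 h21672
  have h21674 := checkRangeG_sound parWF r2 pf21673 h21673
  have h21675 := checkRangeG_sound parWF r2 pf21674 h21674
  have h21676 := checkRangeG_sound parWF r2 pf21675 h21675
  have h21677 := checkRangeG_sound parWF r2 pf21676 h21676
  have h21678 := checkRangeG_sound parWF r2 pf21677 h21677
  have h21679 := checkRangeG_sound parWF r2 pf21678 h21678
  have h21680 := checkRangeG_sound parWF r2 pf21679 h21679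
  have h21681 := checkRangeG_sound parWF r2 pf21680 h21680
  have h21682 := checkRangeG_sound parWF r2 pf21681 h21681
  have h21683 := checkRangeG_sound parWF r2 pf21682 h21682
  have h21684 := checkRangeG_sound parWF r2 pf21683 h21683
  have h21685 := checkRangeG_sound parWF r2 pf21684 h21684
  have h21686 := checkRangeG_sound parWF r2 pf21685 h21685
  have h21687 := checkRangeG_sound parWF r2 pf21686 h21686
  have h21688 := checkRangeG_sound parWF r2 pf21687 h21687
  have h21689 := checkRangeG_sound parWF r2 pf21688 h21688
  have h21690 := checkRangeG_sound parWF r2 pf21689 h21689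
  have h21691 := checkRangeG_sound parWF r2 pf21690 h21690
  have h21692 := checkRangeG_sound parWF r2 pf21691 h21691
  have h21693 := checkRangeG_sound parWF r2 pf21692 h21692
  have h21694 := checkRangeG_sound parWF r2 pf21693 h21693
  have h21695 := checkRangeG_sound parWF r2 pf21694 h21694
  have h21696 := checkRangeG_sound parWF r2 pf21695 h21695
  have h21697 := checkRangeG_sound parWF r2 pf21696 h21696
  have h21698 := checkRangeG_sound parWF r2 pf21697 h21697
  have h21699 := checkRangeG_sound parWF r2 pf21698 h21698
  have h21700 := checkRangeG_sound parWF r2 pf21699 h21699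
  exact h21700

theorem c434 (h21700 : ∀ j, j < 68694 → GoodG.{u} par (db j)) : ∀ j, j < 68849 → GoodG.{u} par (db j) := by
  have h21701 := checkRangeG_sound parWF r2 pf21700 h21700
  have h21702 := checkRangeG_sound parWF r2 pf21701 h21701
  have h21703 := checkRangeG_sound parWF r2 pf21702 h21702
  have h21704 := checkRangeG_sound parWF r2 pf21703 h21703
  have h21705 := checkRangeG_sound parWF r2 pf21704 h21704
  have h21706 := checkRangeG_sound parWF r2 pf21705 h21705
  have h21707 := checkRangeG_sound parWF r2 pf21706 h21706
  have h21708 := checkRangeG_sound parWF r2 pf21707 h21707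
  have h21709 := checkRangeG_sound parWF r2 pf21708 h21708
  have h21710 := checkRangeG_sound parWF r2 pf21709 h21709
  have h21711 := checkRangeG_sound parWF r2 pf21710 h21710
  have h21712 := checkRangeG_sound parWF r2 pf21711 h21711
  have h21713 := checkRangeG_sound parWF r2 pf21712 h21712
  have h21714 := checkRangeG_sound parWF r2 pf21713 h21713
  have h21715 := checkRangeG_sound parWF r2 pf21714 h21714
  have h21716 := checkRangeG_sound parWF r2 pf21715 h21715
  have h21717 := checkRangeG_sound parWF r2 pf21716 h21716
  have h21718 := checkRangeG_sound parWF r2 pf21717 h21717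
  have h21719 := checkRangeG_sound parWF r2 pf21718 h21718
  have h21720 := checkRangeG_sound parWF r2 pf21719 h21719
  have h21721 := checkRangeG_sound parWF r2 pf21720 h21720
  have h21722 := checkRangeG_sound parWF r2 pf21721 h21721
  have h21723 := checkRangeG_sound parWF r2 pf21722 h21722
  have h21724 := checkRangeG_sound parWF r2 pf21723 h21723
  have h21725 := checkRangeG_sound parWF r2 pf21724 h21724
  have h21726 := checkRangeG_sound parWF r2 pf21725 h21725
  have h21727 := checkRangeG_sound parWF r2 pf21726 h21726
  have h21728 := checkRangeG_sound parWF r2 pf21727 h21727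
  have h21729 := checkRangeG_sound parWF r2 pf21728 h21728
  have h21730 := checkRangeG_sound parWF r2 pf21729 h21729
  have h21731 := checkRangeG_sound parWF r2 pf21730 h21730
  have h21732 := checkRangeG_sound parWF r2 pf21731 h21731
  have h21733 := checkRangeG_sound parWF r2 pf21732 h21732
  have h21734 := checkRangeG_sound parWF r2 pf21733 h21733
  have h21735 := checkRangeG_sound parWF r2 pf21734 h21734
  have h21736 := checkRangeG_sound parWF r2 pf21735 h21735
  have h21737 := checkRangeG_sound parWF r2 pf21736 h21736
  have h21738 := checkRangeG_sound parWF r2 pf21737 h21737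
  have h21739 := checkRangeG_sound parWF r2 pf21738 h21738
  have h21740 := checkRangeG_sound parWF r2 pf21739 h21739
  have h21741 := checkRangeG_sound parWF r2 pf21740 h21740
  have h21742 := checkRangeG_sound parWF r2 pf21741 h21741
  have h21743 := checkRangeG_sound parWF r2 pf21742 h21742
  have h21744 := checkRangeG_sound parWF r2 pf21743 h21743
  have h21745 := checkRangeG_sound parWF r2 pf21744 h21744
  have h21746 := checkRangeG_sound parWF r2 pf21745 h21745
  have h21747 := checkRangeG_sound parWF r2 pf21746 h21746
  have h21748 := checkRangeG_sound parWF r2 pf21747 h21747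
  have h21749 := checkRangeG_sound parWF r2 pf21748 h21748
  have h21750 := checkRangeG_sound parWF r2 pf21749 h21749
  exact h21750

theorem c435 (h21750 : ∀ j, j < 68849 → GoodG.{u} par (db j)) : ∀ j, j < 68989 → GoodG.{u} par (db j) := by
  have h21751 := checkRangeG_sound parWF r2 pf21750 h21750
  have h21752 := checkRangeG_sound parWF r2 pf21751 h21751
  have h21753 := checkRangeG_sound parWF r2 pf21752 h21752
  have h21754 := checkRangeG_sound parWF r2 pf21753 h21753
  have h21755 := checkRangeG_sound parWF r2 pf21754 h21754
  have h21756 := checkRangeG_sound parWF r2 pf21755 h21755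
  have h21757 := checkRangeG_sound parWF r2 pf21756 h21756
  have h21758 := checkRangeG_sound parWF r2 pf21757 h21757
  have h21759 := checkRangeG_sound parWF r2 pf21758 h21758
  have h21760 := checkRangeG_sound parWF r2 pf21759 h21759
  have h21761 := checkRangeG_sound parWF r2 pf21760 h21760
  have h21762 := checkRangeG_sound parWF r2 pf21761 h21761
  have h21763 := checkRangeG_sound parWF r2 pf21762 h21762
  have h21764 := checkRangeG_sound parWF r2 pf21763 h21763
  have h21765 := checkRangeG_sound parWF r2 pf21764 h21764
  have h21766 := checkRangeG_sound parWF r2 pf21765 h21765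
  have h21767 := checkRangeG_sound parWF r2 pf21766 h21766
  have h21768 := checkRangeG_sound parWF r2 pf21767 h21767
  have h21769 := checkRangeG_sound parWF r2 pf21768 h21768
  have h21770 := checkRangeG_sound parWF r2 pf21769 h21769
  have h21771 := checkRangeG_sound parWF r2 pf21770 h21770
  have h21772 := checkRangeG_sound parWF r2 pf21771 h21771
  have h21773 := checkRangeG_sound parWF r2 pf21772 h21772
  have h21774 := checkRangeG_sound parWF r2 pf21773 h21773
  have h21775 := checkRangeG_sound parWF r2 pf21774 h21774
  have h21776 := checkRangeG_sound parWF r2 pf21775 h21775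
  have h21777 := checkRangeG_sound parWF r2 pf21776 h21776
  have h21778 := checkRangeG_sound parWF r2 pf21777 h21777
  have h21779 := checkRangeG_sound parWF r2 pf21778 h21778
  have h21780 := checkRangeG_sound parWF r2 pf21779 h21779
  have h21781 := checkRangeG_sound parWF r2 pf21780 h21780
  have h21782 := checkRangeG_sound parWF r2 pf21781 h21781
  have h21783 := checkRangeG_sound parWF r2 pf21782 h21782
  have h21784 := checkRangeG_sound parWF r2 pf21783 h21783
  have h21785 := checkRangeG_sound parWF r2 pf21784 h21784
  have h21786 := checkRangeG_sound parWF r2 pf21785 h21785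
  have h21787 := checkRangeG_sound parWF r2 pf21786 h21786
  have h21788 := checkRangeG_sound parWF r2 pf21787 h21787
  have h21789 := checkRangeG_sound parWF r2 pf21788 h21788
  have h21790 := checkRangeG_sound parWF r2 pf21789 h21789
  have h21791 := checkRangeG_sound parWF r2 pf21790 h21790
  have h21792 := checkRangeG_sound parWF r2 pf21791 h21791
  have h21793 := checkRangeG_sound parWF r2 pf21792 h21792
  have h21794 := checkRangeG_sound parWF r2 pf21793 h21793
  have h21795 := checkRangeG_sound parWF r2 pf21794 h21794
  have h21796 := checkRangeG_sound parWF r2 pf21795 h21795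
  have h21797 := checkRangeG_sound parWF r2 pf21796 h21796
  have h21798 := checkRangeG_sound parWF r2 pf21797 h21797
  have h21799 := checkRangeG_sound parWF r2 pf21798 h21798
  have h21800 := checkRangeG_sound parWF r2 pf21799 h21799
  exact h21800

theorem c436 (h21800 : ∀ j, j < 68989 → GoodG.{u} par (db j)) : ∀ j, j < 69128 → GoodG.{u} par (db j) := by
  have h21801 := checkRangeG_sound parWF r2 pf21800 h21800
  have h21802 := checkRangeG_sound parWF r2 pf21801 h21801
  have h21803 := checkRangeG_sound parWF r2 pf21802 h21802
  have h21804 := checkRangeG_sound parWF r2 pf21803 h21803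
  have h21805 := checkRangeG_sound parWF r2 pf21804 h21804
  have h21806 := checkRangeG_sound parWF r2 pf21805 h21805
  have h21807 := checkRangeG_sound parWF r2 pf21806 h21806
  have h21808 := checkRangeG_sound parWF r2 pf21807 h21807
  have h21809 := checkRangeG_sound parWF r2 pf21808 h21808
  have h21810 := checkRangeG_sound parWF r2 pf21809 h21809
  have h21811 := checkRangeG_sound parWF r2 pf21810 h21810
  have h21812 := checkRangeG_sound parWF r2 pf21811 h21811
  have h21813 := checkRangeG_sound parWF r2 pf21812 h21812
  have h21814 := checkRangeG_sound parWF r2 pf21813 h21813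
  have h21815 := checkRangeG_sound parWF r2 pf21814 h21814
  have h21816 := checkRangeG_sound parWF r2 pf21815 h21815
  have h21817 := checkRangeG_sound parWF r2 pf21816 h21816
  have h21818 := checkRangeG_sound parWF r2 pf21817 h21817
  have h21819 := checkRangeG_sound parWF r2 pf21818 h21818
  have h21820 := checkRangeG_sound parWF r2 pf21819 h21819
  have h21821 := checkRangeG_sound parWF r2 pf21820 h21820
  have h21822 := checkRangeG_sound parWF r2 pf21821 h21821
  have h21823 := checkRangeG_sound parWF r2 pf21822 h21822
  have h21824 := checkRangeG_sound parWF r2 pf21823 h21823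
  have h21825 := checkRangeG_sound parWF r2 pf21824 h21824
  have h21826 := checkRangeG_sound parWF r2 pf21825 h21825
  have h21827 := checkRangeG_sound parWF r2 pf21826 h21826
  have h21828 := checkRangeG_sound parWF r2 pf21827 h21827
  have h21829 := checkRangeG_sound parWF r2 pf21828 h21828
  have h21830 := checkRangeG_sound parWF r2 pf21829 h21829
  have h21831 := checkRangeG_sound parWF r2 pf21830 h21830
  have h21832 := checkRangeG_sound parWF r2 pf21831 h21831
  have h21833 := checkRangeG_sound parWF r2 pf21832 h21832
  have h21834 := checkRangeG_sound parWF r2 pf21833 h21833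
  have h21835 := checkRangeG_sound parWF r2 pf21834 h21834
  have h21836 := checkRangeG_sound parWF r2 pf21835 h21835
  have h21837 := checkRangeG_sound parWF r2 pf21836 h21836
  have h21838 := checkRangeG_sound parWF r2 pf21837 h21837
  have h21839 := checkRangeG_sound parWF r2 pf21838 h21838
  have h21840 := checkRangeG_sound parWF r2 pf21839 h21839
  have h21841 := checkRangeG_sound parWF r2 pf21840 h21840
  have h21842 := checkRangeG_sound parWF r2 pf21841 h21841
  have h21843 := checkRangeG_sound parWF r2 pf21842 h21842
  have h21844 := checkRangeG_sound parWF r2 pf21843 h21843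
  have h21845 := checkRangeG_sound parWF r2 pf21844 h21844
  have h21846 := checkRangeG_sound parWF r2 pf21845 h21845
  have h21847 := checkRangeG_sound parWF r2 pf21846 h21846
  have h21848 := checkRangeG_sound parWF r2 pf21847 h21847
  have h21849 := checkRangeG_sound parWF r2 pf21848 h21848
  have h21850 := checkRangeG_sound parWF r2 pf21849 h21849
  exact h21850

theorem c437 (h21850 : ∀ j, j < 69128 → GoodG.{u} par (db j)) : ∀ j, j < 69283 → GoodG.{u} par (db j) := by
  have h21851 := checkRangeG_sound parWF r2 pf21850 h21850
  have h21852 := checkRangeG_sound parWF r2 pf21851 h21851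
  have h21853 := checkRangeG_sound parWF r2 pf21852 h21852
  have h21854 := checkRangeG_sound parWF r2 pf21853 h21853
  have h21855 := checkRangeG_sound parWF r2 pf21854 h21854
  have h21856 := checkRangeG_sound parWF r2 pf21855 h21855
  have h21857 := checkRangeG_sound parWF r2 pf21856 h21856
  have h21858 := checkRangeG_sound parWF r2 pf21857 h21857
  have h21859 := checkRangeG_sound parWF r2 pf21858 h21858
  have h21860 := checkRangeG_sound parWF r2 pf21859 h21859
  have h21861 := checkRangeG_sound parWF r2 pf21860 h21860
  have h21862 := checkRangeG_sound parWF r2 pf21861 h21861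
  have h21863 := checkRangeG_sound parWF r2 pf21862 h21862
  have h21864 := checkRangeG_sound parWF r2 pf21863 h21863
  have h21865 := checkRangeG_sound parWF r2 pf21864 h21864
  have h21866 := checkRangeG_sound parWF r2 pf21865 h21865
  have h21867 := checkRangeG_sound parWF r2 pf21866 h21866
  have h21868 := checkRangeG_sound parWF r2 pf21867 h21867
  have h21869 := checkRangeG_sound parWF r2 pf21868 h21868
  have h21870 := checkRangeG_sound parWF r2 pf21869 h21869
  have h21871 := checkRangeG_sound parWF r2 pf21870 h21870
  have h21872 := checkRangeG_sound parWF r2 pf21871 h21871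
  have h21873 := checkRangeG_sound parWF r2 pf21872 h21872
  have h21874 := checkRangeG_sound parWF r2 pf21873 h21873
  have h21875 := checkRangeG_sound parWF r2 pf21874 h21874
  have h21876 := checkRangeG_sound parWF r2 pf21875 h21875
  have h21877 := checkRangeG_sound parWF r2 pf21876 h21876
  have h21878 := checkRangeG_sound parWF r2 pf21877 h21877
  have h21879 := checkRangeG_sound parWF r2 pf21878 h21878
  have h21880 := checkRangeG_sound parWF r2 pf21879 h21879
  have h21881 := checkRangeG_sound parWF r2 pf21880 h21880
  have h21882 := checkRangeG_sound parWF r2 pf21881 h21881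
  have h21883 := checkRangeG_sound parWF r2 pf21882 h21882
  have h21884 := checkRangeG_sound parWF r2 pf21883 h21883
  have h21885 := checkRangeG_sound parWF r2 pf21884 h21884
  have h21886 := checkRangeG_sound parWF r2 pf21885 h21885
  have h21887 := checkRangeG_sound parWF r2 pf21886 h21886
  have h21888 := checkRangeG_sound parWF r2 pf21887 h21887
  have h21889 := checkRangeG_sound parWF r2 pf21888 h21888
  have h21890 := checkRangeG_sound parWF r2 pf21889 h21889
  have h21891 := checkRangeG_sound parWF r2 pf21890 h21890
  have h21892 := checkRangeG_sound parWF r2 pf21891 h21891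
  have h21893 := checkRangeG_sound parWF r2 pf21892 h21892
  have h21894 := checkRangeG_sound parWF r2 pf21893 h21893
  have h21895 := checkRangeG_sound parWF r2 pf21894 h21894
  have h21896 := checkRangeG_sound parWF r2 pf21895 h21895
  have h21897 := checkRangeG_sound parWF r2 pf21896 h21896
  have h21898 := checkRangeG_sound parWF r2 pf21897 h21897
  have h21899 := checkRangeG_sound parWF r2 pf21898 h21898
  have h21900 := checkRangeG_sound parWF r2 pf21899 h21899
  exact h21900

theorem c438 (h21900 : ∀ j, j < 69283 → GoodG.{u} par (db j)) : ∀ j, j < 69437 → GoodG.{u} par (db j) := by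
  have h21901 := checkRangeG_sound parWF r2 pf21900 h21900
  have h21902 := checkRangeG_sound parWF r2 pf21901 h21901
  have h21903 := checkRangeG_sound parWF r2 pf21902 h21902
  have h21904 := checkRangeG_sound parWF r2 pf21903 h21903
  have h21905 := checkRangeG_sound parWF r2 pf21904 h21904
  have h21906 := checkRangeG_sound parWF r2 pf21905 h21905
  have h21907 := checkRangeG_sound parWF r2 pf21906 h21906
  have h21908 := checkRangeG_sound parWF r2 pf21907 h21907
  have h21909 := checkRangeG_sound parWF r2 pf21908 h21908
  have h21910 := checkRangeG_sound parWF r2 pf21909 h21909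
  have h21911 := checkRangeG_sound parWF r2 pf21910 h21910
  have h21912 := checkRangeG_sound parWF r2 pf21911 h21911
  have h21913 := checkRangeG_sound parWF r2 pf21912 h21912
  have h21914 := checkRangeG_sound parWF r2 pf21913 h21913
  have h21915 := checkRangeG_sound parWF r2 pf21914 h21914
  have h21916 := checkRangeG_sound parWF r2 pf21915 h21915
  have h21917 := checkRangeG_sound parWF r2 pf21916 h21916
  have h21918 := checkRangeG_sound parWF r2 pf21917 h21917
  have h21919 := checkRangeG_sound parWF r2 pf21918 h21918
  have h21920 := checkRangeG_sound parWF r2 pf21919 h21919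
  have h21921 := checkRangeG_sound parWF r2 pf21920 h21920
  have h21922 := checkRangeG_sound parWF r2 pf21921 h21921
  have h21923 := checkRangeG_sound parWF r2 pf21922 h21922
  have h21924 := checkRangeG_sound parWF r2 pf21923 h21923
  have h21925 := checkRangeG_sound parWF r2 pf21924 h21924
  have h21926 := checkRangeG_sound parWF r2 pf21925 h21925
  have h21927 := checkRangeG_sound parWF r2 pf21926 h21926
  have h21928 := checkRangeG_sound parWF r2 pf21927 h21927
  have h21929 := checkRangeG_sound parWF r2 pf21928 h21928
  have h21930 := checkRangeG_sound parWF r2 pf21929 h21929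
  have h21931 := checkRangeG_sound parWF r2 pf21930 h21930
  have h21932 := checkRangeG_sound parWF r2 pf21931 h21931
  have h21933 := checkRangeG_sound parWF r2 pf21932 h21932
  have h21934 := checkRangeG_sound parWF r2 pf21933 h21933
  have h21935 := checkRangeG_sound parWF r2 pf21934 h21934
  have h21936 := checkRangeG_sound parWF r2 pf21935 h21935
  have h21937 := checkRangeG_sound parWF r2 pf21936 h21936
  have h21938 := checkRangeG_sound parWF r2 pf21937 h21937
  have h21939 := checkRangeG_sound parWF r2 pf21938 h21938
  have h21940 := checkRangeG_sound parWF r2 pf21939 h21939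
  have h21941 := checkRangeG_sound parWF r2 pf21940 h21940
  have h21942 := checkRangeG_sound parWF r2 pf21941 h21941
  have h21943 := checkRangeG_sound parWF r2 pf21942 h21942
  have h21944 := checkRangeG_sound parWF r2 pf21943 h21943
  have h21945 := checkRangeG_sound parWF r2 pf21944 h21944
  have h21946 := checkRangeG_sound parWF r2 pf21945 h21945
  have h21947 := checkRangeG_sound parWF r2 pf21946 h21946
  have h21948 := checkRangeG_sound parWF r2 pf21947 h21947
  have h21949 := checkRangeG_sound parWF r2 pf21948 h21948
  have h21950 := checkRangeG_sound parWF r2 pf21949 h21949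
  exact h21950

theorem c439 (h21950 : ∀ j, j < 69437 → GoodG.{u} par (db j)) : ∀ j, j < 69611 → GoodG.{u} par (db j) := by
  have h21951 := checkRangeG_sound parWF r2 pf21950 h21950
  have h21952 := checkRangeG_sound parWF r2 pf21951 h21951
  have h21953 := checkRangeG_sound parWF r2 pf21952 h21952
  have h21954 := checkRangeG_sound parWF r2 pf21953 h21953
  have h21955 := checkRangeG_sound parWF r2 pf21954 h21954
  have h21956 := checkRangeG_sound parWF r2 pf21955 h21955
  have h21957 := checkRangeG_sound parWF r2 pf21956 h21956
  have h21958 := checkRangeG_sound parWF r2 pf21957 h21957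
  have h21959 := checkRangeG_sound parWF r2 pf21958 h21958
  have h21960 := checkRangeG_sound parWF r2 pf21959 h21959
  have h21961 := checkRangeG_sound parWF r2 pf21960 h21960
  have h21962 := checkRangeG_sound parWF r2 pf21961 h21961
  have h21963 := checkRangeG_sound parWF r2 pf21962 h21962
  have h21964 := checkRangeG_sound parWF r2 pf21963 h21963
  have h21965 := checkRangeG_sound parWF r2 pf21964 h21964
  have h21966 := checkRangeG_sound parWF r2 pf21965 h21965
  have h21967 := checkRangeG_sound parWF r2 pf21966 h21966
  have h21968 := checkRangeG_sound parWF r2 pf21967 h21967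
  have h21969 := checkRangeG_sound parWF r2 pf21968 h21968
  have h21970 := checkRangeG_sound parWF r2 pf21969 h21969
  have h21971 := checkRangeG_sound parWF r2 pf21970 h21970
  have h21972 := checkRangeG_sound parWF r2 pf21971 h21971
  have h21973 := checkRangeG_sound parWF r2 pf21972 h21972
  have h21974 := checkRangeG_sound parWF r2 pf21973 h21973
  have h21975 := checkRangeG_sound parWF r2 pf21974 h21974
  have h21976 := checkRangeG_sound parWF r2 pf21975 h21975
  have h21977 := checkRangeG_sound parWF r2 pf21976 h21976
  have h21978 := checkRangeG_sound parWF r2 pf21977 h21977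
  have h21979 := checkRangeG_sound parWF r2 pf21978 h21978
  have h21980 := checkRangeG_sound parWF r2 pf21979 h21979
  have h21981 := checkRangeG_sound parWF r2 pf21980 h21980
  have h21982 := checkRangeG_sound parWF r2 pf21981 h21981
  have h21983 := checkRangeG_sound parWF r2 pf21982 h21982
  have h21984 := checkRangeG_sound parWF r2 pf21983 h21983
  have h21985 := checkRangeG_sound parWF r2 pf21984 h21984
  have h21986 := checkRangeG_sound parWF r2 pf21985 h21985
  have h21987 := checkRangeG_sound parWF r2 pf21986 h21986
  have h21988 := checkRangeG_sound parWF r2 pf21987 h21987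
  have h21989 := checkRangeG_sound parWF r2 pf21988 h21988
  have h21990 := checkRangeG_sound parWF r2 pf21989 h21989
  have h21991 := checkRangeG_sound parWF r2 pf21990 h21990
  have h21992 := checkRangeG_sound parWF r2 pf21991 h21991
  have h21993 := checkRangeG_sound parWF r2 pf21992 h21992
  have h21994 := checkRangeG_sound parWF r2 pf21993 h21993
  have h21995 := checkRangeG_sound parWF r2 pf21994 h21994
  have h21996 := checkRangeG_sound parWF r2 pf21995 h21995
  have h21997 := checkRangeG_sound parWF r2 pf21996 h21996
  have h21998 := checkRangeG_sound parWF r2 pf21997 h21997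
  have h21999 := checkRangeG_sound parWF r2 pf21998 h21998
  have h22000 := checkRangeG_sound parWF r2 pf21999 h21999
  exact h22000

theorem c440 (h22000 : ∀ j, j < 69611 → GoodG.{u} par (db j)) : ∀ j, j < 69765 → GoodG.{u} par (db j) := by
  have h22001 := checkRangeG_sound parWF r2 pf22000 h22000
  have h22002 := checkRangeG_sound parWF r2 pf22001 h22001
  have h22003 := checkRangeG_sound parWF r2 pf22002 h22002
  have h22004 := checkRangeG_sound parWF r2 pf22003 h22003
  have h22005 := checkRangeG_sound parWF r2 pf22004 h22004
  have h22006 := checkRangeG_sound parWF r2 pf22005 h22005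
  have h22007 := checkRangeG_sound parWF r2 pf22006 h22006
  have h22008 := checkRangeG_sound parWF r2 pf22007 h22007
  have h22009 := checkRangeG_sound parWF r2 pf22008 h22008
  have h22010 := checkRangeG_sound parWF r2 pf22009 h22009
  have h22011 := checkRangeG_sound parWF r2 pf22010 h22010
  have h22012 := checkRangeG_sound parWF r2 pf22011 h22011
  have h22013 := checkRangeG_sound parWF r2 pf22012 h22012
  have h22014 := checkRangeG_sound parWF r2 pf22013 h22013
  have h22015 := checkRangeG_sound parWF r2 pf22014 h22014
  have h22016 := checkRangeG_sound parWF r2 pf22015 h22015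
  have h22017 := checkRangeG_sound parWF r2 pf22016 h22016
  have h22018 := checkRangeG_sound parWF r2 pf22017 h22017
  have h22019 := checkRangeG_sound parWF r2 pf22018 h22018
  have h22020 := checkRangeG_sound parWF r2 pf22019 h22019
  have h22021 := checkRangeG_sound parWF r2 pf22020 h22020
  have h22022 := checkRangeG_sound parWF r2 pf22021 h22021
  have h22023 := checkRangeG_sound parWF r2 pf22022 h22022
  have h22024 := checkRangeG_sound parWF r2 pf22023 h22023
  have h22025 := checkRangeG_sound parWF r2 pf22024 h22024
  have h22026 := checkRangeG_sound parWF r2 pf22025 h22025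
  have h22027 := checkRangeG_sound parWF r2 pf22026 h22026
  have h22028 := checkRangeG_sound parWF r2 pf22027 h22027
  have h22029 := checkRangeG_sound parWF r2 pf22028 h22028
  have h22030 := checkRangeG_sound parWF r2 pf22029 h22029
  have h22031 := checkRangeG_sound parWF r2 pf22030 h22030
  have h22032 := checkRangeG_sound parWF r2 pf22031 h22031
  have h22033 := checkRangeG_sound parWF r2 pf22032 h22032
  have h22034 := checkRangeG_sound parWF r2 pf22033 h22033
  have h22035 := checkRangeG_sound parWF r2 pf22034 h22034
  have h22036 := checkRangeG_sound parWF r2 pf22035 h22035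
  have h22037 := checkRangeG_sound parWF r2 pf22036 h22036
  have h22038 := checkRangeG_sound parWF r2 pf22037 h22037
  have h22039 := checkRangeG_sound parWF r2 pf22038 h22038
  have h22040 := checkRangeG_sound parWF r2 pf22039 h22039
  have h22041 := checkRangeG_sound parWF r2 pf22040 h22040
  have h22042 := checkRangeG_sound parWF r2 pf22041 h22041
  have h22043 := checkRangeG_sound parWF r2 pf22042 h22042
  have h22044 := checkRangeG_sound parWF r2 pf22043 h22043
  have h22045 := checkRangeG_sound parWF r2 pf22044 h22044
  have h22046 := checkRangeG_sound parWF r2 pf22045 h22045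
  have h22047 := checkRangeG_sound parWF r2 pf22046 h22046
  have h22048 := checkRangeG_sound parWF r2 pf22047 h22047
  have h22049 := checkRangeG_sound parWF r2 pf22048 h22048
  have h22050 := checkRangeG_sound parWF r2 pf22049 h22049
  exact h22050

theorem c441 (h22050 : ∀ j, j < 69765 → GoodG.{u} par (db j)) : ∀ j, j < 69932 → GoodG.{u} par (db j) := by
  have h22051 := checkRangeG_sound parWF r2 pf22050 h22050
  have h22052 := checkRangeG_sound parWF r2 pf22051 h22051
  have h22053 := checkRangeG_sound parWF r2 pf22052 h22052
  have h22054 := checkRangeG_sound parWF r2 pf22053 h22053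
  have h22055 := checkRangeG_sound parWF r2 pf22054 h22054
  have h22056 := checkRangeG_sound parWF r2 pf22055 h22055
  have h22057 := checkRangeG_sound parWF r2 pf22056 h22056
  have h22058 := checkRangeG_sound parWF r2 pf22057 h22057
  have h22059 := checkRangeG_sound parWF r2 pf22058 h22058
  have h22060 := checkRangeG_sound parWF r2 pf22059 h22059
  have h22061 := checkRangeG_sound parWF r2 pf22060 h22060
  have h22062 := checkRangeG_sound parWF r2 pf22061 h22061
  have h22063 := checkRangeG_sound parWF r2 pf22062 h22062
  have h22064 := checkRangeG_sound parWF r2 pf22063 h22063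
  have h22065 := checkRangeG_sound parWF r2 pf22064 h22064
  have h22066 := checkRangeG_sound parWF r2 pf22065 h22065
  have h22067 := checkRangeG_sound parWF r2 pf22066 h22066
  have h22068 := checkRangeG_sound parWF r2 pf22067 h22067
  have h22069 := checkRangeG_sound parWF r2 pf22068 h22068
  have h22070 := checkRangeG_sound parWF r2 pf22069 h22069
  have h22071 := checkRangeG_sound parWF r2 pf22070 h22070
  have h22072 := checkRangeG_sound parWF r2 pf22071 h22071
  have h22073 := checkRangeG_sound parWF r2 pf22072 h22072
  have h22074 := checkRangeG_sound parWF r2 pf22073 h22073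
  have h22075 := checkRangeG_sound parWF r2 pf22074 h22074
  have h22076 := checkRangeG_sound parWF r2 pf22075 h22075
  have h22077 := checkRangeG_sound parWF r2 pf22076 h22076
  have h22078 := checkRangeG_sound parWF r2 pf22077 h22077
  have h22079 := checkRangeG_sound parWF r2 pf22078 h22078
  have h22080 := checkRangeG_sound parWF r2 pf22079 h22079
  have h22081 := checkRangeG_sound parWF r2 pf22080 h22080
  have h22082 := checkRangeG_sound parWF r2 pf22081 h22081
  have h22083 := checkRangeG_sound parWF r2 pf22082 h22082
  have h22084 := checkRangeG_sound parWF r2 pf22083 h22083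
  have h22085 := checkRangeG_sound parWF r2 pf22084 h22084
  have h22086 := checkRangeG_sound parWF r2 pf22085 h22085
  have h22087 := checkRangeG_sound parWF r2 pf22086 h22086
  have h22088 := checkRangeG_sound parWF r2 pf22087 h22087
  have h22089 := checkRangeG_sound parWF r2 pf22088 h22088
  have h22090 := checkRangeG_sound parWF r2 pf22089 h22089
  have h22091 := checkRangeG_sound parWF r2 pf22090 h22090
  have h22092 := checkRangeG_sound parWF r2 pf22091 h22091
  have h22093 := checkRangeG_sound parWF r2 pf22092 h22092
  have h22094 := checkRangeG_sound parWF r2 pf22093 h22093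
  have h22095 := checkRangeG_sound parWF r2 pf22094 h22094
  have h22096 := checkRangeG_sound parWF r2 pf22095 h22095
  have h22097 := checkRangeG_sound parWF r2 pf22096 h22096
  have h22098 := checkRangeG_sound parWF r2 pf22097 h22097
  have h22099 := checkRangeG_sound parWF r2 pf22098 h22098
  have h22100 := checkRangeG_sound parWF r2 pf22099 h22099
  exact h22100

theorem c442 (h22100 : ∀ j, j < 69932 → GoodG.{u} par (db j)) : ∀ j, j < 70138 → GoodG.{u} par (db j) := by
  have h22101 := checkRangeG_sound parWF r2 pf22100 h22100
  have h22102 := checkRangeG_sound parWF r2 pf22101 h22101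
  have h22103 := checkRangeG_sound parWF r2 pf22102 h22102
  have h22104 := checkRangeG_sound parWF r2 pf22103 h22103
  have h22105 := checkRangeG_sound parWF r2 pf22104 h22104
  have h22106 := checkRangeG_sound parWF r2 pf22105 h22105
  have h22107 := checkRangeG_sound parWF r2 pf22106 h22106
  have h22108 := checkRangeG_sound parWF r2 pf22107 h22107
  have h22109 := checkRangeG_sound parWF r2 pf22108 h22108
  have h22110 := checkRangeG_sound parWF r2 pf22109 h22109
  have h22111 := checkRangeG_sound parWF r2 pf22110 h22110
  have h22112 := checkRangeG_sound parWF r2 pf22111 h22111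
  have h22113 := checkRangeG_sound parWF r2 pf22112 h22112
  have h22114 := checkRangeG_sound parWF r2 pf22113 h22113
  have h22115 := checkRangeG_sound parWF r2 pf22114 h22114
  have h22116 := checkRangeG_sound parWF r2 pf22115 h22115
  have h22117 := checkRangeG_sound parWF r2 pf22116 h22116
  have h22118 := checkRangeG_sound parWF r2 pf22117 h22117
  have h22119 := checkRangeG_sound parWF r2 pf22118 h22118
  have h22120 := checkRangeG_sound parWF r2 pf22119 h22119
  have h22121 := checkRangeG_sound parWF r2 pf22120 h22120
  have h22122 := checkRangeG_sound parWF r2 pf22121 h22121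
  have h22123 := checkRangeG_sound parWF r2 pf22122 h22122
  have h22124 := checkRangeG_sound parWF r2 pf22123 h22123
  have h22125 := checkRangeG_sound parWF r2 pf22124 h22124
  have h22126 := checkRangeG_sound parWF r2 pf22125 h22125
  have h22127 := checkRangeG_sound parWF r2 pf22126 h22126
  have h22128 := checkRangeG_sound parWF r2 pf22127 h22127
  have h22129 := checkRangeG_sound parWF r2 pf22128 h22128
  have h22130 := checkRangeG_sound parWF r2 pf22129 h22129
  have h22131 := checkRangeG_sound parWF r2 pf22130 h22130
  have h22132 := checkRangeG_sound parWF r2 pf22131 h22131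
  have h22133 := checkRangeG_sound parWF r2 pf22132 h22132
  have h22134 := checkRangeG_sound parWF r2 pf22133 h22133
  have h22135 := checkRangeG_sound parWF r2 pf22134 h22134
  have h22136 := checkRangeG_sound parWF r2 pf22135 h22135
  have h22137 := checkRangeG_sound parWF r2 pf22136 h22136
  have h22138 := checkRangeG_sound parWF r2 pf22137 h22137
  have h22139 := checkRangeG_sound parWF r2 pf22138 h22138
  have h22140 := checkRangeG_sound parWF r2 pf22139 h22139
  have h22141 := checkRangeG_sound parWF r2 pf22140 h22140
  have h22142 := checkRangeG_sound parWF r2 pf22141 h22141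
  have h22143 := checkRangeG_sound parWF r2 pf22142 h22142
  have h22144 := checkRangeG_sound parWF r2 pf22143 h22143
  have h22145 := checkRangeG_sound parWF r2 pf22144 h22144
  have h22146 := checkRangeG_sound parWF r2 pf22145 h22145
  have h22147 := checkRangeG_sound parWF r2 pf22146 h22146
  have h22148 := checkRangeG_sound parWF r2 pf22147 h22147
  have h22149 := checkRangeG_sound parWF r2 pf22148 h22148
  have h22150 := checkRangeG_sound parWF r2 pf22149 h22149
  exact h22150

theorem c443 (h22150 : ∀ j, j < 70138 → GoodG.{u} par (db j)) : ∀ j, j < 70325 → GoodG.{u} par (db j) := by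
  have h22151 := checkRangeG_sound parWF r2 pf22150 h22150
  have h22152 := checkRangeG_sound parWF r2 pf22151 h22151
  have h22153 := checkRangeG_sound parWF r2 pf22152 h22152
  have h22154 := checkRangeG_sound parWF r2 pf22153 h22153
  have h22155 := checkRangeG_sound parWF r2 pf22154 h22154
  have h22156 := checkRangeG_sound parWF r2 pf22155 h22155
  have h22157 := checkRangeG_sound parWF r2 pf22156 h22156
  have h22158 := checkRangeG_sound parWF r2 pf22157 h22157
  have h22159 := checkRangeG_sound parWF r2 pf22158 h22158
  have h22160 := checkRangeG_sound parWF r2 pf22159 h22159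
  have h22161 := checkRangeG_sound parWF r2 pf22160 h22160
  have h22162 := checkRangeG_sound parWF r2 pf22161 h22161
  have h22163 := checkRangeG_sound parWF r2 pf22162 h22162
  have h22164 := checkRangeG_sound parWF r2 pf22163 h22163
  have h22165 := checkRangeG_sound parWF r2 pf22164 h22164
  have h22166 := checkRangeG_sound parWF r2 pf22165 h22165
  have h22167 := checkRangeG_sound parWF r2 pf22166 h22166
  have h22168 := checkRangeG_sound parWF r2 pf22167 h22167
  have h22169 := checkRangeG_sound parWF r2 pf22168 h22168
  have h22170 := checkRangeG_sound parWF r2 pf22169 h22169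
  have h22171 := checkRangeG_sound parWF r2 pf22170 h22170
  have h22172 := checkRangeG_sound parWF r2 pf22171 h22171
  have h22173 := checkRangeG_sound parWF r2 pf22172 h22172
  have h22174 := checkRangeG_sound parWF r2 pf22173 h22173
  have h22175 := checkRangeG_sound parWF r2 pf22174 h22174
  have h22176 := checkRangeG_sound parWF r2 pf22175 h22175
  have h22177 := checkRangeG_sound parWF r2 pf22176 h22176
  have h22178 := checkRangeG_sound parWF r2 pf22177 h22177
  have h22179 := checkRangeG_sound parWF r2 pf22178 h22178
  have h22180 := checkRangeG_sound parWF r2 pf22179 h22179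
  have h22181 := checkRangeG_sound parWF r2 pf22180 h22180
  have h22182 := checkRangeG_sound parWF r2 pf22181 h22181
  have h22183 := checkRangeG_sound parWF r2 pf22182 h22182
  have h22184 := checkRangeG_sound parWF r2 pf22183 h22183
  have h22185 := checkRangeG_sound parWF r2 pf22184 h22184
  have h22186 := checkRangeG_sound parWF r2 pf22185 h22185
  have h22187 := checkRangeG_sound parWF r2 pf22186 h22186
  have h22188 := checkRangeG_sound parWF r2 pf22187 h22187
  have h22189 := checkRangeG_sound parWF r2 pf22188 h22188
  have h22190 := checkRangeG_sound parWF r2 pf22189 h22189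
  have h22191 := checkRangeG_sound parWF r2 pf22190 h22190
  have h22192 := checkRangeG_sound parWF r2 pf22191 h22191
  have h22193 := checkRangeG_sound parWF r2 pf22192 h22192
  have h22194 := checkRangeG_sound parWF r2 pf22193 h22193
  have h22195 := checkRangeG_sound parWF r2 pf22194 h22194
  have h22196 := checkRangeG_sound parWF r2 pf22195 h22195
  have h22197 := checkRangeG_sound parWF r2 pf22196 h22196
  have h22198 := checkRangeG_sound parWF r2 pf22197 h22197
  have h22199 := checkRangeG_sound parWF r2 pf22198 h22198
  have h22200 := checkRangeG_sound parWF r2 pf22199 h22199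
  exact h22200


end Vale.Agent.P045g.C61
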