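import Vale.Agent.P045g.C61.WF
import Vale.Agent.P045g.C61.Pf370
import Vale.Agent.P045g.C61.Pf371
import Vale.Agent.P045g.C61.Pf372
import Vale.Agent.P045g.C61.Pf373
import Vale.Agent.P045g.C61.Pf374
import Vale.Agent.P045g.C61.Pf375
import Vale.Agent.P045g.C61.Pf376
import Vale.Agent.P045g.C61.Pf377
import Vale.Agent.P045g.C61.Pf378
import Vale.Agent.P045g.C61.Pf379

namespace Vale.Agent.P045g.C61

open Vale.Agent.P045b Vale.Agent.P045g

universe u

theorem c444 (h22200 : ∀ j, j < 70325 → GoodG.{u} par (db j)) : ∀ j, j < 70497 → GoodG.{u} par (db j) := by
  have h22201 := checkRangeG_sound parWF r2 pf22200 h22200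
  have h22202 := checkRangeG_sound parWF r2 pf22201 h22201
  have h22203 := checkRangeG_sound parWF r2 pf22202 h22202
  have h22204 := checkRangeG_sound parWF r2 pf22203 h22203
  have h22205 := checkRangeG_sound parWF r2 pf22204 h22204
  have h22206 := checkRangeG_sound parWF r2 pf22205 h22205
  have h22207 := checkRangeG_sound parWF r2 pf22206 h22206
  have h22208 := checkRangeG_sound parWF r2 pf22207 h22207
  have h22209 := checkRangeG_sound parWF r2 pf22208 h22208
  have h22210 := checkRangeG_sound parWF r2 pf22209 h22209
  have h22211 := checkRangeG_sound parWF r2 pf22210 h22210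
  have h22212 := checkRangeG_sound parWF r2 pf22211 h22211
  have h22213 := checkRangeG_sound parWF r2 pf22212 h22212
  have h22214 := checkRangeG_sound parWF r2 pf22213 h22213
  have h22215 := checkRangeG_sound parWF r2 pf22214 h22214
  have h22216 := checkRangeG_sound parWF r2 pf22215 h22215
  have h22217 := checkRangeG_sound parWF r2 pf22216 h22216
  have h22218 := checkRangeG_sound parWF r2 pf22217 h22217
  have h22219 := checkRangeG_sound parWF r2 pf22218 h22218
  have h22220 := checkRangeG_sound parWF r2 pf22219 h22219
  have h22221 := checkRangeG_sound parWF r2 pf22220 h22220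
  have h22222 := checkRangeG_sound parWF r2 pf22221 h22221
  have h22223 := checkRangeG_sound parWF r2 pf22222 h22222
  have h22224 := checkRangeG_sound parWF r2 pf22223 h22223
  have h22225 := checkRangeG_sound parWF r2 pf22224 h22224
  have h22226 := checkRangeG_sound parWF r2 pf22225 h22225
  have h22227 := checkRangeG_sound parWF r2 pf22226 h22226
  have h22228 := checkRangeG_sound parWF r2 pf22227 h22227
  have h22229 := checkRangeG_sound parWF r2 pf22228 h22228
  have h22230 := checkRangeG_sound parWF r2 pf22229 h22229
  have h22231 := checkRangeG_sound parWF r2 pf22230 h22230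
  have h22232 := checkRangeG_sound parWF r2 pf22231 h22231
  have h22233 := checkRangeG_sound parWF r2 pf22232 h22232
  have h22234 := checkRangeG_sound parWF r2 pf22233 h22233
  have h22235 := checkRangeG_sound parWF r2 pf22234 h22234
  have h22236 := checkRangeG_sound parWF r2 pf22235 h22235
  have h22237 := checkRangeG_sound parWF r2 pf22236 h22236
  have h22238 := checkRangeG_sound parWF r2 pf22237 h22237
  have h22239 := checkRangeG_sound parWF r2 pf22238 h22238
  have h22240 := checkRangeG_sound parWF r2 pf22239 h22239
  have h22241 := checkRangeG_sound parWF r2 pf22240 h22240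
  have h22242 := checkRangeG_sound parWF r2 pf22241 h22241
  have h22243 := checkRangeG_sound parWF r2 pf22242 h22242
  have h22244 := checkRangeG_sound parWF r2 pf22243 h22243
  have h22245 := checkRangeG_sound parWF r2 pf22244 h22244
  have h22246 := checkRangeG_sound parWF r2 pf22245 h22245
  have h22247 := checkRangeG_sound parWF r2 pf22246 h22246
  have h22248 := checkRangeG_sound parWF r2 pf22247 h22247
  have h22249 := checkRangeG_sound parWF r2 pf22248 h22248
  have h22250 := checkRangeG_sound parWF r2 pf22249 h22249
  exact h22250

theorem c445 (h22250 : ∀ j, j < 70497 → GoodG.{u} par (db j)) : ∀ j, j < 70668 → GoodG.{u} par (db j) := by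
  have h22251 := checkRangeG_sound parWF r2 pf22250 h22250
  have h22252 := checkRangeG_sound parWF r2 pf22251 h22251
  have h22253 := checkRangeG_sound parWF r2 pf22252 h22252
  have h22254 := checkRangeG_sound parWF r2 pf22253 h22253
  have h22255 := checkRangeG_sound parWF r2 pf22254 h22254
  have h22256 := checkRangeG_sound parWF r2 pf22255 h22255
  have h22257 := checkRangeG_sound parWF r2 pf22256 h22256
  have h22258 := checkRangeG_sound parWF r2 pf22257 h22257
  have h22259 := checkRangeG_sound parWF r2 pf22258 h22258
  have h22260 := checkRangeG_sound parWF r2 pf22259 h22259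
  have h22261 := checkRangeG_sound parWF r2 pf22260 h22260
  have h22262 := checkRangeG_sound parWF r2 pf22261 h22261
  have h22263 := checkRangeG_sound parWF r2 pf22262 h22262
  have h22264 := checkRangeG_sound parWF r2 pf22263 h22263
  have h22265 := checkRangeG_sound parWF r2 pf22264 h22264
  have h22266 := checkRangeG_sound parWF r2 pf22265 h22265
  have h22267 := checkRangeG_sound parWF r2 pf22266 h22266
  have h22268 := checkRangeG_sound parWF r2 pf22267 h22267
  have h22269 := checkRangeG_sound parWF r2 pf22268 h22268
  have h22270 := checkRangeG_sound parWF r2 pf22269 h22269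
  have h22271 := checkRangeG_sound parWF r2 pf22270 h22270
  have h22272 := checkRangeG_sound parWF r2 pf22271 h22271
  have h22273 := checkRangeG_sound parWF r2 pf22272 h22272
  have h22274 := checkRangeG_sound parWF r2 pf22273 h22273
  have h22275 := checkRangeG_sound parWF r2 pf22274 h22274
  have h22276 := checkRangeG_sound parWF r2 pf22275 h22275
  have h22277 := checkRangeG_sound parWF r2 pf22276 h22276
  have h22278 := checkRangeG_sound parWF r2 pf22277 h22277
  have h22279 := checkRangeG_sound parWF r2 pf22278 h22278
  have h22280 := checkRangeG_sound parWF r2 pf22279 h22279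
  have h22281 := checkRangeG_sound parWF r2 pf22280 h22280
  have h22282 := checkRangeG_sound parWF r2 pf22281 h22281
  have h22283 := checkRangeG_sound parWF r2 pf22282 h22282
  have h22284 := checkRangeG_sound parWF r2 pf22283 h22283
  have h22285 := checkRangeG_sound parWF r2 pf22284 h22284
  have h22286 := checkRangeG_sound parWF r2 pf22285 h22285
  have h22287 := checkRangeG_sound parWF r2 pf22286 h22286
  have h22288 := checkRangeG_sound parWF r2 pf22287 h22287
  have h22289 := checkRangeG_sound parWF r2 pf22288 h22288
  have h22290 := checkRangeG_sound parWF r2 pf22289 h22289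
  have h22291 := checkRangeG_sound parWF r2 pf22290 h22290
  have h22292 := checkRangeG_sound parWF r2 pf22291 h22291
  have h22293 := checkRangeG_sound parWF r2 pf22292 h22292
  have h22294 := checkRangeG_sound parWF r2 pf22293 h22293
  have h22295 := checkRangeG_sound parWF r2 pf22294 h22294
  have h22296 := checkRangeG_sound parWF r2 pf22295 h22295
  have h22297 := checkRangeG_sound parWF r2 pf22296 h22296
  have h22298 := checkRangeG_sound parWF r2 pf22297 h22297
  have h22299 := checkRangeG_sound parWF r2 pf22298 h22298
  have h22300 := checkRangeG_sound parWF r2 pf22299 h22299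
  exact h22300

theorem c446 (h22300 : ∀ j, j < 70668 → GoodG.{u} par (db j)) : ∀ j, j < 70837 → GoodG.{u} par (db j) := by
  have h22301 := checkRangeG_sound parWF r2 pf22300 h22300
  have h22302 := checkRangeG_sound parWF r2 pf22301 h22301
  have h22303 := checkRangeG_sound parWF r2 pf22302 h22302
  have h22304 := checkRangeG_sound parWF r2 pf22303 h22303
  have h22305 := checkRangeG_sound parWF r2 pf22304 h22304
  have h22306 := checkRangeG_sound parWF r2 pf22305 h22305
  have h22307 := checkRangeG_sound parWF r2 pf22306 h22306
  have h22308 := checkRangeG_sound parWF r2 pf22307 h22307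
  have h22309 := checkRangeG_sound parWF r2 pf22308 h22308
  have h22310 := checkRangeG_sound parWF r2 pf22309 h22309
  have h22311 := checkRangeG_sound parWF r2 pf22310 h22310
  have h22312 := checkRangeG_sound parWF r2 pf22311 h22311
  have h22313 := checkRangeG_sound parWF r2 pf22312 h22312
  have h22314 := checkRangeG_sound parWF r2 pf22313 h22313
  have h22315 := checkRangeG_sound parWF r2 pf22314 h22314
  have h22316 := checkRangeG_sound parWF r2 pf22315 h22315
  have h22317 := checkRangeG_sound parWF r2 pf22316 h22316
  have h22318 := checkRangeG_sound parWF r2 pf22317 h22317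
  have h22319 := checkRangeG_sound parWF r2 pf22318 h22318
  have h22320 := checkRangeG_sound parWF r2 pf22319 h22319
  have h22321 := checkRangeG_sound parWF r2 pf22320 h22320
  have h22322 := checkRangeG_sound parWF r2 pf22321 h22321
  have h22323 := checkRangeG_sound parWF r2 pf22322 h22322
  have h22324 := checkRangeG_sound parWF r2 pf22323 h22323
  have h22325 := checkRangeG_sound parWF r2 pf22324 h22324
  have h22326 := checkRangeG_sound parWF r2 pf22325 h22325
  have h22327 := checkRangeG_sound parWF r2 pf22326 h22326
  have h22328 := checkRangeG_sound parWF r2 pf22327 h22327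
  have h22329 := checkRangeG_sound parWF r2 pf22328 h22328
  have h22330 := checkRangeG_sound parWF r2 pf22329 h22329
  have h22331 := checkRangeG_sound parWF r2 pf22330 h22330
  have h22332 := checkRangeG_sound parWF r2 pf22331 h22331
  have h22333 := checkRangeG_sound parWF r2 pf22332 h22332
  have h22334 := checkRangeG_sound parWF r2 pf22333 h22333
  have h22335 := checkRangeG_sound parWF r2 pf22334 h22334
  have h22336 := checkRangeG_sound parWF r2 pf22335 h22335
  have h22337 := checkRangeG_sound parWF r2 pf22336 h22336
  have h22338 := checkRangeG_sound parWF r2 pf22337 h22337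
  have h22339 := checkRangeG_sound parWF r2 pf22338 h22338
  have h22340 := checkRangeG_sound parWF r2 pf22339 h22339
  have h22341 := checkRangeG_sound parWF r2 pf22340 h22340
  have h22342 := checkRangeG_sound parWF r2 pf22341 h22341
  have h22343 := checkRangeG_sound parWF r2 pf22342 h22342
  have h22344 := checkRangeG_sound parWF r2 pf22343 h22343
  have h22345 := checkRangeG_sound parWF r2 pf22344 h22344
  have h22346 := checkRangeG_sound parWF r2 pf22345 h22345
  have h22347 := checkRangeG_sound parWF r2 pf22346 h22346
  have h22348 := checkRangeG_sound parWF r2 pf22347 h22347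
  have h22349 := checkRangeG_sound parWF r2 pf22348 h22348
  have h22350 := checkRangeG_sound parWF r2 pf22349 h22349
  exact h22350

theorem c447 (h22350 : ∀ j, j < 70837 → GoodG.{u} par (db j)) : ∀ j, j < 71012 → GoodG.{u} par (db j) := by
  have h22351 := checkRangeG_sound parWF r2 pf22350 h22350
  have h22352 := checkRangeG_sound parWF r2 pf22351 h22351
  have h22353 := checkRangeG_sound parWF r2 pf22352 h22352
  have h22354 := checkRangeG_sound parWF r2 pf22353 h22353
  have h22355 := checkRangeG_sound parWF r2 pf22354 h22354
  have h22356 := checkRangeG_sound parWF r2 pf22355 h22355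
  have h22357 := checkRangeG_sound parWF r2 pf22356 h22356
  have h22358 := checkRangeG_sound parWF r2 pf22357 h22357
  have h22359 := checkRangeG_sound parWF r2 pf22358 h22358
  have h22360 := checkRangeG_sound parWF r2 pf22359 h22359
  have h22361 := checkRangeG_sound parWF r2 pf22360 h22360
  have h22362 := checkRangeG_sound parWF r2 pf22361 h22361
  have h22363 := checkRangeG_sound parWF r2 pf22362 h22362
  have h22364 := checkRangeG_sound parWF r2 pf22363 h22363
  have h22365 := checkRangeG_sound parWF r2 pf22364 h22364
  have h22366 := checkRangeG_sound parWF r2 pf22365 h22365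
  have h22367 := checkRangeG_sound parWF r2 pf22366 h22366
  have h22368 := checkRangeG_sound parWF r2 pf22367 h22367
  have h22369 := checkRangeG_sound parWF r2 pf22368 h22368
  have h22370 := checkRangeG_sound parWF r2 pf22369 h22369
  have h22371 := checkRangeG_sound parWF r2 pf22370 h22370
  have h22372 := checkRangeG_sound parWF r2 pf22371 h22371
  have h22373 := checkRangeG_sound parWF r2 pf22372 h22372
  have h22374 := checkRangeG_sound parWF r2 pf22373 h22373
  have h22375 := checkRangeG_sound parWF r2 pf22374 h22374
  have h22376 := checkRangeG_sound parWF r2 pf22375 h22375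
  have h22377 := checkRangeG_sound parWF r2 pf22376 h22376
  have h22378 := checkRangeG_sound parWF r2 pf22377 h22377
  have h22379 := checkRangeG_sound parWF r2 pf22378 h22378
  have h22380 := checkRangeG_sound parWF r2 pf22379 h22379
  have h22381 := checkRangeG_sound parWF r2 pf22380 h22380
  have h22382 := checkRangeG_sound parWF r2 pf22381 h22381
  have h22383 := checkRangeG_sound parWF r2 pf22382 h22382
  have h22384 := checkRangeG_sound parWF r2 pf22383 h22383
  have h22385 := checkRangeG_sound parWF r2 pf22384 h22384
  have h22386 := checkRangeG_sound parWF r2 pf22385 h22385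
  have h22387 := checkRangeG_sound parWF r2 pf22386 h22386
  have h22388 := checkRangeG_sound parWF r2 pf22387 h22387
  have h22389 := checkRangeG_sound parWF r2 pf22388 h22388
  have h22390 := checkRangeG_sound parWF r2 pf22389 h22389
  have h22391 := checkRangeG_sound parWF r2 pf22390 h22390
  have h22392 := checkRangeG_sound parWF r2 pf22391 h22391
  have h22393 := checkRangeG_sound parWF r2 pf22392 h22392
  have h22394 := checkRangeG_sound parWF r2 pf22393 h22393
  have h22395 := checkRangeG_sound parWF r2 pf22394 h22394
  have h22396 := checkRangeG_sound parWF r2 pf22395 h22395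
  have h22397 := checkRangeG_sound parWF r2 pf22396 h22396
  have h22398 := checkRangeG_sound parWF r2 pf22397 h22397
  have h22399 := checkRangeG_sound parWF r2 pf22398 h22398
  have h22400 := checkRangeG_sound parWF r2 pf22399 h22399
  exact h22400

theorem c448 (h22400 : ∀ j, j < 71012 → GoodG.{u} par (db j)) : ∀ j, j < 71206 → GoodG.{u} par (db j) := by
  have h22401 := checkRangeG_sound parWF r2 pf22400 h22400
  have h22402 := checkRangeG_sound parWF r2 pf22401 h22401
  have h22403 := checkRangeG_sound parWF r2 pf22402 h22402
  have h22404 := checkRangeG_sound parWF r2 pf22403 h22403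
  have h22405 := checkRangeG_sound parWF r2 pf22404 h22404
  have h22406 := checkRangeG_sound parWF r2 pf22405 h22405
  have h22407 := checkRangeG_sound parWF r2 pf22406 h22406
  have h22408 := checkRangeG_sound parWF r2 pf22407 h22407
  have h22409 := checkRangeG_sound parWF r2 pf22408 h22408
  have h22410 := checkRangeG_sound parWF r2 pf22409 h22409
  have h22411 := checkRangeG_sound parWF r2 pf22410 h22410
  have h22412 := checkRangeG_sound parWF r2 pf22411 h22411
  have h22413 := checkRangeG_sound parWF r2 pf22412 h22412
  have h22414 := checkRangeG_sound parWF r2 pf22413 h22413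
  have h22415 := checkRangeG_sound parWF r2 pf22414 h22414
  have h22416 := checkRangeG_sound parWF r2 pf22415 h22415
  have h22417 := checkRangeG_sound parWF r2 pf22416 h22416
  have h22418 := checkRangeG_sound parWF r2 pf22417 h22417
  have h22419 := checkRangeG_sound parWF r2 pf22418 h22418
  have h22420 := checkRangeG_sound parWF r2 pf22419 h22419
  have h22421 := checkRangeG_sound parWF r2 pf22420 h22420
  have h22422 := checkRangeG_sound parWF r2 pf22421 h22421
  have h22423 := checkRangeG_sound parWF r2 pf22422 h22422
  have h22424 := checkRangeG_sound parWF r2 pf22423 h22423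
  have h22425 := checkRangeG_sound parWF r2 pf22424 h22424
  have h22426 := checkRangeG_sound parWF r2 pf22425 h22425
  have h22427 := checkRangeG_sound parWF r2 pf22426 h22426
  have h22428 := checkRangeG_sound parWF r2 pf22427 h22427
  have h22429 := checkRangeG_sound parWF r2 pf22428 h22428
  have h22430 := checkRangeG_sound parWF r2 pf22429 h22429
  have h22431 := checkRangeG_sound parWF r2 pf22430 h22430
  have h22432 := checkRangeG_sound parWF r2 pf22431 h22431
  have h22433 := checkRangeG_sound parWF r2 pf22432 h22432
  have h22434 := checkRangeG_sound parWF r2 pf22433 h22433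
  have h22435 := checkRangeG_sound parWF r2 pf22434 h22434
  have h22436 := checkRangeG_sound parWF r2 pf22435 h22435
  have h22437 := checkRangeG_sound parWF r2 pf22436 h22436
  have h22438 := checkRangeG_sound parWF r2 pf22437 h22437
  have h22439 := checkRangeG_sound parWF r2 pf22438 h22438
  have h22440 := checkRangeG_sound parWF r2 pf22439 h22439
  have h22441 := checkRangeG_sound parWF r2 pf22440 h22440
  have h22442 := checkRangeG_sound parWF r2 pf22441 h22441
  have h22443 := checkRangeG_sound parWF r2 pf22442 h22442
  have h22444 := checkRangeG_sound parWF r2 pf22443 h22443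
  have h22445 := checkRangeG_sound parWF r2 pf22444 h22444
  have h22446 := checkRangeG_sound parWF r2 pf22445 h22445
  have h22447 := checkRangeG_sound parWF r2 pf22446 h22446
  have h22448 := checkRangeG_sound parWF r2 pf22447 h22447
  have h22449 := checkRangeG_sound parWF r2 pf22448 h22448
  have h22450 := checkRangeG_sound parWF r2 pf22449 h22449
  exact h22450

theorem c449 (h22450 : ∀ j, j < 71206 → GoodG.{u} par (db j)) : ∀ j, j < 71390 → GoodG.{u} par (db j) := by
  have h22451 := checkRangeG_sound parWF r2 pf22450 h22450
  have h22452 := checkRangeG_sound parWF r2 pf22451 h22451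
  have h22453 := checkRangeG_sound parWF r2 pf22452 h22452
  have h22454 := checkRangeG_sound parWF r2 pf22453 h22453
  have h22455 := checkRangeG_sound parWF r2 pf22454 h22454
  have h22456 := checkRangeG_sound parWF r2 pf22455 h22455
  have h22457 := checkRangeG_sound parWF r2 pf22456 h22456
  have h22458 := checkRangeG_sound parWF r2 pf22457 h22457
  have h22459 := checkRangeG_sound parWF r2 pf22458 h22458
  have h22460 := checkRangeG_sound parWF r2 pf22459 h22459
  have h22461 := checkRangeG_sound parWF r2 pf22460 h22460
  have h22462 := checkRangeG_sound parWF r2 pf22461 h22461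
  have h22463 := checkRangeG_sound parWF r2 pf22462 h22462
  have h22464 := checkRangeG_sound parWF r2 pf22463 h22463
  have h22465 := checkRangeG_sound parWF r2 pf22464 h22464
  have h22466 := checkRangeG_sound parWF r2 pf22465 h22465
  have h22467 := checkRangeG_sound parWF r2 pf22466 h22466
  have h22468 := checkRangeG_sound parWF r2 pf22467 h22467
  have h22469 := checkRangeG_sound parWF r2 pf22468 h22468
  have h22470 := checkRangeG_sound parWF r2 pf22469 h22469
  have h22471 := checkRangeG_sound parWF r2 pf22470 h22470
  have h22472 := checkRangeG_sound parWF r2 pf22471 h22471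
  have h22473 := checkRangeG_sound parWF r2 pf22472 h22472
  have h22474 := checkRangeG_sound parWF r2 pf22473 h22473
  have h22475 := checkRangeG_sound parWF r2 pf22474 h22474
  have h22476 := checkRangeG_sound parWF r2 pf22475 h22475
  have h22477 := checkRangeG_sound parWF r2 pf22476 h22476
  have h22478 := checkRangeG_sound parWF r2 pf22477 h22477
  have h22479 := checkRangeG_sound parWF r2 pf22478 h22478
  have h22480 := checkRangeG_sound parWF r2 pf22479 h22479
  have h22481 := checkRangeG_sound parWF r2 pf22480 h22480
  have h22482 := checkRangeG_sound parWF r2 pf22481 h22481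
  have h22483 := checkRangeG_sound parWF r2 pf22482 h22482
  have h22484 := checkRangeG_sound parWF r2 pf22483 h22483
  have h22485 := checkRangeG_sound parWF r2 pf22484 h22484
  have h22486 := checkRangeG_sound parWF r2 pf22485 h22485
  have h22487 := checkRangeG_sound parWF r2 pf22486 h22486
  have h22488 := checkRangeG_sound parWF r2 pf22487 h22487
  have h22489 := checkRangeG_sound parWF r2 pf22488 h22488
  have h22490 := checkRangeG_sound parWF r2 pf22489 h22489
  have h22491 := checkRangeG_sound parWF r2 pf22490 h22490
  have h22492 := checkRangeG_sound parWF r2 pf22491 h22491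
  have h22493 := checkRangeG_sound parWF r2 pf22492 h22492
  have h22494 := checkRangeG_sound parWF r2 pf22493 h22493
  have h22495 := checkRangeG_sound parWF r2 pf22494 h22494
  have h22496 := checkRangeG_sound parWF r2 pf22495 h22495
  have h22497 := checkRangeG_sound parWF r2 pf22496 h22496
  have h22498 := checkRangeG_sound parWF r2 pf22497 h22497
  have h22499 := checkRangeG_sound parWF r2 pf22498 h22498
  have h22500 := checkRangeG_sound parWF r2 pf22499 h22499
  exact h22500

theorem c450 (h22500 : ∀ j, j < 71390 → GoodG.{u} par (db j)) : ∀ j, j < 71573 → GoodG.{u} par (db j) := by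
  have h22501 := checkRangeG_sound parWF r2 pf22500 h22500
  have h22502 := checkRangeG_sound parWF r2 pf22501 h22501
  have h22503 := checkRangeG_sound parWF r2 pf22502 h22502
  have h22504 := checkRangeG_sound parWF r2 pf22503 h22503
  have h22505 := checkRangeG_sound parWF r2 pf22504 h22504
  have h22506 := checkRangeG_sound parWF r2 pf22505 h22505
  have h22507 := checkRangeG_sound parWF r2 pf22506 h22506
  have h22508 := checkRangeG_sound parWF r2 pf22507 h22507
  have h22509 := checkRangeG_sound parWF r2 pf22508 h22508
  have h22510 := checkRangeG_sound parWF r2 pf22509 h22509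
  have h22511 := checkRangeG_sound parWF r2 pf22510 h22510
  have h22512 := checkRangeG_sound parWF r2 pf22511 h22511
  have h22513 := checkRangeG_sound parWF r2 pf22512 h22512
  have h22514 := checkRangeG_sound parWF r2 pf22513 h22513
  have h22515 := checkRangeG_sound parWF r2 pf22514 h22514
  have h22516 := checkRangeG_sound parWF r2 pf22515 h22515
  have h22517 := checkRangeG_sound parWF r2 pf22516 h22516
  have h22518 := checkRangeG_sound parWF r2 pf22517 h22517
  have h22519 := checkRangeG_sound parWF r2 pf22518 h22518
  have h22520 := checkRangeG_sound parWF r2 pf22519 h22519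
  have h22521 := checkRangeG_sound parWF r2 pf22520 h22520
  have h22522 := checkRangeG_sound parWF r2 pf22521 h22521
  have h22523 := checkRangeG_sound parWF r2 pf22522 h22522
  have h22524 := checkRangeG_sound parWF r2 pf22523 h22523
  have h22525 := checkRangeG_sound parWF r2 pf22524 h22524
  have h22526 := checkRangeG_sound parWF r2 pf22525 h22525
  have h22527 := checkRangeG_sound parWF r2 pf22526 h22526
  have h22528 := checkRangeG_sound parWF r2 pf22527 h22527
  have h22529 := checkRangeG_sound parWF r2 pf22528 h22528
  have h22530 := checkRangeG_sound parWF r2 pf22529 h22529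
  have h22531 := checkRangeG_sound parWF r2 pf22530 h22530
  have h22532 := checkRangeG_sound parWF r2 pf22531 h22531
  have h22533 := checkRangeG_sound parWF r2 pf22532 h22532
  have h22534 := checkRangeG_sound parWF r2 pf22533 h22533
  have h22535 := checkRangeG_sound parWF r2 pf22534 h22534
  have h22536 := checkRangeG_sound parWF r2 pf22535 h22535
  have h22537 := checkRangeG_sound parWF r2 pf22536 h22536
  have h22538 := checkRangeG_sound parWF r2 pf22537 h22537
  have h22539 := checkRangeG_sound parWF r2 pf22538 h22538
  have h22540 := checkRangeG_sound parWF r2 pf22539 h22539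
  have h22541 := checkRangeG_sound parWF r2 pf22540 h22540
  have h22542 := checkRangeG_sound parWF r2 pf22541 h22541
  have h22543 := checkRangeG_sound parWF r2 pf22542 h22542
  have h22544 := checkRangeG_sound parWF r2 pf22543 h22543
  have h22545 := checkRangeG_sound parWF r2 pf22544 h22544
  have h22546 := checkRangeG_sound parWF r2 pf22545 h22545
  have h22547 := checkRangeG_sound parWF r2 pf22546 h22546
  have h22548 := checkRangeG_sound parWF r2 pf22547 h22547
  have h22549 := checkRangeG_sound parWF r2 pf22548 h22548
  have h22550 := checkRangeG_sound parWF r2 pf22549 h22549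
  exact h22550

theorem c451 (h22550 : ∀ j, j < 71573 → GoodG.{u} par (db j)) : ∀ j, j < 71769 → GoodG.{u} par (db j) := by
  have h22551 := checkRangeG_sound parWF r2 pf22550 h22550
  have h22552 := checkRangeG_sound parWF r2 pf22551 h22551
  have h22553 := checkRangeG_sound parWF r2 pf22552 h22552
  have h22554 := checkRangeG_sound parWF r2 pf22553 h22553
  have h22555 := checkRangeG_sound parWF r2 pf22554 h22554
  have h22556 := checkRangeG_sound parWF r2 pf22555 h22555
  have h22557 := checkRangeG_sound parWF r2 pf22556 h22556
  have h22558 := checkRangeG_sound parWF r2 pf22557 h22557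
  have h22559 := checkRangeG_sound parWF r2 pf22558 h22558
  have h22560 := checkRangeG_sound parWF r2 pf22559 h22559
  have h22561 := checkRangeG_sound parWF r2 pf22560 h22560
  have h22562 := checkRangeG_sound parWF r2 pf22561 h22561
  have h22563 := checkRangeG_sound parWF r2 pf22562 h22562
  have h22564 := checkRangeG_sound parWF r2 pf22563 h22563
  have h22565 := checkRangeG_sound parWF r2 pf22564 h22564
  have h22566 := checkRangeG_sound parWF r2 pf22565 h22565
  have h22567 := checkRangeG_sound parWF r2 pf22566 h22566
  have h22568 := checkRangeG_sound parWF r2 pf22567 h22567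
  have h22569 := checkRangeG_sound parWF r2 pf22568 h22568
  have h22570 := checkRangeG_sound parWF r2 pf22569 h22569
  have h22571 := checkRangeG_sound parWF r2 pf22570 h22570
  have h22572 := checkRangeG_sound parWF r2 pf22571 h22571
  have h22573 := checkRangeG_sound parWF r2 pf22572 h22572
  have h22574 := checkRangeG_sound parWF r2 pf22573 h22573
  have h22575 := checkRangeG_sound parWF r2 pf22574 h22574
  have h22576 := checkRangeG_sound parWF r2 pf22575 h22575
  have h22577 := checkRangeG_sound parWF r2 pf22576 h22576
  have h22578 := checkRangeG_sound parWF r2 pf22577 h22577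
  have h22579 := checkRangeG_sound parWF r2 pf22578 h22578
  have h22580 := checkRangeG_sound parWF r2 pf22579 h22579
  have h22581 := checkRangeG_sound parWF r2 pf22580 h22580
  have h22582 := checkRangeG_sound parWF r2 pf22581 h22581
  have h22583 := checkRangeG_sound parWF r2 pf22582 h22582
  have h22584 := checkRangeG_sound parWF r2 pf22583 h22583
  have h22585 := checkRangeG_sound parWF r2 pf22584 h22584
  have h22586 := checkRangeG_sound parWF r2 pf22585 h22585
  have h22587 := checkRangeG_sound parWF r2 pf22586 h22586
  have h22588 := checkRangeG_sound parWF r2 pf22587 h22587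
  have h22589 := checkRangeG_sound parWF r2 pf22588 h22588
  have h22590 := checkRangeG_sound parWF r2 pf22589 h22589
  have h22591 := checkRangeG_sound parWF r2 pf22590 h22590
  have h22592 := checkRangeG_sound parWF r2 pf22591 h22591
  have h22593 := checkRangeG_sound parWF r2 pf22592 h22592
  have h22594 := checkRangeG_sound parWF r2 pf22593 h22593
  have h22595 := checkRangeG_sound parWF r2 pf22594 h22594
  have h22596 := checkRangeG_sound parWF r2 pf22595 h22595
  have h22597 := checkRangeG_sound parWF r2 pf22596 h22596
  have h22598 := checkRangeG_sound parWF r2 pf22597 h22597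
  have h22599 := checkRangeG_sound parWF r2 pf22598 h22598
  have h22600 := checkRangeG_sound parWF r2 pf22599 h22599
  exact h22600

theorem c452 (h22600 : ∀ j, j < 71769 → GoodG.{u} par (db j)) : ∀ j, j < 71945 → GoodG.{u} par (db j) := by
  have h22601 := checkRangeG_sound parWF r2 pf22600 h22600
  have h22602 := checkRangeG_sound parWF r2 pf22601 h22601
  have h22603 := checkRangeG_sound parWF r2 pf22602 h22602
  have h22604 := checkRangeG_sound parWF r2 pf22603 h22603
  have h22605 := checkRangeG_sound parWF r2 pf22604 h22604
  have h22606 := checkRangeG_sound parWF r2 pf22605 h22605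
  have h22607 := checkRangeG_sound parWF r2 pf22606 h22606
  have h22608 := checkRangeG_sound parWF r2 pf22607 h22607
  have h22609 := checkRangeG_sound parWF r2 pf22608 h22608
  have h22610 := checkRangeG_sound parWF r2 pf22609 h22609
  have h22611 := checkRangeG_sound parWF r2 pf22610 h22610
  have h22612 := checkRangeG_sound parWF r2 pf22611 h22611
  have h22613 := checkRangeG_sound parWF r2 pf22612 h22612
  have h22614 := checkRangeG_sound parWF r2 pf22613 h22613
  have h22615 := checkRangeG_sound parWF r2 pf22614 h22614
  have h22616 := checkRangeG_sound parWF r2 pf22615 h22615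
  have h22617 := checkRangeG_sound parWF r2 pf22616 h22616
  have h22618 := checkRangeG_sound parWF r2 pf22617 h22617
  have h22619 := checkRangeG_sound parWF r2 pf22618 h22618
  have h22620 := checkRangeG_sound parWF r2 pf22619 h22619
  have h22621 := checkRangeG_sound parWF r2 pf22620 h22620
  have h22622 := checkRangeG_sound parWF r2 pf22621 h22621
  have h22623 := checkRangeG_sound parWF r2 pf22622 h22622
  have h22624 := checkRangeG_sound parWF r2 pf22623 h22623
  have h22625 := checkRangeG_sound parWF r2 pf22624 h22624
  have h22626 := checkRangeG_sound parWF r2 pf22625 h22625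
  have h22627 := checkRangeG_sound parWF r2 pf22626 h22626
  have h22628 := checkRangeG_sound parWF r2 pf22627 h22627
  have h22629 := checkRangeG_sound parWF r2 pf22628 h22628
  have h22630 := checkRangeG_sound parWF r2 pf22629 h22629
  have h22631 := checkRangeG_sound parWF r2 pf22630 h22630
  have h22632 := checkRangeG_sound parWF r2 pf22631 h22631
  have h22633 := checkRangeG_sound parWF r2 pf22632 h22632
  have h22634 := checkRangeG_sound parWF r2 pf22633 h22633
  have h22635 := checkRangeG_sound parWF r2 pf22634 h22634
  have h22636 := checkRangeG_sound parWF r2 pf22635 h22635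
  have h22637 := checkRangeG_sound parWF r2 pf22636 h22636
  have h22638 := checkRangeG_sound parWF r2 pf22637 h22637
  have h22639 := checkRangeG_sound parWF r2 pf22638 h22638
  have h22640 := checkRangeG_sound parWF r2 pf22639 h22639
  have h22641 := checkRangeG_sound parWF r2 pf22640 h22640
  have h22642 := checkRangeG_sound parWF r2 pf22641 h22641
  have h22643 := checkRangeG_sound parWF r2 pf22642 h22642
  have h22644 := checkRangeG_sound parWF r2 pf22643 h22643
  have h22645 := checkRangeG_sound parWF r2 pf22644 h22644
  have h22646 := checkRangeG_sound parWF r2 pf22645 h22645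
  have h22647 := checkRangeG_sound parWF r2 pf22646 h22646
  have h22648 := checkRangeG_sound parWF r2 pf22647 h22647
  have h22649 := checkRangeG_sound parWF r2 pf22648 h22648
  have h22650 := checkRangeG_sound parWF r2 pf22649 h22649
  exact h22650

theorem c453 (h22650 : ∀ j, j < 71945 → GoodG.{u} par (db j)) : ∀ j, j < 72126 → GoodG.{u} par (db j) := by
  have h22651 := checkRangeG_sound parWF r2 pf22650 h22650
  have h22652 := checkRangeG_sound parWF r2 pf22651 h22651
  have h22653 := checkRangeG_sound parWF r2 pf22652 h22652
  have h22654 := checkRangeG_sound parWF r2 pf22653 h22653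
  have h22655 := checkRangeG_sound parWF r2 pf22654 h22654
  have h22656 := checkRangeG_sound parWF r2 pf22655 h22655
  have h22657 := checkRangeG_sound parWF r2 pf22656 h22656
  have h22658 := checkRangeG_sound parWF r2 pf22657 h22657
  have h22659 := checkRangeG_sound parWF r2 pf22658 h22658
  have h22660 := checkRangeG_sound parWF r2 pf22659 h22659
  have h22661 := checkRangeG_sound parWF r2 pf22660 h22660
  have h22662 := checkRangeG_sound parWF r2 pf22661 h22661
  have h22663 := checkRangeG_sound parWF r2 pf22662 h22662
  have h22664 := checkRangeG_sound parWF r2 pf22663 h22663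
  have h22665 := checkRangeG_sound parWF r2 pf22664 h22664
  have h22666 := checkRangeG_sound parWF r2 pf22665 h22665
  have h22667 := checkRangeG_sound parWF r2 pf22666 h22666
  have h22668 := checkRangeG_sound parWF r2 pf22667 h22667
  have h22669 := checkRangeG_sound parWF r2 pf22668 h22668
  have h22670 := checkRangeG_sound parWF r2 pf22669 h22669
  have h22671 := checkRangeG_sound parWF r2 pf22670 h22670
  have h22672 := checkRangeG_sound parWF r2 pf22671 h22671
  have h22673 := checkRangeG_sound parWF r2 pf22672 h22672
  have h22674 := checkRangeG_sound parWF r2 pf22673 h22673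
  have h22675 := checkRangeG_sound parWF r2 pf22674 h22674
  have h22676 := checkRangeG_sound parWF r2 pf22675 h22675
  have h22677 := checkRangeG_sound parWF r2 pf22676 h22676
  have h22678 := checkRangeG_sound parWF r2 pf22677 h22677
  have h22679 := checkRangeG_sound parWF r2 pf22678 h22678
  have h22680 := checkRangeG_sound parWF r2 pf22679 h22679
  have h22681 := checkRangeG_sound parWF r2 pf22680 h22680
  have h22682 := checkRangeG_sound parWF r2 pf22681 h22681
  have h22683 := checkRangeG_sound parWF r2 pf22682 h22682
  have h22684 := checkRangeG_sound parWF r2 pf22683 h22683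
  have h22685 := checkRangeG_sound parWF r2 pf22684 h22684
  have h22686 := checkRangeG_sound parWF r2 pf22685 h22685
  have h22687 := checkRangeG_sound parWF r2 pf22686 h22686
  have h22688 := checkRangeG_sound parWF r2 pf22687 h22687
  have h22689 := checkRangeG_sound parWF r2 pf22688 h22688
  have h22690 := checkRangeG_sound parWF r2 pf22689 h22689
  have h22691 := checkRangeG_sound parWF r2 pf22690 h22690
  have h22692 := checkRangeG_sound parWF r2 pf22691 h22691
  have h22693 := checkRangeG_sound parWF r2 pf22692 h22692
  have h22694 := checkRangeG_sound parWF r2 pf22693 h22693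
  have h22695 := checkRangeG_sound parWF r2 pf22694 h22694
  have h22696 := checkRangeG_sound parWF r2 pf22695 h22695
  have h22697 := checkRangeG_sound parWF r2 pf22696 h22696
  have h22698 := checkRangeG_sound parWF r2 pf22697 h22697
  have h22699 := checkRangeG_sound parWF r2 pf22698 h22698
  have h22700 := checkRangeG_sound parWF r2 pf22699 h22699
  exact h22700

theorem c454 (h22700 : ∀ j, j < 72126 → GoodG.{u} par (db j)) : ∀ j, j < 72300 → GoodG.{u} par (db j) := by
  have h22701 := checkRangeG_sound parWF r2 pf22700 h22700
  have h22702 := checkRangeG_sound parWF r2 pf22701 h22701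
  have h22703 := checkRangeG_sound parWF r2 pf22702 h22702
  have h22704 := checkRangeG_sound parWF r2 pf22703 h22703
  have h22705 := checkRangeG_sound parWF r2 pf22704 h22704
  have h22706 := checkRangeG_sound parWF r2 pf22705 h22705
  have h22707 := checkRangeG_sound parWF r2 pf22706 h22706
  have h22708 := checkRangeG_sound parWF r2 pf22707 h22707
  have h22709 := checkRangeG_sound parWF r2 pf22708 h22708
  have h22710 := checkRangeG_sound parWF r2 pf22709 h22709
  have h22711 := checkRangeG_sound parWF r2 pf22710 h22710
  have h22712 := checkRangeG_sound parWF r2 pf22711 h22711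
  have h22713 := checkRangeG_sound parWF r2 pf22712 h22712
  have h22714 := checkRangeG_sound parWF r2 pf22713 h22713
  have h22715 := checkRangeG_sound parWF r2 pf22714 h22714
  have h22716 := checkRangeG_sound parWF r2 pf22715 h22715
  have h22717 := checkRangeG_sound parWF r2 pf22716 h22716
  have h22718 := checkRangeG_sound parWF r2 pf22717 h22717
  have h22719 := checkRangeG_sound parWF r2 pf22718 h22718
  have h22720 := checkRangeG_sound parWF r2 pf22719 h22719
  have h22721 := checkRangeG_sound parWF r2 pf22720 h22720
  have h22722 := checkRangeG_sound parWF r2 pf22721 h22721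
  have h22723 := checkRangeG_sound parWF r2 pf22722 h22722
  have h22724 := checkRangeG_sound parWF r2 pf22723 h22723
  have h22725 := checkRangeG_sound parWF r2 pf22724 h22724
  have h22726 := checkRangeG_sound parWF r2 pf22725 h22725
  have h22727 := checkRangeG_sound parWF r2 pf22726 h22726
  have h22728 := checkRangeG_sound parWF r2 pf22727 h22727
  have h22729 := checkRangeG_sound parWF r2 pf22728 h22728
  have h22730 := checkRangeG_sound parWF r2 pf22729 h22729
  have h22731 := checkRangeG_sound parWF r2 pf22730 h22730
  have h22732 := checkRangeG_sound parWF r2 pf22731 h22731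
  have h22733 := checkRangeG_sound parWF r2 pf22732 h22732
  have h22734 := checkRangeG_sound parWF r2 pf22733 h22733
  have h22735 := checkRangeG_sound parWF r2 pf22734 h22734
  have h22736 := checkRangeG_sound parWF r2 pf22735 h22735
  have h22737 := checkRangeG_sound parWF r2 pf22736 h22736
  have h22738 := checkRangeG_sound parWF r2 pf22737 h22737
  have h22739 := checkRangeG_sound parWF r2 pf22738 h22738
  have h22740 := checkRangeG_sound parWF r2 pf22739 h22739
  have h22741 := checkRangeG_sound parWF r2 pf22740 h22740
  have h22742 := checkRangeG_sound parWF r2 pf22741 h22741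
  have h22743 := checkRangeG_sound parWF r2 pf22742 h22742
  have h22744 := checkRangeG_sound parWF r2 pf22743 h22743
  have h22745 := checkRangeG_sound parWF r2 pf22744 h22744
  have h22746 := checkRangeG_sound parWF r2 pf22745 h22745
  have h22747 := checkRangeG_sound parWF r2 pf22746 h22746
  have h22748 := checkRangeG_sound parWF r2 pf22747 h22747
  have h22749 := checkRangeG_sound parWF r2 pf22748 h22748
  have h22750 := checkRangeG_sound parWF r2 pf22749 h22749
  exact h22750

theorem c455 (h22750 : ∀ j, j < 72300 → GoodG.{u} par (db j)) : ∀ j, j < 72484 → GoodG.{u} par (db j) := by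
  have h22751 := checkRangeG_sound parWF r2 pf22750 h22750
  have h22752 := checkRangeG_sound parWF r2 pf22751 h22751
  have h22753 := checkRangeG_sound parWF r2 pf22752 h22752
  have h22754 := checkRangeG_sound parWF r2 pf22753 h22753
  have h22755 := checkRangeG_sound parWF r2 pf22754 h22754
  have h22756 := checkRangeG_sound parWF r2 pf22755 h22755
  have h22757 := checkRangeG_sound parWF r2 pf22756 h22756
  have h22758 := checkRangeG_sound parWF r2 pf22757 h22757
  have h22759 := checkRangeG_sound parWF r2 pf22758 h22758
  have h22760 := checkRangeG_sound parWF r2 pf22759 h22759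
  have h22761 := checkRangeG_sound parWF r2 pf22760 h22760
  have h22762 := checkRangeG_sound parWF r2 pf22761 h22761
  have h22763 := checkRangeG_sound parWF r2 pf22762 h22762
  have h22764 := checkRangeG_sound parWF r2 pf22763 h22763
  have h22765 := checkRangeG_sound parWF r2 pf22764 h22764
  have h22766 := checkRangeG_sound parWF r2 pf22765 h22765
  have h22767 := checkRangeG_sound parWF r2 pf22766 h22766
  have h22768 := checkRangeG_sound parWF r2 pf22767 h22767
  have h22769 := checkRangeG_sound parWF r2 pf22768 h22768
  have h22770 := checkRangeG_sound parWF r2 pf22769 h22769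
  have h22771 := checkRangeG_sound parWF r2 pf22770 h22770
  have h22772 := checkRangeG_sound parWF r2 pf22771 h22771
  have h22773 := checkRangeG_sound parWF r2 pf22772 h22772
  have h22774 := checkRangeG_sound parWF r2 pf22773 h22773
  have h22775 := checkRangeG_sound parWF r2 pf22774 h22774
  have h22776 := checkRangeG_sound parWF r2 pf22775 h22775
  have h22777 := checkRangeG_sound parWF r2 pf22776 h22776
  have h22778 := checkRangeG_sound parWF r2 pf22777 h22777
  have h22779 := checkRangeG_sound parWF r2 pf22778 h22778
  have h22780 := checkRangeG_sound parWF r2 pf22779 h22779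
  have h22781 := checkRangeG_sound parWF r2 pf22780 h22780
  have h22782 := checkRangeG_sound parWF r2 pf22781 h22781
  have h22783 := checkRangeG_sound parWF r2 pf22782 h22782
  have h22784 := checkRangeG_sound parWF r2 pf22783 h22783
  have h22785 := checkRangeG_sound parWF r2 pf22784 h22784
  have h22786 := checkRangeG_sound parWF r2 pf22785 h22785
  have h22787 := checkRangeG_sound parWF r2 pf22786 h22786
  have h22788 := checkRangeG_sound parWF r2 pf22787 h22787
  have h22789 := checkRangeG_sound parWF r2 pf22788 h22788
  have h22790 := checkRangeG_sound parWF r2 pf22789 h22789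
  have h22791 := checkRangeG_sound parWF r2 pf22790 h22790
  have h22792 := checkRangeG_sound parWF r2 pf22791 h22791
  have h22793 := checkRangeG_sound parWF r2 pf22792 h22792
  have h22794 := checkRangeG_sound parWF r2 pf22793 h22793
  have h22795 := checkRangeG_sound parWF r2 pf22794 h22794
  have h22796 := checkRangeG_sound parWF r2 pf22795 h22795
  have h22797 := checkRangeG_sound parWF r2 pf22796 h22796
  have h22798 := checkRangeG_sound parWF r2 pf22797 h22797
  have h22799 := checkRangeG_sound parWF r2 pf22798 h22798
  have h22800 := checkRangeG_sound parWF r2 pf22799 h22799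
  exact h22800


end Vale.Agent.P045g.C61
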