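import Vale.Agent.P045g.C61.WF
import Vale.Agent.P045g.C61.Pf380
import Vale.Agent.P045g.C61.Pf381
import Vale.Agent.P045g.C61.Pf382
import Vale.Agent.P045g.C61.Pf383
import Vale.Agent.P045g.C61.Pf384
import Vale.Agent.P045g.C61.Pf385
import Vale.Agent.P045g.C61.Pf386
import Vale.Agent.P045g.C61.Pf387
import Vale.Agent.P045g.C61.Pf388
import Vale.Agent.P045g.C61.Pf389

namespace Vale.Agent.P045g.C61

open Vale.Agent.P045b Vale.Agent.P045g

universe u

theorem c456 (h22800 : ∀ j, j < 72484 → GoodG.{u} par (db j)) : ∀ j, j < 72671 → GoodG.{u} par (db j) := by
  have h22801 := checkRangeG_sound parWF r2 pf22800 h22800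
  have h22802 := checkRangeG_sound parWF r2 pf22801 h22801
  have h22803 := checkRangeG_sound parWF r2 pf22802 h22802
  have h22804 := checkRangeG_sound parWF r2 pf22803 h22803
  have h22805 := checkRangeG_sound parWF r2 pf22804 h22804
  have h22806 := checkRangeG_sound parWF r2 pf22805 h22805
  have h22807 := checkRangeG_sound parWF r2 pf22806 h22806
  have h22808 := checkRangeG_sound parWF r2 pf22807 h22807
  have h22809 := checkRangeG_sound parWF r2 pf22808 h22808
  have h22810 := checkRangeG_sound parWF r2 pf22809 h22809
  have h22811 := checkRangeG_sound parWF r2 pf22810 h22810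
  have h22812 := checkRangeG_sound parWF r2 pf22811 h22811
  have h22813 := checkRangeG_sound parWF r2 pf22812 h22812
  have h22814 := checkRangeG_sound parWF r2 pf22813 h22813
  have h22815 := checkRangeG_sound parWF r2 pf22814 h22814
  have h22816 := checkRangeG_sound parWF r2 pf22815 h22815
  have h22817 := checkRangeG_sound parWF r2 pf22816 h22816
  have h22818 := checkRangeG_sound parWF r2 pf22817 h22817
  have h22819 := checkRangeG_sound parWF r2 pf22818 h22818
  have h22820 := checkRangeG_sound parWF r2 pf22819 h22819
  have h22821 := checkRangeG_sound parWF r2 pf22820 h22820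
  have h22822 := checkRangeG_sound parWF r2 pf22821 h22821
  have h22823 := checkRangeG_sound parWF r2 pf22822 h22822
  have h22824 := checkRangeG_sound parWF r2 pf22823 h22823
  have h22825 := checkRangeG_sound parWF r2 pf22824 h22824
  have h22826 := checkRangeG_sound parWF r2 pf22825 h22825
  have h22827 := checkRangeG_sound parWF r2 pf22826 h22826
  have h22828 := checkRangeG_sound parWF r2 pf22827 h22827
  have h22829 := checkRangeG_sound parWF r2 pf22828 h22828
  have h22830 := checkRangeG_sound parWF r2 pf22829 h22829
  have h22831 := checkRangeG_sound parWF r2 pf22830 h22830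
  have h22832 := checkRangeG_sound parWF r2 pf22831 h22831
  have h22833 := checkRangeG_sound parWF r2 pf22832 h22832
  have h22834 := checkRangeG_sound parWF r2 pf22833 h22833
  have h22835 := checkRangeG_sound parWF r2 pf22834 h22834
  have h22836 := checkRangeG_sound parWF r2 pf22835 h22835
  have h22837 := checkRangeG_sound parWF r2 pf22836 h22836
  have h22838 := checkRangeG_sound parWF r2 pf22837 h22837
  have h22839 := checkRangeG_sound parWF r2 pf22838 h22838
  have h22840 := checkRangeG_sound parWF r2 pf22839 h22839
  have h22841 := checkRangeG_sound parWF r2 pf22840 h22840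
  have h22842 := checkRangeG_sound parWF r2 pf22841 h22841
  have h22843 := checkRangeG_sound parWF r2 pf22842 h22842
  have h22844 := checkRangeG_sound parWF r2 pf22843 h22843
  have h22845 := checkRangeG_sound parWF r2 pf22844 h22844
  have h22846 := checkRangeG_sound parWF r2 pf22845 h22845
  have h22847 := checkRangeG_sound parWF r2 pf22846 h22846
  have h22848 := checkRangeG_sound parWF r2 pf22847 h22847
  have h22849 := checkRangeG_sound parWF r2 pf22848 h22848
  have h22850 := checkRangeG_sound parWF r2 pf22849 h22849
  exact h22850

theorem c457 (h22850 : ∀ j, j < 72671 → GoodG.{u} par (db j)) : ∀ j, j < 72854 → GoodG.{u} par (db j) := by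
  have h22851 := checkRangeG_sound parWF r2 pf22850 h22850
  have h22852 := checkRangeG_sound parWF r2 pf22851 h22851
  have h22853 := checkRangeG_sound parWF r2 pf22852 h22852
  have h22854 := checkRangeG_sound parWF r2 pf22853 h22853
  have h22855 := checkRangeG_sound parWF r2 pf22854 h22854
  have h22856 := checkRangeG_sound parWF r2 pf22855 h22855
  have h22857 := checkRangeG_sound parWF r2 pf22856 h22856
  have h22858 := checkRangeG_sound parWF r2 pf22857 h22857
  have h22859 := checkRangeG_sound parWF r2 pf22858 h22858
  have h22860 := checkRangeG_sound parWF r2 pf22859 h22859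
  have h22861 := checkRangeG_sound parWF r2 pf22860 h22860
  have h22862 := checkRangeG_sound parWF r2 pf22861 h22861
  have h22863 := checkRangeG_sound parWF r2 pf22862 h22862
  have h22864 := checkRangeG_sound parWF r2 pf22863 h22863
  have h22865 := checkRangeG_sound parWF r2 pf22864 h22864
  have h22866 := checkRangeG_sound parWF r2 pf22865 h22865
  have h22867 := checkRangeG_sound parWF r2 pf22866 h22866
  have h22868 := checkRangeG_sound parWF r2 pf22867 h22867
  have h22869 := checkRangeG_sound parWF r2 pf22868 h22868
  have h22870 := checkRangeG_sound parWF r2 pf22869 h22869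
  have h22871 := checkRangeG_sound parWF r2 pf22870 h22870
  have h22872 := checkRangeG_sound parWF r2 pf22871 h22871
  have h22873 := checkRangeG_sound parWF r2 pf22872 h22872
  have h22874 := checkRangeG_sound parWF r2 pf22873 h22873
  have h22875 := checkRangeG_sound parWF r2 pf22874 h22874
  have h22876 := checkRangeG_sound parWF r2 pf22875 h22875
  have h22877 := checkRangeG_sound parWF r2 pf22876 h22876
  have h22878 := checkRangeG_sound parWF r2 pf22877 h22877
  have h22879 := checkRangeG_sound parWF r2 pf22878 h22878
  have h22880 := checkRangeG_sound parWF r2 pf22879 h22879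
  have h22881 := checkRangeG_sound parWF r2 pf22880 h22880
  have h22882 := checkRangeG_sound parWF r2 pf22881 h22881
  have h22883 := checkRangeG_sound parWF r2 pf22882 h22882
  have h22884 := checkRangeG_sound parWF r2 pf22883 h22883
  have h22885 := checkRangeG_sound parWF r2 pf22884 h22884
  have h22886 := checkRangeG_sound parWF r2 pf22885 h22885
  have h22887 := checkRangeG_sound parWF r2 pf22886 h22886
  have h22888 := checkRangeG_sound parWF r2 pf22887 h22887
  have h22889 := checkRangeG_sound parWF r2 pf22888 h22888
  have h22890 := checkRangeG_sound parWF r2 pf22889 h22889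
  have h22891 := checkRangeG_sound parWF r2 pf22890 h22890
  have h22892 := checkRangeG_sound parWF r2 pf22891 h22891
  have h22893 := checkRangeG_sound parWF r2 pf22892 h22892
  have h22894 := checkRangeG_sound parWF r2 pf22893 h22893
  have h22895 := checkRangeG_sound parWF r2 pf22894 h22894
  have h22896 := checkRangeG_sound parWF r2 pf22895 h22895
  have h22897 := checkRangeG_sound parWF r2 pf22896 h22896
  have h22898 := checkRangeG_sound parWF r2 pf22897 h22897
  have h22899 := checkRangeG_sound parWF r2 pf22898 h22898
  have h22900 := checkRangeG_sound parWF r2 pf22899 h22899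
  exact h22900

theorem c458 (h22900 : ∀ j, j < 72854 → GoodG.{u} par (db j)) : ∀ j, j < 73044 → GoodG.{u} par (db j) := by
  have h22901 := checkRangeG_sound parWF r2 pf22900 h22900
  have h22902 := checkRangeG_sound parWF r2 pf22901 h22901
  have h22903 := checkRangeG_sound parWF r2 pf22902 h22902
  have h22904 := checkRangeG_sound parWF r2 pf22903 h22903
  have h22905 := checkRangeG_sound parWF r2 pf22904 h22904
  have h22906 := checkRangeG_sound parWF r2 pf22905 h22905
  have h22907 := checkRangeG_sound parWF r2 pf22906 h22906
  have h22908 := checkRangeG_sound parWF r2 pf22907 h22907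
  have h22909 := checkRangeG_sound parWF r2 pf22908 h22908
  have h22910 := checkRangeG_sound parWF r2 pf22909 h22909
  have h22911 := checkRangeG_sound parWF r2 pf22910 h22910
  have h22912 := checkRangeG_sound parWF r2 pf22911 h22911
  have h22913 := checkRangeG_sound parWF r2 pf22912 h22912
  have h22914 := checkRangeG_sound parWF r2 pf22913 h22913
  have h22915 := checkRangeG_sound parWF r2 pf22914 h22914
  have h22916 := checkRangeG_sound parWF r2 pf22915 h22915
  have h22917 := checkRangeG_sound parWF r2 pf22916 h22916
  have h22918 := checkRangeG_sound parWF r2 pf22917 h22917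
  have h22919 := checkRangeG_sound parWF r2 pf22918 h22918
  have h22920 := checkRangeG_sound parWF r2 pf22919 h22919
  have h22921 := checkRangeG_sound parWF r2 pf22920 h22920
  have h22922 := checkRangeG_sound parWF r2 pf22921 h22921
  have h22923 := checkRangeG_sound parWF r2 pf22922 h22922
  have h22924 := checkRangeG_sound parWF r2 pf22923 h22923
  have h22925 := checkRangeG_sound parWF r2 pf22924 h22924
  have h22926 := checkRangeG_sound parWF r2 pf22925 h22925
  have h22927 := checkRangeG_sound parWF r2 pf22926 h22926
  have h22928 := checkRangeG_sound parWF r2 pf22927 h22927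
  have h22929 := checkRangeG_sound parWF r2 pf22928 h22928
  have h22930 := checkRangeG_sound parWF r2 pf22929 h22929
  have h22931 := checkRangeG_sound parWF r2 pf22930 h22930
  have h22932 := checkRangeG_sound parWF r2 pf22931 h22931
  have h22933 := checkRangeG_sound parWF r2 pf22932 h22932
  have h22934 := checkRangeG_sound parWF r2 pf22933 h22933
  have h22935 := checkRangeG_sound parWF r2 pf22934 h22934
  have h22936 := checkRangeG_sound parWF r2 pf22935 h22935
  have h22937 := checkRangeG_sound parWF r2 pf22936 h22936
  have h22938 := checkRangeG_sound parWF r2 pf22937 h22937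
  have h22939 := checkRangeG_sound parWF r2 pf22938 h22938
  have h22940 := checkRangeG_sound parWF r2 pf22939 h22939
  have h22941 := checkRangeG_sound parWF r2 pf22940 h22940
  have h22942 := checkRangeG_sound parWF r2 pf22941 h22941
  have h22943 := checkRangeG_sound parWF r2 pf22942 h22942
  have h22944 := checkRangeG_sound parWF r2 pf22943 h22943
  have h22945 := checkRangeG_sound parWF r2 pf22944 h22944
  have h22946 := checkRangeG_sound parWF r2 pf22945 h22945
  have h22947 := checkRangeG_sound parWF r2 pf22946 h22946
  have h22948 := checkRangeG_sound parWF r2 pf22947 h22947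
  have h22949 := checkRangeG_sound parWF r2 pf22948 h22948
  have h22950 := checkRangeG_sound parWF r2 pf22949 h22949
  exact h22950

theorem c459 (h22950 : ∀ j, j < 73044 → GoodG.{u} par (db j)) : ∀ j, j < 73288 → GoodG.{u} par (db j) := by
  have h22951 := checkRangeG_sound parWF r2 pf22950 h22950
  have h22952 := checkRangeG_sound parWF r2 pf22951 h22951
  have h22953 := checkRangeG_sound parWF r2 pf22952 h22952
  have h22954 := checkRangeG_sound parWF r2 pf22953 h22953
  have h22955 := checkRangeG_sound parWF r2 pf22954 h22954
  have h22956 := checkRangeG_sound parWF r2 pf22955 h22955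
  have h22957 := checkRangeG_sound parWF r2 pf22956 h22956
  have h22958 := checkRangeG_sound parWF r2 pf22957 h22957
  have h22959 := checkRangeG_sound parWF r2 pf22958 h22958
  have h22960 := checkRangeG_sound parWF r2 pf22959 h22959
  have h22961 := checkRangeG_sound parWF r2 pf22960 h22960
  have h22962 := checkRangeG_sound parWF r2 pf22961 h22961
  have h22963 := checkRangeG_sound parWF r2 pf22962 h22962
  have h22964 := checkRangeG_sound parWF r2 pf22963 h22963
  have h22965 := checkRangeG_sound parWF r2 pf22964 h22964
  have h22966 := checkRangeG_sound parWF r2 pf22965 h22965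
  have h22967 := checkRangeG_sound parWF r2 pf22966 h22966
  have h22968 := checkRangeG_sound parWF r2 pf22967 h22967
  have h22969 := checkRangeG_sound parWF r2 pf22968 h22968
  have h22970 := checkRangeG_sound parWF r2 pf22969 h22969
  have h22971 := checkRangeG_sound parWF r2 pf22970 h22970
  have h22972 := checkRangeG_sound parWF r2 pf22971 h22971
  have h22973 := checkRangeG_sound parWF r2 pf22972 h22972
  have h22974 := checkRangeG_sound parWF r2 pf22973 h22973
  have h22975 := checkRangeG_sound parWF r2 pf22974 h22974
  have h22976 := checkRangeG_sound parWF r2 pf22975 h22975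
  have h22977 := checkRangeG_sound parWF r2 pf22976 h22976
  have h22978 := checkRangeG_sound parWF r2 pf22977 h22977
  have h22979 := checkRangeG_sound parWF r2 pf22978 h22978
  have h22980 := checkRangeG_sound parWF r2 pf22979 h22979
  have h22981 := checkRangeG_sound parWF r2 pf22980 h22980
  have h22982 := checkRangeG_sound parWF r2 pf22981 h22981
  have h22983 := checkRangeG_sound parWF r2 pf22982 h22982
  have h22984 := checkRangeG_sound parWF r2 pf22983 h22983
  have h22985 := checkRangeG_sound parWF r2 pf22984 h22984
  have h22986 := checkRangeG_sound parWF r2 pf22985 h22985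
  have h22987 := checkRangeG_sound parWF r2 pf22986 h22986
  have h22988 := checkRangeG_sound parWF r2 pf22987 h22987
  have h22989 := checkRangeG_sound parWF r2 pf22988 h22988
  have h22990 := checkRangeG_sound parWF r2 pf22989 h22989
  have h22991 := checkRangeG_sound parWF r2 pf22990 h22990
  have h22992 := checkRangeG_sound parWF r2 pf22991 h22991
  have h22993 := checkRangeG_sound parWF r2 pf22992 h22992
  have h22994 := checkRangeG_sound parWF r2 pf22993 h22993
  have h22995 := checkRangeG_sound parWF r2 pf22994 h22994
  have h22996 := checkRangeG_sound parWF r2 pf22995 h22995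
  have h22997 := checkRangeG_sound parWF r2 pf22996 h22996
  have h22998 := checkRangeG_sound parWF r2 pf22997 h22997
  have h22999 := checkRangeG_sound parWF r2 pf22998 h22998
  have h23000 := checkRangeG_sound parWF r2 pf22999 h22999
  exact h23000

theorem c460 (h23000 : ∀ j, j < 73288 → GoodG.{u} par (db j)) : ∀ j, j < 73518 → GoodG.{u} par (db j) := by
  have h23001 := checkRangeG_sound parWF r2 pf23000 h23000
  have h23002 := checkRangeG_sound parWF r2 pf23001 h23001
  have h23003 := checkRangeG_sound parWF r2 pf23002 h23002
  have h23004 := checkRangeG_sound parWF r2 pf23003 h23003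
  have h23005 := checkRangeG_sound parWF r2 pf23004 h23004
  have h23006 := checkRangeG_sound parWF r2 pf23005 h23005
  have h23007 := checkRangeG_sound parWF r2 pf23006 h23006
  have h23008 := checkRangeG_sound parWF r2 pf23007 h23007
  have h23009 := checkRangeG_sound parWF r2 pf23008 h23008
  have h23010 := checkRangeG_sound parWF r2 pf23009 h23009
  have h23011 := checkRangeG_sound parWF r2 pf23010 h23010
  have h23012 := checkRangeG_sound parWF r2 pf23011 h23011
  have h23013 := checkRangeG_sound parWF r2 pf23012 h23012
  have h23014 := checkRangeG_sound parWF r2 pf23013 h23013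
  have h23015 := checkRangeG_sound parWF r2 pf23014 h23014
  have h23016 := checkRangeG_sound parWF r2 pf23015 h23015
  have h23017 := checkRangeG_sound parWF r2 pf23016 h23016
  have h23018 := checkRangeG_sound parWF r2 pf23017 h23017
  have h23019 := checkRangeG_sound parWF r2 pf23018 h23018
  have h23020 := checkRangeG_sound parWF r2 pf23019 h23019
  have h23021 := checkRangeG_sound parWF r2 pf23020 h23020
  have h23022 := checkRangeG_sound parWF r2 pf23021 h23021
  have h23023 := checkRangeG_sound parWF r2 pf23022 h23022
  have h23024 := checkRangeG_sound parWF r2 pf23023 h23023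
  have h23025 := checkRangeG_sound parWF r2 pf23024 h23024
  have h23026 := checkRangeG_sound parWF r2 pf23025 h23025
  have h23027 := checkRangeG_sound parWF r2 pf23026 h23026
  have h23028 := checkRangeG_sound parWF r2 pf23027 h23027
  have h23029 := checkRangeG_sound parWF r2 pf23028 h23028
  have h23030 := checkRangeG_sound parWF r2 pf23029 h23029
  have h23031 := checkRangeG_sound parWF r2 pf23030 h23030
  have h23032 := checkRangeG_sound parWF r2 pf23031 h23031
  have h23033 := checkRangeG_sound parWF r2 pf23032 h23032
  have h23034 := checkRangeG_sound parWF r2 pf23033 h23033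
  have h23035 := checkRangeG_sound parWF r2 pf23034 h23034
  have h23036 := checkRangeG_sound parWF r2 pf23035 h23035
  have h23037 := checkRangeG_sound parWF r2 pf23036 h23036
  have h23038 := checkRangeG_sound parWF r2 pf23037 h23037
  have h23039 := checkRangeG_sound parWF r2 pf23038 h23038
  have h23040 := checkRangeG_sound parWF r2 pf23039 h23039
  have h23041 := checkRangeG_sound parWF r2 pf23040 h23040
  have h23042 := checkRangeG_sound parWF r2 pf23041 h23041
  have h23043 := checkRangeG_sound parWF r2 pf23042 h23042
  have h23044 := checkRangeG_sound parWF r2 pf23043 h23043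
  have h23045 := checkRangeG_sound parWF r2 pf23044 h23044
  have h23046 := checkRangeG_sound parWF r2 pf23045 h23045
  have h23047 := checkRangeG_sound parWF r2 pf23046 h23046
  have h23048 := checkRangeG_sound parWF r2 pf23047 h23047
  have h23049 := checkRangeG_sound parWF r2 pf23048 h23048
  have h23050 := checkRangeG_sound parWF r2 pf23049 h23049
  exact h23050

theorem c461 (h23050 : ∀ j, j < 73518 → GoodG.{u} par (db j)) : ∀ j, j < 73746 → GoodG.{u} par (db j) := by
  have h23051 := checkRangeG_sound parWF r2 pf23050 h23050
  have h23052 := checkRangeG_sound parWF r2 pf23051 h23051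
  have h23053 := checkRangeG_sound parWF r2 pf23052 h23052
  have h23054 := checkRangeG_sound parWF r2 pf23053 h23053
  have h23055 := checkRangeG_sound parWF r2 pf23054 h23054
  have h23056 := checkRangeG_sound parWF r2 pf23055 h23055
  have h23057 := checkRangeG_sound parWF r2 pf23056 h23056
  have h23058 := checkRangeG_sound parWF r2 pf23057 h23057
  have h23059 := checkRangeG_sound parWF r2 pf23058 h23058
  have h23060 := checkRangeG_sound parWF r2 pf23059 h23059
  have h23061 := checkRangeG_sound parWF r2 pf23060 h23060
  have h23062 := checkRangeG_sound parWF r2 pf23061 h23061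
  have h23063 := checkRangeG_sound parWF r2 pf23062 h23062
  have h23064 := checkRangeG_sound parWF r2 pf23063 h23063
  have h23065 := checkRangeG_sound parWF r2 pf23064 h23064
  have h23066 := checkRangeG_sound parWF r2 pf23065 h23065
  have h23067 := checkRangeG_sound parWF r2 pf23066 h23066
  have h23068 := checkRangeG_sound parWF r2 pf23067 h23067
  have h23069 := checkRangeG_sound parWF r2 pf23068 h23068
  have h23070 := checkRangeG_sound parWF r2 pf23069 h23069
  have h23071 := checkRangeG_sound parWF r2 pf23070 h23070
  have h23072 := checkRangeG_sound parWF r2 pf23071 h23071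
  have h23073 := checkRangeG_sound parWF r2 pf23072 h23072
  have h23074 := checkRangeG_sound parWF r2 pf23073 h23073
  have h23075 := checkRangeG_sound parWF r2 pf23074 h23074
  have h23076 := checkRangeG_sound parWF r2 pf23075 h23075
  have h23077 := checkRangeG_sound parWF r2 pf23076 h23076
  have h23078 := checkRangeG_sound parWF r2 pf23077 h23077
  have h23079 := checkRangeG_sound parWF r2 pf23078 h23078
  have h23080 := checkRangeG_sound parWF r2 pf23079 h23079
  have h23081 := checkRangeG_sound parWF r2 pf23080 h23080
  have h23082 := checkRangeG_sound parWF r2 pf23081 h23081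
  have h23083 := checkRangeG_sound parWF r2 pf23082 h23082
  have h23084 := checkRangeG_sound parWF r2 pf23083 h23083
  have h23085 := checkRangeG_sound parWF r2 pf23084 h23084
  have h23086 := checkRangeG_sound parWF r2 pf23085 h23085
  have h23087 := checkRangeG_sound parWF r2 pf23086 h23086
  have h23088 := checkRangeG_sound parWF r2 pf23087 h23087
  have h23089 := checkRangeG_sound parWF r2 pf23088 h23088
  have h23090 := checkRangeG_sound parWF r2 pf23089 h23089
  have h23091 := checkRangeG_sound parWF r2 pf23090 h23090
  have h23092 := checkRangeG_sound parWF r2 pf23091 h23091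
  have h23093 := checkRangeG_sound parWF r2 pf23092 h23092
  have h23094 := checkRangeG_sound parWF r2 pf23093 h23093
  have h23095 := checkRangeG_sound parWF r2 pf23094 h23094
  have h23096 := checkRangeG_sound parWF r2 pf23095 h23095
  have h23097 := checkRangeG_sound parWF r2 pf23096 h23096
  have h23098 := checkRangeG_sound parWF r2 pf23097 h23097
  have h23099 := checkRangeG_sound parWF r2 pf23098 h23098
  have h23100 := checkRangeG_sound parWF r2 pf23099 h23099
  exact h23100

theorem c462 (h23100 : ∀ j, j < 73746 → GoodG.{u} par (db j)) : ∀ j, j < 73900 → GoodG.{u} par (db j) := by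
  have h23101 := checkRangeG_sound parWF r2 pf23100 h23100
  have h23102 := checkRangeG_sound parWF r2 pf23101 h23101
  have h23103 := checkRangeG_sound parWF r2 pf23102 h23102
  have h23104 := checkRangeG_sound parWF r2 pf23103 h23103
  have h23105 := checkRangeG_sound parWF r2 pf23104 h23104
  have h23106 := checkRangeG_sound parWF r2 pf23105 h23105
  have h23107 := checkRangeG_sound parWF r2 pf23106 h23106
  have h23108 := checkRangeG_sound parWF r2 pf23107 h23107
  have h23109 := checkRangeG_sound parWF r2 pf23108 h23108
  have h23110 := checkRangeG_sound parWF r2 pf23109 h23109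
  have h23111 := checkRangeG_sound parWF r2 pf23110 h23110
  have h23112 := checkRangeG_sound parWF r2 pf23111 h23111
  have h23113 := checkRangeG_sound parWF r2 pf23112 h23112
  have h23114 := checkRangeG_sound parWF r2 pf23113 h23113
  have h23115 := checkRangeG_sound parWF r2 pf23114 h23114
  have h23116 := checkRangeG_sound parWF r2 pf23115 h23115
  have h23117 := checkRangeG_sound parWF r2 pf23116 h23116
  have h23118 := checkRangeG_sound parWF r2 pf23117 h23117
  have h23119 := checkRangeG_sound parWF r2 pf23118 h23118
  have h23120 := checkRangeG_sound parWF r2 pf23119 h23119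
  have h23121 := checkRangeG_sound parWF r2 pf23120 h23120
  have h23122 := checkRangeG_sound parWF r2 pf23121 h23121
  have h23123 := checkRangeG_sound parWF r2 pf23122 h23122
  have h23124 := checkRangeG_sound parWF r2 pf23123 h23123
  have h23125 := checkRangeG_sound parWF r2 pf23124 h23124
  have h23126 := checkRangeG_sound parWF r2 pf23125 h23125
  have h23127 := checkRangeG_sound parWF r2 pf23126 h23126
  have h23128 := checkRangeG_sound parWF r2 pf23127 h23127
  have h23129 := checkRangeG_sound parWF r2 pf23128 h23128
  have h23130 := checkRangeG_sound parWF r2 pf23129 h23129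
  have h23131 := checkRangeG_sound parWF r2 pf23130 h23130
  have h23132 := checkRangeG_sound parWF r2 pf23131 h23131
  have h23133 := checkRangeG_sound parWF r2 pf23132 h23132
  have h23134 := checkRangeG_sound parWF r2 pf23133 h23133
  have h23135 := checkRangeG_sound parWF r2 pf23134 h23134
  have h23136 := checkRangeG_sound parWF r2 pf23135 h23135
  have h23137 := checkRangeG_sound parWF r2 pf23136 h23136
  have h23138 := checkRangeG_sound parWF r2 pf23137 h23137
  have h23139 := checkRangeG_sound parWF r2 pf23138 h23138
  have h23140 := checkRangeG_sound parWF r2 pf23139 h23139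
  have h23141 := checkRangeG_sound parWF r2 pf23140 h23140
  have h23142 := checkRangeG_sound parWF r2 pf23141 h23141
  have h23143 := checkRangeG_sound parWF r2 pf23142 h23142
  have h23144 := checkRangeG_sound parWF r2 pf23143 h23143
  have h23145 := checkRangeG_sound parWF r2 pf23144 h23144
  have h23146 := checkRangeG_sound parWF r2 pf23145 h23145
  have h23147 := checkRangeG_sound parWF r2 pf23146 h23146
  have h23148 := checkRangeG_sound parWF r2 pf23147 h23147
  have h23149 := checkRangeG_sound parWF r2 pf23148 h23148
  have h23150 := checkRangeG_sound parWF r2 pf23149 h23149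
  exact h23150

theorem c463 (h23150 : ∀ j, j < 73900 → GoodG.{u} par (db j)) : ∀ j, j < 74053 → GoodG.{u} par (db j) := by
  have h23151 := checkRangeG_sound parWF r2 pf23150 h23150
  have h23152 := checkRangeG_sound parWF r2 pf23151 h23151
  have h23153 := checkRangeG_sound parWF r2 pf23152 h23152
  have h23154 := checkRangeG_sound parWF r2 pf23153 h23153
  have h23155 := checkRangeG_sound parWF r2 pf23154 h23154
  have h23156 := checkRangeG_sound parWF r2 pf23155 h23155
  have h23157 := checkRangeG_sound parWF r2 pf23156 h23156
  have h23158 := checkRangeG_sound parWF r2 pf23157 h23157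
  have h23159 := checkRangeG_sound parWF r2 pf23158 h23158
  have h23160 := checkRangeG_sound parWF r2 pf23159 h23159
  have h23161 := checkRangeG_sound parWF r2 pf23160 h23160
  have h23162 := checkRangeG_sound parWF r2 pf23161 h23161
  have h23163 := checkRangeG_sound parWF r2 pf23162 h23162
  have h23164 := checkRangeG_sound parWF r2 pf23163 h23163
  have h23165 := checkRangeG_sound parWF r2 pf23164 h23164
  have h23166 := checkRangeG_sound parWF r2 pf23165 h23165
  have h23167 := checkRangeG_sound parWF r2 pf23166 h23166
  have h23168 := checkRangeG_sound parWF r2 pf23167 h23167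
  have h23169 := checkRangeG_sound parWF r2 pf23168 h23168
  have h23170 := checkRangeG_sound parWF r2 pf23169 h23169
  have h23171 := checkRangeG_sound parWF r2 pf23170 h23170
  have h23172 := checkRangeG_sound parWF r2 pf23171 h23171
  have h23173 := checkRangeG_sound parWF r2 pf23172 h23172
  have h23174 := checkRangeG_sound parWF r2 pf23173 h23173
  have h23175 := checkRangeG_sound parWF r2 pf23174 h23174
  have h23176 := checkRangeG_sound parWF r2 pf23175 h23175
  have h23177 := checkRangeG_sound parWF r2 pf23176 h23176
  have h23178 := checkRangeG_sound parWF r2 pf23177 h23177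
  have h23179 := checkRangeG_sound parWF r2 pf23178 h23178
  have h23180 := checkRangeG_sound parWF r2 pf23179 h23179
  have h23181 := checkRangeG_sound parWF r2 pf23180 h23180
  have h23182 := checkRangeG_sound parWF r2 pf23181 h23181
  have h23183 := checkRangeG_sound parWF r2 pf23182 h23182
  have h23184 := checkRangeG_sound parWF r2 pf23183 h23183
  have h23185 := checkRangeG_sound parWF r2 pf23184 h23184
  have h23186 := checkRangeG_sound parWF r2 pf23185 h23185
  have h23187 := checkRangeG_sound parWF r2 pf23186 h23186
  have h23188 := checkRangeG_sound parWF r2 pf23187 h23187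
  have h23189 := checkRangeG_sound parWF r2 pf23188 h23188
  have h23190 := checkRangeG_sound parWF r2 pf23189 h23189
  have h23191 := checkRangeG_sound parWF r2 pf23190 h23190
  have h23192 := checkRangeG_sound parWF r2 pf23191 h23191
  have h23193 := checkRangeG_sound parWF r2 pf23192 h23192
  have h23194 := checkRangeG_sound parWF r2 pf23193 h23193
  have h23195 := checkRangeG_sound parWF r2 pf23194 h23194
  have h23196 := checkRangeG_sound parWF r2 pf23195 h23195
  have h23197 := checkRangeG_sound parWF r2 pf23196 h23196
  have h23198 := checkRangeG_sound parWF r2 pf23197 h23197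
  have h23199 := checkRangeG_sound parWF r2 pf23198 h23198
  have h23200 := checkRangeG_sound parWF r2 pf23199 h23199
  exact h23200

theorem c464 (h23200 : ∀ j, j < 74053 → GoodG.{u} par (db j)) : ∀ j, j < 74213 → GoodG.{u} par (db j) := by
  have h23201 := checkRangeG_sound parWF r2 pf23200 h23200
  have h23202 := checkRangeG_sound parWF r2 pf23201 h23201
  have h23203 := checkRangeG_sound parWF r2 pf23202 h23202
  have h23204 := checkRangeG_sound parWF r2 pf23203 h23203
  have h23205 := checkRangeG_sound parWF r2 pf23204 h23204
  have h23206 := checkRangeG_sound parWF r2 pf23205 h23205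
  have h23207 := checkRangeG_sound parWF r2 pf23206 h23206
  have h23208 := checkRangeG_sound parWF r2 pf23207 h23207
  have h23209 := checkRangeG_sound parWF r2 pf23208 h23208
  have h23210 := checkRangeG_sound parWF r2 pf23209 h23209
  have h23211 := checkRangeG_sound parWF r2 pf23210 h23210
  have h23212 := checkRangeG_sound parWF r2 pf23211 h23211
  have h23213 := checkRangeG_sound parWF r2 pf23212 h23212
  have h23214 := checkRangeG_sound parWF r2 pf23213 h23213
  have h23215 := checkRangeG_sound parWF r2 pf23214 h23214
  have h23216 := checkRangeG_sound parWF r2 pf23215 h23215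
  have h23217 := checkRangeG_sound parWF r2 pf23216 h23216
  have h23218 := checkRangeG_sound parWF r2 pf23217 h23217
  have h23219 := checkRangeG_sound parWF r2 pf23218 h23218
  have h23220 := checkRangeG_sound parWF r2 pf23219 h23219
  have h23221 := checkRangeG_sound parWF r2 pf23220 h23220
  have h23222 := checkRangeG_sound parWF r2 pf23221 h23221
  have h23223 := checkRangeG_sound parWF r2 pf23222 h23222
  have h23224 := checkRangeG_sound parWF r2 pf23223 h23223
  have h23225 := checkRangeG_sound parWF r2 pf23224 h23224
  have h23226 := checkRangeG_sound parWF r2 pf23225 h23225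
  have h23227 := checkRangeG_sound parWF r2 pf23226 h23226
  have h23228 := checkRangeG_sound parWF r2 pf23227 h23227
  have h23229 := checkRangeG_sound parWF r2 pf23228 h23228
  have h23230 := checkRangeG_sound parWF r2 pf23229 h23229
  have h23231 := checkRangeG_sound parWF r2 pf23230 h23230
  have h23232 := checkRangeG_sound parWF r2 pf23231 h23231
  have h23233 := checkRangeG_sound parWF r2 pf23232 h23232
  have h23234 := checkRangeG_sound parWF r2 pf23233 h23233
  have h23235 := checkRangeG_sound parWF r2 pf23234 h23234
  have h23236 := checkRangeG_sound parWF r2 pf23235 h23235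
  have h23237 := checkRangeG_sound parWF r2 pf23236 h23236
  have h23238 := checkRangeG_sound parWF r2 pf23237 h23237
  have h23239 := checkRangeG_sound parWF r2 pf23238 h23238
  have h23240 := checkRangeG_sound parWF r2 pf23239 h23239
  have h23241 := checkRangeG_sound parWF r2 pf23240 h23240
  have h23242 := checkRangeG_sound parWF r2 pf23241 h23241
  have h23243 := checkRangeG_sound parWF r2 pf23242 h23242
  have h23244 := checkRangeG_sound parWF r2 pf23243 h23243
  have h23245 := checkRangeG_sound parWF r2 pf23244 h23244
  have h23246 := checkRangeG_sound parWF r2 pf23245 h23245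
  have h23247 := checkRangeG_sound parWF r2 pf23246 h23246
  have h23248 := checkRangeG_sound parWF r2 pf23247 h23247
  have h23249 := checkRangeG_sound parWF r2 pf23248 h23248
  have h23250 := checkRangeG_sound parWF r2 pf23249 h23249
  exact h23250

theorem c465 (h23250 : ∀ j, j < 74213 → GoodG.{u} par (db j)) : ∀ j, j < 74416 → GoodG.{u} par (db j) := by
  have h23251 := checkRangeG_sound parWF r2 pf23250 h23250
  have h23252 := checkRangeG_sound parWF r2 pf23251 h23251
  have h23253 := checkRangeG_sound parWF r2 pf23252 h23252
  have h23254 := checkRangeG_sound parWF r2 pf23253 h23253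
  have h23255 := checkRangeG_sound parWF r2 pf23254 h23254
  have h23256 := checkRangeG_sound parWF r2 pf23255 h23255
  have h23257 := checkRangeG_sound parWF r2 pf23256 h23256
  have h23258 := checkRangeG_sound parWF r2 pf23257 h23257
  have h23259 := checkRangeG_sound parWF r2 pf23258 h23258
  have h23260 := checkRangeG_sound parWF r2 pf23259 h23259
  have h23261 := checkRangeG_sound parWF r2 pf23260 h23260
  have h23262 := checkRangeG_sound parWF r2 pf23261 h23261
  have h23263 := checkRangeG_sound parWF r2 pf23262 h23262
  have h23264 := checkRangeG_sound parWF r2 pf23263 h23263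
  have h23265 := checkRangeG_sound parWF r2 pf23264 h23264
  have h23266 := checkRangeG_sound parWF r2 pf23265 h23265
  have h23267 := checkRangeG_sound parWF r2 pf23266 h23266
  have h23268 := checkRangeG_sound parWF r2 pf23267 h23267
  have h23269 := checkRangeG_sound parWF r2 pf23268 h23268
  have h23270 := checkRangeG_sound parWF r2 pf23269 h23269
  have h23271 := checkRangeG_sound parWF r2 pf23270 h23270
  have h23272 := checkRangeG_sound parWF r2 pf23271 h23271
  have h23273 := checkRangeG_sound parWF r2 pf23272 h23272
  have h23274 := checkRangeG_sound parWF r2 pf23273 h23273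
  have h23275 := checkRangeG_sound parWF r2 pf23274 h23274
  have h23276 := checkRangeG_sound parWF r2 pf23275 h23275
  have h23277 := checkRangeG_sound parWF r2 pf23276 h23276
  have h23278 := checkRangeG_sound parWF r2 pf23277 h23277
  have h23279 := checkRangeG_sound parWF r2 pf23278 h23278
  have h23280 := checkRangeG_sound parWF r2 pf23279 h23279
  have h23281 := checkRangeG_sound parWF r2 pf23280 h23280
  have h23282 := checkRangeG_sound parWF r2 pf23281 h23281
  have h23283 := checkRangeG_sound parWF r2 pf23282 h23282
  have h23284 := checkRangeG_sound parWF r2 pf23283 h23283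
  have h23285 := checkRangeG_sound parWF r2 pf23284 h23284
  have h23286 := checkRangeG_sound parWF r2 pf23285 h23285
  have h23287 := checkRangeG_sound parWF r2 pf23286 h23286
  have h23288 := checkRangeG_sound parWF r2 pf23287 h23287
  have h23289 := checkRangeG_sound parWF r2 pf23288 h23288
  have h23290 := checkRangeG_sound parWF r2 pf23289 h23289
  have h23291 := checkRangeG_sound parWF r2 pf23290 h23290
  have h23292 := checkRangeG_sound parWF r2 pf23291 h23291
  have h23293 := checkRangeG_sound parWF r2 pf23292 h23292
  have h23294 := checkRangeG_sound parWF r2 pf23293 h23293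
  have h23295 := checkRangeG_sound parWF r2 pf23294 h23294
  have h23296 := checkRangeG_sound parWF r2 pf23295 h23295
  have h23297 := checkRangeG_sound parWF r2 pf23296 h23296
  have h23298 := checkRangeG_sound parWF r2 pf23297 h23297
  have h23299 := checkRangeG_sound parWF r2 pf23298 h23298
  have h23300 := checkRangeG_sound parWF r2 pf23299 h23299
  exact h23300

theorem c466 (h23300 : ∀ j, j < 74416 → GoodG.{u} par (db j)) : ∀ j, j < 74616 → GoodG.{u} par (db j) := by
  have h23301 := checkRangeG_sound parWF r2 pf23300 h23300
  have h23302 := checkRangeG_sound parWF r2 pf23301 h23301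
  have h23303 := checkRangeG_sound parWF r2 pf23302 h23302
  have h23304 := checkRangeG_sound parWF r2 pf23303 h23303
  have h23305 := checkRangeG_sound parWF r2 pf23304 h23304
  have h23306 := checkRangeG_sound parWF r2 pf23305 h23305
  have h23307 := checkRangeG_sound parWF r2 pf23306 h23306
  have h23308 := checkRangeG_sound parWF r2 pf23307 h23307
  have h23309 := checkRangeG_sound parWF r2 pf23308 h23308
  have h23310 := checkRangeG_sound parWF r2 pf23309 h23309
  have h23311 := checkRangeG_sound parWF r2 pf23310 h23310
  have h23312 := checkRangeG_sound parWF r2 pf23311 h23311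
  have h23313 := checkRangeG_sound parWF r2 pf23312 h23312
  have h23314 := checkRangeG_sound parWF r2 pf23313 h23313
  have h23315 := checkRangeG_sound parWF r2 pf23314 h23314
  have h23316 := checkRangeG_sound parWF r2 pf23315 h23315
  have h23317 := checkRangeG_sound parWF r2 pf23316 h23316
  have h23318 := checkRangeG_sound parWF r2 pf23317 h23317
  have h23319 := checkRangeG_sound parWF r2 pf23318 h23318
  have h23320 := checkRangeG_sound parWF r2 pf23319 h23319
  have h23321 := checkRangeG_sound parWF r2 pf23320 h23320
  have h23322 := checkRangeG_sound parWF r2 pf23321 h23321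
  have h23323 := checkRangeG_sound parWF r2 pf23322 h23322
  have h23324 := checkRangeG_sound parWF r2 pf23323 h23323
  have h23325 := checkRangeG_sound parWF r2 pf23324 h23324
  have h23326 := checkRangeG_sound parWF r2 pf23325 h23325
  have h23327 := checkRangeG_sound parWF r2 pf23326 h23326
  have h23328 := checkRangeG_sound parWF r2 pf23327 h23327
  have h23329 := checkRangeG_sound parWF r2 pf23328 h23328
  have h23330 := checkRangeG_sound parWF r2 pf23329 h23329
  have h23331 := checkRangeG_sound parWF r2 pf23330 h23330
  have h23332 := checkRangeG_sound parWF r2 pf23331 h23331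
  have h23333 := checkRangeG_sound parWF r2 pf23332 h23332
  have h23334 := checkRangeG_sound parWF r2 pf23333 h23333
  have h23335 := checkRangeG_sound parWF r2 pf23334 h23334
  have h23336 := checkRangeG_sound parWF r2 pf23335 h23335
  have h23337 := checkRangeG_sound parWF r2 pf23336 h23336
  have h23338 := checkRangeG_sound parWF r2 pf23337 h23337
  have h23339 := checkRangeG_sound parWF r2 pf23338 h23338
  have h23340 := checkRangeG_sound parWF r2 pf23339 h23339
  have h23341 := checkRangeG_sound parWF r2 pf23340 h23340
  have h23342 := checkRangeG_sound parWF r2 pf23341 h23341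
  have h23343 := checkRangeG_sound parWF r2 pf23342 h23342
  have h23344 := checkRangeG_sound parWF r2 pf23343 h23343
  have h23345 := checkRangeG_sound parWF r2 pf23344 h23344
  have h23346 := checkRangeG_sound parWF r2 pf23345 h23345
  have h23347 := checkRangeG_sound parWF r2 pf23346 h23346
  have h23348 := checkRangeG_sound parWF r2 pf23347 h23347
  have h23349 := checkRangeG_sound parWF r2 pf23348 h23348
  have h23350 := checkRangeG_sound parWF r2 pf23349 h23349
  exact h23350

theorem c467 (h23350 : ∀ j, j < 74616 → GoodG.{u} par (db j)) : ∀ j, j < 74799 → GoodG.{u} par (db j) := by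
  have h23351 := checkRangeG_sound parWF r2 pf23350 h23350
  have h23352 := checkRangeG_sound parWF r2 pf23351 h23351
  have h23353 := checkRangeG_sound parWF r2 pf23352 h23352
  have h23354 := checkRangeG_sound parWF r2 pf23353 h23353
  have h23355 := checkRangeG_sound parWF r2 pf23354 h23354
  have h23356 := checkRangeG_sound parWF r2 pf23355 h23355
  have h23357 := checkRangeG_sound parWF r2 pf23356 h23356
  have h23358 := checkRangeG_sound parWF r2 pf23357 h23357
  have h23359 := checkRangeG_sound parWF r2 pf23358 h23358
  have h23360 := checkRangeG_sound parWF r2 pf23359 h23359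
  have h23361 := checkRangeG_sound parWF r2 pf23360 h23360
  have h23362 := checkRangeG_sound parWF r2 pf23361 h23361
  have h23363 := checkRangeG_sound parWF r2 pf23362 h23362
  have h23364 := checkRangeG_sound parWF r2 pf23363 h23363
  have h23365 := checkRangeG_sound parWF r2 pf23364 h23364
  have h23366 := checkRangeG_sound parWF r2 pf23365 h23365
  have h23367 := checkRangeG_sound parWF r2 pf23366 h23366
  have h23368 := checkRangeG_sound parWF r2 pf23367 h23367
  have h23369 := checkRangeG_sound parWF r2 pf23368 h23368
  have h23370 := checkRangeG_sound parWF r2 pf23369 h23369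
  have h23371 := checkRangeG_sound parWF r2 pf23370 h23370
  have h23372 := checkRangeG_sound parWF r2 pf23371 h23371
  have h23373 := checkRangeG_sound parWF r2 pf23372 h23372
  have h23374 := checkRangeG_sound parWF r2 pf23373 h23373
  have h23375 := checkRangeG_sound parWF r2 pf23374 h23374
  have h23376 := checkRangeG_sound parWF r2 pf23375 h23375
  have h23377 := checkRangeG_sound parWF r2 pf23376 h23376
  have h23378 := checkRangeG_sound parWF r2 pf23377 h23377
  have h23379 := checkRangeG_sound parWF r2 pf23378 h23378
  have h23380 := checkRangeG_sound parWF r2 pf23379 h23379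
  have h23381 := checkRangeG_sound parWF r2 pf23380 h23380
  have h23382 := checkRangeG_sound parWF r2 pf23381 h23381
  have h23383 := checkRangeG_sound parWF r2 pf23382 h23382
  have h23384 := checkRangeG_sound parWF r2 pf23383 h23383
  have h23385 := checkRangeG_sound parWF r2 pf23384 h23384
  have h23386 := checkRangeG_sound parWF r2 pf23385 h23385
  have h23387 := checkRangeG_sound parWF r2 pf23386 h23386
  have h23388 := checkRangeG_sound parWF r2 pf23387 h23387
  have h23389 := checkRangeG_sound parWF r2 pf23388 h23388
  have h23390 := checkRangeG_sound parWF r2 pf23389 h23389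
  have h23391 := checkRangeG_sound parWF r2 pf23390 h23390
  have h23392 := checkRangeG_sound parWF r2 pf23391 h23391
  have h23393 := checkRangeG_sound parWF r2 pf23392 h23392
  have h23394 := checkRangeG_sound parWF r2 pf23393 h23393
  have h23395 := checkRangeG_sound parWF r2 pf23394 h23394
  have h23396 := checkRangeG_sound parWF r2 pf23395 h23395
  have h23397 := checkRangeG_sound parWF r2 pf23396 h23396
  have h23398 := checkRangeG_sound parWF r2 pf23397 h23397
  have h23399 := checkRangeG_sound parWF r2 pf23398 h23398
  have h23400 := checkRangeG_sound parWF r2 pf23399 h23399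
  exact h23400


end Vale.Agent.P045g.C61
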