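import Vale.Agent.P045g.C61.WF
import Vale.Agent.P045g.C61.Pf390
import Vale.Agent.P045g.C61.Pf391
import Vale.Agent.P045g.C61.Pf392
import Vale.Agent.P045g.C61.Pf393
import Vale.Agent.P045g.C61.Pf394
import Vale.Agent.P045g.C61.Pf395
import Vale.Agent.P045g.C61.Pf396
import Vale.Agent.P045g.C61.Pf397
import Vale.Agent.P045g.C61.Pf398
import Vale.Agent.P045g.C61.Pf399

namespace Vale.Agent.P045g.C61

open Vale.Agent.P045b Vale.Agent.P045g

universe u

theorem c468 (h23400 : ∀ j, j < 74799 → GoodG.{u} par (db j)) : ∀ j, j < 74962 → GoodG.{u} par (db j) := by
  have h23401 := checkRangeG_sound parWF r2 pf23400 h23400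
  have h23402 := checkRangeG_sound parWF r2 pf23401 h23401
  have h23403 := checkRangeG_sound parWF r2 pf23402 h23402
  have h23404 := checkRangeG_sound parWF r2 pf23403 h23403
  have h23405 := checkRangeG_sound parWF r2 pf23404 h23404
  have h23406 := checkRangeG_sound parWF r2 pf23405 h23405
  have h23407 := checkRangeG_sound parWF r2 pf23406 h23406
  have h23408 := checkRangeG_sound parWF r2 pf23407 h23407
  have h23409 := checkRangeG_sound parWF r2 pf23408 h23408
  have h23410 := checkRangeG_sound parWF r2 pf23409 h23409
  have h23411 := checkRangeG_sound parWF r2 pf23410 h23410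
  have h23412 := checkRangeG_sound parWF r2 pf23411 h23411
  have h23413 := checkRangeG_sound parWF r2 pf23412 h23412
  have h23414 := checkRangeG_sound parWF r2 pf23413 h23413
  have h23415 := checkRangeG_sound parWF r2 pf23414 h23414
  have h23416 := checkRangeG_sound parWF r2 pf23415 h23415
  have h23417 := checkRangeG_sound parWF r2 pf23416 h23416
  have h23418 := checkRangeG_sound parWF r2 pf23417 h23417
  have h23419 := checkRangeG_sound parWF r2 pf23418 h23418
  have h23420 := checkRangeG_sound parWF r2 pf23419 h23419
  have h23421 := checkRangeG_sound parWF r2 pf23420 h23420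
  have h23422 := checkRangeG_sound parWF r2 pf23421 h23421
  have h23423 := checkRangeG_sound parWF r2 pf23422 h23422
  have h23424 := checkRangeG_sound parWF r2 pf23423 h23423
  have h23425 := checkRangeG_sound parWF r2 pf23424 h23424
  have h23426 := checkRangeG_sound parWF r2 pf23425 h23425
  have h23427 := checkRangeG_sound parWF r2 pf23426 h23426
  have h23428 := checkRangeG_sound parWF r2 pf23427 h23427
  have h23429 := checkRangeG_sound parWF r2 pf23428 h23428
  have h23430 := checkRangeG_sound parWF r2 pf23429 h23429
  have h23431 := checkRangeG_sound parWF r2 pf23430 h23430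
  have h23432 := checkRangeG_sound parWF r2 pf23431 h23431
  have h23433 := checkRangeG_sound parWF r2 pf23432 h23432
  have h23434 := checkRangeG_sound parWF r2 pf23433 h23433
  have h23435 := checkRangeG_sound parWF r2 pf23434 h23434
  have h23436 := checkRangeG_sound parWF r2 pf23435 h23435
  have h23437 := checkRangeG_sound parWF r2 pf23436 h23436
  have h23438 := checkRangeG_sound parWF r2 pf23437 h23437
  have h23439 := checkRangeG_sound parWF r2 pf23438 h23438
  have h23440 := checkRangeG_sound parWF r2 pf23439 h23439
  have h23441 := checkRangeG_sound parWF r2 pf23440 h23440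
  have h23442 := checkRangeG_sound parWF r2 pf23441 h23441
  have h23443 := checkRangeG_sound parWF r2 pf23442 h23442
  have h23444 := checkRangeG_sound parWF r2 pf23443 h23443
  have h23445 := checkRangeG_sound parWF r2 pf23444 h23444
  have h23446 := checkRangeG_sound parWF r2 pf23445 h23445
  have h23447 := checkRangeG_sound parWF r2 pf23446 h23446
  have h23448 := checkRangeG_sound parWF r2 pf23447 h23447
  have h23449 := checkRangeG_sound parWF r2 pf23448 h23448
  have h23450 := checkRangeG_sound parWF r2 pf23449 h23449
  exact h23450

theorem c469 (h23450 : ∀ j, j < 74962 → GoodG.{u} par (db j)) : ∀ j, j < 75119 → GoodG.{u} par (db j) := by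
  have h23451 := checkRangeG_sound parWF r2 pf23450 h23450
  have h23452 := checkRangeG_sound parWF r2 pf23451 h23451
  have h23453 := checkRangeG_sound parWF r2 pf23452 h23452
  have h23454 := checkRangeG_sound parWF r2 pf23453 h23453
  have h23455 := checkRangeG_sound parWF r2 pf23454 h23454
  have h23456 := checkRangeG_sound parWF r2 pf23455 h23455
  have h23457 := checkRangeG_sound parWF r2 pf23456 h23456
  have h23458 := checkRangeG_sound parWF r2 pf23457 h23457
  have h23459 := checkRangeG_sound parWF r2 pf23458 h23458
  have h23460 := checkRangeG_sound parWF r2 pf23459 h23459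
  have h23461 := checkRangeG_sound parWF r2 pf23460 h23460
  have h23462 := checkRangeG_sound parWF r2 pf23461 h23461
  have h23463 := checkRangeG_sound parWF r2 pf23462 h23462
  have h23464 := checkRangeG_sound parWF r2 pf23463 h23463
  have h23465 := checkRangeG_sound parWF r2 pf23464 h23464
  have h23466 := checkRangeG_sound parWF r2 pf23465 h23465
  have h23467 := checkRangeG_sound parWF r2 pf23466 h23466
  have h23468 := checkRangeG_sound parWF r2 pf23467 h23467
  have h23469 := checkRangeG_sound parWF r2 pf23468 h23468
  have h23470 := checkRangeG_sound parWF r2 pf23469 h23469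
  have h23471 := checkRangeG_sound parWF r2 pf23470 h23470
  have h23472 := checkRangeG_sound parWF r2 pf23471 h23471
  have h23473 := checkRangeG_sound parWF r2 pf23472 h23472
  have h23474 := checkRangeG_sound parWF r2 pf23473 h23473
  have h23475 := checkRangeG_sound parWF r2 pf23474 h23474
  have h23476 := checkRangeG_sound parWF r2 pf23475 h23475
  have h23477 := checkRangeG_sound parWF r2 pf23476 h23476
  have h23478 := checkRangeG_sound parWF r2 pf23477 h23477
  have h23479 := checkRangeG_sound parWF r2 pf23478 h23478
  have h23480 := checkRangeG_sound parWF r2 pf23479 h23479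
  have h23481 := checkRangeG_sound parWF r2 pf23480 h23480
  have h23482 := checkRangeG_sound parWF r2 pf23481 h23481
  have h23483 := checkRangeG_sound parWF r2 pf23482 h23482
  have h23484 := checkRangeG_sound parWF r2 pf23483 h23483
  have h23485 := checkRangeG_sound parWF r2 pf23484 h23484
  have h23486 := checkRangeG_sound parWF r2 pf23485 h23485
  have h23487 := checkRangeG_sound parWF r2 pf23486 h23486
  have h23488 := checkRangeG_sound parWF r2 pf23487 h23487
  have h23489 := checkRangeG_sound parWF r2 pf23488 h23488
  have h23490 := checkRangeG_sound parWF r2 pf23489 h23489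
  have h23491 := checkRangeG_sound parWF r2 pf23490 h23490
  have h23492 := checkRangeG_sound parWF r2 pf23491 h23491
  have h23493 := checkRangeG_sound parWF r2 pf23492 h23492
  have h23494 := checkRangeG_sound parWF r2 pf23493 h23493
  have h23495 := checkRangeG_sound parWF r2 pf23494 h23494
  have h23496 := checkRangeG_sound parWF r2 pf23495 h23495
  have h23497 := checkRangeG_sound parWF r2 pf23496 h23496
  have h23498 := checkRangeG_sound parWF r2 pf23497 h23497
  have h23499 := checkRangeG_sound parWF r2 pf23498 h23498
  have h23500 := checkRangeG_sound parWF r2 pf23499 h23499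
  exact h23500

theorem c470 (h23500 : ∀ j, j < 75119 → GoodG.{u} par (db j)) : ∀ j, j < 75277 → GoodG.{u} par (db j) := by
  have h23501 := checkRangeG_sound parWF r2 pf23500 h23500
  have h23502 := checkRangeG_sound parWF r2 pf23501 h23501
  have h23503 := checkRangeG_sound parWF r2 pf23502 h23502
  have h23504 := checkRangeG_sound parWF r2 pf23503 h23503
  have h23505 := checkRangeG_sound parWF r2 pf23504 h23504
  have h23506 := checkRangeG_sound parWF r2 pf23505 h23505
  have h23507 := checkRangeG_sound parWF r2 pf23506 h23506
  have h23508 := checkRangeG_sound parWF r2 pf23507 h23507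
  have h23509 := checkRangeG_sound parWF r2 pf23508 h23508
  have h23510 := checkRangeG_sound parWF r2 pf23509 h23509
  have h23511 := checkRangeG_sound parWF r2 pf23510 h23510
  have h23512 := checkRangeG_sound parWF r2 pf23511 h23511
  have h23513 := checkRangeG_sound parWF r2 pf23512 h23512
  have h23514 := checkRangeG_sound parWF r2 pf23513 h23513
  have h23515 := checkRangeG_sound parWF r2 pf23514 h23514
  have h23516 := checkRangeG_sound parWF r2 pf23515 h23515
  have h23517 := checkRangeG_sound parWF r2 pf23516 h23516
  have h23518 := checkRangeG_sound parWF r2 pf23517 h23517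
  have h23519 := checkRangeG_sound parWF r2 pf23518 h23518
  have h23520 := checkRangeG_sound parWF r2 pf23519 h23519
  have h23521 := checkRangeG_sound parWF r2 pf23520 h23520
  have h23522 := checkRangeG_sound parWF r2 pf23521 h23521
  have h23523 := checkRangeG_sound parWF r2 pf23522 h23522
  have h23524 := checkRangeG_sound parWF r2 pf23523 h23523
  have h23525 := checkRangeG_sound parWF r2 pf23524 h23524
  have h23526 := checkRangeG_sound parWF r2 pf23525 h23525
  have h23527 := checkRangeG_sound parWF r2 pf23526 h23526
  have h23528 := checkRangeG_sound parWF r2 pf23527 h23527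
  have h23529 := checkRangeG_sound parWF r2 pf23528 h23528
  have h23530 := checkRangeG_sound parWF r2 pf23529 h23529
  have h23531 := checkRangeG_sound parWF r2 pf23530 h23530
  have h23532 := checkRangeG_sound parWF r2 pf23531 h23531
  have h23533 := checkRangeG_sound parWF r2 pf23532 h23532
  have h23534 := checkRangeG_sound parWF r2 pf23533 h23533
  have h23535 := checkRangeG_sound parWF r2 pf23534 h23534
  have h23536 := checkRangeG_sound parWF r2 pf23535 h23535
  have h23537 := checkRangeG_sound parWF r2 pf23536 h23536
  have h23538 := checkRangeG_sound parWF r2 pf23537 h23537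
  have h23539 := checkRangeG_sound parWF r2 pf23538 h23538
  have h23540 := checkRangeG_sound parWF r2 pf23539 h23539
  have h23541 := checkRangeG_sound parWF r2 pf23540 h23540
  have h23542 := checkRangeG_sound parWF r2 pf23541 h23541
  have h23543 := checkRangeG_sound parWF r2 pf23542 h23542
  have h23544 := checkRangeG_sound parWF r2 pf23543 h23543
  have h23545 := checkRangeG_sound parWF r2 pf23544 h23544
  have h23546 := checkRangeG_sound parWF r2 pf23545 h23545
  have h23547 := checkRangeG_sound parWF r2 pf23546 h23546
  have h23548 := checkRangeG_sound parWF r2 pf23547 h23547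
  have h23549 := checkRangeG_sound parWF r2 pf23548 h23548
  have h23550 := checkRangeG_sound parWF r2 pf23549 h23549
  exact h23550

theorem c471 (h23550 : ∀ j, j < 75277 → GoodG.{u} par (db j)) : ∀ j, j < 75445 → GoodG.{u} par (db j) := by
  have h23551 := checkRangeG_sound parWF r2 pf23550 h23550
  have h23552 := checkRangeG_sound parWF r2 pf23551 h23551
  have h23553 := checkRangeG_sound parWF r2 pf23552 h23552
  have h23554 := checkRangeG_sound parWF r2 pf23553 h23553
  have h23555 := checkRangeG_sound parWF r2 pf23554 h23554
  have h23556 := checkRangeG_sound parWF r2 pf23555 h23555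
  have h23557 := checkRangeG_sound parWF r2 pf23556 h23556
  have h23558 := checkRangeG_sound parWF r2 pf23557 h23557
  have h23559 := checkRangeG_sound parWF r2 pf23558 h23558
  have h23560 := checkRangeG_sound parWF r2 pf23559 h23559
  have h23561 := checkRangeG_sound parWF r2 pf23560 h23560
  have h23562 := checkRangeG_sound parWF r2 pf23561 h23561
  have h23563 := checkRangeG_sound parWF r2 pf23562 h23562
  have h23564 := checkRangeG_sound parWF r2 pf23563 h23563
  have h23565 := checkRangeG_sound parWF r2 pf23564 h23564
  have h23566 := checkRangeG_sound parWF r2 pf23565 h23565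
  have h23567 := checkRangeG_sound parWF r2 pf23566 h23566
  have h23568 := checkRangeG_sound parWF r2 pf23567 h23567
  have h23569 := checkRangeG_sound parWF r2 pf23568 h23568
  have h23570 := checkRangeG_sound parWF r2 pf23569 h23569
  have h23571 := checkRangeG_sound parWF r2 pf23570 h23570
  have h23572 := checkRangeG_sound parWF r2 pf23571 h23571
  have h23573 := checkRangeG_sound parWF r2 pf23572 h23572
  have h23574 := checkRangeG_sound parWF r2 pf23573 h23573
  have h23575 := checkRangeG_sound parWF r2 pf23574 h23574
  have h23576 := checkRangeG_sound parWF r2 pf23575 h23575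
  have h23577 := checkRangeG_sound parWF r2 pf23576 h23576
  have h23578 := checkRangeG_sound parWF r2 pf23577 h23577
  have h23579 := checkRangeG_sound parWF r2 pf23578 h23578
  have h23580 := checkRangeG_sound parWF r2 pf23579 h23579
  have h23581 := checkRangeG_sound parWF r2 pf23580 h23580
  have h23582 := checkRangeG_sound parWF r2 pf23581 h23581
  have h23583 := checkRangeG_sound parWF r2 pf23582 h23582
  have h23584 := checkRangeG_sound parWF r2 pf23583 h23583
  have h23585 := checkRangeG_sound parWF r2 pf23584 h23584
  have h23586 := checkRangeG_sound parWF r2 pf23585 h23585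
  have h23587 := checkRangeG_sound parWF r2 pf23586 h23586
  have h23588 := checkRangeG_sound parWF r2 pf23587 h23587
  have h23589 := checkRangeG_sound parWF r2 pf23588 h23588
  have h23590 := checkRangeG_sound parWF r2 pf23589 h23589
  have h23591 := checkRangeG_sound parWF r2 pf23590 h23590
  have h23592 := checkRangeG_sound parWF r2 pf23591 h23591
  have h23593 := checkRangeG_sound parWF r2 pf23592 h23592
  have h23594 := checkRangeG_sound parWF r2 pf23593 h23593
  have h23595 := checkRangeG_sound parWF r2 pf23594 h23594
  have h23596 := checkRangeG_sound parWF r2 pf23595 h23595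
  have h23597 := checkRangeG_sound parWF r2 pf23596 h23596
  have h23598 := checkRangeG_sound parWF r2 pf23597 h23597
  have h23599 := checkRangeG_sound parWF r2 pf23598 h23598
  have h23600 := checkRangeG_sound parWF r2 pf23599 h23599
  exact h23600

theorem c472 (h23600 : ∀ j, j < 75445 → GoodG.{u} par (db j)) : ∀ j, j < 75605 → GoodG.{u} par (db j) := by
  have h23601 := checkRangeG_sound parWF r2 pf23600 h23600
  have h23602 := checkRangeG_sound parWF r2 pf23601 h23601
  have h23603 := checkRangeG_sound parWF r2 pf23602 h23602
  have h23604 := checkRangeG_sound parWF r2 pf23603 h23603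
  have h23605 := checkRangeG_sound parWF r2 pf23604 h23604
  have h23606 := checkRangeG_sound parWF r2 pf23605 h23605
  have h23607 := checkRangeG_sound parWF r2 pf23606 h23606
  have h23608 := checkRangeG_sound parWF r2 pf23607 h23607
  have h23609 := checkRangeG_sound parWF r2 pf23608 h23608
  have h23610 := checkRangeG_sound parWF r2 pf23609 h23609
  have h23611 := checkRangeG_sound parWF r2 pf23610 h23610
  have h23612 := checkRangeG_sound parWF r2 pf23611 h23611
  have h23613 := checkRangeG_sound parWF r2 pf23612 h23612
  have h23614 := checkRangeG_sound parWF r2 pf23613 h23613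
  have h23615 := checkRangeG_sound parWF r2 pf23614 h23614
  have h23616 := checkRangeG_sound parWF r2 pf23615 h23615
  have h23617 := checkRangeG_sound parWF r2 pf23616 h23616
  have h23618 := checkRangeG_sound parWF r2 pf23617 h23617
  have h23619 := checkRangeG_sound parWF r2 pf23618 h23618
  have h23620 := checkRangeG_sound parWF r2 pf23619 h23619
  have h23621 := checkRangeG_sound parWF r2 pf23620 h23620
  have h23622 := checkRangeG_sound parWF r2 pf23621 h23621
  have h23623 := checkRangeG_sound parWF r2 pf23622 h23622
  have h23624 := checkRangeG_sound parWF r2 pf23623 h23623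
  have h23625 := checkRangeG_sound parWF r2 pf23624 h23624
  have h23626 := checkRangeG_sound parWF r2 pf23625 h23625
  have h23627 := checkRangeG_sound parWF r2 pf23626 h23626
  have h23628 := checkRangeG_sound parWF r2 pf23627 h23627
  have h23629 := checkRangeG_sound parWF r2 pf23628 h23628
  have h23630 := checkRangeG_sound parWF r2 pf23629 h23629
  have h23631 := checkRangeG_sound parWF r2 pf23630 h23630
  have h23632 := checkRangeG_sound parWF r2 pf23631 h23631
  have h23633 := checkRangeG_sound parWF r2 pf23632 h23632
  have h23634 := checkRangeG_sound parWF r2 pf23633 h23633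
  have h23635 := checkRangeG_sound parWF r2 pf23634 h23634
  have h23636 := checkRangeG_sound parWF r2 pf23635 h23635
  have h23637 := checkRangeG_sound parWF r2 pf23636 h23636
  have h23638 := checkRangeG_sound parWF r2 pf23637 h23637
  have h23639 := checkRangeG_sound parWF r2 pf23638 h23638
  have h23640 := checkRangeG_sound parWF r2 pf23639 h23639
  have h23641 := checkRangeG_sound parWF r2 pf23640 h23640
  have h23642 := checkRangeG_sound parWF r2 pf23641 h23641
  have h23643 := checkRangeG_sound parWF r2 pf23642 h23642
  have h23644 := checkRangeG_sound parWF r2 pf23643 h23643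
  have h23645 := checkRangeG_sound parWF r2 pf23644 h23644
  have h23646 := checkRangeG_sound parWF r2 pf23645 h23645
  have h23647 := checkRangeG_sound parWF r2 pf23646 h23646
  have h23648 := checkRangeG_sound parWF r2 pf23647 h23647
  have h23649 := checkRangeG_sound parWF r2 pf23648 h23648
  have h23650 := checkRangeG_sound parWF r2 pf23649 h23649
  exact h23650

theorem c473 (h23650 : ∀ j, j < 75605 → GoodG.{u} par (db j)) : ∀ j, j < 75761 → GoodG.{u} par (db j) := by
  have h23651 := checkRangeG_sound parWF r2 pf23650 h23650
  have h23652 := checkRangeG_sound parWF r2 pf23651 h23651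
  have h23653 := checkRangeG_sound parWF r2 pf23652 h23652
  have h23654 := checkRangeG_sound parWF r2 pf23653 h23653
  have h23655 := checkRangeG_sound parWF r2 pf23654 h23654
  have h23656 := checkRangeG_sound parWF r2 pf23655 h23655
  have h23657 := checkRangeG_sound parWF r2 pf23656 h23656
  have h23658 := checkRangeG_sound parWF r2 pf23657 h23657
  have h23659 := checkRangeG_sound parWF r2 pf23658 h23658
  have h23660 := checkRangeG_sound parWF r2 pf23659 h23659
  have h23661 := checkRangeG_sound parWF r2 pf23660 h23660
  have h23662 := checkRangeG_sound parWF r2 pf23661 h23661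
  have h23663 := checkRangeG_sound parWF r2 pf23662 h23662
  have h23664 := checkRangeG_sound parWF r2 pf23663 h23663
  have h23665 := checkRangeG_sound parWF r2 pf23664 h23664
  have h23666 := checkRangeG_sound parWF r2 pf23665 h23665
  have h23667 := checkRangeG_sound parWF r2 pf23666 h23666
  have h23668 := checkRangeG_sound parWF r2 pf23667 h23667
  have h23669 := checkRangeG_sound parWF r2 pf23668 h23668
  have h23670 := checkRangeG_sound parWF r2 pf23669 h23669
  have h23671 := checkRangeG_sound parWF r2 pf23670 h23670
  have h23672 := checkRangeG_sound parWF r2 pf23671 h23671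
  have h23673 := checkRangeG_sound parWF r2 pf23672 h23672
  have h23674 := checkRangeG_sound parWF r2 pf23673 h23673
  have h23675 := checkRangeG_sound parWF r2 pf23674 h23674
  have h23676 := checkRangeG_sound parWF r2 pf23675 h23675
  have h23677 := checkRangeG_sound parWF r2 pf23676 h23676
  have h23678 := checkRangeG_sound parWF r2 pf23677 h23677
  have h23679 := checkRangeG_sound parWF r2 pf23678 h23678
  have h23680 := checkRangeG_sound parWF r2 pf23679 h23679
  have h23681 := checkRangeG_sound parWF r2 pf23680 h23680
  have h23682 := checkRangeG_sound parWF r2 pf23681 h23681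
  have h23683 := checkRangeG_sound parWF r2 pf23682 h23682
  have h23684 := checkRangeG_sound parWF r2 pf23683 h23683
  have h23685 := checkRangeG_sound parWF r2 pf23684 h23684
  have h23686 := checkRangeG_sound parWF r2 pf23685 h23685
  have h23687 := checkRangeG_sound parWF r2 pf23686 h23686
  have h23688 := checkRangeG_sound parWF r2 pf23687 h23687
  have h23689 := checkRangeG_sound parWF r2 pf23688 h23688
  have h23690 := checkRangeG_sound parWF r2 pf23689 h23689
  have h23691 := checkRangeG_sound parWF r2 pf23690 h23690
  have h23692 := checkRangeG_sound parWF r2 pf23691 h23691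
  have h23693 := checkRangeG_sound parWF r2 pf23692 h23692
  have h23694 := checkRangeG_sound parWF r2 pf23693 h23693
  have h23695 := checkRangeG_sound parWF r2 pf23694 h23694
  have h23696 := checkRangeG_sound parWF r2 pf23695 h23695
  have h23697 := checkRangeG_sound parWF r2 pf23696 h23696
  have h23698 := checkRangeG_sound parWF r2 pf23697 h23697
  have h23699 := checkRangeG_sound parWF r2 pf23698 h23698
  have h23700 := checkRangeG_sound parWF r2 pf23699 h23699
  exact h23700

theorem c474 (h23700 : ∀ j, j < 75761 → GoodG.{u} par (db j)) : ∀ j, j < 75938 → GoodG.{u} par (db j) := by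
  have h23701 := checkRangeG_sound parWF r2 pf23700 h23700
  have h23702 := checkRangeG_sound parWF r2 pf23701 h23701
  have h23703 := checkRangeG_sound parWF r2 pf23702 h23702
  have h23704 := checkRangeG_sound parWF r2 pf23703 h23703
  have h23705 := checkRangeG_sound parWF r2 pf23704 h23704
  have h23706 := checkRangeG_sound parWF r2 pf23705 h23705
  have h23707 := checkRangeG_sound parWF r2 pf23706 h23706
  have h23708 := checkRangeG_sound parWF r2 pf23707 h23707
  have h23709 := checkRangeG_sound parWF r2 pf23708 h23708
  have h23710 := checkRangeG_sound parWF r2 pf23709 h23709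
  have h23711 := checkRangeG_sound parWF r2 pf23710 h23710
  have h23712 := checkRangeG_sound parWF r2 pf23711 h23711
  have h23713 := checkRangeG_sound parWF r2 pf23712 h23712
  have h23714 := checkRangeG_sound parWF r2 pf23713 h23713
  have h23715 := checkRangeG_sound parWF r2 pf23714 h23714
  have h23716 := checkRangeG_sound parWF r2 pf23715 h23715
  have h23717 := checkRangeG_sound parWF r2 pf23716 h23716
  have h23718 := checkRangeG_sound parWF r2 pf23717 h23717
  have h23719 := checkRangeG_sound parWF r2 pf23718 h23718
  have h23720 := checkRangeG_sound parWF r2 pf23719 h23719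
  have h23721 := checkRangeG_sound parWF r2 pf23720 h23720
  have h23722 := checkRangeG_sound parWF r2 pf23721 h23721
  have h23723 := checkRangeG_sound parWF r2 pf23722 h23722
  have h23724 := checkRangeG_sound parWF r2 pf23723 h23723
  have h23725 := checkRangeG_sound parWF r2 pf23724 h23724
  have h23726 := checkRangeG_sound parWF r2 pf23725 h23725
  have h23727 := checkRangeG_sound parWF r2 pf23726 h23726
  have h23728 := checkRangeG_sound parWF r2 pf23727 h23727
  have h23729 := checkRangeG_sound parWF r2 pf23728 h23728
  have h23730 := checkRangeG_sound parWF r2 pf23729 h23729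
  have h23731 := checkRangeG_sound parWF r2 pf23730 h23730
  have h23732 := checkRangeG_sound parWF r2 pf23731 h23731
  have h23733 := checkRangeG_sound parWF r2 pf23732 h23732
  have h23734 := checkRangeG_sound parWF r2 pf23733 h23733
  have h23735 := checkRangeG_sound parWF r2 pf23734 h23734
  have h23736 := checkRangeG_sound parWF r2 pf23735 h23735
  have h23737 := checkRangeG_sound parWF r2 pf23736 h23736
  have h23738 := checkRangeG_sound parWF r2 pf23737 h23737
  have h23739 := checkRangeG_sound parWF r2 pf23738 h23738
  have h23740 := checkRangeG_sound parWF r2 pf23739 h23739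
  have h23741 := checkRangeG_sound parWF r2 pf23740 h23740
  have h23742 := checkRangeG_sound parWF r2 pf23741 h23741
  have h23743 := checkRangeG_sound parWF r2 pf23742 h23742
  have h23744 := checkRangeG_sound parWF r2 pf23743 h23743
  have h23745 := checkRangeG_sound parWF r2 pf23744 h23744
  have h23746 := checkRangeG_sound parWF r2 pf23745 h23745
  have h23747 := checkRangeG_sound parWF r2 pf23746 h23746
  have h23748 := checkRangeG_sound parWF r2 pf23747 h23747
  have h23749 := checkRangeG_sound parWF r2 pf23748 h23748
  have h23750 := checkRangeG_sound parWF r2 pf23749 h23749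
  exact h23750

theorem c475 (h23750 : ∀ j, j < 75938 → GoodG.{u} par (db j)) : ∀ j, j < 76120 → GoodG.{u} par (db j) := by
  have h23751 := checkRangeG_sound parWF r2 pf23750 h23750
  have h23752 := checkRangeG_sound parWF r2 pf23751 h23751
  have h23753 := checkRangeG_sound parWF r2 pf23752 h23752
  have h23754 := checkRangeG_sound parWF r2 pf23753 h23753
  have h23755 := checkRangeG_sound parWF r2 pf23754 h23754
  have h23756 := checkRangeG_sound parWF r2 pf23755 h23755
  have h23757 := checkRangeG_sound parWF r2 pf23756 h23756
  have h23758 := checkRangeG_sound parWF r2 pf23757 h23757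
  have h23759 := checkRangeG_sound parWF r2 pf23758 h23758
  have h23760 := checkRangeG_sound parWF r2 pf23759 h23759
  have h23761 := checkRangeG_sound parWF r2 pf23760 h23760
  have h23762 := checkRangeG_sound parWF r2 pf23761 h23761
  have h23763 := checkRangeG_sound parWF r2 pf23762 h23762
  have h23764 := checkRangeG_sound parWF r2 pf23763 h23763
  have h23765 := checkRangeG_sound parWF r2 pf23764 h23764
  have h23766 := checkRangeG_sound parWF r2 pf23765 h23765
  have h23767 := checkRangeG_sound parWF r2 pf23766 h23766
  have h23768 := checkRangeG_sound parWF r2 pf23767 h23767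
  have h23769 := checkRangeG_sound parWF r2 pf23768 h23768
  have h23770 := checkRangeG_sound parWF r2 pf23769 h23769
  have h23771 := checkRangeG_sound parWF r2 pf23770 h23770
  have h23772 := checkRangeG_sound parWF r2 pf23771 h23771
  have h23773 := checkRangeG_sound parWF r2 pf23772 h23772
  have h23774 := checkRangeG_sound parWF r2 pf23773 h23773
  have h23775 := checkRangeG_sound parWF r2 pf23774 h23774
  have h23776 := checkRangeG_sound parWF r2 pf23775 h23775
  have h23777 := checkRangeG_sound parWF r2 pf23776 h23776
  have h23778 := checkRangeG_sound parWF r2 pf23777 h23777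
  have h23779 := checkRangeG_sound parWF r2 pf23778 h23778
  have h23780 := checkRangeG_sound parWF r2 pf23779 h23779
  have h23781 := checkRangeG_sound parWF r2 pf23780 h23780
  have h23782 := checkRangeG_sound parWF r2 pf23781 h23781
  have h23783 := checkRangeG_sound parWF r2 pf23782 h23782
  have h23784 := checkRangeG_sound parWF r2 pf23783 h23783
  have h23785 := checkRangeG_sound parWF r2 pf23784 h23784
  have h23786 := checkRangeG_sound parWF r2 pf23785 h23785
  have h23787 := checkRangeG_sound parWF r2 pf23786 h23786
  have h23788 := checkRangeG_sound parWF r2 pf23787 h23787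
  have h23789 := checkRangeG_sound parWF r2 pf23788 h23788
  have h23790 := checkRangeG_sound parWF r2 pf23789 h23789
  have h23791 := checkRangeG_sound parWF r2 pf23790 h23790
  have h23792 := checkRangeG_sound parWF r2 pf23791 h23791
  have h23793 := checkRangeG_sound parWF r2 pf23792 h23792
  have h23794 := checkRangeG_sound parWF r2 pf23793 h23793
  have h23795 := checkRangeG_sound parWF r2 pf23794 h23794
  have h23796 := checkRangeG_sound parWF r2 pf23795 h23795
  have h23797 := checkRangeG_sound parWF r2 pf23796 h23796
  have h23798 := checkRangeG_sound parWF r2 pf23797 h23797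
  have h23799 := checkRangeG_sound parWF r2 pf23798 h23798
  have h23800 := checkRangeG_sound parWF r2 pf23799 h23799
  exact h23800

theorem c476 (h23800 : ∀ j, j < 76120 → GoodG.{u} par (db j)) : ∀ j, j < 76288 → GoodG.{u} par (db j) := by
  have h23801 := checkRangeG_sound parWF r2 pf23800 h23800
  have h23802 := checkRangeG_sound parWF r2 pf23801 h23801
  have h23803 := checkRangeG_sound parWF r2 pf23802 h23802
  have h23804 := checkRangeG_sound parWF r2 pf23803 h23803
  have h23805 := checkRangeG_sound parWF r2 pf23804 h23804
  have h23806 := checkRangeG_sound parWF r2 pf23805 h23805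
  have h23807 := checkRangeG_sound parWF r2 pf23806 h23806
  have h23808 := checkRangeG_sound parWF r2 pf23807 h23807
  have h23809 := checkRangeG_sound parWF r2 pf23808 h23808
  have h23810 := checkRangeG_sound parWF r2 pf23809 h23809
  have h23811 := checkRangeG_sound parWF r2 pf23810 h23810
  have h23812 := checkRangeG_sound parWF r2 pf23811 h23811
  have h23813 := checkRangeG_sound parWF r2 pf23812 h23812
  have h23814 := checkRangeG_sound parWF r2 pf23813 h23813
  have h23815 := checkRangeG_sound parWF r2 pf23814 h23814
  have h23816 := checkRangeG_sound parWF r2 pf23815 h23815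
  have h23817 := checkRangeG_sound parWF r2 pf23816 h23816
  have h23818 := checkRangeG_sound parWF r2 pf23817 h23817
  have h23819 := checkRangeG_sound parWF r2 pf23818 h23818
  have h23820 := checkRangeG_sound parWF r2 pf23819 h23819
  have h23821 := checkRangeG_sound parWF r2 pf23820 h23820
  have h23822 := checkRangeG_sound parWF r2 pf23821 h23821
  have h23823 := checkRangeG_sound parWF r2 pf23822 h23822
  have h23824 := checkRangeG_sound parWF r2 pf23823 h23823
  have h23825 := checkRangeG_sound parWF r2 pf23824 h23824
  have h23826 := checkRangeG_sound parWF r2 pf23825 h23825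
  have h23827 := checkRangeG_sound parWF r2 pf23826 h23826
  have h23828 := checkRangeG_sound parWF r2 pf23827 h23827
  have h23829 := checkRangeG_sound parWF r2 pf23828 h23828
  have h23830 := checkRangeG_sound parWF r2 pf23829 h23829
  have h23831 := checkRangeG_sound parWF r2 pf23830 h23830
  have h23832 := checkRangeG_sound parWF r2 pf23831 h23831
  have h23833 := checkRangeG_sound parWF r2 pf23832 h23832
  have h23834 := checkRangeG_sound parWF r2 pf23833 h23833
  have h23835 := checkRangeG_sound parWF r2 pf23834 h23834
  have h23836 := checkRangeG_sound parWF r2 pf23835 h23835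
  have h23837 := checkRangeG_sound parWF r2 pf23836 h23836
  have h23838 := checkRangeG_sound parWF r2 pf23837 h23837
  have h23839 := checkRangeG_sound parWF r2 pf23838 h23838
  have h23840 := checkRangeG_sound parWF r2 pf23839 h23839
  have h23841 := checkRangeG_sound parWF r2 pf23840 h23840
  have h23842 := checkRangeG_sound parWF r2 pf23841 h23841
  have h23843 := checkRangeG_sound parWF r2 pf23842 h23842
  have h23844 := checkRangeG_sound parWF r2 pf23843 h23843
  have h23845 := checkRangeG_sound parWF r2 pf23844 h23844
  have h23846 := checkRangeG_sound parWF r2 pf23845 h23845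
  have h23847 := checkRangeG_sound parWF r2 pf23846 h23846
  have h23848 := checkRangeG_sound parWF r2 pf23847 h23847
  have h23849 := checkRangeG_sound parWF r2 pf23848 h23848
  have h23850 := checkRangeG_sound parWF r2 pf23849 h23849
  exact h23850

theorem c477 (h23850 : ∀ j, j < 76288 → GoodG.{u} par (db j)) : ∀ j, j < 76467 → GoodG.{u} par (db j) := by
  have h23851 := checkRangeG_sound parWF r2 pf23850 h23850
  have h23852 := checkRangeG_sound parWF r2 pf23851 h23851
  have h23853 := checkRangeG_sound parWF r2 pf23852 h23852
  have h23854 := checkRangeG_sound parWF r2 pf23853 h23853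
  have h23855 := checkRangeG_sound parWF r2 pf23854 h23854
  have h23856 := checkRangeG_sound parWF r2 pf23855 h23855
  have h23857 := checkRangeG_sound parWF r2 pf23856 h23856
  have h23858 := checkRangeG_sound parWF r2 pf23857 h23857
  have h23859 := checkRangeG_sound parWF r2 pf23858 h23858
  have h23860 := checkRangeG_sound parWF r2 pf23859 h23859
  have h23861 := checkRangeG_sound parWF r2 pf23860 h23860
  have h23862 := checkRangeG_sound parWF r2 pf23861 h23861
  have h23863 := checkRangeG_sound parWF r2 pf23862 h23862
  have h23864 := checkRangeG_sound parWF r2 pf23863 h23863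
  have h23865 := checkRangeG_sound parWF r2 pf23864 h23864
  have h23866 := checkRangeG_sound parWF r2 pf23865 h23865
  have h23867 := checkRangeG_sound parWF r2 pf23866 h23866
  have h23868 := checkRangeG_sound parWF r2 pf23867 h23867
  have h23869 := checkRangeG_sound parWF r2 pf23868 h23868
  have h23870 := checkRangeG_sound parWF r2 pf23869 h23869
  have h23871 := checkRangeG_sound parWF r2 pf23870 h23870
  have h23872 := checkRangeG_sound parWF r2 pf23871 h23871
  have h23873 := checkRangeG_sound parWF r2 pf23872 h23872
  have h23874 := checkRangeG_sound parWF r2 pf23873 h23873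
  have h23875 := checkRangeG_sound parWF r2 pf23874 h23874
  have h23876 := checkRangeG_sound parWF r2 pf23875 h23875
  have h23877 := checkRangeG_sound parWF r2 pf23876 h23876
  have h23878 := checkRangeG_sound parWF r2 pf23877 h23877
  have h23879 := checkRangeG_sound parWF r2 pf23878 h23878
  have h23880 := checkRangeG_sound parWF r2 pf23879 h23879
  have h23881 := checkRangeG_sound parWF r2 pf23880 h23880
  have h23882 := checkRangeG_sound parWF r2 pf23881 h23881
  have h23883 := checkRangeG_sound parWF r2 pf23882 h23882
  have h23884 := checkRangeG_sound parWF r2 pf23883 h23883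
  have h23885 := checkRangeG_sound parWF r2 pf23884 h23884
  have h23886 := checkRangeG_sound parWF r2 pf23885 h23885
  have h23887 := checkRangeG_sound parWF r2 pf23886 h23886
  have h23888 := checkRangeG_sound parWF r2 pf23887 h23887
  have h23889 := checkRangeG_sound parWF r2 pf23888 h23888
  have h23890 := checkRangeG_sound parWF r2 pf23889 h23889
  have h23891 := checkRangeG_sound parWF r2 pf23890 h23890
  have h23892 := checkRangeG_sound parWF r2 pf23891 h23891
  have h23893 := checkRangeG_sound parWF r2 pf23892 h23892
  have h23894 := checkRangeG_sound parWF r2 pf23893 h23893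
  have h23895 := checkRangeG_sound parWF r2 pf23894 h23894
  have h23896 := checkRangeG_sound parWF r2 pf23895 h23895
  have h23897 := checkRangeG_sound parWF r2 pf23896 h23896
  have h23898 := checkRangeG_sound parWF r2 pf23897 h23897
  have h23899 := checkRangeG_sound parWF r2 pf23898 h23898
  have h23900 := checkRangeG_sound parWF r2 pf23899 h23899
  exact h23900

theorem c478 (h23900 : ∀ j, j < 76467 → GoodG.{u} par (db j)) : ∀ j, j < 76647 → GoodG.{u} par (db j) := by
  have h23901 := checkRangeG_sound parWF r2 pf23900 h23900
  have h23902 := checkRangeG_sound parWF r2 pf23901 h23901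
  have h23903 := checkRangeG_sound parWF r2 pf23902 h23902
  have h23904 := checkRangeG_sound parWF r2 pf23903 h23903
  have h23905 := checkRangeG_sound parWF r2 pf23904 h23904
  have h23906 := checkRangeG_sound parWF r2 pf23905 h23905
  have h23907 := checkRangeG_sound parWF r2 pf23906 h23906
  have h23908 := checkRangeG_sound parWF r2 pf23907 h23907
  have h23909 := checkRangeG_sound parWF r2 pf23908 h23908
  have h23910 := checkRangeG_sound parWF r2 pf23909 h23909
  have h23911 := checkRangeG_sound parWF r2 pf23910 h23910
  have h23912 := checkRangeG_sound parWF r2 pf23911 h23911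
  have h23913 := checkRangeG_sound parWF r2 pf23912 h23912
  have h23914 := checkRangeG_sound parWF r2 pf23913 h23913
  have h23915 := checkRangeG_sound parWF r2 pf23914 h23914
  have h23916 := checkRangeG_sound parWF r2 pf23915 h23915
  have h23917 := checkRangeG_sound parWF r2 pf23916 h23916
  have h23918 := checkRangeG_sound parWF r2 pf23917 h23917
  have h23919 := checkRangeG_sound parWF r2 pf23918 h23918
  have h23920 := checkRangeG_sound parWF r2 pf23919 h23919
  have h23921 := checkRangeG_sound parWF r2 pf23920 h23920
  have h23922 := checkRangeG_sound parWF r2 pf23921 h23921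
  have h23923 := checkRangeG_sound parWF r2 pf23922 h23922
  have h23924 := checkRangeG_sound parWF r2 pf23923 h23923
  have h23925 := checkRangeG_sound parWF r2 pf23924 h23924
  have h23926 := checkRangeG_sound parWF r2 pf23925 h23925
  have h23927 := checkRangeG_sound parWF r2 pf23926 h23926
  have h23928 := checkRangeG_sound parWF r2 pf23927 h23927
  have h23929 := checkRangeG_sound parWF r2 pf23928 h23928
  have h23930 := checkRangeG_sound parWF r2 pf23929 h23929
  have h23931 := checkRangeG_sound parWF r2 pf23930 h23930
  have h23932 := checkRangeG_sound parWF r2 pf23931 h23931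
  have h23933 := checkRangeG_sound parWF r2 pf23932 h23932
  have h23934 := checkRangeG_sound parWF r2 pf23933 h23933
  have h23935 := checkRangeG_sound parWF r2 pf23934 h23934
  have h23936 := checkRangeG_sound parWF r2 pf23935 h23935
  have h23937 := checkRangeG_sound parWF r2 pf23936 h23936
  have h23938 := checkRangeG_sound parWF r2 pf23937 h23937
  have h23939 := checkRangeG_sound parWF r2 pf23938 h23938
  have h23940 := checkRangeG_sound parWF r2 pf23939 h23939
  have h23941 := checkRangeG_sound parWF r2 pf23940 h23940
  have h23942 := checkRangeG_sound parWF r2 pf23941 h23941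
  have h23943 := checkRangeG_sound parWF r2 pf23942 h23942
  have h23944 := checkRangeG_sound parWF r2 pf23943 h23943
  have h23945 := checkRangeG_sound parWF r2 pf23944 h23944
  have h23946 := checkRangeG_sound parWF r2 pf23945 h23945
  have h23947 := checkRangeG_sound parWF r2 pf23946 h23946
  have h23948 := checkRangeG_sound parWF r2 pf23947 h23947
  have h23949 := checkRangeG_sound parWF r2 pf23948 h23948
  have h23950 := checkRangeG_sound parWF r2 pf23949 h23949
  exact h23950

theorem c479 (h23950 : ∀ j, j < 76647 → GoodG.{u} par (db j)) : ∀ j, j < 76822 → GoodG.{u} par (db j) := by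
  have h23951 := checkRangeG_sound parWF r2 pf23950 h23950
  have h23952 := checkRangeG_sound parWF r2 pf23951 h23951
  have h23953 := checkRangeG_sound parWF r2 pf23952 h23952
  have h23954 := checkRangeG_sound parWF r2 pf23953 h23953
  have h23955 := checkRangeG_sound parWF r2 pf23954 h23954
  have h23956 := checkRangeG_sound parWF r2 pf23955 h23955
  have h23957 := checkRangeG_sound parWF r2 pf23956 h23956
  have h23958 := checkRangeG_sound parWF r2 pf23957 h23957
  have h23959 := checkRangeG_sound parWF r2 pf23958 h23958
  have h23960 := checkRangeG_sound parWF r2 pf23959 h23959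
  have h23961 := checkRangeG_sound parWF r2 pf23960 h23960
  have h23962 := checkRangeG_sound parWF r2 pf23961 h23961
  have h23963 := checkRangeG_sound parWF r2 pf23962 h23962
  have h23964 := checkRangeG_sound parWF r2 pf23963 h23963
  have h23965 := checkRangeG_sound parWF r2 pf23964 h23964
  have h23966 := checkRangeG_sound parWF r2 pf23965 h23965
  have h23967 := checkRangeG_sound parWF r2 pf23966 h23966
  have h23968 := checkRangeG_sound parWF r2 pf23967 h23967
  have h23969 := checkRangeG_sound parWF r2 pf23968 h23968
  have h23970 := checkRangeG_sound parWF r2 pf23969 h23969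
  have h23971 := checkRangeG_sound parWF r2 pf23970 h23970
  have h23972 := checkRangeG_sound parWF r2 pf23971 h23971
  have h23973 := checkRangeG_sound parWF r2 pf23972 h23972
  have h23974 := checkRangeG_sound parWF r2 pf23973 h23973
  have h23975 := checkRangeG_sound parWF r2 pf23974 h23974
  have h23976 := checkRangeG_sound parWF r2 pf23975 h23975
  have h23977 := checkRangeG_sound parWF r2 pf23976 h23976
  have h23978 := checkRangeG_sound parWF r2 pf23977 h23977
  have h23979 := checkRangeG_sound parWF r2 pf23978 h23978
  have h23980 := checkRangeG_sound parWF r2 pf23979 h23979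
  have h23981 := checkRangeG_sound parWF r2 pf23980 h23980
  have h23982 := checkRangeG_sound parWF r2 pf23981 h23981
  have h23983 := checkRangeG_sound parWF r2 pf23982 h23982
  have h23984 := checkRangeG_sound parWF r2 pf23983 h23983
  have h23985 := checkRangeG_sound parWF r2 pf23984 h23984
  have h23986 := checkRangeG_sound parWF r2 pf23985 h23985
  have h23987 := checkRangeG_sound parWF r2 pf23986 h23986
  have h23988 := checkRangeG_sound parWF r2 pf23987 h23987
  have h23989 := checkRangeG_sound parWF r2 pf23988 h23988
  have h23990 := checkRangeG_sound parWF r2 pf23989 h23989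
  have h23991 := checkRangeG_sound parWF r2 pf23990 h23990
  have h23992 := checkRangeG_sound parWF r2 pf23991 h23991
  have h23993 := checkRangeG_sound parWF r2 pf23992 h23992
  have h23994 := checkRangeG_sound parWF r2 pf23993 h23993
  have h23995 := checkRangeG_sound parWF r2 pf23994 h23994
  have h23996 := checkRangeG_sound parWF r2 pf23995 h23995
  have h23997 := checkRangeG_sound parWF r2 pf23996 h23996
  have h23998 := checkRangeG_sound parWF r2 pf23997 h23997
  have h23999 := checkRangeG_sound parWF r2 pf23998 h23998
  have h24000 := checkRangeG_sound parWF r2 pf23999 h23999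
  exact h24000


end Vale.Agent.P045g.C61
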