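import Vale.Agent.P045g.C61.WF
import Vale.Agent.P045g.C61.Pf40
import Vale.Agent.P045g.C61.Pf41
import Vale.Agent.P045g.C61.Pf42
import Vale.Agent.P045g.C61.Pf43
import Vale.Agent.P045g.C61.Pf44
import Vale.Agent.P045g.C61.Pf45
import Vale.Agent.P045g.C61.Pf46
import Vale.Agent.P045g.C61.Pf47
import Vale.Agent.P045g.C61.Pf48
import Vale.Agent.P045g.C61.Pf49

namespace Vale.Agent.P045g.C61

open Vale.Agent.P045b Vale.Agent.P045g

universe u

theorem c48 (h2400 : ∀ j, j < 6935 → GoodG.{u} par (db j)) : ∀ j, j < 7151 → GoodG.{u} par (db j) := by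
  have h2401 := checkRangeG_sound parWF r2 pf2400 h2400
  have h2402 := checkRangeG_sound parWF r2 pf2401 h2401
  have h2403 := checkRangeG_sound parWF r2 pf2402 h2402
  have h2404 := checkRangeG_sound parWF r2 pf2403 h2403
  have h2405 := checkRangeG_sound parWF r2 pf2404 h2404
  have h2406 := checkRangeG_sound parWF r2 pf2405 h2405
  have h2407 := checkRangeG_sound parWF r2 pf2406 h2406
  have h2408 := checkRangeG_sound parWF r2 pf2407 h2407
  have h2409 := checkRangeG_sound parWF r2 pf2408 h2408
  have h2410 := checkRangeG_sound parWF r2 pf2409 h2409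
  have h2411 := checkRangeG_sound parWF r2 pf2410 h2410
  have h2412 := checkRangeG_sound parWF r2 pf2411 h2411
  have h2413 := checkRangeG_sound parWF r2 pf2412 h2412
  have h2414 := checkRangeG_sound parWF r2 pf2413 h2413
  have h2415 := checkRangeG_sound parWF r2 pf2414 h2414
  have h2416 := checkRangeG_sound parWF r2 pf2415 h2415
  have h2417 := checkRangeG_sound parWF r2 pf2416 h2416
  have h2418 := checkRangeG_sound parWF r2 pf2417 h2417
  have h2419 := checkRangeG_sound parWF r2 pf2418 h2418
  have h2420 := checkRangeG_sound parWF r2 pf2419 h2419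
  have h2421 := checkRangeG_sound parWF r2 pf2420 h2420
  have h2422 := checkRangeG_sound parWF r2 pf2421 h2421
  have h2423 := checkRangeG_sound parWF r2 pf2422 h2422
  have h2424 := checkRangeG_sound parWF r2 pf2423 h2423
  have h2425 := checkRangeG_sound parWF r2 pf2424 h2424
  have h2426 := checkRangeG_sound parWF r2 pf2425 h2425
  have h2427 := checkRangeG_sound parWF r2 pf2426 h2426
  have h2428 := checkRangeG_sound parWF r2 pf2427 h2427
  have h2429 := checkRangeG_sound parWF r2 pf2428 h2428
  have h2430 := checkRangeG_sound parWF r2 pf2429 h2429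
  have h2431 := checkRangeG_sound parWF r2 pf2430 h2430
  have h2432 := checkRangeG_sound parWF r2 pf2431 h2431
  have h2433 := checkRangeG_sound parWF r2 pf2432 h2432
  have h2434 := checkRangeG_sound parWF r2 pf2433 h2433
  have h2435 := checkRangeG_sound parWF r2 pf2434 h2434
  have h2436 := checkRangeG_sound parWF r2 pf2435 h2435
  have h2437 := checkRangeG_sound parWF r2 pf2436 h2436
  have h2438 := checkRangeG_sound parWF r2 pf2437 h2437
  have h2439 := checkRangeG_sound parWF r2 pf2438 h2438
  have h2440 := checkRangeG_sound parWF r2 pf2439 h2439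
  have h2441 := checkRangeG_sound parWF r2 pf2440 h2440
  have h2442 := checkRangeG_sound parWF r2 pf2441 h2441
  have h2443 := checkRangeG_sound parWF r2 pf2442 h2442
  have h2444 := checkRangeG_sound parWF r2 pf2443 h2443
  have h2445 := checkRangeG_sound parWF r2 pf2444 h2444
  have h2446 := checkRangeG_sound parWF r2 pf2445 h2445
  have h2447 := checkRangeG_sound parWF r2 pf2446 h2446
  have h2448 := checkRangeG_sound parWF r2 pf2447 h2447
  have h2449 := checkRangeG_sound parWF r2 pf2448 h2448
  have h2450 := checkRangeG_sound parWF r2 pf2449 h2449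
  exact h2450

theorem c49 (h2450 : ∀ j, j < 7151 → GoodG.{u} par (db j)) : ∀ j, j < 7318 → GoodG.{u} par (db j) := by
  have h2451 := checkRangeG_sound parWF r2 pf2450 h2450
  have h2452 := checkRangeG_sound parWF r2 pf2451 h2451
  have h2453 := checkRangeG_sound parWF r2 pf2452 h2452
  have h2454 := checkRangeG_sound parWF r2 pf2453 h2453
  have h2455 := checkRangeG_sound parWF r2 pf2454 h2454
  have h2456 := checkRangeG_sound parWF r2 pf2455 h2455
  have h2457 := checkRangeG_sound parWF r2 pf2456 h2456
  have h2458 := checkRangeG_sound parWF r2 pf2457 h2457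
  have h2459 := checkRangeG_sound parWF r2 pf2458 h2458
  have h2460 := checkRangeG_sound parWF r2 pf2459 h2459
  have h2461 := checkRangeG_sound parWF r2 pf2460 h2460
  have h2462 := checkRangeG_sound parWF r2 pf2461 h2461
  have h2463 := checkRangeG_sound parWF r2 pf2462 h2462
  have h2464 := checkRangeG_sound parWF r2 pf2463 h2463
  have h2465 := checkRangeG_sound parWF r2 pf2464 h2464
  have h2466 := checkRangeG_sound parWF r2 pf2465 h2465
  have h2467 := checkRangeG_sound parWF r2 pf2466 h2466
  have h2468 := checkRangeG_sound parWF r2 pf2467 h2467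
  have h2469 := checkRangeG_sound parWF r2 pf2468 h2468
  have h2470 := checkRangeG_sound parWF r2 pf2469 h2469
  have h2471 := checkRangeG_sound parWF r2 pf2470 h2470
  have h2472 := checkRangeG_sound parWF r2 pf2471 h2471
  have h2473 := checkRangeG_sound parWF r2 pf2472 h2472
  have h2474 := checkRangeG_sound parWF r2 pf2473 h2473
  have h2475 := checkRangeG_sound parWF r2 pf2474 h2474
  have h2476 := checkRangeG_sound parWF r2 pf2475 h2475
  have h2477 := checkRangeG_sound parWF r2 pf2476 h2476
  have h2478 := checkRangeG_sound parWF r2 pf2477 h2477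
  have h2479 := checkRangeG_sound parWF r2 pf2478 h2478
  have h2480 := checkRangeG_sound parWF r2 pf2479 h2479
  have h2481 := checkRangeG_sound parWF r2 pf2480 h2480
  have h2482 := checkRangeG_sound parWF r2 pf2481 h2481
  have h2483 := checkRangeG_sound parWF r2 pf2482 h2482
  have h2484 := checkRangeG_sound parWF r2 pf2483 h2483
  have h2485 := checkRangeG_sound parWF r2 pf2484 h2484
  have h2486 := checkRangeG_sound parWF r2 pf2485 h2485
  have h2487 := checkRangeG_sound parWF r2 pf2486 h2486
  have h2488 := checkRangeG_sound parWF r2 pf2487 h2487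
  have h2489 := checkRangeG_sound parWF r2 pf2488 h2488
  have h2490 := checkRangeG_sound parWF r2 pf2489 h2489
  have h2491 := checkRangeG_sound parWF r2 pf2490 h2490
  have h2492 := checkRangeG_sound parWF r2 pf2491 h2491
  have h2493 := checkRangeG_sound parWF r2 pf2492 h2492
  have h2494 := checkRangeG_sound parWF r2 pf2493 h2493
  have h2495 := checkRangeG_sound parWF r2 pf2494 h2494
  have h2496 := checkRangeG_sound parWF r2 pf2495 h2495
  have h2497 := checkRangeG_sound parWF r2 pf2496 h2496
  have h2498 := checkRangeG_sound parWF r2 pf2497 h2497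
  have h2499 := checkRangeG_sound parWF r2 pf2498 h2498
  have h2500 := checkRangeG_sound parWF r2 pf2499 h2499
  exact h2500

theorem c50 (h2500 : ∀ j, j < 7318 → GoodG.{u} par (db j)) : ∀ j, j < 7459 → GoodG.{u} par (db j) := by
  have h2501 := checkRangeG_sound parWF r2 pf2500 h2500
  have h2502 := checkRangeG_sound parWF r2 pf2501 h2501
  have h2503 := checkRangeG_sound parWF r2 pf2502 h2502
  have h2504 := checkRangeG_sound parWF r2 pf2503 h2503
  have h2505 := checkRangeG_sound parWF r2 pf2504 h2504
  have h2506 := checkRangeG_sound parWF r2 pf2505 h2505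
  have h2507 := checkRangeG_sound parWF r2 pf2506 h2506
  have h2508 := checkRangeG_sound parWF r2 pf2507 h2507
  have h2509 := checkRangeG_sound parWF r2 pf2508 h2508
  have h2510 := checkRangeG_sound parWF r2 pf2509 h2509
  have h2511 := checkRangeG_sound parWF r2 pf2510 h2510
  have h2512 := checkRangeG_sound parWF r2 pf2511 h2511
  have h2513 := checkRangeG_sound parWF r2 pf2512 h2512
  have h2514 := checkRangeG_sound parWF r2 pf2513 h2513
  have h2515 := checkRangeG_sound parWF r2 pf2514 h2514
  have h2516 := checkRangeG_sound parWF r2 pf2515 h2515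
  have h2517 := checkRangeG_sound parWF r2 pf2516 h2516
  have h2518 := checkRangeG_sound parWF r2 pf2517 h2517
  have h2519 := checkRangeG_sound parWF r2 pf2518 h2518
  have h2520 := checkRangeG_sound parWF r2 pf2519 h2519
  have h2521 := checkRangeG_sound parWF r2 pf2520 h2520
  have h2522 := checkRangeG_sound parWF r2 pf2521 h2521
  have h2523 := checkRangeG_sound parWF r2 pf2522 h2522
  have h2524 := checkRangeG_sound parWF r2 pf2523 h2523
  have h2525 := checkRangeG_sound parWF r2 pf2524 h2524
  have h2526 := checkRangeG_sound parWF r2 pf2525 h2525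
  have h2527 := checkRangeG_sound parWF r2 pf2526 h2526
  have h2528 := checkRangeG_sound parWF r2 pf2527 h2527
  have h2529 := checkRangeG_sound parWF r2 pf2528 h2528
  have h2530 := checkRangeG_sound parWF r2 pf2529 h2529
  have h2531 := checkRangeG_sound parWF r2 pf2530 h2530
  have h2532 := checkRangeG_sound parWF r2 pf2531 h2531
  have h2533 := checkRangeG_sound parWF r2 pf2532 h2532
  have h2534 := checkRangeG_sound parWF r2 pf2533 h2533
  have h2535 := checkRangeG_sound parWF r2 pf2534 h2534
  have h2536 := checkRangeG_sound parWF r2 pf2535 h2535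
  have h2537 := checkRangeG_sound parWF r2 pf2536 h2536
  have h2538 := checkRangeG_sound parWF r2 pf2537 h2537
  have h2539 := checkRangeG_sound parWF r2 pf2538 h2538
  have h2540 := checkRangeG_sound parWF r2 pf2539 h2539
  have h2541 := checkRangeG_sound parWF r2 pf2540 h2540
  have h2542 := checkRangeG_sound parWF r2 pf2541 h2541
  have h2543 := checkRangeG_sound parWF r2 pf2542 h2542
  have h2544 := checkRangeG_sound parWF r2 pf2543 h2543
  have h2545 := checkRangeG_sound parWF r2 pf2544 h2544
  have h2546 := checkRangeG_sound parWF r2 pf2545 h2545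
  have h2547 := checkRangeG_sound parWF r2 pf2546 h2546
  have h2548 := checkRangeG_sound parWF r2 pf2547 h2547
  have h2549 := checkRangeG_sound parWF r2 pf2548 h2548
  have h2550 := checkRangeG_sound parWF r2 pf2549 h2549
  exact h2550

theorem c51 (h2550 : ∀ j, j < 7459 → GoodG.{u} par (db j)) : ∀ j, j < 7609 → GoodG.{u} par (db j) := by
  have h2551 := checkRangeG_sound parWF r2 pf2550 h2550
  have h2552 := checkRangeG_sound parWF r2 pf2551 h2551
  have h2553 := checkRangeG_sound parWF r2 pf2552 h2552
  have h2554 := checkRangeG_sound parWF r2 pf2553 h2553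
  have h2555 := checkRangeG_sound parWF r2 pf2554 h2554
  have h2556 := checkRangeG_sound parWF r2 pf2555 h2555
  have h2557 := checkRangeG_sound parWF r2 pf2556 h2556
  have h2558 := checkRangeG_sound parWF r2 pf2557 h2557
  have h2559 := checkRangeG_sound parWF r2 pf2558 h2558
  have h2560 := checkRangeG_sound parWF r2 pf2559 h2559
  have h2561 := checkRangeG_sound parWF r2 pf2560 h2560
  have h2562 := checkRangeG_sound parWF r2 pf2561 h2561
  have h2563 := checkRangeG_sound parWF r2 pf2562 h2562
  have h2564 := checkRangeG_sound parWF r2 pf2563 h2563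
  have h2565 := checkRangeG_sound parWF r2 pf2564 h2564
  have h2566 := checkRangeG_sound parWF r2 pf2565 h2565
  have h2567 := checkRangeG_sound parWF r2 pf2566 h2566
  have h2568 := checkRangeG_sound parWF r2 pf2567 h2567
  have h2569 := checkRangeG_sound parWF r2 pf2568 h2568
  have h2570 := checkRangeG_sound parWF r2 pf2569 h2569
  have h2571 := checkRangeG_sound parWF r2 pf2570 h2570
  have h2572 := checkRangeG_sound parWF r2 pf2571 h2571
  have h2573 := checkRangeG_sound parWF r2 pf2572 h2572
  have h2574 := checkRangeG_sound parWF r2 pf2573 h2573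
  have h2575 := checkRangeG_sound parWF r2 pf2574 h2574
  have h2576 := checkRangeG_sound parWF r2 pf2575 h2575
  have h2577 := checkRangeG_sound parWF r2 pf2576 h2576
  have h2578 := checkRangeG_sound parWF r2 pf2577 h2577
  have h2579 := checkRangeG_sound parWF r2 pf2578 h2578
  have h2580 := checkRangeG_sound parWF r2 pf2579 h2579
  have h2581 := checkRangeG_sound parWF r2 pf2580 h2580
  have h2582 := checkRangeG_sound parWF r2 pf2581 h2581
  have h2583 := checkRangeG_sound parWF r2 pf2582 h2582
  have h2584 := checkRangeG_sound parWF r2 pf2583 h2583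
  have h2585 := checkRangeG_sound parWF r2 pf2584 h2584
  have h2586 := checkRangeG_sound parWF r2 pf2585 h2585
  have h2587 := checkRangeG_sound parWF r2 pf2586 h2586
  have h2588 := checkRangeG_sound parWF r2 pf2587 h2587
  have h2589 := checkRangeG_sound parWF r2 pf2588 h2588
  have h2590 := checkRangeG_sound parWF r2 pf2589 h2589
  have h2591 := checkRangeG_sound parWF r2 pf2590 h2590
  have h2592 := checkRangeG_sound parWF r2 pf2591 h2591
  have h2593 := checkRangeG_sound parWF r2 pf2592 h2592
  have h2594 := checkRangeG_sound parWF r2 pf2593 h2593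
  have h2595 := checkRangeG_sound parWF r2 pf2594 h2594
  have h2596 := checkRangeG_sound parWF r2 pf2595 h2595
  have h2597 := checkRangeG_sound parWF r2 pf2596 h2596
  have h2598 := checkRangeG_sound parWF r2 pf2597 h2597
  have h2599 := checkRangeG_sound parWF r2 pf2598 h2598
  have h2600 := checkRangeG_sound parWF r2 pf2599 h2599
  exact h2600

theorem c52 (h2600 : ∀ j, j < 7609 → GoodG.{u} par (db j)) : ∀ j, j < 7744 → GoodG.{u} par (db j) := by
  have h2601 := checkRangeG_sound parWF r2 pf2600 h2600
  have h2602 := checkRangeG_sound parWF r2 pf2601 h2601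
  have h2603 := checkRangeG_sound parWF r2 pf2602 h2602
  have h2604 := checkRangeG_sound parWF r2 pf2603 h2603
  have h2605 := checkRangeG_sound parWF r2 pf2604 h2604
  have h2606 := checkRangeG_sound parWF r2 pf2605 h2605
  have h2607 := checkRangeG_sound parWF r2 pf2606 h2606
  have h2608 := checkRangeG_sound parWF r2 pf2607 h2607
  have h2609 := checkRangeG_sound parWF r2 pf2608 h2608
  have h2610 := checkRangeG_sound parWF r2 pf2609 h2609
  have h2611 := checkRangeG_sound parWF r2 pf2610 h2610
  have h2612 := checkRangeG_sound parWF r2 pf2611 h2611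
  have h2613 := checkRangeG_sound parWF r2 pf2612 h2612
  have h2614 := checkRangeG_sound parWF r2 pf2613 h2613
  have h2615 := checkRangeG_sound parWF r2 pf2614 h2614
  have h2616 := checkRangeG_sound parWF r2 pf2615 h2615
  have h2617 := checkRangeG_sound parWF r2 pf2616 h2616
  have h2618 := checkRangeG_sound parWF r2 pf2617 h2617
  have h2619 := checkRangeG_sound parWF r2 pf2618 h2618
  have h2620 := checkRangeG_sound parWF r2 pf2619 h2619
  have h2621 := checkRangeG_sound parWF r2 pf2620 h2620
  have h2622 := checkRangeG_sound parWF r2 pf2621 h2621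
  have h2623 := checkRangeG_sound parWF r2 pf2622 h2622
  have h2624 := checkRangeG_sound parWF r2 pf2623 h2623
  have h2625 := checkRangeG_sound parWF r2 pf2624 h2624
  have h2626 := checkRangeG_sound parWF r2 pf2625 h2625
  have h2627 := checkRangeG_sound parWF r2 pf2626 h2626
  have h2628 := checkRangeG_sound parWF r2 pf2627 h2627
  have h2629 := checkRangeG_sound parWF r2 pf2628 h2628
  have h2630 := checkRangeG_sound parWF r2 pf2629 h2629
  have h2631 := checkRangeG_sound parWF r2 pf2630 h2630
  have h2632 := checkRangeG_sound parWF r2 pf2631 h2631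
  have h2633 := checkRangeG_sound parWF r2 pf2632 h2632
  have h2634 := checkRangeG_sound parWF r2 pf2633 h2633
  have h2635 := checkRangeG_sound parWF r2 pf2634 h2634
  have h2636 := checkRangeG_sound parWF r2 pf2635 h2635
  have h2637 := checkRangeG_sound parWF r2 pf2636 h2636
  have h2638 := checkRangeG_sound parWF r2 pf2637 h2637
  have h2639 := checkRangeG_sound parWF r2 pf2638 h2638
  have h2640 := checkRangeG_sound parWF r2 pf2639 h2639
  have h2641 := checkRangeG_sound parWF r2 pf2640 h2640
  have h2642 := checkRangeG_sound parWF r2 pf2641 h2641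
  have h2643 := checkRangeG_sound parWF r2 pf2642 h2642
  have h2644 := checkRangeG_sound parWF r2 pf2643 h2643
  have h2645 := checkRangeG_sound parWF r2 pf2644 h2644
  have h2646 := checkRangeG_sound parWF r2 pf2645 h2645
  have h2647 := checkRangeG_sound parWF r2 pf2646 h2646
  have h2648 := checkRangeG_sound parWF r2 pf2647 h2647
  have h2649 := checkRangeG_sound parWF r2 pf2648 h2648
  have h2650 := checkRangeG_sound parWF r2 pf2649 h2649
  exact h2650

theorem c53 (h2650 : ∀ j, j < 7744 → GoodG.{u} par (db j)) : ∀ j, j < 7883 → GoodG.{u} par (db j) := by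
  have h2651 := checkRangeG_sound parWF r2 pf2650 h2650
  have h2652 := checkRangeG_sound parWF r2 pf2651 h2651
  have h2653 := checkRangeG_sound parWF r2 pf2652 h2652
  have h2654 := checkRangeG_sound parWF r2 pf2653 h2653
  have h2655 := checkRangeG_sound parWF r2 pf2654 h2654
  have h2656 := checkRangeG_sound parWF r2 pf2655 h2655
  have h2657 := checkRangeG_sound parWF r2 pf2656 h2656
  have h2658 := checkRangeG_sound parWF r2 pf2657 h2657
  have h2659 := checkRangeG_sound parWF r2 pf2658 h2658
  have h2660 := checkRangeG_sound parWF r2 pf2659 h2659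
  have h2661 := checkRangeG_sound parWF r2 pf2660 h2660
  have h2662 := checkRangeG_sound parWF r2 pf2661 h2661
  have h2663 := checkRangeG_sound parWF r2 pf2662 h2662
  have h2664 := checkRangeG_sound parWF r2 pf2663 h2663
  have h2665 := checkRangeG_sound parWF r2 pf2664 h2664
  have h2666 := checkRangeG_sound parWF r2 pf2665 h2665
  have h2667 := checkRangeG_sound parWF r2 pf2666 h2666
  have h2668 := checkRangeG_sound parWF r2 pf2667 h2667
  have h2669 := checkRangeG_sound parWF r2 pf2668 h2668
  have h2670 := checkRangeG_sound parWF r2 pf2669 h2669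
  have h2671 := checkRangeG_sound parWF r2 pf2670 h2670
  have h2672 := checkRangeG_sound parWF r2 pf2671 h2671
  have h2673 := checkRangeG_sound parWF r2 pf2672 h2672
  have h2674 := checkRangeG_sound parWF r2 pf2673 h2673
  have h2675 := checkRangeG_sound parWF r2 pf2674 h2674
  have h2676 := checkRangeG_sound parWF r2 pf2675 h2675
  have h2677 := checkRangeG_sound parWF r2 pf2676 h2676
  have h2678 := checkRangeG_sound parWF r2 pf2677 h2677
  have h2679 := checkRangeG_sound parWF r2 pf2678 h2678
  have h2680 := checkRangeG_sound parWF r2 pf2679 h2679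
  have h2681 := checkRangeG_sound parWF r2 pf2680 h2680
  have h2682 := checkRangeG_sound parWF r2 pf2681 h2681
  have h2683 := checkRangeG_sound parWF r2 pf2682 h2682
  have h2684 := checkRangeG_sound parWF r2 pf2683 h2683
  have h2685 := checkRangeG_sound parWF r2 pf2684 h2684
  have h2686 := checkRangeG_sound parWF r2 pf2685 h2685
  have h2687 := checkRangeG_sound parWF r2 pf2686 h2686
  have h2688 := checkRangeG_sound parWF r2 pf2687 h2687
  have h2689 := checkRangeG_sound parWF r2 pf2688 h2688
  have h2690 := checkRangeG_sound parWF r2 pf2689 h2689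
  have h2691 := checkRangeG_sound parWF r2 pf2690 h2690
  have h2692 := checkRangeG_sound parWF r2 pf2691 h2691
  have h2693 := checkRangeG_sound parWF r2 pf2692 h2692
  have h2694 := checkRangeG_sound parWF r2 pf2693 h2693
  have h2695 := checkRangeG_sound parWF r2 pf2694 h2694
  have h2696 := checkRangeG_sound parWF r2 pf2695 h2695
  have h2697 := checkRangeG_sound parWF r2 pf2696 h2696
  have h2698 := checkRangeG_sound parWF r2 pf2697 h2697
  have h2699 := checkRangeG_sound parWF r2 pf2698 h2698
  have h2700 := checkRangeG_sound parWF r2 pf2699 h2699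
  exact h2700

theorem c54 (h2700 : ∀ j, j < 7883 → GoodG.{u} par (db j)) : ∀ j, j < 8001 → GoodG.{u} par (db j) := by
  have h2701 := checkRangeG_sound parWF r2 pf2700 h2700
  have h2702 := checkRangeG_sound parWF r2 pf2701 h2701
  have h2703 := checkRangeG_sound parWF r2 pf2702 h2702
  have h2704 := checkRangeG_sound parWF r2 pf2703 h2703
  have h2705 := checkRangeG_sound parWF r2 pf2704 h2704
  have h2706 := checkRangeG_sound parWF r2 pf2705 h2705
  have h2707 := checkRangeG_sound parWF r2 pf2706 h2706
  have h2708 := checkRangeG_sound parWF r2 pf2707 h2707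
  have h2709 := checkRangeG_sound parWF r2 pf2708 h2708
  have h2710 := checkRangeG_sound parWF r2 pf2709 h2709
  have h2711 := checkRangeG_sound parWF r2 pf2710 h2710
  have h2712 := checkRangeG_sound parWF r2 pf2711 h2711
  have h2713 := checkRangeG_sound parWF r2 pf2712 h2712
  have h2714 := checkRangeG_sound parWF r2 pf2713 h2713
  have h2715 := checkRangeG_sound parWF r2 pf2714 h2714
  have h2716 := checkRangeG_sound parWF r2 pf2715 h2715
  have h2717 := checkRangeG_sound parWF r2 pf2716 h2716
  have h2718 := checkRangeG_sound parWF r2 pf2717 h2717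
  have h2719 := checkRangeG_sound parWF r2 pf2718 h2718
  have h2720 := checkRangeG_sound parWF r2 pf2719 h2719
  have h2721 := checkRangeG_sound parWF r2 pf2720 h2720
  have h2722 := checkRangeG_sound parWF r2 pf2721 h2721
  have h2723 := checkRangeG_sound parWF r2 pf2722 h2722
  have h2724 := checkRangeG_sound parWF r2 pf2723 h2723
  have h2725 := checkRangeG_sound parWF r2 pf2724 h2724
  have h2726 := checkRangeG_sound parWF r2 pf2725 h2725
  have h2727 := checkRangeG_sound parWF r2 pf2726 h2726
  have h2728 := checkRangeG_sound parWF r2 pf2727 h2727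
  have h2729 := checkRangeG_sound parWF r2 pf2728 h2728
  have h2730 := checkRangeG_sound parWF r2 pf2729 h2729
  have h2731 := checkRangeG_sound parWF r2 pf2730 h2730
  have h2732 := checkRangeG_sound parWF r2 pf2731 h2731
  have h2733 := checkRangeG_sound parWF r2 pf2732 h2732
  have h2734 := checkRangeG_sound parWF r2 pf2733 h2733
  have h2735 := checkRangeG_sound parWF r2 pf2734 h2734
  have h2736 := checkRangeG_sound parWF r2 pf2735 h2735
  have h2737 := checkRangeG_sound parWF r2 pf2736 h2736
  have h2738 := checkRangeG_sound parWF r2 pf2737 h2737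
  have h2739 := checkRangeG_sound parWF r2 pf2738 h2738
  have h2740 := checkRangeG_sound parWF r2 pf2739 h2739
  have h2741 := checkRangeG_sound parWF r2 pf2740 h2740
  have h2742 := checkRangeG_sound parWF r2 pf2741 h2741
  have h2743 := checkRangeG_sound parWF r2 pf2742 h2742
  have h2744 := checkRangeG_sound parWF r2 pf2743 h2743
  have h2745 := checkRangeG_sound parWF r2 pf2744 h2744
  have h2746 := checkRangeG_sound parWF r2 pf2745 h2745
  have h2747 := checkRangeG_sound parWF r2 pf2746 h2746
  have h2748 := checkRangeG_sound parWF r2 pf2747 h2747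
  have h2749 := checkRangeG_sound parWF r2 pf2748 h2748
  have h2750 := checkRangeG_sound parWF r2 pf2749 h2749
  exact h2750

theorem c55 (h2750 : ∀ j, j < 8001 → GoodG.{u} par (db j)) : ∀ j, j < 8139 → GoodG.{u} par (db j) := by
  have h2751 := checkRangeG_sound parWF r2 pf2750 h2750
  have h2752 := checkRangeG_sound parWF r2 pf2751 h2751
  have h2753 := checkRangeG_sound parWF r2 pf2752 h2752
  have h2754 := checkRangeG_sound parWF r2 pf2753 h2753
  have h2755 := checkRangeG_sound parWF r2 pf2754 h2754
  have h2756 := checkRangeG_sound parWF r2 pf2755 h2755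
  have h2757 := checkRangeG_sound parWF r2 pf2756 h2756
  have h2758 := checkRangeG_sound parWF r2 pf2757 h2757
  have h2759 := checkRangeG_sound parWF r2 pf2758 h2758
  have h2760 := checkRangeG_sound parWF r2 pf2759 h2759
  have h2761 := checkRangeG_sound parWF r2 pf2760 h2760
  have h2762 := checkRangeG_sound parWF r2 pf2761 h2761
  have h2763 := checkRangeG_sound parWF r2 pf2762 h2762
  have h2764 := checkRangeG_sound parWF r2 pf2763 h2763
  have h2765 := checkRangeG_sound parWF r2 pf2764 h2764
  have h2766 := checkRangeG_sound parWF r2 pf2765 h2765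
  have h2767 := checkRangeG_sound parWF r2 pf2766 h2766
  have h2768 := checkRangeG_sound parWF r2 pf2767 h2767
  have h2769 := checkRangeG_sound parWF r2 pf2768 h2768
  have h2770 := checkRangeG_sound parWF r2 pf2769 h2769
  have h2771 := checkRangeG_sound parWF r2 pf2770 h2770
  have h2772 := checkRangeG_sound parWF r2 pf2771 h2771
  have h2773 := checkRangeG_sound parWF r2 pf2772 h2772
  have h2774 := checkRangeG_sound parWF r2 pf2773 h2773
  have h2775 := checkRangeG_sound parWF r2 pf2774 h2774
  have h2776 := checkRangeG_sound parWF r2 pf2775 h2775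
  have h2777 := checkRangeG_sound parWF r2 pf2776 h2776
  have h2778 := checkRangeG_sound parWF r2 pf2777 h2777
  have h2779 := checkRangeG_sound parWF r2 pf2778 h2778
  have h2780 := checkRangeG_sound parWF r2 pf2779 h2779
  have h2781 := checkRangeG_sound parWF r2 pf2780 h2780
  have h2782 := checkRangeG_sound parWF r2 pf2781 h2781
  have h2783 := checkRangeG_sound parWF r2 pf2782 h2782
  have h2784 := checkRangeG_sound parWF r2 pf2783 h2783
  have h2785 := checkRangeG_sound parWF r2 pf2784 h2784
  have h2786 := checkRangeG_sound parWF r2 pf2785 h2785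
  have h2787 := checkRangeG_sound parWF r2 pf2786 h2786
  have h2788 := checkRangeG_sound parWF r2 pf2787 h2787
  have h2789 := checkRangeG_sound parWF r2 pf2788 h2788
  have h2790 := checkRangeG_sound parWF r2 pf2789 h2789
  have h2791 := checkRangeG_sound parWF r2 pf2790 h2790
  have h2792 := checkRangeG_sound parWF r2 pf2791 h2791
  have h2793 := checkRangeG_sound parWF r2 pf2792 h2792
  have h2794 := checkRangeG_sound parWF r2 pf2793 h2793
  have h2795 := checkRangeG_sound parWF r2 pf2794 h2794
  have h2796 := checkRangeG_sound parWF r2 pf2795 h2795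
  have h2797 := checkRangeG_sound parWF r2 pf2796 h2796
  have h2798 := checkRangeG_sound parWF r2 pf2797 h2797
  have h2799 := checkRangeG_sound parWF r2 pf2798 h2798
  have h2800 := checkRangeG_sound parWF r2 pf2799 h2799
  exact h2800

theorem c56 (h2800 : ∀ j, j < 8139 → GoodG.{u} par (db j)) : ∀ j, j < 8295 → GoodG.{u} par (db j) := by
  have h2801 := checkRangeG_sound parWF r2 pf2800 h2800
  have h2802 := checkRangeG_sound parWF r2 pf2801 h2801
  have h2803 := checkRangeG_sound parWF r2 pf2802 h2802
  have h2804 := checkRangeG_sound parWF r2 pf2803 h2803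
  have h2805 := checkRangeG_sound parWF r2 pf2804 h2804
  have h2806 := checkRangeG_sound parWF r2 pf2805 h2805
  have h2807 := checkRangeG_sound parWF r2 pf2806 h2806
  have h2808 := checkRangeG_sound parWF r2 pf2807 h2807
  have h2809 := checkRangeG_sound parWF r2 pf2808 h2808
  have h2810 := checkRangeG_sound parWF r2 pf2809 h2809
  have h2811 := checkRangeG_sound parWF r2 pf2810 h2810
  have h2812 := checkRangeG_sound parWF r2 pf2811 h2811
  have h2813 := checkRangeG_sound parWF r2 pf2812 h2812
  have h2814 := checkRangeG_sound parWF r2 pf2813 h2813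
  have h2815 := checkRangeG_sound parWF r2 pf2814 h2814
  have h2816 := checkRangeG_sound parWF r2 pf2815 h2815
  have h2817 := checkRangeG_sound parWF r2 pf2816 h2816
  have h2818 := checkRangeG_sound parWF r2 pf2817 h2817
  have h2819 := checkRangeG_sound parWF r2 pf2818 h2818
  have h2820 := checkRangeG_sound parWF r2 pf2819 h2819
  have h2821 := checkRangeG_sound parWF r2 pf2820 h2820
  have h2822 := checkRangeG_sound parWF r2 pf2821 h2821
  have h2823 := checkRangeG_sound parWF r2 pf2822 h2822
  have h2824 := checkRangeG_sound parWF r2 pf2823 h2823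
  have h2825 := checkRangeG_sound parWF r2 pf2824 h2824
  have h2826 := checkRangeG_sound parWF r2 pf2825 h2825
  have h2827 := checkRangeG_sound parWF r2 pf2826 h2826
  have h2828 := checkRangeG_sound parWF r2 pf2827 h2827
  have h2829 := checkRangeG_sound parWF r2 pf2828 h2828
  have h2830 := checkRangeG_sound parWF r2 pf2829 h2829
  have h2831 := checkRangeG_sound parWF r2 pf2830 h2830
  have h2832 := checkRangeG_sound parWF r2 pf2831 h2831
  have h2833 := checkRangeG_sound parWF r2 pf2832 h2832
  have h2834 := checkRangeG_sound parWF r2 pf2833 h2833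
  have h2835 := checkRangeG_sound parWF r2 pf2834 h2834
  have h2836 := checkRangeG_sound parWF r2 pf2835 h2835
  have h2837 := checkRangeG_sound parWF r2 pf2836 h2836
  have h2838 := checkRangeG_sound parWF r2 pf2837 h2837
  have h2839 := checkRangeG_sound parWF r2 pf2838 h2838
  have h2840 := checkRangeG_sound parWF r2 pf2839 h2839
  have h2841 := checkRangeG_sound parWF r2 pf2840 h2840
  have h2842 := checkRangeG_sound parWF r2 pf2841 h2841
  have h2843 := checkRangeG_sound parWF r2 pf2842 h2842
  have h2844 := checkRangeG_sound parWF r2 pf2843 h2843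
  have h2845 := checkRangeG_sound parWF r2 pf2844 h2844
  have h2846 := checkRangeG_sound parWF r2 pf2845 h2845
  have h2847 := checkRangeG_sound parWF r2 pf2846 h2846
  have h2848 := checkRangeG_sound parWF r2 pf2847 h2847
  have h2849 := checkRangeG_sound parWF r2 pf2848 h2848
  have h2850 := checkRangeG_sound parWF r2 pf2849 h2849
  exact h2850

theorem c57 (h2850 : ∀ j, j < 8295 → GoodG.{u} par (db j)) : ∀ j, j < 8421 → GoodG.{u} par (db j) := by
  have h2851 := checkRangeG_sound parWF r2 pf2850 h2850
  have h2852 := checkRangeG_sound parWF r2 pf2851 h2851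
  have h2853 := checkRangeG_sound parWF r2 pf2852 h2852
  have h2854 := checkRangeG_sound parWF r2 pf2853 h2853
  have h2855 := checkRangeG_sound parWF r2 pf2854 h2854
  have h2856 := checkRangeG_sound parWF r2 pf2855 h2855
  have h2857 := checkRangeG_sound parWF r2 pf2856 h2856
  have h2858 := checkRangeG_sound parWF r2 pf2857 h2857
  have h2859 := checkRangeG_sound parWF r2 pf2858 h2858
  have h2860 := checkRangeG_sound parWF r2 pf2859 h2859
  have h2861 := checkRangeG_sound parWF r2 pf2860 h2860
  have h2862 := checkRangeG_sound parWF r2 pf2861 h2861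
  have h2863 := checkRangeG_sound parWF r2 pf2862 h2862
  have h2864 := checkRangeG_sound parWF r2 pf2863 h2863
  have h2865 := checkRangeG_sound parWF r2 pf2864 h2864
  have h2866 := checkRangeG_sound parWF r2 pf2865 h2865
  have h2867 := checkRangeG_sound parWF r2 pf2866 h2866
  have h2868 := checkRangeG_sound parWF r2 pf2867 h2867
  have h2869 := checkRangeG_sound parWF r2 pf2868 h2868
  have h2870 := checkRangeG_sound parWF r2 pf2869 h2869
  have h2871 := checkRangeG_sound parWF r2 pf2870 h2870
  have h2872 := checkRangeG_sound parWF r2 pf2871 h2871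
  have h2873 := checkRangeG_sound parWF r2 pf2872 h2872
  have h2874 := checkRangeG_sound parWF r2 pf2873 h2873
  have h2875 := checkRangeG_sound parWF r2 pf2874 h2874
  have h2876 := checkRangeG_sound parWF r2 pf2875 h2875
  have h2877 := checkRangeG_sound parWF r2 pf2876 h2876
  have h2878 := checkRangeG_sound parWF r2 pf2877 h2877
  have h2879 := checkRangeG_sound parWF r2 pf2878 h2878
  have h2880 := checkRangeG_sound parWF r2 pf2879 h2879
  have h2881 := checkRangeG_sound parWF r2 pf2880 h2880
  have h2882 := checkRangeG_sound parWF r2 pf2881 h2881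
  have h2883 := checkRangeG_sound parWF r2 pf2882 h2882
  have h2884 := checkRangeG_sound parWF r2 pf2883 h2883
  have h2885 := checkRangeG_sound parWF r2 pf2884 h2884
  have h2886 := checkRangeG_sound parWF r2 pf2885 h2885
  have h2887 := checkRangeG_sound parWF r2 pf2886 h2886
  have h2888 := checkRangeG_sound parWF r2 pf2887 h2887
  have h2889 := checkRangeG_sound parWF r2 pf2888 h2888
  have h2890 := checkRangeG_sound parWF r2 pf2889 h2889
  have h2891 := checkRangeG_sound parWF r2 pf2890 h2890
  have h2892 := checkRangeG_sound parWF r2 pf2891 h2891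
  have h2893 := checkRangeG_sound parWF r2 pf2892 h2892
  have h2894 := checkRangeG_sound parWF r2 pf2893 h2893
  have h2895 := checkRangeG_sound parWF r2 pf2894 h2894
  have h2896 := checkRangeG_sound parWF r2 pf2895 h2895
  have h2897 := checkRangeG_sound parWF r2 pf2896 h2896
  have h2898 := checkRangeG_sound parWF r2 pf2897 h2897
  have h2899 := checkRangeG_sound parWF r2 pf2898 h2898
  have h2900 := checkRangeG_sound parWF r2 pf2899 h2899
  exact h2900

theorem c58 (h2900 : ∀ j, j < 8421 → GoodG.{u} par (db j)) : ∀ j, j < 8545 → GoodG.{u} par (db j) := by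
  have h2901 := checkRangeG_sound parWF r2 pf2900 h2900
  have h2902 := checkRangeG_sound parWF r2 pf2901 h2901
  have h2903 := checkRangeG_sound parWF r2 pf2902 h2902
  have h2904 := checkRangeG_sound parWF r2 pf2903 h2903
  have h2905 := checkRangeG_sound parWF r2 pf2904 h2904
  have h2906 := checkRangeG_sound parWF r2 pf2905 h2905
  have h2907 := checkRangeG_sound parWF r2 pf2906 h2906
  have h2908 := checkRangeG_sound parWF r2 pf2907 h2907
  have h2909 := checkRangeG_sound parWF r2 pf2908 h2908
  have h2910 := checkRangeG_sound parWF r2 pf2909 h2909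
  have h2911 := checkRangeG_sound parWF r2 pf2910 h2910
  have h2912 := checkRangeG_sound parWF r2 pf2911 h2911
  have h2913 := checkRangeG_sound parWF r2 pf2912 h2912
  have h2914 := checkRangeG_sound parWF r2 pf2913 h2913
  have h2915 := checkRangeG_sound parWF r2 pf2914 h2914
  have h2916 := checkRangeG_sound parWF r2 pf2915 h2915
  have h2917 := checkRangeG_sound parWF r2 pf2916 h2916
  have h2918 := checkRangeG_sound parWF r2 pf2917 h2917
  have h2919 := checkRangeG_sound parWF r2 pf2918 h2918
  have h2920 := checkRangeG_sound parWF r2 pf2919 h2919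
  have h2921 := checkRangeG_sound parWF r2 pf2920 h2920
  have h2922 := checkRangeG_sound parWF r2 pf2921 h2921
  have h2923 := checkRangeG_sound parWF r2 pf2922 h2922
  have h2924 := checkRangeG_sound parWF r2 pf2923 h2923
  have h2925 := checkRangeG_sound parWF r2 pf2924 h2924
  have h2926 := checkRangeG_sound parWF r2 pf2925 h2925
  have h2927 := checkRangeG_sound parWF r2 pf2926 h2926
  have h2928 := checkRangeG_sound parWF r2 pf2927 h2927
  have h2929 := checkRangeG_sound parWF r2 pf2928 h2928
  have h2930 := checkRangeG_sound parWF r2 pf2929 h2929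
  have h2931 := checkRangeG_sound parWF r2 pf2930 h2930
  have h2932 := checkRangeG_sound parWF r2 pf2931 h2931
  have h2933 := checkRangeG_sound parWF r2 pf2932 h2932
  have h2934 := checkRangeG_sound parWF r2 pf2933 h2933
  have h2935 := checkRangeG_sound parWF r2 pf2934 h2934
  have h2936 := checkRangeG_sound parWF r2 pf2935 h2935
  have h2937 := checkRangeG_sound parWF r2 pf2936 h2936
  have h2938 := checkRangeG_sound parWF r2 pf2937 h2937
  have h2939 := checkRangeG_sound parWF r2 pf2938 h2938
  have h2940 := checkRangeG_sound parWF r2 pf2939 h2939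
  have h2941 := checkRangeG_sound parWF r2 pf2940 h2940
  have h2942 := checkRangeG_sound parWF r2 pf2941 h2941
  have h2943 := checkRangeG_sound parWF r2 pf2942 h2942
  have h2944 := checkRangeG_sound parWF r2 pf2943 h2943
  have h2945 := checkRangeG_sound parWF r2 pf2944 h2944
  have h2946 := checkRangeG_sound parWF r2 pf2945 h2945
  have h2947 := checkRangeG_sound parWF r2 pf2946 h2946
  have h2948 := checkRangeG_sound parWF r2 pf2947 h2947
  have h2949 := checkRangeG_sound parWF r2 pf2948 h2948
  have h2950 := checkRangeG_sound parWF r2 pf2949 h2949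
  exact h2950

theorem c59 (h2950 : ∀ j, j < 8545 → GoodG.{u} par (db j)) : ∀ j, j < 8678 → GoodG.{u} par (db j) := by
  have h2951 := checkRangeG_sound parWF r2 pf2950 h2950
  have h2952 := checkRangeG_sound parWF r2 pf2951 h2951
  have h2953 := checkRangeG_sound parWF r2 pf2952 h2952
  have h2954 := checkRangeG_sound parWF r2 pf2953 h2953
  have h2955 := checkRangeG_sound parWF r2 pf2954 h2954
  have h2956 := checkRangeG_sound parWF r2 pf2955 h2955
  have h2957 := checkRangeG_sound parWF r2 pf2956 h2956
  have h2958 := checkRangeG_sound parWF r2 pf2957 h2957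
  have h2959 := checkRangeG_sound parWF r2 pf2958 h2958
  have h2960 := checkRangeG_sound parWF r2 pf2959 h2959
  have h2961 := checkRangeG_sound parWF r2 pf2960 h2960
  have h2962 := checkRangeG_sound parWF r2 pf2961 h2961
  have h2963 := checkRangeG_sound parWF r2 pf2962 h2962
  have h2964 := checkRangeG_sound parWF r2 pf2963 h2963
  have h2965 := checkRangeG_sound parWF r2 pf2964 h2964
  have h2966 := checkRangeG_sound parWF r2 pf2965 h2965
  have h2967 := checkRangeG_sound parWF r2 pf2966 h2966
  have h2968 := checkRangeG_sound parWF r2 pf2967 h2967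
  have h2969 := checkRangeG_sound parWF r2 pf2968 h2968
  have h2970 := checkRangeG_sound parWF r2 pf2969 h2969
  have h2971 := checkRangeG_sound parWF r2 pf2970 h2970
  have h2972 := checkRangeG_sound parWF r2 pf2971 h2971
  have h2973 := checkRangeG_sound parWF r2 pf2972 h2972
  have h2974 := checkRangeG_sound parWF r2 pf2973 h2973
  have h2975 := checkRangeG_sound parWF r2 pf2974 h2974
  have h2976 := checkRangeG_sound parWF r2 pf2975 h2975
  have h2977 := checkRangeG_sound parWF r2 pf2976 h2976
  have h2978 := checkRangeG_sound parWF r2 pf2977 h2977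
  have h2979 := checkRangeG_sound parWF r2 pf2978 h2978
  have h2980 := checkRangeG_sound parWF r2 pf2979 h2979
  have h2981 := checkRangeG_sound parWF r2 pf2980 h2980
  have h2982 := checkRangeG_sound parWF r2 pf2981 h2981
  have h2983 := checkRangeG_sound parWF r2 pf2982 h2982
  have h2984 := checkRangeG_sound parWF r2 pf2983 h2983
  have h2985 := checkRangeG_sound parWF r2 pf2984 h2984
  have h2986 := checkRangeG_sound parWF r2 pf2985 h2985
  have h2987 := checkRangeG_sound parWF r2 pf2986 h2986
  have h2988 := checkRangeG_sound parWF r2 pf2987 h2987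
  have h2989 := checkRangeG_sound parWF r2 pf2988 h2988
  have h2990 := checkRangeG_sound parWF r2 pf2989 h2989
  have h2991 := checkRangeG_sound parWF r2 pf2990 h2990
  have h2992 := checkRangeG_sound parWF r2 pf2991 h2991
  have h2993 := checkRangeG_sound parWF r2 pf2992 h2992
  have h2994 := checkRangeG_sound parWF r2 pf2993 h2993
  have h2995 := checkRangeG_sound parWF r2 pf2994 h2994
  have h2996 := checkRangeG_sound parWF r2 pf2995 h2995
  have h2997 := checkRangeG_sound parWF r2 pf2996 h2996
  have h2998 := checkRangeG_sound parWF r2 pf2997 h2997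
  have h2999 := checkRangeG_sound parWF r2 pf2998 h2998
  have h3000 := checkRangeG_sound parWF r2 pf2999 h2999
  exact h3000


end Vale.Agent.P045g.C61
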