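import Vale.Agent.P045g.C61.WF
import Vale.Agent.P045g.C61.Pf400
import Vale.Agent.P045g.C61.Pf401
import Vale.Agent.P045g.C61.Pf402
import Vale.Agent.P045g.C61.Pf403
import Vale.Agent.P045g.C61.Pf404
import Vale.Agent.P045g.C61.Pf405
import Vale.Agent.P045g.C61.Pf406
import Vale.Agent.P045g.C61.Pf407
import Vale.Agent.P045g.C61.Pf408
import Vale.Agent.P045g.C61.Pf409

namespace Vale.Agent.P045g.C61

open Vale.Agent.P045b Vale.Agent.P045g

universe u

theorem c480 (h24000 : ∀ j, j < 76822 → GoodG.{u} par (db j)) : ∀ j, j < 77019 → GoodG.{u} par (db j) := by
  have h24001 := checkRangeG_sound parWF r2 pf24000 h24000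
  have h24002 := checkRangeG_sound parWF r2 pf24001 h24001
  have h24003 := checkRangeG_sound parWF r2 pf24002 h24002
  have h24004 := checkRangeG_sound parWF r2 pf24003 h24003
  have h24005 := checkRangeG_sound parWF r2 pf24004 h24004
  have h24006 := checkRangeG_sound parWF r2 pf24005 h24005
  have h24007 := checkRangeG_sound parWF r2 pf24006 h24006
  have h24008 := checkRangeG_sound parWF r2 pf24007 h24007
  have h24009 := checkRangeG_sound parWF r2 pf24008 h24008
  have h24010 := checkRangeG_sound parWF r2 pf24009 h24009
  have h24011 := checkRangeG_sound parWF r2 pf24010 h24010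
  have h24012 := checkRangeG_sound parWF r2 pf24011 h24011
  have h24013 := checkRangeG_sound parWF r2 pf24012 h24012
  have h24014 := checkRangeG_sound parWF r2 pf24013 h24013
  have h24015 := checkRangeG_sound parWF r2 pf24014 h24014
  have h24016 := checkRangeG_sound parWF r2 pf24015 h24015
  have h24017 := checkRangeG_sound parWF r2 pf24016 h24016
  have h24018 := checkRangeG_sound parWF r2 pf24017 h24017
  have h24019 := checkRangeG_sound parWF r2 pf24018 h24018
  have h24020 := checkRangeG_sound parWF r2 pf24019 h24019
  have h24021 := checkRangeG_sound parWF r2 pf24020 h24020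
  have h24022 := checkRangeG_sound parWF r2 pf24021 h24021
  have h24023 := checkRangeG_sound parWF r2 pf24022 h24022
  have h24024 := checkRangeG_sound parWF r2 pf24023 h24023
  have h24025 := checkRangeG_sound parWF r2 pf24024 h24024
  have h24026 := checkRangeG_sound parWF r2 pf24025 h24025
  have h24027 := checkRangeG_sound parWF r2 pf24026 h24026
  have h24028 := checkRangeG_sound parWF r2 pf24027 h24027
  have h24029 := checkRangeG_sound parWF r2 pf24028 h24028
  have h24030 := checkRangeG_sound parWF r2 pf24029 h24029
  have h24031 := checkRangeG_sound parWF r2 pf24030 h24030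
  have h24032 := checkRangeG_sound parWF r2 pf24031 h24031
  have h24033 := checkRangeG_sound parWF r2 pf24032 h24032
  have h24034 := checkRangeG_sound parWF r2 pf24033 h24033
  have h24035 := checkRangeG_sound parWF r2 pf24034 h24034
  have h24036 := checkRangeG_sound parWF r2 pf24035 h24035
  have h24037 := checkRangeG_sound parWF r2 pf24036 h24036
  have h24038 := checkRangeG_sound parWF r2 pf24037 h24037
  have h24039 := checkRangeG_sound parWF r2 pf24038 h24038
  have h24040 := checkRangeG_sound parWF r2 pf24039 h24039
  have h24041 := checkRangeG_sound parWF r2 pf24040 h24040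
  have h24042 := checkRangeG_sound parWF r2 pf24041 h24041
  have h24043 := checkRangeG_sound parWF r2 pf24042 h24042
  have h24044 := checkRangeG_sound parWF r2 pf24043 h24043
  have h24045 := checkRangeG_sound parWF r2 pf24044 h24044
  have h24046 := checkRangeG_sound parWF r2 pf24045 h24045
  have h24047 := checkRangeG_sound parWF r2 pf24046 h24046
  have h24048 := checkRangeG_sound parWF r2 pf24047 h24047
  have h24049 := checkRangeG_sound parWF r2 pf24048 h24048
  have h24050 := checkRangeG_sound parWF r2 pf24049 h24049
  exact h24050

theorem c481 (h24050 : ∀ j, j < 77019 → GoodG.{u} par (db j)) : ∀ j, j < 77210 → GoodG.{u} par (db j) := by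
  have h24051 := checkRangeG_sound parWF r2 pf24050 h24050
  have h24052 := checkRangeG_sound parWF r2 pf24051 h24051
  have h24053 := checkRangeG_sound parWF r2 pf24052 h24052
  have h24054 := checkRangeG_sound parWF r2 pf24053 h24053
  have h24055 := checkRangeG_sound parWF r2 pf24054 h24054
  have h24056 := checkRangeG_sound parWF r2 pf24055 h24055
  have h24057 := checkRangeG_sound parWF r2 pf24056 h24056
  have h24058 := checkRangeG_sound parWF r2 pf24057 h24057
  have h24059 := checkRangeG_sound parWF r2 pf24058 h24058
  have h24060 := checkRangeG_sound parWF r2 pf24059 h24059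
  have h24061 := checkRangeG_sound parWF r2 pf24060 h24060
  have h24062 := checkRangeG_sound parWF r2 pf24061 h24061
  have h24063 := checkRangeG_sound parWF r2 pf24062 h24062
  have h24064 := checkRangeG_sound parWF r2 pf24063 h24063
  have h24065 := checkRangeG_sound parWF r2 pf24064 h24064
  have h24066 := checkRangeG_sound parWF r2 pf24065 h24065
  have h24067 := checkRangeG_sound parWF r2 pf24066 h24066
  have h24068 := checkRangeG_sound parWF r2 pf24067 h24067
  have h24069 := checkRangeG_sound parWF r2 pf24068 h24068
  have h24070 := checkRangeG_sound parWF r2 pf24069 h24069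
  have h24071 := checkRangeG_sound parWF r2 pf24070 h24070
  have h24072 := checkRangeG_sound parWF r2 pf24071 h24071
  have h24073 := checkRangeG_sound parWF r2 pf24072 h24072
  have h24074 := checkRangeG_sound parWF r2 pf24073 h24073
  have h24075 := checkRangeG_sound parWF r2 pf24074 h24074
  have h24076 := checkRangeG_sound parWF r2 pf24075 h24075
  have h24077 := checkRangeG_sound parWF r2 pf24076 h24076
  have h24078 := checkRangeG_sound parWF r2 pf24077 h24077
  have h24079 := checkRangeG_sound parWF r2 pf24078 h24078
  have h24080 := checkRangeG_sound parWF r2 pf24079 h24079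
  have h24081 := checkRangeG_sound parWF r2 pf24080 h24080
  have h24082 := checkRangeG_sound parWF r2 pf24081 h24081
  have h24083 := checkRangeG_sound parWF r2 pf24082 h24082
  have h24084 := checkRangeG_sound parWF r2 pf24083 h24083
  have h24085 := checkRangeG_sound parWF r2 pf24084 h24084
  have h24086 := checkRangeG_sound parWF r2 pf24085 h24085
  have h24087 := checkRangeG_sound parWF r2 pf24086 h24086
  have h24088 := checkRangeG_sound parWF r2 pf24087 h24087
  have h24089 := checkRangeG_sound parWF r2 pf24088 h24088
  have h24090 := checkRangeG_sound parWF r2 pf24089 h24089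
  have h24091 := checkRangeG_sound parWF r2 pf24090 h24090
  have h24092 := checkRangeG_sound parWF r2 pf24091 h24091
  have h24093 := checkRangeG_sound parWF r2 pf24092 h24092
  have h24094 := checkRangeG_sound parWF r2 pf24093 h24093
  have h24095 := checkRangeG_sound parWF r2 pf24094 h24094
  have h24096 := checkRangeG_sound parWF r2 pf24095 h24095
  have h24097 := checkRangeG_sound parWF r2 pf24096 h24096
  have h24098 := checkRangeG_sound parWF r2 pf24097 h24097
  have h24099 := checkRangeG_sound parWF r2 pf24098 h24098
  have h24100 := checkRangeG_sound parWF r2 pf24099 h24099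
  exact h24100

theorem c482 (h24100 : ∀ j, j < 77210 → GoodG.{u} par (db j)) : ∀ j, j < 77413 → GoodG.{u} par (db j) := by
  have h24101 := checkRangeG_sound parWF r2 pf24100 h24100
  have h24102 := checkRangeG_sound parWF r2 pf24101 h24101
  have h24103 := checkRangeG_sound parWF r2 pf24102 h24102
  have h24104 := checkRangeG_sound parWF r2 pf24103 h24103
  have h24105 := checkRangeG_sound parWF r2 pf24104 h24104
  have h24106 := checkRangeG_sound parWF r2 pf24105 h24105
  have h24107 := checkRangeG_sound parWF r2 pf24106 h24106
  have h24108 := checkRangeG_sound parWF r2 pf24107 h24107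
  have h24109 := checkRangeG_sound parWF r2 pf24108 h24108
  have h24110 := checkRangeG_sound parWF r2 pf24109 h24109
  have h24111 := checkRangeG_sound parWF r2 pf24110 h24110
  have h24112 := checkRangeG_sound parWF r2 pf24111 h24111
  have h24113 := checkRangeG_sound parWF r2 pf24112 h24112
  have h24114 := checkRangeG_sound parWF r2 pf24113 h24113
  have h24115 := checkRangeG_sound parWF r2 pf24114 h24114
  have h24116 := checkRangeG_sound parWF r2 pf24115 h24115
  have h24117 := checkRangeG_sound parWF r2 pf24116 h24116
  have h24118 := checkRangeG_sound parWF r2 pf24117 h24117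
  have h24119 := checkRangeG_sound parWF r2 pf24118 h24118
  have h24120 := checkRangeG_sound parWF r2 pf24119 h24119
  have h24121 := checkRangeG_sound parWF r2 pf24120 h24120
  have h24122 := checkRangeG_sound parWF r2 pf24121 h24121
  have h24123 := checkRangeG_sound parWF r2 pf24122 h24122
  have h24124 := checkRangeG_sound parWF r2 pf24123 h24123
  have h24125 := checkRangeG_sound parWF r2 pf24124 h24124
  have h24126 := checkRangeG_sound parWF r2 pf24125 h24125
  have h24127 := checkRangeG_sound parWF r2 pf24126 h24126
  have h24128 := checkRangeG_sound parWF r2 pf24127 h24127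
  have h24129 := checkRangeG_sound parWF r2 pf24128 h24128
  have h24130 := checkRangeG_sound parWF r2 pf24129 h24129
  have h24131 := checkRangeG_sound parWF r2 pf24130 h24130
  have h24132 := checkRangeG_sound parWF r2 pf24131 h24131
  have h24133 := checkRangeG_sound parWF r2 pf24132 h24132
  have h24134 := checkRangeG_sound parWF r2 pf24133 h24133
  have h24135 := checkRangeG_sound parWF r2 pf24134 h24134
  have h24136 := checkRangeG_sound parWF r2 pf24135 h24135
  have h24137 := checkRangeG_sound parWF r2 pf24136 h24136
  have h24138 := checkRangeG_sound parWF r2 pf24137 h24137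
  have h24139 := checkRangeG_sound parWF r2 pf24138 h24138
  have h24140 := checkRangeG_sound parWF r2 pf24139 h24139
  have h24141 := checkRangeG_sound parWF r2 pf24140 h24140
  have h24142 := checkRangeG_sound parWF r2 pf24141 h24141
  have h24143 := checkRangeG_sound parWF r2 pf24142 h24142
  have h24144 := checkRangeG_sound parWF r2 pf24143 h24143
  have h24145 := checkRangeG_sound parWF r2 pf24144 h24144
  have h24146 := checkRangeG_sound parWF r2 pf24145 h24145
  have h24147 := checkRangeG_sound parWF r2 pf24146 h24146
  have h24148 := checkRangeG_sound parWF r2 pf24147 h24147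
  have h24149 := checkRangeG_sound parWF r2 pf24148 h24148
  have h24150 := checkRangeG_sound parWF r2 pf24149 h24149
  exact h24150

theorem c483 (h24150 : ∀ j, j < 77413 → GoodG.{u} par (db j)) : ∀ j, j < 77593 → GoodG.{u} par (db j) := by
  have h24151 := checkRangeG_sound parWF r2 pf24150 h24150
  have h24152 := checkRangeG_sound parWF r2 pf24151 h24151
  have h24153 := checkRangeG_sound parWF r2 pf24152 h24152
  have h24154 := checkRangeG_sound parWF r2 pf24153 h24153
  have h24155 := checkRangeG_sound parWF r2 pf24154 h24154
  have h24156 := checkRangeG_sound parWF r2 pf24155 h24155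
  have h24157 := checkRangeG_sound parWF r2 pf24156 h24156
  have h24158 := checkRangeG_sound parWF r2 pf24157 h24157
  have h24159 := checkRangeG_sound parWF r2 pf24158 h24158
  have h24160 := checkRangeG_sound parWF r2 pf24159 h24159
  have h24161 := checkRangeG_sound parWF r2 pf24160 h24160
  have h24162 := checkRangeG_sound parWF r2 pf24161 h24161
  have h24163 := checkRangeG_sound parWF r2 pf24162 h24162
  have h24164 := checkRangeG_sound parWF r2 pf24163 h24163
  have h24165 := checkRangeG_sound parWF r2 pf24164 h24164
  have h24166 := checkRangeG_sound parWF r2 pf24165 h24165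
  have h24167 := checkRangeG_sound parWF r2 pf24166 h24166
  have h24168 := checkRangeG_sound parWF r2 pf24167 h24167
  have h24169 := checkRangeG_sound parWF r2 pf24168 h24168
  have h24170 := checkRangeG_sound parWF r2 pf24169 h24169
  have h24171 := checkRangeG_sound parWF r2 pf24170 h24170
  have h24172 := checkRangeG_sound parWF r2 pf24171 h24171
  have h24173 := checkRangeG_sound parWF r2 pf24172 h24172
  have h24174 := checkRangeG_sound parWF r2 pf24173 h24173
  have h24175 := checkRangeG_sound parWF r2 pf24174 h24174
  have h24176 := checkRangeG_sound parWF r2 pf24175 h24175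
  have h24177 := checkRangeG_sound parWF r2 pf24176 h24176
  have h24178 := checkRangeG_sound parWF r2 pf24177 h24177
  have h24179 := checkRangeG_sound parWF r2 pf24178 h24178
  have h24180 := checkRangeG_sound parWF r2 pf24179 h24179
  have h24181 := checkRangeG_sound parWF r2 pf24180 h24180
  have h24182 := checkRangeG_sound parWF r2 pf24181 h24181
  have h24183 := checkRangeG_sound parWF r2 pf24182 h24182
  have h24184 := checkRangeG_sound parWF r2 pf24183 h24183
  have h24185 := checkRangeG_sound parWF r2 pf24184 h24184
  have h24186 := checkRangeG_sound parWF r2 pf24185 h24185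
  have h24187 := checkRangeG_sound parWF r2 pf24186 h24186
  have h24188 := checkRangeG_sound parWF r2 pf24187 h24187
  have h24189 := checkRangeG_sound parWF r2 pf24188 h24188
  have h24190 := checkRangeG_sound parWF r2 pf24189 h24189
  have h24191 := checkRangeG_sound parWF r2 pf24190 h24190
  have h24192 := checkRangeG_sound parWF r2 pf24191 h24191
  have h24193 := checkRangeG_sound parWF r2 pf24192 h24192
  have h24194 := checkRangeG_sound parWF r2 pf24193 h24193
  have h24195 := checkRangeG_sound parWF r2 pf24194 h24194
  have h24196 := checkRangeG_sound parWF r2 pf24195 h24195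
  have h24197 := checkRangeG_sound parWF r2 pf24196 h24196
  have h24198 := checkRangeG_sound parWF r2 pf24197 h24197
  have h24199 := checkRangeG_sound parWF r2 pf24198 h24198
  have h24200 := checkRangeG_sound parWF r2 pf24199 h24199
  exact h24200

theorem c484 (h24200 : ∀ j, j < 77593 → GoodG.{u} par (db j)) : ∀ j, j < 77803 → GoodG.{u} par (db j) := by
  have h24201 := checkRangeG_sound parWF r2 pf24200 h24200
  have h24202 := checkRangeG_sound parWF r2 pf24201 h24201
  have h24203 := checkRangeG_sound parWF r2 pf24202 h24202
  have h24204 := checkRangeG_sound parWF r2 pf24203 h24203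
  have h24205 := checkRangeG_sound parWF r2 pf24204 h24204
  have h24206 := checkRangeG_sound parWF r2 pf24205 h24205
  have h24207 := checkRangeG_sound parWF r2 pf24206 h24206
  have h24208 := checkRangeG_sound parWF r2 pf24207 h24207
  have h24209 := checkRangeG_sound parWF r2 pf24208 h24208
  have h24210 := checkRangeG_sound parWF r2 pf24209 h24209
  have h24211 := checkRangeG_sound parWF r2 pf24210 h24210
  have h24212 := checkRangeG_sound parWF r2 pf24211 h24211
  have h24213 := checkRangeG_sound parWF r2 pf24212 h24212
  have h24214 := checkRangeG_sound parWF r2 pf24213 h24213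
  have h24215 := checkRangeG_sound parWF r2 pf24214 h24214
  have h24216 := checkRangeG_sound parWF r2 pf24215 h24215
  have h24217 := checkRangeG_sound parWF r2 pf24216 h24216
  have h24218 := checkRangeG_sound parWF r2 pf24217 h24217
  have h24219 := checkRangeG_sound parWF r2 pf24218 h24218
  have h24220 := checkRangeG_sound parWF r2 pf24219 h24219
  have h24221 := checkRangeG_sound parWF r2 pf24220 h24220
  have h24222 := checkRangeG_sound parWF r2 pf24221 h24221
  have h24223 := checkRangeG_sound parWF r2 pf24222 h24222
  have h24224 := checkRangeG_sound parWF r2 pf24223 h24223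
  have h24225 := checkRangeG_sound parWF r2 pf24224 h24224
  have h24226 := checkRangeG_sound parWF r2 pf24225 h24225
  have h24227 := checkRangeG_sound parWF r2 pf24226 h24226
  have h24228 := checkRangeG_sound parWF r2 pf24227 h24227
  have h24229 := checkRangeG_sound parWF r2 pf24228 h24228
  have h24230 := checkRangeG_sound parWF r2 pf24229 h24229
  have h24231 := checkRangeG_sound parWF r2 pf24230 h24230
  have h24232 := checkRangeG_sound parWF r2 pf24231 h24231
  have h24233 := checkRangeG_sound parWF r2 pf24232 h24232
  have h24234 := checkRangeG_sound parWF r2 pf24233 h24233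
  have h24235 := checkRangeG_sound parWF r2 pf24234 h24234
  have h24236 := checkRangeG_sound parWF r2 pf24235 h24235
  have h24237 := checkRangeG_sound parWF r2 pf24236 h24236
  have h24238 := checkRangeG_sound parWF r2 pf24237 h24237
  have h24239 := checkRangeG_sound parWF r2 pf24238 h24238
  have h24240 := checkRangeG_sound parWF r2 pf24239 h24239
  have h24241 := checkRangeG_sound parWF r2 pf24240 h24240
  have h24242 := checkRangeG_sound parWF r2 pf24241 h24241
  have h24243 := checkRangeG_sound parWF r2 pf24242 h24242
  have h24244 := checkRangeG_sound parWF r2 pf24243 h24243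
  have h24245 := checkRangeG_sound parWF r2 pf24244 h24244
  have h24246 := checkRangeG_sound parWF r2 pf24245 h24245
  have h24247 := checkRangeG_sound parWF r2 pf24246 h24246
  have h24248 := checkRangeG_sound parWF r2 pf24247 h24247
  have h24249 := checkRangeG_sound parWF r2 pf24248 h24248
  have h24250 := checkRangeG_sound parWF r2 pf24249 h24249
  exact h24250

theorem c485 (h24250 : ∀ j, j < 77803 → GoodG.{u} par (db j)) : ∀ j, j < 77999 → GoodG.{u} par (db j) := by
  have h24251 := checkRangeG_sound parWF r2 pf24250 h24250
  have h24252 := checkRangeG_sound parWF r2 pf24251 h24251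
  have h24253 := checkRangeG_sound parWF r2 pf24252 h24252
  have h24254 := checkRangeG_sound parWF r2 pf24253 h24253
  have h24255 := checkRangeG_sound parWF r2 pf24254 h24254
  have h24256 := checkRangeG_sound parWF r2 pf24255 h24255
  have h24257 := checkRangeG_sound parWF r2 pf24256 h24256
  have h24258 := checkRangeG_sound parWF r2 pf24257 h24257
  have h24259 := checkRangeG_sound parWF r2 pf24258 h24258
  have h24260 := checkRangeG_sound parWF r2 pf24259 h24259
  have h24261 := checkRangeG_sound parWF r2 pf24260 h24260
  have h24262 := checkRangeG_sound parWF r2 pf24261 h24261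
  have h24263 := checkRangeG_sound parWF r2 pf24262 h24262
  have h24264 := checkRangeG_sound parWF r2 pf24263 h24263
  have h24265 := checkRangeG_sound parWF r2 pf24264 h24264
  have h24266 := checkRangeG_sound parWF r2 pf24265 h24265
  have h24267 := checkRangeG_sound parWF r2 pf24266 h24266
  have h24268 := checkRangeG_sound parWF r2 pf24267 h24267
  have h24269 := checkRangeG_sound parWF r2 pf24268 h24268
  have h24270 := checkRangeG_sound parWF r2 pf24269 h24269
  have h24271 := checkRangeG_sound parWF r2 pf24270 h24270
  have h24272 := checkRangeG_sound parWF r2 pf24271 h24271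
  have h24273 := checkRangeG_sound parWF r2 pf24272 h24272
  have h24274 := checkRangeG_sound parWF r2 pf24273 h24273
  have h24275 := checkRangeG_sound parWF r2 pf24274 h24274
  have h24276 := checkRangeG_sound parWF r2 pf24275 h24275
  have h24277 := checkRangeG_sound parWF r2 pf24276 h24276
  have h24278 := checkRangeG_sound parWF r2 pf24277 h24277
  have h24279 := checkRangeG_sound parWF r2 pf24278 h24278
  have h24280 := checkRangeG_sound parWF r2 pf24279 h24279
  have h24281 := checkRangeG_sound parWF r2 pf24280 h24280
  have h24282 := checkRangeG_sound parWF r2 pf24281 h24281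
  have h24283 := checkRangeG_sound parWF r2 pf24282 h24282
  have h24284 := checkRangeG_sound parWF r2 pf24283 h24283
  have h24285 := checkRangeG_sound parWF r2 pf24284 h24284
  have h24286 := checkRangeG_sound parWF r2 pf24285 h24285
  have h24287 := checkRangeG_sound parWF r2 pf24286 h24286
  have h24288 := checkRangeG_sound parWF r2 pf24287 h24287
  have h24289 := checkRangeG_sound parWF r2 pf24288 h24288
  have h24290 := checkRangeG_sound parWF r2 pf24289 h24289
  have h24291 := checkRangeG_sound parWF r2 pf24290 h24290
  have h24292 := checkRangeG_sound parWF r2 pf24291 h24291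
  have h24293 := checkRangeG_sound parWF r2 pf24292 h24292
  have h24294 := checkRangeG_sound parWF r2 pf24293 h24293
  have h24295 := checkRangeG_sound parWF r2 pf24294 h24294
  have h24296 := checkRangeG_sound parWF r2 pf24295 h24295
  have h24297 := checkRangeG_sound parWF r2 pf24296 h24296
  have h24298 := checkRangeG_sound parWF r2 pf24297 h24297
  have h24299 := checkRangeG_sound parWF r2 pf24298 h24298
  have h24300 := checkRangeG_sound parWF r2 pf24299 h24299
  exact h24300

theorem c486 (h24300 : ∀ j, j < 77999 → GoodG.{u} par (db j)) : ∀ j, j < 78183 → GoodG.{u} par (db j) := by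
  have h24301 := checkRangeG_sound parWF r2 pf24300 h24300
  have h24302 := checkRangeG_sound parWF r2 pf24301 h24301
  have h24303 := checkRangeG_sound parWF r2 pf24302 h24302
  have h24304 := checkRangeG_sound parWF r2 pf24303 h24303
  have h24305 := checkRangeG_sound parWF r2 pf24304 h24304
  have h24306 := checkRangeG_sound parWF r2 pf24305 h24305
  have h24307 := checkRangeG_sound parWF r2 pf24306 h24306
  have h24308 := checkRangeG_sound parWF r2 pf24307 h24307
  have h24309 := checkRangeG_sound parWF r2 pf24308 h24308
  have h24310 := checkRangeG_sound parWF r2 pf24309 h24309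
  have h24311 := checkRangeG_sound parWF r2 pf24310 h24310
  have h24312 := checkRangeG_sound parWF r2 pf24311 h24311
  have h24313 := checkRangeG_sound parWF r2 pf24312 h24312
  have h24314 := checkRangeG_sound parWF r2 pf24313 h24313
  have h24315 := checkRangeG_sound parWF r2 pf24314 h24314
  have h24316 := checkRangeG_sound parWF r2 pf24315 h24315
  have h24317 := checkRangeG_sound parWF r2 pf24316 h24316
  have h24318 := checkRangeG_sound parWF r2 pf24317 h24317
  have h24319 := checkRangeG_sound parWF r2 pf24318 h24318
  have h24320 := checkRangeG_sound parWF r2 pf24319 h24319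
  have h24321 := checkRangeG_sound parWF r2 pf24320 h24320
  have h24322 := checkRangeG_sound parWF r2 pf24321 h24321
  have h24323 := checkRangeG_sound parWF r2 pf24322 h24322
  have h24324 := checkRangeG_sound parWF r2 pf24323 h24323
  have h24325 := checkRangeG_sound parWF r2 pf24324 h24324
  have h24326 := checkRangeG_sound parWF r2 pf24325 h24325
  have h24327 := checkRangeG_sound parWF r2 pf24326 h24326
  have h24328 := checkRangeG_sound parWF r2 pf24327 h24327
  have h24329 := checkRangeG_sound parWF r2 pf24328 h24328
  have h24330 := checkRangeG_sound parWF r2 pf24329 h24329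
  have h24331 := checkRangeG_sound parWF r2 pf24330 h24330
  have h24332 := checkRangeG_sound parWF r2 pf24331 h24331
  have h24333 := checkRangeG_sound parWF r2 pf24332 h24332
  have h24334 := checkRangeG_sound parWF r2 pf24333 h24333
  have h24335 := checkRangeG_sound parWF r2 pf24334 h24334
  have h24336 := checkRangeG_sound parWF r2 pf24335 h24335
  have h24337 := checkRangeG_sound parWF r2 pf24336 h24336
  have h24338 := checkRangeG_sound parWF r2 pf24337 h24337
  have h24339 := checkRangeG_sound parWF r2 pf24338 h24338
  have h24340 := checkRangeG_sound parWF r2 pf24339 h24339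
  have h24341 := checkRangeG_sound parWF r2 pf24340 h24340
  have h24342 := checkRangeG_sound parWF r2 pf24341 h24341
  have h24343 := checkRangeG_sound parWF r2 pf24342 h24342
  have h24344 := checkRangeG_sound parWF r2 pf24343 h24343
  have h24345 := checkRangeG_sound parWF r2 pf24344 h24344
  have h24346 := checkRangeG_sound parWF r2 pf24345 h24345
  have h24347 := checkRangeG_sound parWF r2 pf24346 h24346
  have h24348 := checkRangeG_sound parWF r2 pf24347 h24347
  have h24349 := checkRangeG_sound parWF r2 pf24348 h24348
  have h24350 := checkRangeG_sound parWF r2 pf24349 h24349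
  exact h24350

theorem c487 (h24350 : ∀ j, j < 78183 → GoodG.{u} par (db j)) : ∀ j, j < 78340 → GoodG.{u} par (db j) := by
  have h24351 := checkRangeG_sound parWF r2 pf24350 h24350
  have h24352 := checkRangeG_sound parWF r2 pf24351 h24351
  have h24353 := checkRangeG_sound parWF r2 pf24352 h24352
  have h24354 := checkRangeG_sound parWF r2 pf24353 h24353
  have h24355 := checkRangeG_sound parWF r2 pf24354 h24354
  have h24356 := checkRangeG_sound parWF r2 pf24355 h24355
  have h24357 := checkRangeG_sound parWF r2 pf24356 h24356
  have h24358 := checkRangeG_sound parWF r2 pf24357 h24357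
  have h24359 := checkRangeG_sound parWF r2 pf24358 h24358
  have h24360 := checkRangeG_sound parWF r2 pf24359 h24359
  have h24361 := checkRangeG_sound parWF r2 pf24360 h24360
  have h24362 := checkRangeG_sound parWF r2 pf24361 h24361
  have h24363 := checkRangeG_sound parWF r2 pf24362 h24362
  have h24364 := checkRangeG_sound parWF r2 pf24363 h24363
  have h24365 := checkRangeG_sound parWF r2 pf24364 h24364
  have h24366 := checkRangeG_sound parWF r2 pf24365 h24365
  have h24367 := checkRangeG_sound parWF r2 pf24366 h24366
  have h24368 := checkRangeG_sound parWF r2 pf24367 h24367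
  have h24369 := checkRangeG_sound parWF r2 pf24368 h24368
  have h24370 := checkRangeG_sound parWF r2 pf24369 h24369
  have h24371 := checkRangeG_sound parWF r2 pf24370 h24370
  have h24372 := checkRangeG_sound parWF r2 pf24371 h24371
  have h24373 := checkRangeG_sound parWF r2 pf24372 h24372
  have h24374 := checkRangeG_sound parWF r2 pf24373 h24373
  have h24375 := checkRangeG_sound parWF r2 pf24374 h24374
  have h24376 := checkRangeG_sound parWF r2 pf24375 h24375
  have h24377 := checkRangeG_sound parWF r2 pf24376 h24376
  have h24378 := checkRangeG_sound parWF r2 pf24377 h24377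
  have h24379 := checkRangeG_sound parWF r2 pf24378 h24378
  have h24380 := checkRangeG_sound parWF r2 pf24379 h24379
  have h24381 := checkRangeG_sound parWF r2 pf24380 h24380
  have h24382 := checkRangeG_sound parWF r2 pf24381 h24381
  have h24383 := checkRangeG_sound parWF r2 pf24382 h24382
  have h24384 := checkRangeG_sound parWF r2 pf24383 h24383
  have h24385 := checkRangeG_sound parWF r2 pf24384 h24384
  have h24386 := checkRangeG_sound parWF r2 pf24385 h24385
  have h24387 := checkRangeG_sound parWF r2 pf24386 h24386
  have h24388 := checkRangeG_sound parWF r2 pf24387 h24387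
  have h24389 := checkRangeG_sound parWF r2 pf24388 h24388
  have h24390 := checkRangeG_sound parWF r2 pf24389 h24389
  have h24391 := checkRangeG_sound parWF r2 pf24390 h24390
  have h24392 := checkRangeG_sound parWF r2 pf24391 h24391
  have h24393 := checkRangeG_sound parWF r2 pf24392 h24392
  have h24394 := checkRangeG_sound parWF r2 pf24393 h24393
  have h24395 := checkRangeG_sound parWF r2 pf24394 h24394
  have h24396 := checkRangeG_sound parWF r2 pf24395 h24395
  have h24397 := checkRangeG_sound parWF r2 pf24396 h24396
  have h24398 := checkRangeG_sound parWF r2 pf24397 h24397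
  have h24399 := checkRangeG_sound parWF r2 pf24398 h24398
  have h24400 := checkRangeG_sound parWF r2 pf24399 h24399
  exact h24400

theorem c488 (h24400 : ∀ j, j < 78340 → GoodG.{u} par (db j)) : ∀ j, j < 78493 → GoodG.{u} par (db j) := by
  have h24401 := checkRangeG_sound parWF r2 pf24400 h24400
  have h24402 := checkRangeG_sound parWF r2 pf24401 h24401
  have h24403 := checkRangeG_sound parWF r2 pf24402 h24402
  have h24404 := checkRangeG_sound parWF r2 pf24403 h24403
  have h24405 := checkRangeG_sound parWF r2 pf24404 h24404
  have h24406 := checkRangeG_sound parWF r2 pf24405 h24405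
  have h24407 := checkRangeG_sound parWF r2 pf24406 h24406
  have h24408 := checkRangeG_sound parWF r2 pf24407 h24407
  have h24409 := checkRangeG_sound parWF r2 pf24408 h24408
  have h24410 := checkRangeG_sound parWF r2 pf24409 h24409
  have h24411 := checkRangeG_sound parWF r2 pf24410 h24410
  have h24412 := checkRangeG_sound parWF r2 pf24411 h24411
  have h24413 := checkRangeG_sound parWF r2 pf24412 h24412
  have h24414 := checkRangeG_sound parWF r2 pf24413 h24413
  have h24415 := checkRangeG_sound parWF r2 pf24414 h24414
  have h24416 := checkRangeG_sound parWF r2 pf24415 h24415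
  have h24417 := checkRangeG_sound parWF r2 pf24416 h24416
  have h24418 := checkRangeG_sound parWF r2 pf24417 h24417
  have h24419 := checkRangeG_sound parWF r2 pf24418 h24418
  have h24420 := checkRangeG_sound parWF r2 pf24419 h24419
  have h24421 := checkRangeG_sound parWF r2 pf24420 h24420
  have h24422 := checkRangeG_sound parWF r2 pf24421 h24421
  have h24423 := checkRangeG_sound parWF r2 pf24422 h24422
  have h24424 := checkRangeG_sound parWF r2 pf24423 h24423
  have h24425 := checkRangeG_sound parWF r2 pf24424 h24424
  have h24426 := checkRangeG_sound parWF r2 pf24425 h24425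
  have h24427 := checkRangeG_sound parWF r2 pf24426 h24426
  have h24428 := checkRangeG_sound parWF r2 pf24427 h24427
  have h24429 := checkRangeG_sound parWF r2 pf24428 h24428
  have h24430 := checkRangeG_sound parWF r2 pf24429 h24429
  have h24431 := checkRangeG_sound parWF r2 pf24430 h24430
  have h24432 := checkRangeG_sound parWF r2 pf24431 h24431
  have h24433 := checkRangeG_sound parWF r2 pf24432 h24432
  have h24434 := checkRangeG_sound parWF r2 pf24433 h24433
  have h24435 := checkRangeG_sound parWF r2 pf24434 h24434
  have h24436 := checkRangeG_sound parWF r2 pf24435 h24435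
  have h24437 := checkRangeG_sound parWF r2 pf24436 h24436
  have h24438 := checkRangeG_sound parWF r2 pf24437 h24437
  have h24439 := checkRangeG_sound parWF r2 pf24438 h24438
  have h24440 := checkRangeG_sound parWF r2 pf24439 h24439
  have h24441 := checkRangeG_sound parWF r2 pf24440 h24440
  have h24442 := checkRangeG_sound parWF r2 pf24441 h24441
  have h24443 := checkRangeG_sound parWF r2 pf24442 h24442
  have h24444 := checkRangeG_sound parWF r2 pf24443 h24443
  have h24445 := checkRangeG_sound parWF r2 pf24444 h24444
  have h24446 := checkRangeG_sound parWF r2 pf24445 h24445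
  have h24447 := checkRangeG_sound parWF r2 pf24446 h24446
  have h24448 := checkRangeG_sound parWF r2 pf24447 h24447
  have h24449 := checkRangeG_sound parWF r2 pf24448 h24448
  have h24450 := checkRangeG_sound parWF r2 pf24449 h24449
  exact h24450

theorem c489 (h24450 : ∀ j, j < 78493 → GoodG.{u} par (db j)) : ∀ j, j < 78640 → GoodG.{u} par (db j) := by
  have h24451 := checkRangeG_sound parWF r2 pf24450 h24450
  have h24452 := checkRangeG_sound parWF r2 pf24451 h24451
  have h24453 := checkRangeG_sound parWF r2 pf24452 h24452
  have h24454 := checkRangeG_sound parWF r2 pf24453 h24453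
  have h24455 := checkRangeG_sound parWF r2 pf24454 h24454
  have h24456 := checkRangeG_sound parWF r2 pf24455 h24455
  have h24457 := checkRangeG_sound parWF r2 pf24456 h24456
  have h24458 := checkRangeG_sound parWF r2 pf24457 h24457
  have h24459 := checkRangeG_sound parWF r2 pf24458 h24458
  have h24460 := checkRangeG_sound parWF r2 pf24459 h24459
  have h24461 := checkRangeG_sound parWF r2 pf24460 h24460
  have h24462 := checkRangeG_sound parWF r2 pf24461 h24461
  have h24463 := checkRangeG_sound parWF r2 pf24462 h24462
  have h24464 := checkRangeG_sound parWF r2 pf24463 h24463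
  have h24465 := checkRangeG_sound parWF r2 pf24464 h24464
  have h24466 := checkRangeG_sound parWF r2 pf24465 h24465
  have h24467 := checkRangeG_sound parWF r2 pf24466 h24466
  have h24468 := checkRangeG_sound parWF r2 pf24467 h24467
  have h24469 := checkRangeG_sound parWF r2 pf24468 h24468
  have h24470 := checkRangeG_sound parWF r2 pf24469 h24469
  have h24471 := checkRangeG_sound parWF r2 pf24470 h24470
  have h24472 := checkRangeG_sound parWF r2 pf24471 h24471
  have h24473 := checkRangeG_sound parWF r2 pf24472 h24472
  have h24474 := checkRangeG_sound parWF r2 pf24473 h24473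
  have h24475 := checkRangeG_sound parWF r2 pf24474 h24474
  have h24476 := checkRangeG_sound parWF r2 pf24475 h24475
  have h24477 := checkRangeG_sound parWF r2 pf24476 h24476
  have h24478 := checkRangeG_sound parWF r2 pf24477 h24477
  have h24479 := checkRangeG_sound parWF r2 pf24478 h24478
  have h24480 := checkRangeG_sound parWF r2 pf24479 h24479
  have h24481 := checkRangeG_sound parWF r2 pf24480 h24480
  have h24482 := checkRangeG_sound parWF r2 pf24481 h24481
  have h24483 := checkRangeG_sound parWF r2 pf24482 h24482
  have h24484 := checkRangeG_sound parWF r2 pf24483 h24483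
  have h24485 := checkRangeG_sound parWF r2 pf24484 h24484
  have h24486 := checkRangeG_sound parWF r2 pf24485 h24485
  have h24487 := checkRangeG_sound parWF r2 pf24486 h24486
  have h24488 := checkRangeG_sound parWF r2 pf24487 h24487
  have h24489 := checkRangeG_sound parWF r2 pf24488 h24488
  have h24490 := checkRangeG_sound parWF r2 pf24489 h24489
  have h24491 := checkRangeG_sound parWF r2 pf24490 h24490
  have h24492 := checkRangeG_sound parWF r2 pf24491 h24491
  have h24493 := checkRangeG_sound parWF r2 pf24492 h24492
  have h24494 := checkRangeG_sound parWF r2 pf24493 h24493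
  have h24495 := checkRangeG_sound parWF r2 pf24494 h24494
  have h24496 := checkRangeG_sound parWF r2 pf24495 h24495
  have h24497 := checkRangeG_sound parWF r2 pf24496 h24496
  have h24498 := checkRangeG_sound parWF r2 pf24497 h24497
  have h24499 := checkRangeG_sound parWF r2 pf24498 h24498
  have h24500 := checkRangeG_sound parWF r2 pf24499 h24499
  exact h24500

theorem c490 (h24500 : ∀ j, j < 78640 → GoodG.{u} par (db j)) : ∀ j, j < 78797 → GoodG.{u} par (db j) := by
  have h24501 := checkRangeG_sound parWF r2 pf24500 h24500
  have h24502 := checkRangeG_sound parWF r2 pf24501 h24501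
  have h24503 := checkRangeG_sound parWF r2 pf24502 h24502
  have h24504 := checkRangeG_sound parWF r2 pf24503 h24503
  have h24505 := checkRangeG_sound parWF r2 pf24504 h24504
  have h24506 := checkRangeG_sound parWF r2 pf24505 h24505
  have h24507 := checkRangeG_sound parWF r2 pf24506 h24506
  have h24508 := checkRangeG_sound parWF r2 pf24507 h24507
  have h24509 := checkRangeG_sound parWF r2 pf24508 h24508
  have h24510 := checkRangeG_sound parWF r2 pf24509 h24509
  have h24511 := checkRangeG_sound parWF r2 pf24510 h24510
  have h24512 := checkRangeG_sound parWF r2 pf24511 h24511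
  have h24513 := checkRangeG_sound parWF r2 pf24512 h24512
  have h24514 := checkRangeG_sound parWF r2 pf24513 h24513
  have h24515 := checkRangeG_sound parWF r2 pf24514 h24514
  have h24516 := checkRangeG_sound parWF r2 pf24515 h24515
  have h24517 := checkRangeG_sound parWF r2 pf24516 h24516
  have h24518 := checkRangeG_sound parWF r2 pf24517 h24517
  have h24519 := checkRangeG_sound parWF r2 pf24518 h24518
  have h24520 := checkRangeG_sound parWF r2 pf24519 h24519
  have h24521 := checkRangeG_sound parWF r2 pf24520 h24520
  have h24522 := checkRangeG_sound parWF r2 pf24521 h24521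
  have h24523 := checkRangeG_sound parWF r2 pf24522 h24522
  have h24524 := checkRangeG_sound parWF r2 pf24523 h24523
  have h24525 := checkRangeG_sound parWF r2 pf24524 h24524
  have h24526 := checkRangeG_sound parWF r2 pf24525 h24525
  have h24527 := checkRangeG_sound parWF r2 pf24526 h24526
  have h24528 := checkRangeG_sound parWF r2 pf24527 h24527
  have h24529 := checkRangeG_sound parWF r2 pf24528 h24528
  have h24530 := checkRangeG_sound parWF r2 pf24529 h24529
  have h24531 := checkRangeG_sound parWF r2 pf24530 h24530
  have h24532 := checkRangeG_sound parWF r2 pf24531 h24531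
  have h24533 := checkRangeG_sound parWF r2 pf24532 h24532
  have h24534 := checkRangeG_sound parWF r2 pf24533 h24533
  have h24535 := checkRangeG_sound parWF r2 pf24534 h24534
  have h24536 := checkRangeG_sound parWF r2 pf24535 h24535
  have h24537 := checkRangeG_sound parWF r2 pf24536 h24536
  have h24538 := checkRangeG_sound parWF r2 pf24537 h24537
  have h24539 := checkRangeG_sound parWF r2 pf24538 h24538
  have h24540 := checkRangeG_sound parWF r2 pf24539 h24539
  have h24541 := checkRangeG_sound parWF r2 pf24540 h24540
  have h24542 := checkRangeG_sound parWF r2 pf24541 h24541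
  have h24543 := checkRangeG_sound parWF r2 pf24542 h24542
  have h24544 := checkRangeG_sound parWF r2 pf24543 h24543
  have h24545 := checkRangeG_sound parWF r2 pf24544 h24544
  have h24546 := checkRangeG_sound parWF r2 pf24545 h24545
  have h24547 := checkRangeG_sound parWF r2 pf24546 h24546
  have h24548 := checkRangeG_sound parWF r2 pf24547 h24547
  have h24549 := checkRangeG_sound parWF r2 pf24548 h24548
  have h24550 := checkRangeG_sound parWF r2 pf24549 h24549
  exact h24550

theorem c491 (h24550 : ∀ j, j < 78797 → GoodG.{u} par (db j)) : ∀ j, j < 78953 → GoodG.{u} par (db j) := by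
  have h24551 := checkRangeG_sound parWF r2 pf24550 h24550
  have h24552 := checkRangeG_sound parWF r2 pf24551 h24551
  have h24553 := checkRangeG_sound parWF r2 pf24552 h24552
  have h24554 := checkRangeG_sound parWF r2 pf24553 h24553
  have h24555 := checkRangeG_sound parWF r2 pf24554 h24554
  have h24556 := checkRangeG_sound parWF r2 pf24555 h24555
  have h24557 := checkRangeG_sound parWF r2 pf24556 h24556
  have h24558 := checkRangeG_sound parWF r2 pf24557 h24557
  have h24559 := checkRangeG_sound parWF r2 pf24558 h24558
  have h24560 := checkRangeG_sound parWF r2 pf24559 h24559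
  have h24561 := checkRangeG_sound parWF r2 pf24560 h24560
  have h24562 := checkRangeG_sound parWF r2 pf24561 h24561
  have h24563 := checkRangeG_sound parWF r2 pf24562 h24562
  have h24564 := checkRangeG_sound parWF r2 pf24563 h24563
  have h24565 := checkRangeG_sound parWF r2 pf24564 h24564
  have h24566 := checkRangeG_sound parWF r2 pf24565 h24565
  have h24567 := checkRangeG_sound parWF r2 pf24566 h24566
  have h24568 := checkRangeG_sound parWF r2 pf24567 h24567
  have h24569 := checkRangeG_sound parWF r2 pf24568 h24568
  have h24570 := checkRangeG_sound parWF r2 pf24569 h24569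
  have h24571 := checkRangeG_sound parWF r2 pf24570 h24570
  have h24572 := checkRangeG_sound parWF r2 pf24571 h24571
  have h24573 := checkRangeG_sound parWF r2 pf24572 h24572
  have h24574 := checkRangeG_sound parWF r2 pf24573 h24573
  have h24575 := checkRangeG_sound parWF r2 pf24574 h24574
  have h24576 := checkRangeG_sound parWF r2 pf24575 h24575
  have h24577 := checkRangeG_sound parWF r2 pf24576 h24576
  have h24578 := checkRangeG_sound parWF r2 pf24577 h24577
  have h24579 := checkRangeG_sound parWF r2 pf24578 h24578
  have h24580 := checkRangeG_sound parWF r2 pf24579 h24579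
  have h24581 := checkRangeG_sound parWF r2 pf24580 h24580
  have h24582 := checkRangeG_sound parWF r2 pf24581 h24581
  have h24583 := checkRangeG_sound parWF r2 pf24582 h24582
  have h24584 := checkRangeG_sound parWF r2 pf24583 h24583
  have h24585 := checkRangeG_sound parWF r2 pf24584 h24584
  have h24586 := checkRangeG_sound parWF r2 pf24585 h24585
  have h24587 := checkRangeG_sound parWF r2 pf24586 h24586
  have h24588 := checkRangeG_sound parWF r2 pf24587 h24587
  have h24589 := checkRangeG_sound parWF r2 pf24588 h24588
  have h24590 := checkRangeG_sound parWF r2 pf24589 h24589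
  have h24591 := checkRangeG_sound parWF r2 pf24590 h24590
  have h24592 := checkRangeG_sound parWF r2 pf24591 h24591
  have h24593 := checkRangeG_sound parWF r2 pf24592 h24592
  have h24594 := checkRangeG_sound parWF r2 pf24593 h24593
  have h24595 := checkRangeG_sound parWF r2 pf24594 h24594
  have h24596 := checkRangeG_sound parWF r2 pf24595 h24595
  have h24597 := checkRangeG_sound parWF r2 pf24596 h24596
  have h24598 := checkRangeG_sound parWF r2 pf24597 h24597
  have h24599 := checkRangeG_sound parWF r2 pf24598 h24598
  have h24600 := checkRangeG_sound parWF r2 pf24599 h24599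
  exact h24600


end Vale.Agent.P045g.C61
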