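import Vale.Agent.P045g.C61.WF
import Vale.Agent.P045g.C61.Pf410
import Vale.Agent.P045g.C61.Pf411
import Vale.Agent.P045g.C61.Pf412
import Vale.Agent.P045g.C61.Pf413
import Vale.Agent.P045g.C61.Pf414
import Vale.Agent.P045g.C61.Pf415
import Vale.Agent.P045g.C61.Pf416
import Vale.Agent.P045g.C61.Pf417
import Vale.Agent.P045g.C61.Pf418
import Vale.Agent.P045g.C61.Pf419

namespace Vale.Agent.P045g.C61

open Vale.Agent.P045b Vale.Agent.P045g

universe u

theorem c492 (h24600 : ∀ j, j < 78953 → GoodG.{u} par (db j)) : ∀ j, j < 79129 → GoodG.{u} par (db j) := by
  have h24601 := checkRangeG_sound parWF r2 pf24600 h24600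
  have h24602 := checkRangeG_sound parWF r2 pf24601 h24601
  have h24603 := checkRangeG_sound parWF r2 pf24602 h24602
  have h24604 := checkRangeG_sound parWF r2 pf24603 h24603
  have h24605 := checkRangeG_sound parWF r2 pf24604 h24604
  have h24606 := checkRangeG_sound parWF r2 pf24605 h24605
  have h24607 := checkRangeG_sound parWF r2 pf24606 h24606
  have h24608 := checkRangeG_sound parWF r2 pf24607 h24607
  have h24609 := checkRangeG_sound parWF r2 pf24608 h24608
  have h24610 := checkRangeG_sound parWF r2 pf24609 h24609
  have h24611 := checkRangeG_sound parWF r2 pf24610 h24610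
  have h24612 := checkRangeG_sound parWF r2 pf24611 h24611
  have h24613 := checkRangeG_sound parWF r2 pf24612 h24612
  have h24614 := checkRangeG_sound parWF r2 pf24613 h24613
  have h24615 := checkRangeG_sound parWF r2 pf24614 h24614
  have h24616 := checkRangeG_sound parWF r2 pf24615 h24615
  have h24617 := checkRangeG_sound parWF r2 pf24616 h24616
  have h24618 := checkRangeG_sound parWF r2 pf24617 h24617
  have h24619 := checkRangeG_sound parWF r2 pf24618 h24618
  have h24620 := checkRangeG_sound parWF r2 pf24619 h24619
  have h24621 := checkRangeG_sound parWF r2 pf24620 h24620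
  have h24622 := checkRangeG_sound parWF r2 pf24621 h24621
  have h24623 := checkRangeG_sound parWF r2 pf24622 h24622
  have h24624 := checkRangeG_sound parWF r2 pf24623 h24623
  have h24625 := checkRangeG_sound parWF r2 pf24624 h24624
  have h24626 := checkRangeG_sound parWF r2 pf24625 h24625
  have h24627 := checkRangeG_sound parWF r2 pf24626 h24626
  have h24628 := checkRangeG_sound parWF r2 pf24627 h24627
  have h24629 := checkRangeG_sound parWF r2 pf24628 h24628
  have h24630 := checkRangeG_sound parWF r2 pf24629 h24629
  have h24631 := checkRangeG_sound parWF r2 pf24630 h24630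
  have h24632 := checkRangeG_sound parWF r2 pf24631 h24631
  have h24633 := checkRangeG_sound parWF r2 pf24632 h24632
  have h24634 := checkRangeG_sound parWF r2 pf24633 h24633
  have h24635 := checkRangeG_sound parWF r2 pf24634 h24634
  have h24636 := checkRangeG_sound parWF r2 pf24635 h24635
  have h24637 := checkRangeG_sound parWF r2 pf24636 h24636
  have h24638 := checkRangeG_sound parWF r2 pf24637 h24637
  have h24639 := checkRangeG_sound parWF r2 pf24638 h24638
  have h24640 := checkRangeG_sound parWF r2 pf24639 h24639
  have h24641 := checkRangeG_sound parWF r2 pf24640 h24640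
  have h24642 := checkRangeG_sound parWF r2 pf24641 h24641
  have h24643 := checkRangeG_sound parWF r2 pf24642 h24642
  have h24644 := checkRangeG_sound parWF r2 pf24643 h24643
  have h24645 := checkRangeG_sound parWF r2 pf24644 h24644
  have h24646 := checkRangeG_sound parWF r2 pf24645 h24645
  have h24647 := checkRangeG_sound parWF r2 pf24646 h24646
  have h24648 := checkRangeG_sound parWF r2 pf24647 h24647
  have h24649 := checkRangeG_sound parWF r2 pf24648 h24648
  have h24650 := checkRangeG_sound parWF r2 pf24649 h24649
  exact h24650

theorem c493 (h24650 : ∀ j, j < 79129 → GoodG.{u} par (db j)) : ∀ j, j < 79290 → GoodG.{u} par (db j) := by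
  have h24651 := checkRangeG_sound parWF r2 pf24650 h24650
  have h24652 := checkRangeG_sound parWF r2 pf24651 h24651
  have h24653 := checkRangeG_sound parWF r2 pf24652 h24652
  have h24654 := checkRangeG_sound parWF r2 pf24653 h24653
  have h24655 := checkRangeG_sound parWF r2 pf24654 h24654
  have h24656 := checkRangeG_sound parWF r2 pf24655 h24655
  have h24657 := checkRangeG_sound parWF r2 pf24656 h24656
  have h24658 := checkRangeG_sound parWF r2 pf24657 h24657
  have h24659 := checkRangeG_sound parWF r2 pf24658 h24658
  have h24660 := checkRangeG_sound parWF r2 pf24659 h24659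
  have h24661 := checkRangeG_sound parWF r2 pf24660 h24660
  have h24662 := checkRangeG_sound parWF r2 pf24661 h24661
  have h24663 := checkRangeG_sound parWF r2 pf24662 h24662
  have h24664 := checkRangeG_sound parWF r2 pf24663 h24663
  have h24665 := checkRangeG_sound parWF r2 pf24664 h24664
  have h24666 := checkRangeG_sound parWF r2 pf24665 h24665
  have h24667 := checkRangeG_sound parWF r2 pf24666 h24666
  have h24668 := checkRangeG_sound parWF r2 pf24667 h24667
  have h24669 := checkRangeG_sound parWF r2 pf24668 h24668
  have h24670 := checkRangeG_sound parWF r2 pf24669 h24669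
  have h24671 := checkRangeG_sound parWF r2 pf24670 h24670
  have h24672 := checkRangeG_sound parWF r2 pf24671 h24671
  have h24673 := checkRangeG_sound parWF r2 pf24672 h24672
  have h24674 := checkRangeG_sound parWF r2 pf24673 h24673
  have h24675 := checkRangeG_sound parWF r2 pf24674 h24674
  have h24676 := checkRangeG_sound parWF r2 pf24675 h24675
  have h24677 := checkRangeG_sound parWF r2 pf24676 h24676
  have h24678 := checkRangeG_sound parWF r2 pf24677 h24677
  have h24679 := checkRangeG_sound parWF r2 pf24678 h24678
  have h24680 := checkRangeG_sound parWF r2 pf24679 h24679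
  have h24681 := checkRangeG_sound parWF r2 pf24680 h24680
  have h24682 := checkRangeG_sound parWF r2 pf24681 h24681
  have h24683 := checkRangeG_sound parWF r2 pf24682 h24682
  have h24684 := checkRangeG_sound parWF r2 pf24683 h24683
  have h24685 := checkRangeG_sound parWF r2 pf24684 h24684
  have h24686 := checkRangeG_sound parWF r2 pf24685 h24685
  have h24687 := checkRangeG_sound parWF r2 pf24686 h24686
  have h24688 := checkRangeG_sound parWF r2 pf24687 h24687
  have h24689 := checkRangeG_sound parWF r2 pf24688 h24688
  have h24690 := checkRangeG_sound parWF r2 pf24689 h24689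
  have h24691 := checkRangeG_sound parWF r2 pf24690 h24690
  have h24692 := checkRangeG_sound parWF r2 pf24691 h24691
  have h24693 := checkRangeG_sound parWF r2 pf24692 h24692
  have h24694 := checkRangeG_sound parWF r2 pf24693 h24693
  have h24695 := checkRangeG_sound parWF r2 pf24694 h24694
  have h24696 := checkRangeG_sound parWF r2 pf24695 h24695
  have h24697 := checkRangeG_sound parWF r2 pf24696 h24696
  have h24698 := checkRangeG_sound parWF r2 pf24697 h24697
  have h24699 := checkRangeG_sound parWF r2 pf24698 h24698
  have h24700 := checkRangeG_sound parWF r2 pf24699 h24699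
  exact h24700

theorem c494 (h24700 : ∀ j, j < 79290 → GoodG.{u} par (db j)) : ∀ j, j < 79469 → GoodG.{u} par (db j) := by
  have h24701 := checkRangeG_sound parWF r2 pf24700 h24700
  have h24702 := checkRangeG_sound parWF r2 pf24701 h24701
  have h24703 := checkRangeG_sound parWF r2 pf24702 h24702
  have h24704 := checkRangeG_sound parWF r2 pf24703 h24703
  have h24705 := checkRangeG_sound parWF r2 pf24704 h24704
  have h24706 := checkRangeG_sound parWF r2 pf24705 h24705
  have h24707 := checkRangeG_sound parWF r2 pf24706 h24706
  have h24708 := checkRangeG_sound parWF r2 pf24707 h24707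
  have h24709 := checkRangeG_sound parWF r2 pf24708 h24708
  have h24710 := checkRangeG_sound parWF r2 pf24709 h24709
  have h24711 := checkRangeG_sound parWF r2 pf24710 h24710
  have h24712 := checkRangeG_sound parWF r2 pf24711 h24711
  have h24713 := checkRangeG_sound parWF r2 pf24712 h24712
  have h24714 := checkRangeG_sound parWF r2 pf24713 h24713
  have h24715 := checkRangeG_sound parWF r2 pf24714 h24714
  have h24716 := checkRangeG_sound parWF r2 pf24715 h24715
  have h24717 := checkRangeG_sound parWF r2 pf24716 h24716
  have h24718 := checkRangeG_sound parWF r2 pf24717 h24717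
  have h24719 := checkRangeG_sound parWF r2 pf24718 h24718
  have h24720 := checkRangeG_sound parWF r2 pf24719 h24719
  have h24721 := checkRangeG_sound parWF r2 pf24720 h24720
  have h24722 := checkRangeG_sound parWF r2 pf24721 h24721
  have h24723 := checkRangeG_sound parWF r2 pf24722 h24722
  have h24724 := checkRangeG_sound parWF r2 pf24723 h24723
  have h24725 := checkRangeG_sound parWF r2 pf24724 h24724
  have h24726 := checkRangeG_sound parWF r2 pf24725 h24725
  have h24727 := checkRangeG_sound parWF r2 pf24726 h24726
  have h24728 := checkRangeG_sound parWF r2 pf24727 h24727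
  have h24729 := checkRangeG_sound parWF r2 pf24728 h24728
  have h24730 := checkRangeG_sound parWF r2 pf24729 h24729
  have h24731 := checkRangeG_sound parWF r2 pf24730 h24730
  have h24732 := checkRangeG_sound parWF r2 pf24731 h24731
  have h24733 := checkRangeG_sound parWF r2 pf24732 h24732
  have h24734 := checkRangeG_sound parWF r2 pf24733 h24733
  have h24735 := checkRangeG_sound parWF r2 pf24734 h24734
  have h24736 := checkRangeG_sound parWF r2 pf24735 h24735
  have h24737 := checkRangeG_sound parWF r2 pf24736 h24736
  have h24738 := checkRangeG_sound parWF r2 pf24737 h24737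
  have h24739 := checkRangeG_sound parWF r2 pf24738 h24738
  have h24740 := checkRangeG_sound parWF r2 pf24739 h24739
  have h24741 := checkRangeG_sound parWF r2 pf24740 h24740
  have h24742 := checkRangeG_sound parWF r2 pf24741 h24741
  have h24743 := checkRangeG_sound parWF r2 pf24742 h24742
  have h24744 := checkRangeG_sound parWF r2 pf24743 h24743
  have h24745 := checkRangeG_sound parWF r2 pf24744 h24744
  have h24746 := checkRangeG_sound parWF r2 pf24745 h24745
  have h24747 := checkRangeG_sound parWF r2 pf24746 h24746
  have h24748 := checkRangeG_sound parWF r2 pf24747 h24747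
  have h24749 := checkRangeG_sound parWF r2 pf24748 h24748
  have h24750 := checkRangeG_sound parWF r2 pf24749 h24749
  exact h24750

theorem c495 (h24750 : ∀ j, j < 79469 → GoodG.{u} par (db j)) : ∀ j, j < 79648 → GoodG.{u} par (db j) := by
  have h24751 := checkRangeG_sound parWF r2 pf24750 h24750
  have h24752 := checkRangeG_sound parWF r2 pf24751 h24751
  have h24753 := checkRangeG_sound parWF r2 pf24752 h24752
  have h24754 := checkRangeG_sound parWF r2 pf24753 h24753
  have h24755 := checkRangeG_sound parWF r2 pf24754 h24754
  have h24756 := checkRangeG_sound parWF r2 pf24755 h24755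
  have h24757 := checkRangeG_sound parWF r2 pf24756 h24756
  have h24758 := checkRangeG_sound parWF r2 pf24757 h24757
  have h24759 := checkRangeG_sound parWF r2 pf24758 h24758
  have h24760 := checkRangeG_sound parWF r2 pf24759 h24759
  have h24761 := checkRangeG_sound parWF r2 pf24760 h24760
  have h24762 := checkRangeG_sound parWF r2 pf24761 h24761
  have h24763 := checkRangeG_sound parWF r2 pf24762 h24762
  have h24764 := checkRangeG_sound parWF r2 pf24763 h24763
  have h24765 := checkRangeG_sound parWF r2 pf24764 h24764
  have h24766 := checkRangeG_sound parWF r2 pf24765 h24765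
  have h24767 := checkRangeG_sound parWF r2 pf24766 h24766
  have h24768 := checkRangeG_sound parWF r2 pf24767 h24767
  have h24769 := checkRangeG_sound parWF r2 pf24768 h24768
  have h24770 := checkRangeG_sound parWF r2 pf24769 h24769
  have h24771 := checkRangeG_sound parWF r2 pf24770 h24770
  have h24772 := checkRangeG_sound parWF r2 pf24771 h24771
  have h24773 := checkRangeG_sound parWF r2 pf24772 h24772
  have h24774 := checkRangeG_sound parWF r2 pf24773 h24773
  have h24775 := checkRangeG_sound parWF r2 pf24774 h24774
  have h24776 := checkRangeG_sound parWF r2 pf24775 h24775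
  have h24777 := checkRangeG_sound parWF r2 pf24776 h24776
  have h24778 := checkRangeG_sound parWF r2 pf24777 h24777
  have h24779 := checkRangeG_sound parWF r2 pf24778 h24778
  have h24780 := checkRangeG_sound parWF r2 pf24779 h24779
  have h24781 := checkRangeG_sound parWF r2 pf24780 h24780
  have h24782 := checkRangeG_sound parWF r2 pf24781 h24781
  have h24783 := checkRangeG_sound parWF r2 pf24782 h24782
  have h24784 := checkRangeG_sound parWF r2 pf24783 h24783
  have h24785 := checkRangeG_sound parWF r2 pf24784 h24784
  have h24786 := checkRangeG_sound parWF r2 pf24785 h24785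
  have h24787 := checkRangeG_sound parWF r2 pf24786 h24786
  have h24788 := checkRangeG_sound parWF r2 pf24787 h24787
  have h24789 := checkRangeG_sound parWF r2 pf24788 h24788
  have h24790 := checkRangeG_sound parWF r2 pf24789 h24789
  have h24791 := checkRangeG_sound parWF r2 pf24790 h24790
  have h24792 := checkRangeG_sound parWF r2 pf24791 h24791
  have h24793 := checkRangeG_sound parWF r2 pf24792 h24792
  have h24794 := checkRangeG_sound parWF r2 pf24793 h24793
  have h24795 := checkRangeG_sound parWF r2 pf24794 h24794
  have h24796 := checkRangeG_sound parWF r2 pf24795 h24795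
  have h24797 := checkRangeG_sound parWF r2 pf24796 h24796
  have h24798 := checkRangeG_sound parWF r2 pf24797 h24797
  have h24799 := checkRangeG_sound parWF r2 pf24798 h24798
  have h24800 := checkRangeG_sound parWF r2 pf24799 h24799
  exact h24800

theorem c496 (h24800 : ∀ j, j < 79648 → GoodG.{u} par (db j)) : ∀ j, j < 79834 → GoodG.{u} par (db j) := by
  have h24801 := checkRangeG_sound parWF r2 pf24800 h24800
  have h24802 := checkRangeG_sound parWF r2 pf24801 h24801
  have h24803 := checkRangeG_sound parWF r2 pf24802 h24802
  have h24804 := checkRangeG_sound parWF r2 pf24803 h24803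
  have h24805 := checkRangeG_sound parWF r2 pf24804 h24804
  have h24806 := checkRangeG_sound parWF r2 pf24805 h24805
  have h24807 := checkRangeG_sound parWF r2 pf24806 h24806
  have h24808 := checkRangeG_sound parWF r2 pf24807 h24807
  have h24809 := checkRangeG_sound parWF r2 pf24808 h24808
  have h24810 := checkRangeG_sound parWF r2 pf24809 h24809
  have h24811 := checkRangeG_sound parWF r2 pf24810 h24810
  have h24812 := checkRangeG_sound parWF r2 pf24811 h24811
  have h24813 := checkRangeG_sound parWF r2 pf24812 h24812
  have h24814 := checkRangeG_sound parWF r2 pf24813 h24813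
  have h24815 := checkRangeG_sound parWF r2 pf24814 h24814
  have h24816 := checkRangeG_sound parWF r2 pf24815 h24815
  have h24817 := checkRangeG_sound parWF r2 pf24816 h24816
  have h24818 := checkRangeG_sound parWF r2 pf24817 h24817
  have h24819 := checkRangeG_sound parWF r2 pf24818 h24818
  have h24820 := checkRangeG_sound parWF r2 pf24819 h24819
  have h24821 := checkRangeG_sound parWF r2 pf24820 h24820
  have h24822 := checkRangeG_sound parWF r2 pf24821 h24821
  have h24823 := checkRangeG_sound parWF r2 pf24822 h24822
  have h24824 := checkRangeG_sound parWF r2 pf24823 h24823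
  have h24825 := checkRangeG_sound parWF r2 pf24824 h24824
  have h24826 := checkRangeG_sound parWF r2 pf24825 h24825
  have h24827 := checkRangeG_sound parWF r2 pf24826 h24826
  have h24828 := checkRangeG_sound parWF r2 pf24827 h24827
  have h24829 := checkRangeG_sound parWF r2 pf24828 h24828
  have h24830 := checkRangeG_sound parWF r2 pf24829 h24829
  have h24831 := checkRangeG_sound parWF r2 pf24830 h24830
  have h24832 := checkRangeG_sound parWF r2 pf24831 h24831
  have h24833 := checkRangeG_sound parWF r2 pf24832 h24832
  have h24834 := checkRangeG_sound parWF r2 pf24833 h24833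
  have h24835 := checkRangeG_sound parWF r2 pf24834 h24834
  have h24836 := checkRangeG_sound parWF r2 pf24835 h24835
  have h24837 := checkRangeG_sound parWF r2 pf24836 h24836
  have h24838 := checkRangeG_sound parWF r2 pf24837 h24837
  have h24839 := checkRangeG_sound parWF r2 pf24838 h24838
  have h24840 := checkRangeG_sound parWF r2 pf24839 h24839
  have h24841 := checkRangeG_sound parWF r2 pf24840 h24840
  have h24842 := checkRangeG_sound parWF r2 pf24841 h24841
  have h24843 := checkRangeG_sound parWF r2 pf24842 h24842
  have h24844 := checkRangeG_sound parWF r2 pf24843 h24843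
  have h24845 := checkRangeG_sound parWF r2 pf24844 h24844
  have h24846 := checkRangeG_sound parWF r2 pf24845 h24845
  have h24847 := checkRangeG_sound parWF r2 pf24846 h24846
  have h24848 := checkRangeG_sound parWF r2 pf24847 h24847
  have h24849 := checkRangeG_sound parWF r2 pf24848 h24848
  have h24850 := checkRangeG_sound parWF r2 pf24849 h24849
  exact h24850

theorem c497 (h24850 : ∀ j, j < 79834 → GoodG.{u} par (db j)) : ∀ j, j < 80022 → GoodG.{u} par (db j) := by
  have h24851 := checkRangeG_sound parWF r2 pf24850 h24850
  have h24852 := checkRangeG_sound parWF r2 pf24851 h24851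
  have h24853 := checkRangeG_sound parWF r2 pf24852 h24852
  have h24854 := checkRangeG_sound parWF r2 pf24853 h24853
  have h24855 := checkRangeG_sound parWF r2 pf24854 h24854
  have h24856 := checkRangeG_sound parWF r2 pf24855 h24855
  have h24857 := checkRangeG_sound parWF r2 pf24856 h24856
  have h24858 := checkRangeG_sound parWF r2 pf24857 h24857
  have h24859 := checkRangeG_sound parWF r2 pf24858 h24858
  have h24860 := checkRangeG_sound parWF r2 pf24859 h24859
  have h24861 := checkRangeG_sound parWF r2 pf24860 h24860
  have h24862 := checkRangeG_sound parWF r2 pf24861 h24861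
  have h24863 := checkRangeG_sound parWF r2 pf24862 h24862
  have h24864 := checkRangeG_sound parWF r2 pf24863 h24863
  have h24865 := checkRangeG_sound parWF r2 pf24864 h24864
  have h24866 := checkRangeG_sound parWF r2 pf24865 h24865
  have h24867 := checkRangeG_sound parWF r2 pf24866 h24866
  have h24868 := checkRangeG_sound parWF r2 pf24867 h24867
  have h24869 := checkRangeG_sound parWF r2 pf24868 h24868
  have h24870 := checkRangeG_sound parWF r2 pf24869 h24869
  have h24871 := checkRangeG_sound parWF r2 pf24870 h24870
  have h24872 := checkRangeG_sound parWF r2 pf24871 h24871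
  have h24873 := checkRangeG_sound parWF r2 pf24872 h24872
  have h24874 := checkRangeG_sound parWF r2 pf24873 h24873
  have h24875 := checkRangeG_sound parWF r2 pf24874 h24874
  have h24876 := checkRangeG_sound parWF r2 pf24875 h24875
  have h24877 := checkRangeG_sound parWF r2 pf24876 h24876
  have h24878 := checkRangeG_sound parWF r2 pf24877 h24877
  have h24879 := checkRangeG_sound parWF r2 pf24878 h24878
  have h24880 := checkRangeG_sound parWF r2 pf24879 h24879
  have h24881 := checkRangeG_sound parWF r2 pf24880 h24880
  have h24882 := checkRangeG_sound parWF r2 pf24881 h24881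
  have h24883 := checkRangeG_sound parWF r2 pf24882 h24882
  have h24884 := checkRangeG_sound parWF r2 pf24883 h24883
  have h24885 := checkRangeG_sound parWF r2 pf24884 h24884
  have h24886 := checkRangeG_sound parWF r2 pf24885 h24885
  have h24887 := checkRangeG_sound parWF r2 pf24886 h24886
  have h24888 := checkRangeG_sound parWF r2 pf24887 h24887
  have h24889 := checkRangeG_sound parWF r2 pf24888 h24888
  have h24890 := checkRangeG_sound parWF r2 pf24889 h24889
  have h24891 := checkRangeG_sound parWF r2 pf24890 h24890
  have h24892 := checkRangeG_sound parWF r2 pf24891 h24891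
  have h24893 := checkRangeG_sound parWF r2 pf24892 h24892
  have h24894 := checkRangeG_sound parWF r2 pf24893 h24893
  have h24895 := checkRangeG_sound parWF r2 pf24894 h24894
  have h24896 := checkRangeG_sound parWF r2 pf24895 h24895
  have h24897 := checkRangeG_sound parWF r2 pf24896 h24896
  have h24898 := checkRangeG_sound parWF r2 pf24897 h24897
  have h24899 := checkRangeG_sound parWF r2 pf24898 h24898
  have h24900 := checkRangeG_sound parWF r2 pf24899 h24899
  exact h24900

theorem c498 (h24900 : ∀ j, j < 80022 → GoodG.{u} par (db j)) : ∀ j, j < 80210 → GoodG.{u} par (db j) := by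
  have h24901 := checkRangeG_sound parWF r2 pf24900 h24900
  have h24902 := checkRangeG_sound parWF r2 pf24901 h24901
  have h24903 := checkRangeG_sound parWF r2 pf24902 h24902
  have h24904 := checkRangeG_sound parWF r2 pf24903 h24903
  have h24905 := checkRangeG_sound parWF r2 pf24904 h24904
  have h24906 := checkRangeG_sound parWF r2 pf24905 h24905
  have h24907 := checkRangeG_sound parWF r2 pf24906 h24906
  have h24908 := checkRangeG_sound parWF r2 pf24907 h24907
  have h24909 := checkRangeG_sound parWF r2 pf24908 h24908
  have h24910 := checkRangeG_sound parWF r2 pf24909 h24909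
  have h24911 := checkRangeG_sound parWF r2 pf24910 h24910
  have h24912 := checkRangeG_sound parWF r2 pf24911 h24911
  have h24913 := checkRangeG_sound parWF r2 pf24912 h24912
  have h24914 := checkRangeG_sound parWF r2 pf24913 h24913
  have h24915 := checkRangeG_sound parWF r2 pf24914 h24914
  have h24916 := checkRangeG_sound parWF r2 pf24915 h24915
  have h24917 := checkRangeG_sound parWF r2 pf24916 h24916
  have h24918 := checkRangeG_sound parWF r2 pf24917 h24917
  have h24919 := checkRangeG_sound parWF r2 pf24918 h24918
  have h24920 := checkRangeG_sound parWF r2 pf24919 h24919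
  have h24921 := checkRangeG_sound parWF r2 pf24920 h24920
  have h24922 := checkRangeG_sound parWF r2 pf24921 h24921
  have h24923 := checkRangeG_sound parWF r2 pf24922 h24922
  have h24924 := checkRangeG_sound parWF r2 pf24923 h24923
  have h24925 := checkRangeG_sound parWF r2 pf24924 h24924
  have h24926 := checkRangeG_sound parWF r2 pf24925 h24925
  have h24927 := checkRangeG_sound parWF r2 pf24926 h24926
  have h24928 := checkRangeG_sound parWF r2 pf24927 h24927
  have h24929 := checkRangeG_sound parWF r2 pf24928 h24928
  have h24930 := checkRangeG_sound parWF r2 pf24929 h24929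
  have h24931 := checkRangeG_sound parWF r2 pf24930 h24930
  have h24932 := checkRangeG_sound parWF r2 pf24931 h24931
  have h24933 := checkRangeG_sound parWF r2 pf24932 h24932
  have h24934 := checkRangeG_sound parWF r2 pf24933 h24933
  have h24935 := checkRangeG_sound parWF r2 pf24934 h24934
  have h24936 := checkRangeG_sound parWF r2 pf24935 h24935
  have h24937 := checkRangeG_sound parWF r2 pf24936 h24936
  have h24938 := checkRangeG_sound parWF r2 pf24937 h24937
  have h24939 := checkRangeG_sound parWF r2 pf24938 h24938
  have h24940 := checkRangeG_sound parWF r2 pf24939 h24939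
  have h24941 := checkRangeG_sound parWF r2 pf24940 h24940
  have h24942 := checkRangeG_sound parWF r2 pf24941 h24941
  have h24943 := checkRangeG_sound parWF r2 pf24942 h24942
  have h24944 := checkRangeG_sound parWF r2 pf24943 h24943
  have h24945 := checkRangeG_sound parWF r2 pf24944 h24944
  have h24946 := checkRangeG_sound parWF r2 pf24945 h24945
  have h24947 := checkRangeG_sound parWF r2 pf24946 h24946
  have h24948 := checkRangeG_sound parWF r2 pf24947 h24947
  have h24949 := checkRangeG_sound parWF r2 pf24948 h24948
  have h24950 := checkRangeG_sound parWF r2 pf24949 h24949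
  exact h24950

theorem c499 (h24950 : ∀ j, j < 80210 → GoodG.{u} par (db j)) : ∀ j, j < 80388 → GoodG.{u} par (db j) := by
  have h24951 := checkRangeG_sound parWF r2 pf24950 h24950
  have h24952 := checkRangeG_sound parWF r2 pf24951 h24951
  have h24953 := checkRangeG_sound parWF r2 pf24952 h24952
  have h24954 := checkRangeG_sound parWF r2 pf24953 h24953
  have h24955 := checkRangeG_sound parWF r2 pf24954 h24954
  have h24956 := checkRangeG_sound parWF r2 pf24955 h24955
  have h24957 := checkRangeG_sound parWF r2 pf24956 h24956
  have h24958 := checkRangeG_sound parWF r2 pf24957 h24957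
  have h24959 := checkRangeG_sound parWF r2 pf24958 h24958
  have h24960 := checkRangeG_sound parWF r2 pf24959 h24959
  have h24961 := checkRangeG_sound parWF r2 pf24960 h24960
  have h24962 := checkRangeG_sound parWF r2 pf24961 h24961
  have h24963 := checkRangeG_sound parWF r2 pf24962 h24962
  have h24964 := checkRangeG_sound parWF r2 pf24963 h24963
  have h24965 := checkRangeG_sound parWF r2 pf24964 h24964
  have h24966 := checkRangeG_sound parWF r2 pf24965 h24965
  have h24967 := checkRangeG_sound parWF r2 pf24966 h24966
  have h24968 := checkRangeG_sound parWF r2 pf24967 h24967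
  have h24969 := checkRangeG_sound parWF r2 pf24968 h24968
  have h24970 := checkRangeG_sound parWF r2 pf24969 h24969
  have h24971 := checkRangeG_sound parWF r2 pf24970 h24970
  have h24972 := checkRangeG_sound parWF r2 pf24971 h24971
  have h24973 := checkRangeG_sound parWF r2 pf24972 h24972
  have h24974 := checkRangeG_sound parWF r2 pf24973 h24973
  have h24975 := checkRangeG_sound parWF r2 pf24974 h24974
  have h24976 := checkRangeG_sound parWF r2 pf24975 h24975
  have h24977 := checkRangeG_sound parWF r2 pf24976 h24976
  have h24978 := checkRangeG_sound parWF r2 pf24977 h24977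
  have h24979 := checkRangeG_sound parWF r2 pf24978 h24978
  have h24980 := checkRangeG_sound parWF r2 pf24979 h24979
  have h24981 := checkRangeG_sound parWF r2 pf24980 h24980
  have h24982 := checkRangeG_sound parWF r2 pf24981 h24981
  have h24983 := checkRangeG_sound parWF r2 pf24982 h24982
  have h24984 := checkRangeG_sound parWF r2 pf24983 h24983
  have h24985 := checkRangeG_sound parWF r2 pf24984 h24984
  have h24986 := checkRangeG_sound parWF r2 pf24985 h24985
  have h24987 := checkRangeG_sound parWF r2 pf24986 h24986
  have h24988 := checkRangeG_sound parWF r2 pf24987 h24987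
  have h24989 := checkRangeG_sound parWF r2 pf24988 h24988
  have h24990 := checkRangeG_sound parWF r2 pf24989 h24989
  have h24991 := checkRangeG_sound parWF r2 pf24990 h24990
  have h24992 := checkRangeG_sound parWF r2 pf24991 h24991
  have h24993 := checkRangeG_sound parWF r2 pf24992 h24992
  have h24994 := checkRangeG_sound parWF r2 pf24993 h24993
  have h24995 := checkRangeG_sound parWF r2 pf24994 h24994
  have h24996 := checkRangeG_sound parWF r2 pf24995 h24995
  have h24997 := checkRangeG_sound parWF r2 pf24996 h24996
  have h24998 := checkRangeG_sound parWF r2 pf24997 h24997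
  have h24999 := checkRangeG_sound parWF r2 pf24998 h24998
  have h25000 := checkRangeG_sound parWF r2 pf24999 h24999
  exact h25000

theorem c500 (h25000 : ∀ j, j < 80388 → GoodG.{u} par (db j)) : ∀ j, j < 80541 → GoodG.{u} par (db j) := by
  have h25001 := checkRangeG_sound parWF r2 pf25000 h25000
  have h25002 := checkRangeG_sound parWF r2 pf25001 h25001
  have h25003 := checkRangeG_sound parWF r2 pf25002 h25002
  have h25004 := checkRangeG_sound parWF r2 pf25003 h25003
  have h25005 := checkRangeG_sound parWF r2 pf25004 h25004
  have h25006 := checkRangeG_sound parWF r2 pf25005 h25005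
  have h25007 := checkRangeG_sound parWF r2 pf25006 h25006
  have h25008 := checkRangeG_sound parWF r2 pf25007 h25007
  have h25009 := checkRangeG_sound parWF r2 pf25008 h25008
  have h25010 := checkRangeG_sound parWF r2 pf25009 h25009
  have h25011 := checkRangeG_sound parWF r2 pf25010 h25010
  have h25012 := checkRangeG_sound parWF r2 pf25011 h25011
  have h25013 := checkRangeG_sound parWF r2 pf25012 h25012
  have h25014 := checkRangeG_sound parWF r2 pf25013 h25013
  have h25015 := checkRangeG_sound parWF r2 pf25014 h25014
  have h25016 := checkRangeG_sound parWF r2 pf25015 h25015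
  have h25017 := checkRangeG_sound parWF r2 pf25016 h25016
  have h25018 := checkRangeG_sound parWF r2 pf25017 h25017
  have h25019 := checkRangeG_sound parWF r2 pf25018 h25018
  have h25020 := checkRangeG_sound parWF r2 pf25019 h25019
  have h25021 := checkRangeG_sound parWF r2 pf25020 h25020
  have h25022 := checkRangeG_sound parWF r2 pf25021 h25021
  have h25023 := checkRangeG_sound parWF r2 pf25022 h25022
  have h25024 := checkRangeG_sound parWF r2 pf25023 h25023
  have h25025 := checkRangeG_sound parWF r2 pf25024 h25024
  have h25026 := checkRangeG_sound parWF r2 pf25025 h25025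
  have h25027 := checkRangeG_sound parWF r2 pf25026 h25026
  have h25028 := checkRangeG_sound parWF r2 pf25027 h25027
  have h25029 := checkRangeG_sound parWF r2 pf25028 h25028
  have h25030 := checkRangeG_sound parWF r2 pf25029 h25029
  have h25031 := checkRangeG_sound parWF r2 pf25030 h25030
  have h25032 := checkRangeG_sound parWF r2 pf25031 h25031
  have h25033 := checkRangeG_sound parWF r2 pf25032 h25032
  have h25034 := checkRangeG_sound parWF r2 pf25033 h25033
  have h25035 := checkRangeG_sound parWF r2 pf25034 h25034
  have h25036 := checkRangeG_sound parWF r2 pf25035 h25035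
  have h25037 := checkRangeG_sound parWF r2 pf25036 h25036
  have h25038 := checkRangeG_sound parWF r2 pf25037 h25037
  have h25039 := checkRangeG_sound parWF r2 pf25038 h25038
  have h25040 := checkRangeG_sound parWF r2 pf25039 h25039
  have h25041 := checkRangeG_sound parWF r2 pf25040 h25040
  have h25042 := checkRangeG_sound parWF r2 pf25041 h25041
  have h25043 := checkRangeG_sound parWF r2 pf25042 h25042
  have h25044 := checkRangeG_sound parWF r2 pf25043 h25043
  have h25045 := checkRangeG_sound parWF r2 pf25044 h25044
  have h25046 := checkRangeG_sound parWF r2 pf25045 h25045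
  have h25047 := checkRangeG_sound parWF r2 pf25046 h25046
  have h25048 := checkRangeG_sound parWF r2 pf25047 h25047
  have h25049 := checkRangeG_sound parWF r2 pf25048 h25048
  have h25050 := checkRangeG_sound parWF r2 pf25049 h25049
  exact h25050

theorem c501 (h25050 : ∀ j, j < 80541 → GoodG.{u} par (db j)) : ∀ j, j < 80694 → GoodG.{u} par (db j) := by
  have h25051 := checkRangeG_sound parWF r2 pf25050 h25050
  have h25052 := checkRangeG_sound parWF r2 pf25051 h25051
  have h25053 := checkRangeG_sound parWF r2 pf25052 h25052
  have h25054 := checkRangeG_sound parWF r2 pf25053 h25053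
  have h25055 := checkRangeG_sound parWF r2 pf25054 h25054
  have h25056 := checkRangeG_sound parWF r2 pf25055 h25055
  have h25057 := checkRangeG_sound parWF r2 pf25056 h25056
  have h25058 := checkRangeG_sound parWF r2 pf25057 h25057
  have h25059 := checkRangeG_sound parWF r2 pf25058 h25058
  have h25060 := checkRangeG_sound parWF r2 pf25059 h25059
  have h25061 := checkRangeG_sound parWF r2 pf25060 h25060
  have h25062 := checkRangeG_sound parWF r2 pf25061 h25061
  have h25063 := checkRangeG_sound parWF r2 pf25062 h25062
  have h25064 := checkRangeG_sound parWF r2 pf25063 h25063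
  have h25065 := checkRangeG_sound parWF r2 pf25064 h25064
  have h25066 := checkRangeG_sound parWF r2 pf25065 h25065
  have h25067 := checkRangeG_sound parWF r2 pf25066 h25066
  have h25068 := checkRangeG_sound parWF r2 pf25067 h25067
  have h25069 := checkRangeG_sound parWF r2 pf25068 h25068
  have h25070 := checkRangeG_sound parWF r2 pf25069 h25069
  have h25071 := checkRangeG_sound parWF r2 pf25070 h25070
  have h25072 := checkRangeG_sound parWF r2 pf25071 h25071
  have h25073 := checkRangeG_sound parWF r2 pf25072 h25072
  have h25074 := checkRangeG_sound parWF r2 pf25073 h25073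
  have h25075 := checkRangeG_sound parWF r2 pf25074 h25074
  have h25076 := checkRangeG_sound parWF r2 pf25075 h25075
  have h25077 := checkRangeG_sound parWF r2 pf25076 h25076
  have h25078 := checkRangeG_sound parWF r2 pf25077 h25077
  have h25079 := checkRangeG_sound parWF r2 pf25078 h25078
  have h25080 := checkRangeG_sound parWF r2 pf25079 h25079
  have h25081 := checkRangeG_sound parWF r2 pf25080 h25080
  have h25082 := checkRangeG_sound parWF r2 pf25081 h25081
  have h25083 := checkRangeG_sound parWF r2 pf25082 h25082
  have h25084 := checkRangeG_sound parWF r2 pf25083 h25083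
  have h25085 := checkRangeG_sound parWF r2 pf25084 h25084
  have h25086 := checkRangeG_sound parWF r2 pf25085 h25085
  have h25087 := checkRangeG_sound parWF r2 pf25086 h25086
  have h25088 := checkRangeG_sound parWF r2 pf25087 h25087
  have h25089 := checkRangeG_sound parWF r2 pf25088 h25088
  have h25090 := checkRangeG_sound parWF r2 pf25089 h25089
  have h25091 := checkRangeG_sound parWF r2 pf25090 h25090
  have h25092 := checkRangeG_sound parWF r2 pf25091 h25091
  have h25093 := checkRangeG_sound parWF r2 pf25092 h25092
  have h25094 := checkRangeG_sound parWF r2 pf25093 h25093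
  have h25095 := checkRangeG_sound parWF r2 pf25094 h25094
  have h25096 := checkRangeG_sound parWF r2 pf25095 h25095
  have h25097 := checkRangeG_sound parWF r2 pf25096 h25096
  have h25098 := checkRangeG_sound parWF r2 pf25097 h25097
  have h25099 := checkRangeG_sound parWF r2 pf25098 h25098
  have h25100 := checkRangeG_sound parWF r2 pf25099 h25099
  exact h25100

theorem c502 (h25100 : ∀ j, j < 80694 → GoodG.{u} par (db j)) : ∀ j, j < 80860 → GoodG.{u} par (db j) := by
  have h25101 := checkRangeG_sound parWF r2 pf25100 h25100
  have h25102 := checkRangeG_sound parWF r2 pf25101 h25101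
  have h25103 := checkRangeG_sound parWF r2 pf25102 h25102
  have h25104 := checkRangeG_sound parWF r2 pf25103 h25103
  have h25105 := checkRangeG_sound parWF r2 pf25104 h25104
  have h25106 := checkRangeG_sound parWF r2 pf25105 h25105
  have h25107 := checkRangeG_sound parWF r2 pf25106 h25106
  have h25108 := checkRangeG_sound parWF r2 pf25107 h25107
  have h25109 := checkRangeG_sound parWF r2 pf25108 h25108
  have h25110 := checkRangeG_sound parWF r2 pf25109 h25109
  have h25111 := checkRangeG_sound parWF r2 pf25110 h25110
  have h25112 := checkRangeG_sound parWF r2 pf25111 h25111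
  have h25113 := checkRangeG_sound parWF r2 pf25112 h25112
  have h25114 := checkRangeG_sound parWF r2 pf25113 h25113
  have h25115 := checkRangeG_sound parWF r2 pf25114 h25114
  have h25116 := checkRangeG_sound parWF r2 pf25115 h25115
  have h25117 := checkRangeG_sound parWF r2 pf25116 h25116
  have h25118 := checkRangeG_sound parWF r2 pf25117 h25117
  have h25119 := checkRangeG_sound parWF r2 pf25118 h25118
  have h25120 := checkRangeG_sound parWF r2 pf25119 h25119
  have h25121 := checkRangeG_sound parWF r2 pf25120 h25120
  have h25122 := checkRangeG_sound parWF r2 pf25121 h25121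
  have h25123 := checkRangeG_sound parWF r2 pf25122 h25122
  have h25124 := checkRangeG_sound parWF r2 pf25123 h25123
  have h25125 := checkRangeG_sound parWF r2 pf25124 h25124
  have h25126 := checkRangeG_sound parWF r2 pf25125 h25125
  have h25127 := checkRangeG_sound parWF r2 pf25126 h25126
  have h25128 := checkRangeG_sound parWF r2 pf25127 h25127
  have h25129 := checkRangeG_sound parWF r2 pf25128 h25128
  have h25130 := checkRangeG_sound parWF r2 pf25129 h25129
  have h25131 := checkRangeG_sound parWF r2 pf25130 h25130
  have h25132 := checkRangeG_sound parWF r2 pf25131 h25131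
  have h25133 := checkRangeG_sound parWF r2 pf25132 h25132
  have h25134 := checkRangeG_sound parWF r2 pf25133 h25133
  have h25135 := checkRangeG_sound parWF r2 pf25134 h25134
  have h25136 := checkRangeG_sound parWF r2 pf25135 h25135
  have h25137 := checkRangeG_sound parWF r2 pf25136 h25136
  have h25138 := checkRangeG_sound parWF r2 pf25137 h25137
  have h25139 := checkRangeG_sound parWF r2 pf25138 h25138
  have h25140 := checkRangeG_sound parWF r2 pf25139 h25139
  have h25141 := checkRangeG_sound parWF r2 pf25140 h25140
  have h25142 := checkRangeG_sound parWF r2 pf25141 h25141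
  have h25143 := checkRangeG_sound parWF r2 pf25142 h25142
  have h25144 := checkRangeG_sound parWF r2 pf25143 h25143
  have h25145 := checkRangeG_sound parWF r2 pf25144 h25144
  have h25146 := checkRangeG_sound parWF r2 pf25145 h25145
  have h25147 := checkRangeG_sound parWF r2 pf25146 h25146
  have h25148 := checkRangeG_sound parWF r2 pf25147 h25147
  have h25149 := checkRangeG_sound parWF r2 pf25148 h25148
  have h25150 := checkRangeG_sound parWF r2 pf25149 h25149
  exact h25150

theorem c503 (h25150 : ∀ j, j < 80860 → GoodG.{u} par (db j)) : ∀ j, j < 81020 → GoodG.{u} par (db j) := by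
  have h25151 := checkRangeG_sound parWF r2 pf25150 h25150
  have h25152 := checkRangeG_sound parWF r2 pf25151 h25151
  have h25153 := checkRangeG_sound parWF r2 pf25152 h25152
  have h25154 := checkRangeG_sound parWF r2 pf25153 h25153
  have h25155 := checkRangeG_sound parWF r2 pf25154 h25154
  have h25156 := checkRangeG_sound parWF r2 pf25155 h25155
  have h25157 := checkRangeG_sound parWF r2 pf25156 h25156
  have h25158 := checkRangeG_sound parWF r2 pf25157 h25157
  have h25159 := checkRangeG_sound parWF r2 pf25158 h25158
  have h25160 := checkRangeG_sound parWF r2 pf25159 h25159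
  have h25161 := checkRangeG_sound parWF r2 pf25160 h25160
  have h25162 := checkRangeG_sound parWF r2 pf25161 h25161
  have h25163 := checkRangeG_sound parWF r2 pf25162 h25162
  have h25164 := checkRangeG_sound parWF r2 pf25163 h25163
  have h25165 := checkRangeG_sound parWF r2 pf25164 h25164
  have h25166 := checkRangeG_sound parWF r2 pf25165 h25165
  have h25167 := checkRangeG_sound parWF r2 pf25166 h25166
  have h25168 := checkRangeG_sound parWF r2 pf25167 h25167
  have h25169 := checkRangeG_sound parWF r2 pf25168 h25168
  have h25170 := checkRangeG_sound parWF r2 pf25169 h25169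
  have h25171 := checkRangeG_sound parWF r2 pf25170 h25170
  have h25172 := checkRangeG_sound parWF r2 pf25171 h25171
  have h25173 := checkRangeG_sound parWF r2 pf25172 h25172
  have h25174 := checkRangeG_sound parWF r2 pf25173 h25173
  have h25175 := checkRangeG_sound parWF r2 pf25174 h25174
  have h25176 := checkRangeG_sound parWF r2 pf25175 h25175
  have h25177 := checkRangeG_sound parWF r2 pf25176 h25176
  have h25178 := checkRangeG_sound parWF r2 pf25177 h25177
  have h25179 := checkRangeG_sound parWF r2 pf25178 h25178
  have h25180 := checkRangeG_sound parWF r2 pf25179 h25179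
  have h25181 := checkRangeG_sound parWF r2 pf25180 h25180
  have h25182 := checkRangeG_sound parWF r2 pf25181 h25181
  have h25183 := checkRangeG_sound parWF r2 pf25182 h25182
  have h25184 := checkRangeG_sound parWF r2 pf25183 h25183
  have h25185 := checkRangeG_sound parWF r2 pf25184 h25184
  have h25186 := checkRangeG_sound parWF r2 pf25185 h25185
  have h25187 := checkRangeG_sound parWF r2 pf25186 h25186
  have h25188 := checkRangeG_sound parWF r2 pf25187 h25187
  have h25189 := checkRangeG_sound parWF r2 pf25188 h25188
  have h25190 := checkRangeG_sound parWF r2 pf25189 h25189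
  have h25191 := checkRangeG_sound parWF r2 pf25190 h25190
  have h25192 := checkRangeG_sound parWF r2 pf25191 h25191
  have h25193 := checkRangeG_sound parWF r2 pf25192 h25192
  have h25194 := checkRangeG_sound parWF r2 pf25193 h25193
  have h25195 := checkRangeG_sound parWF r2 pf25194 h25194
  have h25196 := checkRangeG_sound parWF r2 pf25195 h25195
  have h25197 := checkRangeG_sound parWF r2 pf25196 h25196
  have h25198 := checkRangeG_sound parWF r2 pf25197 h25197
  have h25199 := checkRangeG_sound parWF r2 pf25198 h25198
  have h25200 := checkRangeG_sound parWF r2 pf25199 h25199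
  exact h25200


end Vale.Agent.P045g.C61
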