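import Vale.Agent.P045g.C61.WF
import Vale.Agent.P045g.C61.Pf420
import Vale.Agent.P045g.C61.Pf421
import Vale.Agent.P045g.C61.Pf422
import Vale.Agent.P045g.C61.Pf423
import Vale.Agent.P045g.C61.Pf424
import Vale.Agent.P045g.C61.Pf425
import Vale.Agent.P045g.C61.Pf426
import Vale.Agent.P045g.C61.Pf427
import Vale.Agent.P045g.C61.Pf428
import Vale.Agent.P045g.C61.Pf429

namespace Vale.Agent.P045g.C61

open Vale.Agent.P045b Vale.Agent.P045g

universe u

theorem c504 (h25200 : ∀ j, j < 81020 → GoodG.{u} par (db j)) : ∀ j, j < 81195 → GoodG.{u} par (db j) := by
  have h25201 := checkRangeG_sound parWF r2 pf25200 h25200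
  have h25202 := checkRangeG_sound parWF r2 pf25201 h25201
  have h25203 := checkRangeG_sound parWF r2 pf25202 h25202
  have h25204 := checkRangeG_sound parWF r2 pf25203 h25203
  have h25205 := checkRangeG_sound parWF r2 pf25204 h25204
  have h25206 := checkRangeG_sound parWF r2 pf25205 h25205
  have h25207 := checkRangeG_sound parWF r2 pf25206 h25206
  have h25208 := checkRangeG_sound parWF r2 pf25207 h25207
  have h25209 := checkRangeG_sound parWF r2 pf25208 h25208
  have h25210 := checkRangeG_sound parWF r2 pf25209 h25209
  have h25211 := checkRangeG_sound parWF r2 pf25210 h25210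
  have h25212 := checkRangeG_sound parWF r2 pf25211 h25211
  have h25213 := checkRangeG_sound parWF r2 pf25212 h25212
  have h25214 := checkRangeG_sound parWF r2 pf25213 h25213
  have h25215 := checkRangeG_sound parWF r2 pf25214 h25214
  have h25216 := checkRangeG_sound parWF r2 pf25215 h25215
  have h25217 := checkRangeG_sound parWF r2 pf25216 h25216
  have h25218 := checkRangeG_sound parWF r2 pf25217 h25217
  have h25219 := checkRangeG_sound parWF r2 pf25218 h25218
  have h25220 := checkRangeG_sound parWF r2 pf25219 h25219
  have h25221 := checkRangeG_sound parWF r2 pf25220 h25220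
  have h25222 := checkRangeG_sound parWF r2 pf25221 h25221
  have h25223 := checkRangeG_sound parWF r2 pf25222 h25222
  have h25224 := checkRangeG_sound parWF r2 pf25223 h25223
  have h25225 := checkRangeG_sound parWF r2 pf25224 h25224
  have h25226 := checkRangeG_sound parWF r2 pf25225 h25225
  have h25227 := checkRangeG_sound parWF r2 pf25226 h25226
  have h25228 := checkRangeG_sound parWF r2 pf25227 h25227
  have h25229 := checkRangeG_sound parWF r2 pf25228 h25228
  have h25230 := checkRangeG_sound parWF r2 pf25229 h25229
  have h25231 := checkRangeG_sound parWF r2 pf25230 h25230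
  have h25232 := checkRangeG_sound parWF r2 pf25231 h25231
  have h25233 := checkRangeG_sound parWF r2 pf25232 h25232
  have h25234 := checkRangeG_sound parWF r2 pf25233 h25233
  have h25235 := checkRangeG_sound parWF r2 pf25234 h25234
  have h25236 := checkRangeG_sound parWF r2 pf25235 h25235
  have h25237 := checkRangeG_sound parWF r2 pf25236 h25236
  have h25238 := checkRangeG_sound parWF r2 pf25237 h25237
  have h25239 := checkRangeG_sound parWF r2 pf25238 h25238
  have h25240 := checkRangeG_sound parWF r2 pf25239 h25239
  have h25241 := checkRangeG_sound parWF r2 pf25240 h25240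
  have h25242 := checkRangeG_sound parWF r2 pf25241 h25241
  have h25243 := checkRangeG_sound parWF r2 pf25242 h25242
  have h25244 := checkRangeG_sound parWF r2 pf25243 h25243
  have h25245 := checkRangeG_sound parWF r2 pf25244 h25244
  have h25246 := checkRangeG_sound parWF r2 pf25245 h25245
  have h25247 := checkRangeG_sound parWF r2 pf25246 h25246
  have h25248 := checkRangeG_sound parWF r2 pf25247 h25247
  have h25249 := checkRangeG_sound parWF r2 pf25248 h25248
  have h25250 := checkRangeG_sound parWF r2 pf25249 h25249
  exact h25250

theorem c505 (h25250 : ∀ j, j < 81195 → GoodG.{u} par (db j)) : ∀ j, j < 81348 → GoodG.{u} par (db j) := by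
  have h25251 := checkRangeG_sound parWF r2 pf25250 h25250
  have h25252 := checkRangeG_sound parWF r2 pf25251 h25251
  have h25253 := checkRangeG_sound parWF r2 pf25252 h25252
  have h25254 := checkRangeG_sound parWF r2 pf25253 h25253
  have h25255 := checkRangeG_sound parWF r2 pf25254 h25254
  have h25256 := checkRangeG_sound parWF r2 pf25255 h25255
  have h25257 := checkRangeG_sound parWF r2 pf25256 h25256
  have h25258 := checkRangeG_sound parWF r2 pf25257 h25257
  have h25259 := checkRangeG_sound parWF r2 pf25258 h25258
  have h25260 := checkRangeG_sound parWF r2 pf25259 h25259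
  have h25261 := checkRangeG_sound parWF r2 pf25260 h25260
  have h25262 := checkRangeG_sound parWF r2 pf25261 h25261
  have h25263 := checkRangeG_sound parWF r2 pf25262 h25262
  have h25264 := checkRangeG_sound parWF r2 pf25263 h25263
  have h25265 := checkRangeG_sound parWF r2 pf25264 h25264
  have h25266 := checkRangeG_sound parWF r2 pf25265 h25265
  have h25267 := checkRangeG_sound parWF r2 pf25266 h25266
  have h25268 := checkRangeG_sound parWF r2 pf25267 h25267
  have h25269 := checkRangeG_sound parWF r2 pf25268 h25268
  have h25270 := checkRangeG_sound parWF r2 pf25269 h25269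
  have h25271 := checkRangeG_sound parWF r2 pf25270 h25270
  have h25272 := checkRangeG_sound parWF r2 pf25271 h25271
  have h25273 := checkRangeG_sound parWF r2 pf25272 h25272
  have h25274 := checkRangeG_sound parWF r2 pf25273 h25273
  have h25275 := checkRangeG_sound parWF r2 pf25274 h25274
  have h25276 := checkRangeG_sound parWF r2 pf25275 h25275
  have h25277 := checkRangeG_sound parWF r2 pf25276 h25276
  have h25278 := checkRangeG_sound parWF r2 pf25277 h25277
  have h25279 := checkRangeG_sound parWF r2 pf25278 h25278
  have h25280 := checkRangeG_sound parWF r2 pf25279 h25279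
  have h25281 := checkRangeG_sound parWF r2 pf25280 h25280
  have h25282 := checkRangeG_sound parWF r2 pf25281 h25281
  have h25283 := checkRangeG_sound parWF r2 pf25282 h25282
  have h25284 := checkRangeG_sound parWF r2 pf25283 h25283
  have h25285 := checkRangeG_sound parWF r2 pf25284 h25284
  have h25286 := checkRangeG_sound parWF r2 pf25285 h25285
  have h25287 := checkRangeG_sound parWF r2 pf25286 h25286
  have h25288 := checkRangeG_sound parWF r2 pf25287 h25287
  have h25289 := checkRangeG_sound parWF r2 pf25288 h25288
  have h25290 := checkRangeG_sound parWF r2 pf25289 h25289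
  have h25291 := checkRangeG_sound parWF r2 pf25290 h25290
  have h25292 := checkRangeG_sound parWF r2 pf25291 h25291
  have h25293 := checkRangeG_sound parWF r2 pf25292 h25292
  have h25294 := checkRangeG_sound parWF r2 pf25293 h25293
  have h25295 := checkRangeG_sound parWF r2 pf25294 h25294
  have h25296 := checkRangeG_sound parWF r2 pf25295 h25295
  have h25297 := checkRangeG_sound parWF r2 pf25296 h25296
  have h25298 := checkRangeG_sound parWF r2 pf25297 h25297
  have h25299 := checkRangeG_sound parWF r2 pf25298 h25298
  have h25300 := checkRangeG_sound parWF r2 pf25299 h25299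
  exact h25300

theorem c506 (h25300 : ∀ j, j < 81348 → GoodG.{u} par (db j)) : ∀ j, j < 81496 → GoodG.{u} par (db j) := by
  have h25301 := checkRangeG_sound parWF r2 pf25300 h25300
  have h25302 := checkRangeG_sound parWF r2 pf25301 h25301
  have h25303 := checkRangeG_sound parWF r2 pf25302 h25302
  have h25304 := checkRangeG_sound parWF r2 pf25303 h25303
  have h25305 := checkRangeG_sound parWF r2 pf25304 h25304
  have h25306 := checkRangeG_sound parWF r2 pf25305 h25305
  have h25307 := checkRangeG_sound parWF r2 pf25306 h25306
  have h25308 := checkRangeG_sound parWF r2 pf25307 h25307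
  have h25309 := checkRangeG_sound parWF r2 pf25308 h25308
  have h25310 := checkRangeG_sound parWF r2 pf25309 h25309
  have h25311 := checkRangeG_sound parWF r2 pf25310 h25310
  have h25312 := checkRangeG_sound parWF r2 pf25311 h25311
  have h25313 := checkRangeG_sound parWF r2 pf25312 h25312
  have h25314 := checkRangeG_sound parWF r2 pf25313 h25313
  have h25315 := checkRangeG_sound parWF r2 pf25314 h25314
  have h25316 := checkRangeG_sound parWF r2 pf25315 h25315
  have h25317 := checkRangeG_sound parWF r2 pf25316 h25316
  have h25318 := checkRangeG_sound parWF r2 pf25317 h25317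
  have h25319 := checkRangeG_sound parWF r2 pf25318 h25318
  have h25320 := checkRangeG_sound parWF r2 pf25319 h25319
  have h25321 := checkRangeG_sound parWF r2 pf25320 h25320
  have h25322 := checkRangeG_sound parWF r2 pf25321 h25321
  have h25323 := checkRangeG_sound parWF r2 pf25322 h25322
  have h25324 := checkRangeG_sound parWF r2 pf25323 h25323
  have h25325 := checkRangeG_sound parWF r2 pf25324 h25324
  have h25326 := checkRangeG_sound parWF r2 pf25325 h25325
  have h25327 := checkRangeG_sound parWF r2 pf25326 h25326
  have h25328 := checkRangeG_sound parWF r2 pf25327 h25327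
  have h25329 := checkRangeG_sound parWF r2 pf25328 h25328
  have h25330 := checkRangeG_sound parWF r2 pf25329 h25329
  have h25331 := checkRangeG_sound parWF r2 pf25330 h25330
  have h25332 := checkRangeG_sound parWF r2 pf25331 h25331
  have h25333 := checkRangeG_sound parWF r2 pf25332 h25332
  have h25334 := checkRangeG_sound parWF r2 pf25333 h25333
  have h25335 := checkRangeG_sound parWF r2 pf25334 h25334
  have h25336 := checkRangeG_sound parWF r2 pf25335 h25335
  have h25337 := checkRangeG_sound parWF r2 pf25336 h25336
  have h25338 := checkRangeG_sound parWF r2 pf25337 h25337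
  have h25339 := checkRangeG_sound parWF r2 pf25338 h25338
  have h25340 := checkRangeG_sound parWF r2 pf25339 h25339
  have h25341 := checkRangeG_sound parWF r2 pf25340 h25340
  have h25342 := checkRangeG_sound parWF r2 pf25341 h25341
  have h25343 := checkRangeG_sound parWF r2 pf25342 h25342
  have h25344 := checkRangeG_sound parWF r2 pf25343 h25343
  have h25345 := checkRangeG_sound parWF r2 pf25344 h25344
  have h25346 := checkRangeG_sound parWF r2 pf25345 h25345
  have h25347 := checkRangeG_sound parWF r2 pf25346 h25346
  have h25348 := checkRangeG_sound parWF r2 pf25347 h25347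
  have h25349 := checkRangeG_sound parWF r2 pf25348 h25348
  have h25350 := checkRangeG_sound parWF r2 pf25349 h25349
  exact h25350

theorem c507 (h25350 : ∀ j, j < 81496 → GoodG.{u} par (db j)) : ∀ j, j < 81657 → GoodG.{u} par (db j) := by
  have h25351 := checkRangeG_sound parWF r2 pf25350 h25350
  have h25352 := checkRangeG_sound parWF r2 pf25351 h25351
  have h25353 := checkRangeG_sound parWF r2 pf25352 h25352
  have h25354 := checkRangeG_sound parWF r2 pf25353 h25353
  have h25355 := checkRangeG_sound parWF r2 pf25354 h25354
  have h25356 := checkRangeG_sound parWF r2 pf25355 h25355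
  have h25357 := checkRangeG_sound parWF r2 pf25356 h25356
  have h25358 := checkRangeG_sound parWF r2 pf25357 h25357
  have h25359 := checkRangeG_sound parWF r2 pf25358 h25358
  have h25360 := checkRangeG_sound parWF r2 pf25359 h25359
  have h25361 := checkRangeG_sound parWF r2 pf25360 h25360
  have h25362 := checkRangeG_sound parWF r2 pf25361 h25361
  have h25363 := checkRangeG_sound parWF r2 pf25362 h25362
  have h25364 := checkRangeG_sound parWF r2 pf25363 h25363
  have h25365 := checkRangeG_sound parWF r2 pf25364 h25364
  have h25366 := checkRangeG_sound parWF r2 pf25365 h25365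
  have h25367 := checkRangeG_sound parWF r2 pf25366 h25366
  have h25368 := checkRangeG_sound parWF r2 pf25367 h25367
  have h25369 := checkRangeG_sound parWF r2 pf25368 h25368
  have h25370 := checkRangeG_sound parWF r2 pf25369 h25369
  have h25371 := checkRangeG_sound parWF r2 pf25370 h25370
  have h25372 := checkRangeG_sound parWF r2 pf25371 h25371
  have h25373 := checkRangeG_sound parWF r2 pf25372 h25372
  have h25374 := checkRangeG_sound parWF r2 pf25373 h25373
  have h25375 := checkRangeG_sound parWF r2 pf25374 h25374
  have h25376 := checkRangeG_sound parWF r2 pf25375 h25375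
  have h25377 := checkRangeG_sound parWF r2 pf25376 h25376
  have h25378 := checkRangeG_sound parWF r2 pf25377 h25377
  have h25379 := checkRangeG_sound parWF r2 pf25378 h25378
  have h25380 := checkRangeG_sound parWF r2 pf25379 h25379
  have h25381 := checkRangeG_sound parWF r2 pf25380 h25380
  have h25382 := checkRangeG_sound parWF r2 pf25381 h25381
  have h25383 := checkRangeG_sound parWF r2 pf25382 h25382
  have h25384 := checkRangeG_sound parWF r2 pf25383 h25383
  have h25385 := checkRangeG_sound parWF r2 pf25384 h25384
  have h25386 := checkRangeG_sound parWF r2 pf25385 h25385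
  have h25387 := checkRangeG_sound parWF r2 pf25386 h25386
  have h25388 := checkRangeG_sound parWF r2 pf25387 h25387
  have h25389 := checkRangeG_sound parWF r2 pf25388 h25388
  have h25390 := checkRangeG_sound parWF r2 pf25389 h25389
  have h25391 := checkRangeG_sound parWF r2 pf25390 h25390
  have h25392 := checkRangeG_sound parWF r2 pf25391 h25391
  have h25393 := checkRangeG_sound parWF r2 pf25392 h25392
  have h25394 := checkRangeG_sound parWF r2 pf25393 h25393
  have h25395 := checkRangeG_sound parWF r2 pf25394 h25394
  have h25396 := checkRangeG_sound parWF r2 pf25395 h25395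
  have h25397 := checkRangeG_sound parWF r2 pf25396 h25396
  have h25398 := checkRangeG_sound parWF r2 pf25397 h25397
  have h25399 := checkRangeG_sound parWF r2 pf25398 h25398
  have h25400 := checkRangeG_sound parWF r2 pf25399 h25399
  exact h25400

theorem c508 (h25400 : ∀ j, j < 81657 → GoodG.{u} par (db j)) : ∀ j, j < 81823 → GoodG.{u} par (db j) := by
  have h25401 := checkRangeG_sound parWF r2 pf25400 h25400
  have h25402 := checkRangeG_sound parWF r2 pf25401 h25401
  have h25403 := checkRangeG_sound parWF r2 pf25402 h25402
  have h25404 := checkRangeG_sound parWF r2 pf25403 h25403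
  have h25405 := checkRangeG_sound parWF r2 pf25404 h25404
  have h25406 := checkRangeG_sound parWF r2 pf25405 h25405
  have h25407 := checkRangeG_sound parWF r2 pf25406 h25406
  have h25408 := checkRangeG_sound parWF r2 pf25407 h25407
  have h25409 := checkRangeG_sound parWF r2 pf25408 h25408
  have h25410 := checkRangeG_sound parWF r2 pf25409 h25409
  have h25411 := checkRangeG_sound parWF r2 pf25410 h25410
  have h25412 := checkRangeG_sound parWF r2 pf25411 h25411
  have h25413 := checkRangeG_sound parWF r2 pf25412 h25412
  have h25414 := checkRangeG_sound parWF r2 pf25413 h25413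
  have h25415 := checkRangeG_sound parWF r2 pf25414 h25414
  have h25416 := checkRangeG_sound parWF r2 pf25415 h25415
  have h25417 := checkRangeG_sound parWF r2 pf25416 h25416
  have h25418 := checkRangeG_sound parWF r2 pf25417 h25417
  have h25419 := checkRangeG_sound parWF r2 pf25418 h25418
  have h25420 := checkRangeG_sound parWF r2 pf25419 h25419
  have h25421 := checkRangeG_sound parWF r2 pf25420 h25420
  have h25422 := checkRangeG_sound parWF r2 pf25421 h25421
  have h25423 := checkRangeG_sound parWF r2 pf25422 h25422
  have h25424 := checkRangeG_sound parWF r2 pf25423 h25423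
  have h25425 := checkRangeG_sound parWF r2 pf25424 h25424
  have h25426 := checkRangeG_sound parWF r2 pf25425 h25425
  have h25427 := checkRangeG_sound parWF r2 pf25426 h25426
  have h25428 := checkRangeG_sound parWF r2 pf25427 h25427
  have h25429 := checkRangeG_sound parWF r2 pf25428 h25428
  have h25430 := checkRangeG_sound parWF r2 pf25429 h25429
  have h25431 := checkRangeG_sound parWF r2 pf25430 h25430
  have h25432 := checkRangeG_sound parWF r2 pf25431 h25431
  have h25433 := checkRangeG_sound parWF r2 pf25432 h25432
  have h25434 := checkRangeG_sound parWF r2 pf25433 h25433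
  have h25435 := checkRangeG_sound parWF r2 pf25434 h25434
  have h25436 := checkRangeG_sound parWF r2 pf25435 h25435
  have h25437 := checkRangeG_sound parWF r2 pf25436 h25436
  have h25438 := checkRangeG_sound parWF r2 pf25437 h25437
  have h25439 := checkRangeG_sound parWF r2 pf25438 h25438
  have h25440 := checkRangeG_sound parWF r2 pf25439 h25439
  have h25441 := checkRangeG_sound parWF r2 pf25440 h25440
  have h25442 := checkRangeG_sound parWF r2 pf25441 h25441
  have h25443 := checkRangeG_sound parWF r2 pf25442 h25442
  have h25444 := checkRangeG_sound parWF r2 pf25443 h25443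
  have h25445 := checkRangeG_sound parWF r2 pf25444 h25444
  have h25446 := checkRangeG_sound parWF r2 pf25445 h25445
  have h25447 := checkRangeG_sound parWF r2 pf25446 h25446
  have h25448 := checkRangeG_sound parWF r2 pf25447 h25447
  have h25449 := checkRangeG_sound parWF r2 pf25448 h25448
  have h25450 := checkRangeG_sound parWF r2 pf25449 h25449
  exact h25450

theorem c509 (h25450 : ∀ j, j < 81823 → GoodG.{u} par (db j)) : ∀ j, j < 81988 → GoodG.{u} par (db j) := by
  have h25451 := checkRangeG_sound parWF r2 pf25450 h25450
  have h25452 := checkRangeG_sound parWF r2 pf25451 h25451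
  have h25453 := checkRangeG_sound parWF r2 pf25452 h25452
  have h25454 := checkRangeG_sound parWF r2 pf25453 h25453
  have h25455 := checkRangeG_sound parWF r2 pf25454 h25454
  have h25456 := checkRangeG_sound parWF r2 pf25455 h25455
  have h25457 := checkRangeG_sound parWF r2 pf25456 h25456
  have h25458 := checkRangeG_sound parWF r2 pf25457 h25457
  have h25459 := checkRangeG_sound parWF r2 pf25458 h25458
  have h25460 := checkRangeG_sound parWF r2 pf25459 h25459
  have h25461 := checkRangeG_sound parWF r2 pf25460 h25460
  have h25462 := checkRangeG_sound parWF r2 pf25461 h25461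
  have h25463 := checkRangeG_sound parWF r2 pf25462 h25462
  have h25464 := checkRangeG_sound parWF r2 pf25463 h25463
  have h25465 := checkRangeG_sound parWF r2 pf25464 h25464
  have h25466 := checkRangeG_sound parWF r2 pf25465 h25465
  have h25467 := checkRangeG_sound parWF r2 pf25466 h25466
  have h25468 := checkRangeG_sound parWF r2 pf25467 h25467
  have h25469 := checkRangeG_sound parWF r2 pf25468 h25468
  have h25470 := checkRangeG_sound parWF r2 pf25469 h25469
  have h25471 := checkRangeG_sound parWF r2 pf25470 h25470
  have h25472 := checkRangeG_sound parWF r2 pf25471 h25471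
  have h25473 := checkRangeG_sound parWF r2 pf25472 h25472
  have h25474 := checkRangeG_sound parWF r2 pf25473 h25473
  have h25475 := checkRangeG_sound parWF r2 pf25474 h25474
  have h25476 := checkRangeG_sound parWF r2 pf25475 h25475
  have h25477 := checkRangeG_sound parWF r2 pf25476 h25476
  have h25478 := checkRangeG_sound parWF r2 pf25477 h25477
  have h25479 := checkRangeG_sound parWF r2 pf25478 h25478
  have h25480 := checkRangeG_sound parWF r2 pf25479 h25479
  have h25481 := checkRangeG_sound parWF r2 pf25480 h25480
  have h25482 := checkRangeG_sound parWF r2 pf25481 h25481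
  have h25483 := checkRangeG_sound parWF r2 pf25482 h25482
  have h25484 := checkRangeG_sound parWF r2 pf25483 h25483
  have h25485 := checkRangeG_sound parWF r2 pf25484 h25484
  have h25486 := checkRangeG_sound parWF r2 pf25485 h25485
  have h25487 := checkRangeG_sound parWF r2 pf25486 h25486
  have h25488 := checkRangeG_sound parWF r2 pf25487 h25487
  have h25489 := checkRangeG_sound parWF r2 pf25488 h25488
  have h25490 := checkRangeG_sound parWF r2 pf25489 h25489
  have h25491 := checkRangeG_sound parWF r2 pf25490 h25490
  have h25492 := checkRangeG_sound parWF r2 pf25491 h25491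
  have h25493 := checkRangeG_sound parWF r2 pf25492 h25492
  have h25494 := checkRangeG_sound parWF r2 pf25493 h25493
  have h25495 := checkRangeG_sound parWF r2 pf25494 h25494
  have h25496 := checkRangeG_sound parWF r2 pf25495 h25495
  have h25497 := checkRangeG_sound parWF r2 pf25496 h25496
  have h25498 := checkRangeG_sound parWF r2 pf25497 h25497
  have h25499 := checkRangeG_sound parWF r2 pf25498 h25498
  have h25500 := checkRangeG_sound parWF r2 pf25499 h25499
  exact h25500

theorem c510 (h25500 : ∀ j, j < 81988 → GoodG.{u} par (db j)) : ∀ j, j < 82161 → GoodG.{u} par (db j) := by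
  have h25501 := checkRangeG_sound parWF r2 pf25500 h25500
  have h25502 := checkRangeG_sound parWF r2 pf25501 h25501
  have h25503 := checkRangeG_sound parWF r2 pf25502 h25502
  have h25504 := checkRangeG_sound parWF r2 pf25503 h25503
  have h25505 := checkRangeG_sound parWF r2 pf25504 h25504
  have h25506 := checkRangeG_sound parWF r2 pf25505 h25505
  have h25507 := checkRangeG_sound parWF r2 pf25506 h25506
  have h25508 := checkRangeG_sound parWF r2 pf25507 h25507
  have h25509 := checkRangeG_sound parWF r2 pf25508 h25508
  have h25510 := checkRangeG_sound parWF r2 pf25509 h25509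
  have h25511 := checkRangeG_sound parWF r2 pf25510 h25510
  have h25512 := checkRangeG_sound parWF r2 pf25511 h25511
  have h25513 := checkRangeG_sound parWF r2 pf25512 h25512
  have h25514 := checkRangeG_sound parWF r2 pf25513 h25513
  have h25515 := checkRangeG_sound parWF r2 pf25514 h25514
  have h25516 := checkRangeG_sound parWF r2 pf25515 h25515
  have h25517 := checkRangeG_sound parWF r2 pf25516 h25516
  have h25518 := checkRangeG_sound parWF r2 pf25517 h25517
  have h25519 := checkRangeG_sound parWF r2 pf25518 h25518
  have h25520 := checkRangeG_sound parWF r2 pf25519 h25519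
  have h25521 := checkRangeG_sound parWF r2 pf25520 h25520
  have h25522 := checkRangeG_sound parWF r2 pf25521 h25521
  have h25523 := checkRangeG_sound parWF r2 pf25522 h25522
  have h25524 := checkRangeG_sound parWF r2 pf25523 h25523
  have h25525 := checkRangeG_sound parWF r2 pf25524 h25524
  have h25526 := checkRangeG_sound parWF r2 pf25525 h25525
  have h25527 := checkRangeG_sound parWF r2 pf25526 h25526
  have h25528 := checkRangeG_sound parWF r2 pf25527 h25527
  have h25529 := checkRangeG_sound parWF r2 pf25528 h25528
  have h25530 := checkRangeG_sound parWF r2 pf25529 h25529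
  have h25531 := checkRangeG_sound parWF r2 pf25530 h25530
  have h25532 := checkRangeG_sound parWF r2 pf25531 h25531
  have h25533 := checkRangeG_sound parWF r2 pf25532 h25532
  have h25534 := checkRangeG_sound parWF r2 pf25533 h25533
  have h25535 := checkRangeG_sound parWF r2 pf25534 h25534
  have h25536 := checkRangeG_sound parWF r2 pf25535 h25535
  have h25537 := checkRangeG_sound parWF r2 pf25536 h25536
  have h25538 := checkRangeG_sound parWF r2 pf25537 h25537
  have h25539 := checkRangeG_sound parWF r2 pf25538 h25538
  have h25540 := checkRangeG_sound parWF r2 pf25539 h25539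
  have h25541 := checkRangeG_sound parWF r2 pf25540 h25540
  have h25542 := checkRangeG_sound parWF r2 pf25541 h25541
  have h25543 := checkRangeG_sound parWF r2 pf25542 h25542
  have h25544 := checkRangeG_sound parWF r2 pf25543 h25543
  have h25545 := checkRangeG_sound parWF r2 pf25544 h25544
  have h25546 := checkRangeG_sound parWF r2 pf25545 h25545
  have h25547 := checkRangeG_sound parWF r2 pf25546 h25546
  have h25548 := checkRangeG_sound parWF r2 pf25547 h25547
  have h25549 := checkRangeG_sound parWF r2 pf25548 h25548
  have h25550 := checkRangeG_sound parWF r2 pf25549 h25549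
  exact h25550

theorem c511 (h25550 : ∀ j, j < 82161 → GoodG.{u} par (db j)) : ∀ j, j < 82347 → GoodG.{u} par (db j) := by
  have h25551 := checkRangeG_sound parWF r2 pf25550 h25550
  have h25552 := checkRangeG_sound parWF r2 pf25551 h25551
  have h25553 := checkRangeG_sound parWF r2 pf25552 h25552
  have h25554 := checkRangeG_sound parWF r2 pf25553 h25553
  have h25555 := checkRangeG_sound parWF r2 pf25554 h25554
  have h25556 := checkRangeG_sound parWF r2 pf25555 h25555
  have h25557 := checkRangeG_sound parWF r2 pf25556 h25556
  have h25558 := checkRangeG_sound parWF r2 pf25557 h25557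
  have h25559 := checkRangeG_sound parWF r2 pf25558 h25558
  have h25560 := checkRangeG_sound parWF r2 pf25559 h25559
  have h25561 := checkRangeG_sound parWF r2 pf25560 h25560
  have h25562 := checkRangeG_sound parWF r2 pf25561 h25561
  have h25563 := checkRangeG_sound parWF r2 pf25562 h25562
  have h25564 := checkRangeG_sound parWF r2 pf25563 h25563
  have h25565 := checkRangeG_sound parWF r2 pf25564 h25564
  have h25566 := checkRangeG_sound parWF r2 pf25565 h25565
  have h25567 := checkRangeG_sound parWF r2 pf25566 h25566
  have h25568 := checkRangeG_sound parWF r2 pf25567 h25567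
  have h25569 := checkRangeG_sound parWF r2 pf25568 h25568
  have h25570 := checkRangeG_sound parWF r2 pf25569 h25569
  have h25571 := checkRangeG_sound parWF r2 pf25570 h25570
  have h25572 := checkRangeG_sound parWF r2 pf25571 h25571
  have h25573 := checkRangeG_sound parWF r2 pf25572 h25572
  have h25574 := checkRangeG_sound parWF r2 pf25573 h25573
  have h25575 := checkRangeG_sound parWF r2 pf25574 h25574
  have h25576 := checkRangeG_sound parWF r2 pf25575 h25575
  have h25577 := checkRangeG_sound parWF r2 pf25576 h25576
  have h25578 := checkRangeG_sound parWF r2 pf25577 h25577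
  have h25579 := checkRangeG_sound parWF r2 pf25578 h25578
  have h25580 := checkRangeG_sound parWF r2 pf25579 h25579
  have h25581 := checkRangeG_sound parWF r2 pf25580 h25580
  have h25582 := checkRangeG_sound parWF r2 pf25581 h25581
  have h25583 := checkRangeG_sound parWF r2 pf25582 h25582
  have h25584 := checkRangeG_sound parWF r2 pf25583 h25583
  have h25585 := checkRangeG_sound parWF r2 pf25584 h25584
  have h25586 := checkRangeG_sound parWF r2 pf25585 h25585
  have h25587 := checkRangeG_sound parWF r2 pf25586 h25586
  have h25588 := checkRangeG_sound parWF r2 pf25587 h25587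
  have h25589 := checkRangeG_sound parWF r2 pf25588 h25588
  have h25590 := checkRangeG_sound parWF r2 pf25589 h25589
  have h25591 := checkRangeG_sound parWF r2 pf25590 h25590
  have h25592 := checkRangeG_sound parWF r2 pf25591 h25591
  have h25593 := checkRangeG_sound parWF r2 pf25592 h25592
  have h25594 := checkRangeG_sound parWF r2 pf25593 h25593
  have h25595 := checkRangeG_sound parWF r2 pf25594 h25594
  have h25596 := checkRangeG_sound parWF r2 pf25595 h25595
  have h25597 := checkRangeG_sound parWF r2 pf25596 h25596
  have h25598 := checkRangeG_sound parWF r2 pf25597 h25597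
  have h25599 := checkRangeG_sound parWF r2 pf25598 h25598
  have h25600 := checkRangeG_sound parWF r2 pf25599 h25599
  exact h25600

theorem c512 (h25600 : ∀ j, j < 82347 → GoodG.{u} par (db j)) : ∀ j, j < 82539 → GoodG.{u} par (db j) := by
  have h25601 := checkRangeG_sound parWF r2 pf25600 h25600
  have h25602 := checkRangeG_sound parWF r2 pf25601 h25601
  have h25603 := checkRangeG_sound parWF r2 pf25602 h25602
  have h25604 := checkRangeG_sound parWF r2 pf25603 h25603
  have h25605 := checkRangeG_sound parWF r2 pf25604 h25604
  have h25606 := checkRangeG_sound parWF r2 pf25605 h25605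
  have h25607 := checkRangeG_sound parWF r2 pf25606 h25606
  have h25608 := checkRangeG_sound parWF r2 pf25607 h25607
  have h25609 := checkRangeG_sound parWF r2 pf25608 h25608
  have h25610 := checkRangeG_sound parWF r2 pf25609 h25609
  have h25611 := checkRangeG_sound parWF r2 pf25610 h25610
  have h25612 := checkRangeG_sound parWF r2 pf25611 h25611
  have h25613 := checkRangeG_sound parWF r2 pf25612 h25612
  have h25614 := checkRangeG_sound parWF r2 pf25613 h25613
  have h25615 := checkRangeG_sound parWF r2 pf25614 h25614
  have h25616 := checkRangeG_sound parWF r2 pf25615 h25615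
  have h25617 := checkRangeG_sound parWF r2 pf25616 h25616
  have h25618 := checkRangeG_sound parWF r2 pf25617 h25617
  have h25619 := checkRangeG_sound parWF r2 pf25618 h25618
  have h25620 := checkRangeG_sound parWF r2 pf25619 h25619
  have h25621 := checkRangeG_sound parWF r2 pf25620 h25620
  have h25622 := checkRangeG_sound parWF r2 pf25621 h25621
  have h25623 := checkRangeG_sound parWF r2 pf25622 h25622
  have h25624 := checkRangeG_sound parWF r2 pf25623 h25623
  have h25625 := checkRangeG_sound parWF r2 pf25624 h25624
  have h25626 := checkRangeG_sound parWF r2 pf25625 h25625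
  have h25627 := checkRangeG_sound parWF r2 pf25626 h25626
  have h25628 := checkRangeG_sound parWF r2 pf25627 h25627
  have h25629 := checkRangeG_sound parWF r2 pf25628 h25628
  have h25630 := checkRangeG_sound parWF r2 pf25629 h25629
  have h25631 := checkRangeG_sound parWF r2 pf25630 h25630
  have h25632 := checkRangeG_sound parWF r2 pf25631 h25631
  have h25633 := checkRangeG_sound parWF r2 pf25632 h25632
  have h25634 := checkRangeG_sound parWF r2 pf25633 h25633
  have h25635 := checkRangeG_sound parWF r2 pf25634 h25634
  have h25636 := checkRangeG_sound parWF r2 pf25635 h25635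
  have h25637 := checkRangeG_sound parWF r2 pf25636 h25636
  have h25638 := checkRangeG_sound parWF r2 pf25637 h25637
  have h25639 := checkRangeG_sound parWF r2 pf25638 h25638
  have h25640 := checkRangeG_sound parWF r2 pf25639 h25639
  have h25641 := checkRangeG_sound parWF r2 pf25640 h25640
  have h25642 := checkRangeG_sound parWF r2 pf25641 h25641
  have h25643 := checkRangeG_sound parWF r2 pf25642 h25642
  have h25644 := checkRangeG_sound parWF r2 pf25643 h25643
  have h25645 := checkRangeG_sound parWF r2 pf25644 h25644
  have h25646 := checkRangeG_sound parWF r2 pf25645 h25645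
  have h25647 := checkRangeG_sound parWF r2 pf25646 h25646
  have h25648 := checkRangeG_sound parWF r2 pf25647 h25647
  have h25649 := checkRangeG_sound parWF r2 pf25648 h25648
  have h25650 := checkRangeG_sound parWF r2 pf25649 h25649
  exact h25650

theorem c513 (h25650 : ∀ j, j < 82539 → GoodG.{u} par (db j)) : ∀ j, j < 82712 → GoodG.{u} par (db j) := by
  have h25651 := checkRangeG_sound parWF r2 pf25650 h25650
  have h25652 := checkRangeG_sound parWF r2 pf25651 h25651
  have h25653 := checkRangeG_sound parWF r2 pf25652 h25652
  have h25654 := checkRangeG_sound parWF r2 pf25653 h25653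
  have h25655 := checkRangeG_sound parWF r2 pf25654 h25654
  have h25656 := checkRangeG_sound parWF r2 pf25655 h25655
  have h25657 := checkRangeG_sound parWF r2 pf25656 h25656
  have h25658 := checkRangeG_sound parWF r2 pf25657 h25657
  have h25659 := checkRangeG_sound parWF r2 pf25658 h25658
  have h25660 := checkRangeG_sound parWF r2 pf25659 h25659
  have h25661 := checkRangeG_sound parWF r2 pf25660 h25660
  have h25662 := checkRangeG_sound parWF r2 pf25661 h25661
  have h25663 := checkRangeG_sound parWF r2 pf25662 h25662
  have h25664 := checkRangeG_sound parWF r2 pf25663 h25663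
  have h25665 := checkRangeG_sound parWF r2 pf25664 h25664
  have h25666 := checkRangeG_sound parWF r2 pf25665 h25665
  have h25667 := checkRangeG_sound parWF r2 pf25666 h25666
  have h25668 := checkRangeG_sound parWF r2 pf25667 h25667
  have h25669 := checkRangeG_sound parWF r2 pf25668 h25668
  have h25670 := checkRangeG_sound parWF r2 pf25669 h25669
  have h25671 := checkRangeG_sound parWF r2 pf25670 h25670
  have h25672 := checkRangeG_sound parWF r2 pf25671 h25671
  have h25673 := checkRangeG_sound parWF r2 pf25672 h25672
  have h25674 := checkRangeG_sound parWF r2 pf25673 h25673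
  have h25675 := checkRangeG_sound parWF r2 pf25674 h25674
  have h25676 := checkRangeG_sound parWF r2 pf25675 h25675
  have h25677 := checkRangeG_sound parWF r2 pf25676 h25676
  have h25678 := checkRangeG_sound parWF r2 pf25677 h25677
  have h25679 := checkRangeG_sound parWF r2 pf25678 h25678
  have h25680 := checkRangeG_sound parWF r2 pf25679 h25679
  have h25681 := checkRangeG_sound parWF r2 pf25680 h25680
  have h25682 := checkRangeG_sound parWF r2 pf25681 h25681
  have h25683 := checkRangeG_sound parWF r2 pf25682 h25682
  have h25684 := checkRangeG_sound parWF r2 pf25683 h25683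
  have h25685 := checkRangeG_sound parWF r2 pf25684 h25684
  have h25686 := checkRangeG_sound parWF r2 pf25685 h25685
  have h25687 := checkRangeG_sound parWF r2 pf25686 h25686
  have h25688 := checkRangeG_sound parWF r2 pf25687 h25687
  have h25689 := checkRangeG_sound parWF r2 pf25688 h25688
  have h25690 := checkRangeG_sound parWF r2 pf25689 h25689
  have h25691 := checkRangeG_sound parWF r2 pf25690 h25690
  have h25692 := checkRangeG_sound parWF r2 pf25691 h25691
  have h25693 := checkRangeG_sound parWF r2 pf25692 h25692
  have h25694 := checkRangeG_sound parWF r2 pf25693 h25693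
  have h25695 := checkRangeG_sound parWF r2 pf25694 h25694
  have h25696 := checkRangeG_sound parWF r2 pf25695 h25695
  have h25697 := checkRangeG_sound parWF r2 pf25696 h25696
  have h25698 := checkRangeG_sound parWF r2 pf25697 h25697
  have h25699 := checkRangeG_sound parWF r2 pf25698 h25698
  have h25700 := checkRangeG_sound parWF r2 pf25699 h25699
  exact h25700

theorem c514 (h25700 : ∀ j, j < 82712 → GoodG.{u} par (db j)) : ∀ j, j < 82872 → GoodG.{u} par (db j) := by
  have h25701 := checkRangeG_sound parWF r2 pf25700 h25700
  have h25702 := checkRangeG_sound parWF r2 pf25701 h25701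
  have h25703 := checkRangeG_sound parWF r2 pf25702 h25702
  have h25704 := checkRangeG_sound parWF r2 pf25703 h25703
  have h25705 := checkRangeG_sound parWF r2 pf25704 h25704
  have h25706 := checkRangeG_sound parWF r2 pf25705 h25705
  have h25707 := checkRangeG_sound parWF r2 pf25706 h25706
  have h25708 := checkRangeG_sound parWF r2 pf25707 h25707
  have h25709 := checkRangeG_sound parWF r2 pf25708 h25708
  have h25710 := checkRangeG_sound parWF r2 pf25709 h25709
  have h25711 := checkRangeG_sound parWF r2 pf25710 h25710
  have h25712 := checkRangeG_sound parWF r2 pf25711 h25711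
  have h25713 := checkRangeG_sound parWF r2 pf25712 h25712
  have h25714 := checkRangeG_sound parWF r2 pf25713 h25713
  have h25715 := checkRangeG_sound parWF r2 pf25714 h25714
  have h25716 := checkRangeG_sound parWF r2 pf25715 h25715
  have h25717 := checkRangeG_sound parWF r2 pf25716 h25716
  have h25718 := checkRangeG_sound parWF r2 pf25717 h25717
  have h25719 := checkRangeG_sound parWF r2 pf25718 h25718
  have h25720 := checkRangeG_sound parWF r2 pf25719 h25719
  have h25721 := checkRangeG_sound parWF r2 pf25720 h25720
  have h25722 := checkRangeG_sound parWF r2 pf25721 h25721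
  have h25723 := checkRangeG_sound parWF r2 pf25722 h25722
  have h25724 := checkRangeG_sound parWF r2 pf25723 h25723
  have h25725 := checkRangeG_sound parWF r2 pf25724 h25724
  have h25726 := checkRangeG_sound parWF r2 pf25725 h25725
  have h25727 := checkRangeG_sound parWF r2 pf25726 h25726
  have h25728 := checkRangeG_sound parWF r2 pf25727 h25727
  have h25729 := checkRangeG_sound parWF r2 pf25728 h25728
  have h25730 := checkRangeG_sound parWF r2 pf25729 h25729
  have h25731 := checkRangeG_sound parWF r2 pf25730 h25730
  have h25732 := checkRangeG_sound parWF r2 pf25731 h25731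
  have h25733 := checkRangeG_sound parWF r2 pf25732 h25732
  have h25734 := checkRangeG_sound parWF r2 pf25733 h25733
  have h25735 := checkRangeG_sound parWF r2 pf25734 h25734
  have h25736 := checkRangeG_sound parWF r2 pf25735 h25735
  have h25737 := checkRangeG_sound parWF r2 pf25736 h25736
  have h25738 := checkRangeG_sound parWF r2 pf25737 h25737
  have h25739 := checkRangeG_sound parWF r2 pf25738 h25738
  have h25740 := checkRangeG_sound parWF r2 pf25739 h25739
  have h25741 := checkRangeG_sound parWF r2 pf25740 h25740
  have h25742 := checkRangeG_sound parWF r2 pf25741 h25741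
  have h25743 := checkRangeG_sound parWF r2 pf25742 h25742
  have h25744 := checkRangeG_sound parWF r2 pf25743 h25743
  have h25745 := checkRangeG_sound parWF r2 pf25744 h25744
  have h25746 := checkRangeG_sound parWF r2 pf25745 h25745
  have h25747 := checkRangeG_sound parWF r2 pf25746 h25746
  have h25748 := checkRangeG_sound parWF r2 pf25747 h25747
  have h25749 := checkRangeG_sound parWF r2 pf25748 h25748
  have h25750 := checkRangeG_sound parWF r2 pf25749 h25749
  exact h25750

theorem c515 (h25750 : ∀ j, j < 82872 → GoodG.{u} par (db j)) : ∀ j, j < 83040 → GoodG.{u} par (db j) := by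
  have h25751 := checkRangeG_sound parWF r2 pf25750 h25750
  have h25752 := checkRangeG_sound parWF r2 pf25751 h25751
  have h25753 := checkRangeG_sound parWF r2 pf25752 h25752
  have h25754 := checkRangeG_sound parWF r2 pf25753 h25753
  have h25755 := checkRangeG_sound parWF r2 pf25754 h25754
  have h25756 := checkRangeG_sound parWF r2 pf25755 h25755
  have h25757 := checkRangeG_sound parWF r2 pf25756 h25756
  have h25758 := checkRangeG_sound parWF r2 pf25757 h25757
  have h25759 := checkRangeG_sound parWF r2 pf25758 h25758
  have h25760 := checkRangeG_sound parWF r2 pf25759 h25759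
  have h25761 := checkRangeG_sound parWF r2 pf25760 h25760
  have h25762 := checkRangeG_sound parWF r2 pf25761 h25761
  have h25763 := checkRangeG_sound parWF r2 pf25762 h25762
  have h25764 := checkRangeG_sound parWF r2 pf25763 h25763
  have h25765 := checkRangeG_sound parWF r2 pf25764 h25764
  have h25766 := checkRangeG_sound parWF r2 pf25765 h25765
  have h25767 := checkRangeG_sound parWF r2 pf25766 h25766
  have h25768 := checkRangeG_sound parWF r2 pf25767 h25767
  have h25769 := checkRangeG_sound parWF r2 pf25768 h25768
  have h25770 := checkRangeG_sound parWF r2 pf25769 h25769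
  have h25771 := checkRangeG_sound parWF r2 pf25770 h25770
  have h25772 := checkRangeG_sound parWF r2 pf25771 h25771
  have h25773 := checkRangeG_sound parWF r2 pf25772 h25772
  have h25774 := checkRangeG_sound parWF r2 pf25773 h25773
  have h25775 := checkRangeG_sound parWF r2 pf25774 h25774
  have h25776 := checkRangeG_sound parWF r2 pf25775 h25775
  have h25777 := checkRangeG_sound parWF r2 pf25776 h25776
  have h25778 := checkRangeG_sound parWF r2 pf25777 h25777
  have h25779 := checkRangeG_sound parWF r2 pf25778 h25778
  have h25780 := checkRangeG_sound parWF r2 pf25779 h25779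
  have h25781 := checkRangeG_sound parWF r2 pf25780 h25780
  have h25782 := checkRangeG_sound parWF r2 pf25781 h25781
  have h25783 := checkRangeG_sound parWF r2 pf25782 h25782
  have h25784 := checkRangeG_sound parWF r2 pf25783 h25783
  have h25785 := checkRangeG_sound parWF r2 pf25784 h25784
  have h25786 := checkRangeG_sound parWF r2 pf25785 h25785
  have h25787 := checkRangeG_sound parWF r2 pf25786 h25786
  have h25788 := checkRangeG_sound parWF r2 pf25787 h25787
  have h25789 := checkRangeG_sound parWF r2 pf25788 h25788
  have h25790 := checkRangeG_sound parWF r2 pf25789 h25789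
  have h25791 := checkRangeG_sound parWF r2 pf25790 h25790
  have h25792 := checkRangeG_sound parWF r2 pf25791 h25791
  have h25793 := checkRangeG_sound parWF r2 pf25792 h25792
  have h25794 := checkRangeG_sound parWF r2 pf25793 h25793
  have h25795 := checkRangeG_sound parWF r2 pf25794 h25794
  have h25796 := checkRangeG_sound parWF r2 pf25795 h25795
  have h25797 := checkRangeG_sound parWF r2 pf25796 h25796
  have h25798 := checkRangeG_sound parWF r2 pf25797 h25797
  have h25799 := checkRangeG_sound parWF r2 pf25798 h25798
  have h25800 := checkRangeG_sound parWF r2 pf25799 h25799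
  exact h25800


end Vale.Agent.P045g.C61
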