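import Vale.Agent.P045g.C61.WF
import Vale.Agent.P045g.C61.Pf430
import Vale.Agent.P045g.C61.Pf431
import Vale.Agent.P045g.C61.Pf432
import Vale.Agent.P045g.C61.Pf433
import Vale.Agent.P045g.C61.Pf434
import Vale.Agent.P045g.C61.Pf435
import Vale.Agent.P045g.C61.Pf436
import Vale.Agent.P045g.C61.Pf437
import Vale.Agent.P045g.C61.Pf438
import Vale.Agent.P045g.C61.Pf439

namespace Vale.Agent.P045g.C61

open Vale.Agent.P045b Vale.Agent.P045g

universe u

theorem c516 (h25800 : ∀ j, j < 83040 → GoodG.{u} par (db j)) : ∀ j, j < 83202 → GoodG.{u} par (db j) := by
  have h25801 := checkRangeG_sound parWF r2 pf25800 h25800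
  have h25802 := checkRangeG_sound parWF r2 pf25801 h25801
  have h25803 := checkRangeG_sound parWF r2 pf25802 h25802
  have h25804 := checkRangeG_sound parWF r2 pf25803 h25803
  have h25805 := checkRangeG_sound parWF r2 pf25804 h25804
  have h25806 := checkRangeG_sound parWF r2 pf25805 h25805
  have h25807 := checkRangeG_sound parWF r2 pf25806 h25806
  have h25808 := checkRangeG_sound parWF r2 pf25807 h25807
  have h25809 := checkRangeG_sound parWF r2 pf25808 h25808
  have h25810 := checkRangeG_sound parWF r2 pf25809 h25809
  have h25811 := checkRangeG_sound parWF r2 pf25810 h25810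
  have h25812 := checkRangeG_sound parWF r2 pf25811 h25811
  have h25813 := checkRangeG_sound parWF r2 pf25812 h25812
  have h25814 := checkRangeG_sound parWF r2 pf25813 h25813
  have h25815 := checkRangeG_sound parWF r2 pf25814 h25814
  have h25816 := checkRangeG_sound parWF r2 pf25815 h25815
  have h25817 := checkRangeG_sound parWF r2 pf25816 h25816
  have h25818 := checkRangeG_sound parWF r2 pf25817 h25817
  have h25819 := checkRangeG_sound parWF r2 pf25818 h25818
  have h25820 := checkRangeG_sound parWF r2 pf25819 h25819
  have h25821 := checkRangeG_sound parWF r2 pf25820 h25820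
  have h25822 := checkRangeG_sound parWF r2 pf25821 h25821
  have h25823 := checkRangeG_sound parWF r2 pf25822 h25822
  have h25824 := checkRangeG_sound parWF r2 pf25823 h25823
  have h25825 := checkRangeG_sound parWF r2 pf25824 h25824
  have h25826 := checkRangeG_sound parWF r2 pf25825 h25825
  have h25827 := checkRangeG_sound parWF r2 pf25826 h25826
  have h25828 := checkRangeG_sound parWF r2 pf25827 h25827
  have h25829 := checkRangeG_sound parWF r2 pf25828 h25828
  have h25830 := checkRangeG_sound parWF r2 pf25829 h25829
  have h25831 := checkRangeG_sound parWF r2 pf25830 h25830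
  have h25832 := checkRangeG_sound parWF r2 pf25831 h25831
  have h25833 := checkRangeG_sound parWF r2 pf25832 h25832
  have h25834 := checkRangeG_sound parWF r2 pf25833 h25833
  have h25835 := checkRangeG_sound parWF r2 pf25834 h25834
  have h25836 := checkRangeG_sound parWF r2 pf25835 h25835
  have h25837 := checkRangeG_sound parWF r2 pf25836 h25836
  have h25838 := checkRangeG_sound parWF r2 pf25837 h25837
  have h25839 := checkRangeG_sound parWF r2 pf25838 h25838
  have h25840 := checkRangeG_sound parWF r2 pf25839 h25839
  have h25841 := checkRangeG_sound parWF r2 pf25840 h25840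
  have h25842 := checkRangeG_sound parWF r2 pf25841 h25841
  have h25843 := checkRangeG_sound parWF r2 pf25842 h25842
  have h25844 := checkRangeG_sound parWF r2 pf25843 h25843
  have h25845 := checkRangeG_sound parWF r2 pf25844 h25844
  have h25846 := checkRangeG_sound parWF r2 pf25845 h25845
  have h25847 := checkRangeG_sound parWF r2 pf25846 h25846
  have h25848 := checkRangeG_sound parWF r2 pf25847 h25847
  have h25849 := checkRangeG_sound parWF r2 pf25848 h25848
  have h25850 := checkRangeG_sound parWF r2 pf25849 h25849
  exact h25850

theorem c517 (h25850 : ∀ j, j < 83202 → GoodG.{u} par (db j)) : ∀ j, j < 83375 → GoodG.{u} par (db j) := by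
  have h25851 := checkRangeG_sound parWF r2 pf25850 h25850
  have h25852 := checkRangeG_sound parWF r2 pf25851 h25851
  have h25853 := checkRangeG_sound parWF r2 pf25852 h25852
  have h25854 := checkRangeG_sound parWF r2 pf25853 h25853
  have h25855 := checkRangeG_sound parWF r2 pf25854 h25854
  have h25856 := checkRangeG_sound parWF r2 pf25855 h25855
  have h25857 := checkRangeG_sound parWF r2 pf25856 h25856
  have h25858 := checkRangeG_sound parWF r2 pf25857 h25857
  have h25859 := checkRangeG_sound parWF r2 pf25858 h25858
  have h25860 := checkRangeG_sound parWF r2 pf25859 h25859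
  have h25861 := checkRangeG_sound parWF r2 pf25860 h25860
  have h25862 := checkRangeG_sound parWF r2 pf25861 h25861
  have h25863 := checkRangeG_sound parWF r2 pf25862 h25862
  have h25864 := checkRangeG_sound parWF r2 pf25863 h25863
  have h25865 := checkRangeG_sound parWF r2 pf25864 h25864
  have h25866 := checkRangeG_sound parWF r2 pf25865 h25865
  have h25867 := checkRangeG_sound parWF r2 pf25866 h25866
  have h25868 := checkRangeG_sound parWF r2 pf25867 h25867
  have h25869 := checkRangeG_sound parWF r2 pf25868 h25868
  have h25870 := checkRangeG_sound parWF r2 pf25869 h25869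
  have h25871 := checkRangeG_sound parWF r2 pf25870 h25870
  have h25872 := checkRangeG_sound parWF r2 pf25871 h25871
  have h25873 := checkRangeG_sound parWF r2 pf25872 h25872
  have h25874 := checkRangeG_sound parWF r2 pf25873 h25873
  have h25875 := checkRangeG_sound parWF r2 pf25874 h25874
  have h25876 := checkRangeG_sound parWF r2 pf25875 h25875
  have h25877 := checkRangeG_sound parWF r2 pf25876 h25876
  have h25878 := checkRangeG_sound parWF r2 pf25877 h25877
  have h25879 := checkRangeG_sound parWF r2 pf25878 h25878
  have h25880 := checkRangeG_sound parWF r2 pf25879 h25879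
  have h25881 := checkRangeG_sound parWF r2 pf25880 h25880
  have h25882 := checkRangeG_sound parWF r2 pf25881 h25881
  have h25883 := checkRangeG_sound parWF r2 pf25882 h25882
  have h25884 := checkRangeG_sound parWF r2 pf25883 h25883
  have h25885 := checkRangeG_sound parWF r2 pf25884 h25884
  have h25886 := checkRangeG_sound parWF r2 pf25885 h25885
  have h25887 := checkRangeG_sound parWF r2 pf25886 h25886
  have h25888 := checkRangeG_sound parWF r2 pf25887 h25887
  have h25889 := checkRangeG_sound parWF r2 pf25888 h25888
  have h25890 := checkRangeG_sound parWF r2 pf25889 h25889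
  have h25891 := checkRangeG_sound parWF r2 pf25890 h25890
  have h25892 := checkRangeG_sound parWF r2 pf25891 h25891
  have h25893 := checkRangeG_sound parWF r2 pf25892 h25892
  have h25894 := checkRangeG_sound parWF r2 pf25893 h25893
  have h25895 := checkRangeG_sound parWF r2 pf25894 h25894
  have h25896 := checkRangeG_sound parWF r2 pf25895 h25895
  have h25897 := checkRangeG_sound parWF r2 pf25896 h25896
  have h25898 := checkRangeG_sound parWF r2 pf25897 h25897
  have h25899 := checkRangeG_sound parWF r2 pf25898 h25898
  have h25900 := checkRangeG_sound parWF r2 pf25899 h25899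
  exact h25900

theorem c518 (h25900 : ∀ j, j < 83375 → GoodG.{u} par (db j)) : ∀ j, j < 83563 → GoodG.{u} par (db j) := by
  have h25901 := checkRangeG_sound parWF r2 pf25900 h25900
  have h25902 := checkRangeG_sound parWF r2 pf25901 h25901
  have h25903 := checkRangeG_sound parWF r2 pf25902 h25902
  have h25904 := checkRangeG_sound parWF r2 pf25903 h25903
  have h25905 := checkRangeG_sound parWF r2 pf25904 h25904
  have h25906 := checkRangeG_sound parWF r2 pf25905 h25905
  have h25907 := checkRangeG_sound parWF r2 pf25906 h25906
  have h25908 := checkRangeG_sound parWF r2 pf25907 h25907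
  have h25909 := checkRangeG_sound parWF r2 pf25908 h25908
  have h25910 := checkRangeG_sound parWF r2 pf25909 h25909
  have h25911 := checkRangeG_sound parWF r2 pf25910 h25910
  have h25912 := checkRangeG_sound parWF r2 pf25911 h25911
  have h25913 := checkRangeG_sound parWF r2 pf25912 h25912
  have h25914 := checkRangeG_sound parWF r2 pf25913 h25913
  have h25915 := checkRangeG_sound parWF r2 pf25914 h25914
  have h25916 := checkRangeG_sound parWF r2 pf25915 h25915
  have h25917 := checkRangeG_sound parWF r2 pf25916 h25916
  have h25918 := checkRangeG_sound parWF r2 pf25917 h25917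
  have h25919 := checkRangeG_sound parWF r2 pf25918 h25918
  have h25920 := checkRangeG_sound parWF r2 pf25919 h25919
  have h25921 := checkRangeG_sound parWF r2 pf25920 h25920
  have h25922 := checkRangeG_sound parWF r2 pf25921 h25921
  have h25923 := checkRangeG_sound parWF r2 pf25922 h25922
  have h25924 := checkRangeG_sound parWF r2 pf25923 h25923
  have h25925 := checkRangeG_sound parWF r2 pf25924 h25924
  have h25926 := checkRangeG_sound parWF r2 pf25925 h25925
  have h25927 := checkRangeG_sound parWF r2 pf25926 h25926
  have h25928 := checkRangeG_sound parWF r2 pf25927 h25927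
  have h25929 := checkRangeG_sound parWF r2 pf25928 h25928
  have h25930 := checkRangeG_sound parWF r2 pf25929 h25929
  have h25931 := checkRangeG_sound parWF r2 pf25930 h25930
  have h25932 := checkRangeG_sound parWF r2 pf25931 h25931
  have h25933 := checkRangeG_sound parWF r2 pf25932 h25932
  have h25934 := checkRangeG_sound parWF r2 pf25933 h25933
  have h25935 := checkRangeG_sound parWF r2 pf25934 h25934
  have h25936 := checkRangeG_sound parWF r2 pf25935 h25935
  have h25937 := checkRangeG_sound parWF r2 pf25936 h25936
  have h25938 := checkRangeG_sound parWF r2 pf25937 h25937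
  have h25939 := checkRangeG_sound parWF r2 pf25938 h25938
  have h25940 := checkRangeG_sound parWF r2 pf25939 h25939
  have h25941 := checkRangeG_sound parWF r2 pf25940 h25940
  have h25942 := checkRangeG_sound parWF r2 pf25941 h25941
  have h25943 := checkRangeG_sound parWF r2 pf25942 h25942
  have h25944 := checkRangeG_sound parWF r2 pf25943 h25943
  have h25945 := checkRangeG_sound parWF r2 pf25944 h25944
  have h25946 := checkRangeG_sound parWF r2 pf25945 h25945
  have h25947 := checkRangeG_sound parWF r2 pf25946 h25946
  have h25948 := checkRangeG_sound parWF r2 pf25947 h25947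
  have h25949 := checkRangeG_sound parWF r2 pf25948 h25948
  have h25950 := checkRangeG_sound parWF r2 pf25949 h25949
  exact h25950

theorem c519 (h25950 : ∀ j, j < 83563 → GoodG.{u} par (db j)) : ∀ j, j < 83778 → GoodG.{u} par (db j) := by
  have h25951 := checkRangeG_sound parWF r2 pf25950 h25950
  have h25952 := checkRangeG_sound parWF r2 pf25951 h25951
  have h25953 := checkRangeG_sound parWF r2 pf25952 h25952
  have h25954 := checkRangeG_sound parWF r2 pf25953 h25953
  have h25955 := checkRangeG_sound parWF r2 pf25954 h25954
  have h25956 := checkRangeG_sound parWF r2 pf25955 h25955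
  have h25957 := checkRangeG_sound parWF r2 pf25956 h25956
  have h25958 := checkRangeG_sound parWF r2 pf25957 h25957
  have h25959 := checkRangeG_sound parWF r2 pf25958 h25958
  have h25960 := checkRangeG_sound parWF r2 pf25959 h25959
  have h25961 := checkRangeG_sound parWF r2 pf25960 h25960
  have h25962 := checkRangeG_sound parWF r2 pf25961 h25961
  have h25963 := checkRangeG_sound parWF r2 pf25962 h25962
  have h25964 := checkRangeG_sound parWF r2 pf25963 h25963
  have h25965 := checkRangeG_sound parWF r2 pf25964 h25964
  have h25966 := checkRangeG_sound parWF r2 pf25965 h25965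
  have h25967 := checkRangeG_sound parWF r2 pf25966 h25966
  have h25968 := checkRangeG_sound parWF r2 pf25967 h25967
  have h25969 := checkRangeG_sound parWF r2 pf25968 h25968
  have h25970 := checkRangeG_sound parWF r2 pf25969 h25969
  have h25971 := checkRangeG_sound parWF r2 pf25970 h25970
  have h25972 := checkRangeG_sound parWF r2 pf25971 h25971
  have h25973 := checkRangeG_sound parWF r2 pf25972 h25972
  have h25974 := checkRangeG_sound parWF r2 pf25973 h25973
  have h25975 := checkRangeG_sound parWF r2 pf25974 h25974
  have h25976 := checkRangeG_sound parWF r2 pf25975 h25975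
  have h25977 := checkRangeG_sound parWF r2 pf25976 h25976
  have h25978 := checkRangeG_sound parWF r2 pf25977 h25977
  have h25979 := checkRangeG_sound parWF r2 pf25978 h25978
  have h25980 := checkRangeG_sound parWF r2 pf25979 h25979
  have h25981 := checkRangeG_sound parWF r2 pf25980 h25980
  have h25982 := checkRangeG_sound parWF r2 pf25981 h25981
  have h25983 := checkRangeG_sound parWF r2 pf25982 h25982
  have h25984 := checkRangeG_sound parWF r2 pf25983 h25983
  have h25985 := checkRangeG_sound parWF r2 pf25984 h25984
  have h25986 := checkRangeG_sound parWF r2 pf25985 h25985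
  have h25987 := checkRangeG_sound parWF r2 pf25986 h25986
  have h25988 := checkRangeG_sound parWF r2 pf25987 h25987
  have h25989 := checkRangeG_sound parWF r2 pf25988 h25988
  have h25990 := checkRangeG_sound parWF r2 pf25989 h25989
  have h25991 := checkRangeG_sound parWF r2 pf25990 h25990
  have h25992 := checkRangeG_sound parWF r2 pf25991 h25991
  have h25993 := checkRangeG_sound parWF r2 pf25992 h25992
  have h25994 := checkRangeG_sound parWF r2 pf25993 h25993
  have h25995 := checkRangeG_sound parWF r2 pf25994 h25994
  have h25996 := checkRangeG_sound parWF r2 pf25995 h25995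
  have h25997 := checkRangeG_sound parWF r2 pf25996 h25996
  have h25998 := checkRangeG_sound parWF r2 pf25997 h25997
  have h25999 := checkRangeG_sound parWF r2 pf25998 h25998
  have h26000 := checkRangeG_sound parWF r2 pf25999 h25999
  exact h26000

theorem c520 (h26000 : ∀ j, j < 83778 → GoodG.{u} par (db j)) : ∀ j, j < 83990 → GoodG.{u} par (db j) := by
  have h26001 := checkRangeG_sound parWF r2 pf26000 h26000
  have h26002 := checkRangeG_sound parWF r2 pf26001 h26001
  have h26003 := checkRangeG_sound parWF r2 pf26002 h26002
  have h26004 := checkRangeG_sound parWF r2 pf26003 h26003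
  have h26005 := checkRangeG_sound parWF r2 pf26004 h26004
  have h26006 := checkRangeG_sound parWF r2 pf26005 h26005
  have h26007 := checkRangeG_sound parWF r2 pf26006 h26006
  have h26008 := checkRangeG_sound parWF r2 pf26007 h26007
  have h26009 := checkRangeG_sound parWF r2 pf26008 h26008
  have h26010 := checkRangeG_sound parWF r2 pf26009 h26009
  have h26011 := checkRangeG_sound parWF r2 pf26010 h26010
  have h26012 := checkRangeG_sound parWF r2 pf26011 h26011
  have h26013 := checkRangeG_sound parWF r2 pf26012 h26012
  have h26014 := checkRangeG_sound parWF r2 pf26013 h26013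
  have h26015 := checkRangeG_sound parWF r2 pf26014 h26014
  have h26016 := checkRangeG_sound parWF r2 pf26015 h26015
  have h26017 := checkRangeG_sound parWF r2 pf26016 h26016
  have h26018 := checkRangeG_sound parWF r2 pf26017 h26017
  have h26019 := checkRangeG_sound parWF r2 pf26018 h26018
  have h26020 := checkRangeG_sound parWF r2 pf26019 h26019
  have h26021 := checkRangeG_sound parWF r2 pf26020 h26020
  have h26022 := checkRangeG_sound parWF r2 pf26021 h26021
  have h26023 := checkRangeG_sound parWF r2 pf26022 h26022
  have h26024 := checkRangeG_sound parWF r2 pf26023 h26023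
  have h26025 := checkRangeG_sound parWF r2 pf26024 h26024
  have h26026 := checkRangeG_sound parWF r2 pf26025 h26025
  have h26027 := checkRangeG_sound parWF r2 pf26026 h26026
  have h26028 := checkRangeG_sound parWF r2 pf26027 h26027
  have h26029 := checkRangeG_sound parWF r2 pf26028 h26028
  have h26030 := checkRangeG_sound parWF r2 pf26029 h26029
  have h26031 := checkRangeG_sound parWF r2 pf26030 h26030
  have h26032 := checkRangeG_sound parWF r2 pf26031 h26031
  have h26033 := checkRangeG_sound parWF r2 pf26032 h26032
  have h26034 := checkRangeG_sound parWF r2 pf26033 h26033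
  have h26035 := checkRangeG_sound parWF r2 pf26034 h26034
  have h26036 := checkRangeG_sound parWF r2 pf26035 h26035
  have h26037 := checkRangeG_sound parWF r2 pf26036 h26036
  have h26038 := checkRangeG_sound parWF r2 pf26037 h26037
  have h26039 := checkRangeG_sound parWF r2 pf26038 h26038
  have h26040 := checkRangeG_sound parWF r2 pf26039 h26039
  have h26041 := checkRangeG_sound parWF r2 pf26040 h26040
  have h26042 := checkRangeG_sound parWF r2 pf26041 h26041
  have h26043 := checkRangeG_sound parWF r2 pf26042 h26042
  have h26044 := checkRangeG_sound parWF r2 pf26043 h26043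
  have h26045 := checkRangeG_sound parWF r2 pf26044 h26044
  have h26046 := checkRangeG_sound parWF r2 pf26045 h26045
  have h26047 := checkRangeG_sound parWF r2 pf26046 h26046
  have h26048 := checkRangeG_sound parWF r2 pf26047 h26047
  have h26049 := checkRangeG_sound parWF r2 pf26048 h26048
  have h26050 := checkRangeG_sound parWF r2 pf26049 h26049
  exact h26050

theorem c521 (h26050 : ∀ j, j < 83990 → GoodG.{u} par (db j)) : ∀ j, j < 84195 → GoodG.{u} par (db j) := by
  have h26051 := checkRangeG_sound parWF r2 pf26050 h26050
  have h26052 := checkRangeG_sound parWF r2 pf26051 h26051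
  have h26053 := checkRangeG_sound parWF r2 pf26052 h26052
  have h26054 := checkRangeG_sound parWF r2 pf26053 h26053
  have h26055 := checkRangeG_sound parWF r2 pf26054 h26054
  have h26056 := checkRangeG_sound parWF r2 pf26055 h26055
  have h26057 := checkRangeG_sound parWF r2 pf26056 h26056
  have h26058 := checkRangeG_sound parWF r2 pf26057 h26057
  have h26059 := checkRangeG_sound parWF r2 pf26058 h26058
  have h26060 := checkRangeG_sound parWF r2 pf26059 h26059
  have h26061 := checkRangeG_sound parWF r2 pf26060 h26060
  have h26062 := checkRangeG_sound parWF r2 pf26061 h26061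
  have h26063 := checkRangeG_sound parWF r2 pf26062 h26062
  have h26064 := checkRangeG_sound parWF r2 pf26063 h26063
  have h26065 := checkRangeG_sound parWF r2 pf26064 h26064
  have h26066 := checkRangeG_sound parWF r2 pf26065 h26065
  have h26067 := checkRangeG_sound parWF r2 pf26066 h26066
  have h26068 := checkRangeG_sound parWF r2 pf26067 h26067
  have h26069 := checkRangeG_sound parWF r2 pf26068 h26068
  have h26070 := checkRangeG_sound parWF r2 pf26069 h26069
  have h26071 := checkRangeG_sound parWF r2 pf26070 h26070
  have h26072 := checkRangeG_sound parWF r2 pf26071 h26071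
  have h26073 := checkRangeG_sound parWF r2 pf26072 h26072
  have h26074 := checkRangeG_sound parWF r2 pf26073 h26073
  have h26075 := checkRangeG_sound parWF r2 pf26074 h26074
  have h26076 := checkRangeG_sound parWF r2 pf26075 h26075
  have h26077 := checkRangeG_sound parWF r2 pf26076 h26076
  have h26078 := checkRangeG_sound parWF r2 pf26077 h26077
  have h26079 := checkRangeG_sound parWF r2 pf26078 h26078
  have h26080 := checkRangeG_sound parWF r2 pf26079 h26079
  have h26081 := checkRangeG_sound parWF r2 pf26080 h26080
  have h26082 := checkRangeG_sound parWF r2 pf26081 h26081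
  have h26083 := checkRangeG_sound parWF r2 pf26082 h26082
  have h26084 := checkRangeG_sound parWF r2 pf26083 h26083
  have h26085 := checkRangeG_sound parWF r2 pf26084 h26084
  have h26086 := checkRangeG_sound parWF r2 pf26085 h26085
  have h26087 := checkRangeG_sound parWF r2 pf26086 h26086
  have h26088 := checkRangeG_sound parWF r2 pf26087 h26087
  have h26089 := checkRangeG_sound parWF r2 pf26088 h26088
  have h26090 := checkRangeG_sound parWF r2 pf26089 h26089
  have h26091 := checkRangeG_sound parWF r2 pf26090 h26090
  have h26092 := checkRangeG_sound parWF r2 pf26091 h26091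
  have h26093 := checkRangeG_sound parWF r2 pf26092 h26092
  have h26094 := checkRangeG_sound parWF r2 pf26093 h26093
  have h26095 := checkRangeG_sound parWF r2 pf26094 h26094
  have h26096 := checkRangeG_sound parWF r2 pf26095 h26095
  have h26097 := checkRangeG_sound parWF r2 pf26096 h26096
  have h26098 := checkRangeG_sound parWF r2 pf26097 h26097
  have h26099 := checkRangeG_sound parWF r2 pf26098 h26098
  have h26100 := checkRangeG_sound parWF r2 pf26099 h26099
  exact h26100

theorem c522 (h26100 : ∀ j, j < 84195 → GoodG.{u} par (db j)) : ∀ j, j < 84381 → GoodG.{u} par (db j) := by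
  have h26101 := checkRangeG_sound parWF r2 pf26100 h26100
  have h26102 := checkRangeG_sound parWF r2 pf26101 h26101
  have h26103 := checkRangeG_sound parWF r2 pf26102 h26102
  have h26104 := checkRangeG_sound parWF r2 pf26103 h26103
  have h26105 := checkRangeG_sound parWF r2 pf26104 h26104
  have h26106 := checkRangeG_sound parWF r2 pf26105 h26105
  have h26107 := checkRangeG_sound parWF r2 pf26106 h26106
  have h26108 := checkRangeG_sound parWF r2 pf26107 h26107
  have h26109 := checkRangeG_sound parWF r2 pf26108 h26108
  have h26110 := checkRangeG_sound parWF r2 pf26109 h26109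
  have h26111 := checkRangeG_sound parWF r2 pf26110 h26110
  have h26112 := checkRangeG_sound parWF r2 pf26111 h26111
  have h26113 := checkRangeG_sound parWF r2 pf26112 h26112
  have h26114 := checkRangeG_sound parWF r2 pf26113 h26113
  have h26115 := checkRangeG_sound parWF r2 pf26114 h26114
  have h26116 := checkRangeG_sound parWF r2 pf26115 h26115
  have h26117 := checkRangeG_sound parWF r2 pf26116 h26116
  have h26118 := checkRangeG_sound parWF r2 pf26117 h26117
  have h26119 := checkRangeG_sound parWF r2 pf26118 h26118
  have h26120 := checkRangeG_sound parWF r2 pf26119 h26119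
  have h26121 := checkRangeG_sound parWF r2 pf26120 h26120
  have h26122 := checkRangeG_sound parWF r2 pf26121 h26121
  have h26123 := checkRangeG_sound parWF r2 pf26122 h26122
  have h26124 := checkRangeG_sound parWF r2 pf26123 h26123
  have h26125 := checkRangeG_sound parWF r2 pf26124 h26124
  have h26126 := checkRangeG_sound parWF r2 pf26125 h26125
  have h26127 := checkRangeG_sound parWF r2 pf26126 h26126
  have h26128 := checkRangeG_sound parWF r2 pf26127 h26127
  have h26129 := checkRangeG_sound parWF r2 pf26128 h26128
  have h26130 := checkRangeG_sound parWF r2 pf26129 h26129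
  have h26131 := checkRangeG_sound parWF r2 pf26130 h26130
  have h26132 := checkRangeG_sound parWF r2 pf26131 h26131
  have h26133 := checkRangeG_sound parWF r2 pf26132 h26132
  have h26134 := checkRangeG_sound parWF r2 pf26133 h26133
  have h26135 := checkRangeG_sound parWF r2 pf26134 h26134
  have h26136 := checkRangeG_sound parWF r2 pf26135 h26135
  have h26137 := checkRangeG_sound parWF r2 pf26136 h26136
  have h26138 := checkRangeG_sound parWF r2 pf26137 h26137
  have h26139 := checkRangeG_sound parWF r2 pf26138 h26138
  have h26140 := checkRangeG_sound parWF r2 pf26139 h26139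
  have h26141 := checkRangeG_sound parWF r2 pf26140 h26140
  have h26142 := checkRangeG_sound parWF r2 pf26141 h26141
  have h26143 := checkRangeG_sound parWF r2 pf26142 h26142
  have h26144 := checkRangeG_sound parWF r2 pf26143 h26143
  have h26145 := checkRangeG_sound parWF r2 pf26144 h26144
  have h26146 := checkRangeG_sound parWF r2 pf26145 h26145
  have h26147 := checkRangeG_sound parWF r2 pf26146 h26146
  have h26148 := checkRangeG_sound parWF r2 pf26147 h26147
  have h26149 := checkRangeG_sound parWF r2 pf26148 h26148
  have h26150 := checkRangeG_sound parWF r2 pf26149 h26149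
  exact h26150

theorem c523 (h26150 : ∀ j, j < 84381 → GoodG.{u} par (db j)) : ∀ j, j < 84564 → GoodG.{u} par (db j) := by
  have h26151 := checkRangeG_sound parWF r2 pf26150 h26150
  have h26152 := checkRangeG_sound parWF r2 pf26151 h26151
  have h26153 := checkRangeG_sound parWF r2 pf26152 h26152
  have h26154 := checkRangeG_sound parWF r2 pf26153 h26153
  have h26155 := checkRangeG_sound parWF r2 pf26154 h26154
  have h26156 := checkRangeG_sound parWF r2 pf26155 h26155
  have h26157 := checkRangeG_sound parWF r2 pf26156 h26156
  have h26158 := checkRangeG_sound parWF r2 pf26157 h26157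
  have h26159 := checkRangeG_sound parWF r2 pf26158 h26158
  have h26160 := checkRangeG_sound parWF r2 pf26159 h26159
  have h26161 := checkRangeG_sound parWF r2 pf26160 h26160
  have h26162 := checkRangeG_sound parWF r2 pf26161 h26161
  have h26163 := checkRangeG_sound parWF r2 pf26162 h26162
  have h26164 := checkRangeG_sound parWF r2 pf26163 h26163
  have h26165 := checkRangeG_sound parWF r2 pf26164 h26164
  have h26166 := checkRangeG_sound parWF r2 pf26165 h26165
  have h26167 := checkRangeG_sound parWF r2 pf26166 h26166
  have h26168 := checkRangeG_sound parWF r2 pf26167 h26167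
  have h26169 := checkRangeG_sound parWF r2 pf26168 h26168
  have h26170 := checkRangeG_sound parWF r2 pf26169 h26169
  have h26171 := checkRangeG_sound parWF r2 pf26170 h26170
  have h26172 := checkRangeG_sound parWF r2 pf26171 h26171
  have h26173 := checkRangeG_sound parWF r2 pf26172 h26172
  have h26174 := checkRangeG_sound parWF r2 pf26173 h26173
  have h26175 := checkRangeG_sound parWF r2 pf26174 h26174
  have h26176 := checkRangeG_sound parWF r2 pf26175 h26175
  have h26177 := checkRangeG_sound parWF r2 pf26176 h26176
  have h26178 := checkRangeG_sound parWF r2 pf26177 h26177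
  have h26179 := checkRangeG_sound parWF r2 pf26178 h26178
  have h26180 := checkRangeG_sound parWF r2 pf26179 h26179
  have h26181 := checkRangeG_sound parWF r2 pf26180 h26180
  have h26182 := checkRangeG_sound parWF r2 pf26181 h26181
  have h26183 := checkRangeG_sound parWF r2 pf26182 h26182
  have h26184 := checkRangeG_sound parWF r2 pf26183 h26183
  have h26185 := checkRangeG_sound parWF r2 pf26184 h26184
  have h26186 := checkRangeG_sound parWF r2 pf26185 h26185
  have h26187 := checkRangeG_sound parWF r2 pf26186 h26186
  have h26188 := checkRangeG_sound parWF r2 pf26187 h26187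
  have h26189 := checkRangeG_sound parWF r2 pf26188 h26188
  have h26190 := checkRangeG_sound parWF r2 pf26189 h26189
  have h26191 := checkRangeG_sound parWF r2 pf26190 h26190
  have h26192 := checkRangeG_sound parWF r2 pf26191 h26191
  have h26193 := checkRangeG_sound parWF r2 pf26192 h26192
  have h26194 := checkRangeG_sound parWF r2 pf26193 h26193
  have h26195 := checkRangeG_sound parWF r2 pf26194 h26194
  have h26196 := checkRangeG_sound parWF r2 pf26195 h26195
  have h26197 := checkRangeG_sound parWF r2 pf26196 h26196
  have h26198 := checkRangeG_sound parWF r2 pf26197 h26197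
  have h26199 := checkRangeG_sound parWF r2 pf26198 h26198
  have h26200 := checkRangeG_sound parWF r2 pf26199 h26199
  exact h26200

theorem c524 (h26200 : ∀ j, j < 84564 → GoodG.{u} par (db j)) : ∀ j, j < 84748 → GoodG.{u} par (db j) := by
  have h26201 := checkRangeG_sound parWF r2 pf26200 h26200
  have h26202 := checkRangeG_sound parWF r2 pf26201 h26201
  have h26203 := checkRangeG_sound parWF r2 pf26202 h26202
  have h26204 := checkRangeG_sound parWF r2 pf26203 h26203
  have h26205 := checkRangeG_sound parWF r2 pf26204 h26204
  have h26206 := checkRangeG_sound parWF r2 pf26205 h26205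
  have h26207 := checkRangeG_sound parWF r2 pf26206 h26206
  have h26208 := checkRangeG_sound parWF r2 pf26207 h26207
  have h26209 := checkRangeG_sound parWF r2 pf26208 h26208
  have h26210 := checkRangeG_sound parWF r2 pf26209 h26209
  have h26211 := checkRangeG_sound parWF r2 pf26210 h26210
  have h26212 := checkRangeG_sound parWF r2 pf26211 h26211
  have h26213 := checkRangeG_sound parWF r2 pf26212 h26212
  have h26214 := checkRangeG_sound parWF r2 pf26213 h26213
  have h26215 := checkRangeG_sound parWF r2 pf26214 h26214
  have h26216 := checkRangeG_sound parWF r2 pf26215 h26215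
  have h26217 := checkRangeG_sound parWF r2 pf26216 h26216
  have h26218 := checkRangeG_sound parWF r2 pf26217 h26217
  have h26219 := checkRangeG_sound parWF r2 pf26218 h26218
  have h26220 := checkRangeG_sound parWF r2 pf26219 h26219
  have h26221 := checkRangeG_sound parWF r2 pf26220 h26220
  have h26222 := checkRangeG_sound parWF r2 pf26221 h26221
  have h26223 := checkRangeG_sound parWF r2 pf26222 h26222
  have h26224 := checkRangeG_sound parWF r2 pf26223 h26223
  have h26225 := checkRangeG_sound parWF r2 pf26224 h26224
  have h26226 := checkRangeG_sound parWF r2 pf26225 h26225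
  have h26227 := checkRangeG_sound parWF r2 pf26226 h26226
  have h26228 := checkRangeG_sound parWF r2 pf26227 h26227
  have h26229 := checkRangeG_sound parWF r2 pf26228 h26228
  have h26230 := checkRangeG_sound parWF r2 pf26229 h26229
  have h26231 := checkRangeG_sound parWF r2 pf26230 h26230
  have h26232 := checkRangeG_sound parWF r2 pf26231 h26231
  have h26233 := checkRangeG_sound parWF r2 pf26232 h26232
  have h26234 := checkRangeG_sound parWF r2 pf26233 h26233
  have h26235 := checkRangeG_sound parWF r2 pf26234 h26234
  have h26236 := checkRangeG_sound parWF r2 pf26235 h26235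
  have h26237 := checkRangeG_sound parWF r2 pf26236 h26236
  have h26238 := checkRangeG_sound parWF r2 pf26237 h26237
  have h26239 := checkRangeG_sound parWF r2 pf26238 h26238
  have h26240 := checkRangeG_sound parWF r2 pf26239 h26239
  have h26241 := checkRangeG_sound parWF r2 pf26240 h26240
  have h26242 := checkRangeG_sound parWF r2 pf26241 h26241
  have h26243 := checkRangeG_sound parWF r2 pf26242 h26242
  have h26244 := checkRangeG_sound parWF r2 pf26243 h26243
  have h26245 := checkRangeG_sound parWF r2 pf26244 h26244
  have h26246 := checkRangeG_sound parWF r2 pf26245 h26245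
  have h26247 := checkRangeG_sound parWF r2 pf26246 h26246
  have h26248 := checkRangeG_sound parWF r2 pf26247 h26247
  have h26249 := checkRangeG_sound parWF r2 pf26248 h26248
  have h26250 := checkRangeG_sound parWF r2 pf26249 h26249
  exact h26250

theorem c525 (h26250 : ∀ j, j < 84748 → GoodG.{u} par (db j)) : ∀ j, j < 84949 → GoodG.{u} par (db j) := by
  have h26251 := checkRangeG_sound parWF r2 pf26250 h26250
  have h26252 := checkRangeG_sound parWF r2 pf26251 h26251
  have h26253 := checkRangeG_sound parWF r2 pf26252 h26252
  have h26254 := checkRangeG_sound parWF r2 pf26253 h26253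
  have h26255 := checkRangeG_sound parWF r2 pf26254 h26254
  have h26256 := checkRangeG_sound parWF r2 pf26255 h26255
  have h26257 := checkRangeG_sound parWF r2 pf26256 h26256
  have h26258 := checkRangeG_sound parWF r2 pf26257 h26257
  have h26259 := checkRangeG_sound parWF r2 pf26258 h26258
  have h26260 := checkRangeG_sound parWF r2 pf26259 h26259
  have h26261 := checkRangeG_sound parWF r2 pf26260 h26260
  have h26262 := checkRangeG_sound parWF r2 pf26261 h26261
  have h26263 := checkRangeG_sound parWF r2 pf26262 h26262
  have h26264 := checkRangeG_sound parWF r2 pf26263 h26263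
  have h26265 := checkRangeG_sound parWF r2 pf26264 h26264
  have h26266 := checkRangeG_sound parWF r2 pf26265 h26265
  have h26267 := checkRangeG_sound parWF r2 pf26266 h26266
  have h26268 := checkRangeG_sound parWF r2 pf26267 h26267
  have h26269 := checkRangeG_sound parWF r2 pf26268 h26268
  have h26270 := checkRangeG_sound parWF r2 pf26269 h26269
  have h26271 := checkRangeG_sound parWF r2 pf26270 h26270
  have h26272 := checkRangeG_sound parWF r2 pf26271 h26271
  have h26273 := checkRangeG_sound parWF r2 pf26272 h26272
  have h26274 := checkRangeG_sound parWF r2 pf26273 h26273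
  have h26275 := checkRangeG_sound parWF r2 pf26274 h26274
  have h26276 := checkRangeG_sound parWF r2 pf26275 h26275
  have h26277 := checkRangeG_sound parWF r2 pf26276 h26276
  have h26278 := checkRangeG_sound parWF r2 pf26277 h26277
  have h26279 := checkRangeG_sound parWF r2 pf26278 h26278
  have h26280 := checkRangeG_sound parWF r2 pf26279 h26279
  have h26281 := checkRangeG_sound parWF r2 pf26280 h26280
  have h26282 := checkRangeG_sound parWF r2 pf26281 h26281
  have h26283 := checkRangeG_sound parWF r2 pf26282 h26282
  have h26284 := checkRangeG_sound parWF r2 pf26283 h26283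
  have h26285 := checkRangeG_sound parWF r2 pf26284 h26284
  have h26286 := checkRangeG_sound parWF r2 pf26285 h26285
  have h26287 := checkRangeG_sound parWF r2 pf26286 h26286
  have h26288 := checkRangeG_sound parWF r2 pf26287 h26287
  have h26289 := checkRangeG_sound parWF r2 pf26288 h26288
  have h26290 := checkRangeG_sound parWF r2 pf26289 h26289
  have h26291 := checkRangeG_sound parWF r2 pf26290 h26290
  have h26292 := checkRangeG_sound parWF r2 pf26291 h26291
  have h26293 := checkRangeG_sound parWF r2 pf26292 h26292
  have h26294 := checkRangeG_sound parWF r2 pf26293 h26293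
  have h26295 := checkRangeG_sound parWF r2 pf26294 h26294
  have h26296 := checkRangeG_sound parWF r2 pf26295 h26295
  have h26297 := checkRangeG_sound parWF r2 pf26296 h26296
  have h26298 := checkRangeG_sound parWF r2 pf26297 h26297
  have h26299 := checkRangeG_sound parWF r2 pf26298 h26298
  have h26300 := checkRangeG_sound parWF r2 pf26299 h26299
  exact h26300

theorem c526 (h26300 : ∀ j, j < 84949 → GoodG.{u} par (db j)) : ∀ j, j < 85127 → GoodG.{u} par (db j) := by
  have h26301 := checkRangeG_sound parWF r2 pf26300 h26300
  have h26302 := checkRangeG_sound parWF r2 pf26301 h26301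
  have h26303 := checkRangeG_sound parWF r2 pf26302 h26302
  have h26304 := checkRangeG_sound parWF r2 pf26303 h26303
  have h26305 := checkRangeG_sound parWF r2 pf26304 h26304
  have h26306 := checkRangeG_sound parWF r2 pf26305 h26305
  have h26307 := checkRangeG_sound parWF r2 pf26306 h26306
  have h26308 := checkRangeG_sound parWF r2 pf26307 h26307
  have h26309 := checkRangeG_sound parWF r2 pf26308 h26308
  have h26310 := checkRangeG_sound parWF r2 pf26309 h26309
  have h26311 := checkRangeG_sound parWF r2 pf26310 h26310
  have h26312 := checkRangeG_sound parWF r2 pf26311 h26311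
  have h26313 := checkRangeG_sound parWF r2 pf26312 h26312
  have h26314 := checkRangeG_sound parWF r2 pf26313 h26313
  have h26315 := checkRangeG_sound parWF r2 pf26314 h26314
  have h26316 := checkRangeG_sound parWF r2 pf26315 h26315
  have h26317 := checkRangeG_sound parWF r2 pf26316 h26316
  have h26318 := checkRangeG_sound parWF r2 pf26317 h26317
  have h26319 := checkRangeG_sound parWF r2 pf26318 h26318
  have h26320 := checkRangeG_sound parWF r2 pf26319 h26319
  have h26321 := checkRangeG_sound parWF r2 pf26320 h26320
  have h26322 := checkRangeG_sound parWF r2 pf26321 h26321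
  have h26323 := checkRangeG_sound parWF r2 pf26322 h26322
  have h26324 := checkRangeG_sound parWF r2 pf26323 h26323
  have h26325 := checkRangeG_sound parWF r2 pf26324 h26324
  have h26326 := checkRangeG_sound parWF r2 pf26325 h26325
  have h26327 := checkRangeG_sound parWF r2 pf26326 h26326
  have h26328 := checkRangeG_sound parWF r2 pf26327 h26327
  have h26329 := checkRangeG_sound parWF r2 pf26328 h26328
  have h26330 := checkRangeG_sound parWF r2 pf26329 h26329
  have h26331 := checkRangeG_sound parWF r2 pf26330 h26330
  have h26332 := checkRangeG_sound parWF r2 pf26331 h26331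
  have h26333 := checkRangeG_sound parWF r2 pf26332 h26332
  have h26334 := checkRangeG_sound parWF r2 pf26333 h26333
  have h26335 := checkRangeG_sound parWF r2 pf26334 h26334
  have h26336 := checkRangeG_sound parWF r2 pf26335 h26335
  have h26337 := checkRangeG_sound parWF r2 pf26336 h26336
  have h26338 := checkRangeG_sound parWF r2 pf26337 h26337
  have h26339 := checkRangeG_sound parWF r2 pf26338 h26338
  have h26340 := checkRangeG_sound parWF r2 pf26339 h26339
  have h26341 := checkRangeG_sound parWF r2 pf26340 h26340
  have h26342 := checkRangeG_sound parWF r2 pf26341 h26341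
  have h26343 := checkRangeG_sound parWF r2 pf26342 h26342
  have h26344 := checkRangeG_sound parWF r2 pf26343 h26343
  have h26345 := checkRangeG_sound parWF r2 pf26344 h26344
  have h26346 := checkRangeG_sound parWF r2 pf26345 h26345
  have h26347 := checkRangeG_sound parWF r2 pf26346 h26346
  have h26348 := checkRangeG_sound parWF r2 pf26347 h26347
  have h26349 := checkRangeG_sound parWF r2 pf26348 h26348
  have h26350 := checkRangeG_sound parWF r2 pf26349 h26349
  exact h26350

theorem c527 (h26350 : ∀ j, j < 85127 → GoodG.{u} par (db j)) : ∀ j, j < 85316 → GoodG.{u} par (db j) := by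
  have h26351 := checkRangeG_sound parWF r2 pf26350 h26350
  have h26352 := checkRangeG_sound parWF r2 pf26351 h26351
  have h26353 := checkRangeG_sound parWF r2 pf26352 h26352
  have h26354 := checkRangeG_sound parWF r2 pf26353 h26353
  have h26355 := checkRangeG_sound parWF r2 pf26354 h26354
  have h26356 := checkRangeG_sound parWF r2 pf26355 h26355
  have h26357 := checkRangeG_sound parWF r2 pf26356 h26356
  have h26358 := checkRangeG_sound parWF r2 pf26357 h26357
  have h26359 := checkRangeG_sound parWF r2 pf26358 h26358
  have h26360 := checkRangeG_sound parWF r2 pf26359 h26359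
  have h26361 := checkRangeG_sound parWF r2 pf26360 h26360
  have h26362 := checkRangeG_sound parWF r2 pf26361 h26361
  have h26363 := checkRangeG_sound parWF r2 pf26362 h26362
  have h26364 := checkRangeG_sound parWF r2 pf26363 h26363
  have h26365 := checkRangeG_sound parWF r2 pf26364 h26364
  have h26366 := checkRangeG_sound parWF r2 pf26365 h26365
  have h26367 := checkRangeG_sound parWF r2 pf26366 h26366
  have h26368 := checkRangeG_sound parWF r2 pf26367 h26367
  have h26369 := checkRangeG_sound parWF r2 pf26368 h26368
  have h26370 := checkRangeG_sound parWF r2 pf26369 h26369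
  have h26371 := checkRangeG_sound parWF r2 pf26370 h26370
  have h26372 := checkRangeG_sound parWF r2 pf26371 h26371
  have h26373 := checkRangeG_sound parWF r2 pf26372 h26372
  have h26374 := checkRangeG_sound parWF r2 pf26373 h26373
  have h26375 := checkRangeG_sound parWF r2 pf26374 h26374
  have h26376 := checkRangeG_sound parWF r2 pf26375 h26375
  have h26377 := checkRangeG_sound parWF r2 pf26376 h26376
  have h26378 := checkRangeG_sound parWF r2 pf26377 h26377
  have h26379 := checkRangeG_sound parWF r2 pf26378 h26378
  have h26380 := checkRangeG_sound parWF r2 pf26379 h26379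
  have h26381 := checkRangeG_sound parWF r2 pf26380 h26380
  have h26382 := checkRangeG_sound parWF r2 pf26381 h26381
  have h26383 := checkRangeG_sound parWF r2 pf26382 h26382
  have h26384 := checkRangeG_sound parWF r2 pf26383 h26383
  have h26385 := checkRangeG_sound parWF r2 pf26384 h26384
  have h26386 := checkRangeG_sound parWF r2 pf26385 h26385
  have h26387 := checkRangeG_sound parWF r2 pf26386 h26386
  have h26388 := checkRangeG_sound parWF r2 pf26387 h26387
  have h26389 := checkRangeG_sound parWF r2 pf26388 h26388
  have h26390 := checkRangeG_sound parWF r2 pf26389 h26389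
  have h26391 := checkRangeG_sound parWF r2 pf26390 h26390
  have h26392 := checkRangeG_sound parWF r2 pf26391 h26391
  have h26393 := checkRangeG_sound parWF r2 pf26392 h26392
  have h26394 := checkRangeG_sound parWF r2 pf26393 h26393
  have h26395 := checkRangeG_sound parWF r2 pf26394 h26394
  have h26396 := checkRangeG_sound parWF r2 pf26395 h26395
  have h26397 := checkRangeG_sound parWF r2 pf26396 h26396
  have h26398 := checkRangeG_sound parWF r2 pf26397 h26397
  have h26399 := checkRangeG_sound parWF r2 pf26398 h26398
  have h26400 := checkRangeG_sound parWF r2 pf26399 h26399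
  exact h26400


end Vale.Agent.P045g.C61
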