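import Vale.Agent.P045g.C61.WF
import Vale.Agent.P045g.C61.Pf440
import Vale.Agent.P045g.C61.Pf441
import Vale.Agent.P045g.C61.Pf442
import Vale.Agent.P045g.C61.Pf443
import Vale.Agent.P045g.C61.Pf444
import Vale.Agent.P045g.C61.Pf445
import Vale.Agent.P045g.C61.Pf446
import Vale.Agent.P045g.C61.Pf447
import Vale.Agent.P045g.C61.Pf448
import Vale.Agent.P045g.C61.Pf449

namespace Vale.Agent.P045g.C61

open Vale.Agent.P045b Vale.Agent.P045g

universe u

theorem c528 (h26400 : ∀ j, j < 85316 → GoodG.{u} par (db j)) : ∀ j, j < 85478 → GoodG.{u} par (db j) := by
  have h26401 := checkRangeG_sound parWF r2 pf26400 h26400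
  have h26402 := checkRangeG_sound parWF r2 pf26401 h26401
  have h26403 := checkRangeG_sound parWF r2 pf26402 h26402
  have h26404 := checkRangeG_sound parWF r2 pf26403 h26403
  have h26405 := checkRangeG_sound parWF r2 pf26404 h26404
  have h26406 := checkRangeG_sound parWF r2 pf26405 h26405
  have h26407 := checkRangeG_sound parWF r2 pf26406 h26406
  have h26408 := checkRangeG_sound parWF r2 pf26407 h26407
  have h26409 := checkRangeG_sound parWF r2 pf26408 h26408
  have h26410 := checkRangeG_sound parWF r2 pf26409 h26409
  have h26411 := checkRangeG_sound parWF r2 pf26410 h26410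
  have h26412 := checkRangeG_sound parWF r2 pf26411 h26411
  have h26413 := checkRangeG_sound parWF r2 pf26412 h26412
  have h26414 := checkRangeG_sound parWF r2 pf26413 h26413
  have h26415 := checkRangeG_sound parWF r2 pf26414 h26414
  have h26416 := checkRangeG_sound parWF r2 pf26415 h26415
  have h26417 := checkRangeG_sound parWF r2 pf26416 h26416
  have h26418 := checkRangeG_sound parWF r2 pf26417 h26417
  have h26419 := checkRangeG_sound parWF r2 pf26418 h26418
  have h26420 := checkRangeG_sound parWF r2 pf26419 h26419
  have h26421 := checkRangeG_sound parWF r2 pf26420 h26420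
  have h26422 := checkRangeG_sound parWF r2 pf26421 h26421
  have h26423 := checkRangeG_sound parWF r2 pf26422 h26422
  have h26424 := checkRangeG_sound parWF r2 pf26423 h26423
  have h26425 := checkRangeG_sound parWF r2 pf26424 h26424
  have h26426 := checkRangeG_sound parWF r2 pf26425 h26425
  have h26427 := checkRangeG_sound parWF r2 pf26426 h26426
  have h26428 := checkRangeG_sound parWF r2 pf26427 h26427
  have h26429 := checkRangeG_sound parWF r2 pf26428 h26428
  have h26430 := checkRangeG_sound parWF r2 pf26429 h26429
  have h26431 := checkRangeG_sound parWF r2 pf26430 h26430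
  have h26432 := checkRangeG_sound parWF r2 pf26431 h26431
  have h26433 := checkRangeG_sound parWF r2 pf26432 h26432
  have h26434 := checkRangeG_sound parWF r2 pf26433 h26433
  have h26435 := checkRangeG_sound parWF r2 pf26434 h26434
  have h26436 := checkRangeG_sound parWF r2 pf26435 h26435
  have h26437 := checkRangeG_sound parWF r2 pf26436 h26436
  have h26438 := checkRangeG_sound parWF r2 pf26437 h26437
  have h26439 := checkRangeG_sound parWF r2 pf26438 h26438
  have h26440 := checkRangeG_sound parWF r2 pf26439 h26439
  have h26441 := checkRangeG_sound parWF r2 pf26440 h26440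
  have h26442 := checkRangeG_sound parWF r2 pf26441 h26441
  have h26443 := checkRangeG_sound parWF r2 pf26442 h26442
  have h26444 := checkRangeG_sound parWF r2 pf26443 h26443
  have h26445 := checkRangeG_sound parWF r2 pf26444 h26444
  have h26446 := checkRangeG_sound parWF r2 pf26445 h26445
  have h26447 := checkRangeG_sound parWF r2 pf26446 h26446
  have h26448 := checkRangeG_sound parWF r2 pf26447 h26447
  have h26449 := checkRangeG_sound parWF r2 pf26448 h26448
  have h26450 := checkRangeG_sound parWF r2 pf26449 h26449
  exact h26450

theorem c529 (h26450 : ∀ j, j < 85478 → GoodG.{u} par (db j)) : ∀ j, j < 85654 → GoodG.{u} par (db j) := by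
  have h26451 := checkRangeG_sound parWF r2 pf26450 h26450
  have h26452 := checkRangeG_sound parWF r2 pf26451 h26451
  have h26453 := checkRangeG_sound parWF r2 pf26452 h26452
  have h26454 := checkRangeG_sound parWF r2 pf26453 h26453
  have h26455 := checkRangeG_sound parWF r2 pf26454 h26454
  have h26456 := checkRangeG_sound parWF r2 pf26455 h26455
  have h26457 := checkRangeG_sound parWF r2 pf26456 h26456
  have h26458 := checkRangeG_sound parWF r2 pf26457 h26457
  have h26459 := checkRangeG_sound parWF r2 pf26458 h26458
  have h26460 := checkRangeG_sound parWF r2 pf26459 h26459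
  have h26461 := checkRangeG_sound parWF r2 pf26460 h26460
  have h26462 := checkRangeG_sound parWF r2 pf26461 h26461
  have h26463 := checkRangeG_sound parWF r2 pf26462 h26462
  have h26464 := checkRangeG_sound parWF r2 pf26463 h26463
  have h26465 := checkRangeG_sound parWF r2 pf26464 h26464
  have h26466 := checkRangeG_sound parWF r2 pf26465 h26465
  have h26467 := checkRangeG_sound parWF r2 pf26466 h26466
  have h26468 := checkRangeG_sound parWF r2 pf26467 h26467
  have h26469 := checkRangeG_sound parWF r2 pf26468 h26468
  have h26470 := checkRangeG_sound parWF r2 pf26469 h26469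
  have h26471 := checkRangeG_sound parWF r2 pf26470 h26470
  have h26472 := checkRangeG_sound parWF r2 pf26471 h26471
  have h26473 := checkRangeG_sound parWF r2 pf26472 h26472
  have h26474 := checkRangeG_sound parWF r2 pf26473 h26473
  have h26475 := checkRangeG_sound parWF r2 pf26474 h26474
  have h26476 := checkRangeG_sound parWF r2 pf26475 h26475
  have h26477 := checkRangeG_sound parWF r2 pf26476 h26476
  have h26478 := checkRangeG_sound parWF r2 pf26477 h26477
  have h26479 := checkRangeG_sound parWF r2 pf26478 h26478
  have h26480 := checkRangeG_sound parWF r2 pf26479 h26479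
  have h26481 := checkRangeG_sound parWF r2 pf26480 h26480
  have h26482 := checkRangeG_sound parWF r2 pf26481 h26481
  have h26483 := checkRangeG_sound parWF r2 pf26482 h26482
  have h26484 := checkRangeG_sound parWF r2 pf26483 h26483
  have h26485 := checkRangeG_sound parWF r2 pf26484 h26484
  have h26486 := checkRangeG_sound parWF r2 pf26485 h26485
  have h26487 := checkRangeG_sound parWF r2 pf26486 h26486
  have h26488 := checkRangeG_sound parWF r2 pf26487 h26487
  have h26489 := checkRangeG_sound parWF r2 pf26488 h26488
  have h26490 := checkRangeG_sound parWF r2 pf26489 h26489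
  have h26491 := checkRangeG_sound parWF r2 pf26490 h26490
  have h26492 := checkRangeG_sound parWF r2 pf26491 h26491
  have h26493 := checkRangeG_sound parWF r2 pf26492 h26492
  have h26494 := checkRangeG_sound parWF r2 pf26493 h26493
  have h26495 := checkRangeG_sound parWF r2 pf26494 h26494
  have h26496 := checkRangeG_sound parWF r2 pf26495 h26495
  have h26497 := checkRangeG_sound parWF r2 pf26496 h26496
  have h26498 := checkRangeG_sound parWF r2 pf26497 h26497
  have h26499 := checkRangeG_sound parWF r2 pf26498 h26498
  have h26500 := checkRangeG_sound parWF r2 pf26499 h26499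
  exact h26500

theorem c530 (h26500 : ∀ j, j < 85654 → GoodG.{u} par (db j)) : ∀ j, j < 85821 → GoodG.{u} par (db j) := by
  have h26501 := checkRangeG_sound parWF r2 pf26500 h26500
  have h26502 := checkRangeG_sound parWF r2 pf26501 h26501
  have h26503 := checkRangeG_sound parWF r2 pf26502 h26502
  have h26504 := checkRangeG_sound parWF r2 pf26503 h26503
  have h26505 := checkRangeG_sound parWF r2 pf26504 h26504
  have h26506 := checkRangeG_sound parWF r2 pf26505 h26505
  have h26507 := checkRangeG_sound parWF r2 pf26506 h26506
  have h26508 := checkRangeG_sound parWF r2 pf26507 h26507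
  have h26509 := checkRangeG_sound parWF r2 pf26508 h26508
  have h26510 := checkRangeG_sound parWF r2 pf26509 h26509
  have h26511 := checkRangeG_sound parWF r2 pf26510 h26510
  have h26512 := checkRangeG_sound parWF r2 pf26511 h26511
  have h26513 := checkRangeG_sound parWF r2 pf26512 h26512
  have h26514 := checkRangeG_sound parWF r2 pf26513 h26513
  have h26515 := checkRangeG_sound parWF r2 pf26514 h26514
  have h26516 := checkRangeG_sound parWF r2 pf26515 h26515
  have h26517 := checkRangeG_sound parWF r2 pf26516 h26516
  have h26518 := checkRangeG_sound parWF r2 pf26517 h26517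
  have h26519 := checkRangeG_sound parWF r2 pf26518 h26518
  have h26520 := checkRangeG_sound parWF r2 pf26519 h26519
  have h26521 := checkRangeG_sound parWF r2 pf26520 h26520
  have h26522 := checkRangeG_sound parWF r2 pf26521 h26521
  have h26523 := checkRangeG_sound parWF r2 pf26522 h26522
  have h26524 := checkRangeG_sound parWF r2 pf26523 h26523
  have h26525 := checkRangeG_sound parWF r2 pf26524 h26524
  have h26526 := checkRangeG_sound parWF r2 pf26525 h26525
  have h26527 := checkRangeG_sound parWF r2 pf26526 h26526
  have h26528 := checkRangeG_sound parWF r2 pf26527 h26527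
  have h26529 := checkRangeG_sound parWF r2 pf26528 h26528
  have h26530 := checkRangeG_sound parWF r2 pf26529 h26529
  have h26531 := checkRangeG_sound parWF r2 pf26530 h26530
  have h26532 := checkRangeG_sound parWF r2 pf26531 h26531
  have h26533 := checkRangeG_sound parWF r2 pf26532 h26532
  have h26534 := checkRangeG_sound parWF r2 pf26533 h26533
  have h26535 := checkRangeG_sound parWF r2 pf26534 h26534
  have h26536 := checkRangeG_sound parWF r2 pf26535 h26535
  have h26537 := checkRangeG_sound parWF r2 pf26536 h26536
  have h26538 := checkRangeG_sound parWF r2 pf26537 h26537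
  have h26539 := checkRangeG_sound parWF r2 pf26538 h26538
  have h26540 := checkRangeG_sound parWF r2 pf26539 h26539
  have h26541 := checkRangeG_sound parWF r2 pf26540 h26540
  have h26542 := checkRangeG_sound parWF r2 pf26541 h26541
  have h26543 := checkRangeG_sound parWF r2 pf26542 h26542
  have h26544 := checkRangeG_sound parWF r2 pf26543 h26543
  have h26545 := checkRangeG_sound parWF r2 pf26544 h26544
  have h26546 := checkRangeG_sound parWF r2 pf26545 h26545
  have h26547 := checkRangeG_sound parWF r2 pf26546 h26546
  have h26548 := checkRangeG_sound parWF r2 pf26547 h26547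
  have h26549 := checkRangeG_sound parWF r2 pf26548 h26548
  have h26550 := checkRangeG_sound parWF r2 pf26549 h26549
  exact h26550

theorem c531 (h26550 : ∀ j, j < 85821 → GoodG.{u} par (db j)) : ∀ j, j < 85982 → GoodG.{u} par (db j) := by
  have h26551 := checkRangeG_sound parWF r2 pf26550 h26550
  have h26552 := checkRangeG_sound parWF r2 pf26551 h26551
  have h26553 := checkRangeG_sound parWF r2 pf26552 h26552
  have h26554 := checkRangeG_sound parWF r2 pf26553 h26553
  have h26555 := checkRangeG_sound parWF r2 pf26554 h26554
  have h26556 := checkRangeG_sound parWF r2 pf26555 h26555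
  have h26557 := checkRangeG_sound parWF r2 pf26556 h26556
  have h26558 := checkRangeG_sound parWF r2 pf26557 h26557
  have h26559 := checkRangeG_sound parWF r2 pf26558 h26558
  have h26560 := checkRangeG_sound parWF r2 pf26559 h26559
  have h26561 := checkRangeG_sound parWF r2 pf26560 h26560
  have h26562 := checkRangeG_sound parWF r2 pf26561 h26561
  have h26563 := checkRangeG_sound parWF r2 pf26562 h26562
  have h26564 := checkRangeG_sound parWF r2 pf26563 h26563
  have h26565 := checkRangeG_sound parWF r2 pf26564 h26564
  have h26566 := checkRangeG_sound parWF r2 pf26565 h26565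
  have h26567 := checkRangeG_sound parWF r2 pf26566 h26566
  have h26568 := checkRangeG_sound parWF r2 pf26567 h26567
  have h26569 := checkRangeG_sound parWF r2 pf26568 h26568
  have h26570 := checkRangeG_sound parWF r2 pf26569 h26569
  have h26571 := checkRangeG_sound parWF r2 pf26570 h26570
  have h26572 := checkRangeG_sound parWF r2 pf26571 h26571
  have h26573 := checkRangeG_sound parWF r2 pf26572 h26572
  have h26574 := checkRangeG_sound parWF r2 pf26573 h26573
  have h26575 := checkRangeG_sound parWF r2 pf26574 h26574
  have h26576 := checkRangeG_sound parWF r2 pf26575 h26575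
  have h26577 := checkRangeG_sound parWF r2 pf26576 h26576
  have h26578 := checkRangeG_sound parWF r2 pf26577 h26577
  have h26579 := checkRangeG_sound parWF r2 pf26578 h26578
  have h26580 := checkRangeG_sound parWF r2 pf26579 h26579
  have h26581 := checkRangeG_sound parWF r2 pf26580 h26580
  have h26582 := checkRangeG_sound parWF r2 pf26581 h26581
  have h26583 := checkRangeG_sound parWF r2 pf26582 h26582
  have h26584 := checkRangeG_sound parWF r2 pf26583 h26583
  have h26585 := checkRangeG_sound parWF r2 pf26584 h26584
  have h26586 := checkRangeG_sound parWF r2 pf26585 h26585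
  have h26587 := checkRangeG_sound parWF r2 pf26586 h26586
  have h26588 := checkRangeG_sound parWF r2 pf26587 h26587
  have h26589 := checkRangeG_sound parWF r2 pf26588 h26588
  have h26590 := checkRangeG_sound parWF r2 pf26589 h26589
  have h26591 := checkRangeG_sound parWF r2 pf26590 h26590
  have h26592 := checkRangeG_sound parWF r2 pf26591 h26591
  have h26593 := checkRangeG_sound parWF r2 pf26592 h26592
  have h26594 := checkRangeG_sound parWF r2 pf26593 h26593
  have h26595 := checkRangeG_sound parWF r2 pf26594 h26594
  have h26596 := checkRangeG_sound parWF r2 pf26595 h26595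
  have h26597 := checkRangeG_sound parWF r2 pf26596 h26596
  have h26598 := checkRangeG_sound parWF r2 pf26597 h26597
  have h26599 := checkRangeG_sound parWF r2 pf26598 h26598
  have h26600 := checkRangeG_sound parWF r2 pf26599 h26599
  exact h26600

theorem c532 (h26600 : ∀ j, j < 85982 → GoodG.{u} par (db j)) : ∀ j, j < 86144 → GoodG.{u} par (db j) := by
  have h26601 := checkRangeG_sound parWF r2 pf26600 h26600
  have h26602 := checkRangeG_sound parWF r2 pf26601 h26601
  have h26603 := checkRangeG_sound parWF r2 pf26602 h26602
  have h26604 := checkRangeG_sound parWF r2 pf26603 h26603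
  have h26605 := checkRangeG_sound parWF r2 pf26604 h26604
  have h26606 := checkRangeG_sound parWF r2 pf26605 h26605
  have h26607 := checkRangeG_sound parWF r2 pf26606 h26606
  have h26608 := checkRangeG_sound parWF r2 pf26607 h26607
  have h26609 := checkRangeG_sound parWF r2 pf26608 h26608
  have h26610 := checkRangeG_sound parWF r2 pf26609 h26609
  have h26611 := checkRangeG_sound parWF r2 pf26610 h26610
  have h26612 := checkRangeG_sound parWF r2 pf26611 h26611
  have h26613 := checkRangeG_sound parWF r2 pf26612 h26612
  have h26614 := checkRangeG_sound parWF r2 pf26613 h26613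
  have h26615 := checkRangeG_sound parWF r2 pf26614 h26614
  have h26616 := checkRangeG_sound parWF r2 pf26615 h26615
  have h26617 := checkRangeG_sound parWF r2 pf26616 h26616
  have h26618 := checkRangeG_sound parWF r2 pf26617 h26617
  have h26619 := checkRangeG_sound parWF r2 pf26618 h26618
  have h26620 := checkRangeG_sound parWF r2 pf26619 h26619
  have h26621 := checkRangeG_sound parWF r2 pf26620 h26620
  have h26622 := checkRangeG_sound parWF r2 pf26621 h26621
  have h26623 := checkRangeG_sound parWF r2 pf26622 h26622
  have h26624 := checkRangeG_sound parWF r2 pf26623 h26623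
  have h26625 := checkRangeG_sound parWF r2 pf26624 h26624
  have h26626 := checkRangeG_sound parWF r2 pf26625 h26625
  have h26627 := checkRangeG_sound parWF r2 pf26626 h26626
  have h26628 := checkRangeG_sound parWF r2 pf26627 h26627
  have h26629 := checkRangeG_sound parWF r2 pf26628 h26628
  have h26630 := checkRangeG_sound parWF r2 pf26629 h26629
  have h26631 := checkRangeG_sound parWF r2 pf26630 h26630
  have h26632 := checkRangeG_sound parWF r2 pf26631 h26631
  have h26633 := checkRangeG_sound parWF r2 pf26632 h26632
  have h26634 := checkRangeG_sound parWF r2 pf26633 h26633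
  have h26635 := checkRangeG_sound parWF r2 pf26634 h26634
  have h26636 := checkRangeG_sound parWF r2 pf26635 h26635
  have h26637 := checkRangeG_sound parWF r2 pf26636 h26636
  have h26638 := checkRangeG_sound parWF r2 pf26637 h26637
  have h26639 := checkRangeG_sound parWF r2 pf26638 h26638
  have h26640 := checkRangeG_sound parWF r2 pf26639 h26639
  have h26641 := checkRangeG_sound parWF r2 pf26640 h26640
  have h26642 := checkRangeG_sound parWF r2 pf26641 h26641
  have h26643 := checkRangeG_sound parWF r2 pf26642 h26642
  have h26644 := checkRangeG_sound parWF r2 pf26643 h26643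
  have h26645 := checkRangeG_sound parWF r2 pf26644 h26644
  have h26646 := checkRangeG_sound parWF r2 pf26645 h26645
  have h26647 := checkRangeG_sound parWF r2 pf26646 h26646
  have h26648 := checkRangeG_sound parWF r2 pf26647 h26647
  have h26649 := checkRangeG_sound parWF r2 pf26648 h26648
  have h26650 := checkRangeG_sound parWF r2 pf26649 h26649
  exact h26650

theorem c533 (h26650 : ∀ j, j < 86144 → GoodG.{u} par (db j)) : ∀ j, j < 86300 → GoodG.{u} par (db j) := by
  have h26651 := checkRangeG_sound parWF r2 pf26650 h26650
  have h26652 := checkRangeG_sound parWF r2 pf26651 h26651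
  have h26653 := checkRangeG_sound parWF r2 pf26652 h26652
  have h26654 := checkRangeG_sound parWF r2 pf26653 h26653
  have h26655 := checkRangeG_sound parWF r2 pf26654 h26654
  have h26656 := checkRangeG_sound parWF r2 pf26655 h26655
  have h26657 := checkRangeG_sound parWF r2 pf26656 h26656
  have h26658 := checkRangeG_sound parWF r2 pf26657 h26657
  have h26659 := checkRangeG_sound parWF r2 pf26658 h26658
  have h26660 := checkRangeG_sound parWF r2 pf26659 h26659
  have h26661 := checkRangeG_sound parWF r2 pf26660 h26660
  have h26662 := checkRangeG_sound parWF r2 pf26661 h26661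
  have h26663 := checkRangeG_sound parWF r2 pf26662 h26662
  have h26664 := checkRangeG_sound parWF r2 pf26663 h26663
  have h26665 := checkRangeG_sound parWF r2 pf26664 h26664
  have h26666 := checkRangeG_sound parWF r2 pf26665 h26665
  have h26667 := checkRangeG_sound parWF r2 pf26666 h26666
  have h26668 := checkRangeG_sound parWF r2 pf26667 h26667
  have h26669 := checkRangeG_sound parWF r2 pf26668 h26668
  have h26670 := checkRangeG_sound parWF r2 pf26669 h26669
  have h26671 := checkRangeG_sound parWF r2 pf26670 h26670
  have h26672 := checkRangeG_sound parWF r2 pf26671 h26671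
  have h26673 := checkRangeG_sound parWF r2 pf26672 h26672
  have h26674 := checkRangeG_sound parWF r2 pf26673 h26673
  have h26675 := checkRangeG_sound parWF r2 pf26674 h26674
  have h26676 := checkRangeG_sound parWF r2 pf26675 h26675
  have h26677 := checkRangeG_sound parWF r2 pf26676 h26676
  have h26678 := checkRangeG_sound parWF r2 pf26677 h26677
  have h26679 := checkRangeG_sound parWF r2 pf26678 h26678
  have h26680 := checkRangeG_sound parWF r2 pf26679 h26679
  have h26681 := checkRangeG_sound parWF r2 pf26680 h26680
  have h26682 := checkRangeG_sound parWF r2 pf26681 h26681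
  have h26683 := checkRangeG_sound parWF r2 pf26682 h26682
  have h26684 := checkRangeG_sound parWF r2 pf26683 h26683
  have h26685 := checkRangeG_sound parWF r2 pf26684 h26684
  have h26686 := checkRangeG_sound parWF r2 pf26685 h26685
  have h26687 := checkRangeG_sound parWF r2 pf26686 h26686
  have h26688 := checkRangeG_sound parWF r2 pf26687 h26687
  have h26689 := checkRangeG_sound parWF r2 pf26688 h26688
  have h26690 := checkRangeG_sound parWF r2 pf26689 h26689
  have h26691 := checkRangeG_sound parWF r2 pf26690 h26690
  have h26692 := checkRangeG_sound parWF r2 pf26691 h26691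
  have h26693 := checkRangeG_sound parWF r2 pf26692 h26692
  have h26694 := checkRangeG_sound parWF r2 pf26693 h26693
  have h26695 := checkRangeG_sound parWF r2 pf26694 h26694
  have h26696 := checkRangeG_sound parWF r2 pf26695 h26695
  have h26697 := checkRangeG_sound parWF r2 pf26696 h26696
  have h26698 := checkRangeG_sound parWF r2 pf26697 h26697
  have h26699 := checkRangeG_sound parWF r2 pf26698 h26698
  have h26700 := checkRangeG_sound parWF r2 pf26699 h26699
  exact h26700

theorem c534 (h26700 : ∀ j, j < 86300 → GoodG.{u} par (db j)) : ∀ j, j < 86457 → GoodG.{u} par (db j) := by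
  have h26701 := checkRangeG_sound parWF r2 pf26700 h26700
  have h26702 := checkRangeG_sound parWF r2 pf26701 h26701
  have h26703 := checkRangeG_sound parWF r2 pf26702 h26702
  have h26704 := checkRangeG_sound parWF r2 pf26703 h26703
  have h26705 := checkRangeG_sound parWF r2 pf26704 h26704
  have h26706 := checkRangeG_sound parWF r2 pf26705 h26705
  have h26707 := checkRangeG_sound parWF r2 pf26706 h26706
  have h26708 := checkRangeG_sound parWF r2 pf26707 h26707
  have h26709 := checkRangeG_sound parWF r2 pf26708 h26708
  have h26710 := checkRangeG_sound parWF r2 pf26709 h26709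
  have h26711 := checkRangeG_sound parWF r2 pf26710 h26710
  have h26712 := checkRangeG_sound parWF r2 pf26711 h26711
  have h26713 := checkRangeG_sound parWF r2 pf26712 h26712
  have h26714 := checkRangeG_sound parWF r2 pf26713 h26713
  have h26715 := checkRangeG_sound parWF r2 pf26714 h26714
  have h26716 := checkRangeG_sound parWF r2 pf26715 h26715
  have h26717 := checkRangeG_sound parWF r2 pf26716 h26716
  have h26718 := checkRangeG_sound parWF r2 pf26717 h26717
  have h26719 := checkRangeG_sound parWF r2 pf26718 h26718
  have h26720 := checkRangeG_sound parWF r2 pf26719 h26719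
  have h26721 := checkRangeG_sound parWF r2 pf26720 h26720
  have h26722 := checkRangeG_sound parWF r2 pf26721 h26721
  have h26723 := checkRangeG_sound parWF r2 pf26722 h26722
  have h26724 := checkRangeG_sound parWF r2 pf26723 h26723
  have h26725 := checkRangeG_sound parWF r2 pf26724 h26724
  have h26726 := checkRangeG_sound parWF r2 pf26725 h26725
  have h26727 := checkRangeG_sound parWF r2 pf26726 h26726
  have h26728 := checkRangeG_sound parWF r2 pf26727 h26727
  have h26729 := checkRangeG_sound parWF r2 pf26728 h26728
  have h26730 := checkRangeG_sound parWF r2 pf26729 h26729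
  have h26731 := checkRangeG_sound parWF r2 pf26730 h26730
  have h26732 := checkRangeG_sound parWF r2 pf26731 h26731
  have h26733 := checkRangeG_sound parWF r2 pf26732 h26732
  have h26734 := checkRangeG_sound parWF r2 pf26733 h26733
  have h26735 := checkRangeG_sound parWF r2 pf26734 h26734
  have h26736 := checkRangeG_sound parWF r2 pf26735 h26735
  have h26737 := checkRangeG_sound parWF r2 pf26736 h26736
  have h26738 := checkRangeG_sound parWF r2 pf26737 h26737
  have h26739 := checkRangeG_sound parWF r2 pf26738 h26738
  have h26740 := checkRangeG_sound parWF r2 pf26739 h26739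
  have h26741 := checkRangeG_sound parWF r2 pf26740 h26740
  have h26742 := checkRangeG_sound parWF r2 pf26741 h26741
  have h26743 := checkRangeG_sound parWF r2 pf26742 h26742
  have h26744 := checkRangeG_sound parWF r2 pf26743 h26743
  have h26745 := checkRangeG_sound parWF r2 pf26744 h26744
  have h26746 := checkRangeG_sound parWF r2 pf26745 h26745
  have h26747 := checkRangeG_sound parWF r2 pf26746 h26746
  have h26748 := checkRangeG_sound parWF r2 pf26747 h26747
  have h26749 := checkRangeG_sound parWF r2 pf26748 h26748
  have h26750 := checkRangeG_sound parWF r2 pf26749 h26749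
  exact h26750

theorem c535 (h26750 : ∀ j, j < 86457 → GoodG.{u} par (db j)) : ∀ j, j < 86605 → GoodG.{u} par (db j) := by
  have h26751 := checkRangeG_sound parWF r2 pf26750 h26750
  have h26752 := checkRangeG_sound parWF r2 pf26751 h26751
  have h26753 := checkRangeG_sound parWF r2 pf26752 h26752
  have h26754 := checkRangeG_sound parWF r2 pf26753 h26753
  have h26755 := checkRangeG_sound parWF r2 pf26754 h26754
  have h26756 := checkRangeG_sound parWF r2 pf26755 h26755
  have h26757 := checkRangeG_sound parWF r2 pf26756 h26756
  have h26758 := checkRangeG_sound parWF r2 pf26757 h26757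
  have h26759 := checkRangeG_sound parWF r2 pf26758 h26758
  have h26760 := checkRangeG_sound parWF r2 pf26759 h26759
  have h26761 := checkRangeG_sound parWF r2 pf26760 h26760
  have h26762 := checkRangeG_sound parWF r2 pf26761 h26761
  have h26763 := checkRangeG_sound parWF r2 pf26762 h26762
  have h26764 := checkRangeG_sound parWF r2 pf26763 h26763
  have h26765 := checkRangeG_sound parWF r2 pf26764 h26764
  have h26766 := checkRangeG_sound parWF r2 pf26765 h26765
  have h26767 := checkRangeG_sound parWF r2 pf26766 h26766
  have h26768 := checkRangeG_sound parWF r2 pf26767 h26767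
  have h26769 := checkRangeG_sound parWF r2 pf26768 h26768
  have h26770 := checkRangeG_sound parWF r2 pf26769 h26769
  have h26771 := checkRangeG_sound parWF r2 pf26770 h26770
  have h26772 := checkRangeG_sound parWF r2 pf26771 h26771
  have h26773 := checkRangeG_sound parWF r2 pf26772 h26772
  have h26774 := checkRangeG_sound parWF r2 pf26773 h26773
  have h26775 := checkRangeG_sound parWF r2 pf26774 h26774
  have h26776 := checkRangeG_sound parWF r2 pf26775 h26775
  have h26777 := checkRangeG_sound parWF r2 pf26776 h26776
  have h26778 := checkRangeG_sound parWF r2 pf26777 h26777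
  have h26779 := checkRangeG_sound parWF r2 pf26778 h26778
  have h26780 := checkRangeG_sound parWF r2 pf26779 h26779
  have h26781 := checkRangeG_sound parWF r2 pf26780 h26780
  have h26782 := checkRangeG_sound parWF r2 pf26781 h26781
  have h26783 := checkRangeG_sound parWF r2 pf26782 h26782
  have h26784 := checkRangeG_sound parWF r2 pf26783 h26783
  have h26785 := checkRangeG_sound parWF r2 pf26784 h26784
  have h26786 := checkRangeG_sound parWF r2 pf26785 h26785
  have h26787 := checkRangeG_sound parWF r2 pf26786 h26786
  have h26788 := checkRangeG_sound parWF r2 pf26787 h26787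
  have h26789 := checkRangeG_sound parWF r2 pf26788 h26788
  have h26790 := checkRangeG_sound parWF r2 pf26789 h26789
  have h26791 := checkRangeG_sound parWF r2 pf26790 h26790
  have h26792 := checkRangeG_sound parWF r2 pf26791 h26791
  have h26793 := checkRangeG_sound parWF r2 pf26792 h26792
  have h26794 := checkRangeG_sound parWF r2 pf26793 h26793
  have h26795 := checkRangeG_sound parWF r2 pf26794 h26794
  have h26796 := checkRangeG_sound parWF r2 pf26795 h26795
  have h26797 := checkRangeG_sound parWF r2 pf26796 h26796
  have h26798 := checkRangeG_sound parWF r2 pf26797 h26797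
  have h26799 := checkRangeG_sound parWF r2 pf26798 h26798
  have h26800 := checkRangeG_sound parWF r2 pf26799 h26799
  exact h26800

theorem c536 (h26800 : ∀ j, j < 86605 → GoodG.{u} par (db j)) : ∀ j, j < 86769 → GoodG.{u} par (db j) := by
  have h26801 := checkRangeG_sound parWF r2 pf26800 h26800
  have h26802 := checkRangeG_sound parWF r2 pf26801 h26801
  have h26803 := checkRangeG_sound parWF r2 pf26802 h26802
  have h26804 := checkRangeG_sound parWF r2 pf26803 h26803
  have h26805 := checkRangeG_sound parWF r2 pf26804 h26804
  have h26806 := checkRangeG_sound parWF r2 pf26805 h26805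
  have h26807 := checkRangeG_sound parWF r2 pf26806 h26806
  have h26808 := checkRangeG_sound parWF r2 pf26807 h26807
  have h26809 := checkRangeG_sound parWF r2 pf26808 h26808
  have h26810 := checkRangeG_sound parWF r2 pf26809 h26809
  have h26811 := checkRangeG_sound parWF r2 pf26810 h26810
  have h26812 := checkRangeG_sound parWF r2 pf26811 h26811
  have h26813 := checkRangeG_sound parWF r2 pf26812 h26812
  have h26814 := checkRangeG_sound parWF r2 pf26813 h26813
  have h26815 := checkRangeG_sound parWF r2 pf26814 h26814
  have h26816 := checkRangeG_sound parWF r2 pf26815 h26815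
  have h26817 := checkRangeG_sound parWF r2 pf26816 h26816
  have h26818 := checkRangeG_sound parWF r2 pf26817 h26817
  have h26819 := checkRangeG_sound parWF r2 pf26818 h26818
  have h26820 := checkRangeG_sound parWF r2 pf26819 h26819
  have h26821 := checkRangeG_sound parWF r2 pf26820 h26820
  have h26822 := checkRangeG_sound parWF r2 pf26821 h26821
  have h26823 := checkRangeG_sound parWF r2 pf26822 h26822
  have h26824 := checkRangeG_sound parWF r2 pf26823 h26823
  have h26825 := checkRangeG_sound parWF r2 pf26824 h26824
  have h26826 := checkRangeG_sound parWF r2 pf26825 h26825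
  have h26827 := checkRangeG_sound parWF r2 pf26826 h26826
  have h26828 := checkRangeG_sound parWF r2 pf26827 h26827
  have h26829 := checkRangeG_sound parWF r2 pf26828 h26828
  have h26830 := checkRangeG_sound parWF r2 pf26829 h26829
  have h26831 := checkRangeG_sound parWF r2 pf26830 h26830
  have h26832 := checkRangeG_sound parWF r2 pf26831 h26831
  have h26833 := checkRangeG_sound parWF r2 pf26832 h26832
  have h26834 := checkRangeG_sound parWF r2 pf26833 h26833
  have h26835 := checkRangeG_sound parWF r2 pf26834 h26834
  have h26836 := checkRangeG_sound parWF r2 pf26835 h26835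
  have h26837 := checkRangeG_sound parWF r2 pf26836 h26836
  have h26838 := checkRangeG_sound parWF r2 pf26837 h26837
  have h26839 := checkRangeG_sound parWF r2 pf26838 h26838
  have h26840 := checkRangeG_sound parWF r2 pf26839 h26839
  have h26841 := checkRangeG_sound parWF r2 pf26840 h26840
  have h26842 := checkRangeG_sound parWF r2 pf26841 h26841
  have h26843 := checkRangeG_sound parWF r2 pf26842 h26842
  have h26844 := checkRangeG_sound parWF r2 pf26843 h26843
  have h26845 := checkRangeG_sound parWF r2 pf26844 h26844
  have h26846 := checkRangeG_sound parWF r2 pf26845 h26845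
  have h26847 := checkRangeG_sound parWF r2 pf26846 h26846
  have h26848 := checkRangeG_sound parWF r2 pf26847 h26847
  have h26849 := checkRangeG_sound parWF r2 pf26848 h26848
  have h26850 := checkRangeG_sound parWF r2 pf26849 h26849
  exact h26850

theorem c537 (h26850 : ∀ j, j < 86769 → GoodG.{u} par (db j)) : ∀ j, j < 86948 → GoodG.{u} par (db j) := by
  have h26851 := checkRangeG_sound parWF r2 pf26850 h26850
  have h26852 := checkRangeG_sound parWF r2 pf26851 h26851
  have h26853 := checkRangeG_sound parWF r2 pf26852 h26852
  have h26854 := checkRangeG_sound parWF r2 pf26853 h26853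
  have h26855 := checkRangeG_sound parWF r2 pf26854 h26854
  have h26856 := checkRangeG_sound parWF r2 pf26855 h26855
  have h26857 := checkRangeG_sound parWF r2 pf26856 h26856
  have h26858 := checkRangeG_sound parWF r2 pf26857 h26857
  have h26859 := checkRangeG_sound parWF r2 pf26858 h26858
  have h26860 := checkRangeG_sound parWF r2 pf26859 h26859
  have h26861 := checkRangeG_sound parWF r2 pf26860 h26860
  have h26862 := checkRangeG_sound parWF r2 pf26861 h26861
  have h26863 := checkRangeG_sound parWF r2 pf26862 h26862
  have h26864 := checkRangeG_sound parWF r2 pf26863 h26863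
  have h26865 := checkRangeG_sound parWF r2 pf26864 h26864
  have h26866 := checkRangeG_sound parWF r2 pf26865 h26865
  have h26867 := checkRangeG_sound parWF r2 pf26866 h26866
  have h26868 := checkRangeG_sound parWF r2 pf26867 h26867
  have h26869 := checkRangeG_sound parWF r2 pf26868 h26868
  have h26870 := checkRangeG_sound parWF r2 pf26869 h26869
  have h26871 := checkRangeG_sound parWF r2 pf26870 h26870
  have h26872 := checkRangeG_sound parWF r2 pf26871 h26871
  have h26873 := checkRangeG_sound parWF r2 pf26872 h26872
  have h26874 := checkRangeG_sound parWF r2 pf26873 h26873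
  have h26875 := checkRangeG_sound parWF r2 pf26874 h26874
  have h26876 := checkRangeG_sound parWF r2 pf26875 h26875
  have h26877 := checkRangeG_sound parWF r2 pf26876 h26876
  have h26878 := checkRangeG_sound parWF r2 pf26877 h26877
  have h26879 := checkRangeG_sound parWF r2 pf26878 h26878
  have h26880 := checkRangeG_sound parWF r2 pf26879 h26879
  have h26881 := checkRangeG_sound parWF r2 pf26880 h26880
  have h26882 := checkRangeG_sound parWF r2 pf26881 h26881
  have h26883 := checkRangeG_sound parWF r2 pf26882 h26882
  have h26884 := checkRangeG_sound parWF r2 pf26883 h26883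
  have h26885 := checkRangeG_sound parWF r2 pf26884 h26884
  have h26886 := checkRangeG_sound parWF r2 pf26885 h26885
  have h26887 := checkRangeG_sound parWF r2 pf26886 h26886
  have h26888 := checkRangeG_sound parWF r2 pf26887 h26887
  have h26889 := checkRangeG_sound parWF r2 pf26888 h26888
  have h26890 := checkRangeG_sound parWF r2 pf26889 h26889
  have h26891 := checkRangeG_sound parWF r2 pf26890 h26890
  have h26892 := checkRangeG_sound parWF r2 pf26891 h26891
  have h26893 := checkRangeG_sound parWF r2 pf26892 h26892
  have h26894 := checkRangeG_sound parWF r2 pf26893 h26893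
  have h26895 := checkRangeG_sound parWF r2 pf26894 h26894
  have h26896 := checkRangeG_sound parWF r2 pf26895 h26895
  have h26897 := checkRangeG_sound parWF r2 pf26896 h26896
  have h26898 := checkRangeG_sound parWF r2 pf26897 h26897
  have h26899 := checkRangeG_sound parWF r2 pf26898 h26898
  have h26900 := checkRangeG_sound parWF r2 pf26899 h26899
  exact h26900

theorem c538 (h26900 : ∀ j, j < 86948 → GoodG.{u} par (db j)) : ∀ j, j < 87121 → GoodG.{u} par (db j) := by
  have h26901 := checkRangeG_sound parWF r2 pf26900 h26900
  have h26902 := checkRangeG_sound parWF r2 pf26901 h26901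
  have h26903 := checkRangeG_sound parWF r2 pf26902 h26902
  have h26904 := checkRangeG_sound parWF r2 pf26903 h26903
  have h26905 := checkRangeG_sound parWF r2 pf26904 h26904
  have h26906 := checkRangeG_sound parWF r2 pf26905 h26905
  have h26907 := checkRangeG_sound parWF r2 pf26906 h26906
  have h26908 := checkRangeG_sound parWF r2 pf26907 h26907
  have h26909 := checkRangeG_sound parWF r2 pf26908 h26908
  have h26910 := checkRangeG_sound parWF r2 pf26909 h26909
  have h26911 := checkRangeG_sound parWF r2 pf26910 h26910
  have h26912 := checkRangeG_sound parWF r2 pf26911 h26911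
  have h26913 := checkRangeG_sound parWF r2 pf26912 h26912
  have h26914 := checkRangeG_sound parWF r2 pf26913 h26913
  have h26915 := checkRangeG_sound parWF r2 pf26914 h26914
  have h26916 := checkRangeG_sound parWF r2 pf26915 h26915
  have h26917 := checkRangeG_sound parWF r2 pf26916 h26916
  have h26918 := checkRangeG_sound parWF r2 pf26917 h26917
  have h26919 := checkRangeG_sound parWF r2 pf26918 h26918
  have h26920 := checkRangeG_sound parWF r2 pf26919 h26919
  have h26921 := checkRangeG_sound parWF r2 pf26920 h26920
  have h26922 := checkRangeG_sound parWF r2 pf26921 h26921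
  have h26923 := checkRangeG_sound parWF r2 pf26922 h26922
  have h26924 := checkRangeG_sound parWF r2 pf26923 h26923
  have h26925 := checkRangeG_sound parWF r2 pf26924 h26924
  have h26926 := checkRangeG_sound parWF r2 pf26925 h26925
  have h26927 := checkRangeG_sound parWF r2 pf26926 h26926
  have h26928 := checkRangeG_sound parWF r2 pf26927 h26927
  have h26929 := checkRangeG_sound parWF r2 pf26928 h26928
  have h26930 := checkRangeG_sound parWF r2 pf26929 h26929
  have h26931 := checkRangeG_sound parWF r2 pf26930 h26930
  have h26932 := checkRangeG_sound parWF r2 pf26931 h26931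
  have h26933 := checkRangeG_sound parWF r2 pf26932 h26932
  have h26934 := checkRangeG_sound parWF r2 pf26933 h26933
  have h26935 := checkRangeG_sound parWF r2 pf26934 h26934
  have h26936 := checkRangeG_sound parWF r2 pf26935 h26935
  have h26937 := checkRangeG_sound parWF r2 pf26936 h26936
  have h26938 := checkRangeG_sound parWF r2 pf26937 h26937
  have h26939 := checkRangeG_sound parWF r2 pf26938 h26938
  have h26940 := checkRangeG_sound parWF r2 pf26939 h26939
  have h26941 := checkRangeG_sound parWF r2 pf26940 h26940
  have h26942 := checkRangeG_sound parWF r2 pf26941 h26941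
  have h26943 := checkRangeG_sound parWF r2 pf26942 h26942
  have h26944 := checkRangeG_sound parWF r2 pf26943 h26943
  have h26945 := checkRangeG_sound parWF r2 pf26944 h26944
  have h26946 := checkRangeG_sound parWF r2 pf26945 h26945
  have h26947 := checkRangeG_sound parWF r2 pf26946 h26946
  have h26948 := checkRangeG_sound parWF r2 pf26947 h26947
  have h26949 := checkRangeG_sound parWF r2 pf26948 h26948
  have h26950 := checkRangeG_sound parWF r2 pf26949 h26949
  exact h26950

theorem c539 (h26950 : ∀ j, j < 87121 → GoodG.{u} par (db j)) : ∀ j, j < 87282 → GoodG.{u} par (db j) := by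
  have h26951 := checkRangeG_sound parWF r2 pf26950 h26950
  have h26952 := checkRangeG_sound parWF r2 pf26951 h26951
  have h26953 := checkRangeG_sound parWF r2 pf26952 h26952
  have h26954 := checkRangeG_sound parWF r2 pf26953 h26953
  have h26955 := checkRangeG_sound parWF r2 pf26954 h26954
  have h26956 := checkRangeG_sound parWF r2 pf26955 h26955
  have h26957 := checkRangeG_sound parWF r2 pf26956 h26956
  have h26958 := checkRangeG_sound parWF r2 pf26957 h26957
  have h26959 := checkRangeG_sound parWF r2 pf26958 h26958
  have h26960 := checkRangeG_sound parWF r2 pf26959 h26959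
  have h26961 := checkRangeG_sound parWF r2 pf26960 h26960
  have h26962 := checkRangeG_sound parWF r2 pf26961 h26961
  have h26963 := checkRangeG_sound parWF r2 pf26962 h26962
  have h26964 := checkRangeG_sound parWF r2 pf26963 h26963
  have h26965 := checkRangeG_sound parWF r2 pf26964 h26964
  have h26966 := checkRangeG_sound parWF r2 pf26965 h26965
  have h26967 := checkRangeG_sound parWF r2 pf26966 h26966
  have h26968 := checkRangeG_sound parWF r2 pf26967 h26967
  have h26969 := checkRangeG_sound parWF r2 pf26968 h26968
  have h26970 := checkRangeG_sound parWF r2 pf26969 h26969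
  have h26971 := checkRangeG_sound parWF r2 pf26970 h26970
  have h26972 := checkRangeG_sound parWF r2 pf26971 h26971
  have h26973 := checkRangeG_sound parWF r2 pf26972 h26972
  have h26974 := checkRangeG_sound parWF r2 pf26973 h26973
  have h26975 := checkRangeG_sound parWF r2 pf26974 h26974
  have h26976 := checkRangeG_sound parWF r2 pf26975 h26975
  have h26977 := checkRangeG_sound parWF r2 pf26976 h26976
  have h26978 := checkRangeG_sound parWF r2 pf26977 h26977
  have h26979 := checkRangeG_sound parWF r2 pf26978 h26978
  have h26980 := checkRangeG_sound parWF r2 pf26979 h26979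
  have h26981 := checkRangeG_sound parWF r2 pf26980 h26980
  have h26982 := checkRangeG_sound parWF r2 pf26981 h26981
  have h26983 := checkRangeG_sound parWF r2 pf26982 h26982
  have h26984 := checkRangeG_sound parWF r2 pf26983 h26983
  have h26985 := checkRangeG_sound parWF r2 pf26984 h26984
  have h26986 := checkRangeG_sound parWF r2 pf26985 h26985
  have h26987 := checkRangeG_sound parWF r2 pf26986 h26986
  have h26988 := checkRangeG_sound parWF r2 pf26987 h26987
  have h26989 := checkRangeG_sound parWF r2 pf26988 h26988
  have h26990 := checkRangeG_sound parWF r2 pf26989 h26989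
  have h26991 := checkRangeG_sound parWF r2 pf26990 h26990
  have h26992 := checkRangeG_sound parWF r2 pf26991 h26991
  have h26993 := checkRangeG_sound parWF r2 pf26992 h26992
  have h26994 := checkRangeG_sound parWF r2 pf26993 h26993
  have h26995 := checkRangeG_sound parWF r2 pf26994 h26994
  have h26996 := checkRangeG_sound parWF r2 pf26995 h26995
  have h26997 := checkRangeG_sound parWF r2 pf26996 h26996
  have h26998 := checkRangeG_sound parWF r2 pf26997 h26997
  have h26999 := checkRangeG_sound parWF r2 pf26998 h26998
  have h27000 := checkRangeG_sound parWF r2 pf26999 h26999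
  exact h27000


end Vale.Agent.P045g.C61
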