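import Vale.Agent.P045g.C61.WF
import Vale.Agent.P045g.C61.Pf450
import Vale.Agent.P045g.C61.Pf451
import Vale.Agent.P045g.C61.Pf452
import Vale.Agent.P045g.C61.Pf453
import Vale.Agent.P045g.C61.Pf454
import Vale.Agent.P045g.C61.Pf455
import Vale.Agent.P045g.C61.Pf456
import Vale.Agent.P045g.C61.Pf457
import Vale.Agent.P045g.C61.Pf458
import Vale.Agent.P045g.C61.Pf459

namespace Vale.Agent.P045g.C61

open Vale.Agent.P045b Vale.Agent.P045g

universe u

theorem c540 (h27000 : ∀ j, j < 87282 → GoodG.{u} par (db j)) : ∀ j, j < 87504 → GoodG.{u} par (db j) := by
  have h27001 := checkRangeG_sound parWF r2 pf27000 h27000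
  have h27002 := checkRangeG_sound parWF r2 pf27001 h27001
  have h27003 := checkRangeG_sound parWF r2 pf27002 h27002
  have h27004 := checkRangeG_sound parWF r2 pf27003 h27003
  have h27005 := checkRangeG_sound parWF r2 pf27004 h27004
  have h27006 := checkRangeG_sound parWF r2 pf27005 h27005
  have h27007 := checkRangeG_sound parWF r2 pf27006 h27006
  have h27008 := checkRangeG_sound parWF r2 pf27007 h27007
  have h27009 := checkRangeG_sound parWF r2 pf27008 h27008
  have h27010 := checkRangeG_sound parWF r2 pf27009 h27009
  have h27011 := checkRangeG_sound parWF r2 pf27010 h27010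
  have h27012 := checkRangeG_sound parWF r2 pf27011 h27011
  have h27013 := checkRangeG_sound parWF r2 pf27012 h27012
  have h27014 := checkRangeG_sound parWF r2 pf27013 h27013
  have h27015 := checkRangeG_sound parWF r2 pf27014 h27014
  have h27016 := checkRangeG_sound parWF r2 pf27015 h27015
  have h27017 := checkRangeG_sound parWF r2 pf27016 h27016
  have h27018 := checkRangeG_sound parWF r2 pf27017 h27017
  have h27019 := checkRangeG_sound parWF r2 pf27018 h27018
  have h27020 := checkRangeG_sound parWF r2 pf27019 h27019
  have h27021 := checkRangeG_sound parWF r2 pf27020 h27020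
  have h27022 := checkRangeG_sound parWF r2 pf27021 h27021
  have h27023 := checkRangeG_sound parWF r2 pf27022 h27022
  have h27024 := checkRangeG_sound parWF r2 pf27023 h27023
  have h27025 := checkRangeG_sound parWF r2 pf27024 h27024
  have h27026 := checkRangeG_sound parWF r2 pf27025 h27025
  have h27027 := checkRangeG_sound parWF r2 pf27026 h27026
  have h27028 := checkRangeG_sound parWF r2 pf27027 h27027
  have h27029 := checkRangeG_sound parWF r2 pf27028 h27028
  have h27030 := checkRangeG_sound parWF r2 pf27029 h27029
  have h27031 := checkRangeG_sound parWF r2 pf27030 h27030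
  have h27032 := checkRangeG_sound parWF r2 pf27031 h27031
  have h27033 := checkRangeG_sound parWF r2 pf27032 h27032
  have h27034 := checkRangeG_sound parWF r2 pf27033 h27033
  have h27035 := checkRangeG_sound parWF r2 pf27034 h27034
  have h27036 := checkRangeG_sound parWF r2 pf27035 h27035
  have h27037 := checkRangeG_sound parWF r2 pf27036 h27036
  have h27038 := checkRangeG_sound parWF r2 pf27037 h27037
  have h27039 := checkRangeG_sound parWF r2 pf27038 h27038
  have h27040 := checkRangeG_sound parWF r2 pf27039 h27039
  have h27041 := checkRangeG_sound parWF r2 pf27040 h27040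
  have h27042 := checkRangeG_sound parWF r2 pf27041 h27041
  have h27043 := checkRangeG_sound parWF r2 pf27042 h27042
  have h27044 := checkRangeG_sound parWF r2 pf27043 h27043
  have h27045 := checkRangeG_sound parWF r2 pf27044 h27044
  have h27046 := checkRangeG_sound parWF r2 pf27045 h27045
  have h27047 := checkRangeG_sound parWF r2 pf27046 h27046
  have h27048 := checkRangeG_sound parWF r2 pf27047 h27047
  have h27049 := checkRangeG_sound parWF r2 pf27048 h27048
  have h27050 := checkRangeG_sound parWF r2 pf27049 h27049
  exact h27050

theorem c541 (h27050 : ∀ j, j < 87504 → GoodG.{u} par (db j)) : ∀ j, j < 87717 → GoodG.{u} par (db j) := by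
  have h27051 := checkRangeG_sound parWF r2 pf27050 h27050
  have h27052 := checkRangeG_sound parWF r2 pf27051 h27051
  have h27053 := checkRangeG_sound parWF r2 pf27052 h27052
  have h27054 := checkRangeG_sound parWF r2 pf27053 h27053
  have h27055 := checkRangeG_sound parWF r2 pf27054 h27054
  have h27056 := checkRangeG_sound parWF r2 pf27055 h27055
  have h27057 := checkRangeG_sound parWF r2 pf27056 h27056
  have h27058 := checkRangeG_sound parWF r2 pf27057 h27057
  have h27059 := checkRangeG_sound parWF r2 pf27058 h27058
  have h27060 := checkRangeG_sound parWF r2 pf27059 h27059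
  have h27061 := checkRangeG_sound parWF r2 pf27060 h27060
  have h27062 := checkRangeG_sound parWF r2 pf27061 h27061
  have h27063 := checkRangeG_sound parWF r2 pf27062 h27062
  have h27064 := checkRangeG_sound parWF r2 pf27063 h27063
  have h27065 := checkRangeG_sound parWF r2 pf27064 h27064
  have h27066 := checkRangeG_sound parWF r2 pf27065 h27065
  have h27067 := checkRangeG_sound parWF r2 pf27066 h27066
  have h27068 := checkRangeG_sound parWF r2 pf27067 h27067
  have h27069 := checkRangeG_sound parWF r2 pf27068 h27068
  have h27070 := checkRangeG_sound parWF r2 pf27069 h27069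
  have h27071 := checkRangeG_sound parWF r2 pf27070 h27070
  have h27072 := checkRangeG_sound parWF r2 pf27071 h27071
  have h27073 := checkRangeG_sound parWF r2 pf27072 h27072
  have h27074 := checkRangeG_sound parWF r2 pf27073 h27073
  have h27075 := checkRangeG_sound parWF r2 pf27074 h27074
  have h27076 := checkRangeG_sound parWF r2 pf27075 h27075
  have h27077 := checkRangeG_sound parWF r2 pf27076 h27076
  have h27078 := checkRangeG_sound parWF r2 pf27077 h27077
  have h27079 := checkRangeG_sound parWF r2 pf27078 h27078
  have h27080 := checkRangeG_sound parWF r2 pf27079 h27079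
  have h27081 := checkRangeG_sound parWF r2 pf27080 h27080
  have h27082 := checkRangeG_sound parWF r2 pf27081 h27081
  have h27083 := checkRangeG_sound parWF r2 pf27082 h27082
  have h27084 := checkRangeG_sound parWF r2 pf27083 h27083
  have h27085 := checkRangeG_sound parWF r2 pf27084 h27084
  have h27086 := checkRangeG_sound parWF r2 pf27085 h27085
  have h27087 := checkRangeG_sound parWF r2 pf27086 h27086
  have h27088 := checkRangeG_sound parWF r2 pf27087 h27087
  have h27089 := checkRangeG_sound parWF r2 pf27088 h27088
  have h27090 := checkRangeG_sound parWF r2 pf27089 h27089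
  have h27091 := checkRangeG_sound parWF r2 pf27090 h27090
  have h27092 := checkRangeG_sound parWF r2 pf27091 h27091
  have h27093 := checkRangeG_sound parWF r2 pf27092 h27092
  have h27094 := checkRangeG_sound parWF r2 pf27093 h27093
  have h27095 := checkRangeG_sound parWF r2 pf27094 h27094
  have h27096 := checkRangeG_sound parWF r2 pf27095 h27095
  have h27097 := checkRangeG_sound parWF r2 pf27096 h27096
  have h27098 := checkRangeG_sound parWF r2 pf27097 h27097
  have h27099 := checkRangeG_sound parWF r2 pf27098 h27098
  have h27100 := checkRangeG_sound parWF r2 pf27099 h27099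
  exact h27100

theorem c542 (h27100 : ∀ j, j < 87717 → GoodG.{u} par (db j)) : ∀ j, j < 87938 → GoodG.{u} par (db j) := by
  have h27101 := checkRangeG_sound parWF r2 pf27100 h27100
  have h27102 := checkRangeG_sound parWF r2 pf27101 h27101
  have h27103 := checkRangeG_sound parWF r2 pf27102 h27102
  have h27104 := checkRangeG_sound parWF r2 pf27103 h27103
  have h27105 := checkRangeG_sound parWF r2 pf27104 h27104
  have h27106 := checkRangeG_sound parWF r2 pf27105 h27105
  have h27107 := checkRangeG_sound parWF r2 pf27106 h27106
  have h27108 := checkRangeG_sound parWF r2 pf27107 h27107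
  have h27109 := checkRangeG_sound parWF r2 pf27108 h27108
  have h27110 := checkRangeG_sound parWF r2 pf27109 h27109
  have h27111 := checkRangeG_sound parWF r2 pf27110 h27110
  have h27112 := checkRangeG_sound parWF r2 pf27111 h27111
  have h27113 := checkRangeG_sound parWF r2 pf27112 h27112
  have h27114 := checkRangeG_sound parWF r2 pf27113 h27113
  have h27115 := checkRangeG_sound parWF r2 pf27114 h27114
  have h27116 := checkRangeG_sound parWF r2 pf27115 h27115
  have h27117 := checkRangeG_sound parWF r2 pf27116 h27116
  have h27118 := checkRangeG_sound parWF r2 pf27117 h27117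
  have h27119 := checkRangeG_sound parWF r2 pf27118 h27118
  have h27120 := checkRangeG_sound parWF r2 pf27119 h27119
  have h27121 := checkRangeG_sound parWF r2 pf27120 h27120
  have h27122 := checkRangeG_sound parWF r2 pf27121 h27121
  have h27123 := checkRangeG_sound parWF r2 pf27122 h27122
  have h27124 := checkRangeG_sound parWF r2 pf27123 h27123
  have h27125 := checkRangeG_sound parWF r2 pf27124 h27124
  have h27126 := checkRangeG_sound parWF r2 pf27125 h27125
  have h27127 := checkRangeG_sound parWF r2 pf27126 h27126
  have h27128 := checkRangeG_sound parWF r2 pf27127 h27127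
  have h27129 := checkRangeG_sound parWF r2 pf27128 h27128
  have h27130 := checkRangeG_sound parWF r2 pf27129 h27129
  have h27131 := checkRangeG_sound parWF r2 pf27130 h27130
  have h27132 := checkRangeG_sound parWF r2 pf27131 h27131
  have h27133 := checkRangeG_sound parWF r2 pf27132 h27132
  have h27134 := checkRangeG_sound parWF r2 pf27133 h27133
  have h27135 := checkRangeG_sound parWF r2 pf27134 h27134
  have h27136 := checkRangeG_sound parWF r2 pf27135 h27135
  have h27137 := checkRangeG_sound parWF r2 pf27136 h27136
  have h27138 := checkRangeG_sound parWF r2 pf27137 h27137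
  have h27139 := checkRangeG_sound parWF r2 pf27138 h27138
  have h27140 := checkRangeG_sound parWF r2 pf27139 h27139
  have h27141 := checkRangeG_sound parWF r2 pf27140 h27140
  have h27142 := checkRangeG_sound parWF r2 pf27141 h27141
  have h27143 := checkRangeG_sound parWF r2 pf27142 h27142
  have h27144 := checkRangeG_sound parWF r2 pf27143 h27143
  have h27145 := checkRangeG_sound parWF r2 pf27144 h27144
  have h27146 := checkRangeG_sound parWF r2 pf27145 h27145
  have h27147 := checkRangeG_sound parWF r2 pf27146 h27146
  have h27148 := checkRangeG_sound parWF r2 pf27147 h27147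
  have h27149 := checkRangeG_sound parWF r2 pf27148 h27148
  have h27150 := checkRangeG_sound parWF r2 pf27149 h27149
  exact h27150

theorem c543 (h27150 : ∀ j, j < 87938 → GoodG.{u} par (db j)) : ∀ j, j < 88151 → GoodG.{u} par (db j) := by
  have h27151 := checkRangeG_sound parWF r2 pf27150 h27150
  have h27152 := checkRangeG_sound parWF r2 pf27151 h27151
  have h27153 := checkRangeG_sound parWF r2 pf27152 h27152
  have h27154 := checkRangeG_sound parWF r2 pf27153 h27153
  have h27155 := checkRangeG_sound parWF r2 pf27154 h27154
  have h27156 := checkRangeG_sound parWF r2 pf27155 h27155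
  have h27157 := checkRangeG_sound parWF r2 pf27156 h27156
  have h27158 := checkRangeG_sound parWF r2 pf27157 h27157
  have h27159 := checkRangeG_sound parWF r2 pf27158 h27158
  have h27160 := checkRangeG_sound parWF r2 pf27159 h27159
  have h27161 := checkRangeG_sound parWF r2 pf27160 h27160
  have h27162 := checkRangeG_sound parWF r2 pf27161 h27161
  have h27163 := checkRangeG_sound parWF r2 pf27162 h27162
  have h27164 := checkRangeG_sound parWF r2 pf27163 h27163
  have h27165 := checkRangeG_sound parWF r2 pf27164 h27164
  have h27166 := checkRangeG_sound parWF r2 pf27165 h27165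
  have h27167 := checkRangeG_sound parWF r2 pf27166 h27166
  have h27168 := checkRangeG_sound parWF r2 pf27167 h27167
  have h27169 := checkRangeG_sound parWF r2 pf27168 h27168
  have h27170 := checkRangeG_sound parWF r2 pf27169 h27169
  have h27171 := checkRangeG_sound parWF r2 pf27170 h27170
  have h27172 := checkRangeG_sound parWF r2 pf27171 h27171
  have h27173 := checkRangeG_sound parWF r2 pf27172 h27172
  have h27174 := checkRangeG_sound parWF r2 pf27173 h27173
  have h27175 := checkRangeG_sound parWF r2 pf27174 h27174
  have h27176 := checkRangeG_sound parWF r2 pf27175 h27175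
  have h27177 := checkRangeG_sound parWF r2 pf27176 h27176
  have h27178 := checkRangeG_sound parWF r2 pf27177 h27177
  have h27179 := checkRangeG_sound parWF r2 pf27178 h27178
  have h27180 := checkRangeG_sound parWF r2 pf27179 h27179
  have h27181 := checkRangeG_sound parWF r2 pf27180 h27180
  have h27182 := checkRangeG_sound parWF r2 pf27181 h27181
  have h27183 := checkRangeG_sound parWF r2 pf27182 h27182
  have h27184 := checkRangeG_sound parWF r2 pf27183 h27183
  have h27185 := checkRangeG_sound parWF r2 pf27184 h27184
  have h27186 := checkRangeG_sound parWF r2 pf27185 h27185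
  have h27187 := checkRangeG_sound parWF r2 pf27186 h27186
  have h27188 := checkRangeG_sound parWF r2 pf27187 h27187
  have h27189 := checkRangeG_sound parWF r2 pf27188 h27188
  have h27190 := checkRangeG_sound parWF r2 pf27189 h27189
  have h27191 := checkRangeG_sound parWF r2 pf27190 h27190
  have h27192 := checkRangeG_sound parWF r2 pf27191 h27191
  have h27193 := checkRangeG_sound parWF r2 pf27192 h27192
  have h27194 := checkRangeG_sound parWF r2 pf27193 h27193
  have h27195 := checkRangeG_sound parWF r2 pf27194 h27194
  have h27196 := checkRangeG_sound parWF r2 pf27195 h27195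
  have h27197 := checkRangeG_sound parWF r2 pf27196 h27196
  have h27198 := checkRangeG_sound parWF r2 pf27197 h27197
  have h27199 := checkRangeG_sound parWF r2 pf27198 h27198
  have h27200 := checkRangeG_sound parWF r2 pf27199 h27199
  exact h27200

theorem c544 (h27200 : ∀ j, j < 88151 → GoodG.{u} par (db j)) : ∀ j, j < 88356 → GoodG.{u} par (db j) := by
  have h27201 := checkRangeG_sound parWF r2 pf27200 h27200
  have h27202 := checkRangeG_sound parWF r2 pf27201 h27201
  have h27203 := checkRangeG_sound parWF r2 pf27202 h27202
  have h27204 := checkRangeG_sound parWF r2 pf27203 h27203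
  have h27205 := checkRangeG_sound parWF r2 pf27204 h27204
  have h27206 := checkRangeG_sound parWF r2 pf27205 h27205
  have h27207 := checkRangeG_sound parWF r2 pf27206 h27206
  have h27208 := checkRangeG_sound parWF r2 pf27207 h27207
  have h27209 := checkRangeG_sound parWF r2 pf27208 h27208
  have h27210 := checkRangeG_sound parWF r2 pf27209 h27209
  have h27211 := checkRangeG_sound parWF r2 pf27210 h27210
  have h27212 := checkRangeG_sound parWF r2 pf27211 h27211
  have h27213 := checkRangeG_sound parWF r2 pf27212 h27212
  have h27214 := checkRangeG_sound parWF r2 pf27213 h27213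
  have h27215 := checkRangeG_sound parWF r2 pf27214 h27214
  have h27216 := checkRangeG_sound parWF r2 pf27215 h27215
  have h27217 := checkRangeG_sound parWF r2 pf27216 h27216
  have h27218 := checkRangeG_sound parWF r2 pf27217 h27217
  have h27219 := checkRangeG_sound parWF r2 pf27218 h27218
  have h27220 := checkRangeG_sound parWF r2 pf27219 h27219
  have h27221 := checkRangeG_sound parWF r2 pf27220 h27220
  have h27222 := checkRangeG_sound parWF r2 pf27221 h27221
  have h27223 := checkRangeG_sound parWF r2 pf27222 h27222
  have h27224 := checkRangeG_sound parWF r2 pf27223 h27223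
  have h27225 := checkRangeG_sound parWF r2 pf27224 h27224
  have h27226 := checkRangeG_sound parWF r2 pf27225 h27225
  have h27227 := checkRangeG_sound parWF r2 pf27226 h27226
  have h27228 := checkRangeG_sound parWF r2 pf27227 h27227
  have h27229 := checkRangeG_sound parWF r2 pf27228 h27228
  have h27230 := checkRangeG_sound parWF r2 pf27229 h27229
  have h27231 := checkRangeG_sound parWF r2 pf27230 h27230
  have h27232 := checkRangeG_sound parWF r2 pf27231 h27231
  have h27233 := checkRangeG_sound parWF r2 pf27232 h27232
  have h27234 := checkRangeG_sound parWF r2 pf27233 h27233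
  have h27235 := checkRangeG_sound parWF r2 pf27234 h27234
  have h27236 := checkRangeG_sound parWF r2 pf27235 h27235
  have h27237 := checkRangeG_sound parWF r2 pf27236 h27236
  have h27238 := checkRangeG_sound parWF r2 pf27237 h27237
  have h27239 := checkRangeG_sound parWF r2 pf27238 h27238
  have h27240 := checkRangeG_sound parWF r2 pf27239 h27239
  have h27241 := checkRangeG_sound parWF r2 pf27240 h27240
  have h27242 := checkRangeG_sound parWF r2 pf27241 h27241
  have h27243 := checkRangeG_sound parWF r2 pf27242 h27242
  have h27244 := checkRangeG_sound parWF r2 pf27243 h27243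
  have h27245 := checkRangeG_sound parWF r2 pf27244 h27244
  have h27246 := checkRangeG_sound parWF r2 pf27245 h27245
  have h27247 := checkRangeG_sound parWF r2 pf27246 h27246
  have h27248 := checkRangeG_sound parWF r2 pf27247 h27247
  have h27249 := checkRangeG_sound parWF r2 pf27248 h27248
  have h27250 := checkRangeG_sound parWF r2 pf27249 h27249
  exact h27250

theorem c545 (h27250 : ∀ j, j < 88356 → GoodG.{u} par (db j)) : ∀ j, j < 88548 → GoodG.{u} par (db j) := by
  have h27251 := checkRangeG_sound parWF r2 pf27250 h27250
  have h27252 := checkRangeG_sound parWF r2 pf27251 h27251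
  have h27253 := checkRangeG_sound parWF r2 pf27252 h27252
  have h27254 := checkRangeG_sound parWF r2 pf27253 h27253
  have h27255 := checkRangeG_sound parWF r2 pf27254 h27254
  have h27256 := checkRangeG_sound parWF r2 pf27255 h27255
  have h27257 := checkRangeG_sound parWF r2 pf27256 h27256
  have h27258 := checkRangeG_sound parWF r2 pf27257 h27257
  have h27259 := checkRangeG_sound parWF r2 pf27258 h27258
  have h27260 := checkRangeG_sound parWF r2 pf27259 h27259
  have h27261 := checkRangeG_sound parWF r2 pf27260 h27260
  have h27262 := checkRangeG_sound parWF r2 pf27261 h27261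
  have h27263 := checkRangeG_sound parWF r2 pf27262 h27262
  have h27264 := checkRangeG_sound parWF r2 pf27263 h27263
  have h27265 := checkRangeG_sound parWF r2 pf27264 h27264
  have h27266 := checkRangeG_sound parWF r2 pf27265 h27265
  have h27267 := checkRangeG_sound parWF r2 pf27266 h27266
  have h27268 := checkRangeG_sound parWF r2 pf27267 h27267
  have h27269 := checkRangeG_sound parWF r2 pf27268 h27268
  have h27270 := checkRangeG_sound parWF r2 pf27269 h27269
  have h27271 := checkRangeG_sound parWF r2 pf27270 h27270
  have h27272 := checkRangeG_sound parWF r2 pf27271 h27271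
  have h27273 := checkRangeG_sound parWF r2 pf27272 h27272
  have h27274 := checkRangeG_sound parWF r2 pf27273 h27273
  have h27275 := checkRangeG_sound parWF r2 pf27274 h27274
  have h27276 := checkRangeG_sound parWF r2 pf27275 h27275
  have h27277 := checkRangeG_sound parWF r2 pf27276 h27276
  have h27278 := checkRangeG_sound parWF r2 pf27277 h27277
  have h27279 := checkRangeG_sound parWF r2 pf27278 h27278
  have h27280 := checkRangeG_sound parWF r2 pf27279 h27279
  have h27281 := checkRangeG_sound parWF r2 pf27280 h27280
  have h27282 := checkRangeG_sound parWF r2 pf27281 h27281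
  have h27283 := checkRangeG_sound parWF r2 pf27282 h27282
  have h27284 := checkRangeG_sound parWF r2 pf27283 h27283
  have h27285 := checkRangeG_sound parWF r2 pf27284 h27284
  have h27286 := checkRangeG_sound parWF r2 pf27285 h27285
  have h27287 := checkRangeG_sound parWF r2 pf27286 h27286
  have h27288 := checkRangeG_sound parWF r2 pf27287 h27287
  have h27289 := checkRangeG_sound parWF r2 pf27288 h27288
  have h27290 := checkRangeG_sound parWF r2 pf27289 h27289
  have h27291 := checkRangeG_sound parWF r2 pf27290 h27290
  have h27292 := checkRangeG_sound parWF r2 pf27291 h27291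
  have h27293 := checkRangeG_sound parWF r2 pf27292 h27292
  have h27294 := checkRangeG_sound parWF r2 pf27293 h27293
  have h27295 := checkRangeG_sound parWF r2 pf27294 h27294
  have h27296 := checkRangeG_sound parWF r2 pf27295 h27295
  have h27297 := checkRangeG_sound parWF r2 pf27296 h27296
  have h27298 := checkRangeG_sound parWF r2 pf27297 h27297
  have h27299 := checkRangeG_sound parWF r2 pf27298 h27298
  have h27300 := checkRangeG_sound parWF r2 pf27299 h27299
  exact h27300

theorem c546 (h27300 : ∀ j, j < 88548 → GoodG.{u} par (db j)) : ∀ j, j < 88763 → GoodG.{u} par (db j) := by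
  have h27301 := checkRangeG_sound parWF r2 pf27300 h27300
  have h27302 := checkRangeG_sound parWF r2 pf27301 h27301
  have h27303 := checkRangeG_sound parWF r2 pf27302 h27302
  have h27304 := checkRangeG_sound parWF r2 pf27303 h27303
  have h27305 := checkRangeG_sound parWF r2 pf27304 h27304
  have h27306 := checkRangeG_sound parWF r2 pf27305 h27305
  have h27307 := checkRangeG_sound parWF r2 pf27306 h27306
  have h27308 := checkRangeG_sound parWF r2 pf27307 h27307
  have h27309 := checkRangeG_sound parWF r2 pf27308 h27308
  have h27310 := checkRangeG_sound parWF r2 pf27309 h27309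
  have h27311 := checkRangeG_sound parWF r2 pf27310 h27310
  have h27312 := checkRangeG_sound parWF r2 pf27311 h27311
  have h27313 := checkRangeG_sound parWF r2 pf27312 h27312
  have h27314 := checkRangeG_sound parWF r2 pf27313 h27313
  have h27315 := checkRangeG_sound parWF r2 pf27314 h27314
  have h27316 := checkRangeG_sound parWF r2 pf27315 h27315
  have h27317 := checkRangeG_sound parWF r2 pf27316 h27316
  have h27318 := checkRangeG_sound parWF r2 pf27317 h27317
  have h27319 := checkRangeG_sound parWF r2 pf27318 h27318
  have h27320 := checkRangeG_sound parWF r2 pf27319 h27319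
  have h27321 := checkRangeG_sound parWF r2 pf27320 h27320
  have h27322 := checkRangeG_sound parWF r2 pf27321 h27321
  have h27323 := checkRangeG_sound parWF r2 pf27322 h27322
  have h27324 := checkRangeG_sound parWF r2 pf27323 h27323
  have h27325 := checkRangeG_sound parWF r2 pf27324 h27324
  have h27326 := checkRangeG_sound parWF r2 pf27325 h27325
  have h27327 := checkRangeG_sound parWF r2 pf27326 h27326
  have h27328 := checkRangeG_sound parWF r2 pf27327 h27327
  have h27329 := checkRangeG_sound parWF r2 pf27328 h27328
  have h27330 := checkRangeG_sound parWF r2 pf27329 h27329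
  have h27331 := checkRangeG_sound parWF r2 pf27330 h27330
  have h27332 := checkRangeG_sound parWF r2 pf27331 h27331
  have h27333 := checkRangeG_sound parWF r2 pf27332 h27332
  have h27334 := checkRangeG_sound parWF r2 pf27333 h27333
  have h27335 := checkRangeG_sound parWF r2 pf27334 h27334
  have h27336 := checkRangeG_sound parWF r2 pf27335 h27335
  have h27337 := checkRangeG_sound parWF r2 pf27336 h27336
  have h27338 := checkRangeG_sound parWF r2 pf27337 h27337
  have h27339 := checkRangeG_sound parWF r2 pf27338 h27338
  have h27340 := checkRangeG_sound parWF r2 pf27339 h27339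
  have h27341 := checkRangeG_sound parWF r2 pf27340 h27340
  have h27342 := checkRangeG_sound parWF r2 pf27341 h27341
  have h27343 := checkRangeG_sound parWF r2 pf27342 h27342
  have h27344 := checkRangeG_sound parWF r2 pf27343 h27343
  have h27345 := checkRangeG_sound parWF r2 pf27344 h27344
  have h27346 := checkRangeG_sound parWF r2 pf27345 h27345
  have h27347 := checkRangeG_sound parWF r2 pf27346 h27346
  have h27348 := checkRangeG_sound parWF r2 pf27347 h27347
  have h27349 := checkRangeG_sound parWF r2 pf27348 h27348
  have h27350 := checkRangeG_sound parWF r2 pf27349 h27349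
  exact h27350

theorem c547 (h27350 : ∀ j, j < 88763 → GoodG.{u} par (db j)) : ∀ j, j < 88969 → GoodG.{u} par (db j) := by
  have h27351 := checkRangeG_sound parWF r2 pf27350 h27350
  have h27352 := checkRangeG_sound parWF r2 pf27351 h27351
  have h27353 := checkRangeG_sound parWF r2 pf27352 h27352
  have h27354 := checkRangeG_sound parWF r2 pf27353 h27353
  have h27355 := checkRangeG_sound parWF r2 pf27354 h27354
  have h27356 := checkRangeG_sound parWF r2 pf27355 h27355
  have h27357 := checkRangeG_sound parWF r2 pf27356 h27356
  have h27358 := checkRangeG_sound parWF r2 pf27357 h27357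
  have h27359 := checkRangeG_sound parWF r2 pf27358 h27358
  have h27360 := checkRangeG_sound parWF r2 pf27359 h27359
  have h27361 := checkRangeG_sound parWF r2 pf27360 h27360
  have h27362 := checkRangeG_sound parWF r2 pf27361 h27361
  have h27363 := checkRangeG_sound parWF r2 pf27362 h27362
  have h27364 := checkRangeG_sound parWF r2 pf27363 h27363
  have h27365 := checkRangeG_sound parWF r2 pf27364 h27364
  have h27366 := checkRangeG_sound parWF r2 pf27365 h27365
  have h27367 := checkRangeG_sound parWF r2 pf27366 h27366
  have h27368 := checkRangeG_sound parWF r2 pf27367 h27367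
  have h27369 := checkRangeG_sound parWF r2 pf27368 h27368
  have h27370 := checkRangeG_sound parWF r2 pf27369 h27369
  have h27371 := checkRangeG_sound parWF r2 pf27370 h27370
  have h27372 := checkRangeG_sound parWF r2 pf27371 h27371
  have h27373 := checkRangeG_sound parWF r2 pf27372 h27372
  have h27374 := checkRangeG_sound parWF r2 pf27373 h27373
  have h27375 := checkRangeG_sound parWF r2 pf27374 h27374
  have h27376 := checkRangeG_sound parWF r2 pf27375 h27375
  have h27377 := checkRangeG_sound parWF r2 pf27376 h27376
  have h27378 := checkRangeG_sound parWF r2 pf27377 h27377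
  have h27379 := checkRangeG_sound parWF r2 pf27378 h27378
  have h27380 := checkRangeG_sound parWF r2 pf27379 h27379
  have h27381 := checkRangeG_sound parWF r2 pf27380 h27380
  have h27382 := checkRangeG_sound parWF r2 pf27381 h27381
  have h27383 := checkRangeG_sound parWF r2 pf27382 h27382
  have h27384 := checkRangeG_sound parWF r2 pf27383 h27383
  have h27385 := checkRangeG_sound parWF r2 pf27384 h27384
  have h27386 := checkRangeG_sound parWF r2 pf27385 h27385
  have h27387 := checkRangeG_sound parWF r2 pf27386 h27386
  have h27388 := checkRangeG_sound parWF r2 pf27387 h27387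
  have h27389 := checkRangeG_sound parWF r2 pf27388 h27388
  have h27390 := checkRangeG_sound parWF r2 pf27389 h27389
  have h27391 := checkRangeG_sound parWF r2 pf27390 h27390
  have h27392 := checkRangeG_sound parWF r2 pf27391 h27391
  have h27393 := checkRangeG_sound parWF r2 pf27392 h27392
  have h27394 := checkRangeG_sound parWF r2 pf27393 h27393
  have h27395 := checkRangeG_sound parWF r2 pf27394 h27394
  have h27396 := checkRangeG_sound parWF r2 pf27395 h27395
  have h27397 := checkRangeG_sound parWF r2 pf27396 h27396
  have h27398 := checkRangeG_sound parWF r2 pf27397 h27397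
  have h27399 := checkRangeG_sound parWF r2 pf27398 h27398
  have h27400 := checkRangeG_sound parWF r2 pf27399 h27399
  exact h27400

theorem c548 (h27400 : ∀ j, j < 88969 → GoodG.{u} par (db j)) : ∀ j, j < 89203 → GoodG.{u} par (db j) := by
  have h27401 := checkRangeG_sound parWF r2 pf27400 h27400
  have h27402 := checkRangeG_sound parWF r2 pf27401 h27401
  have h27403 := checkRangeG_sound parWF r2 pf27402 h27402
  have h27404 := checkRangeG_sound parWF r2 pf27403 h27403
  have h27405 := checkRangeG_sound parWF r2 pf27404 h27404
  have h27406 := checkRangeG_sound parWF r2 pf27405 h27405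
  have h27407 := checkRangeG_sound parWF r2 pf27406 h27406
  have h27408 := checkRangeG_sound parWF r2 pf27407 h27407
  have h27409 := checkRangeG_sound parWF r2 pf27408 h27408
  have h27410 := checkRangeG_sound parWF r2 pf27409 h27409
  have h27411 := checkRangeG_sound parWF r2 pf27410 h27410
  have h27412 := checkRangeG_sound parWF r2 pf27411 h27411
  have h27413 := checkRangeG_sound parWF r2 pf27412 h27412
  have h27414 := checkRangeG_sound parWF r2 pf27413 h27413
  have h27415 := checkRangeG_sound parWF r2 pf27414 h27414
  have h27416 := checkRangeG_sound parWF r2 pf27415 h27415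
  have h27417 := checkRangeG_sound parWF r2 pf27416 h27416
  have h27418 := checkRangeG_sound parWF r2 pf27417 h27417
  have h27419 := checkRangeG_sound parWF r2 pf27418 h27418
  have h27420 := checkRangeG_sound parWF r2 pf27419 h27419
  have h27421 := checkRangeG_sound parWF r2 pf27420 h27420
  have h27422 := checkRangeG_sound parWF r2 pf27421 h27421
  have h27423 := checkRangeG_sound parWF r2 pf27422 h27422
  have h27424 := checkRangeG_sound parWF r2 pf27423 h27423
  have h27425 := checkRangeG_sound parWF r2 pf27424 h27424
  have h27426 := checkRangeG_sound parWF r2 pf27425 h27425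
  have h27427 := checkRangeG_sound parWF r2 pf27426 h27426
  have h27428 := checkRangeG_sound parWF r2 pf27427 h27427
  have h27429 := checkRangeG_sound parWF r2 pf27428 h27428
  have h27430 := checkRangeG_sound parWF r2 pf27429 h27429
  have h27431 := checkRangeG_sound parWF r2 pf27430 h27430
  have h27432 := checkRangeG_sound parWF r2 pf27431 h27431
  have h27433 := checkRangeG_sound parWF r2 pf27432 h27432
  have h27434 := checkRangeG_sound parWF r2 pf27433 h27433
  have h27435 := checkRangeG_sound parWF r2 pf27434 h27434
  have h27436 := checkRangeG_sound parWF r2 pf27435 h27435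
  have h27437 := checkRangeG_sound parWF r2 pf27436 h27436
  have h27438 := checkRangeG_sound parWF r2 pf27437 h27437
  have h27439 := checkRangeG_sound parWF r2 pf27438 h27438
  have h27440 := checkRangeG_sound parWF r2 pf27439 h27439
  have h27441 := checkRangeG_sound parWF r2 pf27440 h27440
  have h27442 := checkRangeG_sound parWF r2 pf27441 h27441
  have h27443 := checkRangeG_sound parWF r2 pf27442 h27442
  have h27444 := checkRangeG_sound parWF r2 pf27443 h27443
  have h27445 := checkRangeG_sound parWF r2 pf27444 h27444
  have h27446 := checkRangeG_sound parWF r2 pf27445 h27445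
  have h27447 := checkRangeG_sound parWF r2 pf27446 h27446
  have h27448 := checkRangeG_sound parWF r2 pf27447 h27447
  have h27449 := checkRangeG_sound parWF r2 pf27448 h27448
  have h27450 := checkRangeG_sound parWF r2 pf27449 h27449
  exact h27450

theorem c549 (h27450 : ∀ j, j < 89203 → GoodG.{u} par (db j)) : ∀ j, j < 89413 → GoodG.{u} par (db j) := by
  have h27451 := checkRangeG_sound parWF r2 pf27450 h27450
  have h27452 := checkRangeG_sound parWF r2 pf27451 h27451
  have h27453 := checkRangeG_sound parWF r2 pf27452 h27452
  have h27454 := checkRangeG_sound parWF r2 pf27453 h27453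
  have h27455 := checkRangeG_sound parWF r2 pf27454 h27454
  have h27456 := checkRangeG_sound parWF r2 pf27455 h27455
  have h27457 := checkRangeG_sound parWF r2 pf27456 h27456
  have h27458 := checkRangeG_sound parWF r2 pf27457 h27457
  have h27459 := checkRangeG_sound parWF r2 pf27458 h27458
  have h27460 := checkRangeG_sound parWF r2 pf27459 h27459
  have h27461 := checkRangeG_sound parWF r2 pf27460 h27460
  have h27462 := checkRangeG_sound parWF r2 pf27461 h27461
  have h27463 := checkRangeG_sound parWF r2 pf27462 h27462
  have h27464 := checkRangeG_sound parWF r2 pf27463 h27463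
  have h27465 := checkRangeG_sound parWF r2 pf27464 h27464
  have h27466 := checkRangeG_sound parWF r2 pf27465 h27465
  have h27467 := checkRangeG_sound parWF r2 pf27466 h27466
  have h27468 := checkRangeG_sound parWF r2 pf27467 h27467
  have h27469 := checkRangeG_sound parWF r2 pf27468 h27468
  have h27470 := checkRangeG_sound parWF r2 pf27469 h27469
  have h27471 := checkRangeG_sound parWF r2 pf27470 h27470
  have h27472 := checkRangeG_sound parWF r2 pf27471 h27471
  have h27473 := checkRangeG_sound parWF r2 pf27472 h27472
  have h27474 := checkRangeG_sound parWF r2 pf27473 h27473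
  have h27475 := checkRangeG_sound parWF r2 pf27474 h27474
  have h27476 := checkRangeG_sound parWF r2 pf27475 h27475
  have h27477 := checkRangeG_sound parWF r2 pf27476 h27476
  have h27478 := checkRangeG_sound parWF r2 pf27477 h27477
  have h27479 := checkRangeG_sound parWF r2 pf27478 h27478
  have h27480 := checkRangeG_sound parWF r2 pf27479 h27479
  have h27481 := checkRangeG_sound parWF r2 pf27480 h27480
  have h27482 := checkRangeG_sound parWF r2 pf27481 h27481
  have h27483 := checkRangeG_sound parWF r2 pf27482 h27482
  have h27484 := checkRangeG_sound parWF r2 pf27483 h27483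
  have h27485 := checkRangeG_sound parWF r2 pf27484 h27484
  have h27486 := checkRangeG_sound parWF r2 pf27485 h27485
  have h27487 := checkRangeG_sound parWF r2 pf27486 h27486
  have h27488 := checkRangeG_sound parWF r2 pf27487 h27487
  have h27489 := checkRangeG_sound parWF r2 pf27488 h27488
  have h27490 := checkRangeG_sound parWF r2 pf27489 h27489
  have h27491 := checkRangeG_sound parWF r2 pf27490 h27490
  have h27492 := checkRangeG_sound parWF r2 pf27491 h27491
  have h27493 := checkRangeG_sound parWF r2 pf27492 h27492
  have h27494 := checkRangeG_sound parWF r2 pf27493 h27493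
  have h27495 := checkRangeG_sound parWF r2 pf27494 h27494
  have h27496 := checkRangeG_sound parWF r2 pf27495 h27495
  have h27497 := checkRangeG_sound parWF r2 pf27496 h27496
  have h27498 := checkRangeG_sound parWF r2 pf27497 h27497
  have h27499 := checkRangeG_sound parWF r2 pf27498 h27498
  have h27500 := checkRangeG_sound parWF r2 pf27499 h27499
  exact h27500

theorem c550 (h27500 : ∀ j, j < 89413 → GoodG.{u} par (db j)) : ∀ j, j < 89630 → GoodG.{u} par (db j) := by
  have h27501 := checkRangeG_sound parWF r2 pf27500 h27500
  have h27502 := checkRangeG_sound parWF r2 pf27501 h27501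
  have h27503 := checkRangeG_sound parWF r2 pf27502 h27502
  have h27504 := checkRangeG_sound parWF r2 pf27503 h27503
  have h27505 := checkRangeG_sound parWF r2 pf27504 h27504
  have h27506 := checkRangeG_sound parWF r2 pf27505 h27505
  have h27507 := checkRangeG_sound parWF r2 pf27506 h27506
  have h27508 := checkRangeG_sound parWF r2 pf27507 h27507
  have h27509 := checkRangeG_sound parWF r2 pf27508 h27508
  have h27510 := checkRangeG_sound parWF r2 pf27509 h27509
  have h27511 := checkRangeG_sound parWF r2 pf27510 h27510
  have h27512 := checkRangeG_sound parWF r2 pf27511 h27511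
  have h27513 := checkRangeG_sound parWF r2 pf27512 h27512
  have h27514 := checkRangeG_sound parWF r2 pf27513 h27513
  have h27515 := checkRangeG_sound parWF r2 pf27514 h27514
  have h27516 := checkRangeG_sound parWF r2 pf27515 h27515
  have h27517 := checkRangeG_sound parWF r2 pf27516 h27516
  have h27518 := checkRangeG_sound parWF r2 pf27517 h27517
  have h27519 := checkRangeG_sound parWF r2 pf27518 h27518
  have h27520 := checkRangeG_sound parWF r2 pf27519 h27519
  have h27521 := checkRangeG_sound parWF r2 pf27520 h27520
  have h27522 := checkRangeG_sound parWF r2 pf27521 h27521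
  have h27523 := checkRangeG_sound parWF r2 pf27522 h27522
  have h27524 := checkRangeG_sound parWF r2 pf27523 h27523
  have h27525 := checkRangeG_sound parWF r2 pf27524 h27524
  have h27526 := checkRangeG_sound parWF r2 pf27525 h27525
  have h27527 := checkRangeG_sound parWF r2 pf27526 h27526
  have h27528 := checkRangeG_sound parWF r2 pf27527 h27527
  have h27529 := checkRangeG_sound parWF r2 pf27528 h27528
  have h27530 := checkRangeG_sound parWF r2 pf27529 h27529
  have h27531 := checkRangeG_sound parWF r2 pf27530 h27530
  have h27532 := checkRangeG_sound parWF r2 pf27531 h27531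
  have h27533 := checkRangeG_sound parWF r2 pf27532 h27532
  have h27534 := checkRangeG_sound parWF r2 pf27533 h27533
  have h27535 := checkRangeG_sound parWF r2 pf27534 h27534
  have h27536 := checkRangeG_sound parWF r2 pf27535 h27535
  have h27537 := checkRangeG_sound parWF r2 pf27536 h27536
  have h27538 := checkRangeG_sound parWF r2 pf27537 h27537
  have h27539 := checkRangeG_sound parWF r2 pf27538 h27538
  have h27540 := checkRangeG_sound parWF r2 pf27539 h27539
  have h27541 := checkRangeG_sound parWF r2 pf27540 h27540
  have h27542 := checkRangeG_sound parWF r2 pf27541 h27541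
  have h27543 := checkRangeG_sound parWF r2 pf27542 h27542
  have h27544 := checkRangeG_sound parWF r2 pf27543 h27543
  have h27545 := checkRangeG_sound parWF r2 pf27544 h27544
  have h27546 := checkRangeG_sound parWF r2 pf27545 h27545
  have h27547 := checkRangeG_sound parWF r2 pf27546 h27546
  have h27548 := checkRangeG_sound parWF r2 pf27547 h27547
  have h27549 := checkRangeG_sound parWF r2 pf27548 h27548
  have h27550 := checkRangeG_sound parWF r2 pf27549 h27549
  exact h27550

theorem c551 (h27550 : ∀ j, j < 89630 → GoodG.{u} par (db j)) : ∀ j, j < 89835 → GoodG.{u} par (db j) := by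
  have h27551 := checkRangeG_sound parWF r2 pf27550 h27550
  have h27552 := checkRangeG_sound parWF r2 pf27551 h27551
  have h27553 := checkRangeG_sound parWF r2 pf27552 h27552
  have h27554 := checkRangeG_sound parWF r2 pf27553 h27553
  have h27555 := checkRangeG_sound parWF r2 pf27554 h27554
  have h27556 := checkRangeG_sound parWF r2 pf27555 h27555
  have h27557 := checkRangeG_sound parWF r2 pf27556 h27556
  have h27558 := checkRangeG_sound parWF r2 pf27557 h27557
  have h27559 := checkRangeG_sound parWF r2 pf27558 h27558
  have h27560 := checkRangeG_sound parWF r2 pf27559 h27559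
  have h27561 := checkRangeG_sound parWF r2 pf27560 h27560
  have h27562 := checkRangeG_sound parWF r2 pf27561 h27561
  have h27563 := checkRangeG_sound parWF r2 pf27562 h27562
  have h27564 := checkRangeG_sound parWF r2 pf27563 h27563
  have h27565 := checkRangeG_sound parWF r2 pf27564 h27564
  have h27566 := checkRangeG_sound parWF r2 pf27565 h27565
  have h27567 := checkRangeG_sound parWF r2 pf27566 h27566
  have h27568 := checkRangeG_sound parWF r2 pf27567 h27567
  have h27569 := checkRangeG_sound parWF r2 pf27568 h27568
  have h27570 := checkRangeG_sound parWF r2 pf27569 h27569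
  have h27571 := checkRangeG_sound parWF r2 pf27570 h27570
  have h27572 := checkRangeG_sound parWF r2 pf27571 h27571
  have h27573 := checkRangeG_sound parWF r2 pf27572 h27572
  have h27574 := checkRangeG_sound parWF r2 pf27573 h27573
  have h27575 := checkRangeG_sound parWF r2 pf27574 h27574
  have h27576 := checkRangeG_sound parWF r2 pf27575 h27575
  have h27577 := checkRangeG_sound parWF r2 pf27576 h27576
  have h27578 := checkRangeG_sound parWF r2 pf27577 h27577
  have h27579 := checkRangeG_sound parWF r2 pf27578 h27578
  have h27580 := checkRangeG_sound parWF r2 pf27579 h27579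
  have h27581 := checkRangeG_sound parWF r2 pf27580 h27580
  have h27582 := checkRangeG_sound parWF r2 pf27581 h27581
  have h27583 := checkRangeG_sound parWF r2 pf27582 h27582
  have h27584 := checkRangeG_sound parWF r2 pf27583 h27583
  have h27585 := checkRangeG_sound parWF r2 pf27584 h27584
  have h27586 := checkRangeG_sound parWF r2 pf27585 h27585
  have h27587 := checkRangeG_sound parWF r2 pf27586 h27586
  have h27588 := checkRangeG_sound parWF r2 pf27587 h27587
  have h27589 := checkRangeG_sound parWF r2 pf27588 h27588
  have h27590 := checkRangeG_sound parWF r2 pf27589 h27589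
  have h27591 := checkRangeG_sound parWF r2 pf27590 h27590
  have h27592 := checkRangeG_sound parWF r2 pf27591 h27591
  have h27593 := checkRangeG_sound parWF r2 pf27592 h27592
  have h27594 := checkRangeG_sound parWF r2 pf27593 h27593
  have h27595 := checkRangeG_sound parWF r2 pf27594 h27594
  have h27596 := checkRangeG_sound parWF r2 pf27595 h27595
  have h27597 := checkRangeG_sound parWF r2 pf27596 h27596
  have h27598 := checkRangeG_sound parWF r2 pf27597 h27597
  have h27599 := checkRangeG_sound parWF r2 pf27598 h27598
  have h27600 := checkRangeG_sound parWF r2 pf27599 h27599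
  exact h27600


end Vale.Agent.P045g.C61
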