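import Vale.Agent.P045g.C61.WF
import Vale.Agent.P045g.C61.Pf460
import Vale.Agent.P045g.C61.Pf461
import Vale.Agent.P045g.C61.Pf462
import Vale.Agent.P045g.C61.Pf463
import Vale.Agent.P045g.C61.Pf464
import Vale.Agent.P045g.C61.Pf465
import Vale.Agent.P045g.C61.Pf466
import Vale.Agent.P045g.C61.Pf467
import Vale.Agent.P045g.C61.Pf468
import Vale.Agent.P045g.C61.Pf469

namespace Vale.Agent.P045g.C61

open Vale.Agent.P045b Vale.Agent.P045g

universe u

theorem c552 (h27600 : ∀ j, j < 89835 → GoodG.{u} par (db j)) : ∀ j, j < 90058 → GoodG.{u} par (db j) := by
  have h27601 := checkRangeG_sound parWF r2 pf27600 h27600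
  have h27602 := checkRangeG_sound parWF r2 pf27601 h27601
  have h27603 := checkRangeG_sound parWF r2 pf27602 h27602
  have h27604 := checkRangeG_sound parWF r2 pf27603 h27603
  have h27605 := checkRangeG_sound parWF r2 pf27604 h27604
  have h27606 := checkRangeG_sound parWF r2 pf27605 h27605
  have h27607 := checkRangeG_sound parWF r2 pf27606 h27606
  have h27608 := checkRangeG_sound parWF r2 pf27607 h27607
  have h27609 := checkRangeG_sound parWF r2 pf27608 h27608
  have h27610 := checkRangeG_sound parWF r2 pf27609 h27609
  have h27611 := checkRangeG_sound parWF r2 pf27610 h27610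
  have h27612 := checkRangeG_sound parWF r2 pf27611 h27611
  have h27613 := checkRangeG_sound parWF r2 pf27612 h27612
  have h27614 := checkRangeG_sound parWF r2 pf27613 h27613
  have h27615 := checkRangeG_sound parWF r2 pf27614 h27614
  have h27616 := checkRangeG_sound parWF r2 pf27615 h27615
  have h27617 := checkRangeG_sound parWF r2 pf27616 h27616
  have h27618 := checkRangeG_sound parWF r2 pf27617 h27617
  have h27619 := checkRangeG_sound parWF r2 pf27618 h27618
  have h27620 := checkRangeG_sound parWF r2 pf27619 h27619
  have h27621 := checkRangeG_sound parWF r2 pf27620 h27620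
  have h27622 := checkRangeG_sound parWF r2 pf27621 h27621
  have h27623 := checkRangeG_sound parWF r2 pf27622 h27622
  have h27624 := checkRangeG_sound parWF r2 pf27623 h27623
  have h27625 := checkRangeG_sound parWF r2 pf27624 h27624
  have h27626 := checkRangeG_sound parWF r2 pf27625 h27625
  have h27627 := checkRangeG_sound parWF r2 pf27626 h27626
  have h27628 := checkRangeG_sound parWF r2 pf27627 h27627
  have h27629 := checkRangeG_sound parWF r2 pf27628 h27628
  have h27630 := checkRangeG_sound parWF r2 pf27629 h27629
  have h27631 := checkRangeG_sound parWF r2 pf27630 h27630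
  have h27632 := checkRangeG_sound parWF r2 pf27631 h27631
  have h27633 := checkRangeG_sound parWF r2 pf27632 h27632
  have h27634 := checkRangeG_sound parWF r2 pf27633 h27633
  have h27635 := checkRangeG_sound parWF r2 pf27634 h27634
  have h27636 := checkRangeG_sound parWF r2 pf27635 h27635
  have h27637 := checkRangeG_sound parWF r2 pf27636 h27636
  have h27638 := checkRangeG_sound parWF r2 pf27637 h27637
  have h27639 := checkRangeG_sound parWF r2 pf27638 h27638
  have h27640 := checkRangeG_sound parWF r2 pf27639 h27639
  have h27641 := checkRangeG_sound parWF r2 pf27640 h27640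
  have h27642 := checkRangeG_sound parWF r2 pf27641 h27641
  have h27643 := checkRangeG_sound parWF r2 pf27642 h27642
  have h27644 := checkRangeG_sound parWF r2 pf27643 h27643
  have h27645 := checkRangeG_sound parWF r2 pf27644 h27644
  have h27646 := checkRangeG_sound parWF r2 pf27645 h27645
  have h27647 := checkRangeG_sound parWF r2 pf27646 h27646
  have h27648 := checkRangeG_sound parWF r2 pf27647 h27647
  have h27649 := checkRangeG_sound parWF r2 pf27648 h27648
  have h27650 := checkRangeG_sound parWF r2 pf27649 h27649
  exact h27650

theorem c553 (h27650 : ∀ j, j < 90058 → GoodG.{u} par (db j)) : ∀ j, j < 90267 → GoodG.{u} par (db j) := by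
  have h27651 := checkRangeG_sound parWF r2 pf27650 h27650
  have h27652 := checkRangeG_sound parWF r2 pf27651 h27651
  have h27653 := checkRangeG_sound parWF r2 pf27652 h27652
  have h27654 := checkRangeG_sound parWF r2 pf27653 h27653
  have h27655 := checkRangeG_sound parWF r2 pf27654 h27654
  have h27656 := checkRangeG_sound parWF r2 pf27655 h27655
  have h27657 := checkRangeG_sound parWF r2 pf27656 h27656
  have h27658 := checkRangeG_sound parWF r2 pf27657 h27657
  have h27659 := checkRangeG_sound parWF r2 pf27658 h27658
  have h27660 := checkRangeG_sound parWF r2 pf27659 h27659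
  have h27661 := checkRangeG_sound parWF r2 pf27660 h27660
  have h27662 := checkRangeG_sound parWF r2 pf27661 h27661
  have h27663 := checkRangeG_sound parWF r2 pf27662 h27662
  have h27664 := checkRangeG_sound parWF r2 pf27663 h27663
  have h27665 := checkRangeG_sound parWF r2 pf27664 h27664
  have h27666 := checkRangeG_sound parWF r2 pf27665 h27665
  have h27667 := checkRangeG_sound parWF r2 pf27666 h27666
  have h27668 := checkRangeG_sound parWF r2 pf27667 h27667
  have h27669 := checkRangeG_sound parWF r2 pf27668 h27668
  have h27670 := checkRangeG_sound parWF r2 pf27669 h27669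
  have h27671 := checkRangeG_sound parWF r2 pf27670 h27670
  have h27672 := checkRangeG_sound parWF r2 pf27671 h27671
  have h27673 := checkRangeG_sound parWF r2 pf27672 h27672
  have h27674 := checkRangeG_sound parWF r2 pf27673 h27673
  have h27675 := checkRangeG_sound parWF r2 pf27674 h27674
  have h27676 := checkRangeG_sound parWF r2 pf27675 h27675
  have h27677 := checkRangeG_sound parWF r2 pf27676 h27676
  have h27678 := checkRangeG_sound parWF r2 pf27677 h27677
  have h27679 := checkRangeG_sound parWF r2 pf27678 h27678
  have h27680 := checkRangeG_sound parWF r2 pf27679 h27679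
  have h27681 := checkRangeG_sound parWF r2 pf27680 h27680
  have h27682 := checkRangeG_sound parWF r2 pf27681 h27681
  have h27683 := checkRangeG_sound parWF r2 pf27682 h27682
  have h27684 := checkRangeG_sound parWF r2 pf27683 h27683
  have h27685 := checkRangeG_sound parWF r2 pf27684 h27684
  have h27686 := checkRangeG_sound parWF r2 pf27685 h27685
  have h27687 := checkRangeG_sound parWF r2 pf27686 h27686
  have h27688 := checkRangeG_sound parWF r2 pf27687 h27687
  have h27689 := checkRangeG_sound parWF r2 pf27688 h27688
  have h27690 := checkRangeG_sound parWF r2 pf27689 h27689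
  have h27691 := checkRangeG_sound parWF r2 pf27690 h27690
  have h27692 := checkRangeG_sound parWF r2 pf27691 h27691
  have h27693 := checkRangeG_sound parWF r2 pf27692 h27692
  have h27694 := checkRangeG_sound parWF r2 pf27693 h27693
  have h27695 := checkRangeG_sound parWF r2 pf27694 h27694
  have h27696 := checkRangeG_sound parWF r2 pf27695 h27695
  have h27697 := checkRangeG_sound parWF r2 pf27696 h27696
  have h27698 := checkRangeG_sound parWF r2 pf27697 h27697
  have h27699 := checkRangeG_sound parWF r2 pf27698 h27698
  have h27700 := checkRangeG_sound parWF r2 pf27699 h27699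
  exact h27700

theorem c554 (h27700 : ∀ j, j < 90267 → GoodG.{u} par (db j)) : ∀ j, j < 90477 → GoodG.{u} par (db j) := by
  have h27701 := checkRangeG_sound parWF r2 pf27700 h27700
  have h27702 := checkRangeG_sound parWF r2 pf27701 h27701
  have h27703 := checkRangeG_sound parWF r2 pf27702 h27702
  have h27704 := checkRangeG_sound parWF r2 pf27703 h27703
  have h27705 := checkRangeG_sound parWF r2 pf27704 h27704
  have h27706 := checkRangeG_sound parWF r2 pf27705 h27705
  have h27707 := checkRangeG_sound parWF r2 pf27706 h27706
  have h27708 := checkRangeG_sound parWF r2 pf27707 h27707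
  have h27709 := checkRangeG_sound parWF r2 pf27708 h27708
  have h27710 := checkRangeG_sound parWF r2 pf27709 h27709
  have h27711 := checkRangeG_sound parWF r2 pf27710 h27710
  have h27712 := checkRangeG_sound parWF r2 pf27711 h27711
  have h27713 := checkRangeG_sound parWF r2 pf27712 h27712
  have h27714 := checkRangeG_sound parWF r2 pf27713 h27713
  have h27715 := checkRangeG_sound parWF r2 pf27714 h27714
  have h27716 := checkRangeG_sound parWF r2 pf27715 h27715
  have h27717 := checkRangeG_sound parWF r2 pf27716 h27716
  have h27718 := checkRangeG_sound parWF r2 pf27717 h27717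
  have h27719 := checkRangeG_sound parWF r2 pf27718 h27718
  have h27720 := checkRangeG_sound parWF r2 pf27719 h27719
  have h27721 := checkRangeG_sound parWF r2 pf27720 h27720
  have h27722 := checkRangeG_sound parWF r2 pf27721 h27721
  have h27723 := checkRangeG_sound parWF r2 pf27722 h27722
  have h27724 := checkRangeG_sound parWF r2 pf27723 h27723
  have h27725 := checkRangeG_sound parWF r2 pf27724 h27724
  have h27726 := checkRangeG_sound parWF r2 pf27725 h27725
  have h27727 := checkRangeG_sound parWF r2 pf27726 h27726
  have h27728 := checkRangeG_sound parWF r2 pf27727 h27727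
  have h27729 := checkRangeG_sound parWF r2 pf27728 h27728
  have h27730 := checkRangeG_sound parWF r2 pf27729 h27729
  have h27731 := checkRangeG_sound parWF r2 pf27730 h27730
  have h27732 := checkRangeG_sound parWF r2 pf27731 h27731
  have h27733 := checkRangeG_sound parWF r2 pf27732 h27732
  have h27734 := checkRangeG_sound parWF r2 pf27733 h27733
  have h27735 := checkRangeG_sound parWF r2 pf27734 h27734
  have h27736 := checkRangeG_sound parWF r2 pf27735 h27735
  have h27737 := checkRangeG_sound parWF r2 pf27736 h27736
  have h27738 := checkRangeG_sound parWF r2 pf27737 h27737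
  have h27739 := checkRangeG_sound parWF r2 pf27738 h27738
  have h27740 := checkRangeG_sound parWF r2 pf27739 h27739
  have h27741 := checkRangeG_sound parWF r2 pf27740 h27740
  have h27742 := checkRangeG_sound parWF r2 pf27741 h27741
  have h27743 := checkRangeG_sound parWF r2 pf27742 h27742
  have h27744 := checkRangeG_sound parWF r2 pf27743 h27743
  have h27745 := checkRangeG_sound parWF r2 pf27744 h27744
  have h27746 := checkRangeG_sound parWF r2 pf27745 h27745
  have h27747 := checkRangeG_sound parWF r2 pf27746 h27746
  have h27748 := checkRangeG_sound parWF r2 pf27747 h27747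
  have h27749 := checkRangeG_sound parWF r2 pf27748 h27748
  have h27750 := checkRangeG_sound parWF r2 pf27749 h27749
  exact h27750

theorem c555 (h27750 : ∀ j, j < 90477 → GoodG.{u} par (db j)) : ∀ j, j < 90673 → GoodG.{u} par (db j) := by
  have h27751 := checkRangeG_sound parWF r2 pf27750 h27750
  have h27752 := checkRangeG_sound parWF r2 pf27751 h27751
  have h27753 := checkRangeG_sound parWF r2 pf27752 h27752
  have h27754 := checkRangeG_sound parWF r2 pf27753 h27753
  have h27755 := checkRangeG_sound parWF r2 pf27754 h27754
  have h27756 := checkRangeG_sound parWF r2 pf27755 h27755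
  have h27757 := checkRangeG_sound parWF r2 pf27756 h27756
  have h27758 := checkRangeG_sound parWF r2 pf27757 h27757
  have h27759 := checkRangeG_sound parWF r2 pf27758 h27758
  have h27760 := checkRangeG_sound parWF r2 pf27759 h27759
  have h27761 := checkRangeG_sound parWF r2 pf27760 h27760
  have h27762 := checkRangeG_sound parWF r2 pf27761 h27761
  have h27763 := checkRangeG_sound parWF r2 pf27762 h27762
  have h27764 := checkRangeG_sound parWF r2 pf27763 h27763
  have h27765 := checkRangeG_sound parWF r2 pf27764 h27764
  have h27766 := checkRangeG_sound parWF r2 pf27765 h27765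
  have h27767 := checkRangeG_sound parWF r2 pf27766 h27766
  have h27768 := checkRangeG_sound parWF r2 pf27767 h27767
  have h27769 := checkRangeG_sound parWF r2 pf27768 h27768
  have h27770 := checkRangeG_sound parWF r2 pf27769 h27769
  have h27771 := checkRangeG_sound parWF r2 pf27770 h27770
  have h27772 := checkRangeG_sound parWF r2 pf27771 h27771
  have h27773 := checkRangeG_sound parWF r2 pf27772 h27772
  have h27774 := checkRangeG_sound parWF r2 pf27773 h27773
  have h27775 := checkRangeG_sound parWF r2 pf27774 h27774
  have h27776 := checkRangeG_sound parWF r2 pf27775 h27775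
  have h27777 := checkRangeG_sound parWF r2 pf27776 h27776
  have h27778 := checkRangeG_sound parWF r2 pf27777 h27777
  have h27779 := checkRangeG_sound parWF r2 pf27778 h27778
  have h27780 := checkRangeG_sound parWF r2 pf27779 h27779
  have h27781 := checkRangeG_sound parWF r2 pf27780 h27780
  have h27782 := checkRangeG_sound parWF r2 pf27781 h27781
  have h27783 := checkRangeG_sound parWF r2 pf27782 h27782
  have h27784 := checkRangeG_sound parWF r2 pf27783 h27783
  have h27785 := checkRangeG_sound parWF r2 pf27784 h27784
  have h27786 := checkRangeG_sound parWF r2 pf27785 h27785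
  have h27787 := checkRangeG_sound parWF r2 pf27786 h27786
  have h27788 := checkRangeG_sound parWF r2 pf27787 h27787
  have h27789 := checkRangeG_sound parWF r2 pf27788 h27788
  have h27790 := checkRangeG_sound parWF r2 pf27789 h27789
  have h27791 := checkRangeG_sound parWF r2 pf27790 h27790
  have h27792 := checkRangeG_sound parWF r2 pf27791 h27791
  have h27793 := checkRangeG_sound parWF r2 pf27792 h27792
  have h27794 := checkRangeG_sound parWF r2 pf27793 h27793
  have h27795 := checkRangeG_sound parWF r2 pf27794 h27794
  have h27796 := checkRangeG_sound parWF r2 pf27795 h27795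
  have h27797 := checkRangeG_sound parWF r2 pf27796 h27796
  have h27798 := checkRangeG_sound parWF r2 pf27797 h27797
  have h27799 := checkRangeG_sound parWF r2 pf27798 h27798
  have h27800 := checkRangeG_sound parWF r2 pf27799 h27799
  exact h27800

theorem c556 (h27800 : ∀ j, j < 90673 → GoodG.{u} par (db j)) : ∀ j, j < 90841 → GoodG.{u} par (db j) := by
  have h27801 := checkRangeG_sound parWF r2 pf27800 h27800
  have h27802 := checkRangeG_sound parWF r2 pf27801 h27801
  have h27803 := checkRangeG_sound parWF r2 pf27802 h27802
  have h27804 := checkRangeG_sound parWF r2 pf27803 h27803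
  have h27805 := checkRangeG_sound parWF r2 pf27804 h27804
  have h27806 := checkRangeG_sound parWF r2 pf27805 h27805
  have h27807 := checkRangeG_sound parWF r2 pf27806 h27806
  have h27808 := checkRangeG_sound parWF r2 pf27807 h27807
  have h27809 := checkRangeG_sound parWF r2 pf27808 h27808
  have h27810 := checkRangeG_sound parWF r2 pf27809 h27809
  have h27811 := checkRangeG_sound parWF r2 pf27810 h27810
  have h27812 := checkRangeG_sound parWF r2 pf27811 h27811
  have h27813 := checkRangeG_sound parWF r2 pf27812 h27812
  have h27814 := checkRangeG_sound parWF r2 pf27813 h27813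
  have h27815 := checkRangeG_sound parWF r2 pf27814 h27814
  have h27816 := checkRangeG_sound parWF r2 pf27815 h27815
  have h27817 := checkRangeG_sound parWF r2 pf27816 h27816
  have h27818 := checkRangeG_sound parWF r2 pf27817 h27817
  have h27819 := checkRangeG_sound parWF r2 pf27818 h27818
  have h27820 := checkRangeG_sound parWF r2 pf27819 h27819
  have h27821 := checkRangeG_sound parWF r2 pf27820 h27820
  have h27822 := checkRangeG_sound parWF r2 pf27821 h27821
  have h27823 := checkRangeG_sound parWF r2 pf27822 h27822
  have h27824 := checkRangeG_sound parWF r2 pf27823 h27823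
  have h27825 := checkRangeG_sound parWF r2 pf27824 h27824
  have h27826 := checkRangeG_sound parWF r2 pf27825 h27825
  have h27827 := checkRangeG_sound parWF r2 pf27826 h27826
  have h27828 := checkRangeG_sound parWF r2 pf27827 h27827
  have h27829 := checkRangeG_sound parWF r2 pf27828 h27828
  have h27830 := checkRangeG_sound parWF r2 pf27829 h27829
  have h27831 := checkRangeG_sound parWF r2 pf27830 h27830
  have h27832 := checkRangeG_sound parWF r2 pf27831 h27831
  have h27833 := checkRangeG_sound parWF r2 pf27832 h27832
  have h27834 := checkRangeG_sound parWF r2 pf27833 h27833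
  have h27835 := checkRangeG_sound parWF r2 pf27834 h27834
  have h27836 := checkRangeG_sound parWF r2 pf27835 h27835
  have h27837 := checkRangeG_sound parWF r2 pf27836 h27836
  have h27838 := checkRangeG_sound parWF r2 pf27837 h27837
  have h27839 := checkRangeG_sound parWF r2 pf27838 h27838
  have h27840 := checkRangeG_sound parWF r2 pf27839 h27839
  have h27841 := checkRangeG_sound parWF r2 pf27840 h27840
  have h27842 := checkRangeG_sound parWF r2 pf27841 h27841
  have h27843 := checkRangeG_sound parWF r2 pf27842 h27842
  have h27844 := checkRangeG_sound parWF r2 pf27843 h27843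
  have h27845 := checkRangeG_sound parWF r2 pf27844 h27844
  have h27846 := checkRangeG_sound parWF r2 pf27845 h27845
  have h27847 := checkRangeG_sound parWF r2 pf27846 h27846
  have h27848 := checkRangeG_sound parWF r2 pf27847 h27847
  have h27849 := checkRangeG_sound parWF r2 pf27848 h27848
  have h27850 := checkRangeG_sound parWF r2 pf27849 h27849
  exact h27850

theorem c557 (h27850 : ∀ j, j < 90841 → GoodG.{u} par (db j)) : ∀ j, j < 91033 → GoodG.{u} par (db j) := by
  have h27851 := checkRangeG_sound parWF r2 pf27850 h27850
  have h27852 := checkRangeG_sound parWF r2 pf27851 h27851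
  have h27853 := checkRangeG_sound parWF r2 pf27852 h27852
  have h27854 := checkRangeG_sound parWF r2 pf27853 h27853
  have h27855 := checkRangeG_sound parWF r2 pf27854 h27854
  have h27856 := checkRangeG_sound parWF r2 pf27855 h27855
  have h27857 := checkRangeG_sound parWF r2 pf27856 h27856
  have h27858 := checkRangeG_sound parWF r2 pf27857 h27857
  have h27859 := checkRangeG_sound parWF r2 pf27858 h27858
  have h27860 := checkRangeG_sound parWF r2 pf27859 h27859
  have h27861 := checkRangeG_sound parWF r2 pf27860 h27860
  have h27862 := checkRangeG_sound parWF r2 pf27861 h27861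
  have h27863 := checkRangeG_sound parWF r2 pf27862 h27862
  have h27864 := checkRangeG_sound parWF r2 pf27863 h27863
  have h27865 := checkRangeG_sound parWF r2 pf27864 h27864
  have h27866 := checkRangeG_sound parWF r2 pf27865 h27865
  have h27867 := checkRangeG_sound parWF r2 pf27866 h27866
  have h27868 := checkRangeG_sound parWF r2 pf27867 h27867
  have h27869 := checkRangeG_sound parWF r2 pf27868 h27868
  have h27870 := checkRangeG_sound parWF r2 pf27869 h27869
  have h27871 := checkRangeG_sound parWF r2 pf27870 h27870
  have h27872 := checkRangeG_sound parWF r2 pf27871 h27871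
  have h27873 := checkRangeG_sound parWF r2 pf27872 h27872
  have h27874 := checkRangeG_sound parWF r2 pf27873 h27873
  have h27875 := checkRangeG_sound parWF r2 pf27874 h27874
  have h27876 := checkRangeG_sound parWF r2 pf27875 h27875
  have h27877 := checkRangeG_sound parWF r2 pf27876 h27876
  have h27878 := checkRangeG_sound parWF r2 pf27877 h27877
  have h27879 := checkRangeG_sound parWF r2 pf27878 h27878
  have h27880 := checkRangeG_sound parWF r2 pf27879 h27879
  have h27881 := checkRangeG_sound parWF r2 pf27880 h27880
  have h27882 := checkRangeG_sound parWF r2 pf27881 h27881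
  have h27883 := checkRangeG_sound parWF r2 pf27882 h27882
  have h27884 := checkRangeG_sound parWF r2 pf27883 h27883
  have h27885 := checkRangeG_sound parWF r2 pf27884 h27884
  have h27886 := checkRangeG_sound parWF r2 pf27885 h27885
  have h27887 := checkRangeG_sound parWF r2 pf27886 h27886
  have h27888 := checkRangeG_sound parWF r2 pf27887 h27887
  have h27889 := checkRangeG_sound parWF r2 pf27888 h27888
  have h27890 := checkRangeG_sound parWF r2 pf27889 h27889
  have h27891 := checkRangeG_sound parWF r2 pf27890 h27890
  have h27892 := checkRangeG_sound parWF r2 pf27891 h27891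
  have h27893 := checkRangeG_sound parWF r2 pf27892 h27892
  have h27894 := checkRangeG_sound parWF r2 pf27893 h27893
  have h27895 := checkRangeG_sound parWF r2 pf27894 h27894
  have h27896 := checkRangeG_sound parWF r2 pf27895 h27895
  have h27897 := checkRangeG_sound parWF r2 pf27896 h27896
  have h27898 := checkRangeG_sound parWF r2 pf27897 h27897
  have h27899 := checkRangeG_sound parWF r2 pf27898 h27898
  have h27900 := checkRangeG_sound parWF r2 pf27899 h27899
  exact h27900

theorem c558 (h27900 : ∀ j, j < 91033 → GoodG.{u} par (db j)) : ∀ j, j < 91236 → GoodG.{u} par (db j) := by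
  have h27901 := checkRangeG_sound parWF r2 pf27900 h27900
  have h27902 := checkRangeG_sound parWF r2 pf27901 h27901
  have h27903 := checkRangeG_sound parWF r2 pf27902 h27902
  have h27904 := checkRangeG_sound parWF r2 pf27903 h27903
  have h27905 := checkRangeG_sound parWF r2 pf27904 h27904
  have h27906 := checkRangeG_sound parWF r2 pf27905 h27905
  have h27907 := checkRangeG_sound parWF r2 pf27906 h27906
  have h27908 := checkRangeG_sound parWF r2 pf27907 h27907
  have h27909 := checkRangeG_sound parWF r2 pf27908 h27908
  have h27910 := checkRangeG_sound parWF r2 pf27909 h27909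
  have h27911 := checkRangeG_sound parWF r2 pf27910 h27910
  have h27912 := checkRangeG_sound parWF r2 pf27911 h27911
  have h27913 := checkRangeG_sound parWF r2 pf27912 h27912
  have h27914 := checkRangeG_sound parWF r2 pf27913 h27913
  have h27915 := checkRangeG_sound parWF r2 pf27914 h27914
  have h27916 := checkRangeG_sound parWF r2 pf27915 h27915
  have h27917 := checkRangeG_sound parWF r2 pf27916 h27916
  have h27918 := checkRangeG_sound parWF r2 pf27917 h27917
  have h27919 := checkRangeG_sound parWF r2 pf27918 h27918
  have h27920 := checkRangeG_sound parWF r2 pf27919 h27919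
  have h27921 := checkRangeG_sound parWF r2 pf27920 h27920
  have h27922 := checkRangeG_sound parWF r2 pf27921 h27921
  have h27923 := checkRangeG_sound parWF r2 pf27922 h27922
  have h27924 := checkRangeG_sound parWF r2 pf27923 h27923
  have h27925 := checkRangeG_sound parWF r2 pf27924 h27924
  have h27926 := checkRangeG_sound parWF r2 pf27925 h27925
  have h27927 := checkRangeG_sound parWF r2 pf27926 h27926
  have h27928 := checkRangeG_sound parWF r2 pf27927 h27927
  have h27929 := checkRangeG_sound parWF r2 pf27928 h27928
  have h27930 := checkRangeG_sound parWF r2 pf27929 h27929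
  have h27931 := checkRangeG_sound parWF r2 pf27930 h27930
  have h27932 := checkRangeG_sound parWF r2 pf27931 h27931
  have h27933 := checkRangeG_sound parWF r2 pf27932 h27932
  have h27934 := checkRangeG_sound parWF r2 pf27933 h27933
  have h27935 := checkRangeG_sound parWF r2 pf27934 h27934
  have h27936 := checkRangeG_sound parWF r2 pf27935 h27935
  have h27937 := checkRangeG_sound parWF r2 pf27936 h27936
  have h27938 := checkRangeG_sound parWF r2 pf27937 h27937
  have h27939 := checkRangeG_sound parWF r2 pf27938 h27938
  have h27940 := checkRangeG_sound parWF r2 pf27939 h27939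
  have h27941 := checkRangeG_sound parWF r2 pf27940 h27940
  have h27942 := checkRangeG_sound parWF r2 pf27941 h27941
  have h27943 := checkRangeG_sound parWF r2 pf27942 h27942
  have h27944 := checkRangeG_sound parWF r2 pf27943 h27943
  have h27945 := checkRangeG_sound parWF r2 pf27944 h27944
  have h27946 := checkRangeG_sound parWF r2 pf27945 h27945
  have h27947 := checkRangeG_sound parWF r2 pf27946 h27946
  have h27948 := checkRangeG_sound parWF r2 pf27947 h27947
  have h27949 := checkRangeG_sound parWF r2 pf27948 h27948
  have h27950 := checkRangeG_sound parWF r2 pf27949 h27949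
  exact h27950

theorem c559 (h27950 : ∀ j, j < 91236 → GoodG.{u} par (db j)) : ∀ j, j < 91386 → GoodG.{u} par (db j) := by
  have h27951 := checkRangeG_sound parWF r2 pf27950 h27950
  have h27952 := checkRangeG_sound parWF r2 pf27951 h27951
  have h27953 := checkRangeG_sound parWF r2 pf27952 h27952
  have h27954 := checkRangeG_sound parWF r2 pf27953 h27953
  have h27955 := checkRangeG_sound parWF r2 pf27954 h27954
  have h27956 := checkRangeG_sound parWF r2 pf27955 h27955
  have h27957 := checkRangeG_sound parWF r2 pf27956 h27956
  have h27958 := checkRangeG_sound parWF r2 pf27957 h27957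
  have h27959 := checkRangeG_sound parWF r2 pf27958 h27958
  have h27960 := checkRangeG_sound parWF r2 pf27959 h27959
  have h27961 := checkRangeG_sound parWF r2 pf27960 h27960
  have h27962 := checkRangeG_sound parWF r2 pf27961 h27961
  have h27963 := checkRangeG_sound parWF r2 pf27962 h27962
  have h27964 := checkRangeG_sound parWF r2 pf27963 h27963
  have h27965 := checkRangeG_sound parWF r2 pf27964 h27964
  have h27966 := checkRangeG_sound parWF r2 pf27965 h27965
  have h27967 := checkRangeG_sound parWF r2 pf27966 h27966
  have h27968 := checkRangeG_sound parWF r2 pf27967 h27967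
  have h27969 := checkRangeG_sound parWF r2 pf27968 h27968
  have h27970 := checkRangeG_sound parWF r2 pf27969 h27969
  have h27971 := checkRangeG_sound parWF r2 pf27970 h27970
  have h27972 := checkRangeG_sound parWF r2 pf27971 h27971
  have h27973 := checkRangeG_sound parWF r2 pf27972 h27972
  have h27974 := checkRangeG_sound parWF r2 pf27973 h27973
  have h27975 := checkRangeG_sound parWF r2 pf27974 h27974
  have h27976 := checkRangeG_sound parWF r2 pf27975 h27975
  have h27977 := checkRangeG_sound parWF r2 pf27976 h27976
  have h27978 := checkRangeG_sound parWF r2 pf27977 h27977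
  have h27979 := checkRangeG_sound parWF r2 pf27978 h27978
  have h27980 := checkRangeG_sound parWF r2 pf27979 h27979
  have h27981 := checkRangeG_sound parWF r2 pf27980 h27980
  have h27982 := checkRangeG_sound parWF r2 pf27981 h27981
  have h27983 := checkRangeG_sound parWF r2 pf27982 h27982
  have h27984 := checkRangeG_sound parWF r2 pf27983 h27983
  have h27985 := checkRangeG_sound parWF r2 pf27984 h27984
  have h27986 := checkRangeG_sound parWF r2 pf27985 h27985
  have h27987 := checkRangeG_sound parWF r2 pf27986 h27986
  have h27988 := checkRangeG_sound parWF r2 pf27987 h27987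
  have h27989 := checkRangeG_sound parWF r2 pf27988 h27988
  have h27990 := checkRangeG_sound parWF r2 pf27989 h27989
  have h27991 := checkRangeG_sound parWF r2 pf27990 h27990
  have h27992 := checkRangeG_sound parWF r2 pf27991 h27991
  have h27993 := checkRangeG_sound parWF r2 pf27992 h27992
  have h27994 := checkRangeG_sound parWF r2 pf27993 h27993
  have h27995 := checkRangeG_sound parWF r2 pf27994 h27994
  have h27996 := checkRangeG_sound parWF r2 pf27995 h27995
  have h27997 := checkRangeG_sound parWF r2 pf27996 h27996
  have h27998 := checkRangeG_sound parWF r2 pf27997 h27997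
  have h27999 := checkRangeG_sound parWF r2 pf27998 h27998
  have h28000 := checkRangeG_sound parWF r2 pf27999 h27999
  exact h28000

theorem c560 (h28000 : ∀ j, j < 91386 → GoodG.{u} par (db j)) : ∀ j, j < 91537 → GoodG.{u} par (db j) := by
  have h28001 := checkRangeG_sound parWF r2 pf28000 h28000
  have h28002 := checkRangeG_sound parWF r2 pf28001 h28001
  have h28003 := checkRangeG_sound parWF r2 pf28002 h28002
  have h28004 := checkRangeG_sound parWF r2 pf28003 h28003
  have h28005 := checkRangeG_sound parWF r2 pf28004 h28004
  have h28006 := checkRangeG_sound parWF r2 pf28005 h28005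
  have h28007 := checkRangeG_sound parWF r2 pf28006 h28006
  have h28008 := checkRangeG_sound parWF r2 pf28007 h28007
  have h28009 := checkRangeG_sound parWF r2 pf28008 h28008
  have h28010 := checkRangeG_sound parWF r2 pf28009 h28009
  have h28011 := checkRangeG_sound parWF r2 pf28010 h28010
  have h28012 := checkRangeG_sound parWF r2 pf28011 h28011
  have h28013 := checkRangeG_sound parWF r2 pf28012 h28012
  have h28014 := checkRangeG_sound parWF r2 pf28013 h28013
  have h28015 := checkRangeG_sound parWF r2 pf28014 h28014
  have h28016 := checkRangeG_sound parWF r2 pf28015 h28015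
  have h28017 := checkRangeG_sound parWF r2 pf28016 h28016
  have h28018 := checkRangeG_sound parWF r2 pf28017 h28017
  have h28019 := checkRangeG_sound parWF r2 pf28018 h28018
  have h28020 := checkRangeG_sound parWF r2 pf28019 h28019
  have h28021 := checkRangeG_sound parWF r2 pf28020 h28020
  have h28022 := checkRangeG_sound parWF r2 pf28021 h28021
  have h28023 := checkRangeG_sound parWF r2 pf28022 h28022
  have h28024 := checkRangeG_sound parWF r2 pf28023 h28023
  have h28025 := checkRangeG_sound parWF r2 pf28024 h28024
  have h28026 := checkRangeG_sound parWF r2 pf28025 h28025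
  have h28027 := checkRangeG_sound parWF r2 pf28026 h28026
  have h28028 := checkRangeG_sound parWF r2 pf28027 h28027
  have h28029 := checkRangeG_sound parWF r2 pf28028 h28028
  have h28030 := checkRangeG_sound parWF r2 pf28029 h28029
  have h28031 := checkRangeG_sound parWF r2 pf28030 h28030
  have h28032 := checkRangeG_sound parWF r2 pf28031 h28031
  have h28033 := checkRangeG_sound parWF r2 pf28032 h28032
  have h28034 := checkRangeG_sound parWF r2 pf28033 h28033
  have h28035 := checkRangeG_sound parWF r2 pf28034 h28034
  have h28036 := checkRangeG_sound parWF r2 pf28035 h28035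
  have h28037 := checkRangeG_sound parWF r2 pf28036 h28036
  have h28038 := checkRangeG_sound parWF r2 pf28037 h28037
  have h28039 := checkRangeG_sound parWF r2 pf28038 h28038
  have h28040 := checkRangeG_sound parWF r2 pf28039 h28039
  have h28041 := checkRangeG_sound parWF r2 pf28040 h28040
  have h28042 := checkRangeG_sound parWF r2 pf28041 h28041
  have h28043 := checkRangeG_sound parWF r2 pf28042 h28042
  have h28044 := checkRangeG_sound parWF r2 pf28043 h28043
  have h28045 := checkRangeG_sound parWF r2 pf28044 h28044
  have h28046 := checkRangeG_sound parWF r2 pf28045 h28045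
  have h28047 := checkRangeG_sound parWF r2 pf28046 h28046
  have h28048 := checkRangeG_sound parWF r2 pf28047 h28047
  have h28049 := checkRangeG_sound parWF r2 pf28048 h28048
  have h28050 := checkRangeG_sound parWF r2 pf28049 h28049
  exact h28050

theorem c561 (h28050 : ∀ j, j < 91537 → GoodG.{u} par (db j)) : ∀ j, j < 91704 → GoodG.{u} par (db j) := by
  have h28051 := checkRangeG_sound parWF r2 pf28050 h28050
  have h28052 := checkRangeG_sound parWF r2 pf28051 h28051
  have h28053 := checkRangeG_sound parWF r2 pf28052 h28052
  have h28054 := checkRangeG_sound parWF r2 pf28053 h28053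
  have h28055 := checkRangeG_sound parWF r2 pf28054 h28054
  have h28056 := checkRangeG_sound parWF r2 pf28055 h28055
  have h28057 := checkRangeG_sound parWF r2 pf28056 h28056
  have h28058 := checkRangeG_sound parWF r2 pf28057 h28057
  have h28059 := checkRangeG_sound parWF r2 pf28058 h28058
  have h28060 := checkRangeG_sound parWF r2 pf28059 h28059
  have h28061 := checkRangeG_sound parWF r2 pf28060 h28060
  have h28062 := checkRangeG_sound parWF r2 pf28061 h28061
  have h28063 := checkRangeG_sound parWF r2 pf28062 h28062
  have h28064 := checkRangeG_sound parWF r2 pf28063 h28063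
  have h28065 := checkRangeG_sound parWF r2 pf28064 h28064
  have h28066 := checkRangeG_sound parWF r2 pf28065 h28065
  have h28067 := checkRangeG_sound parWF r2 pf28066 h28066
  have h28068 := checkRangeG_sound parWF r2 pf28067 h28067
  have h28069 := checkRangeG_sound parWF r2 pf28068 h28068
  have h28070 := checkRangeG_sound parWF r2 pf28069 h28069
  have h28071 := checkRangeG_sound parWF r2 pf28070 h28070
  have h28072 := checkRangeG_sound parWF r2 pf28071 h28071
  have h28073 := checkRangeG_sound parWF r2 pf28072 h28072
  have h28074 := checkRangeG_sound parWF r2 pf28073 h28073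
  have h28075 := checkRangeG_sound parWF r2 pf28074 h28074
  have h28076 := checkRangeG_sound parWF r2 pf28075 h28075
  have h28077 := checkRangeG_sound parWF r2 pf28076 h28076
  have h28078 := checkRangeG_sound parWF r2 pf28077 h28077
  have h28079 := checkRangeG_sound parWF r2 pf28078 h28078
  have h28080 := checkRangeG_sound parWF r2 pf28079 h28079
  have h28081 := checkRangeG_sound parWF r2 pf28080 h28080
  have h28082 := checkRangeG_sound parWF r2 pf28081 h28081
  have h28083 := checkRangeG_sound parWF r2 pf28082 h28082
  have h28084 := checkRangeG_sound parWF r2 pf28083 h28083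
  have h28085 := checkRangeG_sound parWF r2 pf28084 h28084
  have h28086 := checkRangeG_sound parWF r2 pf28085 h28085
  have h28087 := checkRangeG_sound parWF r2 pf28086 h28086
  have h28088 := checkRangeG_sound parWF r2 pf28087 h28087
  have h28089 := checkRangeG_sound parWF r2 pf28088 h28088
  have h28090 := checkRangeG_sound parWF r2 pf28089 h28089
  have h28091 := checkRangeG_sound parWF r2 pf28090 h28090
  have h28092 := checkRangeG_sound parWF r2 pf28091 h28091
  have h28093 := checkRangeG_sound parWF r2 pf28092 h28092
  have h28094 := checkRangeG_sound parWF r2 pf28093 h28093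
  have h28095 := checkRangeG_sound parWF r2 pf28094 h28094
  have h28096 := checkRangeG_sound parWF r2 pf28095 h28095
  have h28097 := checkRangeG_sound parWF r2 pf28096 h28096
  have h28098 := checkRangeG_sound parWF r2 pf28097 h28097
  have h28099 := checkRangeG_sound parWF r2 pf28098 h28098
  have h28100 := checkRangeG_sound parWF r2 pf28099 h28099
  exact h28100

theorem c562 (h28100 : ∀ j, j < 91704 → GoodG.{u} par (db j)) : ∀ j, j < 91864 → GoodG.{u} par (db j) := by
  have h28101 := checkRangeG_sound parWF r2 pf28100 h28100
  have h28102 := checkRangeG_sound parWF r2 pf28101 h28101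
  have h28103 := checkRangeG_sound parWF r2 pf28102 h28102
  have h28104 := checkRangeG_sound parWF r2 pf28103 h28103
  have h28105 := checkRangeG_sound parWF r2 pf28104 h28104
  have h28106 := checkRangeG_sound parWF r2 pf28105 h28105
  have h28107 := checkRangeG_sound parWF r2 pf28106 h28106
  have h28108 := checkRangeG_sound parWF r2 pf28107 h28107
  have h28109 := checkRangeG_sound parWF r2 pf28108 h28108
  have h28110 := checkRangeG_sound parWF r2 pf28109 h28109
  have h28111 := checkRangeG_sound parWF r2 pf28110 h28110
  have h28112 := checkRangeG_sound parWF r2 pf28111 h28111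
  have h28113 := checkRangeG_sound parWF r2 pf28112 h28112
  have h28114 := checkRangeG_sound parWF r2 pf28113 h28113
  have h28115 := checkRangeG_sound parWF r2 pf28114 h28114
  have h28116 := checkRangeG_sound parWF r2 pf28115 h28115
  have h28117 := checkRangeG_sound parWF r2 pf28116 h28116
  have h28118 := checkRangeG_sound parWF r2 pf28117 h28117
  have h28119 := checkRangeG_sound parWF r2 pf28118 h28118
  have h28120 := checkRangeG_sound parWF r2 pf28119 h28119
  have h28121 := checkRangeG_sound parWF r2 pf28120 h28120
  have h28122 := checkRangeG_sound parWF r2 pf28121 h28121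
  have h28123 := checkRangeG_sound parWF r2 pf28122 h28122
  have h28124 := checkRangeG_sound parWF r2 pf28123 h28123
  have h28125 := checkRangeG_sound parWF r2 pf28124 h28124
  have h28126 := checkRangeG_sound parWF r2 pf28125 h28125
  have h28127 := checkRangeG_sound parWF r2 pf28126 h28126
  have h28128 := checkRangeG_sound parWF r2 pf28127 h28127
  have h28129 := checkRangeG_sound parWF r2 pf28128 h28128
  have h28130 := checkRangeG_sound parWF r2 pf28129 h28129
  have h28131 := checkRangeG_sound parWF r2 pf28130 h28130
  have h28132 := checkRangeG_sound parWF r2 pf28131 h28131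
  have h28133 := checkRangeG_sound parWF r2 pf28132 h28132
  have h28134 := checkRangeG_sound parWF r2 pf28133 h28133
  have h28135 := checkRangeG_sound parWF r2 pf28134 h28134
  have h28136 := checkRangeG_sound parWF r2 pf28135 h28135
  have h28137 := checkRangeG_sound parWF r2 pf28136 h28136
  have h28138 := checkRangeG_sound parWF r2 pf28137 h28137
  have h28139 := checkRangeG_sound parWF r2 pf28138 h28138
  have h28140 := checkRangeG_sound parWF r2 pf28139 h28139
  have h28141 := checkRangeG_sound parWF r2 pf28140 h28140
  have h28142 := checkRangeG_sound parWF r2 pf28141 h28141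
  have h28143 := checkRangeG_sound parWF r2 pf28142 h28142
  have h28144 := checkRangeG_sound parWF r2 pf28143 h28143
  have h28145 := checkRangeG_sound parWF r2 pf28144 h28144
  have h28146 := checkRangeG_sound parWF r2 pf28145 h28145
  have h28147 := checkRangeG_sound parWF r2 pf28146 h28146
  have h28148 := checkRangeG_sound parWF r2 pf28147 h28147
  have h28149 := checkRangeG_sound parWF r2 pf28148 h28148
  have h28150 := checkRangeG_sound parWF r2 pf28149 h28149
  exact h28150

theorem c563 (h28150 : ∀ j, j < 91864 → GoodG.{u} par (db j)) : ∀ j, j < 92035 → GoodG.{u} par (db j) := by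
  have h28151 := checkRangeG_sound parWF r2 pf28150 h28150
  have h28152 := checkRangeG_sound parWF r2 pf28151 h28151
  have h28153 := checkRangeG_sound parWF r2 pf28152 h28152
  have h28154 := checkRangeG_sound parWF r2 pf28153 h28153
  have h28155 := checkRangeG_sound parWF r2 pf28154 h28154
  have h28156 := checkRangeG_sound parWF r2 pf28155 h28155
  have h28157 := checkRangeG_sound parWF r2 pf28156 h28156
  have h28158 := checkRangeG_sound parWF r2 pf28157 h28157
  have h28159 := checkRangeG_sound parWF r2 pf28158 h28158
  have h28160 := checkRangeG_sound parWF r2 pf28159 h28159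
  have h28161 := checkRangeG_sound parWF r2 pf28160 h28160
  have h28162 := checkRangeG_sound parWF r2 pf28161 h28161
  have h28163 := checkRangeG_sound parWF r2 pf28162 h28162
  have h28164 := checkRangeG_sound parWF r2 pf28163 h28163
  have h28165 := checkRangeG_sound parWF r2 pf28164 h28164
  have h28166 := checkRangeG_sound parWF r2 pf28165 h28165
  have h28167 := checkRangeG_sound parWF r2 pf28166 h28166
  have h28168 := checkRangeG_sound parWF r2 pf28167 h28167
  have h28169 := checkRangeG_sound parWF r2 pf28168 h28168
  have h28170 := checkRangeG_sound parWF r2 pf28169 h28169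
  have h28171 := checkRangeG_sound parWF r2 pf28170 h28170
  have h28172 := checkRangeG_sound parWF r2 pf28171 h28171
  have h28173 := checkRangeG_sound parWF r2 pf28172 h28172
  have h28174 := checkRangeG_sound parWF r2 pf28173 h28173
  have h28175 := checkRangeG_sound parWF r2 pf28174 h28174
  have h28176 := checkRangeG_sound parWF r2 pf28175 h28175
  have h28177 := checkRangeG_sound parWF r2 pf28176 h28176
  have h28178 := checkRangeG_sound parWF r2 pf28177 h28177
  have h28179 := checkRangeG_sound parWF r2 pf28178 h28178
  have h28180 := checkRangeG_sound parWF r2 pf28179 h28179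
  have h28181 := checkRangeG_sound parWF r2 pf28180 h28180
  have h28182 := checkRangeG_sound parWF r2 pf28181 h28181
  have h28183 := checkRangeG_sound parWF r2 pf28182 h28182
  have h28184 := checkRangeG_sound parWF r2 pf28183 h28183
  have h28185 := checkRangeG_sound parWF r2 pf28184 h28184
  have h28186 := checkRangeG_sound parWF r2 pf28185 h28185
  have h28187 := checkRangeG_sound parWF r2 pf28186 h28186
  have h28188 := checkRangeG_sound parWF r2 pf28187 h28187
  have h28189 := checkRangeG_sound parWF r2 pf28188 h28188
  have h28190 := checkRangeG_sound parWF r2 pf28189 h28189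
  have h28191 := checkRangeG_sound parWF r2 pf28190 h28190
  have h28192 := checkRangeG_sound parWF r2 pf28191 h28191
  have h28193 := checkRangeG_sound parWF r2 pf28192 h28192
  have h28194 := checkRangeG_sound parWF r2 pf28193 h28193
  have h28195 := checkRangeG_sound parWF r2 pf28194 h28194
  have h28196 := checkRangeG_sound parWF r2 pf28195 h28195
  have h28197 := checkRangeG_sound parWF r2 pf28196 h28196
  have h28198 := checkRangeG_sound parWF r2 pf28197 h28197
  have h28199 := checkRangeG_sound parWF r2 pf28198 h28198
  have h28200 := checkRangeG_sound parWF r2 pf28199 h28199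
  exact h28200


end Vale.Agent.P045g.C61
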