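import Vale.Agent.P045g.C61.WF
import Vale.Agent.P045g.C61.Pf470
import Vale.Agent.P045g.C61.Pf471
import Vale.Agent.P045g.C61.Pf472
import Vale.Agent.P045g.C61.Pf473
import Vale.Agent.P045g.C61.Pf474
import Vale.Agent.P045g.C61.Pf475
import Vale.Agent.P045g.C61.Pf476
import Vale.Agent.P045g.C61.Pf477
import Vale.Agent.P045g.C61.Pf478
import Vale.Agent.P045g.C61.Pf479

namespace Vale.Agent.P045g.C61

open Vale.Agent.P045b Vale.Agent.P045g

universe u

theorem c564 (h28200 : ∀ j, j < 92035 → GoodG.{u} par (db j)) : ∀ j, j < 92210 → GoodG.{u} par (db j) := by
  have h28201 := checkRangeG_sound parWF r2 pf28200 h28200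
  have h28202 := checkRangeG_sound parWF r2 pf28201 h28201
  have h28203 := checkRangeG_sound parWF r2 pf28202 h28202
  have h28204 := checkRangeG_sound parWF r2 pf28203 h28203
  have h28205 := checkRangeG_sound parWF r2 pf28204 h28204
  have h28206 := checkRangeG_sound parWF r2 pf28205 h28205
  have h28207 := checkRangeG_sound parWF r2 pf28206 h28206
  have h28208 := checkRangeG_sound parWF r2 pf28207 h28207
  have h28209 := checkRangeG_sound parWF r2 pf28208 h28208
  have h28210 := checkRangeG_sound parWF r2 pf28209 h28209
  have h28211 := checkRangeG_sound parWF r2 pf28210 h28210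
  have h28212 := checkRangeG_sound parWF r2 pf28211 h28211
  have h28213 := checkRangeG_sound parWF r2 pf28212 h28212
  have h28214 := checkRangeG_sound parWF r2 pf28213 h28213
  have h28215 := checkRangeG_sound parWF r2 pf28214 h28214
  have h28216 := checkRangeG_sound parWF r2 pf28215 h28215
  have h28217 := checkRangeG_sound parWF r2 pf28216 h28216
  have h28218 := checkRangeG_sound parWF r2 pf28217 h28217
  have h28219 := checkRangeG_sound parWF r2 pf28218 h28218
  have h28220 := checkRangeG_sound parWF r2 pf28219 h28219
  have h28221 := checkRangeG_sound parWF r2 pf28220 h28220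
  have h28222 := checkRangeG_sound parWF r2 pf28221 h28221
  have h28223 := checkRangeG_sound parWF r2 pf28222 h28222
  have h28224 := checkRangeG_sound parWF r2 pf28223 h28223
  have h28225 := checkRangeG_sound parWF r2 pf28224 h28224
  have h28226 := checkRangeG_sound parWF r2 pf28225 h28225
  have h28227 := checkRangeG_sound parWF r2 pf28226 h28226
  have h28228 := checkRangeG_sound parWF r2 pf28227 h28227
  have h28229 := checkRangeG_sound parWF r2 pf28228 h28228
  have h28230 := checkRangeG_sound parWF r2 pf28229 h28229
  have h28231 := checkRangeG_sound parWF r2 pf28230 h28230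
  have h28232 := checkRangeG_sound parWF r2 pf28231 h28231
  have h28233 := checkRangeG_sound parWF r2 pf28232 h28232
  have h28234 := checkRangeG_sound parWF r2 pf28233 h28233
  have h28235 := checkRangeG_sound parWF r2 pf28234 h28234
  have h28236 := checkRangeG_sound parWF r2 pf28235 h28235
  have h28237 := checkRangeG_sound parWF r2 pf28236 h28236
  have h28238 := checkRangeG_sound parWF r2 pf28237 h28237
  have h28239 := checkRangeG_sound parWF r2 pf28238 h28238
  have h28240 := checkRangeG_sound parWF r2 pf28239 h28239
  have h28241 := checkRangeG_sound parWF r2 pf28240 h28240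
  have h28242 := checkRangeG_sound parWF r2 pf28241 h28241
  have h28243 := checkRangeG_sound parWF r2 pf28242 h28242
  have h28244 := checkRangeG_sound parWF r2 pf28243 h28243
  have h28245 := checkRangeG_sound parWF r2 pf28244 h28244
  have h28246 := checkRangeG_sound parWF r2 pf28245 h28245
  have h28247 := checkRangeG_sound parWF r2 pf28246 h28246
  have h28248 := checkRangeG_sound parWF r2 pf28247 h28247
  have h28249 := checkRangeG_sound parWF r2 pf28248 h28248
  have h28250 := checkRangeG_sound parWF r2 pf28249 h28249
  exact h28250

theorem c565 (h28250 : ∀ j, j < 92210 → GoodG.{u} par (db j)) : ∀ j, j < 92366 → GoodG.{u} par (db j) := by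
  have h28251 := checkRangeG_sound parWF r2 pf28250 h28250
  have h28252 := checkRangeG_sound parWF r2 pf28251 h28251
  have h28253 := checkRangeG_sound parWF r2 pf28252 h28252
  have h28254 := checkRangeG_sound parWF r2 pf28253 h28253
  have h28255 := checkRangeG_sound parWF r2 pf28254 h28254
  have h28256 := checkRangeG_sound parWF r2 pf28255 h28255
  have h28257 := checkRangeG_sound parWF r2 pf28256 h28256
  have h28258 := checkRangeG_sound parWF r2 pf28257 h28257
  have h28259 := checkRangeG_sound parWF r2 pf28258 h28258
  have h28260 := checkRangeG_sound parWF r2 pf28259 h28259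
  have h28261 := checkRangeG_sound parWF r2 pf28260 h28260
  have h28262 := checkRangeG_sound parWF r2 pf28261 h28261
  have h28263 := checkRangeG_sound parWF r2 pf28262 h28262
  have h28264 := checkRangeG_sound parWF r2 pf28263 h28263
  have h28265 := checkRangeG_sound parWF r2 pf28264 h28264
  have h28266 := checkRangeG_sound parWF r2 pf28265 h28265
  have h28267 := checkRangeG_sound parWF r2 pf28266 h28266
  have h28268 := checkRangeG_sound parWF r2 pf28267 h28267
  have h28269 := checkRangeG_sound parWF r2 pf28268 h28268
  have h28270 := checkRangeG_sound parWF r2 pf28269 h28269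
  have h28271 := checkRangeG_sound parWF r2 pf28270 h28270
  have h28272 := checkRangeG_sound parWF r2 pf28271 h28271
  have h28273 := checkRangeG_sound parWF r2 pf28272 h28272
  have h28274 := checkRangeG_sound parWF r2 pf28273 h28273
  have h28275 := checkRangeG_sound parWF r2 pf28274 h28274
  have h28276 := checkRangeG_sound parWF r2 pf28275 h28275
  have h28277 := checkRangeG_sound parWF r2 pf28276 h28276
  have h28278 := checkRangeG_sound parWF r2 pf28277 h28277
  have h28279 := checkRangeG_sound parWF r2 pf28278 h28278
  have h28280 := checkRangeG_sound parWF r2 pf28279 h28279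
  have h28281 := checkRangeG_sound parWF r2 pf28280 h28280
  have h28282 := checkRangeG_sound parWF r2 pf28281 h28281
  have h28283 := checkRangeG_sound parWF r2 pf28282 h28282
  have h28284 := checkRangeG_sound parWF r2 pf28283 h28283
  have h28285 := checkRangeG_sound parWF r2 pf28284 h28284
  have h28286 := checkRangeG_sound parWF r2 pf28285 h28285
  have h28287 := checkRangeG_sound parWF r2 pf28286 h28286
  have h28288 := checkRangeG_sound parWF r2 pf28287 h28287
  have h28289 := checkRangeG_sound parWF r2 pf28288 h28288
  have h28290 := checkRangeG_sound parWF r2 pf28289 h28289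
  have h28291 := checkRangeG_sound parWF r2 pf28290 h28290
  have h28292 := checkRangeG_sound parWF r2 pf28291 h28291
  have h28293 := checkRangeG_sound parWF r2 pf28292 h28292
  have h28294 := checkRangeG_sound parWF r2 pf28293 h28293
  have h28295 := checkRangeG_sound parWF r2 pf28294 h28294
  have h28296 := checkRangeG_sound parWF r2 pf28295 h28295
  have h28297 := checkRangeG_sound parWF r2 pf28296 h28296
  have h28298 := checkRangeG_sound parWF r2 pf28297 h28297
  have h28299 := checkRangeG_sound parWF r2 pf28298 h28298
  have h28300 := checkRangeG_sound parWF r2 pf28299 h28299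
  exact h28300

theorem c566 (h28300 : ∀ j, j < 92366 → GoodG.{u} par (db j)) : ∀ j, j < 92540 → GoodG.{u} par (db j) := by
  have h28301 := checkRangeG_sound parWF r2 pf28300 h28300
  have h28302 := checkRangeG_sound parWF r2 pf28301 h28301
  have h28303 := checkRangeG_sound parWF r2 pf28302 h28302
  have h28304 := checkRangeG_sound parWF r2 pf28303 h28303
  have h28305 := checkRangeG_sound parWF r2 pf28304 h28304
  have h28306 := checkRangeG_sound parWF r2 pf28305 h28305
  have h28307 := checkRangeG_sound parWF r2 pf28306 h28306
  have h28308 := checkRangeG_sound parWF r2 pf28307 h28307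
  have h28309 := checkRangeG_sound parWF r2 pf28308 h28308
  have h28310 := checkRangeG_sound parWF r2 pf28309 h28309
  have h28311 := checkRangeG_sound parWF r2 pf28310 h28310
  have h28312 := checkRangeG_sound parWF r2 pf28311 h28311
  have h28313 := checkRangeG_sound parWF r2 pf28312 h28312
  have h28314 := checkRangeG_sound parWF r2 pf28313 h28313
  have h28315 := checkRangeG_sound parWF r2 pf28314 h28314
  have h28316 := checkRangeG_sound parWF r2 pf28315 h28315
  have h28317 := checkRangeG_sound parWF r2 pf28316 h28316
  have h28318 := checkRangeG_sound parWF r2 pf28317 h28317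
  have h28319 := checkRangeG_sound parWF r2 pf28318 h28318
  have h28320 := checkRangeG_sound parWF r2 pf28319 h28319
  have h28321 := checkRangeG_sound parWF r2 pf28320 h28320
  have h28322 := checkRangeG_sound parWF r2 pf28321 h28321
  have h28323 := checkRangeG_sound parWF r2 pf28322 h28322
  have h28324 := checkRangeG_sound parWF r2 pf28323 h28323
  have h28325 := checkRangeG_sound parWF r2 pf28324 h28324
  have h28326 := checkRangeG_sound parWF r2 pf28325 h28325
  have h28327 := checkRangeG_sound parWF r2 pf28326 h28326
  have h28328 := checkRangeG_sound parWF r2 pf28327 h28327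
  have h28329 := checkRangeG_sound parWF r2 pf28328 h28328
  have h28330 := checkRangeG_sound parWF r2 pf28329 h28329
  have h28331 := checkRangeG_sound parWF r2 pf28330 h28330
  have h28332 := checkRangeG_sound parWF r2 pf28331 h28331
  have h28333 := checkRangeG_sound parWF r2 pf28332 h28332
  have h28334 := checkRangeG_sound parWF r2 pf28333 h28333
  have h28335 := checkRangeG_sound parWF r2 pf28334 h28334
  have h28336 := checkRangeG_sound parWF r2 pf28335 h28335
  have h28337 := checkRangeG_sound parWF r2 pf28336 h28336
  have h28338 := checkRangeG_sound parWF r2 pf28337 h28337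
  have h28339 := checkRangeG_sound parWF r2 pf28338 h28338
  have h28340 := checkRangeG_sound parWF r2 pf28339 h28339
  have h28341 := checkRangeG_sound parWF r2 pf28340 h28340
  have h28342 := checkRangeG_sound parWF r2 pf28341 h28341
  have h28343 := checkRangeG_sound parWF r2 pf28342 h28342
  have h28344 := checkRangeG_sound parWF r2 pf28343 h28343
  have h28345 := checkRangeG_sound parWF r2 pf28344 h28344
  have h28346 := checkRangeG_sound parWF r2 pf28345 h28345
  have h28347 := checkRangeG_sound parWF r2 pf28346 h28346
  have h28348 := checkRangeG_sound parWF r2 pf28347 h28347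
  have h28349 := checkRangeG_sound parWF r2 pf28348 h28348
  have h28350 := checkRangeG_sound parWF r2 pf28349 h28349
  exact h28350

theorem c567 (h28350 : ∀ j, j < 92540 → GoodG.{u} par (db j)) : ∀ j, j < 92704 → GoodG.{u} par (db j) := by
  have h28351 := checkRangeG_sound parWF r2 pf28350 h28350
  have h28352 := checkRangeG_sound parWF r2 pf28351 h28351
  have h28353 := checkRangeG_sound parWF r2 pf28352 h28352
  have h28354 := checkRangeG_sound parWF r2 pf28353 h28353
  have h28355 := checkRangeG_sound parWF r2 pf28354 h28354
  have h28356 := checkRangeG_sound parWF r2 pf28355 h28355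
  have h28357 := checkRangeG_sound parWF r2 pf28356 h28356
  have h28358 := checkRangeG_sound parWF r2 pf28357 h28357
  have h28359 := checkRangeG_sound parWF r2 pf28358 h28358
  have h28360 := checkRangeG_sound parWF r2 pf28359 h28359
  have h28361 := checkRangeG_sound parWF r2 pf28360 h28360
  have h28362 := checkRangeG_sound parWF r2 pf28361 h28361
  have h28363 := checkRangeG_sound parWF r2 pf28362 h28362
  have h28364 := checkRangeG_sound parWF r2 pf28363 h28363
  have h28365 := checkRangeG_sound parWF r2 pf28364 h28364
  have h28366 := checkRangeG_sound parWF r2 pf28365 h28365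
  have h28367 := checkRangeG_sound parWF r2 pf28366 h28366
  have h28368 := checkRangeG_sound parWF r2 pf28367 h28367
  have h28369 := checkRangeG_sound parWF r2 pf28368 h28368
  have h28370 := checkRangeG_sound parWF r2 pf28369 h28369
  have h28371 := checkRangeG_sound parWF r2 pf28370 h28370
  have h28372 := checkRangeG_sound parWF r2 pf28371 h28371
  have h28373 := checkRangeG_sound parWF r2 pf28372 h28372
  have h28374 := checkRangeG_sound parWF r2 pf28373 h28373
  have h28375 := checkRangeG_sound parWF r2 pf28374 h28374
  have h28376 := checkRangeG_sound parWF r2 pf28375 h28375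
  have h28377 := checkRangeG_sound parWF r2 pf28376 h28376
  have h28378 := checkRangeG_sound parWF r2 pf28377 h28377
  have h28379 := checkRangeG_sound parWF r2 pf28378 h28378
  have h28380 := checkRangeG_sound parWF r2 pf28379 h28379
  have h28381 := checkRangeG_sound parWF r2 pf28380 h28380
  have h28382 := checkRangeG_sound parWF r2 pf28381 h28381
  have h28383 := checkRangeG_sound parWF r2 pf28382 h28382
  have h28384 := checkRangeG_sound parWF r2 pf28383 h28383
  have h28385 := checkRangeG_sound parWF r2 pf28384 h28384
  have h28386 := checkRangeG_sound parWF r2 pf28385 h28385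
  have h28387 := checkRangeG_sound parWF r2 pf28386 h28386
  have h28388 := checkRangeG_sound parWF r2 pf28387 h28387
  have h28389 := checkRangeG_sound parWF r2 pf28388 h28388
  have h28390 := checkRangeG_sound parWF r2 pf28389 h28389
  have h28391 := checkRangeG_sound parWF r2 pf28390 h28390
  have h28392 := checkRangeG_sound parWF r2 pf28391 h28391
  have h28393 := checkRangeG_sound parWF r2 pf28392 h28392
  have h28394 := checkRangeG_sound parWF r2 pf28393 h28393
  have h28395 := checkRangeG_sound parWF r2 pf28394 h28394
  have h28396 := checkRangeG_sound parWF r2 pf28395 h28395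
  have h28397 := checkRangeG_sound parWF r2 pf28396 h28396
  have h28398 := checkRangeG_sound parWF r2 pf28397 h28397
  have h28399 := checkRangeG_sound parWF r2 pf28398 h28398
  have h28400 := checkRangeG_sound parWF r2 pf28399 h28399
  exact h28400

theorem c568 (h28400 : ∀ j, j < 92704 → GoodG.{u} par (db j)) : ∀ j, j < 92850 → GoodG.{u} par (db j) := by
  have h28401 := checkRangeG_sound parWF r2 pf28400 h28400
  have h28402 := checkRangeG_sound parWF r2 pf28401 h28401
  have h28403 := checkRangeG_sound parWF r2 pf28402 h28402
  have h28404 := checkRangeG_sound parWF r2 pf28403 h28403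
  have h28405 := checkRangeG_sound parWF r2 pf28404 h28404
  have h28406 := checkRangeG_sound parWF r2 pf28405 h28405
  have h28407 := checkRangeG_sound parWF r2 pf28406 h28406
  have h28408 := checkRangeG_sound parWF r2 pf28407 h28407
  have h28409 := checkRangeG_sound parWF r2 pf28408 h28408
  have h28410 := checkRangeG_sound parWF r2 pf28409 h28409
  have h28411 := checkRangeG_sound parWF r2 pf28410 h28410
  have h28412 := checkRangeG_sound parWF r2 pf28411 h28411
  have h28413 := checkRangeG_sound parWF r2 pf28412 h28412
  have h28414 := checkRangeG_sound parWF r2 pf28413 h28413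
  have h28415 := checkRangeG_sound parWF r2 pf28414 h28414
  have h28416 := checkRangeG_sound parWF r2 pf28415 h28415
  have h28417 := checkRangeG_sound parWF r2 pf28416 h28416
  have h28418 := checkRangeG_sound parWF r2 pf28417 h28417
  have h28419 := checkRangeG_sound parWF r2 pf28418 h28418
  have h28420 := checkRangeG_sound parWF r2 pf28419 h28419
  have h28421 := checkRangeG_sound parWF r2 pf28420 h28420
  have h28422 := checkRangeG_sound parWF r2 pf28421 h28421
  have h28423 := checkRangeG_sound parWF r2 pf28422 h28422
  have h28424 := checkRangeG_sound parWF r2 pf28423 h28423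
  have h28425 := checkRangeG_sound parWF r2 pf28424 h28424
  have h28426 := checkRangeG_sound parWF r2 pf28425 h28425
  have h28427 := checkRangeG_sound parWF r2 pf28426 h28426
  have h28428 := checkRangeG_sound parWF r2 pf28427 h28427
  have h28429 := checkRangeG_sound parWF r2 pf28428 h28428
  have h28430 := checkRangeG_sound parWF r2 pf28429 h28429
  have h28431 := checkRangeG_sound parWF r2 pf28430 h28430
  have h28432 := checkRangeG_sound parWF r2 pf28431 h28431
  have h28433 := checkRangeG_sound parWF r2 pf28432 h28432
  have h28434 := checkRangeG_sound parWF r2 pf28433 h28433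
  have h28435 := checkRangeG_sound parWF r2 pf28434 h28434
  have h28436 := checkRangeG_sound parWF r2 pf28435 h28435
  have h28437 := checkRangeG_sound parWF r2 pf28436 h28436
  have h28438 := checkRangeG_sound parWF r2 pf28437 h28437
  have h28439 := checkRangeG_sound parWF r2 pf28438 h28438
  have h28440 := checkRangeG_sound parWF r2 pf28439 h28439
  have h28441 := checkRangeG_sound parWF r2 pf28440 h28440
  have h28442 := checkRangeG_sound parWF r2 pf28441 h28441
  have h28443 := checkRangeG_sound parWF r2 pf28442 h28442
  have h28444 := checkRangeG_sound parWF r2 pf28443 h28443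
  have h28445 := checkRangeG_sound parWF r2 pf28444 h28444
  have h28446 := checkRangeG_sound parWF r2 pf28445 h28445
  have h28447 := checkRangeG_sound parWF r2 pf28446 h28446
  have h28448 := checkRangeG_sound parWF r2 pf28447 h28447
  have h28449 := checkRangeG_sound parWF r2 pf28448 h28448
  have h28450 := checkRangeG_sound parWF r2 pf28449 h28449
  exact h28450

theorem c569 (h28450 : ∀ j, j < 92850 → GoodG.{u} par (db j)) : ∀ j, j < 93008 → GoodG.{u} par (db j) := by
  have h28451 := checkRangeG_sound parWF r2 pf28450 h28450
  have h28452 := checkRangeG_sound parWF r2 pf28451 h28451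
  have h28453 := checkRangeG_sound parWF r2 pf28452 h28452
  have h28454 := checkRangeG_sound parWF r2 pf28453 h28453
  have h28455 := checkRangeG_sound parWF r2 pf28454 h28454
  have h28456 := checkRangeG_sound parWF r2 pf28455 h28455
  have h28457 := checkRangeG_sound parWF r2 pf28456 h28456
  have h28458 := checkRangeG_sound parWF r2 pf28457 h28457
  have h28459 := checkRangeG_sound parWF r2 pf28458 h28458
  have h28460 := checkRangeG_sound parWF r2 pf28459 h28459
  have h28461 := checkRangeG_sound parWF r2 pf28460 h28460
  have h28462 := checkRangeG_sound parWF r2 pf28461 h28461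
  have h28463 := checkRangeG_sound parWF r2 pf28462 h28462
  have h28464 := checkRangeG_sound parWF r2 pf28463 h28463
  have h28465 := checkRangeG_sound parWF r2 pf28464 h28464
  have h28466 := checkRangeG_sound parWF r2 pf28465 h28465
  have h28467 := checkRangeG_sound parWF r2 pf28466 h28466
  have h28468 := checkRangeG_sound parWF r2 pf28467 h28467
  have h28469 := checkRangeG_sound parWF r2 pf28468 h28468
  have h28470 := checkRangeG_sound parWF r2 pf28469 h28469
  have h28471 := checkRangeG_sound parWF r2 pf28470 h28470
  have h28472 := checkRangeG_sound parWF r2 pf28471 h28471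
  have h28473 := checkRangeG_sound parWF r2 pf28472 h28472
  have h28474 := checkRangeG_sound parWF r2 pf28473 h28473
  have h28475 := checkRangeG_sound parWF r2 pf28474 h28474
  have h28476 := checkRangeG_sound parWF r2 pf28475 h28475
  have h28477 := checkRangeG_sound parWF r2 pf28476 h28476
  have h28478 := checkRangeG_sound parWF r2 pf28477 h28477
  have h28479 := checkRangeG_sound parWF r2 pf28478 h28478
  have h28480 := checkRangeG_sound parWF r2 pf28479 h28479
  have h28481 := checkRangeG_sound parWF r2 pf28480 h28480
  have h28482 := checkRangeG_sound parWF r2 pf28481 h28481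
  have h28483 := checkRangeG_sound parWF r2 pf28482 h28482
  have h28484 := checkRangeG_sound parWF r2 pf28483 h28483
  have h28485 := checkRangeG_sound parWF r2 pf28484 h28484
  have h28486 := checkRangeG_sound parWF r2 pf28485 h28485
  have h28487 := checkRangeG_sound parWF r2 pf28486 h28486
  have h28488 := checkRangeG_sound parWF r2 pf28487 h28487
  have h28489 := checkRangeG_sound parWF r2 pf28488 h28488
  have h28490 := checkRangeG_sound parWF r2 pf28489 h28489
  have h28491 := checkRangeG_sound parWF r2 pf28490 h28490
  have h28492 := checkRangeG_sound parWF r2 pf28491 h28491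
  have h28493 := checkRangeG_sound parWF r2 pf28492 h28492
  have h28494 := checkRangeG_sound parWF r2 pf28493 h28493
  have h28495 := checkRangeG_sound parWF r2 pf28494 h28494
  have h28496 := checkRangeG_sound parWF r2 pf28495 h28495
  have h28497 := checkRangeG_sound parWF r2 pf28496 h28496
  have h28498 := checkRangeG_sound parWF r2 pf28497 h28497
  have h28499 := checkRangeG_sound parWF r2 pf28498 h28498
  have h28500 := checkRangeG_sound parWF r2 pf28499 h28499
  exact h28500

theorem c570 (h28500 : ∀ j, j < 93008 → GoodG.{u} par (db j)) : ∀ j, j < 93183 → GoodG.{u} par (db j) := by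
  have h28501 := checkRangeG_sound parWF r2 pf28500 h28500
  have h28502 := checkRangeG_sound parWF r2 pf28501 h28501
  have h28503 := checkRangeG_sound parWF r2 pf28502 h28502
  have h28504 := checkRangeG_sound parWF r2 pf28503 h28503
  have h28505 := checkRangeG_sound parWF r2 pf28504 h28504
  have h28506 := checkRangeG_sound parWF r2 pf28505 h28505
  have h28507 := checkRangeG_sound parWF r2 pf28506 h28506
  have h28508 := checkRangeG_sound parWF r2 pf28507 h28507
  have h28509 := checkRangeG_sound parWF r2 pf28508 h28508
  have h28510 := checkRangeG_sound parWF r2 pf28509 h28509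
  have h28511 := checkRangeG_sound parWF r2 pf28510 h28510
  have h28512 := checkRangeG_sound parWF r2 pf28511 h28511
  have h28513 := checkRangeG_sound parWF r2 pf28512 h28512
  have h28514 := checkRangeG_sound parWF r2 pf28513 h28513
  have h28515 := checkRangeG_sound parWF r2 pf28514 h28514
  have h28516 := checkRangeG_sound parWF r2 pf28515 h28515
  have h28517 := checkRangeG_sound parWF r2 pf28516 h28516
  have h28518 := checkRangeG_sound parWF r2 pf28517 h28517
  have h28519 := checkRangeG_sound parWF r2 pf28518 h28518
  have h28520 := checkRangeG_sound parWF r2 pf28519 h28519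
  have h28521 := checkRangeG_sound parWF r2 pf28520 h28520
  have h28522 := checkRangeG_sound parWF r2 pf28521 h28521
  have h28523 := checkRangeG_sound parWF r2 pf28522 h28522
  have h28524 := checkRangeG_sound parWF r2 pf28523 h28523
  have h28525 := checkRangeG_sound parWF r2 pf28524 h28524
  have h28526 := checkRangeG_sound parWF r2 pf28525 h28525
  have h28527 := checkRangeG_sound parWF r2 pf28526 h28526
  have h28528 := checkRangeG_sound parWF r2 pf28527 h28527
  have h28529 := checkRangeG_sound parWF r2 pf28528 h28528
  have h28530 := checkRangeG_sound parWF r2 pf28529 h28529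
  have h28531 := checkRangeG_sound parWF r2 pf28530 h28530
  have h28532 := checkRangeG_sound parWF r2 pf28531 h28531
  have h28533 := checkRangeG_sound parWF r2 pf28532 h28532
  have h28534 := checkRangeG_sound parWF r2 pf28533 h28533
  have h28535 := checkRangeG_sound parWF r2 pf28534 h28534
  have h28536 := checkRangeG_sound parWF r2 pf28535 h28535
  have h28537 := checkRangeG_sound parWF r2 pf28536 h28536
  have h28538 := checkRangeG_sound parWF r2 pf28537 h28537
  have h28539 := checkRangeG_sound parWF r2 pf28538 h28538
  have h28540 := checkRangeG_sound parWF r2 pf28539 h28539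
  have h28541 := checkRangeG_sound parWF r2 pf28540 h28540
  have h28542 := checkRangeG_sound parWF r2 pf28541 h28541
  have h28543 := checkRangeG_sound parWF r2 pf28542 h28542
  have h28544 := checkRangeG_sound parWF r2 pf28543 h28543
  have h28545 := checkRangeG_sound parWF r2 pf28544 h28544
  have h28546 := checkRangeG_sound parWF r2 pf28545 h28545
  have h28547 := checkRangeG_sound parWF r2 pf28546 h28546
  have h28548 := checkRangeG_sound parWF r2 pf28547 h28547
  have h28549 := checkRangeG_sound parWF r2 pf28548 h28548
  have h28550 := checkRangeG_sound parWF r2 pf28549 h28549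
  exact h28550

theorem c571 (h28550 : ∀ j, j < 93183 → GoodG.{u} par (db j)) : ∀ j, j < 93380 → GoodG.{u} par (db j) := by
  have h28551 := checkRangeG_sound parWF r2 pf28550 h28550
  have h28552 := checkRangeG_sound parWF r2 pf28551 h28551
  have h28553 := checkRangeG_sound parWF r2 pf28552 h28552
  have h28554 := checkRangeG_sound parWF r2 pf28553 h28553
  have h28555 := checkRangeG_sound parWF r2 pf28554 h28554
  have h28556 := checkRangeG_sound parWF r2 pf28555 h28555
  have h28557 := checkRangeG_sound parWF r2 pf28556 h28556
  have h28558 := checkRangeG_sound parWF r2 pf28557 h28557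
  have h28559 := checkRangeG_sound parWF r2 pf28558 h28558
  have h28560 := checkRangeG_sound parWF r2 pf28559 h28559
  have h28561 := checkRangeG_sound parWF r2 pf28560 h28560
  have h28562 := checkRangeG_sound parWF r2 pf28561 h28561
  have h28563 := checkRangeG_sound parWF r2 pf28562 h28562
  have h28564 := checkRangeG_sound parWF r2 pf28563 h28563
  have h28565 := checkRangeG_sound parWF r2 pf28564 h28564
  have h28566 := checkRangeG_sound parWF r2 pf28565 h28565
  have h28567 := checkRangeG_sound parWF r2 pf28566 h28566
  have h28568 := checkRangeG_sound parWF r2 pf28567 h28567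
  have h28569 := checkRangeG_sound parWF r2 pf28568 h28568
  have h28570 := checkRangeG_sound parWF r2 pf28569 h28569
  have h28571 := checkRangeG_sound parWF r2 pf28570 h28570
  have h28572 := checkRangeG_sound parWF r2 pf28571 h28571
  have h28573 := checkRangeG_sound parWF r2 pf28572 h28572
  have h28574 := checkRangeG_sound parWF r2 pf28573 h28573
  have h28575 := checkRangeG_sound parWF r2 pf28574 h28574
  have h28576 := checkRangeG_sound parWF r2 pf28575 h28575
  have h28577 := checkRangeG_sound parWF r2 pf28576 h28576
  have h28578 := checkRangeG_sound parWF r2 pf28577 h28577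
  have h28579 := checkRangeG_sound parWF r2 pf28578 h28578
  have h28580 := checkRangeG_sound parWF r2 pf28579 h28579
  have h28581 := checkRangeG_sound parWF r2 pf28580 h28580
  have h28582 := checkRangeG_sound parWF r2 pf28581 h28581
  have h28583 := checkRangeG_sound parWF r2 pf28582 h28582
  have h28584 := checkRangeG_sound parWF r2 pf28583 h28583
  have h28585 := checkRangeG_sound parWF r2 pf28584 h28584
  have h28586 := checkRangeG_sound parWF r2 pf28585 h28585
  have h28587 := checkRangeG_sound parWF r2 pf28586 h28586
  have h28588 := checkRangeG_sound parWF r2 pf28587 h28587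
  have h28589 := checkRangeG_sound parWF r2 pf28588 h28588
  have h28590 := checkRangeG_sound parWF r2 pf28589 h28589
  have h28591 := checkRangeG_sound parWF r2 pf28590 h28590
  have h28592 := checkRangeG_sound parWF r2 pf28591 h28591
  have h28593 := checkRangeG_sound parWF r2 pf28592 h28592
  have h28594 := checkRangeG_sound parWF r2 pf28593 h28593
  have h28595 := checkRangeG_sound parWF r2 pf28594 h28594
  have h28596 := checkRangeG_sound parWF r2 pf28595 h28595
  have h28597 := checkRangeG_sound parWF r2 pf28596 h28596
  have h28598 := checkRangeG_sound parWF r2 pf28597 h28597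
  have h28599 := checkRangeG_sound parWF r2 pf28598 h28598
  have h28600 := checkRangeG_sound parWF r2 pf28599 h28599
  exact h28600

theorem c572 (h28600 : ∀ j, j < 93380 → GoodG.{u} par (db j)) : ∀ j, j < 93591 → GoodG.{u} par (db j) := by
  have h28601 := checkRangeG_sound parWF r2 pf28600 h28600
  have h28602 := checkRangeG_sound parWF r2 pf28601 h28601
  have h28603 := checkRangeG_sound parWF r2 pf28602 h28602
  have h28604 := checkRangeG_sound parWF r2 pf28603 h28603
  have h28605 := checkRangeG_sound parWF r2 pf28604 h28604
  have h28606 := checkRangeG_sound parWF r2 pf28605 h28605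
  have h28607 := checkRangeG_sound parWF r2 pf28606 h28606
  have h28608 := checkRangeG_sound parWF r2 pf28607 h28607
  have h28609 := checkRangeG_sound parWF r2 pf28608 h28608
  have h28610 := checkRangeG_sound parWF r2 pf28609 h28609
  have h28611 := checkRangeG_sound parWF r2 pf28610 h28610
  have h28612 := checkRangeG_sound parWF r2 pf28611 h28611
  have h28613 := checkRangeG_sound parWF r2 pf28612 h28612
  have h28614 := checkRangeG_sound parWF r2 pf28613 h28613
  have h28615 := checkRangeG_sound parWF r2 pf28614 h28614
  have h28616 := checkRangeG_sound parWF r2 pf28615 h28615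
  have h28617 := checkRangeG_sound parWF r2 pf28616 h28616
  have h28618 := checkRangeG_sound parWF r2 pf28617 h28617
  have h28619 := checkRangeG_sound parWF r2 pf28618 h28618
  have h28620 := checkRangeG_sound parWF r2 pf28619 h28619
  have h28621 := checkRangeG_sound parWF r2 pf28620 h28620
  have h28622 := checkRangeG_sound parWF r2 pf28621 h28621
  have h28623 := checkRangeG_sound parWF r2 pf28622 h28622
  have h28624 := checkRangeG_sound parWF r2 pf28623 h28623
  have h28625 := checkRangeG_sound parWF r2 pf28624 h28624
  have h28626 := checkRangeG_sound parWF r2 pf28625 h28625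
  have h28627 := checkRangeG_sound parWF r2 pf28626 h28626
  have h28628 := checkRangeG_sound parWF r2 pf28627 h28627
  have h28629 := checkRangeG_sound parWF r2 pf28628 h28628
  have h28630 := checkRangeG_sound parWF r2 pf28629 h28629
  have h28631 := checkRangeG_sound parWF r2 pf28630 h28630
  have h28632 := checkRangeG_sound parWF r2 pf28631 h28631
  have h28633 := checkRangeG_sound parWF r2 pf28632 h28632
  have h28634 := checkRangeG_sound parWF r2 pf28633 h28633
  have h28635 := checkRangeG_sound parWF r2 pf28634 h28634
  have h28636 := checkRangeG_sound parWF r2 pf28635 h28635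
  have h28637 := checkRangeG_sound parWF r2 pf28636 h28636
  have h28638 := checkRangeG_sound parWF r2 pf28637 h28637
  have h28639 := checkRangeG_sound parWF r2 pf28638 h28638
  have h28640 := checkRangeG_sound parWF r2 pf28639 h28639
  have h28641 := checkRangeG_sound parWF r2 pf28640 h28640
  have h28642 := checkRangeG_sound parWF r2 pf28641 h28641
  have h28643 := checkRangeG_sound parWF r2 pf28642 h28642
  have h28644 := checkRangeG_sound parWF r2 pf28643 h28643
  have h28645 := checkRangeG_sound parWF r2 pf28644 h28644
  have h28646 := checkRangeG_sound parWF r2 pf28645 h28645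
  have h28647 := checkRangeG_sound parWF r2 pf28646 h28646
  have h28648 := checkRangeG_sound parWF r2 pf28647 h28647
  have h28649 := checkRangeG_sound parWF r2 pf28648 h28648
  have h28650 := checkRangeG_sound parWF r2 pf28649 h28649
  exact h28650

theorem c573 (h28650 : ∀ j, j < 93591 → GoodG.{u} par (db j)) : ∀ j, j < 93803 → GoodG.{u} par (db j) := by
  have h28651 := checkRangeG_sound parWF r2 pf28650 h28650
  have h28652 := checkRangeG_sound parWF r2 pf28651 h28651
  have h28653 := checkRangeG_sound parWF r2 pf28652 h28652
  have h28654 := checkRangeG_sound parWF r2 pf28653 h28653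
  have h28655 := checkRangeG_sound parWF r2 pf28654 h28654
  have h28656 := checkRangeG_sound parWF r2 pf28655 h28655
  have h28657 := checkRangeG_sound parWF r2 pf28656 h28656
  have h28658 := checkRangeG_sound parWF r2 pf28657 h28657
  have h28659 := checkRangeG_sound parWF r2 pf28658 h28658
  have h28660 := checkRangeG_sound parWF r2 pf28659 h28659
  have h28661 := checkRangeG_sound parWF r2 pf28660 h28660
  have h28662 := checkRangeG_sound parWF r2 pf28661 h28661
  have h28663 := checkRangeG_sound parWF r2 pf28662 h28662
  have h28664 := checkRangeG_sound parWF r2 pf28663 h28663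
  have h28665 := checkRangeG_sound parWF r2 pf28664 h28664
  have h28666 := checkRangeG_sound parWF r2 pf28665 h28665
  have h28667 := checkRangeG_sound parWF r2 pf28666 h28666
  have h28668 := checkRangeG_sound parWF r2 pf28667 h28667
  have h28669 := checkRangeG_sound parWF r2 pf28668 h28668
  have h28670 := checkRangeG_sound parWF r2 pf28669 h28669
  have h28671 := checkRangeG_sound parWF r2 pf28670 h28670
  have h28672 := checkRangeG_sound parWF r2 pf28671 h28671
  have h28673 := checkRangeG_sound parWF r2 pf28672 h28672
  have h28674 := checkRangeG_sound parWF r2 pf28673 h28673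
  have h28675 := checkRangeG_sound parWF r2 pf28674 h28674
  have h28676 := checkRangeG_sound parWF r2 pf28675 h28675
  have h28677 := checkRangeG_sound parWF r2 pf28676 h28676
  have h28678 := checkRangeG_sound parWF r2 pf28677 h28677
  have h28679 := checkRangeG_sound parWF r2 pf28678 h28678
  have h28680 := checkRangeG_sound parWF r2 pf28679 h28679
  have h28681 := checkRangeG_sound parWF r2 pf28680 h28680
  have h28682 := checkRangeG_sound parWF r2 pf28681 h28681
  have h28683 := checkRangeG_sound parWF r2 pf28682 h28682
  have h28684 := checkRangeG_sound parWF r2 pf28683 h28683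
  have h28685 := checkRangeG_sound parWF r2 pf28684 h28684
  have h28686 := checkRangeG_sound parWF r2 pf28685 h28685
  have h28687 := checkRangeG_sound parWF r2 pf28686 h28686
  have h28688 := checkRangeG_sound parWF r2 pf28687 h28687
  have h28689 := checkRangeG_sound parWF r2 pf28688 h28688
  have h28690 := checkRangeG_sound parWF r2 pf28689 h28689
  have h28691 := checkRangeG_sound parWF r2 pf28690 h28690
  have h28692 := checkRangeG_sound parWF r2 pf28691 h28691
  have h28693 := checkRangeG_sound parWF r2 pf28692 h28692
  have h28694 := checkRangeG_sound parWF r2 pf28693 h28693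
  have h28695 := checkRangeG_sound parWF r2 pf28694 h28694
  have h28696 := checkRangeG_sound parWF r2 pf28695 h28695
  have h28697 := checkRangeG_sound parWF r2 pf28696 h28696
  have h28698 := checkRangeG_sound parWF r2 pf28697 h28697
  have h28699 := checkRangeG_sound parWF r2 pf28698 h28698
  have h28700 := checkRangeG_sound parWF r2 pf28699 h28699
  exact h28700

theorem c574 (h28700 : ∀ j, j < 93803 → GoodG.{u} par (db j)) : ∀ j, j < 94025 → GoodG.{u} par (db j) := by
  have h28701 := checkRangeG_sound parWF r2 pf28700 h28700
  have h28702 := checkRangeG_sound parWF r2 pf28701 h28701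
  have h28703 := checkRangeG_sound parWF r2 pf28702 h28702
  have h28704 := checkRangeG_sound parWF r2 pf28703 h28703
  have h28705 := checkRangeG_sound parWF r2 pf28704 h28704
  have h28706 := checkRangeG_sound parWF r2 pf28705 h28705
  have h28707 := checkRangeG_sound parWF r2 pf28706 h28706
  have h28708 := checkRangeG_sound parWF r2 pf28707 h28707
  have h28709 := checkRangeG_sound parWF r2 pf28708 h28708
  have h28710 := checkRangeG_sound parWF r2 pf28709 h28709
  have h28711 := checkRangeG_sound parWF r2 pf28710 h28710
  have h28712 := checkRangeG_sound parWF r2 pf28711 h28711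
  have h28713 := checkRangeG_sound parWF r2 pf28712 h28712
  have h28714 := checkRangeG_sound parWF r2 pf28713 h28713
  have h28715 := checkRangeG_sound parWF r2 pf28714 h28714
  have h28716 := checkRangeG_sound parWF r2 pf28715 h28715
  have h28717 := checkRangeG_sound parWF r2 pf28716 h28716
  have h28718 := checkRangeG_sound parWF r2 pf28717 h28717
  have h28719 := checkRangeG_sound parWF r2 pf28718 h28718
  have h28720 := checkRangeG_sound parWF r2 pf28719 h28719
  have h28721 := checkRangeG_sound parWF r2 pf28720 h28720
  have h28722 := checkRangeG_sound parWF r2 pf28721 h28721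
  have h28723 := checkRangeG_sound parWF r2 pf28722 h28722
  have h28724 := checkRangeG_sound parWF r2 pf28723 h28723
  have h28725 := checkRangeG_sound parWF r2 pf28724 h28724
  have h28726 := checkRangeG_sound parWF r2 pf28725 h28725
  have h28727 := checkRangeG_sound parWF r2 pf28726 h28726
  have h28728 := checkRangeG_sound parWF r2 pf28727 h28727
  have h28729 := checkRangeG_sound parWF r2 pf28728 h28728
  have h28730 := checkRangeG_sound parWF r2 pf28729 h28729
  have h28731 := checkRangeG_sound parWF r2 pf28730 h28730
  have h28732 := checkRangeG_sound parWF r2 pf28731 h28731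
  have h28733 := checkRangeG_sound parWF r2 pf28732 h28732
  have h28734 := checkRangeG_sound parWF r2 pf28733 h28733
  have h28735 := checkRangeG_sound parWF r2 pf28734 h28734
  have h28736 := checkRangeG_sound parWF r2 pf28735 h28735
  have h28737 := checkRangeG_sound parWF r2 pf28736 h28736
  have h28738 := checkRangeG_sound parWF r2 pf28737 h28737
  have h28739 := checkRangeG_sound parWF r2 pf28738 h28738
  have h28740 := checkRangeG_sound parWF r2 pf28739 h28739
  have h28741 := checkRangeG_sound parWF r2 pf28740 h28740
  have h28742 := checkRangeG_sound parWF r2 pf28741 h28741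
  have h28743 := checkRangeG_sound parWF r2 pf28742 h28742
  have h28744 := checkRangeG_sound parWF r2 pf28743 h28743
  have h28745 := checkRangeG_sound parWF r2 pf28744 h28744
  have h28746 := checkRangeG_sound parWF r2 pf28745 h28745
  have h28747 := checkRangeG_sound parWF r2 pf28746 h28746
  have h28748 := checkRangeG_sound parWF r2 pf28747 h28747
  have h28749 := checkRangeG_sound parWF r2 pf28748 h28748
  have h28750 := checkRangeG_sound parWF r2 pf28749 h28749
  exact h28750

theorem c575 (h28750 : ∀ j, j < 94025 → GoodG.{u} par (db j)) : ∀ j, j < 94239 → GoodG.{u} par (db j) := by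
  have h28751 := checkRangeG_sound parWF r2 pf28750 h28750
  have h28752 := checkRangeG_sound parWF r2 pf28751 h28751
  have h28753 := checkRangeG_sound parWF r2 pf28752 h28752
  have h28754 := checkRangeG_sound parWF r2 pf28753 h28753
  have h28755 := checkRangeG_sound parWF r2 pf28754 h28754
  have h28756 := checkRangeG_sound parWF r2 pf28755 h28755
  have h28757 := checkRangeG_sound parWF r2 pf28756 h28756
  have h28758 := checkRangeG_sound parWF r2 pf28757 h28757
  have h28759 := checkRangeG_sound parWF r2 pf28758 h28758
  have h28760 := checkRangeG_sound parWF r2 pf28759 h28759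
  have h28761 := checkRangeG_sound parWF r2 pf28760 h28760
  have h28762 := checkRangeG_sound parWF r2 pf28761 h28761
  have h28763 := checkRangeG_sound parWF r2 pf28762 h28762
  have h28764 := checkRangeG_sound parWF r2 pf28763 h28763
  have h28765 := checkRangeG_sound parWF r2 pf28764 h28764
  have h28766 := checkRangeG_sound parWF r2 pf28765 h28765
  have h28767 := checkRangeG_sound parWF r2 pf28766 h28766
  have h28768 := checkRangeG_sound parWF r2 pf28767 h28767
  have h28769 := checkRangeG_sound parWF r2 pf28768 h28768
  have h28770 := checkRangeG_sound parWF r2 pf28769 h28769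
  have h28771 := checkRangeG_sound parWF r2 pf28770 h28770
  have h28772 := checkRangeG_sound parWF r2 pf28771 h28771
  have h28773 := checkRangeG_sound parWF r2 pf28772 h28772
  have h28774 := checkRangeG_sound parWF r2 pf28773 h28773
  have h28775 := checkRangeG_sound parWF r2 pf28774 h28774
  have h28776 := checkRangeG_sound parWF r2 pf28775 h28775
  have h28777 := checkRangeG_sound parWF r2 pf28776 h28776
  have h28778 := checkRangeG_sound parWF r2 pf28777 h28777
  have h28779 := checkRangeG_sound parWF r2 pf28778 h28778
  have h28780 := checkRangeG_sound parWF r2 pf28779 h28779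
  have h28781 := checkRangeG_sound parWF r2 pf28780 h28780
  have h28782 := checkRangeG_sound parWF r2 pf28781 h28781
  have h28783 := checkRangeG_sound parWF r2 pf28782 h28782
  have h28784 := checkRangeG_sound parWF r2 pf28783 h28783
  have h28785 := checkRangeG_sound parWF r2 pf28784 h28784
  have h28786 := checkRangeG_sound parWF r2 pf28785 h28785
  have h28787 := checkRangeG_sound parWF r2 pf28786 h28786
  have h28788 := checkRangeG_sound parWF r2 pf28787 h28787
  have h28789 := checkRangeG_sound parWF r2 pf28788 h28788
  have h28790 := checkRangeG_sound parWF r2 pf28789 h28789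
  have h28791 := checkRangeG_sound parWF r2 pf28790 h28790
  have h28792 := checkRangeG_sound parWF r2 pf28791 h28791
  have h28793 := checkRangeG_sound parWF r2 pf28792 h28792
  have h28794 := checkRangeG_sound parWF r2 pf28793 h28793
  have h28795 := checkRangeG_sound parWF r2 pf28794 h28794
  have h28796 := checkRangeG_sound parWF r2 pf28795 h28795
  have h28797 := checkRangeG_sound parWF r2 pf28796 h28796
  have h28798 := checkRangeG_sound parWF r2 pf28797 h28797
  have h28799 := checkRangeG_sound parWF r2 pf28798 h28798
  have h28800 := checkRangeG_sound parWF r2 pf28799 h28799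
  exact h28800


end Vale.Agent.P045g.C61
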