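import Vale.Agent.P045g.C61.WF
import Vale.Agent.P045g.C61.Pf480
import Vale.Agent.P045g.C61.Pf481
import Vale.Agent.P045g.C61.Pf482
import Vale.Agent.P045g.C61.Pf483
import Vale.Agent.P045g.C61.Pf484
import Vale.Agent.P045g.C61.Pf485
import Vale.Agent.P045g.C61.Pf486
import Vale.Agent.P045g.C61.Pf487
import Vale.Agent.P045g.C61.Pf488
import Vale.Agent.P045g.C61.Pf489

namespace Vale.Agent.P045g.C61

open Vale.Agent.P045b Vale.Agent.P045g

universe u

theorem c576 (h28800 : ∀ j, j < 94239 → GoodG.{u} par (db j)) : ∀ j, j < 94446 → GoodG.{u} par (db j) := by
  have h28801 := checkRangeG_sound parWF r2 pf28800 h28800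
  have h28802 := checkRangeG_sound parWF r2 pf28801 h28801
  have h28803 := checkRangeG_sound parWF r2 pf28802 h28802
  have h28804 := checkRangeG_sound parWF r2 pf28803 h28803
  have h28805 := checkRangeG_sound parWF r2 pf28804 h28804
  have h28806 := checkRangeG_sound parWF r2 pf28805 h28805
  have h28807 := checkRangeG_sound parWF r2 pf28806 h28806
  have h28808 := checkRangeG_sound parWF r2 pf28807 h28807
  have h28809 := checkRangeG_sound parWF r2 pf28808 h28808
  have h28810 := checkRangeG_sound parWF r2 pf28809 h28809
  have h28811 := checkRangeG_sound parWF r2 pf28810 h28810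
  have h28812 := checkRangeG_sound parWF r2 pf28811 h28811
  have h28813 := checkRangeG_sound parWF r2 pf28812 h28812
  have h28814 := checkRangeG_sound parWF r2 pf28813 h28813
  have h28815 := checkRangeG_sound parWF r2 pf28814 h28814
  have h28816 := checkRangeG_sound parWF r2 pf28815 h28815
  have h28817 := checkRangeG_sound parWF r2 pf28816 h28816
  have h28818 := checkRangeG_sound parWF r2 pf28817 h28817
  have h28819 := checkRangeG_sound parWF r2 pf28818 h28818
  have h28820 := checkRangeG_sound parWF r2 pf28819 h28819
  have h28821 := checkRangeG_sound parWF r2 pf28820 h28820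
  have h28822 := checkRangeG_sound parWF r2 pf28821 h28821
  have h28823 := checkRangeG_sound parWF r2 pf28822 h28822
  have h28824 := checkRangeG_sound parWF r2 pf28823 h28823
  have h28825 := checkRangeG_sound parWF r2 pf28824 h28824
  have h28826 := checkRangeG_sound parWF r2 pf28825 h28825
  have h28827 := checkRangeG_sound parWF r2 pf28826 h28826
  have h28828 := checkRangeG_sound parWF r2 pf28827 h28827
  have h28829 := checkRangeG_sound parWF r2 pf28828 h28828
  have h28830 := checkRangeG_sound parWF r2 pf28829 h28829
  have h28831 := checkRangeG_sound parWF r2 pf28830 h28830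
  have h28832 := checkRangeG_sound parWF r2 pf28831 h28831
  have h28833 := checkRangeG_sound parWF r2 pf28832 h28832
  have h28834 := checkRangeG_sound parWF r2 pf28833 h28833
  have h28835 := checkRangeG_sound parWF r2 pf28834 h28834
  have h28836 := checkRangeG_sound parWF r2 pf28835 h28835
  have h28837 := checkRangeG_sound parWF r2 pf28836 h28836
  have h28838 := checkRangeG_sound parWF r2 pf28837 h28837
  have h28839 := checkRangeG_sound parWF r2 pf28838 h28838
  have h28840 := checkRangeG_sound parWF r2 pf28839 h28839
  have h28841 := checkRangeG_sound parWF r2 pf28840 h28840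
  have h28842 := checkRangeG_sound parWF r2 pf28841 h28841
  have h28843 := checkRangeG_sound parWF r2 pf28842 h28842
  have h28844 := checkRangeG_sound parWF r2 pf28843 h28843
  have h28845 := checkRangeG_sound parWF r2 pf28844 h28844
  have h28846 := checkRangeG_sound parWF r2 pf28845 h28845
  have h28847 := checkRangeG_sound parWF r2 pf28846 h28846
  have h28848 := checkRangeG_sound parWF r2 pf28847 h28847
  have h28849 := checkRangeG_sound parWF r2 pf28848 h28848
  have h28850 := checkRangeG_sound parWF r2 pf28849 h28849
  exact h28850

theorem c577 (h28850 : ∀ j, j < 94446 → GoodG.{u} par (db j)) : ∀ j, j < 94652 → GoodG.{u} par (db j) := by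
  have h28851 := checkRangeG_sound parWF r2 pf28850 h28850
  have h28852 := checkRangeG_sound parWF r2 pf28851 h28851
  have h28853 := checkRangeG_sound parWF r2 pf28852 h28852
  have h28854 := checkRangeG_sound parWF r2 pf28853 h28853
  have h28855 := checkRangeG_sound parWF r2 pf28854 h28854
  have h28856 := checkRangeG_sound parWF r2 pf28855 h28855
  have h28857 := checkRangeG_sound parWF r2 pf28856 h28856
  have h28858 := checkRangeG_sound parWF r2 pf28857 h28857
  have h28859 := checkRangeG_sound parWF r2 pf28858 h28858
  have h28860 := checkRangeG_sound parWF r2 pf28859 h28859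
  have h28861 := checkRangeG_sound parWF r2 pf28860 h28860
  have h28862 := checkRangeG_sound parWF r2 pf28861 h28861
  have h28863 := checkRangeG_sound parWF r2 pf28862 h28862
  have h28864 := checkRangeG_sound parWF r2 pf28863 h28863
  have h28865 := checkRangeG_sound parWF r2 pf28864 h28864
  have h28866 := checkRangeG_sound parWF r2 pf28865 h28865
  have h28867 := checkRangeG_sound parWF r2 pf28866 h28866
  have h28868 := checkRangeG_sound parWF r2 pf28867 h28867
  have h28869 := checkRangeG_sound parWF r2 pf28868 h28868
  have h28870 := checkRangeG_sound parWF r2 pf28869 h28869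
  have h28871 := checkRangeG_sound parWF r2 pf28870 h28870
  have h28872 := checkRangeG_sound parWF r2 pf28871 h28871
  have h28873 := checkRangeG_sound parWF r2 pf28872 h28872
  have h28874 := checkRangeG_sound parWF r2 pf28873 h28873
  have h28875 := checkRangeG_sound parWF r2 pf28874 h28874
  have h28876 := checkRangeG_sound parWF r2 pf28875 h28875
  have h28877 := checkRangeG_sound parWF r2 pf28876 h28876
  have h28878 := checkRangeG_sound parWF r2 pf28877 h28877
  have h28879 := checkRangeG_sound parWF r2 pf28878 h28878
  have h28880 := checkRangeG_sound parWF r2 pf28879 h28879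
  have h28881 := checkRangeG_sound parWF r2 pf28880 h28880
  have h28882 := checkRangeG_sound parWF r2 pf28881 h28881
  have h28883 := checkRangeG_sound parWF r2 pf28882 h28882
  have h28884 := checkRangeG_sound parWF r2 pf28883 h28883
  have h28885 := checkRangeG_sound parWF r2 pf28884 h28884
  have h28886 := checkRangeG_sound parWF r2 pf28885 h28885
  have h28887 := checkRangeG_sound parWF r2 pf28886 h28886
  have h28888 := checkRangeG_sound parWF r2 pf28887 h28887
  have h28889 := checkRangeG_sound parWF r2 pf28888 h28888
  have h28890 := checkRangeG_sound parWF r2 pf28889 h28889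
  have h28891 := checkRangeG_sound parWF r2 pf28890 h28890
  have h28892 := checkRangeG_sound parWF r2 pf28891 h28891
  have h28893 := checkRangeG_sound parWF r2 pf28892 h28892
  have h28894 := checkRangeG_sound parWF r2 pf28893 h28893
  have h28895 := checkRangeG_sound parWF r2 pf28894 h28894
  have h28896 := checkRangeG_sound parWF r2 pf28895 h28895
  have h28897 := checkRangeG_sound parWF r2 pf28896 h28896
  have h28898 := checkRangeG_sound parWF r2 pf28897 h28897
  have h28899 := checkRangeG_sound parWF r2 pf28898 h28898
  have h28900 := checkRangeG_sound parWF r2 pf28899 h28899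
  exact h28900

theorem c578 (h28900 : ∀ j, j < 94652 → GoodG.{u} par (db j)) : ∀ j, j < 94841 → GoodG.{u} par (db j) := by
  have h28901 := checkRangeG_sound parWF r2 pf28900 h28900
  have h28902 := checkRangeG_sound parWF r2 pf28901 h28901
  have h28903 := checkRangeG_sound parWF r2 pf28902 h28902
  have h28904 := checkRangeG_sound parWF r2 pf28903 h28903
  have h28905 := checkRangeG_sound parWF r2 pf28904 h28904
  have h28906 := checkRangeG_sound parWF r2 pf28905 h28905
  have h28907 := checkRangeG_sound parWF r2 pf28906 h28906
  have h28908 := checkRangeG_sound parWF r2 pf28907 h28907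
  have h28909 := checkRangeG_sound parWF r2 pf28908 h28908
  have h28910 := checkRangeG_sound parWF r2 pf28909 h28909
  have h28911 := checkRangeG_sound parWF r2 pf28910 h28910
  have h28912 := checkRangeG_sound parWF r2 pf28911 h28911
  have h28913 := checkRangeG_sound parWF r2 pf28912 h28912
  have h28914 := checkRangeG_sound parWF r2 pf28913 h28913
  have h28915 := checkRangeG_sound parWF r2 pf28914 h28914
  have h28916 := checkRangeG_sound parWF r2 pf28915 h28915
  have h28917 := checkRangeG_sound parWF r2 pf28916 h28916
  have h28918 := checkRangeG_sound parWF r2 pf28917 h28917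
  have h28919 := checkRangeG_sound parWF r2 pf28918 h28918
  have h28920 := checkRangeG_sound parWF r2 pf28919 h28919
  have h28921 := checkRangeG_sound parWF r2 pf28920 h28920
  have h28922 := checkRangeG_sound parWF r2 pf28921 h28921
  have h28923 := checkRangeG_sound parWF r2 pf28922 h28922
  have h28924 := checkRangeG_sound parWF r2 pf28923 h28923
  have h28925 := checkRangeG_sound parWF r2 pf28924 h28924
  have h28926 := checkRangeG_sound parWF r2 pf28925 h28925
  have h28927 := checkRangeG_sound parWF r2 pf28926 h28926
  have h28928 := checkRangeG_sound parWF r2 pf28927 h28927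
  have h28929 := checkRangeG_sound parWF r2 pf28928 h28928
  have h28930 := checkRangeG_sound parWF r2 pf28929 h28929
  have h28931 := checkRangeG_sound parWF r2 pf28930 h28930
  have h28932 := checkRangeG_sound parWF r2 pf28931 h28931
  have h28933 := checkRangeG_sound parWF r2 pf28932 h28932
  have h28934 := checkRangeG_sound parWF r2 pf28933 h28933
  have h28935 := checkRangeG_sound parWF r2 pf28934 h28934
  have h28936 := checkRangeG_sound parWF r2 pf28935 h28935
  have h28937 := checkRangeG_sound parWF r2 pf28936 h28936
  have h28938 := checkRangeG_sound parWF r2 pf28937 h28937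
  have h28939 := checkRangeG_sound parWF r2 pf28938 h28938
  have h28940 := checkRangeG_sound parWF r2 pf28939 h28939
  have h28941 := checkRangeG_sound parWF r2 pf28940 h28940
  have h28942 := checkRangeG_sound parWF r2 pf28941 h28941
  have h28943 := checkRangeG_sound parWF r2 pf28942 h28942
  have h28944 := checkRangeG_sound parWF r2 pf28943 h28943
  have h28945 := checkRangeG_sound parWF r2 pf28944 h28944
  have h28946 := checkRangeG_sound parWF r2 pf28945 h28945
  have h28947 := checkRangeG_sound parWF r2 pf28946 h28946
  have h28948 := checkRangeG_sound parWF r2 pf28947 h28947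
  have h28949 := checkRangeG_sound parWF r2 pf28948 h28948
  have h28950 := checkRangeG_sound parWF r2 pf28949 h28949
  exact h28950

theorem c579 (h28950 : ∀ j, j < 94841 → GoodG.{u} par (db j)) : ∀ j, j < 95022 → GoodG.{u} par (db j) := by
  have h28951 := checkRangeG_sound parWF r2 pf28950 h28950
  have h28952 := checkRangeG_sound parWF r2 pf28951 h28951
  have h28953 := checkRangeG_sound parWF r2 pf28952 h28952
  have h28954 := checkRangeG_sound parWF r2 pf28953 h28953
  have h28955 := checkRangeG_sound parWF r2 pf28954 h28954
  have h28956 := checkRangeG_sound parWF r2 pf28955 h28955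
  have h28957 := checkRangeG_sound parWF r2 pf28956 h28956
  have h28958 := checkRangeG_sound parWF r2 pf28957 h28957
  have h28959 := checkRangeG_sound parWF r2 pf28958 h28958
  have h28960 := checkRangeG_sound parWF r2 pf28959 h28959
  have h28961 := checkRangeG_sound parWF r2 pf28960 h28960
  have h28962 := checkRangeG_sound parWF r2 pf28961 h28961
  have h28963 := checkRangeG_sound parWF r2 pf28962 h28962
  have h28964 := checkRangeG_sound parWF r2 pf28963 h28963
  have h28965 := checkRangeG_sound parWF r2 pf28964 h28964
  have h28966 := checkRangeG_sound parWF r2 pf28965 h28965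
  have h28967 := checkRangeG_sound parWF r2 pf28966 h28966
  have h28968 := checkRangeG_sound parWF r2 pf28967 h28967
  have h28969 := checkRangeG_sound parWF r2 pf28968 h28968
  have h28970 := checkRangeG_sound parWF r2 pf28969 h28969
  have h28971 := checkRangeG_sound parWF r2 pf28970 h28970
  have h28972 := checkRangeG_sound parWF r2 pf28971 h28971
  have h28973 := checkRangeG_sound parWF r2 pf28972 h28972
  have h28974 := checkRangeG_sound parWF r2 pf28973 h28973
  have h28975 := checkRangeG_sound parWF r2 pf28974 h28974
  have h28976 := checkRangeG_sound parWF r2 pf28975 h28975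
  have h28977 := checkRangeG_sound parWF r2 pf28976 h28976
  have h28978 := checkRangeG_sound parWF r2 pf28977 h28977
  have h28979 := checkRangeG_sound parWF r2 pf28978 h28978
  have h28980 := checkRangeG_sound parWF r2 pf28979 h28979
  have h28981 := checkRangeG_sound parWF r2 pf28980 h28980
  have h28982 := checkRangeG_sound parWF r2 pf28981 h28981
  have h28983 := checkRangeG_sound parWF r2 pf28982 h28982
  have h28984 := checkRangeG_sound parWF r2 pf28983 h28983
  have h28985 := checkRangeG_sound parWF r2 pf28984 h28984
  have h28986 := checkRangeG_sound parWF r2 pf28985 h28985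
  have h28987 := checkRangeG_sound parWF r2 pf28986 h28986
  have h28988 := checkRangeG_sound parWF r2 pf28987 h28987
  have h28989 := checkRangeG_sound parWF r2 pf28988 h28988
  have h28990 := checkRangeG_sound parWF r2 pf28989 h28989
  have h28991 := checkRangeG_sound parWF r2 pf28990 h28990
  have h28992 := checkRangeG_sound parWF r2 pf28991 h28991
  have h28993 := checkRangeG_sound parWF r2 pf28992 h28992
  have h28994 := checkRangeG_sound parWF r2 pf28993 h28993
  have h28995 := checkRangeG_sound parWF r2 pf28994 h28994
  have h28996 := checkRangeG_sound parWF r2 pf28995 h28995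
  have h28997 := checkRangeG_sound parWF r2 pf28996 h28996
  have h28998 := checkRangeG_sound parWF r2 pf28997 h28997
  have h28999 := checkRangeG_sound parWF r2 pf28998 h28998
  have h29000 := checkRangeG_sound parWF r2 pf28999 h28999
  exact h29000

theorem c580 (h29000 : ∀ j, j < 95022 → GoodG.{u} par (db j)) : ∀ j, j < 95202 → GoodG.{u} par (db j) := by
  have h29001 := checkRangeG_sound parWF r2 pf29000 h29000
  have h29002 := checkRangeG_sound parWF r2 pf29001 h29001
  have h29003 := checkRangeG_sound parWF r2 pf29002 h29002
  have h29004 := checkRangeG_sound parWF r2 pf29003 h29003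
  have h29005 := checkRangeG_sound parWF r2 pf29004 h29004
  have h29006 := checkRangeG_sound parWF r2 pf29005 h29005
  have h29007 := checkRangeG_sound parWF r2 pf29006 h29006
  have h29008 := checkRangeG_sound parWF r2 pf29007 h29007
  have h29009 := checkRangeG_sound parWF r2 pf29008 h29008
  have h29010 := checkRangeG_sound parWF r2 pf29009 h29009
  have h29011 := checkRangeG_sound parWF r2 pf29010 h29010
  have h29012 := checkRangeG_sound parWF r2 pf29011 h29011
  have h29013 := checkRangeG_sound parWF r2 pf29012 h29012
  have h29014 := checkRangeG_sound parWF r2 pf29013 h29013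
  have h29015 := checkRangeG_sound parWF r2 pf29014 h29014
  have h29016 := checkRangeG_sound parWF r2 pf29015 h29015
  have h29017 := checkRangeG_sound parWF r2 pf29016 h29016
  have h29018 := checkRangeG_sound parWF r2 pf29017 h29017
  have h29019 := checkRangeG_sound parWF r2 pf29018 h29018
  have h29020 := checkRangeG_sound parWF r2 pf29019 h29019
  have h29021 := checkRangeG_sound parWF r2 pf29020 h29020
  have h29022 := checkRangeG_sound parWF r2 pf29021 h29021
  have h29023 := checkRangeG_sound parWF r2 pf29022 h29022
  have h29024 := checkRangeG_sound parWF r2 pf29023 h29023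
  have h29025 := checkRangeG_sound parWF r2 pf29024 h29024
  have h29026 := checkRangeG_sound parWF r2 pf29025 h29025
  have h29027 := checkRangeG_sound parWF r2 pf29026 h29026
  have h29028 := checkRangeG_sound parWF r2 pf29027 h29027
  have h29029 := checkRangeG_sound parWF r2 pf29028 h29028
  have h29030 := checkRangeG_sound parWF r2 pf29029 h29029
  have h29031 := checkRangeG_sound parWF r2 pf29030 h29030
  have h29032 := checkRangeG_sound parWF r2 pf29031 h29031
  have h29033 := checkRangeG_sound parWF r2 pf29032 h29032
  have h29034 := checkRangeG_sound parWF r2 pf29033 h29033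
  have h29035 := checkRangeG_sound parWF r2 pf29034 h29034
  have h29036 := checkRangeG_sound parWF r2 pf29035 h29035
  have h29037 := checkRangeG_sound parWF r2 pf29036 h29036
  have h29038 := checkRangeG_sound parWF r2 pf29037 h29037
  have h29039 := checkRangeG_sound parWF r2 pf29038 h29038
  have h29040 := checkRangeG_sound parWF r2 pf29039 h29039
  have h29041 := checkRangeG_sound parWF r2 pf29040 h29040
  have h29042 := checkRangeG_sound parWF r2 pf29041 h29041
  have h29043 := checkRangeG_sound parWF r2 pf29042 h29042
  have h29044 := checkRangeG_sound parWF r2 pf29043 h29043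
  have h29045 := checkRangeG_sound parWF r2 pf29044 h29044
  have h29046 := checkRangeG_sound parWF r2 pf29045 h29045
  have h29047 := checkRangeG_sound parWF r2 pf29046 h29046
  have h29048 := checkRangeG_sound parWF r2 pf29047 h29047
  have h29049 := checkRangeG_sound parWF r2 pf29048 h29048
  have h29050 := checkRangeG_sound parWF r2 pf29049 h29049
  exact h29050

theorem c581 (h29050 : ∀ j, j < 95202 → GoodG.{u} par (db j)) : ∀ j, j < 95388 → GoodG.{u} par (db j) := by
  have h29051 := checkRangeG_sound parWF r2 pf29050 h29050
  have h29052 := checkRangeG_sound parWF r2 pf29051 h29051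
  have h29053 := checkRangeG_sound parWF r2 pf29052 h29052
  have h29054 := checkRangeG_sound parWF r2 pf29053 h29053
  have h29055 := checkRangeG_sound parWF r2 pf29054 h29054
  have h29056 := checkRangeG_sound parWF r2 pf29055 h29055
  have h29057 := checkRangeG_sound parWF r2 pf29056 h29056
  have h29058 := checkRangeG_sound parWF r2 pf29057 h29057
  have h29059 := checkRangeG_sound parWF r2 pf29058 h29058
  have h29060 := checkRangeG_sound parWF r2 pf29059 h29059
  have h29061 := checkRangeG_sound parWF r2 pf29060 h29060
  have h29062 := checkRangeG_sound parWF r2 pf29061 h29061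
  have h29063 := checkRangeG_sound parWF r2 pf29062 h29062
  have h29064 := checkRangeG_sound parWF r2 pf29063 h29063
  have h29065 := checkRangeG_sound parWF r2 pf29064 h29064
  have h29066 := checkRangeG_sound parWF r2 pf29065 h29065
  have h29067 := checkRangeG_sound parWF r2 pf29066 h29066
  have h29068 := checkRangeG_sound parWF r2 pf29067 h29067
  have h29069 := checkRangeG_sound parWF r2 pf29068 h29068
  have h29070 := checkRangeG_sound parWF r2 pf29069 h29069
  have h29071 := checkRangeG_sound parWF r2 pf29070 h29070
  have h29072 := checkRangeG_sound parWF r2 pf29071 h29071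
  have h29073 := checkRangeG_sound parWF r2 pf29072 h29072
  have h29074 := checkRangeG_sound parWF r2 pf29073 h29073
  have h29075 := checkRangeG_sound parWF r2 pf29074 h29074
  have h29076 := checkRangeG_sound parWF r2 pf29075 h29075
  have h29077 := checkRangeG_sound parWF r2 pf29076 h29076
  have h29078 := checkRangeG_sound parWF r2 pf29077 h29077
  have h29079 := checkRangeG_sound parWF r2 pf29078 h29078
  have h29080 := checkRangeG_sound parWF r2 pf29079 h29079
  have h29081 := checkRangeG_sound parWF r2 pf29080 h29080
  have h29082 := checkRangeG_sound parWF r2 pf29081 h29081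
  have h29083 := checkRangeG_sound parWF r2 pf29082 h29082
  have h29084 := checkRangeG_sound parWF r2 pf29083 h29083
  have h29085 := checkRangeG_sound parWF r2 pf29084 h29084
  have h29086 := checkRangeG_sound parWF r2 pf29085 h29085
  have h29087 := checkRangeG_sound parWF r2 pf29086 h29086
  have h29088 := checkRangeG_sound parWF r2 pf29087 h29087
  have h29089 := checkRangeG_sound parWF r2 pf29088 h29088
  have h29090 := checkRangeG_sound parWF r2 pf29089 h29089
  have h29091 := checkRangeG_sound parWF r2 pf29090 h29090
  have h29092 := checkRangeG_sound parWF r2 pf29091 h29091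
  have h29093 := checkRangeG_sound parWF r2 pf29092 h29092
  have h29094 := checkRangeG_sound parWF r2 pf29093 h29093
  have h29095 := checkRangeG_sound parWF r2 pf29094 h29094
  have h29096 := checkRangeG_sound parWF r2 pf29095 h29095
  have h29097 := checkRangeG_sound parWF r2 pf29096 h29096
  have h29098 := checkRangeG_sound parWF r2 pf29097 h29097
  have h29099 := checkRangeG_sound parWF r2 pf29098 h29098
  have h29100 := checkRangeG_sound parWF r2 pf29099 h29099
  exact h29100

theorem c582 (h29100 : ∀ j, j < 95388 → GoodG.{u} par (db j)) : ∀ j, j < 95577 → GoodG.{u} par (db j) := by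
  have h29101 := checkRangeG_sound parWF r2 pf29100 h29100
  have h29102 := checkRangeG_sound parWF r2 pf29101 h29101
  have h29103 := checkRangeG_sound parWF r2 pf29102 h29102
  have h29104 := checkRangeG_sound parWF r2 pf29103 h29103
  have h29105 := checkRangeG_sound parWF r2 pf29104 h29104
  have h29106 := checkRangeG_sound parWF r2 pf29105 h29105
  have h29107 := checkRangeG_sound parWF r2 pf29106 h29106
  have h29108 := checkRangeG_sound parWF r2 pf29107 h29107
  have h29109 := checkRangeG_sound parWF r2 pf29108 h29108
  have h29110 := checkRangeG_sound parWF r2 pf29109 h29109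
  have h29111 := checkRangeG_sound parWF r2 pf29110 h29110
  have h29112 := checkRangeG_sound parWF r2 pf29111 h29111
  have h29113 := checkRangeG_sound parWF r2 pf29112 h29112
  have h29114 := checkRangeG_sound parWF r2 pf29113 h29113
  have h29115 := checkRangeG_sound parWF r2 pf29114 h29114
  have h29116 := checkRangeG_sound parWF r2 pf29115 h29115
  have h29117 := checkRangeG_sound parWF r2 pf29116 h29116
  have h29118 := checkRangeG_sound parWF r2 pf29117 h29117
  have h29119 := checkRangeG_sound parWF r2 pf29118 h29118
  have h29120 := checkRangeG_sound parWF r2 pf29119 h29119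
  have h29121 := checkRangeG_sound parWF r2 pf29120 h29120
  have h29122 := checkRangeG_sound parWF r2 pf29121 h29121
  have h29123 := checkRangeG_sound parWF r2 pf29122 h29122
  have h29124 := checkRangeG_sound parWF r2 pf29123 h29123
  have h29125 := checkRangeG_sound parWF r2 pf29124 h29124
  have h29126 := checkRangeG_sound parWF r2 pf29125 h29125
  have h29127 := checkRangeG_sound parWF r2 pf29126 h29126
  have h29128 := checkRangeG_sound parWF r2 pf29127 h29127
  have h29129 := checkRangeG_sound parWF r2 pf29128 h29128
  have h29130 := checkRangeG_sound parWF r2 pf29129 h29129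
  have h29131 := checkRangeG_sound parWF r2 pf29130 h29130
  have h29132 := checkRangeG_sound parWF r2 pf29131 h29131
  have h29133 := checkRangeG_sound parWF r2 pf29132 h29132
  have h29134 := checkRangeG_sound parWF r2 pf29133 h29133
  have h29135 := checkRangeG_sound parWF r2 pf29134 h29134
  have h29136 := checkRangeG_sound parWF r2 pf29135 h29135
  have h29137 := checkRangeG_sound parWF r2 pf29136 h29136
  have h29138 := checkRangeG_sound parWF r2 pf29137 h29137
  have h29139 := checkRangeG_sound parWF r2 pf29138 h29138
  have h29140 := checkRangeG_sound parWF r2 pf29139 h29139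
  have h29141 := checkRangeG_sound parWF r2 pf29140 h29140
  have h29142 := checkRangeG_sound parWF r2 pf29141 h29141
  have h29143 := checkRangeG_sound parWF r2 pf29142 h29142
  have h29144 := checkRangeG_sound parWF r2 pf29143 h29143
  have h29145 := checkRangeG_sound parWF r2 pf29144 h29144
  have h29146 := checkRangeG_sound parWF r2 pf29145 h29145
  have h29147 := checkRangeG_sound parWF r2 pf29146 h29146
  have h29148 := checkRangeG_sound parWF r2 pf29147 h29147
  have h29149 := checkRangeG_sound parWF r2 pf29148 h29148
  have h29150 := checkRangeG_sound parWF r2 pf29149 h29149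
  exact h29150

theorem c583 (h29150 : ∀ j, j < 95577 → GoodG.{u} par (db j)) : ∀ j, j < 95771 → GoodG.{u} par (db j) := by
  have h29151 := checkRangeG_sound parWF r2 pf29150 h29150
  have h29152 := checkRangeG_sound parWF r2 pf29151 h29151
  have h29153 := checkRangeG_sound parWF r2 pf29152 h29152
  have h29154 := checkRangeG_sound parWF r2 pf29153 h29153
  have h29155 := checkRangeG_sound parWF r2 pf29154 h29154
  have h29156 := checkRangeG_sound parWF r2 pf29155 h29155
  have h29157 := checkRangeG_sound parWF r2 pf29156 h29156
  have h29158 := checkRangeG_sound parWF r2 pf29157 h29157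
  have h29159 := checkRangeG_sound parWF r2 pf29158 h29158
  have h29160 := checkRangeG_sound parWF r2 pf29159 h29159
  have h29161 := checkRangeG_sound parWF r2 pf29160 h29160
  have h29162 := checkRangeG_sound parWF r2 pf29161 h29161
  have h29163 := checkRangeG_sound parWF r2 pf29162 h29162
  have h29164 := checkRangeG_sound parWF r2 pf29163 h29163
  have h29165 := checkRangeG_sound parWF r2 pf29164 h29164
  have h29166 := checkRangeG_sound parWF r2 pf29165 h29165
  have h29167 := checkRangeG_sound parWF r2 pf29166 h29166
  have h29168 := checkRangeG_sound parWF r2 pf29167 h29167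
  have h29169 := checkRangeG_sound parWF r2 pf29168 h29168
  have h29170 := checkRangeG_sound parWF r2 pf29169 h29169
  have h29171 := checkRangeG_sound parWF r2 pf29170 h29170
  have h29172 := checkRangeG_sound parWF r2 pf29171 h29171
  have h29173 := checkRangeG_sound parWF r2 pf29172 h29172
  have h29174 := checkRangeG_sound parWF r2 pf29173 h29173
  have h29175 := checkRangeG_sound parWF r2 pf29174 h29174
  have h29176 := checkRangeG_sound parWF r2 pf29175 h29175
  have h29177 := checkRangeG_sound parWF r2 pf29176 h29176
  have h29178 := checkRangeG_sound parWF r2 pf29177 h29177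
  have h29179 := checkRangeG_sound parWF r2 pf29178 h29178
  have h29180 := checkRangeG_sound parWF r2 pf29179 h29179
  have h29181 := checkRangeG_sound parWF r2 pf29180 h29180
  have h29182 := checkRangeG_sound parWF r2 pf29181 h29181
  have h29183 := checkRangeG_sound parWF r2 pf29182 h29182
  have h29184 := checkRangeG_sound parWF r2 pf29183 h29183
  have h29185 := checkRangeG_sound parWF r2 pf29184 h29184
  have h29186 := checkRangeG_sound parWF r2 pf29185 h29185
  have h29187 := checkRangeG_sound parWF r2 pf29186 h29186
  have h29188 := checkRangeG_sound parWF r2 pf29187 h29187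
  have h29189 := checkRangeG_sound parWF r2 pf29188 h29188
  have h29190 := checkRangeG_sound parWF r2 pf29189 h29189
  have h29191 := checkRangeG_sound parWF r2 pf29190 h29190
  have h29192 := checkRangeG_sound parWF r2 pf29191 h29191
  have h29193 := checkRangeG_sound parWF r2 pf29192 h29192
  have h29194 := checkRangeG_sound parWF r2 pf29193 h29193
  have h29195 := checkRangeG_sound parWF r2 pf29194 h29194
  have h29196 := checkRangeG_sound parWF r2 pf29195 h29195
  have h29197 := checkRangeG_sound parWF r2 pf29196 h29196
  have h29198 := checkRangeG_sound parWF r2 pf29197 h29197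
  have h29199 := checkRangeG_sound parWF r2 pf29198 h29198
  have h29200 := checkRangeG_sound parWF r2 pf29199 h29199
  exact h29200

theorem c584 (h29200 : ∀ j, j < 95771 → GoodG.{u} par (db j)) : ∀ j, j < 95970 → GoodG.{u} par (db j) := by
  have h29201 := checkRangeG_sound parWF r2 pf29200 h29200
  have h29202 := checkRangeG_sound parWF r2 pf29201 h29201
  have h29203 := checkRangeG_sound parWF r2 pf29202 h29202
  have h29204 := checkRangeG_sound parWF r2 pf29203 h29203
  have h29205 := checkRangeG_sound parWF r2 pf29204 h29204
  have h29206 := checkRangeG_sound parWF r2 pf29205 h29205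
  have h29207 := checkRangeG_sound parWF r2 pf29206 h29206
  have h29208 := checkRangeG_sound parWF r2 pf29207 h29207
  have h29209 := checkRangeG_sound parWF r2 pf29208 h29208
  have h29210 := checkRangeG_sound parWF r2 pf29209 h29209
  have h29211 := checkRangeG_sound parWF r2 pf29210 h29210
  have h29212 := checkRangeG_sound parWF r2 pf29211 h29211
  have h29213 := checkRangeG_sound parWF r2 pf29212 h29212
  have h29214 := checkRangeG_sound parWF r2 pf29213 h29213
  have h29215 := checkRangeG_sound parWF r2 pf29214 h29214
  have h29216 := checkRangeG_sound parWF r2 pf29215 h29215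
  have h29217 := checkRangeG_sound parWF r2 pf29216 h29216
  have h29218 := checkRangeG_sound parWF r2 pf29217 h29217
  have h29219 := checkRangeG_sound parWF r2 pf29218 h29218
  have h29220 := checkRangeG_sound parWF r2 pf29219 h29219
  have h29221 := checkRangeG_sound parWF r2 pf29220 h29220
  have h29222 := checkRangeG_sound parWF r2 pf29221 h29221
  have h29223 := checkRangeG_sound parWF r2 pf29222 h29222
  have h29224 := checkRangeG_sound parWF r2 pf29223 h29223
  have h29225 := checkRangeG_sound parWF r2 pf29224 h29224
  have h29226 := checkRangeG_sound parWF r2 pf29225 h29225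
  have h29227 := checkRangeG_sound parWF r2 pf29226 h29226
  have h29228 := checkRangeG_sound parWF r2 pf29227 h29227
  have h29229 := checkRangeG_sound parWF r2 pf29228 h29228
  have h29230 := checkRangeG_sound parWF r2 pf29229 h29229
  have h29231 := checkRangeG_sound parWF r2 pf29230 h29230
  have h29232 := checkRangeG_sound parWF r2 pf29231 h29231
  have h29233 := checkRangeG_sound parWF r2 pf29232 h29232
  have h29234 := checkRangeG_sound parWF r2 pf29233 h29233
  have h29235 := checkRangeG_sound parWF r2 pf29234 h29234
  have h29236 := checkRangeG_sound parWF r2 pf29235 h29235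
  have h29237 := checkRangeG_sound parWF r2 pf29236 h29236
  have h29238 := checkRangeG_sound parWF r2 pf29237 h29237
  have h29239 := checkRangeG_sound parWF r2 pf29238 h29238
  have h29240 := checkRangeG_sound parWF r2 pf29239 h29239
  have h29241 := checkRangeG_sound parWF r2 pf29240 h29240
  have h29242 := checkRangeG_sound parWF r2 pf29241 h29241
  have h29243 := checkRangeG_sound parWF r2 pf29242 h29242
  have h29244 := checkRangeG_sound parWF r2 pf29243 h29243
  have h29245 := checkRangeG_sound parWF r2 pf29244 h29244
  have h29246 := checkRangeG_sound parWF r2 pf29245 h29245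
  have h29247 := checkRangeG_sound parWF r2 pf29246 h29246
  have h29248 := checkRangeG_sound parWF r2 pf29247 h29247
  have h29249 := checkRangeG_sound parWF r2 pf29248 h29248
  have h29250 := checkRangeG_sound parWF r2 pf29249 h29249
  exact h29250

theorem c585 (h29250 : ∀ j, j < 95970 → GoodG.{u} par (db j)) : ∀ j, j < 96183 → GoodG.{u} par (db j) := by
  have h29251 := checkRangeG_sound parWF r2 pf29250 h29250
  have h29252 := checkRangeG_sound parWF r2 pf29251 h29251
  have h29253 := checkRangeG_sound parWF r2 pf29252 h29252
  have h29254 := checkRangeG_sound parWF r2 pf29253 h29253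
  have h29255 := checkRangeG_sound parWF r2 pf29254 h29254
  have h29256 := checkRangeG_sound parWF r2 pf29255 h29255
  have h29257 := checkRangeG_sound parWF r2 pf29256 h29256
  have h29258 := checkRangeG_sound parWF r2 pf29257 h29257
  have h29259 := checkRangeG_sound parWF r2 pf29258 h29258
  have h29260 := checkRangeG_sound parWF r2 pf29259 h29259
  have h29261 := checkRangeG_sound parWF r2 pf29260 h29260
  have h29262 := checkRangeG_sound parWF r2 pf29261 h29261
  have h29263 := checkRangeG_sound parWF r2 pf29262 h29262
  have h29264 := checkRangeG_sound parWF r2 pf29263 h29263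
  have h29265 := checkRangeG_sound parWF r2 pf29264 h29264
  have h29266 := checkRangeG_sound parWF r2 pf29265 h29265
  have h29267 := checkRangeG_sound parWF r2 pf29266 h29266
  have h29268 := checkRangeG_sound parWF r2 pf29267 h29267
  have h29269 := checkRangeG_sound parWF r2 pf29268 h29268
  have h29270 := checkRangeG_sound parWF r2 pf29269 h29269
  have h29271 := checkRangeG_sound parWF r2 pf29270 h29270
  have h29272 := checkRangeG_sound parWF r2 pf29271 h29271
  have h29273 := checkRangeG_sound parWF r2 pf29272 h29272
  have h29274 := checkRangeG_sound parWF r2 pf29273 h29273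
  have h29275 := checkRangeG_sound parWF r2 pf29274 h29274
  have h29276 := checkRangeG_sound parWF r2 pf29275 h29275
  have h29277 := checkRangeG_sound parWF r2 pf29276 h29276
  have h29278 := checkRangeG_sound parWF r2 pf29277 h29277
  have h29279 := checkRangeG_sound parWF r2 pf29278 h29278
  have h29280 := checkRangeG_sound parWF r2 pf29279 h29279
  have h29281 := checkRangeG_sound parWF r2 pf29280 h29280
  have h29282 := checkRangeG_sound parWF r2 pf29281 h29281
  have h29283 := checkRangeG_sound parWF r2 pf29282 h29282
  have h29284 := checkRangeG_sound parWF r2 pf29283 h29283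
  have h29285 := checkRangeG_sound parWF r2 pf29284 h29284
  have h29286 := checkRangeG_sound parWF r2 pf29285 h29285
  have h29287 := checkRangeG_sound parWF r2 pf29286 h29286
  have h29288 := checkRangeG_sound parWF r2 pf29287 h29287
  have h29289 := checkRangeG_sound parWF r2 pf29288 h29288
  have h29290 := checkRangeG_sound parWF r2 pf29289 h29289
  have h29291 := checkRangeG_sound parWF r2 pf29290 h29290
  have h29292 := checkRangeG_sound parWF r2 pf29291 h29291
  have h29293 := checkRangeG_sound parWF r2 pf29292 h29292
  have h29294 := checkRangeG_sound parWF r2 pf29293 h29293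
  have h29295 := checkRangeG_sound parWF r2 pf29294 h29294
  have h29296 := checkRangeG_sound parWF r2 pf29295 h29295
  have h29297 := checkRangeG_sound parWF r2 pf29296 h29296
  have h29298 := checkRangeG_sound parWF r2 pf29297 h29297
  have h29299 := checkRangeG_sound parWF r2 pf29298 h29298
  have h29300 := checkRangeG_sound parWF r2 pf29299 h29299
  exact h29300

theorem c586 (h29300 : ∀ j, j < 96183 → GoodG.{u} par (db j)) : ∀ j, j < 96390 → GoodG.{u} par (db j) := by
  have h29301 := checkRangeG_sound parWF r2 pf29300 h29300
  have h29302 := checkRangeG_sound parWF r2 pf29301 h29301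
  have h29303 := checkRangeG_sound parWF r2 pf29302 h29302
  have h29304 := checkRangeG_sound parWF r2 pf29303 h29303
  have h29305 := checkRangeG_sound parWF r2 pf29304 h29304
  have h29306 := checkRangeG_sound parWF r2 pf29305 h29305
  have h29307 := checkRangeG_sound parWF r2 pf29306 h29306
  have h29308 := checkRangeG_sound parWF r2 pf29307 h29307
  have h29309 := checkRangeG_sound parWF r2 pf29308 h29308
  have h29310 := checkRangeG_sound parWF r2 pf29309 h29309
  have h29311 := checkRangeG_sound parWF r2 pf29310 h29310
  have h29312 := checkRangeG_sound parWF r2 pf29311 h29311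
  have h29313 := checkRangeG_sound parWF r2 pf29312 h29312
  have h29314 := checkRangeG_sound parWF r2 pf29313 h29313
  have h29315 := checkRangeG_sound parWF r2 pf29314 h29314
  have h29316 := checkRangeG_sound parWF r2 pf29315 h29315
  have h29317 := checkRangeG_sound parWF r2 pf29316 h29316
  have h29318 := checkRangeG_sound parWF r2 pf29317 h29317
  have h29319 := checkRangeG_sound parWF r2 pf29318 h29318
  have h29320 := checkRangeG_sound parWF r2 pf29319 h29319
  have h29321 := checkRangeG_sound parWF r2 pf29320 h29320
  have h29322 := checkRangeG_sound parWF r2 pf29321 h29321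
  have h29323 := checkRangeG_sound parWF r2 pf29322 h29322
  have h29324 := checkRangeG_sound parWF r2 pf29323 h29323
  have h29325 := checkRangeG_sound parWF r2 pf29324 h29324
  have h29326 := checkRangeG_sound parWF r2 pf29325 h29325
  have h29327 := checkRangeG_sound parWF r2 pf29326 h29326
  have h29328 := checkRangeG_sound parWF r2 pf29327 h29327
  have h29329 := checkRangeG_sound parWF r2 pf29328 h29328
  have h29330 := checkRangeG_sound parWF r2 pf29329 h29329
  have h29331 := checkRangeG_sound parWF r2 pf29330 h29330
  have h29332 := checkRangeG_sound parWF r2 pf29331 h29331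
  have h29333 := checkRangeG_sound parWF r2 pf29332 h29332
  have h29334 := checkRangeG_sound parWF r2 pf29333 h29333
  have h29335 := checkRangeG_sound parWF r2 pf29334 h29334
  have h29336 := checkRangeG_sound parWF r2 pf29335 h29335
  have h29337 := checkRangeG_sound parWF r2 pf29336 h29336
  have h29338 := checkRangeG_sound parWF r2 pf29337 h29337
  have h29339 := checkRangeG_sound parWF r2 pf29338 h29338
  have h29340 := checkRangeG_sound parWF r2 pf29339 h29339
  have h29341 := checkRangeG_sound parWF r2 pf29340 h29340
  have h29342 := checkRangeG_sound parWF r2 pf29341 h29341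
  have h29343 := checkRangeG_sound parWF r2 pf29342 h29342
  have h29344 := checkRangeG_sound parWF r2 pf29343 h29343
  have h29345 := checkRangeG_sound parWF r2 pf29344 h29344
  have h29346 := checkRangeG_sound parWF r2 pf29345 h29345
  have h29347 := checkRangeG_sound parWF r2 pf29346 h29346
  have h29348 := checkRangeG_sound parWF r2 pf29347 h29347
  have h29349 := checkRangeG_sound parWF r2 pf29348 h29348
  have h29350 := checkRangeG_sound parWF r2 pf29349 h29349
  exact h29350

theorem c587 (h29350 : ∀ j, j < 96390 → GoodG.{u} par (db j)) : ∀ j, j < 96582 → GoodG.{u} par (db j) := by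
  have h29351 := checkRangeG_sound parWF r2 pf29350 h29350
  have h29352 := checkRangeG_sound parWF r2 pf29351 h29351
  have h29353 := checkRangeG_sound parWF r2 pf29352 h29352
  have h29354 := checkRangeG_sound parWF r2 pf29353 h29353
  have h29355 := checkRangeG_sound parWF r2 pf29354 h29354
  have h29356 := checkRangeG_sound parWF r2 pf29355 h29355
  have h29357 := checkRangeG_sound parWF r2 pf29356 h29356
  have h29358 := checkRangeG_sound parWF r2 pf29357 h29357
  have h29359 := checkRangeG_sound parWF r2 pf29358 h29358
  have h29360 := checkRangeG_sound parWF r2 pf29359 h29359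
  have h29361 := checkRangeG_sound parWF r2 pf29360 h29360
  have h29362 := checkRangeG_sound parWF r2 pf29361 h29361
  have h29363 := checkRangeG_sound parWF r2 pf29362 h29362
  have h29364 := checkRangeG_sound parWF r2 pf29363 h29363
  have h29365 := checkRangeG_sound parWF r2 pf29364 h29364
  have h29366 := checkRangeG_sound parWF r2 pf29365 h29365
  have h29367 := checkRangeG_sound parWF r2 pf29366 h29366
  have h29368 := checkRangeG_sound parWF r2 pf29367 h29367
  have h29369 := checkRangeG_sound parWF r2 pf29368 h29368
  have h29370 := checkRangeG_sound parWF r2 pf29369 h29369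
  have h29371 := checkRangeG_sound parWF r2 pf29370 h29370
  have h29372 := checkRangeG_sound parWF r2 pf29371 h29371
  have h29373 := checkRangeG_sound parWF r2 pf29372 h29372
  have h29374 := checkRangeG_sound parWF r2 pf29373 h29373
  have h29375 := checkRangeG_sound parWF r2 pf29374 h29374
  have h29376 := checkRangeG_sound parWF r2 pf29375 h29375
  have h29377 := checkRangeG_sound parWF r2 pf29376 h29376
  have h29378 := checkRangeG_sound parWF r2 pf29377 h29377
  have h29379 := checkRangeG_sound parWF r2 pf29378 h29378
  have h29380 := checkRangeG_sound parWF r2 pf29379 h29379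
  have h29381 := checkRangeG_sound parWF r2 pf29380 h29380
  have h29382 := checkRangeG_sound parWF r2 pf29381 h29381
  have h29383 := checkRangeG_sound parWF r2 pf29382 h29382
  have h29384 := checkRangeG_sound parWF r2 pf29383 h29383
  have h29385 := checkRangeG_sound parWF r2 pf29384 h29384
  have h29386 := checkRangeG_sound parWF r2 pf29385 h29385
  have h29387 := checkRangeG_sound parWF r2 pf29386 h29386
  have h29388 := checkRangeG_sound parWF r2 pf29387 h29387
  have h29389 := checkRangeG_sound parWF r2 pf29388 h29388
  have h29390 := checkRangeG_sound parWF r2 pf29389 h29389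
  have h29391 := checkRangeG_sound parWF r2 pf29390 h29390
  have h29392 := checkRangeG_sound parWF r2 pf29391 h29391
  have h29393 := checkRangeG_sound parWF r2 pf29392 h29392
  have h29394 := checkRangeG_sound parWF r2 pf29393 h29393
  have h29395 := checkRangeG_sound parWF r2 pf29394 h29394
  have h29396 := checkRangeG_sound parWF r2 pf29395 h29395
  have h29397 := checkRangeG_sound parWF r2 pf29396 h29396
  have h29398 := checkRangeG_sound parWF r2 pf29397 h29397
  have h29399 := checkRangeG_sound parWF r2 pf29398 h29398
  have h29400 := checkRangeG_sound parWF r2 pf29399 h29399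
  exact h29400


end Vale.Agent.P045g.C61
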