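import Vale.Agent.P045g.C61.WF
import Vale.Agent.P045g.C61.Pf490
import Vale.Agent.P045g.C61.Pf491
import Vale.Agent.P045g.C61.Pf492
import Vale.Agent.P045g.C61.Pf493
import Vale.Agent.P045g.C61.Pf494
import Vale.Agent.P045g.C61.Pf495
import Vale.Agent.P045g.C61.Pf496
import Vale.Agent.P045g.C61.Pf497
import Vale.Agent.P045g.C61.Pf498
import Vale.Agent.P045g.C61.Pf499

namespace Vale.Agent.P045g.C61

open Vale.Agent.P045b Vale.Agent.P045g

universe u

theorem c588 (h29400 : ∀ j, j < 96582 → GoodG.{u} par (db j)) : ∀ j, j < 96781 → GoodG.{u} par (db j) := by
  have h29401 := checkRangeG_sound parWF r2 pf29400 h29400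
  have h29402 := checkRangeG_sound parWF r2 pf29401 h29401
  have h29403 := checkRangeG_sound parWF r2 pf29402 h29402
  have h29404 := checkRangeG_sound parWF r2 pf29403 h29403
  have h29405 := checkRangeG_sound parWF r2 pf29404 h29404
  have h29406 := checkRangeG_sound parWF r2 pf29405 h29405
  have h29407 := checkRangeG_sound parWF r2 pf29406 h29406
  have h29408 := checkRangeG_sound parWF r2 pf29407 h29407
  have h29409 := checkRangeG_sound parWF r2 pf29408 h29408
  have h29410 := checkRangeG_sound parWF r2 pf29409 h29409
  have h29411 := checkRangeG_sound parWF r2 pf29410 h29410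
  have h29412 := checkRangeG_sound parWF r2 pf29411 h29411
  have h29413 := checkRangeG_sound parWF r2 pf29412 h29412
  have h29414 := checkRangeG_sound parWF r2 pf29413 h29413
  have h29415 := checkRangeG_sound parWF r2 pf29414 h29414
  have h29416 := checkRangeG_sound parWF r2 pf29415 h29415
  have h29417 := checkRangeG_sound parWF r2 pf29416 h29416
  have h29418 := checkRangeG_sound parWF r2 pf29417 h29417
  have h29419 := checkRangeG_sound parWF r2 pf29418 h29418
  have h29420 := checkRangeG_sound parWF r2 pf29419 h29419
  have h29421 := checkRangeG_sound parWF r2 pf29420 h29420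
  have h29422 := checkRangeG_sound parWF r2 pf29421 h29421
  have h29423 := checkRangeG_sound parWF r2 pf29422 h29422
  have h29424 := checkRangeG_sound parWF r2 pf29423 h29423
  have h29425 := checkRangeG_sound parWF r2 pf29424 h29424
  have h29426 := checkRangeG_sound parWF r2 pf29425 h29425
  have h29427 := checkRangeG_sound parWF r2 pf29426 h29426
  have h29428 := checkRangeG_sound parWF r2 pf29427 h29427
  have h29429 := checkRangeG_sound parWF r2 pf29428 h29428
  have h29430 := checkRangeG_sound parWF r2 pf29429 h29429
  have h29431 := checkRangeG_sound parWF r2 pf29430 h29430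
  have h29432 := checkRangeG_sound parWF r2 pf29431 h29431
  have h29433 := checkRangeG_sound parWF r2 pf29432 h29432
  have h29434 := checkRangeG_sound parWF r2 pf29433 h29433
  have h29435 := checkRangeG_sound parWF r2 pf29434 h29434
  have h29436 := checkRangeG_sound parWF r2 pf29435 h29435
  have h29437 := checkRangeG_sound parWF r2 pf29436 h29436
  have h29438 := checkRangeG_sound parWF r2 pf29437 h29437
  have h29439 := checkRangeG_sound parWF r2 pf29438 h29438
  have h29440 := checkRangeG_sound parWF r2 pf29439 h29439
  have h29441 := checkRangeG_sound parWF r2 pf29440 h29440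
  have h29442 := checkRangeG_sound parWF r2 pf29441 h29441
  have h29443 := checkRangeG_sound parWF r2 pf29442 h29442
  have h29444 := checkRangeG_sound parWF r2 pf29443 h29443
  have h29445 := checkRangeG_sound parWF r2 pf29444 h29444
  have h29446 := checkRangeG_sound parWF r2 pf29445 h29445
  have h29447 := checkRangeG_sound parWF r2 pf29446 h29446
  have h29448 := checkRangeG_sound parWF r2 pf29447 h29447
  have h29449 := checkRangeG_sound parWF r2 pf29448 h29448
  have h29450 := checkRangeG_sound parWF r2 pf29449 h29449
  exact h29450

theorem c589 (h29450 : ∀ j, j < 96781 → GoodG.{u} par (db j)) : ∀ j, j < 96999 → GoodG.{u} par (db j) := by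
  have h29451 := checkRangeG_sound parWF r2 pf29450 h29450
  have h29452 := checkRangeG_sound parWF r2 pf29451 h29451
  have h29453 := checkRangeG_sound parWF r2 pf29452 h29452
  have h29454 := checkRangeG_sound parWF r2 pf29453 h29453
  have h29455 := checkRangeG_sound parWF r2 pf29454 h29454
  have h29456 := checkRangeG_sound parWF r2 pf29455 h29455
  have h29457 := checkRangeG_sound parWF r2 pf29456 h29456
  have h29458 := checkRangeG_sound parWF r2 pf29457 h29457
  have h29459 := checkRangeG_sound parWF r2 pf29458 h29458
  have h29460 := checkRangeG_sound parWF r2 pf29459 h29459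
  have h29461 := checkRangeG_sound parWF r2 pf29460 h29460
  have h29462 := checkRangeG_sound parWF r2 pf29461 h29461
  have h29463 := checkRangeG_sound parWF r2 pf29462 h29462
  have h29464 := checkRangeG_sound parWF r2 pf29463 h29463
  have h29465 := checkRangeG_sound parWF r2 pf29464 h29464
  have h29466 := checkRangeG_sound parWF r2 pf29465 h29465
  have h29467 := checkRangeG_sound parWF r2 pf29466 h29466
  have h29468 := checkRangeG_sound parWF r2 pf29467 h29467
  have h29469 := checkRangeG_sound parWF r2 pf29468 h29468
  have h29470 := checkRangeG_sound parWF r2 pf29469 h29469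
  have h29471 := checkRangeG_sound parWF r2 pf29470 h29470
  have h29472 := checkRangeG_sound parWF r2 pf29471 h29471
  have h29473 := checkRangeG_sound parWF r2 pf29472 h29472
  have h29474 := checkRangeG_sound parWF r2 pf29473 h29473
  have h29475 := checkRangeG_sound parWF r2 pf29474 h29474
  have h29476 := checkRangeG_sound parWF r2 pf29475 h29475
  have h29477 := checkRangeG_sound parWF r2 pf29476 h29476
  have h29478 := checkRangeG_sound parWF r2 pf29477 h29477
  have h29479 := checkRangeG_sound parWF r2 pf29478 h29478
  have h29480 := checkRangeG_sound parWF r2 pf29479 h29479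
  have h29481 := checkRangeG_sound parWF r2 pf29480 h29480
  have h29482 := checkRangeG_sound parWF r2 pf29481 h29481
  have h29483 := checkRangeG_sound parWF r2 pf29482 h29482
  have h29484 := checkRangeG_sound parWF r2 pf29483 h29483
  have h29485 := checkRangeG_sound parWF r2 pf29484 h29484
  have h29486 := checkRangeG_sound parWF r2 pf29485 h29485
  have h29487 := checkRangeG_sound parWF r2 pf29486 h29486
  have h29488 := checkRangeG_sound parWF r2 pf29487 h29487
  have h29489 := checkRangeG_sound parWF r2 pf29488 h29488
  have h29490 := checkRangeG_sound parWF r2 pf29489 h29489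
  have h29491 := checkRangeG_sound parWF r2 pf29490 h29490
  have h29492 := checkRangeG_sound parWF r2 pf29491 h29491
  have h29493 := checkRangeG_sound parWF r2 pf29492 h29492
  have h29494 := checkRangeG_sound parWF r2 pf29493 h29493
  have h29495 := checkRangeG_sound parWF r2 pf29494 h29494
  have h29496 := checkRangeG_sound parWF r2 pf29495 h29495
  have h29497 := checkRangeG_sound parWF r2 pf29496 h29496
  have h29498 := checkRangeG_sound parWF r2 pf29497 h29497
  have h29499 := checkRangeG_sound parWF r2 pf29498 h29498
  have h29500 := checkRangeG_sound parWF r2 pf29499 h29499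
  exact h29500

theorem c590 (h29500 : ∀ j, j < 96999 → GoodG.{u} par (db j)) : ∀ j, j < 97207 → GoodG.{u} par (db j) := by
  have h29501 := checkRangeG_sound parWF r2 pf29500 h29500
  have h29502 := checkRangeG_sound parWF r2 pf29501 h29501
  have h29503 := checkRangeG_sound parWF r2 pf29502 h29502
  have h29504 := checkRangeG_sound parWF r2 pf29503 h29503
  have h29505 := checkRangeG_sound parWF r2 pf29504 h29504
  have h29506 := checkRangeG_sound parWF r2 pf29505 h29505
  have h29507 := checkRangeG_sound parWF r2 pf29506 h29506
  have h29508 := checkRangeG_sound parWF r2 pf29507 h29507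
  have h29509 := checkRangeG_sound parWF r2 pf29508 h29508
  have h29510 := checkRangeG_sound parWF r2 pf29509 h29509
  have h29511 := checkRangeG_sound parWF r2 pf29510 h29510
  have h29512 := checkRangeG_sound parWF r2 pf29511 h29511
  have h29513 := checkRangeG_sound parWF r2 pf29512 h29512
  have h29514 := checkRangeG_sound parWF r2 pf29513 h29513
  have h29515 := checkRangeG_sound parWF r2 pf29514 h29514
  have h29516 := checkRangeG_sound parWF r2 pf29515 h29515
  have h29517 := checkRangeG_sound parWF r2 pf29516 h29516
  have h29518 := checkRangeG_sound parWF r2 pf29517 h29517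
  have h29519 := checkRangeG_sound parWF r2 pf29518 h29518
  have h29520 := checkRangeG_sound parWF r2 pf29519 h29519
  have h29521 := checkRangeG_sound parWF r2 pf29520 h29520
  have h29522 := checkRangeG_sound parWF r2 pf29521 h29521
  have h29523 := checkRangeG_sound parWF r2 pf29522 h29522
  have h29524 := checkRangeG_sound parWF r2 pf29523 h29523
  have h29525 := checkRangeG_sound parWF r2 pf29524 h29524
  have h29526 := checkRangeG_sound parWF r2 pf29525 h29525
  have h29527 := checkRangeG_sound parWF r2 pf29526 h29526
  have h29528 := checkRangeG_sound parWF r2 pf29527 h29527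
  have h29529 := checkRangeG_sound parWF r2 pf29528 h29528
  have h29530 := checkRangeG_sound parWF r2 pf29529 h29529
  have h29531 := checkRangeG_sound parWF r2 pf29530 h29530
  have h29532 := checkRangeG_sound parWF r2 pf29531 h29531
  have h29533 := checkRangeG_sound parWF r2 pf29532 h29532
  have h29534 := checkRangeG_sound parWF r2 pf29533 h29533
  have h29535 := checkRangeG_sound parWF r2 pf29534 h29534
  have h29536 := checkRangeG_sound parWF r2 pf29535 h29535
  have h29537 := checkRangeG_sound parWF r2 pf29536 h29536
  have h29538 := checkRangeG_sound parWF r2 pf29537 h29537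
  have h29539 := checkRangeG_sound parWF r2 pf29538 h29538
  have h29540 := checkRangeG_sound parWF r2 pf29539 h29539
  have h29541 := checkRangeG_sound parWF r2 pf29540 h29540
  have h29542 := checkRangeG_sound parWF r2 pf29541 h29541
  have h29543 := checkRangeG_sound parWF r2 pf29542 h29542
  have h29544 := checkRangeG_sound parWF r2 pf29543 h29543
  have h29545 := checkRangeG_sound parWF r2 pf29544 h29544
  have h29546 := checkRangeG_sound parWF r2 pf29545 h29545
  have h29547 := checkRangeG_sound parWF r2 pf29546 h29546
  have h29548 := checkRangeG_sound parWF r2 pf29547 h29547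
  have h29549 := checkRangeG_sound parWF r2 pf29548 h29548
  have h29550 := checkRangeG_sound parWF r2 pf29549 h29549
  exact h29550

theorem c591 (h29550 : ∀ j, j < 97207 → GoodG.{u} par (db j)) : ∀ j, j < 97428 → GoodG.{u} par (db j) := by
  have h29551 := checkRangeG_sound parWF r2 pf29550 h29550
  have h29552 := checkRangeG_sound parWF r2 pf29551 h29551
  have h29553 := checkRangeG_sound parWF r2 pf29552 h29552
  have h29554 := checkRangeG_sound parWF r2 pf29553 h29553
  have h29555 := checkRangeG_sound parWF r2 pf29554 h29554
  have h29556 := checkRangeG_sound parWF r2 pf29555 h29555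
  have h29557 := checkRangeG_sound parWF r2 pf29556 h29556
  have h29558 := checkRangeG_sound parWF r2 pf29557 h29557
  have h29559 := checkRangeG_sound parWF r2 pf29558 h29558
  have h29560 := checkRangeG_sound parWF r2 pf29559 h29559
  have h29561 := checkRangeG_sound parWF r2 pf29560 h29560
  have h29562 := checkRangeG_sound parWF r2 pf29561 h29561
  have h29563 := checkRangeG_sound parWF r2 pf29562 h29562
  have h29564 := checkRangeG_sound parWF r2 pf29563 h29563
  have h29565 := checkRangeG_sound parWF r2 pf29564 h29564
  have h29566 := checkRangeG_sound parWF r2 pf29565 h29565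
  have h29567 := checkRangeG_sound parWF r2 pf29566 h29566
  have h29568 := checkRangeG_sound parWF r2 pf29567 h29567
  have h29569 := checkRangeG_sound parWF r2 pf29568 h29568
  have h29570 := checkRangeG_sound parWF r2 pf29569 h29569
  have h29571 := checkRangeG_sound parWF r2 pf29570 h29570
  have h29572 := checkRangeG_sound parWF r2 pf29571 h29571
  have h29573 := checkRangeG_sound parWF r2 pf29572 h29572
  have h29574 := checkRangeG_sound parWF r2 pf29573 h29573
  have h29575 := checkRangeG_sound parWF r2 pf29574 h29574
  have h29576 := checkRangeG_sound parWF r2 pf29575 h29575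
  have h29577 := checkRangeG_sound parWF r2 pf29576 h29576
  have h29578 := checkRangeG_sound parWF r2 pf29577 h29577
  have h29579 := checkRangeG_sound parWF r2 pf29578 h29578
  have h29580 := checkRangeG_sound parWF r2 pf29579 h29579
  have h29581 := checkRangeG_sound parWF r2 pf29580 h29580
  have h29582 := checkRangeG_sound parWF r2 pf29581 h29581
  have h29583 := checkRangeG_sound parWF r2 pf29582 h29582
  have h29584 := checkRangeG_sound parWF r2 pf29583 h29583
  have h29585 := checkRangeG_sound parWF r2 pf29584 h29584
  have h29586 := checkRangeG_sound parWF r2 pf29585 h29585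
  have h29587 := checkRangeG_sound parWF r2 pf29586 h29586
  have h29588 := checkRangeG_sound parWF r2 pf29587 h29587
  have h29589 := checkRangeG_sound parWF r2 pf29588 h29588
  have h29590 := checkRangeG_sound parWF r2 pf29589 h29589
  have h29591 := checkRangeG_sound parWF r2 pf29590 h29590
  have h29592 := checkRangeG_sound parWF r2 pf29591 h29591
  have h29593 := checkRangeG_sound parWF r2 pf29592 h29592
  have h29594 := checkRangeG_sound parWF r2 pf29593 h29593
  have h29595 := checkRangeG_sound parWF r2 pf29594 h29594
  have h29596 := checkRangeG_sound parWF r2 pf29595 h29595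
  have h29597 := checkRangeG_sound parWF r2 pf29596 h29596
  have h29598 := checkRangeG_sound parWF r2 pf29597 h29597
  have h29599 := checkRangeG_sound parWF r2 pf29598 h29598
  have h29600 := checkRangeG_sound parWF r2 pf29599 h29599
  exact h29600

theorem c592 (h29600 : ∀ j, j < 97428 → GoodG.{u} par (db j)) : ∀ j, j < 97657 → GoodG.{u} par (db j) := by
  have h29601 := checkRangeG_sound parWF r2 pf29600 h29600
  have h29602 := checkRangeG_sound parWF r2 pf29601 h29601
  have h29603 := checkRangeG_sound parWF r2 pf29602 h29602
  have h29604 := checkRangeG_sound parWF r2 pf29603 h29603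
  have h29605 := checkRangeG_sound parWF r2 pf29604 h29604
  have h29606 := checkRangeG_sound parWF r2 pf29605 h29605
  have h29607 := checkRangeG_sound parWF r2 pf29606 h29606
  have h29608 := checkRangeG_sound parWF r2 pf29607 h29607
  have h29609 := checkRangeG_sound parWF r2 pf29608 h29608
  have h29610 := checkRangeG_sound parWF r2 pf29609 h29609
  have h29611 := checkRangeG_sound parWF r2 pf29610 h29610
  have h29612 := checkRangeG_sound parWF r2 pf29611 h29611
  have h29613 := checkRangeG_sound parWF r2 pf29612 h29612
  have h29614 := checkRangeG_sound parWF r2 pf29613 h29613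
  have h29615 := checkRangeG_sound parWF r2 pf29614 h29614
  have h29616 := checkRangeG_sound parWF r2 pf29615 h29615
  have h29617 := checkRangeG_sound parWF r2 pf29616 h29616
  have h29618 := checkRangeG_sound parWF r2 pf29617 h29617
  have h29619 := checkRangeG_sound parWF r2 pf29618 h29618
  have h29620 := checkRangeG_sound parWF r2 pf29619 h29619
  have h29621 := checkRangeG_sound parWF r2 pf29620 h29620
  have h29622 := checkRangeG_sound parWF r2 pf29621 h29621
  have h29623 := checkRangeG_sound parWF r2 pf29622 h29622
  have h29624 := checkRangeG_sound parWF r2 pf29623 h29623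
  have h29625 := checkRangeG_sound parWF r2 pf29624 h29624
  have h29626 := checkRangeG_sound parWF r2 pf29625 h29625
  have h29627 := checkRangeG_sound parWF r2 pf29626 h29626
  have h29628 := checkRangeG_sound parWF r2 pf29627 h29627
  have h29629 := checkRangeG_sound parWF r2 pf29628 h29628
  have h29630 := checkRangeG_sound parWF r2 pf29629 h29629
  have h29631 := checkRangeG_sound parWF r2 pf29630 h29630
  have h29632 := checkRangeG_sound parWF r2 pf29631 h29631
  have h29633 := checkRangeG_sound parWF r2 pf29632 h29632
  have h29634 := checkRangeG_sound parWF r2 pf29633 h29633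
  have h29635 := checkRangeG_sound parWF r2 pf29634 h29634
  have h29636 := checkRangeG_sound parWF r2 pf29635 h29635
  have h29637 := checkRangeG_sound parWF r2 pf29636 h29636
  have h29638 := checkRangeG_sound parWF r2 pf29637 h29637
  have h29639 := checkRangeG_sound parWF r2 pf29638 h29638
  have h29640 := checkRangeG_sound parWF r2 pf29639 h29639
  have h29641 := checkRangeG_sound parWF r2 pf29640 h29640
  have h29642 := checkRangeG_sound parWF r2 pf29641 h29641
  have h29643 := checkRangeG_sound parWF r2 pf29642 h29642
  have h29644 := checkRangeG_sound parWF r2 pf29643 h29643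
  have h29645 := checkRangeG_sound parWF r2 pf29644 h29644
  have h29646 := checkRangeG_sound parWF r2 pf29645 h29645
  have h29647 := checkRangeG_sound parWF r2 pf29646 h29646
  have h29648 := checkRangeG_sound parWF r2 pf29647 h29647
  have h29649 := checkRangeG_sound parWF r2 pf29648 h29648
  have h29650 := checkRangeG_sound parWF r2 pf29649 h29649
  exact h29650

theorem c593 (h29650 : ∀ j, j < 97657 → GoodG.{u} par (db j)) : ∀ j, j < 97863 → GoodG.{u} par (db j) := by
  have h29651 := checkRangeG_sound parWF r2 pf29650 h29650
  have h29652 := checkRangeG_sound parWF r2 pf29651 h29651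
  have h29653 := checkRangeG_sound parWF r2 pf29652 h29652
  have h29654 := checkRangeG_sound parWF r2 pf29653 h29653
  have h29655 := checkRangeG_sound parWF r2 pf29654 h29654
  have h29656 := checkRangeG_sound parWF r2 pf29655 h29655
  have h29657 := checkRangeG_sound parWF r2 pf29656 h29656
  have h29658 := checkRangeG_sound parWF r2 pf29657 h29657
  have h29659 := checkRangeG_sound parWF r2 pf29658 h29658
  have h29660 := checkRangeG_sound parWF r2 pf29659 h29659
  have h29661 := checkRangeG_sound parWF r2 pf29660 h29660
  have h29662 := checkRangeG_sound parWF r2 pf29661 h29661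
  have h29663 := checkRangeG_sound parWF r2 pf29662 h29662
  have h29664 := checkRangeG_sound parWF r2 pf29663 h29663
  have h29665 := checkRangeG_sound parWF r2 pf29664 h29664
  have h29666 := checkRangeG_sound parWF r2 pf29665 h29665
  have h29667 := checkRangeG_sound parWF r2 pf29666 h29666
  have h29668 := checkRangeG_sound parWF r2 pf29667 h29667
  have h29669 := checkRangeG_sound parWF r2 pf29668 h29668
  have h29670 := checkRangeG_sound parWF r2 pf29669 h29669
  have h29671 := checkRangeG_sound parWF r2 pf29670 h29670
  have h29672 := checkRangeG_sound parWF r2 pf29671 h29671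
  have h29673 := checkRangeG_sound parWF r2 pf29672 h29672
  have h29674 := checkRangeG_sound parWF r2 pf29673 h29673
  have h29675 := checkRangeG_sound parWF r2 pf29674 h29674
  have h29676 := checkRangeG_sound parWF r2 pf29675 h29675
  have h29677 := checkRangeG_sound parWF r2 pf29676 h29676
  have h29678 := checkRangeG_sound parWF r2 pf29677 h29677
  have h29679 := checkRangeG_sound parWF r2 pf29678 h29678
  have h29680 := checkRangeG_sound parWF r2 pf29679 h29679
  have h29681 := checkRangeG_sound parWF r2 pf29680 h29680
  have h29682 := checkRangeG_sound parWF r2 pf29681 h29681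
  have h29683 := checkRangeG_sound parWF r2 pf29682 h29682
  have h29684 := checkRangeG_sound parWF r2 pf29683 h29683
  have h29685 := checkRangeG_sound parWF r2 pf29684 h29684
  have h29686 := checkRangeG_sound parWF r2 pf29685 h29685
  have h29687 := checkRangeG_sound parWF r2 pf29686 h29686
  have h29688 := checkRangeG_sound parWF r2 pf29687 h29687
  have h29689 := checkRangeG_sound parWF r2 pf29688 h29688
  have h29690 := checkRangeG_sound parWF r2 pf29689 h29689
  have h29691 := checkRangeG_sound parWF r2 pf29690 h29690
  have h29692 := checkRangeG_sound parWF r2 pf29691 h29691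
  have h29693 := checkRangeG_sound parWF r2 pf29692 h29692
  have h29694 := checkRangeG_sound parWF r2 pf29693 h29693
  have h29695 := checkRangeG_sound parWF r2 pf29694 h29694
  have h29696 := checkRangeG_sound parWF r2 pf29695 h29695
  have h29697 := checkRangeG_sound parWF r2 pf29696 h29696
  have h29698 := checkRangeG_sound parWF r2 pf29697 h29697
  have h29699 := checkRangeG_sound parWF r2 pf29698 h29698
  have h29700 := checkRangeG_sound parWF r2 pf29699 h29699
  exact h29700

theorem c594 (h29700 : ∀ j, j < 97863 → GoodG.{u} par (db j)) : ∀ j, j < 98051 → GoodG.{u} par (db j) := by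
  have h29701 := checkRangeG_sound parWF r2 pf29700 h29700
  have h29702 := checkRangeG_sound parWF r2 pf29701 h29701
  have h29703 := checkRangeG_sound parWF r2 pf29702 h29702
  have h29704 := checkRangeG_sound parWF r2 pf29703 h29703
  have h29705 := checkRangeG_sound parWF r2 pf29704 h29704
  have h29706 := checkRangeG_sound parWF r2 pf29705 h29705
  have h29707 := checkRangeG_sound parWF r2 pf29706 h29706
  have h29708 := checkRangeG_sound parWF r2 pf29707 h29707
  have h29709 := checkRangeG_sound parWF r2 pf29708 h29708
  have h29710 := checkRangeG_sound parWF r2 pf29709 h29709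
  have h29711 := checkRangeG_sound parWF r2 pf29710 h29710
  have h29712 := checkRangeG_sound parWF r2 pf29711 h29711
  have h29713 := checkRangeG_sound parWF r2 pf29712 h29712
  have h29714 := checkRangeG_sound parWF r2 pf29713 h29713
  have h29715 := checkRangeG_sound parWF r2 pf29714 h29714
  have h29716 := checkRangeG_sound parWF r2 pf29715 h29715
  have h29717 := checkRangeG_sound parWF r2 pf29716 h29716
  have h29718 := checkRangeG_sound parWF r2 pf29717 h29717
  have h29719 := checkRangeG_sound parWF r2 pf29718 h29718
  have h29720 := checkRangeG_sound parWF r2 pf29719 h29719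
  have h29721 := checkRangeG_sound parWF r2 pf29720 h29720
  have h29722 := checkRangeG_sound parWF r2 pf29721 h29721
  have h29723 := checkRangeG_sound parWF r2 pf29722 h29722
  have h29724 := checkRangeG_sound parWF r2 pf29723 h29723
  have h29725 := checkRangeG_sound parWF r2 pf29724 h29724
  have h29726 := checkRangeG_sound parWF r2 pf29725 h29725
  have h29727 := checkRangeG_sound parWF r2 pf29726 h29726
  have h29728 := checkRangeG_sound parWF r2 pf29727 h29727
  have h29729 := checkRangeG_sound parWF r2 pf29728 h29728
  have h29730 := checkRangeG_sound parWF r2 pf29729 h29729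
  have h29731 := checkRangeG_sound parWF r2 pf29730 h29730
  have h29732 := checkRangeG_sound parWF r2 pf29731 h29731
  have h29733 := checkRangeG_sound parWF r2 pf29732 h29732
  have h29734 := checkRangeG_sound parWF r2 pf29733 h29733
  have h29735 := checkRangeG_sound parWF r2 pf29734 h29734
  have h29736 := checkRangeG_sound parWF r2 pf29735 h29735
  have h29737 := checkRangeG_sound parWF r2 pf29736 h29736
  have h29738 := checkRangeG_sound parWF r2 pf29737 h29737
  have h29739 := checkRangeG_sound parWF r2 pf29738 h29738
  have h29740 := checkRangeG_sound parWF r2 pf29739 h29739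
  have h29741 := checkRangeG_sound parWF r2 pf29740 h29740
  have h29742 := checkRangeG_sound parWF r2 pf29741 h29741
  have h29743 := checkRangeG_sound parWF r2 pf29742 h29742
  have h29744 := checkRangeG_sound parWF r2 pf29743 h29743
  have h29745 := checkRangeG_sound parWF r2 pf29744 h29744
  have h29746 := checkRangeG_sound parWF r2 pf29745 h29745
  have h29747 := checkRangeG_sound parWF r2 pf29746 h29746
  have h29748 := checkRangeG_sound parWF r2 pf29747 h29747
  have h29749 := checkRangeG_sound parWF r2 pf29748 h29748
  have h29750 := checkRangeG_sound parWF r2 pf29749 h29749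
  exact h29750

theorem c595 (h29750 : ∀ j, j < 98051 → GoodG.{u} par (db j)) : ∀ j, j < 98233 → GoodG.{u} par (db j) := by
  have h29751 := checkRangeG_sound parWF r2 pf29750 h29750
  have h29752 := checkRangeG_sound parWF r2 pf29751 h29751
  have h29753 := checkRangeG_sound parWF r2 pf29752 h29752
  have h29754 := checkRangeG_sound parWF r2 pf29753 h29753
  have h29755 := checkRangeG_sound parWF r2 pf29754 h29754
  have h29756 := checkRangeG_sound parWF r2 pf29755 h29755
  have h29757 := checkRangeG_sound parWF r2 pf29756 h29756
  have h29758 := checkRangeG_sound parWF r2 pf29757 h29757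
  have h29759 := checkRangeG_sound parWF r2 pf29758 h29758
  have h29760 := checkRangeG_sound parWF r2 pf29759 h29759
  have h29761 := checkRangeG_sound parWF r2 pf29760 h29760
  have h29762 := checkRangeG_sound parWF r2 pf29761 h29761
  have h29763 := checkRangeG_sound parWF r2 pf29762 h29762
  have h29764 := checkRangeG_sound parWF r2 pf29763 h29763
  have h29765 := checkRangeG_sound parWF r2 pf29764 h29764
  have h29766 := checkRangeG_sound parWF r2 pf29765 h29765
  have h29767 := checkRangeG_sound parWF r2 pf29766 h29766
  have h29768 := checkRangeG_sound parWF r2 pf29767 h29767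
  have h29769 := checkRangeG_sound parWF r2 pf29768 h29768
  have h29770 := checkRangeG_sound parWF r2 pf29769 h29769
  have h29771 := checkRangeG_sound parWF r2 pf29770 h29770
  have h29772 := checkRangeG_sound parWF r2 pf29771 h29771
  have h29773 := checkRangeG_sound parWF r2 pf29772 h29772
  have h29774 := checkRangeG_sound parWF r2 pf29773 h29773
  have h29775 := checkRangeG_sound parWF r2 pf29774 h29774
  have h29776 := checkRangeG_sound parWF r2 pf29775 h29775
  have h29777 := checkRangeG_sound parWF r2 pf29776 h29776
  have h29778 := checkRangeG_sound parWF r2 pf29777 h29777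
  have h29779 := checkRangeG_sound parWF r2 pf29778 h29778
  have h29780 := checkRangeG_sound parWF r2 pf29779 h29779
  have h29781 := checkRangeG_sound parWF r2 pf29780 h29780
  have h29782 := checkRangeG_sound parWF r2 pf29781 h29781
  have h29783 := checkRangeG_sound parWF r2 pf29782 h29782
  have h29784 := checkRangeG_sound parWF r2 pf29783 h29783
  have h29785 := checkRangeG_sound parWF r2 pf29784 h29784
  have h29786 := checkRangeG_sound parWF r2 pf29785 h29785
  have h29787 := checkRangeG_sound parWF r2 pf29786 h29786
  have h29788 := checkRangeG_sound parWF r2 pf29787 h29787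
  have h29789 := checkRangeG_sound parWF r2 pf29788 h29788
  have h29790 := checkRangeG_sound parWF r2 pf29789 h29789
  have h29791 := checkRangeG_sound parWF r2 pf29790 h29790
  have h29792 := checkRangeG_sound parWF r2 pf29791 h29791
  have h29793 := checkRangeG_sound parWF r2 pf29792 h29792
  have h29794 := checkRangeG_sound parWF r2 pf29793 h29793
  have h29795 := checkRangeG_sound parWF r2 pf29794 h29794
  have h29796 := checkRangeG_sound parWF r2 pf29795 h29795
  have h29797 := checkRangeG_sound parWF r2 pf29796 h29796
  have h29798 := checkRangeG_sound parWF r2 pf29797 h29797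
  have h29799 := checkRangeG_sound parWF r2 pf29798 h29798
  have h29800 := checkRangeG_sound parWF r2 pf29799 h29799
  exact h29800

theorem c596 (h29800 : ∀ j, j < 98233 → GoodG.{u} par (db j)) : ∀ j, j < 98433 → GoodG.{u} par (db j) := by
  have h29801 := checkRangeG_sound parWF r2 pf29800 h29800
  have h29802 := checkRangeG_sound parWF r2 pf29801 h29801
  have h29803 := checkRangeG_sound parWF r2 pf29802 h29802
  have h29804 := checkRangeG_sound parWF r2 pf29803 h29803
  have h29805 := checkRangeG_sound parWF r2 pf29804 h29804
  have h29806 := checkRangeG_sound parWF r2 pf29805 h29805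
  have h29807 := checkRangeG_sound parWF r2 pf29806 h29806
  have h29808 := checkRangeG_sound parWF r2 pf29807 h29807
  have h29809 := checkRangeG_sound parWF r2 pf29808 h29808
  have h29810 := checkRangeG_sound parWF r2 pf29809 h29809
  have h29811 := checkRangeG_sound parWF r2 pf29810 h29810
  have h29812 := checkRangeG_sound parWF r2 pf29811 h29811
  have h29813 := checkRangeG_sound parWF r2 pf29812 h29812
  have h29814 := checkRangeG_sound parWF r2 pf29813 h29813
  have h29815 := checkRangeG_sound parWF r2 pf29814 h29814
  have h29816 := checkRangeG_sound parWF r2 pf29815 h29815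
  have h29817 := checkRangeG_sound parWF r2 pf29816 h29816
  have h29818 := checkRangeG_sound parWF r2 pf29817 h29817
  have h29819 := checkRangeG_sound parWF r2 pf29818 h29818
  have h29820 := checkRangeG_sound parWF r2 pf29819 h29819
  have h29821 := checkRangeG_sound parWF r2 pf29820 h29820
  have h29822 := checkRangeG_sound parWF r2 pf29821 h29821
  have h29823 := checkRangeG_sound parWF r2 pf29822 h29822
  have h29824 := checkRangeG_sound parWF r2 pf29823 h29823
  have h29825 := checkRangeG_sound parWF r2 pf29824 h29824
  have h29826 := checkRangeG_sound parWF r2 pf29825 h29825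
  have h29827 := checkRangeG_sound parWF r2 pf29826 h29826
  have h29828 := checkRangeG_sound parWF r2 pf29827 h29827
  have h29829 := checkRangeG_sound parWF r2 pf29828 h29828
  have h29830 := checkRangeG_sound parWF r2 pf29829 h29829
  have h29831 := checkRangeG_sound parWF r2 pf29830 h29830
  have h29832 := checkRangeG_sound parWF r2 pf29831 h29831
  have h29833 := checkRangeG_sound parWF r2 pf29832 h29832
  have h29834 := checkRangeG_sound parWF r2 pf29833 h29833
  have h29835 := checkRangeG_sound parWF r2 pf29834 h29834
  have h29836 := checkRangeG_sound parWF r2 pf29835 h29835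
  have h29837 := checkRangeG_sound parWF r2 pf29836 h29836
  have h29838 := checkRangeG_sound parWF r2 pf29837 h29837
  have h29839 := checkRangeG_sound parWF r2 pf29838 h29838
  have h29840 := checkRangeG_sound parWF r2 pf29839 h29839
  have h29841 := checkRangeG_sound parWF r2 pf29840 h29840
  have h29842 := checkRangeG_sound parWF r2 pf29841 h29841
  have h29843 := checkRangeG_sound parWF r2 pf29842 h29842
  have h29844 := checkRangeG_sound parWF r2 pf29843 h29843
  have h29845 := checkRangeG_sound parWF r2 pf29844 h29844
  have h29846 := checkRangeG_sound parWF r2 pf29845 h29845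
  have h29847 := checkRangeG_sound parWF r2 pf29846 h29846
  have h29848 := checkRangeG_sound parWF r2 pf29847 h29847
  have h29849 := checkRangeG_sound parWF r2 pf29848 h29848
  have h29850 := checkRangeG_sound parWF r2 pf29849 h29849
  exact h29850

theorem c597 (h29850 : ∀ j, j < 98433 → GoodG.{u} par (db j)) : ∀ j, j < 98635 → GoodG.{u} par (db j) := by
  have h29851 := checkRangeG_sound parWF r2 pf29850 h29850
  have h29852 := checkRangeG_sound parWF r2 pf29851 h29851
  have h29853 := checkRangeG_sound parWF r2 pf29852 h29852
  have h29854 := checkRangeG_sound parWF r2 pf29853 h29853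
  have h29855 := checkRangeG_sound parWF r2 pf29854 h29854
  have h29856 := checkRangeG_sound parWF r2 pf29855 h29855
  have h29857 := checkRangeG_sound parWF r2 pf29856 h29856
  have h29858 := checkRangeG_sound parWF r2 pf29857 h29857
  have h29859 := checkRangeG_sound parWF r2 pf29858 h29858
  have h29860 := checkRangeG_sound parWF r2 pf29859 h29859
  have h29861 := checkRangeG_sound parWF r2 pf29860 h29860
  have h29862 := checkRangeG_sound parWF r2 pf29861 h29861
  have h29863 := checkRangeG_sound parWF r2 pf29862 h29862
  have h29864 := checkRangeG_sound parWF r2 pf29863 h29863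
  have h29865 := checkRangeG_sound parWF r2 pf29864 h29864
  have h29866 := checkRangeG_sound parWF r2 pf29865 h29865
  have h29867 := checkRangeG_sound parWF r2 pf29866 h29866
  have h29868 := checkRangeG_sound parWF r2 pf29867 h29867
  have h29869 := checkRangeG_sound parWF r2 pf29868 h29868
  have h29870 := checkRangeG_sound parWF r2 pf29869 h29869
  have h29871 := checkRangeG_sound parWF r2 pf29870 h29870
  have h29872 := checkRangeG_sound parWF r2 pf29871 h29871
  have h29873 := checkRangeG_sound parWF r2 pf29872 h29872
  have h29874 := checkRangeG_sound parWF r2 pf29873 h29873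
  have h29875 := checkRangeG_sound parWF r2 pf29874 h29874
  have h29876 := checkRangeG_sound parWF r2 pf29875 h29875
  have h29877 := checkRangeG_sound parWF r2 pf29876 h29876
  have h29878 := checkRangeG_sound parWF r2 pf29877 h29877
  have h29879 := checkRangeG_sound parWF r2 pf29878 h29878
  have h29880 := checkRangeG_sound parWF r2 pf29879 h29879
  have h29881 := checkRangeG_sound parWF r2 pf29880 h29880
  have h29882 := checkRangeG_sound parWF r2 pf29881 h29881
  have h29883 := checkRangeG_sound parWF r2 pf29882 h29882
  have h29884 := checkRangeG_sound parWF r2 pf29883 h29883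
  have h29885 := checkRangeG_sound parWF r2 pf29884 h29884
  have h29886 := checkRangeG_sound parWF r2 pf29885 h29885
  have h29887 := checkRangeG_sound parWF r2 pf29886 h29886
  have h29888 := checkRangeG_sound parWF r2 pf29887 h29887
  have h29889 := checkRangeG_sound parWF r2 pf29888 h29888
  have h29890 := checkRangeG_sound parWF r2 pf29889 h29889
  have h29891 := checkRangeG_sound parWF r2 pf29890 h29890
  have h29892 := checkRangeG_sound parWF r2 pf29891 h29891
  have h29893 := checkRangeG_sound parWF r2 pf29892 h29892
  have h29894 := checkRangeG_sound parWF r2 pf29893 h29893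
  have h29895 := checkRangeG_sound parWF r2 pf29894 h29894
  have h29896 := checkRangeG_sound parWF r2 pf29895 h29895
  have h29897 := checkRangeG_sound parWF r2 pf29896 h29896
  have h29898 := checkRangeG_sound parWF r2 pf29897 h29897
  have h29899 := checkRangeG_sound parWF r2 pf29898 h29898
  have h29900 := checkRangeG_sound parWF r2 pf29899 h29899
  exact h29900

theorem c598 (h29900 : ∀ j, j < 98635 → GoodG.{u} par (db j)) : ∀ j, j < 98840 → GoodG.{u} par (db j) := by
  have h29901 := checkRangeG_sound parWF r2 pf29900 h29900
  have h29902 := checkRangeG_sound parWF r2 pf29901 h29901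
  have h29903 := checkRangeG_sound parWF r2 pf29902 h29902
  have h29904 := checkRangeG_sound parWF r2 pf29903 h29903
  have h29905 := checkRangeG_sound parWF r2 pf29904 h29904
  have h29906 := checkRangeG_sound parWF r2 pf29905 h29905
  have h29907 := checkRangeG_sound parWF r2 pf29906 h29906
  have h29908 := checkRangeG_sound parWF r2 pf29907 h29907
  have h29909 := checkRangeG_sound parWF r2 pf29908 h29908
  have h29910 := checkRangeG_sound parWF r2 pf29909 h29909
  have h29911 := checkRangeG_sound parWF r2 pf29910 h29910
  have h29912 := checkRangeG_sound parWF r2 pf29911 h29911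
  have h29913 := checkRangeG_sound parWF r2 pf29912 h29912
  have h29914 := checkRangeG_sound parWF r2 pf29913 h29913
  have h29915 := checkRangeG_sound parWF r2 pf29914 h29914
  have h29916 := checkRangeG_sound parWF r2 pf29915 h29915
  have h29917 := checkRangeG_sound parWF r2 pf29916 h29916
  have h29918 := checkRangeG_sound parWF r2 pf29917 h29917
  have h29919 := checkRangeG_sound parWF r2 pf29918 h29918
  have h29920 := checkRangeG_sound parWF r2 pf29919 h29919
  have h29921 := checkRangeG_sound parWF r2 pf29920 h29920
  have h29922 := checkRangeG_sound parWF r2 pf29921 h29921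
  have h29923 := checkRangeG_sound parWF r2 pf29922 h29922
  have h29924 := checkRangeG_sound parWF r2 pf29923 h29923
  have h29925 := checkRangeG_sound parWF r2 pf29924 h29924
  have h29926 := checkRangeG_sound parWF r2 pf29925 h29925
  have h29927 := checkRangeG_sound parWF r2 pf29926 h29926
  have h29928 := checkRangeG_sound parWF r2 pf29927 h29927
  have h29929 := checkRangeG_sound parWF r2 pf29928 h29928
  have h29930 := checkRangeG_sound parWF r2 pf29929 h29929
  have h29931 := checkRangeG_sound parWF r2 pf29930 h29930
  have h29932 := checkRangeG_sound parWF r2 pf29931 h29931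
  have h29933 := checkRangeG_sound parWF r2 pf29932 h29932
  have h29934 := checkRangeG_sound parWF r2 pf29933 h29933
  have h29935 := checkRangeG_sound parWF r2 pf29934 h29934
  have h29936 := checkRangeG_sound parWF r2 pf29935 h29935
  have h29937 := checkRangeG_sound parWF r2 pf29936 h29936
  have h29938 := checkRangeG_sound parWF r2 pf29937 h29937
  have h29939 := checkRangeG_sound parWF r2 pf29938 h29938
  have h29940 := checkRangeG_sound parWF r2 pf29939 h29939
  have h29941 := checkRangeG_sound parWF r2 pf29940 h29940
  have h29942 := checkRangeG_sound parWF r2 pf29941 h29941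
  have h29943 := checkRangeG_sound parWF r2 pf29942 h29942
  have h29944 := checkRangeG_sound parWF r2 pf29943 h29943
  have h29945 := checkRangeG_sound parWF r2 pf29944 h29944
  have h29946 := checkRangeG_sound parWF r2 pf29945 h29945
  have h29947 := checkRangeG_sound parWF r2 pf29946 h29946
  have h29948 := checkRangeG_sound parWF r2 pf29947 h29947
  have h29949 := checkRangeG_sound parWF r2 pf29948 h29948
  have h29950 := checkRangeG_sound parWF r2 pf29949 h29949
  exact h29950

theorem c599 (h29950 : ∀ j, j < 98840 → GoodG.{u} par (db j)) : ∀ j, j < 99064 → GoodG.{u} par (db j) := by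
  have h29951 := checkRangeG_sound parWF r2 pf29950 h29950
  have h29952 := checkRangeG_sound parWF r2 pf29951 h29951
  have h29953 := checkRangeG_sound parWF r2 pf29952 h29952
  have h29954 := checkRangeG_sound parWF r2 pf29953 h29953
  have h29955 := checkRangeG_sound parWF r2 pf29954 h29954
  have h29956 := checkRangeG_sound parWF r2 pf29955 h29955
  have h29957 := checkRangeG_sound parWF r2 pf29956 h29956
  have h29958 := checkRangeG_sound parWF r2 pf29957 h29957
  have h29959 := checkRangeG_sound parWF r2 pf29958 h29958
  have h29960 := checkRangeG_sound parWF r2 pf29959 h29959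
  have h29961 := checkRangeG_sound parWF r2 pf29960 h29960
  have h29962 := checkRangeG_sound parWF r2 pf29961 h29961
  have h29963 := checkRangeG_sound parWF r2 pf29962 h29962
  have h29964 := checkRangeG_sound parWF r2 pf29963 h29963
  have h29965 := checkRangeG_sound parWF r2 pf29964 h29964
  have h29966 := checkRangeG_sound parWF r2 pf29965 h29965
  have h29967 := checkRangeG_sound parWF r2 pf29966 h29966
  have h29968 := checkRangeG_sound parWF r2 pf29967 h29967
  have h29969 := checkRangeG_sound parWF r2 pf29968 h29968
  have h29970 := checkRangeG_sound parWF r2 pf29969 h29969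
  have h29971 := checkRangeG_sound parWF r2 pf29970 h29970
  have h29972 := checkRangeG_sound parWF r2 pf29971 h29971
  have h29973 := checkRangeG_sound parWF r2 pf29972 h29972
  have h29974 := checkRangeG_sound parWF r2 pf29973 h29973
  have h29975 := checkRangeG_sound parWF r2 pf29974 h29974
  have h29976 := checkRangeG_sound parWF r2 pf29975 h29975
  have h29977 := checkRangeG_sound parWF r2 pf29976 h29976
  have h29978 := checkRangeG_sound parWF r2 pf29977 h29977
  have h29979 := checkRangeG_sound parWF r2 pf29978 h29978
  have h29980 := checkRangeG_sound parWF r2 pf29979 h29979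
  have h29981 := checkRangeG_sound parWF r2 pf29980 h29980
  have h29982 := checkRangeG_sound parWF r2 pf29981 h29981
  have h29983 := checkRangeG_sound parWF r2 pf29982 h29982
  have h29984 := checkRangeG_sound parWF r2 pf29983 h29983
  have h29985 := checkRangeG_sound parWF r2 pf29984 h29984
  have h29986 := checkRangeG_sound parWF r2 pf29985 h29985
  have h29987 := checkRangeG_sound parWF r2 pf29986 h29986
  have h29988 := checkRangeG_sound parWF r2 pf29987 h29987
  have h29989 := checkRangeG_sound parWF r2 pf29988 h29988
  have h29990 := checkRangeG_sound parWF r2 pf29989 h29989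
  have h29991 := checkRangeG_sound parWF r2 pf29990 h29990
  have h29992 := checkRangeG_sound parWF r2 pf29991 h29991
  have h29993 := checkRangeG_sound parWF r2 pf29992 h29992
  have h29994 := checkRangeG_sound parWF r2 pf29993 h29993
  have h29995 := checkRangeG_sound parWF r2 pf29994 h29994
  have h29996 := checkRangeG_sound parWF r2 pf29995 h29995
  have h29997 := checkRangeG_sound parWF r2 pf29996 h29996
  have h29998 := checkRangeG_sound parWF r2 pf29997 h29997
  have h29999 := checkRangeG_sound parWF r2 pf29998 h29998
  have h30000 := checkRangeG_sound parWF r2 pf29999 h29999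
  exact h30000


end Vale.Agent.P045g.C61
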