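import Vale.Agent.P045g.C61.WF
import Vale.Agent.P045g.C61.Pf50
import Vale.Agent.P045g.C61.Pf51
import Vale.Agent.P045g.C61.Pf52
import Vale.Agent.P045g.C61.Pf53
import Vale.Agent.P045g.C61.Pf54
import Vale.Agent.P045g.C61.Pf55
import Vale.Agent.P045g.C61.Pf56
import Vale.Agent.P045g.C61.Pf57
import Vale.Agent.P045g.C61.Pf58
import Vale.Agent.P045g.C61.Pf59

namespace Vale.Agent.P045g.C61

open Vale.Agent.P045b Vale.Agent.P045g

universe u

theorem c60 (h3000 : ∀ j, j < 8678 → GoodG.{u} par (db j)) : ∀ j, j < 8819 → GoodG.{u} par (db j) := by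
  have h3001 := checkRangeG_sound parWF r2 pf3000 h3000
  have h3002 := checkRangeG_sound parWF r2 pf3001 h3001
  have h3003 := checkRangeG_sound parWF r2 pf3002 h3002
  have h3004 := checkRangeG_sound parWF r2 pf3003 h3003
  have h3005 := checkRangeG_sound parWF r2 pf3004 h3004
  have h3006 := checkRangeG_sound parWF r2 pf3005 h3005
  have h3007 := checkRangeG_sound parWF r2 pf3006 h3006
  have h3008 := checkRangeG_sound parWF r2 pf3007 h3007
  have h3009 := checkRangeG_sound parWF r2 pf3008 h3008
  have h3010 := checkRangeG_sound parWF r2 pf3009 h3009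
  have h3011 := checkRangeG_sound parWF r2 pf3010 h3010
  have h3012 := checkRangeG_sound parWF r2 pf3011 h3011
  have h3013 := checkRangeG_sound parWF r2 pf3012 h3012
  have h3014 := checkRangeG_sound parWF r2 pf3013 h3013
  have h3015 := checkRangeG_sound parWF r2 pf3014 h3014
  have h3016 := checkRangeG_sound parWF r2 pf3015 h3015
  have h3017 := checkRangeG_sound parWF r2 pf3016 h3016
  have h3018 := checkRangeG_sound parWF r2 pf3017 h3017
  have h3019 := checkRangeG_sound parWF r2 pf3018 h3018
  have h3020 := checkRangeG_sound parWF r2 pf3019 h3019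
  have h3021 := checkRangeG_sound parWF r2 pf3020 h3020
  have h3022 := checkRangeG_sound parWF r2 pf3021 h3021
  have h3023 := checkRangeG_sound parWF r2 pf3022 h3022
  have h3024 := checkRangeG_sound parWF r2 pf3023 h3023
  have h3025 := checkRangeG_sound parWF r2 pf3024 h3024
  have h3026 := checkRangeG_sound parWF r2 pf3025 h3025
  have h3027 := checkRangeG_sound parWF r2 pf3026 h3026
  have h3028 := checkRangeG_sound parWF r2 pf3027 h3027
  have h3029 := checkRangeG_sound parWF r2 pf3028 h3028
  have h3030 := checkRangeG_sound parWF r2 pf3029 h3029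
  have h3031 := checkRangeG_sound parWF r2 pf3030 h3030
  have h3032 := checkRangeG_sound parWF r2 pf3031 h3031
  have h3033 := checkRangeG_sound parWF r2 pf3032 h3032
  have h3034 := checkRangeG_sound parWF r2 pf3033 h3033
  have h3035 := checkRangeG_sound parWF r2 pf3034 h3034
  have h3036 := checkRangeG_sound parWF r2 pf3035 h3035
  have h3037 := checkRangeG_sound parWF r2 pf3036 h3036
  have h3038 := checkRangeG_sound parWF r2 pf3037 h3037
  have h3039 := checkRangeG_sound parWF r2 pf3038 h3038
  have h3040 := checkRangeG_sound parWF r2 pf3039 h3039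
  have h3041 := checkRangeG_sound parWF r2 pf3040 h3040
  have h3042 := checkRangeG_sound parWF r2 pf3041 h3041
  have h3043 := checkRangeG_sound parWF r2 pf3042 h3042
  have h3044 := checkRangeG_sound parWF r2 pf3043 h3043
  have h3045 := checkRangeG_sound parWF r2 pf3044 h3044
  have h3046 := checkRangeG_sound parWF r2 pf3045 h3045
  have h3047 := checkRangeG_sound parWF r2 pf3046 h3046
  have h3048 := checkRangeG_sound parWF r2 pf3047 h3047
  have h3049 := checkRangeG_sound parWF r2 pf3048 h3048
  have h3050 := checkRangeG_sound parWF r2 pf3049 h3049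
  exact h3050

theorem c61 (h3050 : ∀ j, j < 8819 → GoodG.{u} par (db j)) : ∀ j, j < 8967 → GoodG.{u} par (db j) := by
  have h3051 := checkRangeG_sound parWF r2 pf3050 h3050
  have h3052 := checkRangeG_sound parWF r2 pf3051 h3051
  have h3053 := checkRangeG_sound parWF r2 pf3052 h3052
  have h3054 := checkRangeG_sound parWF r2 pf3053 h3053
  have h3055 := checkRangeG_sound parWF r2 pf3054 h3054
  have h3056 := checkRangeG_sound parWF r2 pf3055 h3055
  have h3057 := checkRangeG_sound parWF r2 pf3056 h3056
  have h3058 := checkRangeG_sound parWF r2 pf3057 h3057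
  have h3059 := checkRangeG_sound parWF r2 pf3058 h3058
  have h3060 := checkRangeG_sound parWF r2 pf3059 h3059
  have h3061 := checkRangeG_sound parWF r2 pf3060 h3060
  have h3062 := checkRangeG_sound parWF r2 pf3061 h3061
  have h3063 := checkRangeG_sound parWF r2 pf3062 h3062
  have h3064 := checkRangeG_sound parWF r2 pf3063 h3063
  have h3065 := checkRangeG_sound parWF r2 pf3064 h3064
  have h3066 := checkRangeG_sound parWF r2 pf3065 h3065
  have h3067 := checkRangeG_sound parWF r2 pf3066 h3066
  have h3068 := checkRangeG_sound parWF r2 pf3067 h3067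
  have h3069 := checkRangeG_sound parWF r2 pf3068 h3068
  have h3070 := checkRangeG_sound parWF r2 pf3069 h3069
  have h3071 := checkRangeG_sound parWF r2 pf3070 h3070
  have h3072 := checkRangeG_sound parWF r2 pf3071 h3071
  have h3073 := checkRangeG_sound parWF r2 pf3072 h3072
  have h3074 := checkRangeG_sound parWF r2 pf3073 h3073
  have h3075 := checkRangeG_sound parWF r2 pf3074 h3074
  have h3076 := checkRangeG_sound parWF r2 pf3075 h3075
  have h3077 := checkRangeG_sound parWF r2 pf3076 h3076
  have h3078 := checkRangeG_sound parWF r2 pf3077 h3077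
  have h3079 := checkRangeG_sound parWF r2 pf3078 h3078
  have h3080 := checkRangeG_sound parWF r2 pf3079 h3079
  have h3081 := checkRangeG_sound parWF r2 pf3080 h3080
  have h3082 := checkRangeG_sound parWF r2 pf3081 h3081
  have h3083 := checkRangeG_sound parWF r2 pf3082 h3082
  have h3084 := checkRangeG_sound parWF r2 pf3083 h3083
  have h3085 := checkRangeG_sound parWF r2 pf3084 h3084
  have h3086 := checkRangeG_sound parWF r2 pf3085 h3085
  have h3087 := checkRangeG_sound parWF r2 pf3086 h3086
  have h3088 := checkRangeG_sound parWF r2 pf3087 h3087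
  have h3089 := checkRangeG_sound parWF r2 pf3088 h3088
  have h3090 := checkRangeG_sound parWF r2 pf3089 h3089
  have h3091 := checkRangeG_sound parWF r2 pf3090 h3090
  have h3092 := checkRangeG_sound parWF r2 pf3091 h3091
  have h3093 := checkRangeG_sound parWF r2 pf3092 h3092
  have h3094 := checkRangeG_sound parWF r2 pf3093 h3093
  have h3095 := checkRangeG_sound parWF r2 pf3094 h3094
  have h3096 := checkRangeG_sound parWF r2 pf3095 h3095
  have h3097 := checkRangeG_sound parWF r2 pf3096 h3096
  have h3098 := checkRangeG_sound parWF r2 pf3097 h3097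
  have h3099 := checkRangeG_sound parWF r2 pf3098 h3098
  have h3100 := checkRangeG_sound parWF r2 pf3099 h3099
  exact h3100

theorem c62 (h3100 : ∀ j, j < 8967 → GoodG.{u} par (db j)) : ∀ j, j < 9088 → GoodG.{u} par (db j) := by
  have h3101 := checkRangeG_sound parWF r2 pf3100 h3100
  have h3102 := checkRangeG_sound parWF r2 pf3101 h3101
  have h3103 := checkRangeG_sound parWF r2 pf3102 h3102
  have h3104 := checkRangeG_sound parWF r2 pf3103 h3103
  have h3105 := checkRangeG_sound parWF r2 pf3104 h3104
  have h3106 := checkRangeG_sound parWF r2 pf3105 h3105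
  have h3107 := checkRangeG_sound parWF r2 pf3106 h3106
  have h3108 := checkRangeG_sound parWF r2 pf3107 h3107
  have h3109 := checkRangeG_sound parWF r2 pf3108 h3108
  have h3110 := checkRangeG_sound parWF r2 pf3109 h3109
  have h3111 := checkRangeG_sound parWF r2 pf3110 h3110
  have h3112 := checkRangeG_sound parWF r2 pf3111 h3111
  have h3113 := checkRangeG_sound parWF r2 pf3112 h3112
  have h3114 := checkRangeG_sound parWF r2 pf3113 h3113
  have h3115 := checkRangeG_sound parWF r2 pf3114 h3114
  have h3116 := checkRangeG_sound parWF r2 pf3115 h3115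
  have h3117 := checkRangeG_sound parWF r2 pf3116 h3116
  have h3118 := checkRangeG_sound parWF r2 pf3117 h3117
  have h3119 := checkRangeG_sound parWF r2 pf3118 h3118
  have h3120 := checkRangeG_sound parWF r2 pf3119 h3119
  have h3121 := checkRangeG_sound parWF r2 pf3120 h3120
  have h3122 := checkRangeG_sound parWF r2 pf3121 h3121
  have h3123 := checkRangeG_sound parWF r2 pf3122 h3122
  have h3124 := checkRangeG_sound parWF r2 pf3123 h3123
  have h3125 := checkRangeG_sound parWF r2 pf3124 h3124
  have h3126 := checkRangeG_sound parWF r2 pf3125 h3125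
  have h3127 := checkRangeG_sound parWF r2 pf3126 h3126
  have h3128 := checkRangeG_sound parWF r2 pf3127 h3127
  have h3129 := checkRangeG_sound parWF r2 pf3128 h3128
  have h3130 := checkRangeG_sound parWF r2 pf3129 h3129
  have h3131 := checkRangeG_sound parWF r2 pf3130 h3130
  have h3132 := checkRangeG_sound parWF r2 pf3131 h3131
  have h3133 := checkRangeG_sound parWF r2 pf3132 h3132
  have h3134 := checkRangeG_sound parWF r2 pf3133 h3133
  have h3135 := checkRangeG_sound parWF r2 pf3134 h3134
  have h3136 := checkRangeG_sound parWF r2 pf3135 h3135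
  have h3137 := checkRangeG_sound parWF r2 pf3136 h3136
  have h3138 := checkRangeG_sound parWF r2 pf3137 h3137
  have h3139 := checkRangeG_sound parWF r2 pf3138 h3138
  have h3140 := checkRangeG_sound parWF r2 pf3139 h3139
  have h3141 := checkRangeG_sound parWF r2 pf3140 h3140
  have h3142 := checkRangeG_sound parWF r2 pf3141 h3141
  have h3143 := checkRangeG_sound parWF r2 pf3142 h3142
  have h3144 := checkRangeG_sound parWF r2 pf3143 h3143
  have h3145 := checkRangeG_sound parWF r2 pf3144 h3144
  have h3146 := checkRangeG_sound parWF r2 pf3145 h3145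
  have h3147 := checkRangeG_sound parWF r2 pf3146 h3146
  have h3148 := checkRangeG_sound parWF r2 pf3147 h3147
  have h3149 := checkRangeG_sound parWF r2 pf3148 h3148
  have h3150 := checkRangeG_sound parWF r2 pf3149 h3149
  exact h3150

theorem c63 (h3150 : ∀ j, j < 9088 → GoodG.{u} par (db j)) : ∀ j, j < 9214 → GoodG.{u} par (db j) := by
  have h3151 := checkRangeG_sound parWF r2 pf3150 h3150
  have h3152 := checkRangeG_sound parWF r2 pf3151 h3151
  have h3153 := checkRangeG_sound parWF r2 pf3152 h3152
  have h3154 := checkRangeG_sound parWF r2 pf3153 h3153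
  have h3155 := checkRangeG_sound parWF r2 pf3154 h3154
  have h3156 := checkRangeG_sound parWF r2 pf3155 h3155
  have h3157 := checkRangeG_sound parWF r2 pf3156 h3156
  have h3158 := checkRangeG_sound parWF r2 pf3157 h3157
  have h3159 := checkRangeG_sound parWF r2 pf3158 h3158
  have h3160 := checkRangeG_sound parWF r2 pf3159 h3159
  have h3161 := checkRangeG_sound parWF r2 pf3160 h3160
  have h3162 := checkRangeG_sound parWF r2 pf3161 h3161
  have h3163 := checkRangeG_sound parWF r2 pf3162 h3162
  have h3164 := checkRangeG_sound parWF r2 pf3163 h3163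
  have h3165 := checkRangeG_sound parWF r2 pf3164 h3164
  have h3166 := checkRangeG_sound parWF r2 pf3165 h3165
  have h3167 := checkRangeG_sound parWF r2 pf3166 h3166
  have h3168 := checkRangeG_sound parWF r2 pf3167 h3167
  have h3169 := checkRangeG_sound parWF r2 pf3168 h3168
  have h3170 := checkRangeG_sound parWF r2 pf3169 h3169
  have h3171 := checkRangeG_sound parWF r2 pf3170 h3170
  have h3172 := checkRangeG_sound parWF r2 pf3171 h3171
  have h3173 := checkRangeG_sound parWF r2 pf3172 h3172
  have h3174 := checkRangeG_sound parWF r2 pf3173 h3173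
  have h3175 := checkRangeG_sound parWF r2 pf3174 h3174
  have h3176 := checkRangeG_sound parWF r2 pf3175 h3175
  have h3177 := checkRangeG_sound parWF r2 pf3176 h3176
  have h3178 := checkRangeG_sound parWF r2 pf3177 h3177
  have h3179 := checkRangeG_sound parWF r2 pf3178 h3178
  have h3180 := checkRangeG_sound parWF r2 pf3179 h3179
  have h3181 := checkRangeG_sound parWF r2 pf3180 h3180
  have h3182 := checkRangeG_sound parWF r2 pf3181 h3181
  have h3183 := checkRangeG_sound parWF r2 pf3182 h3182
  have h3184 := checkRangeG_sound parWF r2 pf3183 h3183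
  have h3185 := checkRangeG_sound parWF r2 pf3184 h3184
  have h3186 := checkRangeG_sound parWF r2 pf3185 h3185
  have h3187 := checkRangeG_sound parWF r2 pf3186 h3186
  have h3188 := checkRangeG_sound parWF r2 pf3187 h3187
  have h3189 := checkRangeG_sound parWF r2 pf3188 h3188
  have h3190 := checkRangeG_sound parWF r2 pf3189 h3189
  have h3191 := checkRangeG_sound parWF r2 pf3190 h3190
  have h3192 := checkRangeG_sound parWF r2 pf3191 h3191
  have h3193 := checkRangeG_sound parWF r2 pf3192 h3192
  have h3194 := checkRangeG_sound parWF r2 pf3193 h3193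
  have h3195 := checkRangeG_sound parWF r2 pf3194 h3194
  have h3196 := checkRangeG_sound parWF r2 pf3195 h3195
  have h3197 := checkRangeG_sound parWF r2 pf3196 h3196
  have h3198 := checkRangeG_sound parWF r2 pf3197 h3197
  have h3199 := checkRangeG_sound parWF r2 pf3198 h3198
  have h3200 := checkRangeG_sound parWF r2 pf3199 h3199
  exact h3200

theorem c64 (h3200 : ∀ j, j < 9214 → GoodG.{u} par (db j)) : ∀ j, j < 9355 → GoodG.{u} par (db j) := by
  have h3201 := checkRangeG_sound parWF r2 pf3200 h3200
  have h3202 := checkRangeG_sound parWF r2 pf3201 h3201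
  have h3203 := checkRangeG_sound parWF r2 pf3202 h3202
  have h3204 := checkRangeG_sound parWF r2 pf3203 h3203
  have h3205 := checkRangeG_sound parWF r2 pf3204 h3204
  have h3206 := checkRangeG_sound parWF r2 pf3205 h3205
  have h3207 := checkRangeG_sound parWF r2 pf3206 h3206
  have h3208 := checkRangeG_sound parWF r2 pf3207 h3207
  have h3209 := checkRangeG_sound parWF r2 pf3208 h3208
  have h3210 := checkRangeG_sound parWF r2 pf3209 h3209
  have h3211 := checkRangeG_sound parWF r2 pf3210 h3210
  have h3212 := checkRangeG_sound parWF r2 pf3211 h3211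
  have h3213 := checkRangeG_sound parWF r2 pf3212 h3212
  have h3214 := checkRangeG_sound parWF r2 pf3213 h3213
  have h3215 := checkRangeG_sound parWF r2 pf3214 h3214
  have h3216 := checkRangeG_sound parWF r2 pf3215 h3215
  have h3217 := checkRangeG_sound parWF r2 pf3216 h3216
  have h3218 := checkRangeG_sound parWF r2 pf3217 h3217
  have h3219 := checkRangeG_sound parWF r2 pf3218 h3218
  have h3220 := checkRangeG_sound parWF r2 pf3219 h3219
  have h3221 := checkRangeG_sound parWF r2 pf3220 h3220
  have h3222 := checkRangeG_sound parWF r2 pf3221 h3221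
  have h3223 := checkRangeG_sound parWF r2 pf3222 h3222
  have h3224 := checkRangeG_sound parWF r2 pf3223 h3223
  have h3225 := checkRangeG_sound parWF r2 pf3224 h3224
  have h3226 := checkRangeG_sound parWF r2 pf3225 h3225
  have h3227 := checkRangeG_sound parWF r2 pf3226 h3226
  have h3228 := checkRangeG_sound parWF r2 pf3227 h3227
  have h3229 := checkRangeG_sound parWF r2 pf3228 h3228
  have h3230 := checkRangeG_sound parWF r2 pf3229 h3229
  have h3231 := checkRangeG_sound parWF r2 pf3230 h3230
  have h3232 := checkRangeG_sound parWF r2 pf3231 h3231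
  have h3233 := checkRangeG_sound parWF r2 pf3232 h3232
  have h3234 := checkRangeG_sound parWF r2 pf3233 h3233
  have h3235 := checkRangeG_sound parWF r2 pf3234 h3234
  have h3236 := checkRangeG_sound parWF r2 pf3235 h3235
  have h3237 := checkRangeG_sound parWF r2 pf3236 h3236
  have h3238 := checkRangeG_sound parWF r2 pf3237 h3237
  have h3239 := checkRangeG_sound parWF r2 pf3238 h3238
  have h3240 := checkRangeG_sound parWF r2 pf3239 h3239
  have h3241 := checkRangeG_sound parWF r2 pf3240 h3240
  have h3242 := checkRangeG_sound parWF r2 pf3241 h3241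
  have h3243 := checkRangeG_sound parWF r2 pf3242 h3242
  have h3244 := checkRangeG_sound parWF r2 pf3243 h3243
  have h3245 := checkRangeG_sound parWF r2 pf3244 h3244
  have h3246 := checkRangeG_sound parWF r2 pf3245 h3245
  have h3247 := checkRangeG_sound parWF r2 pf3246 h3246
  have h3248 := checkRangeG_sound parWF r2 pf3247 h3247
  have h3249 := checkRangeG_sound parWF r2 pf3248 h3248
  have h3250 := checkRangeG_sound parWF r2 pf3249 h3249
  exact h3250

theorem c65 (h3250 : ∀ j, j < 9355 → GoodG.{u} par (db j)) : ∀ j, j < 9498 → GoodG.{u} par (db j) := by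
  have h3251 := checkRangeG_sound parWF r2 pf3250 h3250
  have h3252 := checkRangeG_sound parWF r2 pf3251 h3251
  have h3253 := checkRangeG_sound parWF r2 pf3252 h3252
  have h3254 := checkRangeG_sound parWF r2 pf3253 h3253
  have h3255 := checkRangeG_sound parWF r2 pf3254 h3254
  have h3256 := checkRangeG_sound parWF r2 pf3255 h3255
  have h3257 := checkRangeG_sound parWF r2 pf3256 h3256
  have h3258 := checkRangeG_sound parWF r2 pf3257 h3257
  have h3259 := checkRangeG_sound parWF r2 pf3258 h3258
  have h3260 := checkRangeG_sound parWF r2 pf3259 h3259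
  have h3261 := checkRangeG_sound parWF r2 pf3260 h3260
  have h3262 := checkRangeG_sound parWF r2 pf3261 h3261
  have h3263 := checkRangeG_sound parWF r2 pf3262 h3262
  have h3264 := checkRangeG_sound parWF r2 pf3263 h3263
  have h3265 := checkRangeG_sound parWF r2 pf3264 h3264
  have h3266 := checkRangeG_sound parWF r2 pf3265 h3265
  have h3267 := checkRangeG_sound parWF r2 pf3266 h3266
  have h3268 := checkRangeG_sound parWF r2 pf3267 h3267
  have h3269 := checkRangeG_sound parWF r2 pf3268 h3268
  have h3270 := checkRangeG_sound parWF r2 pf3269 h3269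
  have h3271 := checkRangeG_sound parWF r2 pf3270 h3270
  have h3272 := checkRangeG_sound parWF r2 pf3271 h3271
  have h3273 := checkRangeG_sound parWF r2 pf3272 h3272
  have h3274 := checkRangeG_sound parWF r2 pf3273 h3273
  have h3275 := checkRangeG_sound parWF r2 pf3274 h3274
  have h3276 := checkRangeG_sound parWF r2 pf3275 h3275
  have h3277 := checkRangeG_sound parWF r2 pf3276 h3276
  have h3278 := checkRangeG_sound parWF r2 pf3277 h3277
  have h3279 := checkRangeG_sound parWF r2 pf3278 h3278
  have h3280 := checkRangeG_sound parWF r2 pf3279 h3279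
  have h3281 := checkRangeG_sound parWF r2 pf3280 h3280
  have h3282 := checkRangeG_sound parWF r2 pf3281 h3281
  have h3283 := checkRangeG_sound parWF r2 pf3282 h3282
  have h3284 := checkRangeG_sound parWF r2 pf3283 h3283
  have h3285 := checkRangeG_sound parWF r2 pf3284 h3284
  have h3286 := checkRangeG_sound parWF r2 pf3285 h3285
  have h3287 := checkRangeG_sound parWF r2 pf3286 h3286
  have h3288 := checkRangeG_sound parWF r2 pf3287 h3287
  have h3289 := checkRangeG_sound parWF r2 pf3288 h3288
  have h3290 := checkRangeG_sound parWF r2 pf3289 h3289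
  have h3291 := checkRangeG_sound parWF r2 pf3290 h3290
  have h3292 := checkRangeG_sound parWF r2 pf3291 h3291
  have h3293 := checkRangeG_sound parWF r2 pf3292 h3292
  have h3294 := checkRangeG_sound parWF r2 pf3293 h3293
  have h3295 := checkRangeG_sound parWF r2 pf3294 h3294
  have h3296 := checkRangeG_sound parWF r2 pf3295 h3295
  have h3297 := checkRangeG_sound parWF r2 pf3296 h3296
  have h3298 := checkRangeG_sound parWF r2 pf3297 h3297
  have h3299 := checkRangeG_sound parWF r2 pf3298 h3298
  have h3300 := checkRangeG_sound parWF r2 pf3299 h3299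
  exact h3300

theorem c66 (h3300 : ∀ j, j < 9498 → GoodG.{u} par (db j)) : ∀ j, j < 9619 → GoodG.{u} par (db j) := by
  have h3301 := checkRangeG_sound parWF r2 pf3300 h3300
  have h3302 := checkRangeG_sound parWF r2 pf3301 h3301
  have h3303 := checkRangeG_sound parWF r2 pf3302 h3302
  have h3304 := checkRangeG_sound parWF r2 pf3303 h3303
  have h3305 := checkRangeG_sound parWF r2 pf3304 h3304
  have h3306 := checkRangeG_sound parWF r2 pf3305 h3305
  have h3307 := checkRangeG_sound parWF r2 pf3306 h3306
  have h3308 := checkRangeG_sound parWF r2 pf3307 h3307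
  have h3309 := checkRangeG_sound parWF r2 pf3308 h3308
  have h3310 := checkRangeG_sound parWF r2 pf3309 h3309
  have h3311 := checkRangeG_sound parWF r2 pf3310 h3310
  have h3312 := checkRangeG_sound parWF r2 pf3311 h3311
  have h3313 := checkRangeG_sound parWF r2 pf3312 h3312
  have h3314 := checkRangeG_sound parWF r2 pf3313 h3313
  have h3315 := checkRangeG_sound parWF r2 pf3314 h3314
  have h3316 := checkRangeG_sound parWF r2 pf3315 h3315
  have h3317 := checkRangeG_sound parWF r2 pf3316 h3316
  have h3318 := checkRangeG_sound parWF r2 pf3317 h3317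
  have h3319 := checkRangeG_sound parWF r2 pf3318 h3318
  have h3320 := checkRangeG_sound parWF r2 pf3319 h3319
  have h3321 := checkRangeG_sound parWF r2 pf3320 h3320
  have h3322 := checkRangeG_sound parWF r2 pf3321 h3321
  have h3323 := checkRangeG_sound parWF r2 pf3322 h3322
  have h3324 := checkRangeG_sound parWF r2 pf3323 h3323
  have h3325 := checkRangeG_sound parWF r2 pf3324 h3324
  have h3326 := checkRangeG_sound parWF r2 pf3325 h3325
  have h3327 := checkRangeG_sound parWF r2 pf3326 h3326
  have h3328 := checkRangeG_sound parWF r2 pf3327 h3327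
  have h3329 := checkRangeG_sound parWF r2 pf3328 h3328
  have h3330 := checkRangeG_sound parWF r2 pf3329 h3329
  have h3331 := checkRangeG_sound parWF r2 pf3330 h3330
  have h3332 := checkRangeG_sound parWF r2 pf3331 h3331
  have h3333 := checkRangeG_sound parWF r2 pf3332 h3332
  have h3334 := checkRangeG_sound parWF r2 pf3333 h3333
  have h3335 := checkRangeG_sound parWF r2 pf3334 h3334
  have h3336 := checkRangeG_sound parWF r2 pf3335 h3335
  have h3337 := checkRangeG_sound parWF r2 pf3336 h3336
  have h3338 := checkRangeG_sound parWF r2 pf3337 h3337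
  have h3339 := checkRangeG_sound parWF r2 pf3338 h3338
  have h3340 := checkRangeG_sound parWF r2 pf3339 h3339
  have h3341 := checkRangeG_sound parWF r2 pf3340 h3340
  have h3342 := checkRangeG_sound parWF r2 pf3341 h3341
  have h3343 := checkRangeG_sound parWF r2 pf3342 h3342
  have h3344 := checkRangeG_sound parWF r2 pf3343 h3343
  have h3345 := checkRangeG_sound parWF r2 pf3344 h3344
  have h3346 := checkRangeG_sound parWF r2 pf3345 h3345
  have h3347 := checkRangeG_sound parWF r2 pf3346 h3346
  have h3348 := checkRangeG_sound parWF r2 pf3347 h3347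
  have h3349 := checkRangeG_sound parWF r2 pf3348 h3348
  have h3350 := checkRangeG_sound parWF r2 pf3349 h3349
  exact h3350

theorem c67 (h3350 : ∀ j, j < 9619 → GoodG.{u} par (db j)) : ∀ j, j < 9763 → GoodG.{u} par (db j) := by
  have h3351 := checkRangeG_sound parWF r2 pf3350 h3350
  have h3352 := checkRangeG_sound parWF r2 pf3351 h3351
  have h3353 := checkRangeG_sound parWF r2 pf3352 h3352
  have h3354 := checkRangeG_sound parWF r2 pf3353 h3353
  have h3355 := checkRangeG_sound parWF r2 pf3354 h3354
  have h3356 := checkRangeG_sound parWF r2 pf3355 h3355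
  have h3357 := checkRangeG_sound parWF r2 pf3356 h3356
  have h3358 := checkRangeG_sound parWF r2 pf3357 h3357
  have h3359 := checkRangeG_sound parWF r2 pf3358 h3358
  have h3360 := checkRangeG_sound parWF r2 pf3359 h3359
  have h3361 := checkRangeG_sound parWF r2 pf3360 h3360
  have h3362 := checkRangeG_sound parWF r2 pf3361 h3361
  have h3363 := checkRangeG_sound parWF r2 pf3362 h3362
  have h3364 := checkRangeG_sound parWF r2 pf3363 h3363
  have h3365 := checkRangeG_sound parWF r2 pf3364 h3364
  have h3366 := checkRangeG_sound parWF r2 pf3365 h3365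
  have h3367 := checkRangeG_sound parWF r2 pf3366 h3366
  have h3368 := checkRangeG_sound parWF r2 pf3367 h3367
  have h3369 := checkRangeG_sound parWF r2 pf3368 h3368
  have h3370 := checkRangeG_sound parWF r2 pf3369 h3369
  have h3371 := checkRangeG_sound parWF r2 pf3370 h3370
  have h3372 := checkRangeG_sound parWF r2 pf3371 h3371
  have h3373 := checkRangeG_sound parWF r2 pf3372 h3372
  have h3374 := checkRangeG_sound parWF r2 pf3373 h3373
  have h3375 := checkRangeG_sound parWF r2 pf3374 h3374
  have h3376 := checkRangeG_sound parWF r2 pf3375 h3375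
  have h3377 := checkRangeG_sound parWF r2 pf3376 h3376
  have h3378 := checkRangeG_sound parWF r2 pf3377 h3377
  have h3379 := checkRangeG_sound parWF r2 pf3378 h3378
  have h3380 := checkRangeG_sound parWF r2 pf3379 h3379
  have h3381 := checkRangeG_sound parWF r2 pf3380 h3380
  have h3382 := checkRangeG_sound parWF r2 pf3381 h3381
  have h3383 := checkRangeG_sound parWF r2 pf3382 h3382
  have h3384 := checkRangeG_sound parWF r2 pf3383 h3383
  have h3385 := checkRangeG_sound parWF r2 pf3384 h3384
  have h3386 := checkRangeG_sound parWF r2 pf3385 h3385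
  have h3387 := checkRangeG_sound parWF r2 pf3386 h3386
  have h3388 := checkRangeG_sound parWF r2 pf3387 h3387
  have h3389 := checkRangeG_sound parWF r2 pf3388 h3388
  have h3390 := checkRangeG_sound parWF r2 pf3389 h3389
  have h3391 := checkRangeG_sound parWF r2 pf3390 h3390
  have h3392 := checkRangeG_sound parWF r2 pf3391 h3391
  have h3393 := checkRangeG_sound parWF r2 pf3392 h3392
  have h3394 := checkRangeG_sound parWF r2 pf3393 h3393
  have h3395 := checkRangeG_sound parWF r2 pf3394 h3394
  have h3396 := checkRangeG_sound parWF r2 pf3395 h3395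
  have h3397 := checkRangeG_sound parWF r2 pf3396 h3396
  have h3398 := checkRangeG_sound parWF r2 pf3397 h3397
  have h3399 := checkRangeG_sound parWF r2 pf3398 h3398
  have h3400 := checkRangeG_sound parWF r2 pf3399 h3399
  exact h3400

theorem c68 (h3400 : ∀ j, j < 9763 → GoodG.{u} par (db j)) : ∀ j, j < 9929 → GoodG.{u} par (db j) := by
  have h3401 := checkRangeG_sound parWF r2 pf3400 h3400
  have h3402 := checkRangeG_sound parWF r2 pf3401 h3401
  have h3403 := checkRangeG_sound parWF r2 pf3402 h3402
  have h3404 := checkRangeG_sound parWF r2 pf3403 h3403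
  have h3405 := checkRangeG_sound parWF r2 pf3404 h3404
  have h3406 := checkRangeG_sound parWF r2 pf3405 h3405
  have h3407 := checkRangeG_sound parWF r2 pf3406 h3406
  have h3408 := checkRangeG_sound parWF r2 pf3407 h3407
  have h3409 := checkRangeG_sound parWF r2 pf3408 h3408
  have h3410 := checkRangeG_sound parWF r2 pf3409 h3409
  have h3411 := checkRangeG_sound parWF r2 pf3410 h3410
  have h3412 := checkRangeG_sound parWF r2 pf3411 h3411
  have h3413 := checkRangeG_sound parWF r2 pf3412 h3412
  have h3414 := checkRangeG_sound parWF r2 pf3413 h3413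
  have h3415 := checkRangeG_sound parWF r2 pf3414 h3414
  have h3416 := checkRangeG_sound parWF r2 pf3415 h3415
  have h3417 := checkRangeG_sound parWF r2 pf3416 h3416
  have h3418 := checkRangeG_sound parWF r2 pf3417 h3417
  have h3419 := checkRangeG_sound parWF r2 pf3418 h3418
  have h3420 := checkRangeG_sound parWF r2 pf3419 h3419
  have h3421 := checkRangeG_sound parWF r2 pf3420 h3420
  have h3422 := checkRangeG_sound parWF r2 pf3421 h3421
  have h3423 := checkRangeG_sound parWF r2 pf3422 h3422
  have h3424 := checkRangeG_sound parWF r2 pf3423 h3423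
  have h3425 := checkRangeG_sound parWF r2 pf3424 h3424
  have h3426 := checkRangeG_sound parWF r2 pf3425 h3425
  have h3427 := checkRangeG_sound parWF r2 pf3426 h3426
  have h3428 := checkRangeG_sound parWF r2 pf3427 h3427
  have h3429 := checkRangeG_sound parWF r2 pf3428 h3428
  have h3430 := checkRangeG_sound parWF r2 pf3429 h3429
  have h3431 := checkRangeG_sound parWF r2 pf3430 h3430
  have h3432 := checkRangeG_sound parWF r2 pf3431 h3431
  have h3433 := checkRangeG_sound parWF r2 pf3432 h3432
  have h3434 := checkRangeG_sound parWF r2 pf3433 h3433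
  have h3435 := checkRangeG_sound parWF r2 pf3434 h3434
  have h3436 := checkRangeG_sound parWF r2 pf3435 h3435
  have h3437 := checkRangeG_sound parWF r2 pf3436 h3436
  have h3438 := checkRangeG_sound parWF r2 pf3437 h3437
  have h3439 := checkRangeG_sound parWF r2 pf3438 h3438
  have h3440 := checkRangeG_sound parWF r2 pf3439 h3439
  have h3441 := checkRangeG_sound parWF r2 pf3440 h3440
  have h3442 := checkRangeG_sound parWF r2 pf3441 h3441
  have h3443 := checkRangeG_sound parWF r2 pf3442 h3442
  have h3444 := checkRangeG_sound parWF r2 pf3443 h3443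
  have h3445 := checkRangeG_sound parWF r2 pf3444 h3444
  have h3446 := checkRangeG_sound parWF r2 pf3445 h3445
  have h3447 := checkRangeG_sound parWF r2 pf3446 h3446
  have h3448 := checkRangeG_sound parWF r2 pf3447 h3447
  have h3449 := checkRangeG_sound parWF r2 pf3448 h3448
  have h3450 := checkRangeG_sound parWF r2 pf3449 h3449
  exact h3450

theorem c69 (h3450 : ∀ j, j < 9929 → GoodG.{u} par (db j)) : ∀ j, j < 10093 → GoodG.{u} par (db j) := by
  have h3451 := checkRangeG_sound parWF r2 pf3450 h3450
  have h3452 := checkRangeG_sound parWF r2 pf3451 h3451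
  have h3453 := checkRangeG_sound parWF r2 pf3452 h3452
  have h3454 := checkRangeG_sound parWF r2 pf3453 h3453
  have h3455 := checkRangeG_sound parWF r2 pf3454 h3454
  have h3456 := checkRangeG_sound parWF r2 pf3455 h3455
  have h3457 := checkRangeG_sound parWF r2 pf3456 h3456
  have h3458 := checkRangeG_sound parWF r2 pf3457 h3457
  have h3459 := checkRangeG_sound parWF r2 pf3458 h3458
  have h3460 := checkRangeG_sound parWF r2 pf3459 h3459
  have h3461 := checkRangeG_sound parWF r2 pf3460 h3460
  have h3462 := checkRangeG_sound parWF r2 pf3461 h3461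
  have h3463 := checkRangeG_sound parWF r2 pf3462 h3462
  have h3464 := checkRangeG_sound parWF r2 pf3463 h3463
  have h3465 := checkRangeG_sound parWF r2 pf3464 h3464
  have h3466 := checkRangeG_sound parWF r2 pf3465 h3465
  have h3467 := checkRangeG_sound parWF r2 pf3466 h3466
  have h3468 := checkRangeG_sound parWF r2 pf3467 h3467
  have h3469 := checkRangeG_sound parWF r2 pf3468 h3468
  have h3470 := checkRangeG_sound parWF r2 pf3469 h3469
  have h3471 := checkRangeG_sound parWF r2 pf3470 h3470
  have h3472 := checkRangeG_sound parWF r2 pf3471 h3471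
  have h3473 := checkRangeG_sound parWF r2 pf3472 h3472
  have h3474 := checkRangeG_sound parWF r2 pf3473 h3473
  have h3475 := checkRangeG_sound parWF r2 pf3474 h3474
  have h3476 := checkRangeG_sound parWF r2 pf3475 h3475
  have h3477 := checkRangeG_sound parWF r2 pf3476 h3476
  have h3478 := checkRangeG_sound parWF r2 pf3477 h3477
  have h3479 := checkRangeG_sound parWF r2 pf3478 h3478
  have h3480 := checkRangeG_sound parWF r2 pf3479 h3479
  have h3481 := checkRangeG_sound parWF r2 pf3480 h3480
  have h3482 := checkRangeG_sound parWF r2 pf3481 h3481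
  have h3483 := checkRangeG_sound parWF r2 pf3482 h3482
  have h3484 := checkRangeG_sound parWF r2 pf3483 h3483
  have h3485 := checkRangeG_sound parWF r2 pf3484 h3484
  have h3486 := checkRangeG_sound parWF r2 pf3485 h3485
  have h3487 := checkRangeG_sound parWF r2 pf3486 h3486
  have h3488 := checkRangeG_sound parWF r2 pf3487 h3487
  have h3489 := checkRangeG_sound parWF r2 pf3488 h3488
  have h3490 := checkRangeG_sound parWF r2 pf3489 h3489
  have h3491 := checkRangeG_sound parWF r2 pf3490 h3490
  have h3492 := checkRangeG_sound parWF r2 pf3491 h3491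
  have h3493 := checkRangeG_sound parWF r2 pf3492 h3492
  have h3494 := checkRangeG_sound parWF r2 pf3493 h3493
  have h3495 := checkRangeG_sound parWF r2 pf3494 h3494
  have h3496 := checkRangeG_sound parWF r2 pf3495 h3495
  have h3497 := checkRangeG_sound parWF r2 pf3496 h3496
  have h3498 := checkRangeG_sound parWF r2 pf3497 h3497
  have h3499 := checkRangeG_sound parWF r2 pf3498 h3498
  have h3500 := checkRangeG_sound parWF r2 pf3499 h3499
  exact h3500

theorem c70 (h3500 : ∀ j, j < 10093 → GoodG.{u} par (db j)) : ∀ j, j < 10232 → GoodG.{u} par (db j) := by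
  have h3501 := checkRangeG_sound parWF r2 pf3500 h3500
  have h3502 := checkRangeG_sound parWF r2 pf3501 h3501
  have h3503 := checkRangeG_sound parWF r2 pf3502 h3502
  have h3504 := checkRangeG_sound parWF r2 pf3503 h3503
  have h3505 := checkRangeG_sound parWF r2 pf3504 h3504
  have h3506 := checkRangeG_sound parWF r2 pf3505 h3505
  have h3507 := checkRangeG_sound parWF r2 pf3506 h3506
  have h3508 := checkRangeG_sound parWF r2 pf3507 h3507
  have h3509 := checkRangeG_sound parWF r2 pf3508 h3508
  have h3510 := checkRangeG_sound parWF r2 pf3509 h3509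
  have h3511 := checkRangeG_sound parWF r2 pf3510 h3510
  have h3512 := checkRangeG_sound parWF r2 pf3511 h3511
  have h3513 := checkRangeG_sound parWF r2 pf3512 h3512
  have h3514 := checkRangeG_sound parWF r2 pf3513 h3513
  have h3515 := checkRangeG_sound parWF r2 pf3514 h3514
  have h3516 := checkRangeG_sound parWF r2 pf3515 h3515
  have h3517 := checkRangeG_sound parWF r2 pf3516 h3516
  have h3518 := checkRangeG_sound parWF r2 pf3517 h3517
  have h3519 := checkRangeG_sound parWF r2 pf3518 h3518
  have h3520 := checkRangeG_sound parWF r2 pf3519 h3519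
  have h3521 := checkRangeG_sound parWF r2 pf3520 h3520
  have h3522 := checkRangeG_sound parWF r2 pf3521 h3521
  have h3523 := checkRangeG_sound parWF r2 pf3522 h3522
  have h3524 := checkRangeG_sound parWF r2 pf3523 h3523
  have h3525 := checkRangeG_sound parWF r2 pf3524 h3524
  have h3526 := checkRangeG_sound parWF r2 pf3525 h3525
  have h3527 := checkRangeG_sound parWF r2 pf3526 h3526
  have h3528 := checkRangeG_sound parWF r2 pf3527 h3527
  have h3529 := checkRangeG_sound parWF r2 pf3528 h3528
  have h3530 := checkRangeG_sound parWF r2 pf3529 h3529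
  have h3531 := checkRangeG_sound parWF r2 pf3530 h3530
  have h3532 := checkRangeG_sound parWF r2 pf3531 h3531
  have h3533 := checkRangeG_sound parWF r2 pf3532 h3532
  have h3534 := checkRangeG_sound parWF r2 pf3533 h3533
  have h3535 := checkRangeG_sound parWF r2 pf3534 h3534
  have h3536 := checkRangeG_sound parWF r2 pf3535 h3535
  have h3537 := checkRangeG_sound parWF r2 pf3536 h3536
  have h3538 := checkRangeG_sound parWF r2 pf3537 h3537
  have h3539 := checkRangeG_sound parWF r2 pf3538 h3538
  have h3540 := checkRangeG_sound parWF r2 pf3539 h3539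
  have h3541 := checkRangeG_sound parWF r2 pf3540 h3540
  have h3542 := checkRangeG_sound parWF r2 pf3541 h3541
  have h3543 := checkRangeG_sound parWF r2 pf3542 h3542
  have h3544 := checkRangeG_sound parWF r2 pf3543 h3543
  have h3545 := checkRangeG_sound parWF r2 pf3544 h3544
  have h3546 := checkRangeG_sound parWF r2 pf3545 h3545
  have h3547 := checkRangeG_sound parWF r2 pf3546 h3546
  have h3548 := checkRangeG_sound parWF r2 pf3547 h3547
  have h3549 := checkRangeG_sound parWF r2 pf3548 h3548
  have h3550 := checkRangeG_sound parWF r2 pf3549 h3549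
  exact h3550

theorem c71 (h3550 : ∀ j, j < 10232 → GoodG.{u} par (db j)) : ∀ j, j < 10391 → GoodG.{u} par (db j) := by
  have h3551 := checkRangeG_sound parWF r2 pf3550 h3550
  have h3552 := checkRangeG_sound parWF r2 pf3551 h3551
  have h3553 := checkRangeG_sound parWF r2 pf3552 h3552
  have h3554 := checkRangeG_sound parWF r2 pf3553 h3553
  have h3555 := checkRangeG_sound parWF r2 pf3554 h3554
  have h3556 := checkRangeG_sound parWF r2 pf3555 h3555
  have h3557 := checkRangeG_sound parWF r2 pf3556 h3556
  have h3558 := checkRangeG_sound parWF r2 pf3557 h3557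
  have h3559 := checkRangeG_sound parWF r2 pf3558 h3558
  have h3560 := checkRangeG_sound parWF r2 pf3559 h3559
  have h3561 := checkRangeG_sound parWF r2 pf3560 h3560
  have h3562 := checkRangeG_sound parWF r2 pf3561 h3561
  have h3563 := checkRangeG_sound parWF r2 pf3562 h3562
  have h3564 := checkRangeG_sound parWF r2 pf3563 h3563
  have h3565 := checkRangeG_sound parWF r2 pf3564 h3564
  have h3566 := checkRangeG_sound parWF r2 pf3565 h3565
  have h3567 := checkRangeG_sound parWF r2 pf3566 h3566
  have h3568 := checkRangeG_sound parWF r2 pf3567 h3567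
  have h3569 := checkRangeG_sound parWF r2 pf3568 h3568
  have h3570 := checkRangeG_sound parWF r2 pf3569 h3569
  have h3571 := checkRangeG_sound parWF r2 pf3570 h3570
  have h3572 := checkRangeG_sound parWF r2 pf3571 h3571
  have h3573 := checkRangeG_sound parWF r2 pf3572 h3572
  have h3574 := checkRangeG_sound parWF r2 pf3573 h3573
  have h3575 := checkRangeG_sound parWF r2 pf3574 h3574
  have h3576 := checkRangeG_sound parWF r2 pf3575 h3575
  have h3577 := checkRangeG_sound parWF r2 pf3576 h3576
  have h3578 := checkRangeG_sound parWF r2 pf3577 h3577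
  have h3579 := checkRangeG_sound parWF r2 pf3578 h3578
  have h3580 := checkRangeG_sound parWF r2 pf3579 h3579
  have h3581 := checkRangeG_sound parWF r2 pf3580 h3580
  have h3582 := checkRangeG_sound parWF r2 pf3581 h3581
  have h3583 := checkRangeG_sound parWF r2 pf3582 h3582
  have h3584 := checkRangeG_sound parWF r2 pf3583 h3583
  have h3585 := checkRangeG_sound parWF r2 pf3584 h3584
  have h3586 := checkRangeG_sound parWF r2 pf3585 h3585
  have h3587 := checkRangeG_sound parWF r2 pf3586 h3586
  have h3588 := checkRangeG_sound parWF r2 pf3587 h3587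
  have h3589 := checkRangeG_sound parWF r2 pf3588 h3588
  have h3590 := checkRangeG_sound parWF r2 pf3589 h3589
  have h3591 := checkRangeG_sound parWF r2 pf3590 h3590
  have h3592 := checkRangeG_sound parWF r2 pf3591 h3591
  have h3593 := checkRangeG_sound parWF r2 pf3592 h3592
  have h3594 := checkRangeG_sound parWF r2 pf3593 h3593
  have h3595 := checkRangeG_sound parWF r2 pf3594 h3594
  have h3596 := checkRangeG_sound parWF r2 pf3595 h3595
  have h3597 := checkRangeG_sound parWF r2 pf3596 h3596
  have h3598 := checkRangeG_sound parWF r2 pf3597 h3597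
  have h3599 := checkRangeG_sound parWF r2 pf3598 h3598
  have h3600 := checkRangeG_sound parWF r2 pf3599 h3599
  exact h3600


end Vale.Agent.P045g.C61
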