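import Vale.Agent.P045g.C61.WF
import Vale.Agent.P045g.C61.Pf500
import Vale.Agent.P045g.C61.Pf501
import Vale.Agent.P045g.C61.Pf502
import Vale.Agent.P045g.C61.Pf503
import Vale.Agent.P045g.C61.Pf504
import Vale.Agent.P045g.C61.Pf505
import Vale.Agent.P045g.C61.Pf506
import Vale.Agent.P045g.C61.Pf507
import Vale.Agent.P045g.C61.Pf508
import Vale.Agent.P045g.C61.Pf509

namespace Vale.Agent.P045g.C61

open Vale.Agent.P045b Vale.Agent.P045g

universe u

theorem c600 (h30000 : ∀ j, j < 99064 → GoodG.{u} par (db j)) : ∀ j, j < 99227 → GoodG.{u} par (db j) := by
  have h30001 := checkRangeG_sound parWF r2 pf30000 h30000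
  have h30002 := checkRangeG_sound parWF r2 pf30001 h30001
  have h30003 := checkRangeG_sound parWF r2 pf30002 h30002
  have h30004 := checkRangeG_sound parWF r2 pf30003 h30003
  have h30005 := checkRangeG_sound parWF r2 pf30004 h30004
  have h30006 := checkRangeG_sound parWF r2 pf30005 h30005
  have h30007 := checkRangeG_sound parWF r2 pf30006 h30006
  have h30008 := checkRangeG_sound parWF r2 pf30007 h30007
  have h30009 := checkRangeG_sound parWF r2 pf30008 h30008
  have h30010 := checkRangeG_sound parWF r2 pf30009 h30009
  have h30011 := checkRangeG_sound parWF r2 pf30010 h30010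
  have h30012 := checkRangeG_sound parWF r2 pf30011 h30011
  have h30013 := checkRangeG_sound parWF r2 pf30012 h30012
  have h30014 := checkRangeG_sound parWF r2 pf30013 h30013
  have h30015 := checkRangeG_sound parWF r2 pf30014 h30014
  have h30016 := checkRangeG_sound parWF r2 pf30015 h30015
  have h30017 := checkRangeG_sound parWF r2 pf30016 h30016
  have h30018 := checkRangeG_sound parWF r2 pf30017 h30017
  have h30019 := checkRangeG_sound parWF r2 pf30018 h30018
  have h30020 := checkRangeG_sound parWF r2 pf30019 h30019
  have h30021 := checkRangeG_sound parWF r2 pf30020 h30020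
  have h30022 := checkRangeG_sound parWF r2 pf30021 h30021
  have h30023 := checkRangeG_sound parWF r2 pf30022 h30022
  have h30024 := checkRangeG_sound parWF r2 pf30023 h30023
  have h30025 := checkRangeG_sound parWF r2 pf30024 h30024
  have h30026 := checkRangeG_sound parWF r2 pf30025 h30025
  have h30027 := checkRangeG_sound parWF r2 pf30026 h30026
  have h30028 := checkRangeG_sound parWF r2 pf30027 h30027
  have h30029 := checkRangeG_sound parWF r2 pf30028 h30028
  have h30030 := checkRangeG_sound parWF r2 pf30029 h30029
  have h30031 := checkRangeG_sound parWF r2 pf30030 h30030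
  have h30032 := checkRangeG_sound parWF r2 pf30031 h30031
  have h30033 := checkRangeG_sound parWF r2 pf30032 h30032
  have h30034 := checkRangeG_sound parWF r2 pf30033 h30033
  have h30035 := checkRangeG_sound parWF r2 pf30034 h30034
  have h30036 := checkRangeG_sound parWF r2 pf30035 h30035
  have h30037 := checkRangeG_sound parWF r2 pf30036 h30036
  have h30038 := checkRangeG_sound parWF r2 pf30037 h30037
  have h30039 := checkRangeG_sound parWF r2 pf30038 h30038
  have h30040 := checkRangeG_sound parWF r2 pf30039 h30039
  have h30041 := checkRangeG_sound parWF r2 pf30040 h30040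
  have h30042 := checkRangeG_sound parWF r2 pf30041 h30041
  have h30043 := checkRangeG_sound parWF r2 pf30042 h30042
  have h30044 := checkRangeG_sound parWF r2 pf30043 h30043
  have h30045 := checkRangeG_sound parWF r2 pf30044 h30044
  have h30046 := checkRangeG_sound parWF r2 pf30045 h30045
  have h30047 := checkRangeG_sound parWF r2 pf30046 h30046
  have h30048 := checkRangeG_sound parWF r2 pf30047 h30047
  have h30049 := checkRangeG_sound parWF r2 pf30048 h30048
  have h30050 := checkRangeG_sound parWF r2 pf30049 h30049
  exact h30050

theorem c601 (h30050 : ∀ j, j < 99227 → GoodG.{u} par (db j)) : ∀ j, j < 99416 → GoodG.{u} par (db j) := by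
  have h30051 := checkRangeG_sound parWF r2 pf30050 h30050
  have h30052 := checkRangeG_sound parWF r2 pf30051 h30051
  have h30053 := checkRangeG_sound parWF r2 pf30052 h30052
  have h30054 := checkRangeG_sound parWF r2 pf30053 h30053
  have h30055 := checkRangeG_sound parWF r2 pf30054 h30054
  have h30056 := checkRangeG_sound parWF r2 pf30055 h30055
  have h30057 := checkRangeG_sound parWF r2 pf30056 h30056
  have h30058 := checkRangeG_sound parWF r2 pf30057 h30057
  have h30059 := checkRangeG_sound parWF r2 pf30058 h30058
  have h30060 := checkRangeG_sound parWF r2 pf30059 h30059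
  have h30061 := checkRangeG_sound parWF r2 pf30060 h30060
  have h30062 := checkRangeG_sound parWF r2 pf30061 h30061
  have h30063 := checkRangeG_sound parWF r2 pf30062 h30062
  have h30064 := checkRangeG_sound parWF r2 pf30063 h30063
  have h30065 := checkRangeG_sound parWF r2 pf30064 h30064
  have h30066 := checkRangeG_sound parWF r2 pf30065 h30065
  have h30067 := checkRangeG_sound parWF r2 pf30066 h30066
  have h30068 := checkRangeG_sound parWF r2 pf30067 h30067
  have h30069 := checkRangeG_sound parWF r2 pf30068 h30068
  have h30070 := checkRangeG_sound parWF r2 pf30069 h30069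
  have h30071 := checkRangeG_sound parWF r2 pf30070 h30070
  have h30072 := checkRangeG_sound parWF r2 pf30071 h30071
  have h30073 := checkRangeG_sound parWF r2 pf30072 h30072
  have h30074 := checkRangeG_sound parWF r2 pf30073 h30073
  have h30075 := checkRangeG_sound parWF r2 pf30074 h30074
  have h30076 := checkRangeG_sound parWF r2 pf30075 h30075
  have h30077 := checkRangeG_sound parWF r2 pf30076 h30076
  have h30078 := checkRangeG_sound parWF r2 pf30077 h30077
  have h30079 := checkRangeG_sound parWF r2 pf30078 h30078
  have h30080 := checkRangeG_sound parWF r2 pf30079 h30079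
  have h30081 := checkRangeG_sound parWF r2 pf30080 h30080
  have h30082 := checkRangeG_sound parWF r2 pf30081 h30081
  have h30083 := checkRangeG_sound parWF r2 pf30082 h30082
  have h30084 := checkRangeG_sound parWF r2 pf30083 h30083
  have h30085 := checkRangeG_sound parWF r2 pf30084 h30084
  have h30086 := checkRangeG_sound parWF r2 pf30085 h30085
  have h30087 := checkRangeG_sound parWF r2 pf30086 h30086
  have h30088 := checkRangeG_sound parWF r2 pf30087 h30087
  have h30089 := checkRangeG_sound parWF r2 pf30088 h30088
  have h30090 := checkRangeG_sound parWF r2 pf30089 h30089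
  have h30091 := checkRangeG_sound parWF r2 pf30090 h30090
  have h30092 := checkRangeG_sound parWF r2 pf30091 h30091
  have h30093 := checkRangeG_sound parWF r2 pf30092 h30092
  have h30094 := checkRangeG_sound parWF r2 pf30093 h30093
  have h30095 := checkRangeG_sound parWF r2 pf30094 h30094
  have h30096 := checkRangeG_sound parWF r2 pf30095 h30095
  have h30097 := checkRangeG_sound parWF r2 pf30096 h30096
  have h30098 := checkRangeG_sound parWF r2 pf30097 h30097
  have h30099 := checkRangeG_sound parWF r2 pf30098 h30098
  have h30100 := checkRangeG_sound parWF r2 pf30099 h30099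
  exact h30100

theorem c602 (h30100 : ∀ j, j < 99416 → GoodG.{u} par (db j)) : ∀ j, j < 99595 → GoodG.{u} par (db j) := by
  have h30101 := checkRangeG_sound parWF r2 pf30100 h30100
  have h30102 := checkRangeG_sound parWF r2 pf30101 h30101
  have h30103 := checkRangeG_sound parWF r2 pf30102 h30102
  have h30104 := checkRangeG_sound parWF r2 pf30103 h30103
  have h30105 := checkRangeG_sound parWF r2 pf30104 h30104
  have h30106 := checkRangeG_sound parWF r2 pf30105 h30105
  have h30107 := checkRangeG_sound parWF r2 pf30106 h30106
  have h30108 := checkRangeG_sound parWF r2 pf30107 h30107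
  have h30109 := checkRangeG_sound parWF r2 pf30108 h30108
  have h30110 := checkRangeG_sound parWF r2 pf30109 h30109
  have h30111 := checkRangeG_sound parWF r2 pf30110 h30110
  have h30112 := checkRangeG_sound parWF r2 pf30111 h30111
  have h30113 := checkRangeG_sound parWF r2 pf30112 h30112
  have h30114 := checkRangeG_sound parWF r2 pf30113 h30113
  have h30115 := checkRangeG_sound parWF r2 pf30114 h30114
  have h30116 := checkRangeG_sound parWF r2 pf30115 h30115
  have h30117 := checkRangeG_sound parWF r2 pf30116 h30116
  have h30118 := checkRangeG_sound parWF r2 pf30117 h30117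
  have h30119 := checkRangeG_sound parWF r2 pf30118 h30118
  have h30120 := checkRangeG_sound parWF r2 pf30119 h30119
  have h30121 := checkRangeG_sound parWF r2 pf30120 h30120
  have h30122 := checkRangeG_sound parWF r2 pf30121 h30121
  have h30123 := checkRangeG_sound parWF r2 pf30122 h30122
  have h30124 := checkRangeG_sound parWF r2 pf30123 h30123
  have h30125 := checkRangeG_sound parWF r2 pf30124 h30124
  have h30126 := checkRangeG_sound parWF r2 pf30125 h30125
  have h30127 := checkRangeG_sound parWF r2 pf30126 h30126
  have h30128 := checkRangeG_sound parWF r2 pf30127 h30127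
  have h30129 := checkRangeG_sound parWF r2 pf30128 h30128
  have h30130 := checkRangeG_sound parWF r2 pf30129 h30129
  have h30131 := checkRangeG_sound parWF r2 pf30130 h30130
  have h30132 := checkRangeG_sound parWF r2 pf30131 h30131
  have h30133 := checkRangeG_sound parWF r2 pf30132 h30132
  have h30134 := checkRangeG_sound parWF r2 pf30133 h30133
  have h30135 := checkRangeG_sound parWF r2 pf30134 h30134
  have h30136 := checkRangeG_sound parWF r2 pf30135 h30135
  have h30137 := checkRangeG_sound parWF r2 pf30136 h30136
  have h30138 := checkRangeG_sound parWF r2 pf30137 h30137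
  have h30139 := checkRangeG_sound parWF r2 pf30138 h30138
  have h30140 := checkRangeG_sound parWF r2 pf30139 h30139
  have h30141 := checkRangeG_sound parWF r2 pf30140 h30140
  have h30142 := checkRangeG_sound parWF r2 pf30141 h30141
  have h30143 := checkRangeG_sound parWF r2 pf30142 h30142
  have h30144 := checkRangeG_sound parWF r2 pf30143 h30143
  have h30145 := checkRangeG_sound parWF r2 pf30144 h30144
  have h30146 := checkRangeG_sound parWF r2 pf30145 h30145
  have h30147 := checkRangeG_sound parWF r2 pf30146 h30146
  have h30148 := checkRangeG_sound parWF r2 pf30147 h30147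
  have h30149 := checkRangeG_sound parWF r2 pf30148 h30148
  have h30150 := checkRangeG_sound parWF r2 pf30149 h30149
  exact h30150

theorem c603 (h30150 : ∀ j, j < 99595 → GoodG.{u} par (db j)) : ∀ j, j < 99789 → GoodG.{u} par (db j) := by
  have h30151 := checkRangeG_sound parWF r2 pf30150 h30150
  have h30152 := checkRangeG_sound parWF r2 pf30151 h30151
  have h30153 := checkRangeG_sound parWF r2 pf30152 h30152
  have h30154 := checkRangeG_sound parWF r2 pf30153 h30153
  have h30155 := checkRangeG_sound parWF r2 pf30154 h30154
  have h30156 := checkRangeG_sound parWF r2 pf30155 h30155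
  have h30157 := checkRangeG_sound parWF r2 pf30156 h30156
  have h30158 := checkRangeG_sound parWF r2 pf30157 h30157
  have h30159 := checkRangeG_sound parWF r2 pf30158 h30158
  have h30160 := checkRangeG_sound parWF r2 pf30159 h30159
  have h30161 := checkRangeG_sound parWF r2 pf30160 h30160
  have h30162 := checkRangeG_sound parWF r2 pf30161 h30161
  have h30163 := checkRangeG_sound parWF r2 pf30162 h30162
  have h30164 := checkRangeG_sound parWF r2 pf30163 h30163
  have h30165 := checkRangeG_sound parWF r2 pf30164 h30164
  have h30166 := checkRangeG_sound parWF r2 pf30165 h30165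
  have h30167 := checkRangeG_sound parWF r2 pf30166 h30166
  have h30168 := checkRangeG_sound parWF r2 pf30167 h30167
  have h30169 := checkRangeG_sound parWF r2 pf30168 h30168
  have h30170 := checkRangeG_sound parWF r2 pf30169 h30169
  have h30171 := checkRangeG_sound parWF r2 pf30170 h30170
  have h30172 := checkRangeG_sound parWF r2 pf30171 h30171
  have h30173 := checkRangeG_sound parWF r2 pf30172 h30172
  have h30174 := checkRangeG_sound parWF r2 pf30173 h30173
  have h30175 := checkRangeG_sound parWF r2 pf30174 h30174
  have h30176 := checkRangeG_sound parWF r2 pf30175 h30175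
  have h30177 := checkRangeG_sound parWF r2 pf30176 h30176
  have h30178 := checkRangeG_sound parWF r2 pf30177 h30177
  have h30179 := checkRangeG_sound parWF r2 pf30178 h30178
  have h30180 := checkRangeG_sound parWF r2 pf30179 h30179
  have h30181 := checkRangeG_sound parWF r2 pf30180 h30180
  have h30182 := checkRangeG_sound parWF r2 pf30181 h30181
  have h30183 := checkRangeG_sound parWF r2 pf30182 h30182
  have h30184 := checkRangeG_sound parWF r2 pf30183 h30183
  have h30185 := checkRangeG_sound parWF r2 pf30184 h30184
  have h30186 := checkRangeG_sound parWF r2 pf30185 h30185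
  have h30187 := checkRangeG_sound parWF r2 pf30186 h30186
  have h30188 := checkRangeG_sound parWF r2 pf30187 h30187
  have h30189 := checkRangeG_sound parWF r2 pf30188 h30188
  have h30190 := checkRangeG_sound parWF r2 pf30189 h30189
  have h30191 := checkRangeG_sound parWF r2 pf30190 h30190
  have h30192 := checkRangeG_sound parWF r2 pf30191 h30191
  have h30193 := checkRangeG_sound parWF r2 pf30192 h30192
  have h30194 := checkRangeG_sound parWF r2 pf30193 h30193
  have h30195 := checkRangeG_sound parWF r2 pf30194 h30194
  have h30196 := checkRangeG_sound parWF r2 pf30195 h30195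
  have h30197 := checkRangeG_sound parWF r2 pf30196 h30196
  have h30198 := checkRangeG_sound parWF r2 pf30197 h30197
  have h30199 := checkRangeG_sound parWF r2 pf30198 h30198
  have h30200 := checkRangeG_sound parWF r2 pf30199 h30199
  exact h30200

theorem c604 (h30200 : ∀ j, j < 99789 → GoodG.{u} par (db j)) : ∀ j, j < 99979 → GoodG.{u} par (db j) := by
  have h30201 := checkRangeG_sound parWF r2 pf30200 h30200
  have h30202 := checkRangeG_sound parWF r2 pf30201 h30201
  have h30203 := checkRangeG_sound parWF r2 pf30202 h30202
  have h30204 := checkRangeG_sound parWF r2 pf30203 h30203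
  have h30205 := checkRangeG_sound parWF r2 pf30204 h30204
  have h30206 := checkRangeG_sound parWF r2 pf30205 h30205
  have h30207 := checkRangeG_sound parWF r2 pf30206 h30206
  have h30208 := checkRangeG_sound parWF r2 pf30207 h30207
  have h30209 := checkRangeG_sound parWF r2 pf30208 h30208
  have h30210 := checkRangeG_sound parWF r2 pf30209 h30209
  have h30211 := checkRangeG_sound parWF r2 pf30210 h30210
  have h30212 := checkRangeG_sound parWF r2 pf30211 h30211
  have h30213 := checkRangeG_sound parWF r2 pf30212 h30212
  have h30214 := checkRangeG_sound parWF r2 pf30213 h30213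
  have h30215 := checkRangeG_sound parWF r2 pf30214 h30214
  have h30216 := checkRangeG_sound parWF r2 pf30215 h30215
  have h30217 := checkRangeG_sound parWF r2 pf30216 h30216
  have h30218 := checkRangeG_sound parWF r2 pf30217 h30217
  have h30219 := checkRangeG_sound parWF r2 pf30218 h30218
  have h30220 := checkRangeG_sound parWF r2 pf30219 h30219
  have h30221 := checkRangeG_sound parWF r2 pf30220 h30220
  have h30222 := checkRangeG_sound parWF r2 pf30221 h30221
  have h30223 := checkRangeG_sound parWF r2 pf30222 h30222
  have h30224 := checkRangeG_sound parWF r2 pf30223 h30223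
  have h30225 := checkRangeG_sound parWF r2 pf30224 h30224
  have h30226 := checkRangeG_sound parWF r2 pf30225 h30225
  have h30227 := checkRangeG_sound parWF r2 pf30226 h30226
  have h30228 := checkRangeG_sound parWF r2 pf30227 h30227
  have h30229 := checkRangeG_sound parWF r2 pf30228 h30228
  have h30230 := checkRangeG_sound parWF r2 pf30229 h30229
  have h30231 := checkRangeG_sound parWF r2 pf30230 h30230
  have h30232 := checkRangeG_sound parWF r2 pf30231 h30231
  have h30233 := checkRangeG_sound parWF r2 pf30232 h30232
  have h30234 := checkRangeG_sound parWF r2 pf30233 h30233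
  have h30235 := checkRangeG_sound parWF r2 pf30234 h30234
  have h30236 := checkRangeG_sound parWF r2 pf30235 h30235
  have h30237 := checkRangeG_sound parWF r2 pf30236 h30236
  have h30238 := checkRangeG_sound parWF r2 pf30237 h30237
  have h30239 := checkRangeG_sound parWF r2 pf30238 h30238
  have h30240 := checkRangeG_sound parWF r2 pf30239 h30239
  have h30241 := checkRangeG_sound parWF r2 pf30240 h30240
  have h30242 := checkRangeG_sound parWF r2 pf30241 h30241
  have h30243 := checkRangeG_sound parWF r2 pf30242 h30242
  have h30244 := checkRangeG_sound parWF r2 pf30243 h30243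
  have h30245 := checkRangeG_sound parWF r2 pf30244 h30244
  have h30246 := checkRangeG_sound parWF r2 pf30245 h30245
  have h30247 := checkRangeG_sound parWF r2 pf30246 h30246
  have h30248 := checkRangeG_sound parWF r2 pf30247 h30247
  have h30249 := checkRangeG_sound parWF r2 pf30248 h30248
  have h30250 := checkRangeG_sound parWF r2 pf30249 h30249
  exact h30250

theorem c605 (h30250 : ∀ j, j < 99979 → GoodG.{u} par (db j)) : ∀ j, j < 100172 → GoodG.{u} par (db j) := by
  have h30251 := checkRangeG_sound parWF r2 pf30250 h30250
  have h30252 := checkRangeG_sound parWF r2 pf30251 h30251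
  have h30253 := checkRangeG_sound parWF r2 pf30252 h30252
  have h30254 := checkRangeG_sound parWF r2 pf30253 h30253
  have h30255 := checkRangeG_sound parWF r2 pf30254 h30254
  have h30256 := checkRangeG_sound parWF r2 pf30255 h30255
  have h30257 := checkRangeG_sound parWF r2 pf30256 h30256
  have h30258 := checkRangeG_sound parWF r2 pf30257 h30257
  have h30259 := checkRangeG_sound parWF r2 pf30258 h30258
  have h30260 := checkRangeG_sound parWF r2 pf30259 h30259
  have h30261 := checkRangeG_sound parWF r2 pf30260 h30260
  have h30262 := checkRangeG_sound parWF r2 pf30261 h30261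
  have h30263 := checkRangeG_sound parWF r2 pf30262 h30262
  have h30264 := checkRangeG_sound parWF r2 pf30263 h30263
  have h30265 := checkRangeG_sound parWF r2 pf30264 h30264
  have h30266 := checkRangeG_sound parWF r2 pf30265 h30265
  have h30267 := checkRangeG_sound parWF r2 pf30266 h30266
  have h30268 := checkRangeG_sound parWF r2 pf30267 h30267
  have h30269 := checkRangeG_sound parWF r2 pf30268 h30268
  have h30270 := checkRangeG_sound parWF r2 pf30269 h30269
  have h30271 := checkRangeG_sound parWF r2 pf30270 h30270
  have h30272 := checkRangeG_sound parWF r2 pf30271 h30271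
  have h30273 := checkRangeG_sound parWF r2 pf30272 h30272
  have h30274 := checkRangeG_sound parWF r2 pf30273 h30273
  have h30275 := checkRangeG_sound parWF r2 pf30274 h30274
  have h30276 := checkRangeG_sound parWF r2 pf30275 h30275
  have h30277 := checkRangeG_sound parWF r2 pf30276 h30276
  have h30278 := checkRangeG_sound parWF r2 pf30277 h30277
  have h30279 := checkRangeG_sound parWF r2 pf30278 h30278
  have h30280 := checkRangeG_sound parWF r2 pf30279 h30279
  have h30281 := checkRangeG_sound parWF r2 pf30280 h30280
  have h30282 := checkRangeG_sound parWF r2 pf30281 h30281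
  have h30283 := checkRangeG_sound parWF r2 pf30282 h30282
  have h30284 := checkRangeG_sound parWF r2 pf30283 h30283
  have h30285 := checkRangeG_sound parWF r2 pf30284 h30284
  have h30286 := checkRangeG_sound parWF r2 pf30285 h30285
  have h30287 := checkRangeG_sound parWF r2 pf30286 h30286
  have h30288 := checkRangeG_sound parWF r2 pf30287 h30287
  have h30289 := checkRangeG_sound parWF r2 pf30288 h30288
  have h30290 := checkRangeG_sound parWF r2 pf30289 h30289
  have h30291 := checkRangeG_sound parWF r2 pf30290 h30290
  have h30292 := checkRangeG_sound parWF r2 pf30291 h30291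
  have h30293 := checkRangeG_sound parWF r2 pf30292 h30292
  have h30294 := checkRangeG_sound parWF r2 pf30293 h30293
  have h30295 := checkRangeG_sound parWF r2 pf30294 h30294
  have h30296 := checkRangeG_sound parWF r2 pf30295 h30295
  have h30297 := checkRangeG_sound parWF r2 pf30296 h30296
  have h30298 := checkRangeG_sound parWF r2 pf30297 h30297
  have h30299 := checkRangeG_sound parWF r2 pf30298 h30298
  have h30300 := checkRangeG_sound parWF r2 pf30299 h30299
  exact h30300

theorem c606 (h30300 : ∀ j, j < 100172 → GoodG.{u} par (db j)) : ∀ j, j < 100356 → GoodG.{u} par (db j) := by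
  have h30301 := checkRangeG_sound parWF r2 pf30300 h30300
  have h30302 := checkRangeG_sound parWF r2 pf30301 h30301
  have h30303 := checkRangeG_sound parWF r2 pf30302 h30302
  have h30304 := checkRangeG_sound parWF r2 pf30303 h30303
  have h30305 := checkRangeG_sound parWF r2 pf30304 h30304
  have h30306 := checkRangeG_sound parWF r2 pf30305 h30305
  have h30307 := checkRangeG_sound parWF r2 pf30306 h30306
  have h30308 := checkRangeG_sound parWF r2 pf30307 h30307
  have h30309 := checkRangeG_sound parWF r2 pf30308 h30308
  have h30310 := checkRangeG_sound parWF r2 pf30309 h30309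
  have h30311 := checkRangeG_sound parWF r2 pf30310 h30310
  have h30312 := checkRangeG_sound parWF r2 pf30311 h30311
  have h30313 := checkRangeG_sound parWF r2 pf30312 h30312
  have h30314 := checkRangeG_sound parWF r2 pf30313 h30313
  have h30315 := checkRangeG_sound parWF r2 pf30314 h30314
  have h30316 := checkRangeG_sound parWF r2 pf30315 h30315
  have h30317 := checkRangeG_sound parWF r2 pf30316 h30316
  have h30318 := checkRangeG_sound parWF r2 pf30317 h30317
  have h30319 := checkRangeG_sound parWF r2 pf30318 h30318
  have h30320 := checkRangeG_sound parWF r2 pf30319 h30319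
  have h30321 := checkRangeG_sound parWF r2 pf30320 h30320
  have h30322 := checkRangeG_sound parWF r2 pf30321 h30321
  have h30323 := checkRangeG_sound parWF r2 pf30322 h30322
  have h30324 := checkRangeG_sound parWF r2 pf30323 h30323
  have h30325 := checkRangeG_sound parWF r2 pf30324 h30324
  have h30326 := checkRangeG_sound parWF r2 pf30325 h30325
  have h30327 := checkRangeG_sound parWF r2 pf30326 h30326
  have h30328 := checkRangeG_sound parWF r2 pf30327 h30327
  have h30329 := checkRangeG_sound parWF r2 pf30328 h30328
  have h30330 := checkRangeG_sound parWF r2 pf30329 h30329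
  have h30331 := checkRangeG_sound parWF r2 pf30330 h30330
  have h30332 := checkRangeG_sound parWF r2 pf30331 h30331
  have h30333 := checkRangeG_sound parWF r2 pf30332 h30332
  have h30334 := checkRangeG_sound parWF r2 pf30333 h30333
  have h30335 := checkRangeG_sound parWF r2 pf30334 h30334
  have h30336 := checkRangeG_sound parWF r2 pf30335 h30335
  have h30337 := checkRangeG_sound parWF r2 pf30336 h30336
  have h30338 := checkRangeG_sound parWF r2 pf30337 h30337
  have h30339 := checkRangeG_sound parWF r2 pf30338 h30338
  have h30340 := checkRangeG_sound parWF r2 pf30339 h30339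
  have h30341 := checkRangeG_sound parWF r2 pf30340 h30340
  have h30342 := checkRangeG_sound parWF r2 pf30341 h30341
  have h30343 := checkRangeG_sound parWF r2 pf30342 h30342
  have h30344 := checkRangeG_sound parWF r2 pf30343 h30343
  have h30345 := checkRangeG_sound parWF r2 pf30344 h30344
  have h30346 := checkRangeG_sound parWF r2 pf30345 h30345
  have h30347 := checkRangeG_sound parWF r2 pf30346 h30346
  have h30348 := checkRangeG_sound parWF r2 pf30347 h30347
  have h30349 := checkRangeG_sound parWF r2 pf30348 h30348
  have h30350 := checkRangeG_sound parWF r2 pf30349 h30349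
  exact h30350

theorem c607 (h30350 : ∀ j, j < 100356 → GoodG.{u} par (db j)) : ∀ j, j < 100536 → GoodG.{u} par (db j) := by
  have h30351 := checkRangeG_sound parWF r2 pf30350 h30350
  have h30352 := checkRangeG_sound parWF r2 pf30351 h30351
  have h30353 := checkRangeG_sound parWF r2 pf30352 h30352
  have h30354 := checkRangeG_sound parWF r2 pf30353 h30353
  have h30355 := checkRangeG_sound parWF r2 pf30354 h30354
  have h30356 := checkRangeG_sound parWF r2 pf30355 h30355
  have h30357 := checkRangeG_sound parWF r2 pf30356 h30356
  have h30358 := checkRangeG_sound parWF r2 pf30357 h30357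
  have h30359 := checkRangeG_sound parWF r2 pf30358 h30358
  have h30360 := checkRangeG_sound parWF r2 pf30359 h30359
  have h30361 := checkRangeG_sound parWF r2 pf30360 h30360
  have h30362 := checkRangeG_sound parWF r2 pf30361 h30361
  have h30363 := checkRangeG_sound parWF r2 pf30362 h30362
  have h30364 := checkRangeG_sound parWF r2 pf30363 h30363
  have h30365 := checkRangeG_sound parWF r2 pf30364 h30364
  have h30366 := checkRangeG_sound parWF r2 pf30365 h30365
  have h30367 := checkRangeG_sound parWF r2 pf30366 h30366
  have h30368 := checkRangeG_sound parWF r2 pf30367 h30367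
  have h30369 := checkRangeG_sound parWF r2 pf30368 h30368
  have h30370 := checkRangeG_sound parWF r2 pf30369 h30369
  have h30371 := checkRangeG_sound parWF r2 pf30370 h30370
  have h30372 := checkRangeG_sound parWF r2 pf30371 h30371
  have h30373 := checkRangeG_sound parWF r2 pf30372 h30372
  have h30374 := checkRangeG_sound parWF r2 pf30373 h30373
  have h30375 := checkRangeG_sound parWF r2 pf30374 h30374
  have h30376 := checkRangeG_sound parWF r2 pf30375 h30375
  have h30377 := checkRangeG_sound parWF r2 pf30376 h30376
  have h30378 := checkRangeG_sound parWF r2 pf30377 h30377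
  have h30379 := checkRangeG_sound parWF r2 pf30378 h30378
  have h30380 := checkRangeG_sound parWF r2 pf30379 h30379
  have h30381 := checkRangeG_sound parWF r2 pf30380 h30380
  have h30382 := checkRangeG_sound parWF r2 pf30381 h30381
  have h30383 := checkRangeG_sound parWF r2 pf30382 h30382
  have h30384 := checkRangeG_sound parWF r2 pf30383 h30383
  have h30385 := checkRangeG_sound parWF r2 pf30384 h30384
  have h30386 := checkRangeG_sound parWF r2 pf30385 h30385
  have h30387 := checkRangeG_sound parWF r2 pf30386 h30386
  have h30388 := checkRangeG_sound parWF r2 pf30387 h30387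
  have h30389 := checkRangeG_sound parWF r2 pf30388 h30388
  have h30390 := checkRangeG_sound parWF r2 pf30389 h30389
  have h30391 := checkRangeG_sound parWF r2 pf30390 h30390
  have h30392 := checkRangeG_sound parWF r2 pf30391 h30391
  have h30393 := checkRangeG_sound parWF r2 pf30392 h30392
  have h30394 := checkRangeG_sound parWF r2 pf30393 h30393
  have h30395 := checkRangeG_sound parWF r2 pf30394 h30394
  have h30396 := checkRangeG_sound parWF r2 pf30395 h30395
  have h30397 := checkRangeG_sound parWF r2 pf30396 h30396
  have h30398 := checkRangeG_sound parWF r2 pf30397 h30397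
  have h30399 := checkRangeG_sound parWF r2 pf30398 h30398
  have h30400 := checkRangeG_sound parWF r2 pf30399 h30399
  exact h30400

theorem c608 (h30400 : ∀ j, j < 100536 → GoodG.{u} par (db j)) : ∀ j, j < 100715 → GoodG.{u} par (db j) := by
  have h30401 := checkRangeG_sound parWF r2 pf30400 h30400
  have h30402 := checkRangeG_sound parWF r2 pf30401 h30401
  have h30403 := checkRangeG_sound parWF r2 pf30402 h30402
  have h30404 := checkRangeG_sound parWF r2 pf30403 h30403
  have h30405 := checkRangeG_sound parWF r2 pf30404 h30404
  have h30406 := checkRangeG_sound parWF r2 pf30405 h30405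
  have h30407 := checkRangeG_sound parWF r2 pf30406 h30406
  have h30408 := checkRangeG_sound parWF r2 pf30407 h30407
  have h30409 := checkRangeG_sound parWF r2 pf30408 h30408
  have h30410 := checkRangeG_sound parWF r2 pf30409 h30409
  have h30411 := checkRangeG_sound parWF r2 pf30410 h30410
  have h30412 := checkRangeG_sound parWF r2 pf30411 h30411
  have h30413 := checkRangeG_sound parWF r2 pf30412 h30412
  have h30414 := checkRangeG_sound parWF r2 pf30413 h30413
  have h30415 := checkRangeG_sound parWF r2 pf30414 h30414
  have h30416 := checkRangeG_sound parWF r2 pf30415 h30415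
  have h30417 := checkRangeG_sound parWF r2 pf30416 h30416
  have h30418 := checkRangeG_sound parWF r2 pf30417 h30417
  have h30419 := checkRangeG_sound parWF r2 pf30418 h30418
  have h30420 := checkRangeG_sound parWF r2 pf30419 h30419
  have h30421 := checkRangeG_sound parWF r2 pf30420 h30420
  have h30422 := checkRangeG_sound parWF r2 pf30421 h30421
  have h30423 := checkRangeG_sound parWF r2 pf30422 h30422
  have h30424 := checkRangeG_sound parWF r2 pf30423 h30423
  have h30425 := checkRangeG_sound parWF r2 pf30424 h30424
  have h30426 := checkRangeG_sound parWF r2 pf30425 h30425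
  have h30427 := checkRangeG_sound parWF r2 pf30426 h30426
  have h30428 := checkRangeG_sound parWF r2 pf30427 h30427
  have h30429 := checkRangeG_sound parWF r2 pf30428 h30428
  have h30430 := checkRangeG_sound parWF r2 pf30429 h30429
  have h30431 := checkRangeG_sound parWF r2 pf30430 h30430
  have h30432 := checkRangeG_sound parWF r2 pf30431 h30431
  have h30433 := checkRangeG_sound parWF r2 pf30432 h30432
  have h30434 := checkRangeG_sound parWF r2 pf30433 h30433
  have h30435 := checkRangeG_sound parWF r2 pf30434 h30434
  have h30436 := checkRangeG_sound parWF r2 pf30435 h30435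
  have h30437 := checkRangeG_sound parWF r2 pf30436 h30436
  have h30438 := checkRangeG_sound parWF r2 pf30437 h30437
  have h30439 := checkRangeG_sound parWF r2 pf30438 h30438
  have h30440 := checkRangeG_sound parWF r2 pf30439 h30439
  have h30441 := checkRangeG_sound parWF r2 pf30440 h30440
  have h30442 := checkRangeG_sound parWF r2 pf30441 h30441
  have h30443 := checkRangeG_sound parWF r2 pf30442 h30442
  have h30444 := checkRangeG_sound parWF r2 pf30443 h30443
  have h30445 := checkRangeG_sound parWF r2 pf30444 h30444
  have h30446 := checkRangeG_sound parWF r2 pf30445 h30445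
  have h30447 := checkRangeG_sound parWF r2 pf30446 h30446
  have h30448 := checkRangeG_sound parWF r2 pf30447 h30447
  have h30449 := checkRangeG_sound parWF r2 pf30448 h30448
  have h30450 := checkRangeG_sound parWF r2 pf30449 h30449
  exact h30450

theorem c609 (h30450 : ∀ j, j < 100715 → GoodG.{u} par (db j)) : ∀ j, j < 100896 → GoodG.{u} par (db j) := by
  have h30451 := checkRangeG_sound parWF r2 pf30450 h30450
  have h30452 := checkRangeG_sound parWF r2 pf30451 h30451
  have h30453 := checkRangeG_sound parWF r2 pf30452 h30452
  have h30454 := checkRangeG_sound parWF r2 pf30453 h30453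
  have h30455 := checkRangeG_sound parWF r2 pf30454 h30454
  have h30456 := checkRangeG_sound parWF r2 pf30455 h30455
  have h30457 := checkRangeG_sound parWF r2 pf30456 h30456
  have h30458 := checkRangeG_sound parWF r2 pf30457 h30457
  have h30459 := checkRangeG_sound parWF r2 pf30458 h30458
  have h30460 := checkRangeG_sound parWF r2 pf30459 h30459
  have h30461 := checkRangeG_sound parWF r2 pf30460 h30460
  have h30462 := checkRangeG_sound parWF r2 pf30461 h30461
  have h30463 := checkRangeG_sound parWF r2 pf30462 h30462
  have h30464 := checkRangeG_sound parWF r2 pf30463 h30463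
  have h30465 := checkRangeG_sound parWF r2 pf30464 h30464
  have h30466 := checkRangeG_sound parWF r2 pf30465 h30465
  have h30467 := checkRangeG_sound parWF r2 pf30466 h30466
  have h30468 := checkRangeG_sound parWF r2 pf30467 h30467
  have h30469 := checkRangeG_sound parWF r2 pf30468 h30468
  have h30470 := checkRangeG_sound parWF r2 pf30469 h30469
  have h30471 := checkRangeG_sound parWF r2 pf30470 h30470
  have h30472 := checkRangeG_sound parWF r2 pf30471 h30471
  have h30473 := checkRangeG_sound parWF r2 pf30472 h30472
  have h30474 := checkRangeG_sound parWF r2 pf30473 h30473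
  have h30475 := checkRangeG_sound parWF r2 pf30474 h30474
  have h30476 := checkRangeG_sound parWF r2 pf30475 h30475
  have h30477 := checkRangeG_sound parWF r2 pf30476 h30476
  have h30478 := checkRangeG_sound parWF r2 pf30477 h30477
  have h30479 := checkRangeG_sound parWF r2 pf30478 h30478
  have h30480 := checkRangeG_sound parWF r2 pf30479 h30479
  have h30481 := checkRangeG_sound parWF r2 pf30480 h30480
  have h30482 := checkRangeG_sound parWF r2 pf30481 h30481
  have h30483 := checkRangeG_sound parWF r2 pf30482 h30482
  have h30484 := checkRangeG_sound parWF r2 pf30483 h30483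
  have h30485 := checkRangeG_sound parWF r2 pf30484 h30484
  have h30486 := checkRangeG_sound parWF r2 pf30485 h30485
  have h30487 := checkRangeG_sound parWF r2 pf30486 h30486
  have h30488 := checkRangeG_sound parWF r2 pf30487 h30487
  have h30489 := checkRangeG_sound parWF r2 pf30488 h30488
  have h30490 := checkRangeG_sound parWF r2 pf30489 h30489
  have h30491 := checkRangeG_sound parWF r2 pf30490 h30490
  have h30492 := checkRangeG_sound parWF r2 pf30491 h30491
  have h30493 := checkRangeG_sound parWF r2 pf30492 h30492
  have h30494 := checkRangeG_sound parWF r2 pf30493 h30493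
  have h30495 := checkRangeG_sound parWF r2 pf30494 h30494
  have h30496 := checkRangeG_sound parWF r2 pf30495 h30495
  have h30497 := checkRangeG_sound parWF r2 pf30496 h30496
  have h30498 := checkRangeG_sound parWF r2 pf30497 h30497
  have h30499 := checkRangeG_sound parWF r2 pf30498 h30498
  have h30500 := checkRangeG_sound parWF r2 pf30499 h30499
  exact h30500

theorem c610 (h30500 : ∀ j, j < 100896 → GoodG.{u} par (db j)) : ∀ j, j < 101089 → GoodG.{u} par (db j) := by
  have h30501 := checkRangeG_sound parWF r2 pf30500 h30500
  have h30502 := checkRangeG_sound parWF r2 pf30501 h30501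
  have h30503 := checkRangeG_sound parWF r2 pf30502 h30502
  have h30504 := checkRangeG_sound parWF r2 pf30503 h30503
  have h30505 := checkRangeG_sound parWF r2 pf30504 h30504
  have h30506 := checkRangeG_sound parWF r2 pf30505 h30505
  have h30507 := checkRangeG_sound parWF r2 pf30506 h30506
  have h30508 := checkRangeG_sound parWF r2 pf30507 h30507
  have h30509 := checkRangeG_sound parWF r2 pf30508 h30508
  have h30510 := checkRangeG_sound parWF r2 pf30509 h30509
  have h30511 := checkRangeG_sound parWF r2 pf30510 h30510
  have h30512 := checkRangeG_sound parWF r2 pf30511 h30511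
  have h30513 := checkRangeG_sound parWF r2 pf30512 h30512
  have h30514 := checkRangeG_sound parWF r2 pf30513 h30513
  have h30515 := checkRangeG_sound parWF r2 pf30514 h30514
  have h30516 := checkRangeG_sound parWF r2 pf30515 h30515
  have h30517 := checkRangeG_sound parWF r2 pf30516 h30516
  have h30518 := checkRangeG_sound parWF r2 pf30517 h30517
  have h30519 := checkRangeG_sound parWF r2 pf30518 h30518
  have h30520 := checkRangeG_sound parWF r2 pf30519 h30519
  have h30521 := checkRangeG_sound parWF r2 pf30520 h30520
  have h30522 := checkRangeG_sound parWF r2 pf30521 h30521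
  have h30523 := checkRangeG_sound parWF r2 pf30522 h30522
  have h30524 := checkRangeG_sound parWF r2 pf30523 h30523
  have h30525 := checkRangeG_sound parWF r2 pf30524 h30524
  have h30526 := checkRangeG_sound parWF r2 pf30525 h30525
  have h30527 := checkRangeG_sound parWF r2 pf30526 h30526
  have h30528 := checkRangeG_sound parWF r2 pf30527 h30527
  have h30529 := checkRangeG_sound parWF r2 pf30528 h30528
  have h30530 := checkRangeG_sound parWF r2 pf30529 h30529
  have h30531 := checkRangeG_sound parWF r2 pf30530 h30530
  have h30532 := checkRangeG_sound parWF r2 pf30531 h30531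
  have h30533 := checkRangeG_sound parWF r2 pf30532 h30532
  have h30534 := checkRangeG_sound parWF r2 pf30533 h30533
  have h30535 := checkRangeG_sound parWF r2 pf30534 h30534
  have h30536 := checkRangeG_sound parWF r2 pf30535 h30535
  have h30537 := checkRangeG_sound parWF r2 pf30536 h30536
  have h30538 := checkRangeG_sound parWF r2 pf30537 h30537
  have h30539 := checkRangeG_sound parWF r2 pf30538 h30538
  have h30540 := checkRangeG_sound parWF r2 pf30539 h30539
  have h30541 := checkRangeG_sound parWF r2 pf30540 h30540
  have h30542 := checkRangeG_sound parWF r2 pf30541 h30541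
  have h30543 := checkRangeG_sound parWF r2 pf30542 h30542
  have h30544 := checkRangeG_sound parWF r2 pf30543 h30543
  have h30545 := checkRangeG_sound parWF r2 pf30544 h30544
  have h30546 := checkRangeG_sound parWF r2 pf30545 h30545
  have h30547 := checkRangeG_sound parWF r2 pf30546 h30546
  have h30548 := checkRangeG_sound parWF r2 pf30547 h30547
  have h30549 := checkRangeG_sound parWF r2 pf30548 h30548
  have h30550 := checkRangeG_sound parWF r2 pf30549 h30549
  exact h30550

theorem c611 (h30550 : ∀ j, j < 101089 → GoodG.{u} par (db j)) : ∀ j, j < 101294 → GoodG.{u} par (db j) := by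
  have h30551 := checkRangeG_sound parWF r2 pf30550 h30550
  have h30552 := checkRangeG_sound parWF r2 pf30551 h30551
  have h30553 := checkRangeG_sound parWF r2 pf30552 h30552
  have h30554 := checkRangeG_sound parWF r2 pf30553 h30553
  have h30555 := checkRangeG_sound parWF r2 pf30554 h30554
  have h30556 := checkRangeG_sound parWF r2 pf30555 h30555
  have h30557 := checkRangeG_sound parWF r2 pf30556 h30556
  have h30558 := checkRangeG_sound parWF r2 pf30557 h30557
  have h30559 := checkRangeG_sound parWF r2 pf30558 h30558
  have h30560 := checkRangeG_sound parWF r2 pf30559 h30559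
  have h30561 := checkRangeG_sound parWF r2 pf30560 h30560
  have h30562 := checkRangeG_sound parWF r2 pf30561 h30561
  have h30563 := checkRangeG_sound parWF r2 pf30562 h30562
  have h30564 := checkRangeG_sound parWF r2 pf30563 h30563
  have h30565 := checkRangeG_sound parWF r2 pf30564 h30564
  have h30566 := checkRangeG_sound parWF r2 pf30565 h30565
  have h30567 := checkRangeG_sound parWF r2 pf30566 h30566
  have h30568 := checkRangeG_sound parWF r2 pf30567 h30567
  have h30569 := checkRangeG_sound parWF r2 pf30568 h30568
  have h30570 := checkRangeG_sound parWF r2 pf30569 h30569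
  have h30571 := checkRangeG_sound parWF r2 pf30570 h30570
  have h30572 := checkRangeG_sound parWF r2 pf30571 h30571
  have h30573 := checkRangeG_sound parWF r2 pf30572 h30572
  have h30574 := checkRangeG_sound parWF r2 pf30573 h30573
  have h30575 := checkRangeG_sound parWF r2 pf30574 h30574
  have h30576 := checkRangeG_sound parWF r2 pf30575 h30575
  have h30577 := checkRangeG_sound parWF r2 pf30576 h30576
  have h30578 := checkRangeG_sound parWF r2 pf30577 h30577
  have h30579 := checkRangeG_sound parWF r2 pf30578 h30578
  have h30580 := checkRangeG_sound parWF r2 pf30579 h30579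
  have h30581 := checkRangeG_sound parWF r2 pf30580 h30580
  have h30582 := checkRangeG_sound parWF r2 pf30581 h30581
  have h30583 := checkRangeG_sound parWF r2 pf30582 h30582
  have h30584 := checkRangeG_sound parWF r2 pf30583 h30583
  have h30585 := checkRangeG_sound parWF r2 pf30584 h30584
  have h30586 := checkRangeG_sound parWF r2 pf30585 h30585
  have h30587 := checkRangeG_sound parWF r2 pf30586 h30586
  have h30588 := checkRangeG_sound parWF r2 pf30587 h30587
  have h30589 := checkRangeG_sound parWF r2 pf30588 h30588
  have h30590 := checkRangeG_sound parWF r2 pf30589 h30589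
  have h30591 := checkRangeG_sound parWF r2 pf30590 h30590
  have h30592 := checkRangeG_sound parWF r2 pf30591 h30591
  have h30593 := checkRangeG_sound parWF r2 pf30592 h30592
  have h30594 := checkRangeG_sound parWF r2 pf30593 h30593
  have h30595 := checkRangeG_sound parWF r2 pf30594 h30594
  have h30596 := checkRangeG_sound parWF r2 pf30595 h30595
  have h30597 := checkRangeG_sound parWF r2 pf30596 h30596
  have h30598 := checkRangeG_sound parWF r2 pf30597 h30597
  have h30599 := checkRangeG_sound parWF r2 pf30598 h30598
  have h30600 := checkRangeG_sound parWF r2 pf30599 h30599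
  exact h30600


end Vale.Agent.P045g.C61
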