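import Vale.Agent.P045g.C61.WF
import Vale.Agent.P045g.C61.Pf510
import Vale.Agent.P045g.C61.Pf511
import Vale.Agent.P045g.C61.Pf512
import Vale.Agent.P045g.C61.Pf513
import Vale.Agent.P045g.C61.Pf514
import Vale.Agent.P045g.C61.Pf515
import Vale.Agent.P045g.C61.Pf516
import Vale.Agent.P045g.C61.Pf517
import Vale.Agent.P045g.C61.Pf518
import Vale.Agent.P045g.C61.Pf519

namespace Vale.Agent.P045g.C61

open Vale.Agent.P045b Vale.Agent.P045g

universe u

theorem c612 (h30600 : ∀ j, j < 101294 → GoodG.{u} par (db j)) : ∀ j, j < 101501 → GoodG.{u} par (db j) := by
  have h30601 := checkRangeG_sound parWF r2 pf30600 h30600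
  have h30602 := checkRangeG_sound parWF r2 pf30601 h30601
  have h30603 := checkRangeG_sound parWF r2 pf30602 h30602
  have h30604 := checkRangeG_sound parWF r2 pf30603 h30603
  have h30605 := checkRangeG_sound parWF r2 pf30604 h30604
  have h30606 := checkRangeG_sound parWF r2 pf30605 h30605
  have h30607 := checkRangeG_sound parWF r2 pf30606 h30606
  have h30608 := checkRangeG_sound parWF r2 pf30607 h30607
  have h30609 := checkRangeG_sound parWF r2 pf30608 h30608
  have h30610 := checkRangeG_sound parWF r2 pf30609 h30609
  have h30611 := checkRangeG_sound parWF r2 pf30610 h30610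
  have h30612 := checkRangeG_sound parWF r2 pf30611 h30611
  have h30613 := checkRangeG_sound parWF r2 pf30612 h30612
  have h30614 := checkRangeG_sound parWF r2 pf30613 h30613
  have h30615 := checkRangeG_sound parWF r2 pf30614 h30614
  have h30616 := checkRangeG_sound parWF r2 pf30615 h30615
  have h30617 := checkRangeG_sound parWF r2 pf30616 h30616
  have h30618 := checkRangeG_sound parWF r2 pf30617 h30617
  have h30619 := checkRangeG_sound parWF r2 pf30618 h30618
  have h30620 := checkRangeG_sound parWF r2 pf30619 h30619
  have h30621 := checkRangeG_sound parWF r2 pf30620 h30620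
  have h30622 := checkRangeG_sound parWF r2 pf30621 h30621
  have h30623 := checkRangeG_sound parWF r2 pf30622 h30622
  have h30624 := checkRangeG_sound parWF r2 pf30623 h30623
  have h30625 := checkRangeG_sound parWF r2 pf30624 h30624
  have h30626 := checkRangeG_sound parWF r2 pf30625 h30625
  have h30627 := checkRangeG_sound parWF r2 pf30626 h30626
  have h30628 := checkRangeG_sound parWF r2 pf30627 h30627
  have h30629 := checkRangeG_sound parWF r2 pf30628 h30628
  have h30630 := checkRangeG_sound parWF r2 pf30629 h30629
  have h30631 := checkRangeG_sound parWF r2 pf30630 h30630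
  have h30632 := checkRangeG_sound parWF r2 pf30631 h30631
  have h30633 := checkRangeG_sound parWF r2 pf30632 h30632
  have h30634 := checkRangeG_sound parWF r2 pf30633 h30633
  have h30635 := checkRangeG_sound parWF r2 pf30634 h30634
  have h30636 := checkRangeG_sound parWF r2 pf30635 h30635
  have h30637 := checkRangeG_sound parWF r2 pf30636 h30636
  have h30638 := checkRangeG_sound parWF r2 pf30637 h30637
  have h30639 := checkRangeG_sound parWF r2 pf30638 h30638
  have h30640 := checkRangeG_sound parWF r2 pf30639 h30639
  have h30641 := checkRangeG_sound parWF r2 pf30640 h30640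
  have h30642 := checkRangeG_sound parWF r2 pf30641 h30641
  have h30643 := checkRangeG_sound parWF r2 pf30642 h30642
  have h30644 := checkRangeG_sound parWF r2 pf30643 h30643
  have h30645 := checkRangeG_sound parWF r2 pf30644 h30644
  have h30646 := checkRangeG_sound parWF r2 pf30645 h30645
  have h30647 := checkRangeG_sound parWF r2 pf30646 h30646
  have h30648 := checkRangeG_sound parWF r2 pf30647 h30647
  have h30649 := checkRangeG_sound parWF r2 pf30648 h30648
  have h30650 := checkRangeG_sound parWF r2 pf30649 h30649
  exact h30650

theorem c613 (h30650 : ∀ j, j < 101501 → GoodG.{u} par (db j)) : ∀ j, j < 101712 → GoodG.{u} par (db j) := by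
  have h30651 := checkRangeG_sound parWF r2 pf30650 h30650
  have h30652 := checkRangeG_sound parWF r2 pf30651 h30651
  have h30653 := checkRangeG_sound parWF r2 pf30652 h30652
  have h30654 := checkRangeG_sound parWF r2 pf30653 h30653
  have h30655 := checkRangeG_sound parWF r2 pf30654 h30654
  have h30656 := checkRangeG_sound parWF r2 pf30655 h30655
  have h30657 := checkRangeG_sound parWF r2 pf30656 h30656
  have h30658 := checkRangeG_sound parWF r2 pf30657 h30657
  have h30659 := checkRangeG_sound parWF r2 pf30658 h30658
  have h30660 := checkRangeG_sound parWF r2 pf30659 h30659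
  have h30661 := checkRangeG_sound parWF r2 pf30660 h30660
  have h30662 := checkRangeG_sound parWF r2 pf30661 h30661
  have h30663 := checkRangeG_sound parWF r2 pf30662 h30662
  have h30664 := checkRangeG_sound parWF r2 pf30663 h30663
  have h30665 := checkRangeG_sound parWF r2 pf30664 h30664
  have h30666 := checkRangeG_sound parWF r2 pf30665 h30665
  have h30667 := checkRangeG_sound parWF r2 pf30666 h30666
  have h30668 := checkRangeG_sound parWF r2 pf30667 h30667
  have h30669 := checkRangeG_sound parWF r2 pf30668 h30668
  have h30670 := checkRangeG_sound parWF r2 pf30669 h30669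
  have h30671 := checkRangeG_sound parWF r2 pf30670 h30670
  have h30672 := checkRangeG_sound parWF r2 pf30671 h30671
  have h30673 := checkRangeG_sound parWF r2 pf30672 h30672
  have h30674 := checkRangeG_sound parWF r2 pf30673 h30673
  have h30675 := checkRangeG_sound parWF r2 pf30674 h30674
  have h30676 := checkRangeG_sound parWF r2 pf30675 h30675
  have h30677 := checkRangeG_sound parWF r2 pf30676 h30676
  have h30678 := checkRangeG_sound parWF r2 pf30677 h30677
  have h30679 := checkRangeG_sound parWF r2 pf30678 h30678
  have h30680 := checkRangeG_sound parWF r2 pf30679 h30679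
  have h30681 := checkRangeG_sound parWF r2 pf30680 h30680
  have h30682 := checkRangeG_sound parWF r2 pf30681 h30681
  have h30683 := checkRangeG_sound parWF r2 pf30682 h30682
  have h30684 := checkRangeG_sound parWF r2 pf30683 h30683
  have h30685 := checkRangeG_sound parWF r2 pf30684 h30684
  have h30686 := checkRangeG_sound parWF r2 pf30685 h30685
  have h30687 := checkRangeG_sound parWF r2 pf30686 h30686
  have h30688 := checkRangeG_sound parWF r2 pf30687 h30687
  have h30689 := checkRangeG_sound parWF r2 pf30688 h30688
  have h30690 := checkRangeG_sound parWF r2 pf30689 h30689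
  have h30691 := checkRangeG_sound parWF r2 pf30690 h30690
  have h30692 := checkRangeG_sound parWF r2 pf30691 h30691
  have h30693 := checkRangeG_sound parWF r2 pf30692 h30692
  have h30694 := checkRangeG_sound parWF r2 pf30693 h30693
  have h30695 := checkRangeG_sound parWF r2 pf30694 h30694
  have h30696 := checkRangeG_sound parWF r2 pf30695 h30695
  have h30697 := checkRangeG_sound parWF r2 pf30696 h30696
  have h30698 := checkRangeG_sound parWF r2 pf30697 h30697
  have h30699 := checkRangeG_sound parWF r2 pf30698 h30698
  have h30700 := checkRangeG_sound parWF r2 pf30699 h30699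
  exact h30700

theorem c614 (h30700 : ∀ j, j < 101712 → GoodG.{u} par (db j)) : ∀ j, j < 101898 → GoodG.{u} par (db j) := by
  have h30701 := checkRangeG_sound parWF r2 pf30700 h30700
  have h30702 := checkRangeG_sound parWF r2 pf30701 h30701
  have h30703 := checkRangeG_sound parWF r2 pf30702 h30702
  have h30704 := checkRangeG_sound parWF r2 pf30703 h30703
  have h30705 := checkRangeG_sound parWF r2 pf30704 h30704
  have h30706 := checkRangeG_sound parWF r2 pf30705 h30705
  have h30707 := checkRangeG_sound parWF r2 pf30706 h30706
  have h30708 := checkRangeG_sound parWF r2 pf30707 h30707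
  have h30709 := checkRangeG_sound parWF r2 pf30708 h30708
  have h30710 := checkRangeG_sound parWF r2 pf30709 h30709
  have h30711 := checkRangeG_sound parWF r2 pf30710 h30710
  have h30712 := checkRangeG_sound parWF r2 pf30711 h30711
  have h30713 := checkRangeG_sound parWF r2 pf30712 h30712
  have h30714 := checkRangeG_sound parWF r2 pf30713 h30713
  have h30715 := checkRangeG_sound parWF r2 pf30714 h30714
  have h30716 := checkRangeG_sound parWF r2 pf30715 h30715
  have h30717 := checkRangeG_sound parWF r2 pf30716 h30716
  have h30718 := checkRangeG_sound parWF r2 pf30717 h30717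
  have h30719 := checkRangeG_sound parWF r2 pf30718 h30718
  have h30720 := checkRangeG_sound parWF r2 pf30719 h30719
  have h30721 := checkRangeG_sound parWF r2 pf30720 h30720
  have h30722 := checkRangeG_sound parWF r2 pf30721 h30721
  have h30723 := checkRangeG_sound parWF r2 pf30722 h30722
  have h30724 := checkRangeG_sound parWF r2 pf30723 h30723
  have h30725 := checkRangeG_sound parWF r2 pf30724 h30724
  have h30726 := checkRangeG_sound parWF r2 pf30725 h30725
  have h30727 := checkRangeG_sound parWF r2 pf30726 h30726
  have h30728 := checkRangeG_sound parWF r2 pf30727 h30727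
  have h30729 := checkRangeG_sound parWF r2 pf30728 h30728
  have h30730 := checkRangeG_sound parWF r2 pf30729 h30729
  have h30731 := checkRangeG_sound parWF r2 pf30730 h30730
  have h30732 := checkRangeG_sound parWF r2 pf30731 h30731
  have h30733 := checkRangeG_sound parWF r2 pf30732 h30732
  have h30734 := checkRangeG_sound parWF r2 pf30733 h30733
  have h30735 := checkRangeG_sound parWF r2 pf30734 h30734
  have h30736 := checkRangeG_sound parWF r2 pf30735 h30735
  have h30737 := checkRangeG_sound parWF r2 pf30736 h30736
  have h30738 := checkRangeG_sound parWF r2 pf30737 h30737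
  have h30739 := checkRangeG_sound parWF r2 pf30738 h30738
  have h30740 := checkRangeG_sound parWF r2 pf30739 h30739
  have h30741 := checkRangeG_sound parWF r2 pf30740 h30740
  have h30742 := checkRangeG_sound parWF r2 pf30741 h30741
  have h30743 := checkRangeG_sound parWF r2 pf30742 h30742
  have h30744 := checkRangeG_sound parWF r2 pf30743 h30743
  have h30745 := checkRangeG_sound parWF r2 pf30744 h30744
  have h30746 := checkRangeG_sound parWF r2 pf30745 h30745
  have h30747 := checkRangeG_sound parWF r2 pf30746 h30746
  have h30748 := checkRangeG_sound parWF r2 pf30747 h30747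
  have h30749 := checkRangeG_sound parWF r2 pf30748 h30748
  have h30750 := checkRangeG_sound parWF r2 pf30749 h30749
  exact h30750

theorem c615 (h30750 : ∀ j, j < 101898 → GoodG.{u} par (db j)) : ∀ j, j < 102069 → GoodG.{u} par (db j) := by
  have h30751 := checkRangeG_sound parWF r2 pf30750 h30750
  have h30752 := checkRangeG_sound parWF r2 pf30751 h30751
  have h30753 := checkRangeG_sound parWF r2 pf30752 h30752
  have h30754 := checkRangeG_sound parWF r2 pf30753 h30753
  have h30755 := checkRangeG_sound parWF r2 pf30754 h30754
  have h30756 := checkRangeG_sound parWF r2 pf30755 h30755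
  have h30757 := checkRangeG_sound parWF r2 pf30756 h30756
  have h30758 := checkRangeG_sound parWF r2 pf30757 h30757
  have h30759 := checkRangeG_sound parWF r2 pf30758 h30758
  have h30760 := checkRangeG_sound parWF r2 pf30759 h30759
  have h30761 := checkRangeG_sound parWF r2 pf30760 h30760
  have h30762 := checkRangeG_sound parWF r2 pf30761 h30761
  have h30763 := checkRangeG_sound parWF r2 pf30762 h30762
  have h30764 := checkRangeG_sound parWF r2 pf30763 h30763
  have h30765 := checkRangeG_sound parWF r2 pf30764 h30764
  have h30766 := checkRangeG_sound parWF r2 pf30765 h30765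
  have h30767 := checkRangeG_sound parWF r2 pf30766 h30766
  have h30768 := checkRangeG_sound parWF r2 pf30767 h30767
  have h30769 := checkRangeG_sound parWF r2 pf30768 h30768
  have h30770 := checkRangeG_sound parWF r2 pf30769 h30769
  have h30771 := checkRangeG_sound parWF r2 pf30770 h30770
  have h30772 := checkRangeG_sound parWF r2 pf30771 h30771
  have h30773 := checkRangeG_sound parWF r2 pf30772 h30772
  have h30774 := checkRangeG_sound parWF r2 pf30773 h30773
  have h30775 := checkRangeG_sound parWF r2 pf30774 h30774
  have h30776 := checkRangeG_sound parWF r2 pf30775 h30775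
  have h30777 := checkRangeG_sound parWF r2 pf30776 h30776
  have h30778 := checkRangeG_sound parWF r2 pf30777 h30777
  have h30779 := checkRangeG_sound parWF r2 pf30778 h30778
  have h30780 := checkRangeG_sound parWF r2 pf30779 h30779
  have h30781 := checkRangeG_sound parWF r2 pf30780 h30780
  have h30782 := checkRangeG_sound parWF r2 pf30781 h30781
  have h30783 := checkRangeG_sound parWF r2 pf30782 h30782
  have h30784 := checkRangeG_sound parWF r2 pf30783 h30783
  have h30785 := checkRangeG_sound parWF r2 pf30784 h30784
  have h30786 := checkRangeG_sound parWF r2 pf30785 h30785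
  have h30787 := checkRangeG_sound parWF r2 pf30786 h30786
  have h30788 := checkRangeG_sound parWF r2 pf30787 h30787
  have h30789 := checkRangeG_sound parWF r2 pf30788 h30788
  have h30790 := checkRangeG_sound parWF r2 pf30789 h30789
  have h30791 := checkRangeG_sound parWF r2 pf30790 h30790
  have h30792 := checkRangeG_sound parWF r2 pf30791 h30791
  have h30793 := checkRangeG_sound parWF r2 pf30792 h30792
  have h30794 := checkRangeG_sound parWF r2 pf30793 h30793
  have h30795 := checkRangeG_sound parWF r2 pf30794 h30794
  have h30796 := checkRangeG_sound parWF r2 pf30795 h30795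
  have h30797 := checkRangeG_sound parWF r2 pf30796 h30796
  have h30798 := checkRangeG_sound parWF r2 pf30797 h30797
  have h30799 := checkRangeG_sound parWF r2 pf30798 h30798
  have h30800 := checkRangeG_sound parWF r2 pf30799 h30799
  exact h30800

theorem c616 (h30800 : ∀ j, j < 102069 → GoodG.{u} par (db j)) : ∀ j, j < 102250 → GoodG.{u} par (db j) := by
  have h30801 := checkRangeG_sound parWF r2 pf30800 h30800
  have h30802 := checkRangeG_sound parWF r2 pf30801 h30801
  have h30803 := checkRangeG_sound parWF r2 pf30802 h30802
  have h30804 := checkRangeG_sound parWF r2 pf30803 h30803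
  have h30805 := checkRangeG_sound parWF r2 pf30804 h30804
  have h30806 := checkRangeG_sound parWF r2 pf30805 h30805
  have h30807 := checkRangeG_sound parWF r2 pf30806 h30806
  have h30808 := checkRangeG_sound parWF r2 pf30807 h30807
  have h30809 := checkRangeG_sound parWF r2 pf30808 h30808
  have h30810 := checkRangeG_sound parWF r2 pf30809 h30809
  have h30811 := checkRangeG_sound parWF r2 pf30810 h30810
  have h30812 := checkRangeG_sound parWF r2 pf30811 h30811
  have h30813 := checkRangeG_sound parWF r2 pf30812 h30812
  have h30814 := checkRangeG_sound parWF r2 pf30813 h30813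
  have h30815 := checkRangeG_sound parWF r2 pf30814 h30814
  have h30816 := checkRangeG_sound parWF r2 pf30815 h30815
  have h30817 := checkRangeG_sound parWF r2 pf30816 h30816
  have h30818 := checkRangeG_sound parWF r2 pf30817 h30817
  have h30819 := checkRangeG_sound parWF r2 pf30818 h30818
  have h30820 := checkRangeG_sound parWF r2 pf30819 h30819
  have h30821 := checkRangeG_sound parWF r2 pf30820 h30820
  have h30822 := checkRangeG_sound parWF r2 pf30821 h30821
  have h30823 := checkRangeG_sound parWF r2 pf30822 h30822
  have h30824 := checkRangeG_sound parWF r2 pf30823 h30823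
  have h30825 := checkRangeG_sound parWF r2 pf30824 h30824
  have h30826 := checkRangeG_sound parWF r2 pf30825 h30825
  have h30827 := checkRangeG_sound parWF r2 pf30826 h30826
  have h30828 := checkRangeG_sound parWF r2 pf30827 h30827
  have h30829 := checkRangeG_sound parWF r2 pf30828 h30828
  have h30830 := checkRangeG_sound parWF r2 pf30829 h30829
  have h30831 := checkRangeG_sound parWF r2 pf30830 h30830
  have h30832 := checkRangeG_sound parWF r2 pf30831 h30831
  have h30833 := checkRangeG_sound parWF r2 pf30832 h30832
  have h30834 := checkRangeG_sound parWF r2 pf30833 h30833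
  have h30835 := checkRangeG_sound parWF r2 pf30834 h30834
  have h30836 := checkRangeG_sound parWF r2 pf30835 h30835
  have h30837 := checkRangeG_sound parWF r2 pf30836 h30836
  have h30838 := checkRangeG_sound parWF r2 pf30837 h30837
  have h30839 := checkRangeG_sound parWF r2 pf30838 h30838
  have h30840 := checkRangeG_sound parWF r2 pf30839 h30839
  have h30841 := checkRangeG_sound parWF r2 pf30840 h30840
  have h30842 := checkRangeG_sound parWF r2 pf30841 h30841
  have h30843 := checkRangeG_sound parWF r2 pf30842 h30842
  have h30844 := checkRangeG_sound parWF r2 pf30843 h30843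
  have h30845 := checkRangeG_sound parWF r2 pf30844 h30844
  have h30846 := checkRangeG_sound parWF r2 pf30845 h30845
  have h30847 := checkRangeG_sound parWF r2 pf30846 h30846
  have h30848 := checkRangeG_sound parWF r2 pf30847 h30847
  have h30849 := checkRangeG_sound parWF r2 pf30848 h30848
  have h30850 := checkRangeG_sound parWF r2 pf30849 h30849
  exact h30850

theorem c617 (h30850 : ∀ j, j < 102250 → GoodG.{u} par (db j)) : ∀ j, j < 102431 → GoodG.{u} par (db j) := by
  have h30851 := checkRangeG_sound parWF r2 pf30850 h30850
  have h30852 := checkRangeG_sound parWF r2 pf30851 h30851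
  have h30853 := checkRangeG_sound parWF r2 pf30852 h30852
  have h30854 := checkRangeG_sound parWF r2 pf30853 h30853
  have h30855 := checkRangeG_sound parWF r2 pf30854 h30854
  have h30856 := checkRangeG_sound parWF r2 pf30855 h30855
  have h30857 := checkRangeG_sound parWF r2 pf30856 h30856
  have h30858 := checkRangeG_sound parWF r2 pf30857 h30857
  have h30859 := checkRangeG_sound parWF r2 pf30858 h30858
  have h30860 := checkRangeG_sound parWF r2 pf30859 h30859
  have h30861 := checkRangeG_sound parWF r2 pf30860 h30860
  have h30862 := checkRangeG_sound parWF r2 pf30861 h30861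
  have h30863 := checkRangeG_sound parWF r2 pf30862 h30862
  have h30864 := checkRangeG_sound parWF r2 pf30863 h30863
  have h30865 := checkRangeG_sound parWF r2 pf30864 h30864
  have h30866 := checkRangeG_sound parWF r2 pf30865 h30865
  have h30867 := checkRangeG_sound parWF r2 pf30866 h30866
  have h30868 := checkRangeG_sound parWF r2 pf30867 h30867
  have h30869 := checkRangeG_sound parWF r2 pf30868 h30868
  have h30870 := checkRangeG_sound parWF r2 pf30869 h30869
  have h30871 := checkRangeG_sound parWF r2 pf30870 h30870
  have h30872 := checkRangeG_sound parWF r2 pf30871 h30871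
  have h30873 := checkRangeG_sound parWF r2 pf30872 h30872
  have h30874 := checkRangeG_sound parWF r2 pf30873 h30873
  have h30875 := checkRangeG_sound parWF r2 pf30874 h30874
  have h30876 := checkRangeG_sound parWF r2 pf30875 h30875
  have h30877 := checkRangeG_sound parWF r2 pf30876 h30876
  have h30878 := checkRangeG_sound parWF r2 pf30877 h30877
  have h30879 := checkRangeG_sound parWF r2 pf30878 h30878
  have h30880 := checkRangeG_sound parWF r2 pf30879 h30879
  have h30881 := checkRangeG_sound parWF r2 pf30880 h30880
  have h30882 := checkRangeG_sound parWF r2 pf30881 h30881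
  have h30883 := checkRangeG_sound parWF r2 pf30882 h30882
  have h30884 := checkRangeG_sound parWF r2 pf30883 h30883
  have h30885 := checkRangeG_sound parWF r2 pf30884 h30884
  have h30886 := checkRangeG_sound parWF r2 pf30885 h30885
  have h30887 := checkRangeG_sound parWF r2 pf30886 h30886
  have h30888 := checkRangeG_sound parWF r2 pf30887 h30887
  have h30889 := checkRangeG_sound parWF r2 pf30888 h30888
  have h30890 := checkRangeG_sound parWF r2 pf30889 h30889
  have h30891 := checkRangeG_sound parWF r2 pf30890 h30890
  have h30892 := checkRangeG_sound parWF r2 pf30891 h30891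
  have h30893 := checkRangeG_sound parWF r2 pf30892 h30892
  have h30894 := checkRangeG_sound parWF r2 pf30893 h30893
  have h30895 := checkRangeG_sound parWF r2 pf30894 h30894
  have h30896 := checkRangeG_sound parWF r2 pf30895 h30895
  have h30897 := checkRangeG_sound parWF r2 pf30896 h30896
  have h30898 := checkRangeG_sound parWF r2 pf30897 h30897
  have h30899 := checkRangeG_sound parWF r2 pf30898 h30898
  have h30900 := checkRangeG_sound parWF r2 pf30899 h30899
  exact h30900

theorem c618 (h30900 : ∀ j, j < 102431 → GoodG.{u} par (db j)) : ∀ j, j < 102595 → GoodG.{u} par (db j) := by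
  have h30901 := checkRangeG_sound parWF r2 pf30900 h30900
  have h30902 := checkRangeG_sound parWF r2 pf30901 h30901
  have h30903 := checkRangeG_sound parWF r2 pf30902 h30902
  have h30904 := checkRangeG_sound parWF r2 pf30903 h30903
  have h30905 := checkRangeG_sound parWF r2 pf30904 h30904
  have h30906 := checkRangeG_sound parWF r2 pf30905 h30905
  have h30907 := checkRangeG_sound parWF r2 pf30906 h30906
  have h30908 := checkRangeG_sound parWF r2 pf30907 h30907
  have h30909 := checkRangeG_sound parWF r2 pf30908 h30908
  have h30910 := checkRangeG_sound parWF r2 pf30909 h30909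
  have h30911 := checkRangeG_sound parWF r2 pf30910 h30910
  have h30912 := checkRangeG_sound parWF r2 pf30911 h30911
  have h30913 := checkRangeG_sound parWF r2 pf30912 h30912
  have h30914 := checkRangeG_sound parWF r2 pf30913 h30913
  have h30915 := checkRangeG_sound parWF r2 pf30914 h30914
  have h30916 := checkRangeG_sound parWF r2 pf30915 h30915
  have h30917 := checkRangeG_sound parWF r2 pf30916 h30916
  have h30918 := checkRangeG_sound parWF r2 pf30917 h30917
  have h30919 := checkRangeG_sound parWF r2 pf30918 h30918
  have h30920 := checkRangeG_sound parWF r2 pf30919 h30919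
  have h30921 := checkRangeG_sound parWF r2 pf30920 h30920
  have h30922 := checkRangeG_sound parWF r2 pf30921 h30921
  have h30923 := checkRangeG_sound parWF r2 pf30922 h30922
  have h30924 := checkRangeG_sound parWF r2 pf30923 h30923
  have h30925 := checkRangeG_sound parWF r2 pf30924 h30924
  have h30926 := checkRangeG_sound parWF r2 pf30925 h30925
  have h30927 := checkRangeG_sound parWF r2 pf30926 h30926
  have h30928 := checkRangeG_sound parWF r2 pf30927 h30927
  have h30929 := checkRangeG_sound parWF r2 pf30928 h30928
  have h30930 := checkRangeG_sound parWF r2 pf30929 h30929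
  have h30931 := checkRangeG_sound parWF r2 pf30930 h30930
  have h30932 := checkRangeG_sound parWF r2 pf30931 h30931
  have h30933 := checkRangeG_sound parWF r2 pf30932 h30932
  have h30934 := checkRangeG_sound parWF r2 pf30933 h30933
  have h30935 := checkRangeG_sound parWF r2 pf30934 h30934
  have h30936 := checkRangeG_sound parWF r2 pf30935 h30935
  have h30937 := checkRangeG_sound parWF r2 pf30936 h30936
  have h30938 := checkRangeG_sound parWF r2 pf30937 h30937
  have h30939 := checkRangeG_sound parWF r2 pf30938 h30938
  have h30940 := checkRangeG_sound parWF r2 pf30939 h30939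
  have h30941 := checkRangeG_sound parWF r2 pf30940 h30940
  have h30942 := checkRangeG_sound parWF r2 pf30941 h30941
  have h30943 := checkRangeG_sound parWF r2 pf30942 h30942
  have h30944 := checkRangeG_sound parWF r2 pf30943 h30943
  have h30945 := checkRangeG_sound parWF r2 pf30944 h30944
  have h30946 := checkRangeG_sound parWF r2 pf30945 h30945
  have h30947 := checkRangeG_sound parWF r2 pf30946 h30946
  have h30948 := checkRangeG_sound parWF r2 pf30947 h30947
  have h30949 := checkRangeG_sound parWF r2 pf30948 h30948
  have h30950 := checkRangeG_sound parWF r2 pf30949 h30949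
  exact h30950

theorem c619 (h30950 : ∀ j, j < 102595 → GoodG.{u} par (db j)) : ∀ j, j < 102739 → GoodG.{u} par (db j) := by
  have h30951 := checkRangeG_sound parWF r2 pf30950 h30950
  have h30952 := checkRangeG_sound parWF r2 pf30951 h30951
  have h30953 := checkRangeG_sound parWF r2 pf30952 h30952
  have h30954 := checkRangeG_sound parWF r2 pf30953 h30953
  have h30955 := checkRangeG_sound parWF r2 pf30954 h30954
  have h30956 := checkRangeG_sound parWF r2 pf30955 h30955
  have h30957 := checkRangeG_sound parWF r2 pf30956 h30956
  have h30958 := checkRangeG_sound parWF r2 pf30957 h30957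
  have h30959 := checkRangeG_sound parWF r2 pf30958 h30958
  have h30960 := checkRangeG_sound parWF r2 pf30959 h30959
  have h30961 := checkRangeG_sound parWF r2 pf30960 h30960
  have h30962 := checkRangeG_sound parWF r2 pf30961 h30961
  have h30963 := checkRangeG_sound parWF r2 pf30962 h30962
  have h30964 := checkRangeG_sound parWF r2 pf30963 h30963
  have h30965 := checkRangeG_sound parWF r2 pf30964 h30964
  have h30966 := checkRangeG_sound parWF r2 pf30965 h30965
  have h30967 := checkRangeG_sound parWF r2 pf30966 h30966
  have h30968 := checkRangeG_sound parWF r2 pf30967 h30967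
  have h30969 := checkRangeG_sound parWF r2 pf30968 h30968
  have h30970 := checkRangeG_sound parWF r2 pf30969 h30969
  have h30971 := checkRangeG_sound parWF r2 pf30970 h30970
  have h30972 := checkRangeG_sound parWF r2 pf30971 h30971
  have h30973 := checkRangeG_sound parWF r2 pf30972 h30972
  have h30974 := checkRangeG_sound parWF r2 pf30973 h30973
  have h30975 := checkRangeG_sound parWF r2 pf30974 h30974
  have h30976 := checkRangeG_sound parWF r2 pf30975 h30975
  have h30977 := checkRangeG_sound parWF r2 pf30976 h30976
  have h30978 := checkRangeG_sound parWF r2 pf30977 h30977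
  have h30979 := checkRangeG_sound parWF r2 pf30978 h30978
  have h30980 := checkRangeG_sound parWF r2 pf30979 h30979
  have h30981 := checkRangeG_sound parWF r2 pf30980 h30980
  have h30982 := checkRangeG_sound parWF r2 pf30981 h30981
  have h30983 := checkRangeG_sound parWF r2 pf30982 h30982
  have h30984 := checkRangeG_sound parWF r2 pf30983 h30983
  have h30985 := checkRangeG_sound parWF r2 pf30984 h30984
  have h30986 := checkRangeG_sound parWF r2 pf30985 h30985
  have h30987 := checkRangeG_sound parWF r2 pf30986 h30986
  have h30988 := checkRangeG_sound parWF r2 pf30987 h30987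
  have h30989 := checkRangeG_sound parWF r2 pf30988 h30988
  have h30990 := checkRangeG_sound parWF r2 pf30989 h30989
  have h30991 := checkRangeG_sound parWF r2 pf30990 h30990
  have h30992 := checkRangeG_sound parWF r2 pf30991 h30991
  have h30993 := checkRangeG_sound parWF r2 pf30992 h30992
  have h30994 := checkRangeG_sound parWF r2 pf30993 h30993
  have h30995 := checkRangeG_sound parWF r2 pf30994 h30994
  have h30996 := checkRangeG_sound parWF r2 pf30995 h30995
  have h30997 := checkRangeG_sound parWF r2 pf30996 h30996
  have h30998 := checkRangeG_sound parWF r2 pf30997 h30997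
  have h30999 := checkRangeG_sound parWF r2 pf30998 h30998
  have h31000 := checkRangeG_sound parWF r2 pf30999 h30999
  exact h31000

theorem c620 (h31000 : ∀ j, j < 102739 → GoodG.{u} par (db j)) : ∀ j, j < 102904 → GoodG.{u} par (db j) := by
  have h31001 := checkRangeG_sound parWF r2 pf31000 h31000
  have h31002 := checkRangeG_sound parWF r2 pf31001 h31001
  have h31003 := checkRangeG_sound parWF r2 pf31002 h31002
  have h31004 := checkRangeG_sound parWF r2 pf31003 h31003
  have h31005 := checkRangeG_sound parWF r2 pf31004 h31004
  have h31006 := checkRangeG_sound parWF r2 pf31005 h31005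
  have h31007 := checkRangeG_sound parWF r2 pf31006 h31006
  have h31008 := checkRangeG_sound parWF r2 pf31007 h31007
  have h31009 := checkRangeG_sound parWF r2 pf31008 h31008
  have h31010 := checkRangeG_sound parWF r2 pf31009 h31009
  have h31011 := checkRangeG_sound parWF r2 pf31010 h31010
  have h31012 := checkRangeG_sound parWF r2 pf31011 h31011
  have h31013 := checkRangeG_sound parWF r2 pf31012 h31012
  have h31014 := checkRangeG_sound parWF r2 pf31013 h31013
  have h31015 := checkRangeG_sound parWF r2 pf31014 h31014
  have h31016 := checkRangeG_sound parWF r2 pf31015 h31015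
  have h31017 := checkRangeG_sound parWF r2 pf31016 h31016
  have h31018 := checkRangeG_sound parWF r2 pf31017 h31017
  have h31019 := checkRangeG_sound parWF r2 pf31018 h31018
  have h31020 := checkRangeG_sound parWF r2 pf31019 h31019
  have h31021 := checkRangeG_sound parWF r2 pf31020 h31020
  have h31022 := checkRangeG_sound parWF r2 pf31021 h31021
  have h31023 := checkRangeG_sound parWF r2 pf31022 h31022
  have h31024 := checkRangeG_sound parWF r2 pf31023 h31023
  have h31025 := checkRangeG_sound parWF r2 pf31024 h31024
  have h31026 := checkRangeG_sound parWF r2 pf31025 h31025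
  have h31027 := checkRangeG_sound parWF r2 pf31026 h31026
  have h31028 := checkRangeG_sound parWF r2 pf31027 h31027
  have h31029 := checkRangeG_sound parWF r2 pf31028 h31028
  have h31030 := checkRangeG_sound parWF r2 pf31029 h31029
  have h31031 := checkRangeG_sound parWF r2 pf31030 h31030
  have h31032 := checkRangeG_sound parWF r2 pf31031 h31031
  have h31033 := checkRangeG_sound parWF r2 pf31032 h31032
  have h31034 := checkRangeG_sound parWF r2 pf31033 h31033
  have h31035 := checkRangeG_sound parWF r2 pf31034 h31034
  have h31036 := checkRangeG_sound parWF r2 pf31035 h31035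
  have h31037 := checkRangeG_sound parWF r2 pf31036 h31036
  have h31038 := checkRangeG_sound parWF r2 pf31037 h31037
  have h31039 := checkRangeG_sound parWF r2 pf31038 h31038
  have h31040 := checkRangeG_sound parWF r2 pf31039 h31039
  have h31041 := checkRangeG_sound parWF r2 pf31040 h31040
  have h31042 := checkRangeG_sound parWF r2 pf31041 h31041
  have h31043 := checkRangeG_sound parWF r2 pf31042 h31042
  have h31044 := checkRangeG_sound parWF r2 pf31043 h31043
  have h31045 := checkRangeG_sound parWF r2 pf31044 h31044
  have h31046 := checkRangeG_sound parWF r2 pf31045 h31045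
  have h31047 := checkRangeG_sound parWF r2 pf31046 h31046
  have h31048 := checkRangeG_sound parWF r2 pf31047 h31047
  have h31049 := checkRangeG_sound parWF r2 pf31048 h31048
  have h31050 := checkRangeG_sound parWF r2 pf31049 h31049
  exact h31050

theorem c621 (h31050 : ∀ j, j < 102904 → GoodG.{u} par (db j)) : ∀ j, j < 103089 → GoodG.{u} par (db j) := by
  have h31051 := checkRangeG_sound parWF r2 pf31050 h31050
  have h31052 := checkRangeG_sound parWF r2 pf31051 h31051
  have h31053 := checkRangeG_sound parWF r2 pf31052 h31052
  have h31054 := checkRangeG_sound parWF r2 pf31053 h31053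
  have h31055 := checkRangeG_sound parWF r2 pf31054 h31054
  have h31056 := checkRangeG_sound parWF r2 pf31055 h31055
  have h31057 := checkRangeG_sound parWF r2 pf31056 h31056
  have h31058 := checkRangeG_sound parWF r2 pf31057 h31057
  have h31059 := checkRangeG_sound parWF r2 pf31058 h31058
  have h31060 := checkRangeG_sound parWF r2 pf31059 h31059
  have h31061 := checkRangeG_sound parWF r2 pf31060 h31060
  have h31062 := checkRangeG_sound parWF r2 pf31061 h31061
  have h31063 := checkRangeG_sound parWF r2 pf31062 h31062
  have h31064 := checkRangeG_sound parWF r2 pf31063 h31063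
  have h31065 := checkRangeG_sound parWF r2 pf31064 h31064
  have h31066 := checkRangeG_sound parWF r2 pf31065 h31065
  have h31067 := checkRangeG_sound parWF r2 pf31066 h31066
  have h31068 := checkRangeG_sound parWF r2 pf31067 h31067
  have h31069 := checkRangeG_sound parWF r2 pf31068 h31068
  have h31070 := checkRangeG_sound parWF r2 pf31069 h31069
  have h31071 := checkRangeG_sound parWF r2 pf31070 h31070
  have h31072 := checkRangeG_sound parWF r2 pf31071 h31071
  have h31073 := checkRangeG_sound parWF r2 pf31072 h31072
  have h31074 := checkRangeG_sound parWF r2 pf31073 h31073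
  have h31075 := checkRangeG_sound parWF r2 pf31074 h31074
  have h31076 := checkRangeG_sound parWF r2 pf31075 h31075
  have h31077 := checkRangeG_sound parWF r2 pf31076 h31076
  have h31078 := checkRangeG_sound parWF r2 pf31077 h31077
  have h31079 := checkRangeG_sound parWF r2 pf31078 h31078
  have h31080 := checkRangeG_sound parWF r2 pf31079 h31079
  have h31081 := checkRangeG_sound parWF r2 pf31080 h31080
  have h31082 := checkRangeG_sound parWF r2 pf31081 h31081
  have h31083 := checkRangeG_sound parWF r2 pf31082 h31082
  have h31084 := checkRangeG_sound parWF r2 pf31083 h31083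
  have h31085 := checkRangeG_sound parWF r2 pf31084 h31084
  have h31086 := checkRangeG_sound parWF r2 pf31085 h31085
  have h31087 := checkRangeG_sound parWF r2 pf31086 h31086
  have h31088 := checkRangeG_sound parWF r2 pf31087 h31087
  have h31089 := checkRangeG_sound parWF r2 pf31088 h31088
  have h31090 := checkRangeG_sound parWF r2 pf31089 h31089
  have h31091 := checkRangeG_sound parWF r2 pf31090 h31090
  have h31092 := checkRangeG_sound parWF r2 pf31091 h31091
  have h31093 := checkRangeG_sound parWF r2 pf31092 h31092
  have h31094 := checkRangeG_sound parWF r2 pf31093 h31093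
  have h31095 := checkRangeG_sound parWF r2 pf31094 h31094
  have h31096 := checkRangeG_sound parWF r2 pf31095 h31095
  have h31097 := checkRangeG_sound parWF r2 pf31096 h31096
  have h31098 := checkRangeG_sound parWF r2 pf31097 h31097
  have h31099 := checkRangeG_sound parWF r2 pf31098 h31098
  have h31100 := checkRangeG_sound parWF r2 pf31099 h31099
  exact h31100

theorem c622 (h31100 : ∀ j, j < 103089 → GoodG.{u} par (db j)) : ∀ j, j < 103271 → GoodG.{u} par (db j) := by
  have h31101 := checkRangeG_sound parWF r2 pf31100 h31100
  have h31102 := checkRangeG_sound parWF r2 pf31101 h31101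
  have h31103 := checkRangeG_sound parWF r2 pf31102 h31102
  have h31104 := checkRangeG_sound parWF r2 pf31103 h31103
  have h31105 := checkRangeG_sound parWF r2 pf31104 h31104
  have h31106 := checkRangeG_sound parWF r2 pf31105 h31105
  have h31107 := checkRangeG_sound parWF r2 pf31106 h31106
  have h31108 := checkRangeG_sound parWF r2 pf31107 h31107
  have h31109 := checkRangeG_sound parWF r2 pf31108 h31108
  have h31110 := checkRangeG_sound parWF r2 pf31109 h31109
  have h31111 := checkRangeG_sound parWF r2 pf31110 h31110
  have h31112 := checkRangeG_sound parWF r2 pf31111 h31111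
  have h31113 := checkRangeG_sound parWF r2 pf31112 h31112
  have h31114 := checkRangeG_sound parWF r2 pf31113 h31113
  have h31115 := checkRangeG_sound parWF r2 pf31114 h31114
  have h31116 := checkRangeG_sound parWF r2 pf31115 h31115
  have h31117 := checkRangeG_sound parWF r2 pf31116 h31116
  have h31118 := checkRangeG_sound parWF r2 pf31117 h31117
  have h31119 := checkRangeG_sound parWF r2 pf31118 h31118
  have h31120 := checkRangeG_sound parWF r2 pf31119 h31119
  have h31121 := checkRangeG_sound parWF r2 pf31120 h31120
  have h31122 := checkRangeG_sound parWF r2 pf31121 h31121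
  have h31123 := checkRangeG_sound parWF r2 pf31122 h31122
  have h31124 := checkRangeG_sound parWF r2 pf31123 h31123
  have h31125 := checkRangeG_sound parWF r2 pf31124 h31124
  have h31126 := checkRangeG_sound parWF r2 pf31125 h31125
  have h31127 := checkRangeG_sound parWF r2 pf31126 h31126
  have h31128 := checkRangeG_sound parWF r2 pf31127 h31127
  have h31129 := checkRangeG_sound parWF r2 pf31128 h31128
  have h31130 := checkRangeG_sound parWF r2 pf31129 h31129
  have h31131 := checkRangeG_sound parWF r2 pf31130 h31130
  have h31132 := checkRangeG_sound parWF r2 pf31131 h31131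
  have h31133 := checkRangeG_sound parWF r2 pf31132 h31132
  have h31134 := checkRangeG_sound parWF r2 pf31133 h31133
  have h31135 := checkRangeG_sound parWF r2 pf31134 h31134
  have h31136 := checkRangeG_sound parWF r2 pf31135 h31135
  have h31137 := checkRangeG_sound parWF r2 pf31136 h31136
  have h31138 := checkRangeG_sound parWF r2 pf31137 h31137
  have h31139 := checkRangeG_sound parWF r2 pf31138 h31138
  have h31140 := checkRangeG_sound parWF r2 pf31139 h31139
  have h31141 := checkRangeG_sound parWF r2 pf31140 h31140
  have h31142 := checkRangeG_sound parWF r2 pf31141 h31141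
  have h31143 := checkRangeG_sound parWF r2 pf31142 h31142
  have h31144 := checkRangeG_sound parWF r2 pf31143 h31143
  have h31145 := checkRangeG_sound parWF r2 pf31144 h31144
  have h31146 := checkRangeG_sound parWF r2 pf31145 h31145
  have h31147 := checkRangeG_sound parWF r2 pf31146 h31146
  have h31148 := checkRangeG_sound parWF r2 pf31147 h31147
  have h31149 := checkRangeG_sound parWF r2 pf31148 h31148
  have h31150 := checkRangeG_sound parWF r2 pf31149 h31149
  exact h31150

theorem c623 (h31150 : ∀ j, j < 103271 → GoodG.{u} par (db j)) : ∀ j, j < 103433 → GoodG.{u} par (db j) := by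
  have h31151 := checkRangeG_sound parWF r2 pf31150 h31150
  have h31152 := checkRangeG_sound parWF r2 pf31151 h31151
  have h31153 := checkRangeG_sound parWF r2 pf31152 h31152
  have h31154 := checkRangeG_sound parWF r2 pf31153 h31153
  have h31155 := checkRangeG_sound parWF r2 pf31154 h31154
  have h31156 := checkRangeG_sound parWF r2 pf31155 h31155
  have h31157 := checkRangeG_sound parWF r2 pf31156 h31156
  have h31158 := checkRangeG_sound parWF r2 pf31157 h31157
  have h31159 := checkRangeG_sound parWF r2 pf31158 h31158
  have h31160 := checkRangeG_sound parWF r2 pf31159 h31159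
  have h31161 := checkRangeG_sound parWF r2 pf31160 h31160
  have h31162 := checkRangeG_sound parWF r2 pf31161 h31161
  have h31163 := checkRangeG_sound parWF r2 pf31162 h31162
  have h31164 := checkRangeG_sound parWF r2 pf31163 h31163
  have h31165 := checkRangeG_sound parWF r2 pf31164 h31164
  have h31166 := checkRangeG_sound parWF r2 pf31165 h31165
  have h31167 := checkRangeG_sound parWF r2 pf31166 h31166
  have h31168 := checkRangeG_sound parWF r2 pf31167 h31167
  have h31169 := checkRangeG_sound parWF r2 pf31168 h31168
  have h31170 := checkRangeG_sound parWF r2 pf31169 h31169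
  have h31171 := checkRangeG_sound parWF r2 pf31170 h31170
  have h31172 := checkRangeG_sound parWF r2 pf31171 h31171
  have h31173 := checkRangeG_sound parWF r2 pf31172 h31172
  have h31174 := checkRangeG_sound parWF r2 pf31173 h31173
  have h31175 := checkRangeG_sound parWF r2 pf31174 h31174
  have h31176 := checkRangeG_sound parWF r2 pf31175 h31175
  have h31177 := checkRangeG_sound parWF r2 pf31176 h31176
  have h31178 := checkRangeG_sound parWF r2 pf31177 h31177
  have h31179 := checkRangeG_sound parWF r2 pf31178 h31178
  have h31180 := checkRangeG_sound parWF r2 pf31179 h31179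
  have h31181 := checkRangeG_sound parWF r2 pf31180 h31180
  have h31182 := checkRangeG_sound parWF r2 pf31181 h31181
  have h31183 := checkRangeG_sound parWF r2 pf31182 h31182
  have h31184 := checkRangeG_sound parWF r2 pf31183 h31183
  have h31185 := checkRangeG_sound parWF r2 pf31184 h31184
  have h31186 := checkRangeG_sound parWF r2 pf31185 h31185
  have h31187 := checkRangeG_sound parWF r2 pf31186 h31186
  have h31188 := checkRangeG_sound parWF r2 pf31187 h31187
  have h31189 := checkRangeG_sound parWF r2 pf31188 h31188
  have h31190 := checkRangeG_sound parWF r2 pf31189 h31189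
  have h31191 := checkRangeG_sound parWF r2 pf31190 h31190
  have h31192 := checkRangeG_sound parWF r2 pf31191 h31191
  have h31193 := checkRangeG_sound parWF r2 pf31192 h31192
  have h31194 := checkRangeG_sound parWF r2 pf31193 h31193
  have h31195 := checkRangeG_sound parWF r2 pf31194 h31194
  have h31196 := checkRangeG_sound parWF r2 pf31195 h31195
  have h31197 := checkRangeG_sound parWF r2 pf31196 h31196
  have h31198 := checkRangeG_sound parWF r2 pf31197 h31197
  have h31199 := checkRangeG_sound parWF r2 pf31198 h31198
  have h31200 := checkRangeG_sound parWF r2 pf31199 h31199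
  exact h31200


end Vale.Agent.P045g.C61
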