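import Vale.Agent.P045g.C61.WF
import Vale.Agent.P045g.C61.Pf520
import Vale.Agent.P045g.C61.Pf521
import Vale.Agent.P045g.C61.Pf522
import Vale.Agent.P045g.C61.Pf523
import Vale.Agent.P045g.C61.Pf524
import Vale.Agent.P045g.C61.Pf525
import Vale.Agent.P045g.C61.Pf526
import Vale.Agent.P045g.C61.Pf527
import Vale.Agent.P045g.C61.Pf528
import Vale.Agent.P045g.C61.Pf529

namespace Vale.Agent.P045g.C61

open Vale.Agent.P045b Vale.Agent.P045g

universe u

theorem c624 (h31200 : ∀ j, j < 103433 → GoodG.{u} par (db j)) : ∀ j, j < 103590 → GoodG.{u} par (db j) := by
  have h31201 := checkRangeG_sound parWF r2 pf31200 h31200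
  have h31202 := checkRangeG_sound parWF r2 pf31201 h31201
  have h31203 := checkRangeG_sound parWF r2 pf31202 h31202
  have h31204 := checkRangeG_sound parWF r2 pf31203 h31203
  have h31205 := checkRangeG_sound parWF r2 pf31204 h31204
  have h31206 := checkRangeG_sound parWF r2 pf31205 h31205
  have h31207 := checkRangeG_sound parWF r2 pf31206 h31206
  have h31208 := checkRangeG_sound parWF r2 pf31207 h31207
  have h31209 := checkRangeG_sound parWF r2 pf31208 h31208
  have h31210 := checkRangeG_sound parWF r2 pf31209 h31209
  have h31211 := checkRangeG_sound parWF r2 pf31210 h31210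
  have h31212 := checkRangeG_sound parWF r2 pf31211 h31211
  have h31213 := checkRangeG_sound parWF r2 pf31212 h31212
  have h31214 := checkRangeG_sound parWF r2 pf31213 h31213
  have h31215 := checkRangeG_sound parWF r2 pf31214 h31214
  have h31216 := checkRangeG_sound parWF r2 pf31215 h31215
  have h31217 := checkRangeG_sound parWF r2 pf31216 h31216
  have h31218 := checkRangeG_sound parWF r2 pf31217 h31217
  have h31219 := checkRangeG_sound parWF r2 pf31218 h31218
  have h31220 := checkRangeG_sound parWF r2 pf31219 h31219
  have h31221 := checkRangeG_sound parWF r2 pf31220 h31220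
  have h31222 := checkRangeG_sound parWF r2 pf31221 h31221
  have h31223 := checkRangeG_sound parWF r2 pf31222 h31222
  have h31224 := checkRangeG_sound parWF r2 pf31223 h31223
  have h31225 := checkRangeG_sound parWF r2 pf31224 h31224
  have h31226 := checkRangeG_sound parWF r2 pf31225 h31225
  have h31227 := checkRangeG_sound parWF r2 pf31226 h31226
  have h31228 := checkRangeG_sound parWF r2 pf31227 h31227
  have h31229 := checkRangeG_sound parWF r2 pf31228 h31228
  have h31230 := checkRangeG_sound parWF r2 pf31229 h31229
  have h31231 := checkRangeG_sound parWF r2 pf31230 h31230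
  have h31232 := checkRangeG_sound parWF r2 pf31231 h31231
  have h31233 := checkRangeG_sound parWF r2 pf31232 h31232
  have h31234 := checkRangeG_sound parWF r2 pf31233 h31233
  have h31235 := checkRangeG_sound parWF r2 pf31234 h31234
  have h31236 := checkRangeG_sound parWF r2 pf31235 h31235
  have h31237 := checkRangeG_sound parWF r2 pf31236 h31236
  have h31238 := checkRangeG_sound parWF r2 pf31237 h31237
  have h31239 := checkRangeG_sound parWF r2 pf31238 h31238
  have h31240 := checkRangeG_sound parWF r2 pf31239 h31239
  have h31241 := checkRangeG_sound parWF r2 pf31240 h31240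
  have h31242 := checkRangeG_sound parWF r2 pf31241 h31241
  have h31243 := checkRangeG_sound parWF r2 pf31242 h31242
  have h31244 := checkRangeG_sound parWF r2 pf31243 h31243
  have h31245 := checkRangeG_sound parWF r2 pf31244 h31244
  have h31246 := checkRangeG_sound parWF r2 pf31245 h31245
  have h31247 := checkRangeG_sound parWF r2 pf31246 h31246
  have h31248 := checkRangeG_sound parWF r2 pf31247 h31247
  have h31249 := checkRangeG_sound parWF r2 pf31248 h31248
  have h31250 := checkRangeG_sound parWF r2 pf31249 h31249
  exact h31250

theorem c625 (h31250 : ∀ j, j < 103590 → GoodG.{u} par (db j)) : ∀ j, j < 103751 → GoodG.{u} par (db j) := by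
  have h31251 := checkRangeG_sound parWF r2 pf31250 h31250
  have h31252 := checkRangeG_sound parWF r2 pf31251 h31251
  have h31253 := checkRangeG_sound parWF r2 pf31252 h31252
  have h31254 := checkRangeG_sound parWF r2 pf31253 h31253
  have h31255 := checkRangeG_sound parWF r2 pf31254 h31254
  have h31256 := checkRangeG_sound parWF r2 pf31255 h31255
  have h31257 := checkRangeG_sound parWF r2 pf31256 h31256
  have h31258 := checkRangeG_sound parWF r2 pf31257 h31257
  have h31259 := checkRangeG_sound parWF r2 pf31258 h31258
  have h31260 := checkRangeG_sound parWF r2 pf31259 h31259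
  have h31261 := checkRangeG_sound parWF r2 pf31260 h31260
  have h31262 := checkRangeG_sound parWF r2 pf31261 h31261
  have h31263 := checkRangeG_sound parWF r2 pf31262 h31262
  have h31264 := checkRangeG_sound parWF r2 pf31263 h31263
  have h31265 := checkRangeG_sound parWF r2 pf31264 h31264
  have h31266 := checkRangeG_sound parWF r2 pf31265 h31265
  have h31267 := checkRangeG_sound parWF r2 pf31266 h31266
  have h31268 := checkRangeG_sound parWF r2 pf31267 h31267
  have h31269 := checkRangeG_sound parWF r2 pf31268 h31268
  have h31270 := checkRangeG_sound parWF r2 pf31269 h31269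
  have h31271 := checkRangeG_sound parWF r2 pf31270 h31270
  have h31272 := checkRangeG_sound parWF r2 pf31271 h31271
  have h31273 := checkRangeG_sound parWF r2 pf31272 h31272
  have h31274 := checkRangeG_sound parWF r2 pf31273 h31273
  have h31275 := checkRangeG_sound parWF r2 pf31274 h31274
  have h31276 := checkRangeG_sound parWF r2 pf31275 h31275
  have h31277 := checkRangeG_sound parWF r2 pf31276 h31276
  have h31278 := checkRangeG_sound parWF r2 pf31277 h31277
  have h31279 := checkRangeG_sound parWF r2 pf31278 h31278
  have h31280 := checkRangeG_sound parWF r2 pf31279 h31279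
  have h31281 := checkRangeG_sound parWF r2 pf31280 h31280
  have h31282 := checkRangeG_sound parWF r2 pf31281 h31281
  have h31283 := checkRangeG_sound parWF r2 pf31282 h31282
  have h31284 := checkRangeG_sound parWF r2 pf31283 h31283
  have h31285 := checkRangeG_sound parWF r2 pf31284 h31284
  have h31286 := checkRangeG_sound parWF r2 pf31285 h31285
  have h31287 := checkRangeG_sound parWF r2 pf31286 h31286
  have h31288 := checkRangeG_sound parWF r2 pf31287 h31287
  have h31289 := checkRangeG_sound parWF r2 pf31288 h31288
  have h31290 := checkRangeG_sound parWF r2 pf31289 h31289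
  have h31291 := checkRangeG_sound parWF r2 pf31290 h31290
  have h31292 := checkRangeG_sound parWF r2 pf31291 h31291
  have h31293 := checkRangeG_sound parWF r2 pf31292 h31292
  have h31294 := checkRangeG_sound parWF r2 pf31293 h31293
  have h31295 := checkRangeG_sound parWF r2 pf31294 h31294
  have h31296 := checkRangeG_sound parWF r2 pf31295 h31295
  have h31297 := checkRangeG_sound parWF r2 pf31296 h31296
  have h31298 := checkRangeG_sound parWF r2 pf31297 h31297
  have h31299 := checkRangeG_sound parWF r2 pf31298 h31298
  have h31300 := checkRangeG_sound parWF r2 pf31299 h31299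
  exact h31300

theorem c626 (h31300 : ∀ j, j < 103751 → GoodG.{u} par (db j)) : ∀ j, j < 103913 → GoodG.{u} par (db j) := by
  have h31301 := checkRangeG_sound parWF r2 pf31300 h31300
  have h31302 := checkRangeG_sound parWF r2 pf31301 h31301
  have h31303 := checkRangeG_sound parWF r2 pf31302 h31302
  have h31304 := checkRangeG_sound parWF r2 pf31303 h31303
  have h31305 := checkRangeG_sound parWF r2 pf31304 h31304
  have h31306 := checkRangeG_sound parWF r2 pf31305 h31305
  have h31307 := checkRangeG_sound parWF r2 pf31306 h31306
  have h31308 := checkRangeG_sound parWF r2 pf31307 h31307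
  have h31309 := checkRangeG_sound parWF r2 pf31308 h31308
  have h31310 := checkRangeG_sound parWF r2 pf31309 h31309
  have h31311 := checkRangeG_sound parWF r2 pf31310 h31310
  have h31312 := checkRangeG_sound parWF r2 pf31311 h31311
  have h31313 := checkRangeG_sound parWF r2 pf31312 h31312
  have h31314 := checkRangeG_sound parWF r2 pf31313 h31313
  have h31315 := checkRangeG_sound parWF r2 pf31314 h31314
  have h31316 := checkRangeG_sound parWF r2 pf31315 h31315
  have h31317 := checkRangeG_sound parWF r2 pf31316 h31316
  have h31318 := checkRangeG_sound parWF r2 pf31317 h31317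
  have h31319 := checkRangeG_sound parWF r2 pf31318 h31318
  have h31320 := checkRangeG_sound parWF r2 pf31319 h31319
  have h31321 := checkRangeG_sound parWF r2 pf31320 h31320
  have h31322 := checkRangeG_sound parWF r2 pf31321 h31321
  have h31323 := checkRangeG_sound parWF r2 pf31322 h31322
  have h31324 := checkRangeG_sound parWF r2 pf31323 h31323
  have h31325 := checkRangeG_sound parWF r2 pf31324 h31324
  have h31326 := checkRangeG_sound parWF r2 pf31325 h31325
  have h31327 := checkRangeG_sound parWF r2 pf31326 h31326
  have h31328 := checkRangeG_sound parWF r2 pf31327 h31327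
  have h31329 := checkRangeG_sound parWF r2 pf31328 h31328
  have h31330 := checkRangeG_sound parWF r2 pf31329 h31329
  have h31331 := checkRangeG_sound parWF r2 pf31330 h31330
  have h31332 := checkRangeG_sound parWF r2 pf31331 h31331
  have h31333 := checkRangeG_sound parWF r2 pf31332 h31332
  have h31334 := checkRangeG_sound parWF r2 pf31333 h31333
  have h31335 := checkRangeG_sound parWF r2 pf31334 h31334
  have h31336 := checkRangeG_sound parWF r2 pf31335 h31335
  have h31337 := checkRangeG_sound parWF r2 pf31336 h31336
  have h31338 := checkRangeG_sound parWF r2 pf31337 h31337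
  have h31339 := checkRangeG_sound parWF r2 pf31338 h31338
  have h31340 := checkRangeG_sound parWF r2 pf31339 h31339
  have h31341 := checkRangeG_sound parWF r2 pf31340 h31340
  have h31342 := checkRangeG_sound parWF r2 pf31341 h31341
  have h31343 := checkRangeG_sound parWF r2 pf31342 h31342
  have h31344 := checkRangeG_sound parWF r2 pf31343 h31343
  have h31345 := checkRangeG_sound parWF r2 pf31344 h31344
  have h31346 := checkRangeG_sound parWF r2 pf31345 h31345
  have h31347 := checkRangeG_sound parWF r2 pf31346 h31346
  have h31348 := checkRangeG_sound parWF r2 pf31347 h31347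
  have h31349 := checkRangeG_sound parWF r2 pf31348 h31348
  have h31350 := checkRangeG_sound parWF r2 pf31349 h31349
  exact h31350

theorem c627 (h31350 : ∀ j, j < 103913 → GoodG.{u} par (db j)) : ∀ j, j < 104067 → GoodG.{u} par (db j) := by
  have h31351 := checkRangeG_sound parWF r2 pf31350 h31350
  have h31352 := checkRangeG_sound parWF r2 pf31351 h31351
  have h31353 := checkRangeG_sound parWF r2 pf31352 h31352
  have h31354 := checkRangeG_sound parWF r2 pf31353 h31353
  have h31355 := checkRangeG_sound parWF r2 pf31354 h31354
  have h31356 := checkRangeG_sound parWF r2 pf31355 h31355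
  have h31357 := checkRangeG_sound parWF r2 pf31356 h31356
  have h31358 := checkRangeG_sound parWF r2 pf31357 h31357
  have h31359 := checkRangeG_sound parWF r2 pf31358 h31358
  have h31360 := checkRangeG_sound parWF r2 pf31359 h31359
  have h31361 := checkRangeG_sound parWF r2 pf31360 h31360
  have h31362 := checkRangeG_sound parWF r2 pf31361 h31361
  have h31363 := checkRangeG_sound parWF r2 pf31362 h31362
  have h31364 := checkRangeG_sound parWF r2 pf31363 h31363
  have h31365 := checkRangeG_sound parWF r2 pf31364 h31364
  have h31366 := checkRangeG_sound parWF r2 pf31365 h31365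
  have h31367 := checkRangeG_sound parWF r2 pf31366 h31366
  have h31368 := checkRangeG_sound parWF r2 pf31367 h31367
  have h31369 := checkRangeG_sound parWF r2 pf31368 h31368
  have h31370 := checkRangeG_sound parWF r2 pf31369 h31369
  have h31371 := checkRangeG_sound parWF r2 pf31370 h31370
  have h31372 := checkRangeG_sound parWF r2 pf31371 h31371
  have h31373 := checkRangeG_sound parWF r2 pf31372 h31372
  have h31374 := checkRangeG_sound parWF r2 pf31373 h31373
  have h31375 := checkRangeG_sound parWF r2 pf31374 h31374
  have h31376 := checkRangeG_sound parWF r2 pf31375 h31375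
  have h31377 := checkRangeG_sound parWF r2 pf31376 h31376
  have h31378 := checkRangeG_sound parWF r2 pf31377 h31377
  have h31379 := checkRangeG_sound parWF r2 pf31378 h31378
  have h31380 := checkRangeG_sound parWF r2 pf31379 h31379
  have h31381 := checkRangeG_sound parWF r2 pf31380 h31380
  have h31382 := checkRangeG_sound parWF r2 pf31381 h31381
  have h31383 := checkRangeG_sound parWF r2 pf31382 h31382
  have h31384 := checkRangeG_sound parWF r2 pf31383 h31383
  have h31385 := checkRangeG_sound parWF r2 pf31384 h31384
  have h31386 := checkRangeG_sound parWF r2 pf31385 h31385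
  have h31387 := checkRangeG_sound parWF r2 pf31386 h31386
  have h31388 := checkRangeG_sound parWF r2 pf31387 h31387
  have h31389 := checkRangeG_sound parWF r2 pf31388 h31388
  have h31390 := checkRangeG_sound parWF r2 pf31389 h31389
  have h31391 := checkRangeG_sound parWF r2 pf31390 h31390
  have h31392 := checkRangeG_sound parWF r2 pf31391 h31391
  have h31393 := checkRangeG_sound parWF r2 pf31392 h31392
  have h31394 := checkRangeG_sound parWF r2 pf31393 h31393
  have h31395 := checkRangeG_sound parWF r2 pf31394 h31394
  have h31396 := checkRangeG_sound parWF r2 pf31395 h31395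
  have h31397 := checkRangeG_sound parWF r2 pf31396 h31396
  have h31398 := checkRangeG_sound parWF r2 pf31397 h31397
  have h31399 := checkRangeG_sound parWF r2 pf31398 h31398
  have h31400 := checkRangeG_sound parWF r2 pf31399 h31399
  exact h31400

theorem c628 (h31400 : ∀ j, j < 104067 → GoodG.{u} par (db j)) : ∀ j, j < 104243 → GoodG.{u} par (db j) := by
  have h31401 := checkRangeG_sound parWF r2 pf31400 h31400
  have h31402 := checkRangeG_sound parWF r2 pf31401 h31401
  have h31403 := checkRangeG_sound parWF r2 pf31402 h31402
  have h31404 := checkRangeG_sound parWF r2 pf31403 h31403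
  have h31405 := checkRangeG_sound parWF r2 pf31404 h31404
  have h31406 := checkRangeG_sound parWF r2 pf31405 h31405
  have h31407 := checkRangeG_sound parWF r2 pf31406 h31406
  have h31408 := checkRangeG_sound parWF r2 pf31407 h31407
  have h31409 := checkRangeG_sound parWF r2 pf31408 h31408
  have h31410 := checkRangeG_sound parWF r2 pf31409 h31409
  have h31411 := checkRangeG_sound parWF r2 pf31410 h31410
  have h31412 := checkRangeG_sound parWF r2 pf31411 h31411
  have h31413 := checkRangeG_sound parWF r2 pf31412 h31412
  have h31414 := checkRangeG_sound parWF r2 pf31413 h31413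
  have h31415 := checkRangeG_sound parWF r2 pf31414 h31414
  have h31416 := checkRangeG_sound parWF r2 pf31415 h31415
  have h31417 := checkRangeG_sound parWF r2 pf31416 h31416
  have h31418 := checkRangeG_sound parWF r2 pf31417 h31417
  have h31419 := checkRangeG_sound parWF r2 pf31418 h31418
  have h31420 := checkRangeG_sound parWF r2 pf31419 h31419
  have h31421 := checkRangeG_sound parWF r2 pf31420 h31420
  have h31422 := checkRangeG_sound parWF r2 pf31421 h31421
  have h31423 := checkRangeG_sound parWF r2 pf31422 h31422
  have h31424 := checkRangeG_sound parWF r2 pf31423 h31423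
  have h31425 := checkRangeG_sound parWF r2 pf31424 h31424
  have h31426 := checkRangeG_sound parWF r2 pf31425 h31425
  have h31427 := checkRangeG_sound parWF r2 pf31426 h31426
  have h31428 := checkRangeG_sound parWF r2 pf31427 h31427
  have h31429 := checkRangeG_sound parWF r2 pf31428 h31428
  have h31430 := checkRangeG_sound parWF r2 pf31429 h31429
  have h31431 := checkRangeG_sound parWF r2 pf31430 h31430
  have h31432 := checkRangeG_sound parWF r2 pf31431 h31431
  have h31433 := checkRangeG_sound parWF r2 pf31432 h31432
  have h31434 := checkRangeG_sound parWF r2 pf31433 h31433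
  have h31435 := checkRangeG_sound parWF r2 pf31434 h31434
  have h31436 := checkRangeG_sound parWF r2 pf31435 h31435
  have h31437 := checkRangeG_sound parWF r2 pf31436 h31436
  have h31438 := checkRangeG_sound parWF r2 pf31437 h31437
  have h31439 := checkRangeG_sound parWF r2 pf31438 h31438
  have h31440 := checkRangeG_sound parWF r2 pf31439 h31439
  have h31441 := checkRangeG_sound parWF r2 pf31440 h31440
  have h31442 := checkRangeG_sound parWF r2 pf31441 h31441
  have h31443 := checkRangeG_sound parWF r2 pf31442 h31442
  have h31444 := checkRangeG_sound parWF r2 pf31443 h31443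
  have h31445 := checkRangeG_sound parWF r2 pf31444 h31444
  have h31446 := checkRangeG_sound parWF r2 pf31445 h31445
  have h31447 := checkRangeG_sound parWF r2 pf31446 h31446
  have h31448 := checkRangeG_sound parWF r2 pf31447 h31447
  have h31449 := checkRangeG_sound parWF r2 pf31448 h31448
  have h31450 := checkRangeG_sound parWF r2 pf31449 h31449
  exact h31450

theorem c629 (h31450 : ∀ j, j < 104243 → GoodG.{u} par (db j)) : ∀ j, j < 104431 → GoodG.{u} par (db j) := by
  have h31451 := checkRangeG_sound parWF r2 pf31450 h31450
  have h31452 := checkRangeG_sound parWF r2 pf31451 h31451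
  have h31453 := checkRangeG_sound parWF r2 pf31452 h31452
  have h31454 := checkRangeG_sound parWF r2 pf31453 h31453
  have h31455 := checkRangeG_sound parWF r2 pf31454 h31454
  have h31456 := checkRangeG_sound parWF r2 pf31455 h31455
  have h31457 := checkRangeG_sound parWF r2 pf31456 h31456
  have h31458 := checkRangeG_sound parWF r2 pf31457 h31457
  have h31459 := checkRangeG_sound parWF r2 pf31458 h31458
  have h31460 := checkRangeG_sound parWF r2 pf31459 h31459
  have h31461 := checkRangeG_sound parWF r2 pf31460 h31460
  have h31462 := checkRangeG_sound parWF r2 pf31461 h31461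
  have h31463 := checkRangeG_sound parWF r2 pf31462 h31462
  have h31464 := checkRangeG_sound parWF r2 pf31463 h31463
  have h31465 := checkRangeG_sound parWF r2 pf31464 h31464
  have h31466 := checkRangeG_sound parWF r2 pf31465 h31465
  have h31467 := checkRangeG_sound parWF r2 pf31466 h31466
  have h31468 := checkRangeG_sound parWF r2 pf31467 h31467
  have h31469 := checkRangeG_sound parWF r2 pf31468 h31468
  have h31470 := checkRangeG_sound parWF r2 pf31469 h31469
  have h31471 := checkRangeG_sound parWF r2 pf31470 h31470
  have h31472 := checkRangeG_sound parWF r2 pf31471 h31471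
  have h31473 := checkRangeG_sound parWF r2 pf31472 h31472
  have h31474 := checkRangeG_sound parWF r2 pf31473 h31473
  have h31475 := checkRangeG_sound parWF r2 pf31474 h31474
  have h31476 := checkRangeG_sound parWF r2 pf31475 h31475
  have h31477 := checkRangeG_sound parWF r2 pf31476 h31476
  have h31478 := checkRangeG_sound parWF r2 pf31477 h31477
  have h31479 := checkRangeG_sound parWF r2 pf31478 h31478
  have h31480 := checkRangeG_sound parWF r2 pf31479 h31479
  have h31481 := checkRangeG_sound parWF r2 pf31480 h31480
  have h31482 := checkRangeG_sound parWF r2 pf31481 h31481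
  have h31483 := checkRangeG_sound parWF r2 pf31482 h31482
  have h31484 := checkRangeG_sound parWF r2 pf31483 h31483
  have h31485 := checkRangeG_sound parWF r2 pf31484 h31484
  have h31486 := checkRangeG_sound parWF r2 pf31485 h31485
  have h31487 := checkRangeG_sound parWF r2 pf31486 h31486
  have h31488 := checkRangeG_sound parWF r2 pf31487 h31487
  have h31489 := checkRangeG_sound parWF r2 pf31488 h31488
  have h31490 := checkRangeG_sound parWF r2 pf31489 h31489
  have h31491 := checkRangeG_sound parWF r2 pf31490 h31490
  have h31492 := checkRangeG_sound parWF r2 pf31491 h31491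
  have h31493 := checkRangeG_sound parWF r2 pf31492 h31492
  have h31494 := checkRangeG_sound parWF r2 pf31493 h31493
  have h31495 := checkRangeG_sound parWF r2 pf31494 h31494
  have h31496 := checkRangeG_sound parWF r2 pf31495 h31495
  have h31497 := checkRangeG_sound parWF r2 pf31496 h31496
  have h31498 := checkRangeG_sound parWF r2 pf31497 h31497
  have h31499 := checkRangeG_sound parWF r2 pf31498 h31498
  have h31500 := checkRangeG_sound parWF r2 pf31499 h31499
  exact h31500

theorem c630 (h31500 : ∀ j, j < 104431 → GoodG.{u} par (db j)) : ∀ j, j < 104594 → GoodG.{u} par (db j) := by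
  have h31501 := checkRangeG_sound parWF r2 pf31500 h31500
  have h31502 := checkRangeG_sound parWF r2 pf31501 h31501
  have h31503 := checkRangeG_sound parWF r2 pf31502 h31502
  have h31504 := checkRangeG_sound parWF r2 pf31503 h31503
  have h31505 := checkRangeG_sound parWF r2 pf31504 h31504
  have h31506 := checkRangeG_sound parWF r2 pf31505 h31505
  have h31507 := checkRangeG_sound parWF r2 pf31506 h31506
  have h31508 := checkRangeG_sound parWF r2 pf31507 h31507
  have h31509 := checkRangeG_sound parWF r2 pf31508 h31508
  have h31510 := checkRangeG_sound parWF r2 pf31509 h31509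
  have h31511 := checkRangeG_sound parWF r2 pf31510 h31510
  have h31512 := checkRangeG_sound parWF r2 pf31511 h31511
  have h31513 := checkRangeG_sound parWF r2 pf31512 h31512
  have h31514 := checkRangeG_sound parWF r2 pf31513 h31513
  have h31515 := checkRangeG_sound parWF r2 pf31514 h31514
  have h31516 := checkRangeG_sound parWF r2 pf31515 h31515
  have h31517 := checkRangeG_sound parWF r2 pf31516 h31516
  have h31518 := checkRangeG_sound parWF r2 pf31517 h31517
  have h31519 := checkRangeG_sound parWF r2 pf31518 h31518
  have h31520 := checkRangeG_sound parWF r2 pf31519 h31519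
  have h31521 := checkRangeG_sound parWF r2 pf31520 h31520
  have h31522 := checkRangeG_sound parWF r2 pf31521 h31521
  have h31523 := checkRangeG_sound parWF r2 pf31522 h31522
  have h31524 := checkRangeG_sound parWF r2 pf31523 h31523
  have h31525 := checkRangeG_sound parWF r2 pf31524 h31524
  have h31526 := checkRangeG_sound parWF r2 pf31525 h31525
  have h31527 := checkRangeG_sound parWF r2 pf31526 h31526
  have h31528 := checkRangeG_sound parWF r2 pf31527 h31527
  have h31529 := checkRangeG_sound parWF r2 pf31528 h31528
  have h31530 := checkRangeG_sound parWF r2 pf31529 h31529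
  have h31531 := checkRangeG_sound parWF r2 pf31530 h31530
  have h31532 := checkRangeG_sound parWF r2 pf31531 h31531
  have h31533 := checkRangeG_sound parWF r2 pf31532 h31532
  have h31534 := checkRangeG_sound parWF r2 pf31533 h31533
  have h31535 := checkRangeG_sound parWF r2 pf31534 h31534
  have h31536 := checkRangeG_sound parWF r2 pf31535 h31535
  have h31537 := checkRangeG_sound parWF r2 pf31536 h31536
  have h31538 := checkRangeG_sound parWF r2 pf31537 h31537
  have h31539 := checkRangeG_sound parWF r2 pf31538 h31538
  have h31540 := checkRangeG_sound parWF r2 pf31539 h31539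
  have h31541 := checkRangeG_sound parWF r2 pf31540 h31540
  have h31542 := checkRangeG_sound parWF r2 pf31541 h31541
  have h31543 := checkRangeG_sound parWF r2 pf31542 h31542
  have h31544 := checkRangeG_sound parWF r2 pf31543 h31543
  have h31545 := checkRangeG_sound parWF r2 pf31544 h31544
  have h31546 := checkRangeG_sound parWF r2 pf31545 h31545
  have h31547 := checkRangeG_sound parWF r2 pf31546 h31546
  have h31548 := checkRangeG_sound parWF r2 pf31547 h31547
  have h31549 := checkRangeG_sound parWF r2 pf31548 h31548
  have h31550 := checkRangeG_sound parWF r2 pf31549 h31549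
  exact h31550

theorem c631 (h31550 : ∀ j, j < 104594 → GoodG.{u} par (db j)) : ∀ j, j < 104756 → GoodG.{u} par (db j) := by
  have h31551 := checkRangeG_sound parWF r2 pf31550 h31550
  have h31552 := checkRangeG_sound parWF r2 pf31551 h31551
  have h31553 := checkRangeG_sound parWF r2 pf31552 h31552
  have h31554 := checkRangeG_sound parWF r2 pf31553 h31553
  have h31555 := checkRangeG_sound parWF r2 pf31554 h31554
  have h31556 := checkRangeG_sound parWF r2 pf31555 h31555
  have h31557 := checkRangeG_sound parWF r2 pf31556 h31556
  have h31558 := checkRangeG_sound parWF r2 pf31557 h31557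
  have h31559 := checkRangeG_sound parWF r2 pf31558 h31558
  have h31560 := checkRangeG_sound parWF r2 pf31559 h31559
  have h31561 := checkRangeG_sound parWF r2 pf31560 h31560
  have h31562 := checkRangeG_sound parWF r2 pf31561 h31561
  have h31563 := checkRangeG_sound parWF r2 pf31562 h31562
  have h31564 := checkRangeG_sound parWF r2 pf31563 h31563
  have h31565 := checkRangeG_sound parWF r2 pf31564 h31564
  have h31566 := checkRangeG_sound parWF r2 pf31565 h31565
  have h31567 := checkRangeG_sound parWF r2 pf31566 h31566
  have h31568 := checkRangeG_sound parWF r2 pf31567 h31567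
  have h31569 := checkRangeG_sound parWF r2 pf31568 h31568
  have h31570 := checkRangeG_sound parWF r2 pf31569 h31569
  have h31571 := checkRangeG_sound parWF r2 pf31570 h31570
  have h31572 := checkRangeG_sound parWF r2 pf31571 h31571
  have h31573 := checkRangeG_sound parWF r2 pf31572 h31572
  have h31574 := checkRangeG_sound parWF r2 pf31573 h31573
  have h31575 := checkRangeG_sound parWF r2 pf31574 h31574
  have h31576 := checkRangeG_sound parWF r2 pf31575 h31575
  have h31577 := checkRangeG_sound parWF r2 pf31576 h31576
  have h31578 := checkRangeG_sound parWF r2 pf31577 h31577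
  have h31579 := checkRangeG_sound parWF r2 pf31578 h31578
  have h31580 := checkRangeG_sound parWF r2 pf31579 h31579
  have h31581 := checkRangeG_sound parWF r2 pf31580 h31580
  have h31582 := checkRangeG_sound parWF r2 pf31581 h31581
  have h31583 := checkRangeG_sound parWF r2 pf31582 h31582
  have h31584 := checkRangeG_sound parWF r2 pf31583 h31583
  have h31585 := checkRangeG_sound parWF r2 pf31584 h31584
  have h31586 := checkRangeG_sound parWF r2 pf31585 h31585
  have h31587 := checkRangeG_sound parWF r2 pf31586 h31586
  have h31588 := checkRangeG_sound parWF r2 pf31587 h31587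
  have h31589 := checkRangeG_sound parWF r2 pf31588 h31588
  have h31590 := checkRangeG_sound parWF r2 pf31589 h31589
  have h31591 := checkRangeG_sound parWF r2 pf31590 h31590
  have h31592 := checkRangeG_sound parWF r2 pf31591 h31591
  have h31593 := checkRangeG_sound parWF r2 pf31592 h31592
  have h31594 := checkRangeG_sound parWF r2 pf31593 h31593
  have h31595 := checkRangeG_sound parWF r2 pf31594 h31594
  have h31596 := checkRangeG_sound parWF r2 pf31595 h31595
  have h31597 := checkRangeG_sound parWF r2 pf31596 h31596
  have h31598 := checkRangeG_sound parWF r2 pf31597 h31597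
  have h31599 := checkRangeG_sound parWF r2 pf31598 h31598
  have h31600 := checkRangeG_sound parWF r2 pf31599 h31599
  exact h31600

theorem c632 (h31600 : ∀ j, j < 104756 → GoodG.{u} par (db j)) : ∀ j, j < 104938 → GoodG.{u} par (db j) := by
  have h31601 := checkRangeG_sound parWF r2 pf31600 h31600
  have h31602 := checkRangeG_sound parWF r2 pf31601 h31601
  have h31603 := checkRangeG_sound parWF r2 pf31602 h31602
  have h31604 := checkRangeG_sound parWF r2 pf31603 h31603
  have h31605 := checkRangeG_sound parWF r2 pf31604 h31604
  have h31606 := checkRangeG_sound parWF r2 pf31605 h31605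
  have h31607 := checkRangeG_sound parWF r2 pf31606 h31606
  have h31608 := checkRangeG_sound parWF r2 pf31607 h31607
  have h31609 := checkRangeG_sound parWF r2 pf31608 h31608
  have h31610 := checkRangeG_sound parWF r2 pf31609 h31609
  have h31611 := checkRangeG_sound parWF r2 pf31610 h31610
  have h31612 := checkRangeG_sound parWF r2 pf31611 h31611
  have h31613 := checkRangeG_sound parWF r2 pf31612 h31612
  have h31614 := checkRangeG_sound parWF r2 pf31613 h31613
  have h31615 := checkRangeG_sound parWF r2 pf31614 h31614
  have h31616 := checkRangeG_sound parWF r2 pf31615 h31615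
  have h31617 := checkRangeG_sound parWF r2 pf31616 h31616
  have h31618 := checkRangeG_sound parWF r2 pf31617 h31617
  have h31619 := checkRangeG_sound parWF r2 pf31618 h31618
  have h31620 := checkRangeG_sound parWF r2 pf31619 h31619
  have h31621 := checkRangeG_sound parWF r2 pf31620 h31620
  have h31622 := checkRangeG_sound parWF r2 pf31621 h31621
  have h31623 := checkRangeG_sound parWF r2 pf31622 h31622
  have h31624 := checkRangeG_sound parWF r2 pf31623 h31623
  have h31625 := checkRangeG_sound parWF r2 pf31624 h31624
  have h31626 := checkRangeG_sound parWF r2 pf31625 h31625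
  have h31627 := checkRangeG_sound parWF r2 pf31626 h31626
  have h31628 := checkRangeG_sound parWF r2 pf31627 h31627
  have h31629 := checkRangeG_sound parWF r2 pf31628 h31628
  have h31630 := checkRangeG_sound parWF r2 pf31629 h31629
  have h31631 := checkRangeG_sound parWF r2 pf31630 h31630
  have h31632 := checkRangeG_sound parWF r2 pf31631 h31631
  have h31633 := checkRangeG_sound parWF r2 pf31632 h31632
  have h31634 := checkRangeG_sound parWF r2 pf31633 h31633
  have h31635 := checkRangeG_sound parWF r2 pf31634 h31634
  have h31636 := checkRangeG_sound parWF r2 pf31635 h31635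
  have h31637 := checkRangeG_sound parWF r2 pf31636 h31636
  have h31638 := checkRangeG_sound parWF r2 pf31637 h31637
  have h31639 := checkRangeG_sound parWF r2 pf31638 h31638
  have h31640 := checkRangeG_sound parWF r2 pf31639 h31639
  have h31641 := checkRangeG_sound parWF r2 pf31640 h31640
  have h31642 := checkRangeG_sound parWF r2 pf31641 h31641
  have h31643 := checkRangeG_sound parWF r2 pf31642 h31642
  have h31644 := checkRangeG_sound parWF r2 pf31643 h31643
  have h31645 := checkRangeG_sound parWF r2 pf31644 h31644
  have h31646 := checkRangeG_sound parWF r2 pf31645 h31645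
  have h31647 := checkRangeG_sound parWF r2 pf31646 h31646
  have h31648 := checkRangeG_sound parWF r2 pf31647 h31647
  have h31649 := checkRangeG_sound parWF r2 pf31648 h31648
  have h31650 := checkRangeG_sound parWF r2 pf31649 h31649
  exact h31650

theorem c633 (h31650 : ∀ j, j < 104938 → GoodG.{u} par (db j)) : ∀ j, j < 105108 → GoodG.{u} par (db j) := by
  have h31651 := checkRangeG_sound parWF r2 pf31650 h31650
  have h31652 := checkRangeG_sound parWF r2 pf31651 h31651
  have h31653 := checkRangeG_sound parWF r2 pf31652 h31652
  have h31654 := checkRangeG_sound parWF r2 pf31653 h31653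
  have h31655 := checkRangeG_sound parWF r2 pf31654 h31654
  have h31656 := checkRangeG_sound parWF r2 pf31655 h31655
  have h31657 := checkRangeG_sound parWF r2 pf31656 h31656
  have h31658 := checkRangeG_sound parWF r2 pf31657 h31657
  have h31659 := checkRangeG_sound parWF r2 pf31658 h31658
  have h31660 := checkRangeG_sound parWF r2 pf31659 h31659
  have h31661 := checkRangeG_sound parWF r2 pf31660 h31660
  have h31662 := checkRangeG_sound parWF r2 pf31661 h31661
  have h31663 := checkRangeG_sound parWF r2 pf31662 h31662
  have h31664 := checkRangeG_sound parWF r2 pf31663 h31663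
  have h31665 := checkRangeG_sound parWF r2 pf31664 h31664
  have h31666 := checkRangeG_sound parWF r2 pf31665 h31665
  have h31667 := checkRangeG_sound parWF r2 pf31666 h31666
  have h31668 := checkRangeG_sound parWF r2 pf31667 h31667
  have h31669 := checkRangeG_sound parWF r2 pf31668 h31668
  have h31670 := checkRangeG_sound parWF r2 pf31669 h31669
  have h31671 := checkRangeG_sound parWF r2 pf31670 h31670
  have h31672 := checkRangeG_sound parWF r2 pf31671 h31671
  have h31673 := checkRangeG_sound parWF r2 pf31672 h31672
  have h31674 := checkRangeG_sound parWF r2 pf31673 h31673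
  have h31675 := checkRangeG_sound parWF r2 pf31674 h31674
  have h31676 := checkRangeG_sound parWF r2 pf31675 h31675
  have h31677 := checkRangeG_sound parWF r2 pf31676 h31676
  have h31678 := checkRangeG_sound parWF r2 pf31677 h31677
  have h31679 := checkRangeG_sound parWF r2 pf31678 h31678
  have h31680 := checkRangeG_sound parWF r2 pf31679 h31679
  have h31681 := checkRangeG_sound parWF r2 pf31680 h31680
  have h31682 := checkRangeG_sound parWF r2 pf31681 h31681
  have h31683 := checkRangeG_sound parWF r2 pf31682 h31682
  have h31684 := checkRangeG_sound parWF r2 pf31683 h31683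
  have h31685 := checkRangeG_sound parWF r2 pf31684 h31684
  have h31686 := checkRangeG_sound parWF r2 pf31685 h31685
  have h31687 := checkRangeG_sound parWF r2 pf31686 h31686
  have h31688 := checkRangeG_sound parWF r2 pf31687 h31687
  have h31689 := checkRangeG_sound parWF r2 pf31688 h31688
  have h31690 := checkRangeG_sound parWF r2 pf31689 h31689
  have h31691 := checkRangeG_sound parWF r2 pf31690 h31690
  have h31692 := checkRangeG_sound parWF r2 pf31691 h31691
  have h31693 := checkRangeG_sound parWF r2 pf31692 h31692
  have h31694 := checkRangeG_sound parWF r2 pf31693 h31693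
  have h31695 := checkRangeG_sound parWF r2 pf31694 h31694
  have h31696 := checkRangeG_sound parWF r2 pf31695 h31695
  have h31697 := checkRangeG_sound parWF r2 pf31696 h31696
  have h31698 := checkRangeG_sound parWF r2 pf31697 h31697
  have h31699 := checkRangeG_sound parWF r2 pf31698 h31698
  have h31700 := checkRangeG_sound parWF r2 pf31699 h31699
  exact h31700

theorem c634 (h31700 : ∀ j, j < 105108 → GoodG.{u} par (db j)) : ∀ j, j < 105290 → GoodG.{u} par (db j) := by
  have h31701 := checkRangeG_sound parWF r2 pf31700 h31700
  have h31702 := checkRangeG_sound parWF r2 pf31701 h31701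
  have h31703 := checkRangeG_sound parWF r2 pf31702 h31702
  have h31704 := checkRangeG_sound parWF r2 pf31703 h31703
  have h31705 := checkRangeG_sound parWF r2 pf31704 h31704
  have h31706 := checkRangeG_sound parWF r2 pf31705 h31705
  have h31707 := checkRangeG_sound parWF r2 pf31706 h31706
  have h31708 := checkRangeG_sound parWF r2 pf31707 h31707
  have h31709 := checkRangeG_sound parWF r2 pf31708 h31708
  have h31710 := checkRangeG_sound parWF r2 pf31709 h31709
  have h31711 := checkRangeG_sound parWF r2 pf31710 h31710
  have h31712 := checkRangeG_sound parWF r2 pf31711 h31711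
  have h31713 := checkRangeG_sound parWF r2 pf31712 h31712
  have h31714 := checkRangeG_sound parWF r2 pf31713 h31713
  have h31715 := checkRangeG_sound parWF r2 pf31714 h31714
  have h31716 := checkRangeG_sound parWF r2 pf31715 h31715
  have h31717 := checkRangeG_sound parWF r2 pf31716 h31716
  have h31718 := checkRangeG_sound parWF r2 pf31717 h31717
  have h31719 := checkRangeG_sound parWF r2 pf31718 h31718
  have h31720 := checkRangeG_sound parWF r2 pf31719 h31719
  have h31721 := checkRangeG_sound parWF r2 pf31720 h31720
  have h31722 := checkRangeG_sound parWF r2 pf31721 h31721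
  have h31723 := checkRangeG_sound parWF r2 pf31722 h31722
  have h31724 := checkRangeG_sound parWF r2 pf31723 h31723
  have h31725 := checkRangeG_sound parWF r2 pf31724 h31724
  have h31726 := checkRangeG_sound parWF r2 pf31725 h31725
  have h31727 := checkRangeG_sound parWF r2 pf31726 h31726
  have h31728 := checkRangeG_sound parWF r2 pf31727 h31727
  have h31729 := checkRangeG_sound parWF r2 pf31728 h31728
  have h31730 := checkRangeG_sound parWF r2 pf31729 h31729
  have h31731 := checkRangeG_sound parWF r2 pf31730 h31730
  have h31732 := checkRangeG_sound parWF r2 pf31731 h31731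
  have h31733 := checkRangeG_sound parWF r2 pf31732 h31732
  have h31734 := checkRangeG_sound parWF r2 pf31733 h31733
  have h31735 := checkRangeG_sound parWF r2 pf31734 h31734
  have h31736 := checkRangeG_sound parWF r2 pf31735 h31735
  have h31737 := checkRangeG_sound parWF r2 pf31736 h31736
  have h31738 := checkRangeG_sound parWF r2 pf31737 h31737
  have h31739 := checkRangeG_sound parWF r2 pf31738 h31738
  have h31740 := checkRangeG_sound parWF r2 pf31739 h31739
  have h31741 := checkRangeG_sound parWF r2 pf31740 h31740
  have h31742 := checkRangeG_sound parWF r2 pf31741 h31741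
  have h31743 := checkRangeG_sound parWF r2 pf31742 h31742
  have h31744 := checkRangeG_sound parWF r2 pf31743 h31743
  have h31745 := checkRangeG_sound parWF r2 pf31744 h31744
  have h31746 := checkRangeG_sound parWF r2 pf31745 h31745
  have h31747 := checkRangeG_sound parWF r2 pf31746 h31746
  have h31748 := checkRangeG_sound parWF r2 pf31747 h31747
  have h31749 := checkRangeG_sound parWF r2 pf31748 h31748
  have h31750 := checkRangeG_sound parWF r2 pf31749 h31749
  exact h31750

theorem c635 (h31750 : ∀ j, j < 105290 → GoodG.{u} par (db j)) : ∀ j, j < 105475 → GoodG.{u} par (db j) := by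
  have h31751 := checkRangeG_sound parWF r2 pf31750 h31750
  have h31752 := checkRangeG_sound parWF r2 pf31751 h31751
  have h31753 := checkRangeG_sound parWF r2 pf31752 h31752
  have h31754 := checkRangeG_sound parWF r2 pf31753 h31753
  have h31755 := checkRangeG_sound parWF r2 pf31754 h31754
  have h31756 := checkRangeG_sound parWF r2 pf31755 h31755
  have h31757 := checkRangeG_sound parWF r2 pf31756 h31756
  have h31758 := checkRangeG_sound parWF r2 pf31757 h31757
  have h31759 := checkRangeG_sound parWF r2 pf31758 h31758
  have h31760 := checkRangeG_sound parWF r2 pf31759 h31759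
  have h31761 := checkRangeG_sound parWF r2 pf31760 h31760
  have h31762 := checkRangeG_sound parWF r2 pf31761 h31761
  have h31763 := checkRangeG_sound parWF r2 pf31762 h31762
  have h31764 := checkRangeG_sound parWF r2 pf31763 h31763
  have h31765 := checkRangeG_sound parWF r2 pf31764 h31764
  have h31766 := checkRangeG_sound parWF r2 pf31765 h31765
  have h31767 := checkRangeG_sound parWF r2 pf31766 h31766
  have h31768 := checkRangeG_sound parWF r2 pf31767 h31767
  have h31769 := checkRangeG_sound parWF r2 pf31768 h31768
  have h31770 := checkRangeG_sound parWF r2 pf31769 h31769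
  have h31771 := checkRangeG_sound parWF r2 pf31770 h31770
  have h31772 := checkRangeG_sound parWF r2 pf31771 h31771
  have h31773 := checkRangeG_sound parWF r2 pf31772 h31772
  have h31774 := checkRangeG_sound parWF r2 pf31773 h31773
  have h31775 := checkRangeG_sound parWF r2 pf31774 h31774
  have h31776 := checkRangeG_sound parWF r2 pf31775 h31775
  have h31777 := checkRangeG_sound parWF r2 pf31776 h31776
  have h31778 := checkRangeG_sound parWF r2 pf31777 h31777
  have h31779 := checkRangeG_sound parWF r2 pf31778 h31778
  have h31780 := checkRangeG_sound parWF r2 pf31779 h31779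
  have h31781 := checkRangeG_sound parWF r2 pf31780 h31780
  have h31782 := checkRangeG_sound parWF r2 pf31781 h31781
  have h31783 := checkRangeG_sound parWF r2 pf31782 h31782
  have h31784 := checkRangeG_sound parWF r2 pf31783 h31783
  have h31785 := checkRangeG_sound parWF r2 pf31784 h31784
  have h31786 := checkRangeG_sound parWF r2 pf31785 h31785
  have h31787 := checkRangeG_sound parWF r2 pf31786 h31786
  have h31788 := checkRangeG_sound parWF r2 pf31787 h31787
  have h31789 := checkRangeG_sound parWF r2 pf31788 h31788
  have h31790 := checkRangeG_sound parWF r2 pf31789 h31789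
  have h31791 := checkRangeG_sound parWF r2 pf31790 h31790
  have h31792 := checkRangeG_sound parWF r2 pf31791 h31791
  have h31793 := checkRangeG_sound parWF r2 pf31792 h31792
  have h31794 := checkRangeG_sound parWF r2 pf31793 h31793
  have h31795 := checkRangeG_sound parWF r2 pf31794 h31794
  have h31796 := checkRangeG_sound parWF r2 pf31795 h31795
  have h31797 := checkRangeG_sound parWF r2 pf31796 h31796
  have h31798 := checkRangeG_sound parWF r2 pf31797 h31797
  have h31799 := checkRangeG_sound parWF r2 pf31798 h31798
  have h31800 := checkRangeG_sound parWF r2 pf31799 h31799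
  exact h31800


end Vale.Agent.P045g.C61
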