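import Vale.Agent.P045g.C61.WF
import Vale.Agent.P045g.C61.Pf530
import Vale.Agent.P045g.C61.Pf531
import Vale.Agent.P045g.C61.Pf532
import Vale.Agent.P045g.C61.Pf533
import Vale.Agent.P045g.C61.Pf534
import Vale.Agent.P045g.C61.Pf535
import Vale.Agent.P045g.C61.Pf536
import Vale.Agent.P045g.C61.Pf537
import Vale.Agent.P045g.C61.Pf538
import Vale.Agent.P045g.C61.Pf539

namespace Vale.Agent.P045g.C61

open Vale.Agent.P045b Vale.Agent.P045g

universe u

theorem c636 (h31800 : ∀ j, j < 105475 → GoodG.{u} par (db j)) : ∀ j, j < 105658 → GoodG.{u} par (db j) := by
  have h31801 := checkRangeG_sound parWF r2 pf31800 h31800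
  have h31802 := checkRangeG_sound parWF r2 pf31801 h31801
  have h31803 := checkRangeG_sound parWF r2 pf31802 h31802
  have h31804 := checkRangeG_sound parWF r2 pf31803 h31803
  have h31805 := checkRangeG_sound parWF r2 pf31804 h31804
  have h31806 := checkRangeG_sound parWF r2 pf31805 h31805
  have h31807 := checkRangeG_sound parWF r2 pf31806 h31806
  have h31808 := checkRangeG_sound parWF r2 pf31807 h31807
  have h31809 := checkRangeG_sound parWF r2 pf31808 h31808
  have h31810 := checkRangeG_sound parWF r2 pf31809 h31809
  have h31811 := checkRangeG_sound parWF r2 pf31810 h31810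
  have h31812 := checkRangeG_sound parWF r2 pf31811 h31811
  have h31813 := checkRangeG_sound parWF r2 pf31812 h31812
  have h31814 := checkRangeG_sound parWF r2 pf31813 h31813
  have h31815 := checkRangeG_sound parWF r2 pf31814 h31814
  have h31816 := checkRangeG_sound parWF r2 pf31815 h31815
  have h31817 := checkRangeG_sound parWF r2 pf31816 h31816
  have h31818 := checkRangeG_sound parWF r2 pf31817 h31817
  have h31819 := checkRangeG_sound parWF r2 pf31818 h31818
  have h31820 := checkRangeG_sound parWF r2 pf31819 h31819
  have h31821 := checkRangeG_sound parWF r2 pf31820 h31820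
  have h31822 := checkRangeG_sound parWF r2 pf31821 h31821
  have h31823 := checkRangeG_sound parWF r2 pf31822 h31822
  have h31824 := checkRangeG_sound parWF r2 pf31823 h31823
  have h31825 := checkRangeG_sound parWF r2 pf31824 h31824
  have h31826 := checkRangeG_sound parWF r2 pf31825 h31825
  have h31827 := checkRangeG_sound parWF r2 pf31826 h31826
  have h31828 := checkRangeG_sound parWF r2 pf31827 h31827
  have h31829 := checkRangeG_sound parWF r2 pf31828 h31828
  have h31830 := checkRangeG_sound parWF r2 pf31829 h31829
  have h31831 := checkRangeG_sound parWF r2 pf31830 h31830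
  have h31832 := checkRangeG_sound parWF r2 pf31831 h31831
  have h31833 := checkRangeG_sound parWF r2 pf31832 h31832
  have h31834 := checkRangeG_sound parWF r2 pf31833 h31833
  have h31835 := checkRangeG_sound parWF r2 pf31834 h31834
  have h31836 := checkRangeG_sound parWF r2 pf31835 h31835
  have h31837 := checkRangeG_sound parWF r2 pf31836 h31836
  have h31838 := checkRangeG_sound parWF r2 pf31837 h31837
  have h31839 := checkRangeG_sound parWF r2 pf31838 h31838
  have h31840 := checkRangeG_sound parWF r2 pf31839 h31839
  have h31841 := checkRangeG_sound parWF r2 pf31840 h31840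
  have h31842 := checkRangeG_sound parWF r2 pf31841 h31841
  have h31843 := checkRangeG_sound parWF r2 pf31842 h31842
  have h31844 := checkRangeG_sound parWF r2 pf31843 h31843
  have h31845 := checkRangeG_sound parWF r2 pf31844 h31844
  have h31846 := checkRangeG_sound parWF r2 pf31845 h31845
  have h31847 := checkRangeG_sound parWF r2 pf31846 h31846
  have h31848 := checkRangeG_sound parWF r2 pf31847 h31847
  have h31849 := checkRangeG_sound parWF r2 pf31848 h31848
  have h31850 := checkRangeG_sound parWF r2 pf31849 h31849
  exact h31850

theorem c637 (h31850 : ∀ j, j < 105658 → GoodG.{u} par (db j)) : ∀ j, j < 105819 → GoodG.{u} par (db j) := by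
  have h31851 := checkRangeG_sound parWF r2 pf31850 h31850
  have h31852 := checkRangeG_sound parWF r2 pf31851 h31851
  have h31853 := checkRangeG_sound parWF r2 pf31852 h31852
  have h31854 := checkRangeG_sound parWF r2 pf31853 h31853
  have h31855 := checkRangeG_sound parWF r2 pf31854 h31854
  have h31856 := checkRangeG_sound parWF r2 pf31855 h31855
  have h31857 := checkRangeG_sound parWF r2 pf31856 h31856
  have h31858 := checkRangeG_sound parWF r2 pf31857 h31857
  have h31859 := checkRangeG_sound parWF r2 pf31858 h31858
  have h31860 := checkRangeG_sound parWF r2 pf31859 h31859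
  have h31861 := checkRangeG_sound parWF r2 pf31860 h31860
  have h31862 := checkRangeG_sound parWF r2 pf31861 h31861
  have h31863 := checkRangeG_sound parWF r2 pf31862 h31862
  have h31864 := checkRangeG_sound parWF r2 pf31863 h31863
  have h31865 := checkRangeG_sound parWF r2 pf31864 h31864
  have h31866 := checkRangeG_sound parWF r2 pf31865 h31865
  have h31867 := checkRangeG_sound parWF r2 pf31866 h31866
  have h31868 := checkRangeG_sound parWF r2 pf31867 h31867
  have h31869 := checkRangeG_sound parWF r2 pf31868 h31868
  have h31870 := checkRangeG_sound parWF r2 pf31869 h31869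
  have h31871 := checkRangeG_sound parWF r2 pf31870 h31870
  have h31872 := checkRangeG_sound parWF r2 pf31871 h31871
  have h31873 := checkRangeG_sound parWF r2 pf31872 h31872
  have h31874 := checkRangeG_sound parWF r2 pf31873 h31873
  have h31875 := checkRangeG_sound parWF r2 pf31874 h31874
  have h31876 := checkRangeG_sound parWF r2 pf31875 h31875
  have h31877 := checkRangeG_sound parWF r2 pf31876 h31876
  have h31878 := checkRangeG_sound parWF r2 pf31877 h31877
  have h31879 := checkRangeG_sound parWF r2 pf31878 h31878
  have h31880 := checkRangeG_sound parWF r2 pf31879 h31879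
  have h31881 := checkRangeG_sound parWF r2 pf31880 h31880
  have h31882 := checkRangeG_sound parWF r2 pf31881 h31881
  have h31883 := checkRangeG_sound parWF r2 pf31882 h31882
  have h31884 := checkRangeG_sound parWF r2 pf31883 h31883
  have h31885 := checkRangeG_sound parWF r2 pf31884 h31884
  have h31886 := checkRangeG_sound parWF r2 pf31885 h31885
  have h31887 := checkRangeG_sound parWF r2 pf31886 h31886
  have h31888 := checkRangeG_sound parWF r2 pf31887 h31887
  have h31889 := checkRangeG_sound parWF r2 pf31888 h31888
  have h31890 := checkRangeG_sound parWF r2 pf31889 h31889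
  have h31891 := checkRangeG_sound parWF r2 pf31890 h31890
  have h31892 := checkRangeG_sound parWF r2 pf31891 h31891
  have h31893 := checkRangeG_sound parWF r2 pf31892 h31892
  have h31894 := checkRangeG_sound parWF r2 pf31893 h31893
  have h31895 := checkRangeG_sound parWF r2 pf31894 h31894
  have h31896 := checkRangeG_sound parWF r2 pf31895 h31895
  have h31897 := checkRangeG_sound parWF r2 pf31896 h31896
  have h31898 := checkRangeG_sound parWF r2 pf31897 h31897
  have h31899 := checkRangeG_sound parWF r2 pf31898 h31898
  have h31900 := checkRangeG_sound parWF r2 pf31899 h31899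
  exact h31900

theorem c638 (h31900 : ∀ j, j < 105819 → GoodG.{u} par (db j)) : ∀ j, j < 105992 → GoodG.{u} par (db j) := by
  have h31901 := checkRangeG_sound parWF r2 pf31900 h31900
  have h31902 := checkRangeG_sound parWF r2 pf31901 h31901
  have h31903 := checkRangeG_sound parWF r2 pf31902 h31902
  have h31904 := checkRangeG_sound parWF r2 pf31903 h31903
  have h31905 := checkRangeG_sound parWF r2 pf31904 h31904
  have h31906 := checkRangeG_sound parWF r2 pf31905 h31905
  have h31907 := checkRangeG_sound parWF r2 pf31906 h31906
  have h31908 := checkRangeG_sound parWF r2 pf31907 h31907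
  have h31909 := checkRangeG_sound parWF r2 pf31908 h31908
  have h31910 := checkRangeG_sound parWF r2 pf31909 h31909
  have h31911 := checkRangeG_sound parWF r2 pf31910 h31910
  have h31912 := checkRangeG_sound parWF r2 pf31911 h31911
  have h31913 := checkRangeG_sound parWF r2 pf31912 h31912
  have h31914 := checkRangeG_sound parWF r2 pf31913 h31913
  have h31915 := checkRangeG_sound parWF r2 pf31914 h31914
  have h31916 := checkRangeG_sound parWF r2 pf31915 h31915
  have h31917 := checkRangeG_sound parWF r2 pf31916 h31916
  have h31918 := checkRangeG_sound parWF r2 pf31917 h31917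
  have h31919 := checkRangeG_sound parWF r2 pf31918 h31918
  have h31920 := checkRangeG_sound parWF r2 pf31919 h31919
  have h31921 := checkRangeG_sound parWF r2 pf31920 h31920
  have h31922 := checkRangeG_sound parWF r2 pf31921 h31921
  have h31923 := checkRangeG_sound parWF r2 pf31922 h31922
  have h31924 := checkRangeG_sound parWF r2 pf31923 h31923
  have h31925 := checkRangeG_sound parWF r2 pf31924 h31924
  have h31926 := checkRangeG_sound parWF r2 pf31925 h31925
  have h31927 := checkRangeG_sound parWF r2 pf31926 h31926
  have h31928 := checkRangeG_sound parWF r2 pf31927 h31927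
  have h31929 := checkRangeG_sound parWF r2 pf31928 h31928
  have h31930 := checkRangeG_sound parWF r2 pf31929 h31929
  have h31931 := checkRangeG_sound parWF r2 pf31930 h31930
  have h31932 := checkRangeG_sound parWF r2 pf31931 h31931
  have h31933 := checkRangeG_sound parWF r2 pf31932 h31932
  have h31934 := checkRangeG_sound parWF r2 pf31933 h31933
  have h31935 := checkRangeG_sound parWF r2 pf31934 h31934
  have h31936 := checkRangeG_sound parWF r2 pf31935 h31935
  have h31937 := checkRangeG_sound parWF r2 pf31936 h31936
  have h31938 := checkRangeG_sound parWF r2 pf31937 h31937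
  have h31939 := checkRangeG_sound parWF r2 pf31938 h31938
  have h31940 := checkRangeG_sound parWF r2 pf31939 h31939
  have h31941 := checkRangeG_sound parWF r2 pf31940 h31940
  have h31942 := checkRangeG_sound parWF r2 pf31941 h31941
  have h31943 := checkRangeG_sound parWF r2 pf31942 h31942
  have h31944 := checkRangeG_sound parWF r2 pf31943 h31943
  have h31945 := checkRangeG_sound parWF r2 pf31944 h31944
  have h31946 := checkRangeG_sound parWF r2 pf31945 h31945
  have h31947 := checkRangeG_sound parWF r2 pf31946 h31946
  have h31948 := checkRangeG_sound parWF r2 pf31947 h31947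
  have h31949 := checkRangeG_sound parWF r2 pf31948 h31948
  have h31950 := checkRangeG_sound parWF r2 pf31949 h31949
  exact h31950

theorem c639 (h31950 : ∀ j, j < 105992 → GoodG.{u} par (db j)) : ∀ j, j < 106156 → GoodG.{u} par (db j) := by
  have h31951 := checkRangeG_sound parWF r2 pf31950 h31950
  have h31952 := checkRangeG_sound parWF r2 pf31951 h31951
  have h31953 := checkRangeG_sound parWF r2 pf31952 h31952
  have h31954 := checkRangeG_sound parWF r2 pf31953 h31953
  have h31955 := checkRangeG_sound parWF r2 pf31954 h31954
  have h31956 := checkRangeG_sound parWF r2 pf31955 h31955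
  have h31957 := checkRangeG_sound parWF r2 pf31956 h31956
  have h31958 := checkRangeG_sound parWF r2 pf31957 h31957
  have h31959 := checkRangeG_sound parWF r2 pf31958 h31958
  have h31960 := checkRangeG_sound parWF r2 pf31959 h31959
  have h31961 := checkRangeG_sound parWF r2 pf31960 h31960
  have h31962 := checkRangeG_sound parWF r2 pf31961 h31961
  have h31963 := checkRangeG_sound parWF r2 pf31962 h31962
  have h31964 := checkRangeG_sound parWF r2 pf31963 h31963
  have h31965 := checkRangeG_sound parWF r2 pf31964 h31964
  have h31966 := checkRangeG_sound parWF r2 pf31965 h31965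
  have h31967 := checkRangeG_sound parWF r2 pf31966 h31966
  have h31968 := checkRangeG_sound parWF r2 pf31967 h31967
  have h31969 := checkRangeG_sound parWF r2 pf31968 h31968
  have h31970 := checkRangeG_sound parWF r2 pf31969 h31969
  have h31971 := checkRangeG_sound parWF r2 pf31970 h31970
  have h31972 := checkRangeG_sound parWF r2 pf31971 h31971
  have h31973 := checkRangeG_sound parWF r2 pf31972 h31972
  have h31974 := checkRangeG_sound parWF r2 pf31973 h31973
  have h31975 := checkRangeG_sound parWF r2 pf31974 h31974
  have h31976 := checkRangeG_sound parWF r2 pf31975 h31975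
  have h31977 := checkRangeG_sound parWF r2 pf31976 h31976
  have h31978 := checkRangeG_sound parWF r2 pf31977 h31977
  have h31979 := checkRangeG_sound parWF r2 pf31978 h31978
  have h31980 := checkRangeG_sound parWF r2 pf31979 h31979
  have h31981 := checkRangeG_sound parWF r2 pf31980 h31980
  have h31982 := checkRangeG_sound parWF r2 pf31981 h31981
  have h31983 := checkRangeG_sound parWF r2 pf31982 h31982
  have h31984 := checkRangeG_sound parWF r2 pf31983 h31983
  have h31985 := checkRangeG_sound parWF r2 pf31984 h31984
  have h31986 := checkRangeG_sound parWF r2 pf31985 h31985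
  have h31987 := checkRangeG_sound parWF r2 pf31986 h31986
  have h31988 := checkRangeG_sound parWF r2 pf31987 h31987
  have h31989 := checkRangeG_sound parWF r2 pf31988 h31988
  have h31990 := checkRangeG_sound parWF r2 pf31989 h31989
  have h31991 := checkRangeG_sound parWF r2 pf31990 h31990
  have h31992 := checkRangeG_sound parWF r2 pf31991 h31991
  have h31993 := checkRangeG_sound parWF r2 pf31992 h31992
  have h31994 := checkRangeG_sound parWF r2 pf31993 h31993
  have h31995 := checkRangeG_sound parWF r2 pf31994 h31994
  have h31996 := checkRangeG_sound parWF r2 pf31995 h31995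
  have h31997 := checkRangeG_sound parWF r2 pf31996 h31996
  have h31998 := checkRangeG_sound parWF r2 pf31997 h31997
  have h31999 := checkRangeG_sound parWF r2 pf31998 h31998
  have h32000 := checkRangeG_sound parWF r2 pf31999 h31999
  exact h32000

theorem c640 (h32000 : ∀ j, j < 106156 → GoodG.{u} par (db j)) : ∀ j, j < 106334 → GoodG.{u} par (db j) := by
  have h32001 := checkRangeG_sound parWF r2 pf32000 h32000
  have h32002 := checkRangeG_sound parWF r2 pf32001 h32001
  have h32003 := checkRangeG_sound parWF r2 pf32002 h32002
  have h32004 := checkRangeG_sound parWF r2 pf32003 h32003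
  have h32005 := checkRangeG_sound parWF r2 pf32004 h32004
  have h32006 := checkRangeG_sound parWF r2 pf32005 h32005
  have h32007 := checkRangeG_sound parWF r2 pf32006 h32006
  have h32008 := checkRangeG_sound parWF r2 pf32007 h32007
  have h32009 := checkRangeG_sound parWF r2 pf32008 h32008
  have h32010 := checkRangeG_sound parWF r2 pf32009 h32009
  have h32011 := checkRangeG_sound parWF r2 pf32010 h32010
  have h32012 := checkRangeG_sound parWF r2 pf32011 h32011
  have h32013 := checkRangeG_sound parWF r2 pf32012 h32012
  have h32014 := checkRangeG_sound parWF r2 pf32013 h32013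
  have h32015 := checkRangeG_sound parWF r2 pf32014 h32014
  have h32016 := checkRangeG_sound parWF r2 pf32015 h32015
  have h32017 := checkRangeG_sound parWF r2 pf32016 h32016
  have h32018 := checkRangeG_sound parWF r2 pf32017 h32017
  have h32019 := checkRangeG_sound parWF r2 pf32018 h32018
  have h32020 := checkRangeG_sound parWF r2 pf32019 h32019
  have h32021 := checkRangeG_sound parWF r2 pf32020 h32020
  have h32022 := checkRangeG_sound parWF r2 pf32021 h32021
  have h32023 := checkRangeG_sound parWF r2 pf32022 h32022
  have h32024 := checkRangeG_sound parWF r2 pf32023 h32023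
  have h32025 := checkRangeG_sound parWF r2 pf32024 h32024
  have h32026 := checkRangeG_sound parWF r2 pf32025 h32025
  have h32027 := checkRangeG_sound parWF r2 pf32026 h32026
  have h32028 := checkRangeG_sound parWF r2 pf32027 h32027
  have h32029 := checkRangeG_sound parWF r2 pf32028 h32028
  have h32030 := checkRangeG_sound parWF r2 pf32029 h32029
  have h32031 := checkRangeG_sound parWF r2 pf32030 h32030
  have h32032 := checkRangeG_sound parWF r2 pf32031 h32031
  have h32033 := checkRangeG_sound parWF r2 pf32032 h32032
  have h32034 := checkRangeG_sound parWF r2 pf32033 h32033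
  have h32035 := checkRangeG_sound parWF r2 pf32034 h32034
  have h32036 := checkRangeG_sound parWF r2 pf32035 h32035
  have h32037 := checkRangeG_sound parWF r2 pf32036 h32036
  have h32038 := checkRangeG_sound parWF r2 pf32037 h32037
  have h32039 := checkRangeG_sound parWF r2 pf32038 h32038
  have h32040 := checkRangeG_sound parWF r2 pf32039 h32039
  have h32041 := checkRangeG_sound parWF r2 pf32040 h32040
  have h32042 := checkRangeG_sound parWF r2 pf32041 h32041
  have h32043 := checkRangeG_sound parWF r2 pf32042 h32042
  have h32044 := checkRangeG_sound parWF r2 pf32043 h32043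
  have h32045 := checkRangeG_sound parWF r2 pf32044 h32044
  have h32046 := checkRangeG_sound parWF r2 pf32045 h32045
  have h32047 := checkRangeG_sound parWF r2 pf32046 h32046
  have h32048 := checkRangeG_sound parWF r2 pf32047 h32047
  have h32049 := checkRangeG_sound parWF r2 pf32048 h32048
  have h32050 := checkRangeG_sound parWF r2 pf32049 h32049
  exact h32050

theorem c641 (h32050 : ∀ j, j < 106334 → GoodG.{u} par (db j)) : ∀ j, j < 106550 → GoodG.{u} par (db j) := by
  have h32051 := checkRangeG_sound parWF r2 pf32050 h32050
  have h32052 := checkRangeG_sound parWF r2 pf32051 h32051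
  have h32053 := checkRangeG_sound parWF r2 pf32052 h32052
  have h32054 := checkRangeG_sound parWF r2 pf32053 h32053
  have h32055 := checkRangeG_sound parWF r2 pf32054 h32054
  have h32056 := checkRangeG_sound parWF r2 pf32055 h32055
  have h32057 := checkRangeG_sound parWF r2 pf32056 h32056
  have h32058 := checkRangeG_sound parWF r2 pf32057 h32057
  have h32059 := checkRangeG_sound parWF r2 pf32058 h32058
  have h32060 := checkRangeG_sound parWF r2 pf32059 h32059
  have h32061 := checkRangeG_sound parWF r2 pf32060 h32060
  have h32062 := checkRangeG_sound parWF r2 pf32061 h32061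
  have h32063 := checkRangeG_sound parWF r2 pf32062 h32062
  have h32064 := checkRangeG_sound parWF r2 pf32063 h32063
  have h32065 := checkRangeG_sound parWF r2 pf32064 h32064
  have h32066 := checkRangeG_sound parWF r2 pf32065 h32065
  have h32067 := checkRangeG_sound parWF r2 pf32066 h32066
  have h32068 := checkRangeG_sound parWF r2 pf32067 h32067
  have h32069 := checkRangeG_sound parWF r2 pf32068 h32068
  have h32070 := checkRangeG_sound parWF r2 pf32069 h32069
  have h32071 := checkRangeG_sound parWF r2 pf32070 h32070
  have h32072 := checkRangeG_sound parWF r2 pf32071 h32071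
  have h32073 := checkRangeG_sound parWF r2 pf32072 h32072
  have h32074 := checkRangeG_sound parWF r2 pf32073 h32073
  have h32075 := checkRangeG_sound parWF r2 pf32074 h32074
  have h32076 := checkRangeG_sound parWF r2 pf32075 h32075
  have h32077 := checkRangeG_sound parWF r2 pf32076 h32076
  have h32078 := checkRangeG_sound parWF r2 pf32077 h32077
  have h32079 := checkRangeG_sound parWF r2 pf32078 h32078
  have h32080 := checkRangeG_sound parWF r2 pf32079 h32079
  have h32081 := checkRangeG_sound parWF r2 pf32080 h32080
  have h32082 := checkRangeG_sound parWF r2 pf32081 h32081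
  have h32083 := checkRangeG_sound parWF r2 pf32082 h32082
  have h32084 := checkRangeG_sound parWF r2 pf32083 h32083
  have h32085 := checkRangeG_sound parWF r2 pf32084 h32084
  have h32086 := checkRangeG_sound parWF r2 pf32085 h32085
  have h32087 := checkRangeG_sound parWF r2 pf32086 h32086
  have h32088 := checkRangeG_sound parWF r2 pf32087 h32087
  have h32089 := checkRangeG_sound parWF r2 pf32088 h32088
  have h32090 := checkRangeG_sound parWF r2 pf32089 h32089
  have h32091 := checkRangeG_sound parWF r2 pf32090 h32090
  have h32092 := checkRangeG_sound parWF r2 pf32091 h32091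
  have h32093 := checkRangeG_sound parWF r2 pf32092 h32092
  have h32094 := checkRangeG_sound parWF r2 pf32093 h32093
  have h32095 := checkRangeG_sound parWF r2 pf32094 h32094
  have h32096 := checkRangeG_sound parWF r2 pf32095 h32095
  have h32097 := checkRangeG_sound parWF r2 pf32096 h32096
  have h32098 := checkRangeG_sound parWF r2 pf32097 h32097
  have h32099 := checkRangeG_sound parWF r2 pf32098 h32098
  have h32100 := checkRangeG_sound parWF r2 pf32099 h32099
  exact h32100

theorem c642 (h32100 : ∀ j, j < 106550 → GoodG.{u} par (db j)) : ∀ j, j < 106749 → GoodG.{u} par (db j) := by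
  have h32101 := checkRangeG_sound parWF r2 pf32100 h32100
  have h32102 := checkRangeG_sound parWF r2 pf32101 h32101
  have h32103 := checkRangeG_sound parWF r2 pf32102 h32102
  have h32104 := checkRangeG_sound parWF r2 pf32103 h32103
  have h32105 := checkRangeG_sound parWF r2 pf32104 h32104
  have h32106 := checkRangeG_sound parWF r2 pf32105 h32105
  have h32107 := checkRangeG_sound parWF r2 pf32106 h32106
  have h32108 := checkRangeG_sound parWF r2 pf32107 h32107
  have h32109 := checkRangeG_sound parWF r2 pf32108 h32108
  have h32110 := checkRangeG_sound parWF r2 pf32109 h32109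
  have h32111 := checkRangeG_sound parWF r2 pf32110 h32110
  have h32112 := checkRangeG_sound parWF r2 pf32111 h32111
  have h32113 := checkRangeG_sound parWF r2 pf32112 h32112
  have h32114 := checkRangeG_sound parWF r2 pf32113 h32113
  have h32115 := checkRangeG_sound parWF r2 pf32114 h32114
  have h32116 := checkRangeG_sound parWF r2 pf32115 h32115
  have h32117 := checkRangeG_sound parWF r2 pf32116 h32116
  have h32118 := checkRangeG_sound parWF r2 pf32117 h32117
  have h32119 := checkRangeG_sound parWF r2 pf32118 h32118
  have h32120 := checkRangeG_sound parWF r2 pf32119 h32119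
  have h32121 := checkRangeG_sound parWF r2 pf32120 h32120
  have h32122 := checkRangeG_sound parWF r2 pf32121 h32121
  have h32123 := checkRangeG_sound parWF r2 pf32122 h32122
  have h32124 := checkRangeG_sound parWF r2 pf32123 h32123
  have h32125 := checkRangeG_sound parWF r2 pf32124 h32124
  have h32126 := checkRangeG_sound parWF r2 pf32125 h32125
  have h32127 := checkRangeG_sound parWF r2 pf32126 h32126
  have h32128 := checkRangeG_sound parWF r2 pf32127 h32127
  have h32129 := checkRangeG_sound parWF r2 pf32128 h32128
  have h32130 := checkRangeG_sound parWF r2 pf32129 h32129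
  have h32131 := checkRangeG_sound parWF r2 pf32130 h32130
  have h32132 := checkRangeG_sound parWF r2 pf32131 h32131
  have h32133 := checkRangeG_sound parWF r2 pf32132 h32132
  have h32134 := checkRangeG_sound parWF r2 pf32133 h32133
  have h32135 := checkRangeG_sound parWF r2 pf32134 h32134
  have h32136 := checkRangeG_sound parWF r2 pf32135 h32135
  have h32137 := checkRangeG_sound parWF r2 pf32136 h32136
  have h32138 := checkRangeG_sound parWF r2 pf32137 h32137
  have h32139 := checkRangeG_sound parWF r2 pf32138 h32138
  have h32140 := checkRangeG_sound parWF r2 pf32139 h32139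
  have h32141 := checkRangeG_sound parWF r2 pf32140 h32140
  have h32142 := checkRangeG_sound parWF r2 pf32141 h32141
  have h32143 := checkRangeG_sound parWF r2 pf32142 h32142
  have h32144 := checkRangeG_sound parWF r2 pf32143 h32143
  have h32145 := checkRangeG_sound parWF r2 pf32144 h32144
  have h32146 := checkRangeG_sound parWF r2 pf32145 h32145
  have h32147 := checkRangeG_sound parWF r2 pf32146 h32146
  have h32148 := checkRangeG_sound parWF r2 pf32147 h32147
  have h32149 := checkRangeG_sound parWF r2 pf32148 h32148
  have h32150 := checkRangeG_sound parWF r2 pf32149 h32149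
  exact h32150

theorem c643 (h32150 : ∀ j, j < 106749 → GoodG.{u} par (db j)) : ∀ j, j < 106955 → GoodG.{u} par (db j) := by
  have h32151 := checkRangeG_sound parWF r2 pf32150 h32150
  have h32152 := checkRangeG_sound parWF r2 pf32151 h32151
  have h32153 := checkRangeG_sound parWF r2 pf32152 h32152
  have h32154 := checkRangeG_sound parWF r2 pf32153 h32153
  have h32155 := checkRangeG_sound parWF r2 pf32154 h32154
  have h32156 := checkRangeG_sound parWF r2 pf32155 h32155
  have h32157 := checkRangeG_sound parWF r2 pf32156 h32156
  have h32158 := checkRangeG_sound parWF r2 pf32157 h32157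
  have h32159 := checkRangeG_sound parWF r2 pf32158 h32158
  have h32160 := checkRangeG_sound parWF r2 pf32159 h32159
  have h32161 := checkRangeG_sound parWF r2 pf32160 h32160
  have h32162 := checkRangeG_sound parWF r2 pf32161 h32161
  have h32163 := checkRangeG_sound parWF r2 pf32162 h32162
  have h32164 := checkRangeG_sound parWF r2 pf32163 h32163
  have h32165 := checkRangeG_sound parWF r2 pf32164 h32164
  have h32166 := checkRangeG_sound parWF r2 pf32165 h32165
  have h32167 := checkRangeG_sound parWF r2 pf32166 h32166
  have h32168 := checkRangeG_sound parWF r2 pf32167 h32167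
  have h32169 := checkRangeG_sound parWF r2 pf32168 h32168
  have h32170 := checkRangeG_sound parWF r2 pf32169 h32169
  have h32171 := checkRangeG_sound parWF r2 pf32170 h32170
  have h32172 := checkRangeG_sound parWF r2 pf32171 h32171
  have h32173 := checkRangeG_sound parWF r2 pf32172 h32172
  have h32174 := checkRangeG_sound parWF r2 pf32173 h32173
  have h32175 := checkRangeG_sound parWF r2 pf32174 h32174
  have h32176 := checkRangeG_sound parWF r2 pf32175 h32175
  have h32177 := checkRangeG_sound parWF r2 pf32176 h32176
  have h32178 := checkRangeG_sound parWF r2 pf32177 h32177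
  have h32179 := checkRangeG_sound parWF r2 pf32178 h32178
  have h32180 := checkRangeG_sound parWF r2 pf32179 h32179
  have h32181 := checkRangeG_sound parWF r2 pf32180 h32180
  have h32182 := checkRangeG_sound parWF r2 pf32181 h32181
  have h32183 := checkRangeG_sound parWF r2 pf32182 h32182
  have h32184 := checkRangeG_sound parWF r2 pf32183 h32183
  have h32185 := checkRangeG_sound parWF r2 pf32184 h32184
  have h32186 := checkRangeG_sound parWF r2 pf32185 h32185
  have h32187 := checkRangeG_sound parWF r2 pf32186 h32186
  have h32188 := checkRangeG_sound parWF r2 pf32187 h32187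
  have h32189 := checkRangeG_sound parWF r2 pf32188 h32188
  have h32190 := checkRangeG_sound parWF r2 pf32189 h32189
  have h32191 := checkRangeG_sound parWF r2 pf32190 h32190
  have h32192 := checkRangeG_sound parWF r2 pf32191 h32191
  have h32193 := checkRangeG_sound parWF r2 pf32192 h32192
  have h32194 := checkRangeG_sound parWF r2 pf32193 h32193
  have h32195 := checkRangeG_sound parWF r2 pf32194 h32194
  have h32196 := checkRangeG_sound parWF r2 pf32195 h32195
  have h32197 := checkRangeG_sound parWF r2 pf32196 h32196
  have h32198 := checkRangeG_sound parWF r2 pf32197 h32197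
  have h32199 := checkRangeG_sound parWF r2 pf32198 h32198
  have h32200 := checkRangeG_sound parWF r2 pf32199 h32199
  exact h32200

theorem c644 (h32200 : ∀ j, j < 106955 → GoodG.{u} par (db j)) : ∀ j, j < 107141 → GoodG.{u} par (db j) := by
  have h32201 := checkRangeG_sound parWF r2 pf32200 h32200
  have h32202 := checkRangeG_sound parWF r2 pf32201 h32201
  have h32203 := checkRangeG_sound parWF r2 pf32202 h32202
  have h32204 := checkRangeG_sound parWF r2 pf32203 h32203
  have h32205 := checkRangeG_sound parWF r2 pf32204 h32204
  have h32206 := checkRangeG_sound parWF r2 pf32205 h32205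
  have h32207 := checkRangeG_sound parWF r2 pf32206 h32206
  have h32208 := checkRangeG_sound parWF r2 pf32207 h32207
  have h32209 := checkRangeG_sound parWF r2 pf32208 h32208
  have h32210 := checkRangeG_sound parWF r2 pf32209 h32209
  have h32211 := checkRangeG_sound parWF r2 pf32210 h32210
  have h32212 := checkRangeG_sound parWF r2 pf32211 h32211
  have h32213 := checkRangeG_sound parWF r2 pf32212 h32212
  have h32214 := checkRangeG_sound parWF r2 pf32213 h32213
  have h32215 := checkRangeG_sound parWF r2 pf32214 h32214
  have h32216 := checkRangeG_sound parWF r2 pf32215 h32215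
  have h32217 := checkRangeG_sound parWF r2 pf32216 h32216
  have h32218 := checkRangeG_sound parWF r2 pf32217 h32217
  have h32219 := checkRangeG_sound parWF r2 pf32218 h32218
  have h32220 := checkRangeG_sound parWF r2 pf32219 h32219
  have h32221 := checkRangeG_sound parWF r2 pf32220 h32220
  have h32222 := checkRangeG_sound parWF r2 pf32221 h32221
  have h32223 := checkRangeG_sound parWF r2 pf32222 h32222
  have h32224 := checkRangeG_sound parWF r2 pf32223 h32223
  have h32225 := checkRangeG_sound parWF r2 pf32224 h32224
  have h32226 := checkRangeG_sound parWF r2 pf32225 h32225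
  have h32227 := checkRangeG_sound parWF r2 pf32226 h32226
  have h32228 := checkRangeG_sound parWF r2 pf32227 h32227
  have h32229 := checkRangeG_sound parWF r2 pf32228 h32228
  have h32230 := checkRangeG_sound parWF r2 pf32229 h32229
  have h32231 := checkRangeG_sound parWF r2 pf32230 h32230
  have h32232 := checkRangeG_sound parWF r2 pf32231 h32231
  have h32233 := checkRangeG_sound parWF r2 pf32232 h32232
  have h32234 := checkRangeG_sound parWF r2 pf32233 h32233
  have h32235 := checkRangeG_sound parWF r2 pf32234 h32234
  have h32236 := checkRangeG_sound parWF r2 pf32235 h32235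
  have h32237 := checkRangeG_sound parWF r2 pf32236 h32236
  have h32238 := checkRangeG_sound parWF r2 pf32237 h32237
  have h32239 := checkRangeG_sound parWF r2 pf32238 h32238
  have h32240 := checkRangeG_sound parWF r2 pf32239 h32239
  have h32241 := checkRangeG_sound parWF r2 pf32240 h32240
  have h32242 := checkRangeG_sound parWF r2 pf32241 h32241
  have h32243 := checkRangeG_sound parWF r2 pf32242 h32242
  have h32244 := checkRangeG_sound parWF r2 pf32243 h32243
  have h32245 := checkRangeG_sound parWF r2 pf32244 h32244
  have h32246 := checkRangeG_sound parWF r2 pf32245 h32245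
  have h32247 := checkRangeG_sound parWF r2 pf32246 h32246
  have h32248 := checkRangeG_sound parWF r2 pf32247 h32247
  have h32249 := checkRangeG_sound parWF r2 pf32248 h32248
  have h32250 := checkRangeG_sound parWF r2 pf32249 h32249
  exact h32250

theorem c645 (h32250 : ∀ j, j < 107141 → GoodG.{u} par (db j)) : ∀ j, j < 107355 → GoodG.{u} par (db j) := by
  have h32251 := checkRangeG_sound parWF r2 pf32250 h32250
  have h32252 := checkRangeG_sound parWF r2 pf32251 h32251
  have h32253 := checkRangeG_sound parWF r2 pf32252 h32252
  have h32254 := checkRangeG_sound parWF r2 pf32253 h32253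
  have h32255 := checkRangeG_sound parWF r2 pf32254 h32254
  have h32256 := checkRangeG_sound parWF r2 pf32255 h32255
  have h32257 := checkRangeG_sound parWF r2 pf32256 h32256
  have h32258 := checkRangeG_sound parWF r2 pf32257 h32257
  have h32259 := checkRangeG_sound parWF r2 pf32258 h32258
  have h32260 := checkRangeG_sound parWF r2 pf32259 h32259
  have h32261 := checkRangeG_sound parWF r2 pf32260 h32260
  have h32262 := checkRangeG_sound parWF r2 pf32261 h32261
  have h32263 := checkRangeG_sound parWF r2 pf32262 h32262
  have h32264 := checkRangeG_sound parWF r2 pf32263 h32263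
  have h32265 := checkRangeG_sound parWF r2 pf32264 h32264
  have h32266 := checkRangeG_sound parWF r2 pf32265 h32265
  have h32267 := checkRangeG_sound parWF r2 pf32266 h32266
  have h32268 := checkRangeG_sound parWF r2 pf32267 h32267
  have h32269 := checkRangeG_sound parWF r2 pf32268 h32268
  have h32270 := checkRangeG_sound parWF r2 pf32269 h32269
  have h32271 := checkRangeG_sound parWF r2 pf32270 h32270
  have h32272 := checkRangeG_sound parWF r2 pf32271 h32271
  have h32273 := checkRangeG_sound parWF r2 pf32272 h32272
  have h32274 := checkRangeG_sound parWF r2 pf32273 h32273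
  have h32275 := checkRangeG_sound parWF r2 pf32274 h32274
  have h32276 := checkRangeG_sound parWF r2 pf32275 h32275
  have h32277 := checkRangeG_sound parWF r2 pf32276 h32276
  have h32278 := checkRangeG_sound parWF r2 pf32277 h32277
  have h32279 := checkRangeG_sound parWF r2 pf32278 h32278
  have h32280 := checkRangeG_sound parWF r2 pf32279 h32279
  have h32281 := checkRangeG_sound parWF r2 pf32280 h32280
  have h32282 := checkRangeG_sound parWF r2 pf32281 h32281
  have h32283 := checkRangeG_sound parWF r2 pf32282 h32282
  have h32284 := checkRangeG_sound parWF r2 pf32283 h32283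
  have h32285 := checkRangeG_sound parWF r2 pf32284 h32284
  have h32286 := checkRangeG_sound parWF r2 pf32285 h32285
  have h32287 := checkRangeG_sound parWF r2 pf32286 h32286
  have h32288 := checkRangeG_sound parWF r2 pf32287 h32287
  have h32289 := checkRangeG_sound parWF r2 pf32288 h32288
  have h32290 := checkRangeG_sound parWF r2 pf32289 h32289
  have h32291 := checkRangeG_sound parWF r2 pf32290 h32290
  have h32292 := checkRangeG_sound parWF r2 pf32291 h32291
  have h32293 := checkRangeG_sound parWF r2 pf32292 h32292
  have h32294 := checkRangeG_sound parWF r2 pf32293 h32293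
  have h32295 := checkRangeG_sound parWF r2 pf32294 h32294
  have h32296 := checkRangeG_sound parWF r2 pf32295 h32295
  have h32297 := checkRangeG_sound parWF r2 pf32296 h32296
  have h32298 := checkRangeG_sound parWF r2 pf32297 h32297
  have h32299 := checkRangeG_sound parWF r2 pf32298 h32298
  have h32300 := checkRangeG_sound parWF r2 pf32299 h32299
  exact h32300

theorem c646 (h32300 : ∀ j, j < 107355 → GoodG.{u} par (db j)) : ∀ j, j < 107536 → GoodG.{u} par (db j) := by
  have h32301 := checkRangeG_sound parWF r2 pf32300 h32300
  have h32302 := checkRangeG_sound parWF r2 pf32301 h32301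
  have h32303 := checkRangeG_sound parWF r2 pf32302 h32302
  have h32304 := checkRangeG_sound parWF r2 pf32303 h32303
  have h32305 := checkRangeG_sound parWF r2 pf32304 h32304
  have h32306 := checkRangeG_sound parWF r2 pf32305 h32305
  have h32307 := checkRangeG_sound parWF r2 pf32306 h32306
  have h32308 := checkRangeG_sound parWF r2 pf32307 h32307
  have h32309 := checkRangeG_sound parWF r2 pf32308 h32308
  have h32310 := checkRangeG_sound parWF r2 pf32309 h32309
  have h32311 := checkRangeG_sound parWF r2 pf32310 h32310
  have h32312 := checkRangeG_sound parWF r2 pf32311 h32311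
  have h32313 := checkRangeG_sound parWF r2 pf32312 h32312
  have h32314 := checkRangeG_sound parWF r2 pf32313 h32313
  have h32315 := checkRangeG_sound parWF r2 pf32314 h32314
  have h32316 := checkRangeG_sound parWF r2 pf32315 h32315
  have h32317 := checkRangeG_sound parWF r2 pf32316 h32316
  have h32318 := checkRangeG_sound parWF r2 pf32317 h32317
  have h32319 := checkRangeG_sound parWF r2 pf32318 h32318
  have h32320 := checkRangeG_sound parWF r2 pf32319 h32319
  have h32321 := checkRangeG_sound parWF r2 pf32320 h32320
  have h32322 := checkRangeG_sound parWF r2 pf32321 h32321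
  have h32323 := checkRangeG_sound parWF r2 pf32322 h32322
  have h32324 := checkRangeG_sound parWF r2 pf32323 h32323
  have h32325 := checkRangeG_sound parWF r2 pf32324 h32324
  have h32326 := checkRangeG_sound parWF r2 pf32325 h32325
  have h32327 := checkRangeG_sound parWF r2 pf32326 h32326
  have h32328 := checkRangeG_sound parWF r2 pf32327 h32327
  have h32329 := checkRangeG_sound parWF r2 pf32328 h32328
  have h32330 := checkRangeG_sound parWF r2 pf32329 h32329
  have h32331 := checkRangeG_sound parWF r2 pf32330 h32330
  have h32332 := checkRangeG_sound parWF r2 pf32331 h32331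
  have h32333 := checkRangeG_sound parWF r2 pf32332 h32332
  have h32334 := checkRangeG_sound parWF r2 pf32333 h32333
  have h32335 := checkRangeG_sound parWF r2 pf32334 h32334
  have h32336 := checkRangeG_sound parWF r2 pf32335 h32335
  have h32337 := checkRangeG_sound parWF r2 pf32336 h32336
  have h32338 := checkRangeG_sound parWF r2 pf32337 h32337
  have h32339 := checkRangeG_sound parWF r2 pf32338 h32338
  have h32340 := checkRangeG_sound parWF r2 pf32339 h32339
  have h32341 := checkRangeG_sound parWF r2 pf32340 h32340
  have h32342 := checkRangeG_sound parWF r2 pf32341 h32341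
  have h32343 := checkRangeG_sound parWF r2 pf32342 h32342
  have h32344 := checkRangeG_sound parWF r2 pf32343 h32343
  have h32345 := checkRangeG_sound parWF r2 pf32344 h32344
  have h32346 := checkRangeG_sound parWF r2 pf32345 h32345
  have h32347 := checkRangeG_sound parWF r2 pf32346 h32346
  have h32348 := checkRangeG_sound parWF r2 pf32347 h32347
  have h32349 := checkRangeG_sound parWF r2 pf32348 h32348
  have h32350 := checkRangeG_sound parWF r2 pf32349 h32349
  exact h32350

theorem c647 (h32350 : ∀ j, j < 107536 → GoodG.{u} par (db j)) : ∀ j, j < 107726 → GoodG.{u} par (db j) := by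
  have h32351 := checkRangeG_sound parWF r2 pf32350 h32350
  have h32352 := checkRangeG_sound parWF r2 pf32351 h32351
  have h32353 := checkRangeG_sound parWF r2 pf32352 h32352
  have h32354 := checkRangeG_sound parWF r2 pf32353 h32353
  have h32355 := checkRangeG_sound parWF r2 pf32354 h32354
  have h32356 := checkRangeG_sound parWF r2 pf32355 h32355
  have h32357 := checkRangeG_sound parWF r2 pf32356 h32356
  have h32358 := checkRangeG_sound parWF r2 pf32357 h32357
  have h32359 := checkRangeG_sound parWF r2 pf32358 h32358
  have h32360 := checkRangeG_sound parWF r2 pf32359 h32359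
  have h32361 := checkRangeG_sound parWF r2 pf32360 h32360
  have h32362 := checkRangeG_sound parWF r2 pf32361 h32361
  have h32363 := checkRangeG_sound parWF r2 pf32362 h32362
  have h32364 := checkRangeG_sound parWF r2 pf32363 h32363
  have h32365 := checkRangeG_sound parWF r2 pf32364 h32364
  have h32366 := checkRangeG_sound parWF r2 pf32365 h32365
  have h32367 := checkRangeG_sound parWF r2 pf32366 h32366
  have h32368 := checkRangeG_sound parWF r2 pf32367 h32367
  have h32369 := checkRangeG_sound parWF r2 pf32368 h32368
  have h32370 := checkRangeG_sound parWF r2 pf32369 h32369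
  have h32371 := checkRangeG_sound parWF r2 pf32370 h32370
  have h32372 := checkRangeG_sound parWF r2 pf32371 h32371
  have h32373 := checkRangeG_sound parWF r2 pf32372 h32372
  have h32374 := checkRangeG_sound parWF r2 pf32373 h32373
  have h32375 := checkRangeG_sound parWF r2 pf32374 h32374
  have h32376 := checkRangeG_sound parWF r2 pf32375 h32375
  have h32377 := checkRangeG_sound parWF r2 pf32376 h32376
  have h32378 := checkRangeG_sound parWF r2 pf32377 h32377
  have h32379 := checkRangeG_sound parWF r2 pf32378 h32378
  have h32380 := checkRangeG_sound parWF r2 pf32379 h32379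
  have h32381 := checkRangeG_sound parWF r2 pf32380 h32380
  have h32382 := checkRangeG_sound parWF r2 pf32381 h32381
  have h32383 := checkRangeG_sound parWF r2 pf32382 h32382
  have h32384 := checkRangeG_sound parWF r2 pf32383 h32383
  have h32385 := checkRangeG_sound parWF r2 pf32384 h32384
  have h32386 := checkRangeG_sound parWF r2 pf32385 h32385
  have h32387 := checkRangeG_sound parWF r2 pf32386 h32386
  have h32388 := checkRangeG_sound parWF r2 pf32387 h32387
  have h32389 := checkRangeG_sound parWF r2 pf32388 h32388
  have h32390 := checkRangeG_sound parWF r2 pf32389 h32389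
  have h32391 := checkRangeG_sound parWF r2 pf32390 h32390
  have h32392 := checkRangeG_sound parWF r2 pf32391 h32391
  have h32393 := checkRangeG_sound parWF r2 pf32392 h32392
  have h32394 := checkRangeG_sound parWF r2 pf32393 h32393
  have h32395 := checkRangeG_sound parWF r2 pf32394 h32394
  have h32396 := checkRangeG_sound parWF r2 pf32395 h32395
  have h32397 := checkRangeG_sound parWF r2 pf32396 h32396
  have h32398 := checkRangeG_sound parWF r2 pf32397 h32397
  have h32399 := checkRangeG_sound parWF r2 pf32398 h32398
  have h32400 := checkRangeG_sound parWF r2 pf32399 h32399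
  exact h32400


end Vale.Agent.P045g.C61
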