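import Vale.Agent.P045g.C61.WF
import Vale.Agent.P045g.C61.Pf540
import Vale.Agent.P045g.C61.Pf541
import Vale.Agent.P045g.C61.Pf542
import Vale.Agent.P045g.C61.Pf543
import Vale.Agent.P045g.C61.Pf544
import Vale.Agent.P045g.C61.Pf545
import Vale.Agent.P045g.C61.Pf546
import Vale.Agent.P045g.C61.Pf547
import Vale.Agent.P045g.C61.Pf548
import Vale.Agent.P045g.C61.Pf549

namespace Vale.Agent.P045g.C61

open Vale.Agent.P045b Vale.Agent.P045g

universe u

theorem c648 (h32400 : ∀ j, j < 107726 → GoodG.{u} par (db j)) : ∀ j, j < 107939 → GoodG.{u} par (db j) := by
  have h32401 := checkRangeG_sound parWF r2 pf32400 h32400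
  have h32402 := checkRangeG_sound parWF r2 pf32401 h32401
  have h32403 := checkRangeG_sound parWF r2 pf32402 h32402
  have h32404 := checkRangeG_sound parWF r2 pf32403 h32403
  have h32405 := checkRangeG_sound parWF r2 pf32404 h32404
  have h32406 := checkRangeG_sound parWF r2 pf32405 h32405
  have h32407 := checkRangeG_sound parWF r2 pf32406 h32406
  have h32408 := checkRangeG_sound parWF r2 pf32407 h32407
  have h32409 := checkRangeG_sound parWF r2 pf32408 h32408
  have h32410 := checkRangeG_sound parWF r2 pf32409 h32409
  have h32411 := checkRangeG_sound parWF r2 pf32410 h32410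
  have h32412 := checkRangeG_sound parWF r2 pf32411 h32411
  have h32413 := checkRangeG_sound parWF r2 pf32412 h32412
  have h32414 := checkRangeG_sound parWF r2 pf32413 h32413
  have h32415 := checkRangeG_sound parWF r2 pf32414 h32414
  have h32416 := checkRangeG_sound parWF r2 pf32415 h32415
  have h32417 := checkRangeG_sound parWF r2 pf32416 h32416
  have h32418 := checkRangeG_sound parWF r2 pf32417 h32417
  have h32419 := checkRangeG_sound parWF r2 pf32418 h32418
  have h32420 := checkRangeG_sound parWF r2 pf32419 h32419
  have h32421 := checkRangeG_sound parWF r2 pf32420 h32420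
  have h32422 := checkRangeG_sound parWF r2 pf32421 h32421
  have h32423 := checkRangeG_sound parWF r2 pf32422 h32422
  have h32424 := checkRangeG_sound parWF r2 pf32423 h32423
  have h32425 := checkRangeG_sound parWF r2 pf32424 h32424
  have h32426 := checkRangeG_sound parWF r2 pf32425 h32425
  have h32427 := checkRangeG_sound parWF r2 pf32426 h32426
  have h32428 := checkRangeG_sound parWF r2 pf32427 h32427
  have h32429 := checkRangeG_sound parWF r2 pf32428 h32428
  have h32430 := checkRangeG_sound parWF r2 pf32429 h32429
  have h32431 := checkRangeG_sound parWF r2 pf32430 h32430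
  have h32432 := checkRangeG_sound parWF r2 pf32431 h32431
  have h32433 := checkRangeG_sound parWF r2 pf32432 h32432
  have h32434 := checkRangeG_sound parWF r2 pf32433 h32433
  have h32435 := checkRangeG_sound parWF r2 pf32434 h32434
  have h32436 := checkRangeG_sound parWF r2 pf32435 h32435
  have h32437 := checkRangeG_sound parWF r2 pf32436 h32436
  have h32438 := checkRangeG_sound parWF r2 pf32437 h32437
  have h32439 := checkRangeG_sound parWF r2 pf32438 h32438
  have h32440 := checkRangeG_sound parWF r2 pf32439 h32439
  have h32441 := checkRangeG_sound parWF r2 pf32440 h32440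
  have h32442 := checkRangeG_sound parWF r2 pf32441 h32441
  have h32443 := checkRangeG_sound parWF r2 pf32442 h32442
  have h32444 := checkRangeG_sound parWF r2 pf32443 h32443
  have h32445 := checkRangeG_sound parWF r2 pf32444 h32444
  have h32446 := checkRangeG_sound parWF r2 pf32445 h32445
  have h32447 := checkRangeG_sound parWF r2 pf32446 h32446
  have h32448 := checkRangeG_sound parWF r2 pf32447 h32447
  have h32449 := checkRangeG_sound parWF r2 pf32448 h32448
  have h32450 := checkRangeG_sound parWF r2 pf32449 h32449
  exact h32450

theorem c649 (h32450 : ∀ j, j < 107939 → GoodG.{u} par (db j)) : ∀ j, j < 108121 → GoodG.{u} par (db j) := by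
  have h32451 := checkRangeG_sound parWF r2 pf32450 h32450
  have h32452 := checkRangeG_sound parWF r2 pf32451 h32451
  have h32453 := checkRangeG_sound parWF r2 pf32452 h32452
  have h32454 := checkRangeG_sound parWF r2 pf32453 h32453
  have h32455 := checkRangeG_sound parWF r2 pf32454 h32454
  have h32456 := checkRangeG_sound parWF r2 pf32455 h32455
  have h32457 := checkRangeG_sound parWF r2 pf32456 h32456
  have h32458 := checkRangeG_sound parWF r2 pf32457 h32457
  have h32459 := checkRangeG_sound parWF r2 pf32458 h32458
  have h32460 := checkRangeG_sound parWF r2 pf32459 h32459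
  have h32461 := checkRangeG_sound parWF r2 pf32460 h32460
  have h32462 := checkRangeG_sound parWF r2 pf32461 h32461
  have h32463 := checkRangeG_sound parWF r2 pf32462 h32462
  have h32464 := checkRangeG_sound parWF r2 pf32463 h32463
  have h32465 := checkRangeG_sound parWF r2 pf32464 h32464
  have h32466 := checkRangeG_sound parWF r2 pf32465 h32465
  have h32467 := checkRangeG_sound parWF r2 pf32466 h32466
  have h32468 := checkRangeG_sound parWF r2 pf32467 h32467
  have h32469 := checkRangeG_sound parWF r2 pf32468 h32468
  have h32470 := checkRangeG_sound parWF r2 pf32469 h32469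
  have h32471 := checkRangeG_sound parWF r2 pf32470 h32470
  have h32472 := checkRangeG_sound parWF r2 pf32471 h32471
  have h32473 := checkRangeG_sound parWF r2 pf32472 h32472
  have h32474 := checkRangeG_sound parWF r2 pf32473 h32473
  have h32475 := checkRangeG_sound parWF r2 pf32474 h32474
  have h32476 := checkRangeG_sound parWF r2 pf32475 h32475
  have h32477 := checkRangeG_sound parWF r2 pf32476 h32476
  have h32478 := checkRangeG_sound parWF r2 pf32477 h32477
  have h32479 := checkRangeG_sound parWF r2 pf32478 h32478
  have h32480 := checkRangeG_sound parWF r2 pf32479 h32479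
  have h32481 := checkRangeG_sound parWF r2 pf32480 h32480
  have h32482 := checkRangeG_sound parWF r2 pf32481 h32481
  have h32483 := checkRangeG_sound parWF r2 pf32482 h32482
  have h32484 := checkRangeG_sound parWF r2 pf32483 h32483
  have h32485 := checkRangeG_sound parWF r2 pf32484 h32484
  have h32486 := checkRangeG_sound parWF r2 pf32485 h32485
  have h32487 := checkRangeG_sound parWF r2 pf32486 h32486
  have h32488 := checkRangeG_sound parWF r2 pf32487 h32487
  have h32489 := checkRangeG_sound parWF r2 pf32488 h32488
  have h32490 := checkRangeG_sound parWF r2 pf32489 h32489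
  have h32491 := checkRangeG_sound parWF r2 pf32490 h32490
  have h32492 := checkRangeG_sound parWF r2 pf32491 h32491
  have h32493 := checkRangeG_sound parWF r2 pf32492 h32492
  have h32494 := checkRangeG_sound parWF r2 pf32493 h32493
  have h32495 := checkRangeG_sound parWF r2 pf32494 h32494
  have h32496 := checkRangeG_sound parWF r2 pf32495 h32495
  have h32497 := checkRangeG_sound parWF r2 pf32496 h32496
  have h32498 := checkRangeG_sound parWF r2 pf32497 h32497
  have h32499 := checkRangeG_sound parWF r2 pf32498 h32498
  have h32500 := checkRangeG_sound parWF r2 pf32499 h32499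
  exact h32500

theorem c650 (h32500 : ∀ j, j < 108121 → GoodG.{u} par (db j)) : ∀ j, j < 108312 → GoodG.{u} par (db j) := by
  have h32501 := checkRangeG_sound parWF r2 pf32500 h32500
  have h32502 := checkRangeG_sound parWF r2 pf32501 h32501
  have h32503 := checkRangeG_sound parWF r2 pf32502 h32502
  have h32504 := checkRangeG_sound parWF r2 pf32503 h32503
  have h32505 := checkRangeG_sound parWF r2 pf32504 h32504
  have h32506 := checkRangeG_sound parWF r2 pf32505 h32505
  have h32507 := checkRangeG_sound parWF r2 pf32506 h32506
  have h32508 := checkRangeG_sound parWF r2 pf32507 h32507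
  have h32509 := checkRangeG_sound parWF r2 pf32508 h32508
  have h32510 := checkRangeG_sound parWF r2 pf32509 h32509
  have h32511 := checkRangeG_sound parWF r2 pf32510 h32510
  have h32512 := checkRangeG_sound parWF r2 pf32511 h32511
  have h32513 := checkRangeG_sound parWF r2 pf32512 h32512
  have h32514 := checkRangeG_sound parWF r2 pf32513 h32513
  have h32515 := checkRangeG_sound parWF r2 pf32514 h32514
  have h32516 := checkRangeG_sound parWF r2 pf32515 h32515
  have h32517 := checkRangeG_sound parWF r2 pf32516 h32516
  have h32518 := checkRangeG_sound parWF r2 pf32517 h32517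
  have h32519 := checkRangeG_sound parWF r2 pf32518 h32518
  have h32520 := checkRangeG_sound parWF r2 pf32519 h32519
  have h32521 := checkRangeG_sound parWF r2 pf32520 h32520
  have h32522 := checkRangeG_sound parWF r2 pf32521 h32521
  have h32523 := checkRangeG_sound parWF r2 pf32522 h32522
  have h32524 := checkRangeG_sound parWF r2 pf32523 h32523
  have h32525 := checkRangeG_sound parWF r2 pf32524 h32524
  have h32526 := checkRangeG_sound parWF r2 pf32525 h32525
  have h32527 := checkRangeG_sound parWF r2 pf32526 h32526
  have h32528 := checkRangeG_sound parWF r2 pf32527 h32527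
  have h32529 := checkRangeG_sound parWF r2 pf32528 h32528
  have h32530 := checkRangeG_sound parWF r2 pf32529 h32529
  have h32531 := checkRangeG_sound parWF r2 pf32530 h32530
  have h32532 := checkRangeG_sound parWF r2 pf32531 h32531
  have h32533 := checkRangeG_sound parWF r2 pf32532 h32532
  have h32534 := checkRangeG_sound parWF r2 pf32533 h32533
  have h32535 := checkRangeG_sound parWF r2 pf32534 h32534
  have h32536 := checkRangeG_sound parWF r2 pf32535 h32535
  have h32537 := checkRangeG_sound parWF r2 pf32536 h32536
  have h32538 := checkRangeG_sound parWF r2 pf32537 h32537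
  have h32539 := checkRangeG_sound parWF r2 pf32538 h32538
  have h32540 := checkRangeG_sound parWF r2 pf32539 h32539
  have h32541 := checkRangeG_sound parWF r2 pf32540 h32540
  have h32542 := checkRangeG_sound parWF r2 pf32541 h32541
  have h32543 := checkRangeG_sound parWF r2 pf32542 h32542
  have h32544 := checkRangeG_sound parWF r2 pf32543 h32543
  have h32545 := checkRangeG_sound parWF r2 pf32544 h32544
  have h32546 := checkRangeG_sound parWF r2 pf32545 h32545
  have h32547 := checkRangeG_sound parWF r2 pf32546 h32546
  have h32548 := checkRangeG_sound parWF r2 pf32547 h32547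
  have h32549 := checkRangeG_sound parWF r2 pf32548 h32548
  have h32550 := checkRangeG_sound parWF r2 pf32549 h32549
  exact h32550

theorem c651 (h32550 : ∀ j, j < 108312 → GoodG.{u} par (db j)) : ∀ j, j < 108517 → GoodG.{u} par (db j) := by
  have h32551 := checkRangeG_sound parWF r2 pf32550 h32550
  have h32552 := checkRangeG_sound parWF r2 pf32551 h32551
  have h32553 := checkRangeG_sound parWF r2 pf32552 h32552
  have h32554 := checkRangeG_sound parWF r2 pf32553 h32553
  have h32555 := checkRangeG_sound parWF r2 pf32554 h32554
  have h32556 := checkRangeG_sound parWF r2 pf32555 h32555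
  have h32557 := checkRangeG_sound parWF r2 pf32556 h32556
  have h32558 := checkRangeG_sound parWF r2 pf32557 h32557
  have h32559 := checkRangeG_sound parWF r2 pf32558 h32558
  have h32560 := checkRangeG_sound parWF r2 pf32559 h32559
  have h32561 := checkRangeG_sound parWF r2 pf32560 h32560
  have h32562 := checkRangeG_sound parWF r2 pf32561 h32561
  have h32563 := checkRangeG_sound parWF r2 pf32562 h32562
  have h32564 := checkRangeG_sound parWF r2 pf32563 h32563
  have h32565 := checkRangeG_sound parWF r2 pf32564 h32564
  have h32566 := checkRangeG_sound parWF r2 pf32565 h32565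
  have h32567 := checkRangeG_sound parWF r2 pf32566 h32566
  have h32568 := checkRangeG_sound parWF r2 pf32567 h32567
  have h32569 := checkRangeG_sound parWF r2 pf32568 h32568
  have h32570 := checkRangeG_sound parWF r2 pf32569 h32569
  have h32571 := checkRangeG_sound parWF r2 pf32570 h32570
  have h32572 := checkRangeG_sound parWF r2 pf32571 h32571
  have h32573 := checkRangeG_sound parWF r2 pf32572 h32572
  have h32574 := checkRangeG_sound parWF r2 pf32573 h32573
  have h32575 := checkRangeG_sound parWF r2 pf32574 h32574
  have h32576 := checkRangeG_sound parWF r2 pf32575 h32575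
  have h32577 := checkRangeG_sound parWF r2 pf32576 h32576
  have h32578 := checkRangeG_sound parWF r2 pf32577 h32577
  have h32579 := checkRangeG_sound parWF r2 pf32578 h32578
  have h32580 := checkRangeG_sound parWF r2 pf32579 h32579
  have h32581 := checkRangeG_sound parWF r2 pf32580 h32580
  have h32582 := checkRangeG_sound parWF r2 pf32581 h32581
  have h32583 := checkRangeG_sound parWF r2 pf32582 h32582
  have h32584 := checkRangeG_sound parWF r2 pf32583 h32583
  have h32585 := checkRangeG_sound parWF r2 pf32584 h32584
  have h32586 := checkRangeG_sound parWF r2 pf32585 h32585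
  have h32587 := checkRangeG_sound parWF r2 pf32586 h32586
  have h32588 := checkRangeG_sound parWF r2 pf32587 h32587
  have h32589 := checkRangeG_sound parWF r2 pf32588 h32588
  have h32590 := checkRangeG_sound parWF r2 pf32589 h32589
  have h32591 := checkRangeG_sound parWF r2 pf32590 h32590
  have h32592 := checkRangeG_sound parWF r2 pf32591 h32591
  have h32593 := checkRangeG_sound parWF r2 pf32592 h32592
  have h32594 := checkRangeG_sound parWF r2 pf32593 h32593
  have h32595 := checkRangeG_sound parWF r2 pf32594 h32594
  have h32596 := checkRangeG_sound parWF r2 pf32595 h32595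
  have h32597 := checkRangeG_sound parWF r2 pf32596 h32596
  have h32598 := checkRangeG_sound parWF r2 pf32597 h32597
  have h32599 := checkRangeG_sound parWF r2 pf32598 h32598
  have h32600 := checkRangeG_sound parWF r2 pf32599 h32599
  exact h32600

theorem c652 (h32600 : ∀ j, j < 108517 → GoodG.{u} par (db j)) : ∀ j, j < 108691 → GoodG.{u} par (db j) := by
  have h32601 := checkRangeG_sound parWF r2 pf32600 h32600
  have h32602 := checkRangeG_sound parWF r2 pf32601 h32601
  have h32603 := checkRangeG_sound parWF r2 pf32602 h32602
  have h32604 := checkRangeG_sound parWF r2 pf32603 h32603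
  have h32605 := checkRangeG_sound parWF r2 pf32604 h32604
  have h32606 := checkRangeG_sound parWF r2 pf32605 h32605
  have h32607 := checkRangeG_sound parWF r2 pf32606 h32606
  have h32608 := checkRangeG_sound parWF r2 pf32607 h32607
  have h32609 := checkRangeG_sound parWF r2 pf32608 h32608
  have h32610 := checkRangeG_sound parWF r2 pf32609 h32609
  have h32611 := checkRangeG_sound parWF r2 pf32610 h32610
  have h32612 := checkRangeG_sound parWF r2 pf32611 h32611
  have h32613 := checkRangeG_sound parWF r2 pf32612 h32612
  have h32614 := checkRangeG_sound parWF r2 pf32613 h32613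
  have h32615 := checkRangeG_sound parWF r2 pf32614 h32614
  have h32616 := checkRangeG_sound parWF r2 pf32615 h32615
  have h32617 := checkRangeG_sound parWF r2 pf32616 h32616
  have h32618 := checkRangeG_sound parWF r2 pf32617 h32617
  have h32619 := checkRangeG_sound parWF r2 pf32618 h32618
  have h32620 := checkRangeG_sound parWF r2 pf32619 h32619
  have h32621 := checkRangeG_sound parWF r2 pf32620 h32620
  have h32622 := checkRangeG_sound parWF r2 pf32621 h32621
  have h32623 := checkRangeG_sound parWF r2 pf32622 h32622
  have h32624 := checkRangeG_sound parWF r2 pf32623 h32623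
  have h32625 := checkRangeG_sound parWF r2 pf32624 h32624
  have h32626 := checkRangeG_sound parWF r2 pf32625 h32625
  have h32627 := checkRangeG_sound parWF r2 pf32626 h32626
  have h32628 := checkRangeG_sound parWF r2 pf32627 h32627
  have h32629 := checkRangeG_sound parWF r2 pf32628 h32628
  have h32630 := checkRangeG_sound parWF r2 pf32629 h32629
  have h32631 := checkRangeG_sound parWF r2 pf32630 h32630
  have h32632 := checkRangeG_sound parWF r2 pf32631 h32631
  have h32633 := checkRangeG_sound parWF r2 pf32632 h32632
  have h32634 := checkRangeG_sound parWF r2 pf32633 h32633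
  have h32635 := checkRangeG_sound parWF r2 pf32634 h32634
  have h32636 := checkRangeG_sound parWF r2 pf32635 h32635
  have h32637 := checkRangeG_sound parWF r2 pf32636 h32636
  have h32638 := checkRangeG_sound parWF r2 pf32637 h32637
  have h32639 := checkRangeG_sound parWF r2 pf32638 h32638
  have h32640 := checkRangeG_sound parWF r2 pf32639 h32639
  have h32641 := checkRangeG_sound parWF r2 pf32640 h32640
  have h32642 := checkRangeG_sound parWF r2 pf32641 h32641
  have h32643 := checkRangeG_sound parWF r2 pf32642 h32642
  have h32644 := checkRangeG_sound parWF r2 pf32643 h32643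
  have h32645 := checkRangeG_sound parWF r2 pf32644 h32644
  have h32646 := checkRangeG_sound parWF r2 pf32645 h32645
  have h32647 := checkRangeG_sound parWF r2 pf32646 h32646
  have h32648 := checkRangeG_sound parWF r2 pf32647 h32647
  have h32649 := checkRangeG_sound parWF r2 pf32648 h32648
  have h32650 := checkRangeG_sound parWF r2 pf32649 h32649
  exact h32650

theorem c653 (h32650 : ∀ j, j < 108691 → GoodG.{u} par (db j)) : ∀ j, j < 108886 → GoodG.{u} par (db j) := by
  have h32651 := checkRangeG_sound parWF r2 pf32650 h32650
  have h32652 := checkRangeG_sound parWF r2 pf32651 h32651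
  have h32653 := checkRangeG_sound parWF r2 pf32652 h32652
  have h32654 := checkRangeG_sound parWF r2 pf32653 h32653
  have h32655 := checkRangeG_sound parWF r2 pf32654 h32654
  have h32656 := checkRangeG_sound parWF r2 pf32655 h32655
  have h32657 := checkRangeG_sound parWF r2 pf32656 h32656
  have h32658 := checkRangeG_sound parWF r2 pf32657 h32657
  have h32659 := checkRangeG_sound parWF r2 pf32658 h32658
  have h32660 := checkRangeG_sound parWF r2 pf32659 h32659
  have h32661 := checkRangeG_sound parWF r2 pf32660 h32660
  have h32662 := checkRangeG_sound parWF r2 pf32661 h32661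
  have h32663 := checkRangeG_sound parWF r2 pf32662 h32662
  have h32664 := checkRangeG_sound parWF r2 pf32663 h32663
  have h32665 := checkRangeG_sound parWF r2 pf32664 h32664
  have h32666 := checkRangeG_sound parWF r2 pf32665 h32665
  have h32667 := checkRangeG_sound parWF r2 pf32666 h32666
  have h32668 := checkRangeG_sound parWF r2 pf32667 h32667
  have h32669 := checkRangeG_sound parWF r2 pf32668 h32668
  have h32670 := checkRangeG_sound parWF r2 pf32669 h32669
  have h32671 := checkRangeG_sound parWF r2 pf32670 h32670
  have h32672 := checkRangeG_sound parWF r2 pf32671 h32671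
  have h32673 := checkRangeG_sound parWF r2 pf32672 h32672
  have h32674 := checkRangeG_sound parWF r2 pf32673 h32673
  have h32675 := checkRangeG_sound parWF r2 pf32674 h32674
  have h32676 := checkRangeG_sound parWF r2 pf32675 h32675
  have h32677 := checkRangeG_sound parWF r2 pf32676 h32676
  have h32678 := checkRangeG_sound parWF r2 pf32677 h32677
  have h32679 := checkRangeG_sound parWF r2 pf32678 h32678
  have h32680 := checkRangeG_sound parWF r2 pf32679 h32679
  have h32681 := checkRangeG_sound parWF r2 pf32680 h32680
  have h32682 := checkRangeG_sound parWF r2 pf32681 h32681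
  have h32683 := checkRangeG_sound parWF r2 pf32682 h32682
  have h32684 := checkRangeG_sound parWF r2 pf32683 h32683
  have h32685 := checkRangeG_sound parWF r2 pf32684 h32684
  have h32686 := checkRangeG_sound parWF r2 pf32685 h32685
  have h32687 := checkRangeG_sound parWF r2 pf32686 h32686
  have h32688 := checkRangeG_sound parWF r2 pf32687 h32687
  have h32689 := checkRangeG_sound parWF r2 pf32688 h32688
  have h32690 := checkRangeG_sound parWF r2 pf32689 h32689
  have h32691 := checkRangeG_sound parWF r2 pf32690 h32690
  have h32692 := checkRangeG_sound parWF r2 pf32691 h32691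
  have h32693 := checkRangeG_sound parWF r2 pf32692 h32692
  have h32694 := checkRangeG_sound parWF r2 pf32693 h32693
  have h32695 := checkRangeG_sound parWF r2 pf32694 h32694
  have h32696 := checkRangeG_sound parWF r2 pf32695 h32695
  have h32697 := checkRangeG_sound parWF r2 pf32696 h32696
  have h32698 := checkRangeG_sound parWF r2 pf32697 h32697
  have h32699 := checkRangeG_sound parWF r2 pf32698 h32698
  have h32700 := checkRangeG_sound parWF r2 pf32699 h32699
  exact h32700

theorem c654 (h32700 : ∀ j, j < 108886 → GoodG.{u} par (db j)) : ∀ j, j < 109083 → GoodG.{u} par (db j) := by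
  have h32701 := checkRangeG_sound parWF r2 pf32700 h32700
  have h32702 := checkRangeG_sound parWF r2 pf32701 h32701
  have h32703 := checkRangeG_sound parWF r2 pf32702 h32702
  have h32704 := checkRangeG_sound parWF r2 pf32703 h32703
  have h32705 := checkRangeG_sound parWF r2 pf32704 h32704
  have h32706 := checkRangeG_sound parWF r2 pf32705 h32705
  have h32707 := checkRangeG_sound parWF r2 pf32706 h32706
  have h32708 := checkRangeG_sound parWF r2 pf32707 h32707
  have h32709 := checkRangeG_sound parWF r2 pf32708 h32708
  have h32710 := checkRangeG_sound parWF r2 pf32709 h32709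
  have h32711 := checkRangeG_sound parWF r2 pf32710 h32710
  have h32712 := checkRangeG_sound parWF r2 pf32711 h32711
  have h32713 := checkRangeG_sound parWF r2 pf32712 h32712
  have h32714 := checkRangeG_sound parWF r2 pf32713 h32713
  have h32715 := checkRangeG_sound parWF r2 pf32714 h32714
  have h32716 := checkRangeG_sound parWF r2 pf32715 h32715
  have h32717 := checkRangeG_sound parWF r2 pf32716 h32716
  have h32718 := checkRangeG_sound parWF r2 pf32717 h32717
  have h32719 := checkRangeG_sound parWF r2 pf32718 h32718
  have h32720 := checkRangeG_sound parWF r2 pf32719 h32719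
  have h32721 := checkRangeG_sound parWF r2 pf32720 h32720
  have h32722 := checkRangeG_sound parWF r2 pf32721 h32721
  have h32723 := checkRangeG_sound parWF r2 pf32722 h32722
  have h32724 := checkRangeG_sound parWF r2 pf32723 h32723
  have h32725 := checkRangeG_sound parWF r2 pf32724 h32724
  have h32726 := checkRangeG_sound parWF r2 pf32725 h32725
  have h32727 := checkRangeG_sound parWF r2 pf32726 h32726
  have h32728 := checkRangeG_sound parWF r2 pf32727 h32727
  have h32729 := checkRangeG_sound parWF r2 pf32728 h32728
  have h32730 := checkRangeG_sound parWF r2 pf32729 h32729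
  have h32731 := checkRangeG_sound parWF r2 pf32730 h32730
  have h32732 := checkRangeG_sound parWF r2 pf32731 h32731
  have h32733 := checkRangeG_sound parWF r2 pf32732 h32732
  have h32734 := checkRangeG_sound parWF r2 pf32733 h32733
  have h32735 := checkRangeG_sound parWF r2 pf32734 h32734
  have h32736 := checkRangeG_sound parWF r2 pf32735 h32735
  have h32737 := checkRangeG_sound parWF r2 pf32736 h32736
  have h32738 := checkRangeG_sound parWF r2 pf32737 h32737
  have h32739 := checkRangeG_sound parWF r2 pf32738 h32738
  have h32740 := checkRangeG_sound parWF r2 pf32739 h32739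
  have h32741 := checkRangeG_sound parWF r2 pf32740 h32740
  have h32742 := checkRangeG_sound parWF r2 pf32741 h32741
  have h32743 := checkRangeG_sound parWF r2 pf32742 h32742
  have h32744 := checkRangeG_sound parWF r2 pf32743 h32743
  have h32745 := checkRangeG_sound parWF r2 pf32744 h32744
  have h32746 := checkRangeG_sound parWF r2 pf32745 h32745
  have h32747 := checkRangeG_sound parWF r2 pf32746 h32746
  have h32748 := checkRangeG_sound parWF r2 pf32747 h32747
  have h32749 := checkRangeG_sound parWF r2 pf32748 h32748
  have h32750 := checkRangeG_sound parWF r2 pf32749 h32749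
  exact h32750

theorem c655 (h32750 : ∀ j, j < 109083 → GoodG.{u} par (db j)) : ∀ j, j < 109238 → GoodG.{u} par (db j) := by
  have h32751 := checkRangeG_sound parWF r2 pf32750 h32750
  have h32752 := checkRangeG_sound parWF r2 pf32751 h32751
  have h32753 := checkRangeG_sound parWF r2 pf32752 h32752
  have h32754 := checkRangeG_sound parWF r2 pf32753 h32753
  have h32755 := checkRangeG_sound parWF r2 pf32754 h32754
  have h32756 := checkRangeG_sound parWF r2 pf32755 h32755
  have h32757 := checkRangeG_sound parWF r2 pf32756 h32756
  have h32758 := checkRangeG_sound parWF r2 pf32757 h32757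
  have h32759 := checkRangeG_sound parWF r2 pf32758 h32758
  have h32760 := checkRangeG_sound parWF r2 pf32759 h32759
  have h32761 := checkRangeG_sound parWF r2 pf32760 h32760
  have h32762 := checkRangeG_sound parWF r2 pf32761 h32761
  have h32763 := checkRangeG_sound parWF r2 pf32762 h32762
  have h32764 := checkRangeG_sound parWF r2 pf32763 h32763
  have h32765 := checkRangeG_sound parWF r2 pf32764 h32764
  have h32766 := checkRangeG_sound parWF r2 pf32765 h32765
  have h32767 := checkRangeG_sound parWF r2 pf32766 h32766
  have h32768 := checkRangeG_sound parWF r2 pf32767 h32767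
  have h32769 := checkRangeG_sound parWF r2 pf32768 h32768
  have h32770 := checkRangeG_sound parWF r2 pf32769 h32769
  have h32771 := checkRangeG_sound parWF r2 pf32770 h32770
  have h32772 := checkRangeG_sound parWF r2 pf32771 h32771
  have h32773 := checkRangeG_sound parWF r2 pf32772 h32772
  have h32774 := checkRangeG_sound parWF r2 pf32773 h32773
  have h32775 := checkRangeG_sound parWF r2 pf32774 h32774
  have h32776 := checkRangeG_sound parWF r2 pf32775 h32775
  have h32777 := checkRangeG_sound parWF r2 pf32776 h32776
  have h32778 := checkRangeG_sound parWF r2 pf32777 h32777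
  have h32779 := checkRangeG_sound parWF r2 pf32778 h32778
  have h32780 := checkRangeG_sound parWF r2 pf32779 h32779
  have h32781 := checkRangeG_sound parWF r2 pf32780 h32780
  have h32782 := checkRangeG_sound parWF r2 pf32781 h32781
  have h32783 := checkRangeG_sound parWF r2 pf32782 h32782
  have h32784 := checkRangeG_sound parWF r2 pf32783 h32783
  have h32785 := checkRangeG_sound parWF r2 pf32784 h32784
  have h32786 := checkRangeG_sound parWF r2 pf32785 h32785
  have h32787 := checkRangeG_sound parWF r2 pf32786 h32786
  have h32788 := checkRangeG_sound parWF r2 pf32787 h32787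
  have h32789 := checkRangeG_sound parWF r2 pf32788 h32788
  have h32790 := checkRangeG_sound parWF r2 pf32789 h32789
  have h32791 := checkRangeG_sound parWF r2 pf32790 h32790
  have h32792 := checkRangeG_sound parWF r2 pf32791 h32791
  have h32793 := checkRangeG_sound parWF r2 pf32792 h32792
  have h32794 := checkRangeG_sound parWF r2 pf32793 h32793
  have h32795 := checkRangeG_sound parWF r2 pf32794 h32794
  have h32796 := checkRangeG_sound parWF r2 pf32795 h32795
  have h32797 := checkRangeG_sound parWF r2 pf32796 h32796
  have h32798 := checkRangeG_sound parWF r2 pf32797 h32797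
  have h32799 := checkRangeG_sound parWF r2 pf32798 h32798
  have h32800 := checkRangeG_sound parWF r2 pf32799 h32799
  exact h32800

theorem c656 (h32800 : ∀ j, j < 109238 → GoodG.{u} par (db j)) : ∀ j, j < 109424 → GoodG.{u} par (db j) := by
  have h32801 := checkRangeG_sound parWF r2 pf32800 h32800
  have h32802 := checkRangeG_sound parWF r2 pf32801 h32801
  have h32803 := checkRangeG_sound parWF r2 pf32802 h32802
  have h32804 := checkRangeG_sound parWF r2 pf32803 h32803
  have h32805 := checkRangeG_sound parWF r2 pf32804 h32804
  have h32806 := checkRangeG_sound parWF r2 pf32805 h32805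
  have h32807 := checkRangeG_sound parWF r2 pf32806 h32806
  have h32808 := checkRangeG_sound parWF r2 pf32807 h32807
  have h32809 := checkRangeG_sound parWF r2 pf32808 h32808
  have h32810 := checkRangeG_sound parWF r2 pf32809 h32809
  have h32811 := checkRangeG_sound parWF r2 pf32810 h32810
  have h32812 := checkRangeG_sound parWF r2 pf32811 h32811
  have h32813 := checkRangeG_sound parWF r2 pf32812 h32812
  have h32814 := checkRangeG_sound parWF r2 pf32813 h32813
  have h32815 := checkRangeG_sound parWF r2 pf32814 h32814
  have h32816 := checkRangeG_sound parWF r2 pf32815 h32815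
  have h32817 := checkRangeG_sound parWF r2 pf32816 h32816
  have h32818 := checkRangeG_sound parWF r2 pf32817 h32817
  have h32819 := checkRangeG_sound parWF r2 pf32818 h32818
  have h32820 := checkRangeG_sound parWF r2 pf32819 h32819
  have h32821 := checkRangeG_sound parWF r2 pf32820 h32820
  have h32822 := checkRangeG_sound parWF r2 pf32821 h32821
  have h32823 := checkRangeG_sound parWF r2 pf32822 h32822
  have h32824 := checkRangeG_sound parWF r2 pf32823 h32823
  have h32825 := checkRangeG_sound parWF r2 pf32824 h32824
  have h32826 := checkRangeG_sound parWF r2 pf32825 h32825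
  have h32827 := checkRangeG_sound parWF r2 pf32826 h32826
  have h32828 := checkRangeG_sound parWF r2 pf32827 h32827
  have h32829 := checkRangeG_sound parWF r2 pf32828 h32828
  have h32830 := checkRangeG_sound parWF r2 pf32829 h32829
  have h32831 := checkRangeG_sound parWF r2 pf32830 h32830
  have h32832 := checkRangeG_sound parWF r2 pf32831 h32831
  have h32833 := checkRangeG_sound parWF r2 pf32832 h32832
  have h32834 := checkRangeG_sound parWF r2 pf32833 h32833
  have h32835 := checkRangeG_sound parWF r2 pf32834 h32834
  have h32836 := checkRangeG_sound parWF r2 pf32835 h32835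
  have h32837 := checkRangeG_sound parWF r2 pf32836 h32836
  have h32838 := checkRangeG_sound parWF r2 pf32837 h32837
  have h32839 := checkRangeG_sound parWF r2 pf32838 h32838
  have h32840 := checkRangeG_sound parWF r2 pf32839 h32839
  have h32841 := checkRangeG_sound parWF r2 pf32840 h32840
  have h32842 := checkRangeG_sound parWF r2 pf32841 h32841
  have h32843 := checkRangeG_sound parWF r2 pf32842 h32842
  have h32844 := checkRangeG_sound parWF r2 pf32843 h32843
  have h32845 := checkRangeG_sound parWF r2 pf32844 h32844
  have h32846 := checkRangeG_sound parWF r2 pf32845 h32845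
  have h32847 := checkRangeG_sound parWF r2 pf32846 h32846
  have h32848 := checkRangeG_sound parWF r2 pf32847 h32847
  have h32849 := checkRangeG_sound parWF r2 pf32848 h32848
  have h32850 := checkRangeG_sound parWF r2 pf32849 h32849
  exact h32850

theorem c657 (h32850 : ∀ j, j < 109424 → GoodG.{u} par (db j)) : ∀ j, j < 109611 → GoodG.{u} par (db j) := by
  have h32851 := checkRangeG_sound parWF r2 pf32850 h32850
  have h32852 := checkRangeG_sound parWF r2 pf32851 h32851
  have h32853 := checkRangeG_sound parWF r2 pf32852 h32852
  have h32854 := checkRangeG_sound parWF r2 pf32853 h32853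
  have h32855 := checkRangeG_sound parWF r2 pf32854 h32854
  have h32856 := checkRangeG_sound parWF r2 pf32855 h32855
  have h32857 := checkRangeG_sound parWF r2 pf32856 h32856
  have h32858 := checkRangeG_sound parWF r2 pf32857 h32857
  have h32859 := checkRangeG_sound parWF r2 pf32858 h32858
  have h32860 := checkRangeG_sound parWF r2 pf32859 h32859
  have h32861 := checkRangeG_sound parWF r2 pf32860 h32860
  have h32862 := checkRangeG_sound parWF r2 pf32861 h32861
  have h32863 := checkRangeG_sound parWF r2 pf32862 h32862
  have h32864 := checkRangeG_sound parWF r2 pf32863 h32863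
  have h32865 := checkRangeG_sound parWF r2 pf32864 h32864
  have h32866 := checkRangeG_sound parWF r2 pf32865 h32865
  have h32867 := checkRangeG_sound parWF r2 pf32866 h32866
  have h32868 := checkRangeG_sound parWF r2 pf32867 h32867
  have h32869 := checkRangeG_sound parWF r2 pf32868 h32868
  have h32870 := checkRangeG_sound parWF r2 pf32869 h32869
  have h32871 := checkRangeG_sound parWF r2 pf32870 h32870
  have h32872 := checkRangeG_sound parWF r2 pf32871 h32871
  have h32873 := checkRangeG_sound parWF r2 pf32872 h32872
  have h32874 := checkRangeG_sound parWF r2 pf32873 h32873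
  have h32875 := checkRangeG_sound parWF r2 pf32874 h32874
  have h32876 := checkRangeG_sound parWF r2 pf32875 h32875
  have h32877 := checkRangeG_sound parWF r2 pf32876 h32876
  have h32878 := checkRangeG_sound parWF r2 pf32877 h32877
  have h32879 := checkRangeG_sound parWF r2 pf32878 h32878
  have h32880 := checkRangeG_sound parWF r2 pf32879 h32879
  have h32881 := checkRangeG_sound parWF r2 pf32880 h32880
  have h32882 := checkRangeG_sound parWF r2 pf32881 h32881
  have h32883 := checkRangeG_sound parWF r2 pf32882 h32882
  have h32884 := checkRangeG_sound parWF r2 pf32883 h32883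
  have h32885 := checkRangeG_sound parWF r2 pf32884 h32884
  have h32886 := checkRangeG_sound parWF r2 pf32885 h32885
  have h32887 := checkRangeG_sound parWF r2 pf32886 h32886
  have h32888 := checkRangeG_sound parWF r2 pf32887 h32887
  have h32889 := checkRangeG_sound parWF r2 pf32888 h32888
  have h32890 := checkRangeG_sound parWF r2 pf32889 h32889
  have h32891 := checkRangeG_sound parWF r2 pf32890 h32890
  have h32892 := checkRangeG_sound parWF r2 pf32891 h32891
  have h32893 := checkRangeG_sound parWF r2 pf32892 h32892
  have h32894 := checkRangeG_sound parWF r2 pf32893 h32893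
  have h32895 := checkRangeG_sound parWF r2 pf32894 h32894
  have h32896 := checkRangeG_sound parWF r2 pf32895 h32895
  have h32897 := checkRangeG_sound parWF r2 pf32896 h32896
  have h32898 := checkRangeG_sound parWF r2 pf32897 h32897
  have h32899 := checkRangeG_sound parWF r2 pf32898 h32898
  have h32900 := checkRangeG_sound parWF r2 pf32899 h32899
  exact h32900

theorem c658 (h32900 : ∀ j, j < 109611 → GoodG.{u} par (db j)) : ∀ j, j < 109781 → GoodG.{u} par (db j) := by
  have h32901 := checkRangeG_sound parWF r2 pf32900 h32900
  have h32902 := checkRangeG_sound parWF r2 pf32901 h32901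
  have h32903 := checkRangeG_sound parWF r2 pf32902 h32902
  have h32904 := checkRangeG_sound parWF r2 pf32903 h32903
  have h32905 := checkRangeG_sound parWF r2 pf32904 h32904
  have h32906 := checkRangeG_sound parWF r2 pf32905 h32905
  have h32907 := checkRangeG_sound parWF r2 pf32906 h32906
  have h32908 := checkRangeG_sound parWF r2 pf32907 h32907
  have h32909 := checkRangeG_sound parWF r2 pf32908 h32908
  have h32910 := checkRangeG_sound parWF r2 pf32909 h32909
  have h32911 := checkRangeG_sound parWF r2 pf32910 h32910
  have h32912 := checkRangeG_sound parWF r2 pf32911 h32911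
  have h32913 := checkRangeG_sound parWF r2 pf32912 h32912
  have h32914 := checkRangeG_sound parWF r2 pf32913 h32913
  have h32915 := checkRangeG_sound parWF r2 pf32914 h32914
  have h32916 := checkRangeG_sound parWF r2 pf32915 h32915
  have h32917 := checkRangeG_sound parWF r2 pf32916 h32916
  have h32918 := checkRangeG_sound parWF r2 pf32917 h32917
  have h32919 := checkRangeG_sound parWF r2 pf32918 h32918
  have h32920 := checkRangeG_sound parWF r2 pf32919 h32919
  have h32921 := checkRangeG_sound parWF r2 pf32920 h32920
  have h32922 := checkRangeG_sound parWF r2 pf32921 h32921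
  have h32923 := checkRangeG_sound parWF r2 pf32922 h32922
  have h32924 := checkRangeG_sound parWF r2 pf32923 h32923
  have h32925 := checkRangeG_sound parWF r2 pf32924 h32924
  have h32926 := checkRangeG_sound parWF r2 pf32925 h32925
  have h32927 := checkRangeG_sound parWF r2 pf32926 h32926
  have h32928 := checkRangeG_sound parWF r2 pf32927 h32927
  have h32929 := checkRangeG_sound parWF r2 pf32928 h32928
  have h32930 := checkRangeG_sound parWF r2 pf32929 h32929
  have h32931 := checkRangeG_sound parWF r2 pf32930 h32930
  have h32932 := checkRangeG_sound parWF r2 pf32931 h32931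
  have h32933 := checkRangeG_sound parWF r2 pf32932 h32932
  have h32934 := checkRangeG_sound parWF r2 pf32933 h32933
  have h32935 := checkRangeG_sound parWF r2 pf32934 h32934
  have h32936 := checkRangeG_sound parWF r2 pf32935 h32935
  have h32937 := checkRangeG_sound parWF r2 pf32936 h32936
  have h32938 := checkRangeG_sound parWF r2 pf32937 h32937
  have h32939 := checkRangeG_sound parWF r2 pf32938 h32938
  have h32940 := checkRangeG_sound parWF r2 pf32939 h32939
  have h32941 := checkRangeG_sound parWF r2 pf32940 h32940
  have h32942 := checkRangeG_sound parWF r2 pf32941 h32941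
  have h32943 := checkRangeG_sound parWF r2 pf32942 h32942
  have h32944 := checkRangeG_sound parWF r2 pf32943 h32943
  have h32945 := checkRangeG_sound parWF r2 pf32944 h32944
  have h32946 := checkRangeG_sound parWF r2 pf32945 h32945
  have h32947 := checkRangeG_sound parWF r2 pf32946 h32946
  have h32948 := checkRangeG_sound parWF r2 pf32947 h32947
  have h32949 := checkRangeG_sound parWF r2 pf32948 h32948
  have h32950 := checkRangeG_sound parWF r2 pf32949 h32949
  exact h32950

theorem c659 (h32950 : ∀ j, j < 109781 → GoodG.{u} par (db j)) : ∀ j, j < 109953 → GoodG.{u} par (db j) := by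
  have h32951 := checkRangeG_sound parWF r2 pf32950 h32950
  have h32952 := checkRangeG_sound parWF r2 pf32951 h32951
  have h32953 := checkRangeG_sound parWF r2 pf32952 h32952
  have h32954 := checkRangeG_sound parWF r2 pf32953 h32953
  have h32955 := checkRangeG_sound parWF r2 pf32954 h32954
  have h32956 := checkRangeG_sound parWF r2 pf32955 h32955
  have h32957 := checkRangeG_sound parWF r2 pf32956 h32956
  have h32958 := checkRangeG_sound parWF r2 pf32957 h32957
  have h32959 := checkRangeG_sound parWF r2 pf32958 h32958
  have h32960 := checkRangeG_sound parWF r2 pf32959 h32959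
  have h32961 := checkRangeG_sound parWF r2 pf32960 h32960
  have h32962 := checkRangeG_sound parWF r2 pf32961 h32961
  have h32963 := checkRangeG_sound parWF r2 pf32962 h32962
  have h32964 := checkRangeG_sound parWF r2 pf32963 h32963
  have h32965 := checkRangeG_sound parWF r2 pf32964 h32964
  have h32966 := checkRangeG_sound parWF r2 pf32965 h32965
  have h32967 := checkRangeG_sound parWF r2 pf32966 h32966
  have h32968 := checkRangeG_sound parWF r2 pf32967 h32967
  have h32969 := checkRangeG_sound parWF r2 pf32968 h32968
  have h32970 := checkRangeG_sound parWF r2 pf32969 h32969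
  have h32971 := checkRangeG_sound parWF r2 pf32970 h32970
  have h32972 := checkRangeG_sound parWF r2 pf32971 h32971
  have h32973 := checkRangeG_sound parWF r2 pf32972 h32972
  have h32974 := checkRangeG_sound parWF r2 pf32973 h32973
  have h32975 := checkRangeG_sound parWF r2 pf32974 h32974
  have h32976 := checkRangeG_sound parWF r2 pf32975 h32975
  have h32977 := checkRangeG_sound parWF r2 pf32976 h32976
  have h32978 := checkRangeG_sound parWF r2 pf32977 h32977
  have h32979 := checkRangeG_sound parWF r2 pf32978 h32978
  have h32980 := checkRangeG_sound parWF r2 pf32979 h32979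
  have h32981 := checkRangeG_sound parWF r2 pf32980 h32980
  have h32982 := checkRangeG_sound parWF r2 pf32981 h32981
  have h32983 := checkRangeG_sound parWF r2 pf32982 h32982
  have h32984 := checkRangeG_sound parWF r2 pf32983 h32983
  have h32985 := checkRangeG_sound parWF r2 pf32984 h32984
  have h32986 := checkRangeG_sound parWF r2 pf32985 h32985
  have h32987 := checkRangeG_sound parWF r2 pf32986 h32986
  have h32988 := checkRangeG_sound parWF r2 pf32987 h32987
  have h32989 := checkRangeG_sound parWF r2 pf32988 h32988
  have h32990 := checkRangeG_sound parWF r2 pf32989 h32989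
  have h32991 := checkRangeG_sound parWF r2 pf32990 h32990
  have h32992 := checkRangeG_sound parWF r2 pf32991 h32991
  have h32993 := checkRangeG_sound parWF r2 pf32992 h32992
  have h32994 := checkRangeG_sound parWF r2 pf32993 h32993
  have h32995 := checkRangeG_sound parWF r2 pf32994 h32994
  have h32996 := checkRangeG_sound parWF r2 pf32995 h32995
  have h32997 := checkRangeG_sound parWF r2 pf32996 h32996
  have h32998 := checkRangeG_sound parWF r2 pf32997 h32997
  have h32999 := checkRangeG_sound parWF r2 pf32998 h32998
  have h33000 := checkRangeG_sound parWF r2 pf32999 h32999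
  exact h33000


end Vale.Agent.P045g.C61
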