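import Vale.Agent.P045g.C61.WF
import Vale.Agent.P045g.C61.Pf550
import Vale.Agent.P045g.C61.Pf551
import Vale.Agent.P045g.C61.Pf552
import Vale.Agent.P045g.C61.Pf553
import Vale.Agent.P045g.C61.Pf554
import Vale.Agent.P045g.C61.Pf555
import Vale.Agent.P045g.C61.Pf556
import Vale.Agent.P045g.C61.Pf557
import Vale.Agent.P045g.C61.Pf558
import Vale.Agent.P045g.C61.Pf559

namespace Vale.Agent.P045g.C61

open Vale.Agent.P045b Vale.Agent.P045g

universe u

theorem c660 (h33000 : ∀ j, j < 109953 → GoodG.{u} par (db j)) : ∀ j, j < 110145 → GoodG.{u} par (db j) := by
  have h33001 := checkRangeG_sound parWF r2 pf33000 h33000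
  have h33002 := checkRangeG_sound parWF r2 pf33001 h33001
  have h33003 := checkRangeG_sound parWF r2 pf33002 h33002
  have h33004 := checkRangeG_sound parWF r2 pf33003 h33003
  have h33005 := checkRangeG_sound parWF r2 pf33004 h33004
  have h33006 := checkRangeG_sound parWF r2 pf33005 h33005
  have h33007 := checkRangeG_sound parWF r2 pf33006 h33006
  have h33008 := checkRangeG_sound parWF r2 pf33007 h33007
  have h33009 := checkRangeG_sound parWF r2 pf33008 h33008
  have h33010 := checkRangeG_sound parWF r2 pf33009 h33009
  have h33011 := checkRangeG_sound parWF r2 pf33010 h33010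
  have h33012 := checkRangeG_sound parWF r2 pf33011 h33011
  have h33013 := checkRangeG_sound parWF r2 pf33012 h33012
  have h33014 := checkRangeG_sound parWF r2 pf33013 h33013
  have h33015 := checkRangeG_sound parWF r2 pf33014 h33014
  have h33016 := checkRangeG_sound parWF r2 pf33015 h33015
  have h33017 := checkRangeG_sound parWF r2 pf33016 h33016
  have h33018 := checkRangeG_sound parWF r2 pf33017 h33017
  have h33019 := checkRangeG_sound parWF r2 pf33018 h33018
  have h33020 := checkRangeG_sound parWF r2 pf33019 h33019
  have h33021 := checkRangeG_sound parWF r2 pf33020 h33020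
  have h33022 := checkRangeG_sound parWF r2 pf33021 h33021
  have h33023 := checkRangeG_sound parWF r2 pf33022 h33022
  have h33024 := checkRangeG_sound parWF r2 pf33023 h33023
  have h33025 := checkRangeG_sound parWF r2 pf33024 h33024
  have h33026 := checkRangeG_sound parWF r2 pf33025 h33025
  have h33027 := checkRangeG_sound parWF r2 pf33026 h33026
  have h33028 := checkRangeG_sound parWF r2 pf33027 h33027
  have h33029 := checkRangeG_sound parWF r2 pf33028 h33028
  have h33030 := checkRangeG_sound parWF r2 pf33029 h33029
  have h33031 := checkRangeG_sound parWF r2 pf33030 h33030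
  have h33032 := checkRangeG_sound parWF r2 pf33031 h33031
  have h33033 := checkRangeG_sound parWF r2 pf33032 h33032
  have h33034 := checkRangeG_sound parWF r2 pf33033 h33033
  have h33035 := checkRangeG_sound parWF r2 pf33034 h33034
  have h33036 := checkRangeG_sound parWF r2 pf33035 h33035
  have h33037 := checkRangeG_sound parWF r2 pf33036 h33036
  have h33038 := checkRangeG_sound parWF r2 pf33037 h33037
  have h33039 := checkRangeG_sound parWF r2 pf33038 h33038
  have h33040 := checkRangeG_sound parWF r2 pf33039 h33039
  have h33041 := checkRangeG_sound parWF r2 pf33040 h33040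
  have h33042 := checkRangeG_sound parWF r2 pf33041 h33041
  have h33043 := checkRangeG_sound parWF r2 pf33042 h33042
  have h33044 := checkRangeG_sound parWF r2 pf33043 h33043
  have h33045 := checkRangeG_sound parWF r2 pf33044 h33044
  have h33046 := checkRangeG_sound parWF r2 pf33045 h33045
  have h33047 := checkRangeG_sound parWF r2 pf33046 h33046
  have h33048 := checkRangeG_sound parWF r2 pf33047 h33047
  have h33049 := checkRangeG_sound parWF r2 pf33048 h33048
  have h33050 := checkRangeG_sound parWF r2 pf33049 h33049
  exact h33050

theorem c661 (h33050 : ∀ j, j < 110145 → GoodG.{u} par (db j)) : ∀ j, j < 110320 → GoodG.{u} par (db j) := by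
  have h33051 := checkRangeG_sound parWF r2 pf33050 h33050
  have h33052 := checkRangeG_sound parWF r2 pf33051 h33051
  have h33053 := checkRangeG_sound parWF r2 pf33052 h33052
  have h33054 := checkRangeG_sound parWF r2 pf33053 h33053
  have h33055 := checkRangeG_sound parWF r2 pf33054 h33054
  have h33056 := checkRangeG_sound parWF r2 pf33055 h33055
  have h33057 := checkRangeG_sound parWF r2 pf33056 h33056
  have h33058 := checkRangeG_sound parWF r2 pf33057 h33057
  have h33059 := checkRangeG_sound parWF r2 pf33058 h33058
  have h33060 := checkRangeG_sound parWF r2 pf33059 h33059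
  have h33061 := checkRangeG_sound parWF r2 pf33060 h33060
  have h33062 := checkRangeG_sound parWF r2 pf33061 h33061
  have h33063 := checkRangeG_sound parWF r2 pf33062 h33062
  have h33064 := checkRangeG_sound parWF r2 pf33063 h33063
  have h33065 := checkRangeG_sound parWF r2 pf33064 h33064
  have h33066 := checkRangeG_sound parWF r2 pf33065 h33065
  have h33067 := checkRangeG_sound parWF r2 pf33066 h33066
  have h33068 := checkRangeG_sound parWF r2 pf33067 h33067
  have h33069 := checkRangeG_sound parWF r2 pf33068 h33068
  have h33070 := checkRangeG_sound parWF r2 pf33069 h33069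
  have h33071 := checkRangeG_sound parWF r2 pf33070 h33070
  have h33072 := checkRangeG_sound parWF r2 pf33071 h33071
  have h33073 := checkRangeG_sound parWF r2 pf33072 h33072
  have h33074 := checkRangeG_sound parWF r2 pf33073 h33073
  have h33075 := checkRangeG_sound parWF r2 pf33074 h33074
  have h33076 := checkRangeG_sound parWF r2 pf33075 h33075
  have h33077 := checkRangeG_sound parWF r2 pf33076 h33076
  have h33078 := checkRangeG_sound parWF r2 pf33077 h33077
  have h33079 := checkRangeG_sound parWF r2 pf33078 h33078
  have h33080 := checkRangeG_sound parWF r2 pf33079 h33079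
  have h33081 := checkRangeG_sound parWF r2 pf33080 h33080
  have h33082 := checkRangeG_sound parWF r2 pf33081 h33081
  have h33083 := checkRangeG_sound parWF r2 pf33082 h33082
  have h33084 := checkRangeG_sound parWF r2 pf33083 h33083
  have h33085 := checkRangeG_sound parWF r2 pf33084 h33084
  have h33086 := checkRangeG_sound parWF r2 pf33085 h33085
  have h33087 := checkRangeG_sound parWF r2 pf33086 h33086
  have h33088 := checkRangeG_sound parWF r2 pf33087 h33087
  have h33089 := checkRangeG_sound parWF r2 pf33088 h33088
  have h33090 := checkRangeG_sound parWF r2 pf33089 h33089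
  have h33091 := checkRangeG_sound parWF r2 pf33090 h33090
  have h33092 := checkRangeG_sound parWF r2 pf33091 h33091
  have h33093 := checkRangeG_sound parWF r2 pf33092 h33092
  have h33094 := checkRangeG_sound parWF r2 pf33093 h33093
  have h33095 := checkRangeG_sound parWF r2 pf33094 h33094
  have h33096 := checkRangeG_sound parWF r2 pf33095 h33095
  have h33097 := checkRangeG_sound parWF r2 pf33096 h33096
  have h33098 := checkRangeG_sound parWF r2 pf33097 h33097
  have h33099 := checkRangeG_sound parWF r2 pf33098 h33098
  have h33100 := checkRangeG_sound parWF r2 pf33099 h33099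
  exact h33100

theorem c662 (h33100 : ∀ j, j < 110320 → GoodG.{u} par (db j)) : ∀ j, j < 110490 → GoodG.{u} par (db j) := by
  have h33101 := checkRangeG_sound parWF r2 pf33100 h33100
  have h33102 := checkRangeG_sound parWF r2 pf33101 h33101
  have h33103 := checkRangeG_sound parWF r2 pf33102 h33102
  have h33104 := checkRangeG_sound parWF r2 pf33103 h33103
  have h33105 := checkRangeG_sound parWF r2 pf33104 h33104
  have h33106 := checkRangeG_sound parWF r2 pf33105 h33105
  have h33107 := checkRangeG_sound parWF r2 pf33106 h33106
  have h33108 := checkRangeG_sound parWF r2 pf33107 h33107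
  have h33109 := checkRangeG_sound parWF r2 pf33108 h33108
  have h33110 := checkRangeG_sound parWF r2 pf33109 h33109
  have h33111 := checkRangeG_sound parWF r2 pf33110 h33110
  have h33112 := checkRangeG_sound parWF r2 pf33111 h33111
  have h33113 := checkRangeG_sound parWF r2 pf33112 h33112
  have h33114 := checkRangeG_sound parWF r2 pf33113 h33113
  have h33115 := checkRangeG_sound parWF r2 pf33114 h33114
  have h33116 := checkRangeG_sound parWF r2 pf33115 h33115
  have h33117 := checkRangeG_sound parWF r2 pf33116 h33116
  have h33118 := checkRangeG_sound parWF r2 pf33117 h33117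
  have h33119 := checkRangeG_sound parWF r2 pf33118 h33118
  have h33120 := checkRangeG_sound parWF r2 pf33119 h33119
  have h33121 := checkRangeG_sound parWF r2 pf33120 h33120
  have h33122 := checkRangeG_sound parWF r2 pf33121 h33121
  have h33123 := checkRangeG_sound parWF r2 pf33122 h33122
  have h33124 := checkRangeG_sound parWF r2 pf33123 h33123
  have h33125 := checkRangeG_sound parWF r2 pf33124 h33124
  have h33126 := checkRangeG_sound parWF r2 pf33125 h33125
  have h33127 := checkRangeG_sound parWF r2 pf33126 h33126
  have h33128 := checkRangeG_sound parWF r2 pf33127 h33127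
  have h33129 := checkRangeG_sound parWF r2 pf33128 h33128
  have h33130 := checkRangeG_sound parWF r2 pf33129 h33129
  have h33131 := checkRangeG_sound parWF r2 pf33130 h33130
  have h33132 := checkRangeG_sound parWF r2 pf33131 h33131
  have h33133 := checkRangeG_sound parWF r2 pf33132 h33132
  have h33134 := checkRangeG_sound parWF r2 pf33133 h33133
  have h33135 := checkRangeG_sound parWF r2 pf33134 h33134
  have h33136 := checkRangeG_sound parWF r2 pf33135 h33135
  have h33137 := checkRangeG_sound parWF r2 pf33136 h33136
  have h33138 := checkRangeG_sound parWF r2 pf33137 h33137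
  have h33139 := checkRangeG_sound parWF r2 pf33138 h33138
  have h33140 := checkRangeG_sound parWF r2 pf33139 h33139
  have h33141 := checkRangeG_sound parWF r2 pf33140 h33140
  have h33142 := checkRangeG_sound parWF r2 pf33141 h33141
  have h33143 := checkRangeG_sound parWF r2 pf33142 h33142
  have h33144 := checkRangeG_sound parWF r2 pf33143 h33143
  have h33145 := checkRangeG_sound parWF r2 pf33144 h33144
  have h33146 := checkRangeG_sound parWF r2 pf33145 h33145
  have h33147 := checkRangeG_sound parWF r2 pf33146 h33146
  have h33148 := checkRangeG_sound parWF r2 pf33147 h33147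
  have h33149 := checkRangeG_sound parWF r2 pf33148 h33148
  have h33150 := checkRangeG_sound parWF r2 pf33149 h33149
  exact h33150

theorem c663 (h33150 : ∀ j, j < 110490 → GoodG.{u} par (db j)) : ∀ j, j < 110674 → GoodG.{u} par (db j) := by
  have h33151 := checkRangeG_sound parWF r2 pf33150 h33150
  have h33152 := checkRangeG_sound parWF r2 pf33151 h33151
  have h33153 := checkRangeG_sound parWF r2 pf33152 h33152
  have h33154 := checkRangeG_sound parWF r2 pf33153 h33153
  have h33155 := checkRangeG_sound parWF r2 pf33154 h33154
  have h33156 := checkRangeG_sound parWF r2 pf33155 h33155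
  have h33157 := checkRangeG_sound parWF r2 pf33156 h33156
  have h33158 := checkRangeG_sound parWF r2 pf33157 h33157
  have h33159 := checkRangeG_sound parWF r2 pf33158 h33158
  have h33160 := checkRangeG_sound parWF r2 pf33159 h33159
  have h33161 := checkRangeG_sound parWF r2 pf33160 h33160
  have h33162 := checkRangeG_sound parWF r2 pf33161 h33161
  have h33163 := checkRangeG_sound parWF r2 pf33162 h33162
  have h33164 := checkRangeG_sound parWF r2 pf33163 h33163
  have h33165 := checkRangeG_sound parWF r2 pf33164 h33164
  have h33166 := checkRangeG_sound parWF r2 pf33165 h33165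
  have h33167 := checkRangeG_sound parWF r2 pf33166 h33166
  have h33168 := checkRangeG_sound parWF r2 pf33167 h33167
  have h33169 := checkRangeG_sound parWF r2 pf33168 h33168
  have h33170 := checkRangeG_sound parWF r2 pf33169 h33169
  have h33171 := checkRangeG_sound parWF r2 pf33170 h33170
  have h33172 := checkRangeG_sound parWF r2 pf33171 h33171
  have h33173 := checkRangeG_sound parWF r2 pf33172 h33172
  have h33174 := checkRangeG_sound parWF r2 pf33173 h33173
  have h33175 := checkRangeG_sound parWF r2 pf33174 h33174
  have h33176 := checkRangeG_sound parWF r2 pf33175 h33175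
  have h33177 := checkRangeG_sound parWF r2 pf33176 h33176
  have h33178 := checkRangeG_sound parWF r2 pf33177 h33177
  have h33179 := checkRangeG_sound parWF r2 pf33178 h33178
  have h33180 := checkRangeG_sound parWF r2 pf33179 h33179
  have h33181 := checkRangeG_sound parWF r2 pf33180 h33180
  have h33182 := checkRangeG_sound parWF r2 pf33181 h33181
  have h33183 := checkRangeG_sound parWF r2 pf33182 h33182
  have h33184 := checkRangeG_sound parWF r2 pf33183 h33183
  have h33185 := checkRangeG_sound parWF r2 pf33184 h33184
  have h33186 := checkRangeG_sound parWF r2 pf33185 h33185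
  have h33187 := checkRangeG_sound parWF r2 pf33186 h33186
  have h33188 := checkRangeG_sound parWF r2 pf33187 h33187
  have h33189 := checkRangeG_sound parWF r2 pf33188 h33188
  have h33190 := checkRangeG_sound parWF r2 pf33189 h33189
  have h33191 := checkRangeG_sound parWF r2 pf33190 h33190
  have h33192 := checkRangeG_sound parWF r2 pf33191 h33191
  have h33193 := checkRangeG_sound parWF r2 pf33192 h33192
  have h33194 := checkRangeG_sound parWF r2 pf33193 h33193
  have h33195 := checkRangeG_sound parWF r2 pf33194 h33194
  have h33196 := checkRangeG_sound parWF r2 pf33195 h33195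
  have h33197 := checkRangeG_sound parWF r2 pf33196 h33196
  have h33198 := checkRangeG_sound parWF r2 pf33197 h33197
  have h33199 := checkRangeG_sound parWF r2 pf33198 h33198
  have h33200 := checkRangeG_sound parWF r2 pf33199 h33199
  exact h33200

theorem c664 (h33200 : ∀ j, j < 110674 → GoodG.{u} par (db j)) : ∀ j, j < 110863 → GoodG.{u} par (db j) := by
  have h33201 := checkRangeG_sound parWF r2 pf33200 h33200
  have h33202 := checkRangeG_sound parWF r2 pf33201 h33201
  have h33203 := checkRangeG_sound parWF r2 pf33202 h33202
  have h33204 := checkRangeG_sound parWF r2 pf33203 h33203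
  have h33205 := checkRangeG_sound parWF r2 pf33204 h33204
  have h33206 := checkRangeG_sound parWF r2 pf33205 h33205
  have h33207 := checkRangeG_sound parWF r2 pf33206 h33206
  have h33208 := checkRangeG_sound parWF r2 pf33207 h33207
  have h33209 := checkRangeG_sound parWF r2 pf33208 h33208
  have h33210 := checkRangeG_sound parWF r2 pf33209 h33209
  have h33211 := checkRangeG_sound parWF r2 pf33210 h33210
  have h33212 := checkRangeG_sound parWF r2 pf33211 h33211
  have h33213 := checkRangeG_sound parWF r2 pf33212 h33212
  have h33214 := checkRangeG_sound parWF r2 pf33213 h33213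
  have h33215 := checkRangeG_sound parWF r2 pf33214 h33214
  have h33216 := checkRangeG_sound parWF r2 pf33215 h33215
  have h33217 := checkRangeG_sound parWF r2 pf33216 h33216
  have h33218 := checkRangeG_sound parWF r2 pf33217 h33217
  have h33219 := checkRangeG_sound parWF r2 pf33218 h33218
  have h33220 := checkRangeG_sound parWF r2 pf33219 h33219
  have h33221 := checkRangeG_sound parWF r2 pf33220 h33220
  have h33222 := checkRangeG_sound parWF r2 pf33221 h33221
  have h33223 := checkRangeG_sound parWF r2 pf33222 h33222
  have h33224 := checkRangeG_sound parWF r2 pf33223 h33223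
  have h33225 := checkRangeG_sound parWF r2 pf33224 h33224
  have h33226 := checkRangeG_sound parWF r2 pf33225 h33225
  have h33227 := checkRangeG_sound parWF r2 pf33226 h33226
  have h33228 := checkRangeG_sound parWF r2 pf33227 h33227
  have h33229 := checkRangeG_sound parWF r2 pf33228 h33228
  have h33230 := checkRangeG_sound parWF r2 pf33229 h33229
  have h33231 := checkRangeG_sound parWF r2 pf33230 h33230
  have h33232 := checkRangeG_sound parWF r2 pf33231 h33231
  have h33233 := checkRangeG_sound parWF r2 pf33232 h33232
  have h33234 := checkRangeG_sound parWF r2 pf33233 h33233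
  have h33235 := checkRangeG_sound parWF r2 pf33234 h33234
  have h33236 := checkRangeG_sound parWF r2 pf33235 h33235
  have h33237 := checkRangeG_sound parWF r2 pf33236 h33236
  have h33238 := checkRangeG_sound parWF r2 pf33237 h33237
  have h33239 := checkRangeG_sound parWF r2 pf33238 h33238
  have h33240 := checkRangeG_sound parWF r2 pf33239 h33239
  have h33241 := checkRangeG_sound parWF r2 pf33240 h33240
  have h33242 := checkRangeG_sound parWF r2 pf33241 h33241
  have h33243 := checkRangeG_sound parWF r2 pf33242 h33242
  have h33244 := checkRangeG_sound parWF r2 pf33243 h33243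
  have h33245 := checkRangeG_sound parWF r2 pf33244 h33244
  have h33246 := checkRangeG_sound parWF r2 pf33245 h33245
  have h33247 := checkRangeG_sound parWF r2 pf33246 h33246
  have h33248 := checkRangeG_sound parWF r2 pf33247 h33247
  have h33249 := checkRangeG_sound parWF r2 pf33248 h33248
  have h33250 := checkRangeG_sound parWF r2 pf33249 h33249
  exact h33250

theorem c665 (h33250 : ∀ j, j < 110863 → GoodG.{u} par (db j)) : ∀ j, j < 111041 → GoodG.{u} par (db j) := by
  have h33251 := checkRangeG_sound parWF r2 pf33250 h33250
  have h33252 := checkRangeG_sound parWF r2 pf33251 h33251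
  have h33253 := checkRangeG_sound parWF r2 pf33252 h33252
  have h33254 := checkRangeG_sound parWF r2 pf33253 h33253
  have h33255 := checkRangeG_sound parWF r2 pf33254 h33254
  have h33256 := checkRangeG_sound parWF r2 pf33255 h33255
  have h33257 := checkRangeG_sound parWF r2 pf33256 h33256
  have h33258 := checkRangeG_sound parWF r2 pf33257 h33257
  have h33259 := checkRangeG_sound parWF r2 pf33258 h33258
  have h33260 := checkRangeG_sound parWF r2 pf33259 h33259
  have h33261 := checkRangeG_sound parWF r2 pf33260 h33260
  have h33262 := checkRangeG_sound parWF r2 pf33261 h33261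
  have h33263 := checkRangeG_sound parWF r2 pf33262 h33262
  have h33264 := checkRangeG_sound parWF r2 pf33263 h33263
  have h33265 := checkRangeG_sound parWF r2 pf33264 h33264
  have h33266 := checkRangeG_sound parWF r2 pf33265 h33265
  have h33267 := checkRangeG_sound parWF r2 pf33266 h33266
  have h33268 := checkRangeG_sound parWF r2 pf33267 h33267
  have h33269 := checkRangeG_sound parWF r2 pf33268 h33268
  have h33270 := checkRangeG_sound parWF r2 pf33269 h33269
  have h33271 := checkRangeG_sound parWF r2 pf33270 h33270
  have h33272 := checkRangeG_sound parWF r2 pf33271 h33271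
  have h33273 := checkRangeG_sound parWF r2 pf33272 h33272
  have h33274 := checkRangeG_sound parWF r2 pf33273 h33273
  have h33275 := checkRangeG_sound parWF r2 pf33274 h33274
  have h33276 := checkRangeG_sound parWF r2 pf33275 h33275
  have h33277 := checkRangeG_sound parWF r2 pf33276 h33276
  have h33278 := checkRangeG_sound parWF r2 pf33277 h33277
  have h33279 := checkRangeG_sound parWF r2 pf33278 h33278
  have h33280 := checkRangeG_sound parWF r2 pf33279 h33279
  have h33281 := checkRangeG_sound parWF r2 pf33280 h33280
  have h33282 := checkRangeG_sound parWF r2 pf33281 h33281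
  have h33283 := checkRangeG_sound parWF r2 pf33282 h33282
  have h33284 := checkRangeG_sound parWF r2 pf33283 h33283
  have h33285 := checkRangeG_sound parWF r2 pf33284 h33284
  have h33286 := checkRangeG_sound parWF r2 pf33285 h33285
  have h33287 := checkRangeG_sound parWF r2 pf33286 h33286
  have h33288 := checkRangeG_sound parWF r2 pf33287 h33287
  have h33289 := checkRangeG_sound parWF r2 pf33288 h33288
  have h33290 := checkRangeG_sound parWF r2 pf33289 h33289
  have h33291 := checkRangeG_sound parWF r2 pf33290 h33290
  have h33292 := checkRangeG_sound parWF r2 pf33291 h33291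
  have h33293 := checkRangeG_sound parWF r2 pf33292 h33292
  have h33294 := checkRangeG_sound parWF r2 pf33293 h33293
  have h33295 := checkRangeG_sound parWF r2 pf33294 h33294
  have h33296 := checkRangeG_sound parWF r2 pf33295 h33295
  have h33297 := checkRangeG_sound parWF r2 pf33296 h33296
  have h33298 := checkRangeG_sound parWF r2 pf33297 h33297
  have h33299 := checkRangeG_sound parWF r2 pf33298 h33298
  have h33300 := checkRangeG_sound parWF r2 pf33299 h33299
  exact h33300

theorem c666 (h33300 : ∀ j, j < 111041 → GoodG.{u} par (db j)) : ∀ j, j < 111201 → GoodG.{u} par (db j) := by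
  have h33301 := checkRangeG_sound parWF r2 pf33300 h33300
  have h33302 := checkRangeG_sound parWF r2 pf33301 h33301
  have h33303 := checkRangeG_sound parWF r2 pf33302 h33302
  have h33304 := checkRangeG_sound parWF r2 pf33303 h33303
  have h33305 := checkRangeG_sound parWF r2 pf33304 h33304
  have h33306 := checkRangeG_sound parWF r2 pf33305 h33305
  have h33307 := checkRangeG_sound parWF r2 pf33306 h33306
  have h33308 := checkRangeG_sound parWF r2 pf33307 h33307
  have h33309 := checkRangeG_sound parWF r2 pf33308 h33308
  have h33310 := checkRangeG_sound parWF r2 pf33309 h33309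
  have h33311 := checkRangeG_sound parWF r2 pf33310 h33310
  have h33312 := checkRangeG_sound parWF r2 pf33311 h33311
  have h33313 := checkRangeG_sound parWF r2 pf33312 h33312
  have h33314 := checkRangeG_sound parWF r2 pf33313 h33313
  have h33315 := checkRangeG_sound parWF r2 pf33314 h33314
  have h33316 := checkRangeG_sound parWF r2 pf33315 h33315
  have h33317 := checkRangeG_sound parWF r2 pf33316 h33316
  have h33318 := checkRangeG_sound parWF r2 pf33317 h33317
  have h33319 := checkRangeG_sound parWF r2 pf33318 h33318
  have h33320 := checkRangeG_sound parWF r2 pf33319 h33319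
  have h33321 := checkRangeG_sound parWF r2 pf33320 h33320
  have h33322 := checkRangeG_sound parWF r2 pf33321 h33321
  have h33323 := checkRangeG_sound parWF r2 pf33322 h33322
  have h33324 := checkRangeG_sound parWF r2 pf33323 h33323
  have h33325 := checkRangeG_sound parWF r2 pf33324 h33324
  have h33326 := checkRangeG_sound parWF r2 pf33325 h33325
  have h33327 := checkRangeG_sound parWF r2 pf33326 h33326
  have h33328 := checkRangeG_sound parWF r2 pf33327 h33327
  have h33329 := checkRangeG_sound parWF r2 pf33328 h33328
  have h33330 := checkRangeG_sound parWF r2 pf33329 h33329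
  have h33331 := checkRangeG_sound parWF r2 pf33330 h33330
  have h33332 := checkRangeG_sound parWF r2 pf33331 h33331
  have h33333 := checkRangeG_sound parWF r2 pf33332 h33332
  have h33334 := checkRangeG_sound parWF r2 pf33333 h33333
  have h33335 := checkRangeG_sound parWF r2 pf33334 h33334
  have h33336 := checkRangeG_sound parWF r2 pf33335 h33335
  have h33337 := checkRangeG_sound parWF r2 pf33336 h33336
  have h33338 := checkRangeG_sound parWF r2 pf33337 h33337
  have h33339 := checkRangeG_sound parWF r2 pf33338 h33338
  have h33340 := checkRangeG_sound parWF r2 pf33339 h33339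
  have h33341 := checkRangeG_sound parWF r2 pf33340 h33340
  have h33342 := checkRangeG_sound parWF r2 pf33341 h33341
  have h33343 := checkRangeG_sound parWF r2 pf33342 h33342
  have h33344 := checkRangeG_sound parWF r2 pf33343 h33343
  have h33345 := checkRangeG_sound parWF r2 pf33344 h33344
  have h33346 := checkRangeG_sound parWF r2 pf33345 h33345
  have h33347 := checkRangeG_sound parWF r2 pf33346 h33346
  have h33348 := checkRangeG_sound parWF r2 pf33347 h33347
  have h33349 := checkRangeG_sound parWF r2 pf33348 h33348
  have h33350 := checkRangeG_sound parWF r2 pf33349 h33349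
  exact h33350

theorem c667 (h33350 : ∀ j, j < 111201 → GoodG.{u} par (db j)) : ∀ j, j < 111365 → GoodG.{u} par (db j) := by
  have h33351 := checkRangeG_sound parWF r2 pf33350 h33350
  have h33352 := checkRangeG_sound parWF r2 pf33351 h33351
  have h33353 := checkRangeG_sound parWF r2 pf33352 h33352
  have h33354 := checkRangeG_sound parWF r2 pf33353 h33353
  have h33355 := checkRangeG_sound parWF r2 pf33354 h33354
  have h33356 := checkRangeG_sound parWF r2 pf33355 h33355
  have h33357 := checkRangeG_sound parWF r2 pf33356 h33356
  have h33358 := checkRangeG_sound parWF r2 pf33357 h33357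
  have h33359 := checkRangeG_sound parWF r2 pf33358 h33358
  have h33360 := checkRangeG_sound parWF r2 pf33359 h33359
  have h33361 := checkRangeG_sound parWF r2 pf33360 h33360
  have h33362 := checkRangeG_sound parWF r2 pf33361 h33361
  have h33363 := checkRangeG_sound parWF r2 pf33362 h33362
  have h33364 := checkRangeG_sound parWF r2 pf33363 h33363
  have h33365 := checkRangeG_sound parWF r2 pf33364 h33364
  have h33366 := checkRangeG_sound parWF r2 pf33365 h33365
  have h33367 := checkRangeG_sound parWF r2 pf33366 h33366
  have h33368 := checkRangeG_sound parWF r2 pf33367 h33367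
  have h33369 := checkRangeG_sound parWF r2 pf33368 h33368
  have h33370 := checkRangeG_sound parWF r2 pf33369 h33369
  have h33371 := checkRangeG_sound parWF r2 pf33370 h33370
  have h33372 := checkRangeG_sound parWF r2 pf33371 h33371
  have h33373 := checkRangeG_sound parWF r2 pf33372 h33372
  have h33374 := checkRangeG_sound parWF r2 pf33373 h33373
  have h33375 := checkRangeG_sound parWF r2 pf33374 h33374
  have h33376 := checkRangeG_sound parWF r2 pf33375 h33375
  have h33377 := checkRangeG_sound parWF r2 pf33376 h33376
  have h33378 := checkRangeG_sound parWF r2 pf33377 h33377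
  have h33379 := checkRangeG_sound parWF r2 pf33378 h33378
  have h33380 := checkRangeG_sound parWF r2 pf33379 h33379
  have h33381 := checkRangeG_sound parWF r2 pf33380 h33380
  have h33382 := checkRangeG_sound parWF r2 pf33381 h33381
  have h33383 := checkRangeG_sound parWF r2 pf33382 h33382
  have h33384 := checkRangeG_sound parWF r2 pf33383 h33383
  have h33385 := checkRangeG_sound parWF r2 pf33384 h33384
  have h33386 := checkRangeG_sound parWF r2 pf33385 h33385
  have h33387 := checkRangeG_sound parWF r2 pf33386 h33386
  have h33388 := checkRangeG_sound parWF r2 pf33387 h33387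
  have h33389 := checkRangeG_sound parWF r2 pf33388 h33388
  have h33390 := checkRangeG_sound parWF r2 pf33389 h33389
  have h33391 := checkRangeG_sound parWF r2 pf33390 h33390
  have h33392 := checkRangeG_sound parWF r2 pf33391 h33391
  have h33393 := checkRangeG_sound parWF r2 pf33392 h33392
  have h33394 := checkRangeG_sound parWF r2 pf33393 h33393
  have h33395 := checkRangeG_sound parWF r2 pf33394 h33394
  have h33396 := checkRangeG_sound parWF r2 pf33395 h33395
  have h33397 := checkRangeG_sound parWF r2 pf33396 h33396
  have h33398 := checkRangeG_sound parWF r2 pf33397 h33397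
  have h33399 := checkRangeG_sound parWF r2 pf33398 h33398
  have h33400 := checkRangeG_sound parWF r2 pf33399 h33399
  exact h33400

theorem c668 (h33400 : ∀ j, j < 111365 → GoodG.{u} par (db j)) : ∀ j, j < 111529 → GoodG.{u} par (db j) := by
  have h33401 := checkRangeG_sound parWF r2 pf33400 h33400
  have h33402 := checkRangeG_sound parWF r2 pf33401 h33401
  have h33403 := checkRangeG_sound parWF r2 pf33402 h33402
  have h33404 := checkRangeG_sound parWF r2 pf33403 h33403
  have h33405 := checkRangeG_sound parWF r2 pf33404 h33404
  have h33406 := checkRangeG_sound parWF r2 pf33405 h33405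
  have h33407 := checkRangeG_sound parWF r2 pf33406 h33406
  have h33408 := checkRangeG_sound parWF r2 pf33407 h33407
  have h33409 := checkRangeG_sound parWF r2 pf33408 h33408
  have h33410 := checkRangeG_sound parWF r2 pf33409 h33409
  have h33411 := checkRangeG_sound parWF r2 pf33410 h33410
  have h33412 := checkRangeG_sound parWF r2 pf33411 h33411
  have h33413 := checkRangeG_sound parWF r2 pf33412 h33412
  have h33414 := checkRangeG_sound parWF r2 pf33413 h33413
  have h33415 := checkRangeG_sound parWF r2 pf33414 h33414
  have h33416 := checkRangeG_sound parWF r2 pf33415 h33415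
  have h33417 := checkRangeG_sound parWF r2 pf33416 h33416
  have h33418 := checkRangeG_sound parWF r2 pf33417 h33417
  have h33419 := checkRangeG_sound parWF r2 pf33418 h33418
  have h33420 := checkRangeG_sound parWF r2 pf33419 h33419
  have h33421 := checkRangeG_sound parWF r2 pf33420 h33420
  have h33422 := checkRangeG_sound parWF r2 pf33421 h33421
  have h33423 := checkRangeG_sound parWF r2 pf33422 h33422
  have h33424 := checkRangeG_sound parWF r2 pf33423 h33423
  have h33425 := checkRangeG_sound parWF r2 pf33424 h33424
  have h33426 := checkRangeG_sound parWF r2 pf33425 h33425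
  have h33427 := checkRangeG_sound parWF r2 pf33426 h33426
  have h33428 := checkRangeG_sound parWF r2 pf33427 h33427
  have h33429 := checkRangeG_sound parWF r2 pf33428 h33428
  have h33430 := checkRangeG_sound parWF r2 pf33429 h33429
  have h33431 := checkRangeG_sound parWF r2 pf33430 h33430
  have h33432 := checkRangeG_sound parWF r2 pf33431 h33431
  have h33433 := checkRangeG_sound parWF r2 pf33432 h33432
  have h33434 := checkRangeG_sound parWF r2 pf33433 h33433
  have h33435 := checkRangeG_sound parWF r2 pf33434 h33434
  have h33436 := checkRangeG_sound parWF r2 pf33435 h33435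
  have h33437 := checkRangeG_sound parWF r2 pf33436 h33436
  have h33438 := checkRangeG_sound parWF r2 pf33437 h33437
  have h33439 := checkRangeG_sound parWF r2 pf33438 h33438
  have h33440 := checkRangeG_sound parWF r2 pf33439 h33439
  have h33441 := checkRangeG_sound parWF r2 pf33440 h33440
  have h33442 := checkRangeG_sound parWF r2 pf33441 h33441
  have h33443 := checkRangeG_sound parWF r2 pf33442 h33442
  have h33444 := checkRangeG_sound parWF r2 pf33443 h33443
  have h33445 := checkRangeG_sound parWF r2 pf33444 h33444
  have h33446 := checkRangeG_sound parWF r2 pf33445 h33445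
  have h33447 := checkRangeG_sound parWF r2 pf33446 h33446
  have h33448 := checkRangeG_sound parWF r2 pf33447 h33447
  have h33449 := checkRangeG_sound parWF r2 pf33448 h33448
  have h33450 := checkRangeG_sound parWF r2 pf33449 h33449
  exact h33450

theorem c669 (h33450 : ∀ j, j < 111529 → GoodG.{u} par (db j)) : ∀ j, j < 111686 → GoodG.{u} par (db j) := by
  have h33451 := checkRangeG_sound parWF r2 pf33450 h33450
  have h33452 := checkRangeG_sound parWF r2 pf33451 h33451
  have h33453 := checkRangeG_sound parWF r2 pf33452 h33452
  have h33454 := checkRangeG_sound parWF r2 pf33453 h33453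
  have h33455 := checkRangeG_sound parWF r2 pf33454 h33454
  have h33456 := checkRangeG_sound parWF r2 pf33455 h33455
  have h33457 := checkRangeG_sound parWF r2 pf33456 h33456
  have h33458 := checkRangeG_sound parWF r2 pf33457 h33457
  have h33459 := checkRangeG_sound parWF r2 pf33458 h33458
  have h33460 := checkRangeG_sound parWF r2 pf33459 h33459
  have h33461 := checkRangeG_sound parWF r2 pf33460 h33460
  have h33462 := checkRangeG_sound parWF r2 pf33461 h33461
  have h33463 := checkRangeG_sound parWF r2 pf33462 h33462
  have h33464 := checkRangeG_sound parWF r2 pf33463 h33463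
  have h33465 := checkRangeG_sound parWF r2 pf33464 h33464
  have h33466 := checkRangeG_sound parWF r2 pf33465 h33465
  have h33467 := checkRangeG_sound parWF r2 pf33466 h33466
  have h33468 := checkRangeG_sound parWF r2 pf33467 h33467
  have h33469 := checkRangeG_sound parWF r2 pf33468 h33468
  have h33470 := checkRangeG_sound parWF r2 pf33469 h33469
  have h33471 := checkRangeG_sound parWF r2 pf33470 h33470
  have h33472 := checkRangeG_sound parWF r2 pf33471 h33471
  have h33473 := checkRangeG_sound parWF r2 pf33472 h33472
  have h33474 := checkRangeG_sound parWF r2 pf33473 h33473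
  have h33475 := checkRangeG_sound parWF r2 pf33474 h33474
  have h33476 := checkRangeG_sound parWF r2 pf33475 h33475
  have h33477 := checkRangeG_sound parWF r2 pf33476 h33476
  have h33478 := checkRangeG_sound parWF r2 pf33477 h33477
  have h33479 := checkRangeG_sound parWF r2 pf33478 h33478
  have h33480 := checkRangeG_sound parWF r2 pf33479 h33479
  have h33481 := checkRangeG_sound parWF r2 pf33480 h33480
  have h33482 := checkRangeG_sound parWF r2 pf33481 h33481
  have h33483 := checkRangeG_sound parWF r2 pf33482 h33482
  have h33484 := checkRangeG_sound parWF r2 pf33483 h33483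
  have h33485 := checkRangeG_sound parWF r2 pf33484 h33484
  have h33486 := checkRangeG_sound parWF r2 pf33485 h33485
  have h33487 := checkRangeG_sound parWF r2 pf33486 h33486
  have h33488 := checkRangeG_sound parWF r2 pf33487 h33487
  have h33489 := checkRangeG_sound parWF r2 pf33488 h33488
  have h33490 := checkRangeG_sound parWF r2 pf33489 h33489
  have h33491 := checkRangeG_sound parWF r2 pf33490 h33490
  have h33492 := checkRangeG_sound parWF r2 pf33491 h33491
  have h33493 := checkRangeG_sound parWF r2 pf33492 h33492
  have h33494 := checkRangeG_sound parWF r2 pf33493 h33493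
  have h33495 := checkRangeG_sound parWF r2 pf33494 h33494
  have h33496 := checkRangeG_sound parWF r2 pf33495 h33495
  have h33497 := checkRangeG_sound parWF r2 pf33496 h33496
  have h33498 := checkRangeG_sound parWF r2 pf33497 h33497
  have h33499 := checkRangeG_sound parWF r2 pf33498 h33498
  have h33500 := checkRangeG_sound parWF r2 pf33499 h33499
  exact h33500

theorem c670 (h33500 : ∀ j, j < 111686 → GoodG.{u} par (db j)) : ∀ j, j < 111851 → GoodG.{u} par (db j) := by
  have h33501 := checkRangeG_sound parWF r2 pf33500 h33500
  have h33502 := checkRangeG_sound parWF r2 pf33501 h33501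
  have h33503 := checkRangeG_sound parWF r2 pf33502 h33502
  have h33504 := checkRangeG_sound parWF r2 pf33503 h33503
  have h33505 := checkRangeG_sound parWF r2 pf33504 h33504
  have h33506 := checkRangeG_sound parWF r2 pf33505 h33505
  have h33507 := checkRangeG_sound parWF r2 pf33506 h33506
  have h33508 := checkRangeG_sound parWF r2 pf33507 h33507
  have h33509 := checkRangeG_sound parWF r2 pf33508 h33508
  have h33510 := checkRangeG_sound parWF r2 pf33509 h33509
  have h33511 := checkRangeG_sound parWF r2 pf33510 h33510
  have h33512 := checkRangeG_sound parWF r2 pf33511 h33511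
  have h33513 := checkRangeG_sound parWF r2 pf33512 h33512
  have h33514 := checkRangeG_sound parWF r2 pf33513 h33513
  have h33515 := checkRangeG_sound parWF r2 pf33514 h33514
  have h33516 := checkRangeG_sound parWF r2 pf33515 h33515
  have h33517 := checkRangeG_sound parWF r2 pf33516 h33516
  have h33518 := checkRangeG_sound parWF r2 pf33517 h33517
  have h33519 := checkRangeG_sound parWF r2 pf33518 h33518
  have h33520 := checkRangeG_sound parWF r2 pf33519 h33519
  have h33521 := checkRangeG_sound parWF r2 pf33520 h33520
  have h33522 := checkRangeG_sound parWF r2 pf33521 h33521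
  have h33523 := checkRangeG_sound parWF r2 pf33522 h33522
  have h33524 := checkRangeG_sound parWF r2 pf33523 h33523
  have h33525 := checkRangeG_sound parWF r2 pf33524 h33524
  have h33526 := checkRangeG_sound parWF r2 pf33525 h33525
  have h33527 := checkRangeG_sound parWF r2 pf33526 h33526
  have h33528 := checkRangeG_sound parWF r2 pf33527 h33527
  have h33529 := checkRangeG_sound parWF r2 pf33528 h33528
  have h33530 := checkRangeG_sound parWF r2 pf33529 h33529
  have h33531 := checkRangeG_sound parWF r2 pf33530 h33530
  have h33532 := checkRangeG_sound parWF r2 pf33531 h33531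
  have h33533 := checkRangeG_sound parWF r2 pf33532 h33532
  have h33534 := checkRangeG_sound parWF r2 pf33533 h33533
  have h33535 := checkRangeG_sound parWF r2 pf33534 h33534
  have h33536 := checkRangeG_sound parWF r2 pf33535 h33535
  have h33537 := checkRangeG_sound parWF r2 pf33536 h33536
  have h33538 := checkRangeG_sound parWF r2 pf33537 h33537
  have h33539 := checkRangeG_sound parWF r2 pf33538 h33538
  have h33540 := checkRangeG_sound parWF r2 pf33539 h33539
  have h33541 := checkRangeG_sound parWF r2 pf33540 h33540
  have h33542 := checkRangeG_sound parWF r2 pf33541 h33541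
  have h33543 := checkRangeG_sound parWF r2 pf33542 h33542
  have h33544 := checkRangeG_sound parWF r2 pf33543 h33543
  have h33545 := checkRangeG_sound parWF r2 pf33544 h33544
  have h33546 := checkRangeG_sound parWF r2 pf33545 h33545
  have h33547 := checkRangeG_sound parWF r2 pf33546 h33546
  have h33548 := checkRangeG_sound parWF r2 pf33547 h33547
  have h33549 := checkRangeG_sound parWF r2 pf33548 h33548
  have h33550 := checkRangeG_sound parWF r2 pf33549 h33549
  exact h33550

theorem c671 (h33550 : ∀ j, j < 111851 → GoodG.{u} par (db j)) : ∀ j, j < 112029 → GoodG.{u} par (db j) := by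
  have h33551 := checkRangeG_sound parWF r2 pf33550 h33550
  have h33552 := checkRangeG_sound parWF r2 pf33551 h33551
  have h33553 := checkRangeG_sound parWF r2 pf33552 h33552
  have h33554 := checkRangeG_sound parWF r2 pf33553 h33553
  have h33555 := checkRangeG_sound parWF r2 pf33554 h33554
  have h33556 := checkRangeG_sound parWF r2 pf33555 h33555
  have h33557 := checkRangeG_sound parWF r2 pf33556 h33556
  have h33558 := checkRangeG_sound parWF r2 pf33557 h33557
  have h33559 := checkRangeG_sound parWF r2 pf33558 h33558
  have h33560 := checkRangeG_sound parWF r2 pf33559 h33559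
  have h33561 := checkRangeG_sound parWF r2 pf33560 h33560
  have h33562 := checkRangeG_sound parWF r2 pf33561 h33561
  have h33563 := checkRangeG_sound parWF r2 pf33562 h33562
  have h33564 := checkRangeG_sound parWF r2 pf33563 h33563
  have h33565 := checkRangeG_sound parWF r2 pf33564 h33564
  have h33566 := checkRangeG_sound parWF r2 pf33565 h33565
  have h33567 := checkRangeG_sound parWF r2 pf33566 h33566
  have h33568 := checkRangeG_sound parWF r2 pf33567 h33567
  have h33569 := checkRangeG_sound parWF r2 pf33568 h33568
  have h33570 := checkRangeG_sound parWF r2 pf33569 h33569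
  have h33571 := checkRangeG_sound parWF r2 pf33570 h33570
  have h33572 := checkRangeG_sound parWF r2 pf33571 h33571
  have h33573 := checkRangeG_sound parWF r2 pf33572 h33572
  have h33574 := checkRangeG_sound parWF r2 pf33573 h33573
  have h33575 := checkRangeG_sound parWF r2 pf33574 h33574
  have h33576 := checkRangeG_sound parWF r2 pf33575 h33575
  have h33577 := checkRangeG_sound parWF r2 pf33576 h33576
  have h33578 := checkRangeG_sound parWF r2 pf33577 h33577
  have h33579 := checkRangeG_sound parWF r2 pf33578 h33578
  have h33580 := checkRangeG_sound parWF r2 pf33579 h33579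
  have h33581 := checkRangeG_sound parWF r2 pf33580 h33580
  have h33582 := checkRangeG_sound parWF r2 pf33581 h33581
  have h33583 := checkRangeG_sound parWF r2 pf33582 h33582
  have h33584 := checkRangeG_sound parWF r2 pf33583 h33583
  have h33585 := checkRangeG_sound parWF r2 pf33584 h33584
  have h33586 := checkRangeG_sound parWF r2 pf33585 h33585
  have h33587 := checkRangeG_sound parWF r2 pf33586 h33586
  have h33588 := checkRangeG_sound parWF r2 pf33587 h33587
  have h33589 := checkRangeG_sound parWF r2 pf33588 h33588
  have h33590 := checkRangeG_sound parWF r2 pf33589 h33589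
  have h33591 := checkRangeG_sound parWF r2 pf33590 h33590
  have h33592 := checkRangeG_sound parWF r2 pf33591 h33591
  have h33593 := checkRangeG_sound parWF r2 pf33592 h33592
  have h33594 := checkRangeG_sound parWF r2 pf33593 h33593
  have h33595 := checkRangeG_sound parWF r2 pf33594 h33594
  have h33596 := checkRangeG_sound parWF r2 pf33595 h33595
  have h33597 := checkRangeG_sound parWF r2 pf33596 h33596
  have h33598 := checkRangeG_sound parWF r2 pf33597 h33597
  have h33599 := checkRangeG_sound parWF r2 pf33598 h33598
  have h33600 := checkRangeG_sound parWF r2 pf33599 h33599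
  exact h33600


end Vale.Agent.P045g.C61
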