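import Vale.Agent.P045g.C61.WF
import Vale.Agent.P045g.C61.Pf560
import Vale.Agent.P045g.C61.Pf561
import Vale.Agent.P045g.C61.Pf562
import Vale.Agent.P045g.C61.Pf563
import Vale.Agent.P045g.C61.Pf564
import Vale.Agent.P045g.C61.Pf565
import Vale.Agent.P045g.C61.Pf566
import Vale.Agent.P045g.C61.Pf567
import Vale.Agent.P045g.C61.Pf568
import Vale.Agent.P045g.C61.Pf569

namespace Vale.Agent.P045g.C61

open Vale.Agent.P045b Vale.Agent.P045g

universe u

theorem c672 (h33600 : ∀ j, j < 112029 → GoodG.{u} par (db j)) : ∀ j, j < 112193 → GoodG.{u} par (db j) := by
  have h33601 := checkRangeG_sound parWF r2 pf33600 h33600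
  have h33602 := checkRangeG_sound parWF r2 pf33601 h33601
  have h33603 := checkRangeG_sound parWF r2 pf33602 h33602
  have h33604 := checkRangeG_sound parWF r2 pf33603 h33603
  have h33605 := checkRangeG_sound parWF r2 pf33604 h33604
  have h33606 := checkRangeG_sound parWF r2 pf33605 h33605
  have h33607 := checkRangeG_sound parWF r2 pf33606 h33606
  have h33608 := checkRangeG_sound parWF r2 pf33607 h33607
  have h33609 := checkRangeG_sound parWF r2 pf33608 h33608
  have h33610 := checkRangeG_sound parWF r2 pf33609 h33609
  have h33611 := checkRangeG_sound parWF r2 pf33610 h33610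
  have h33612 := checkRangeG_sound parWF r2 pf33611 h33611
  have h33613 := checkRangeG_sound parWF r2 pf33612 h33612
  have h33614 := checkRangeG_sound parWF r2 pf33613 h33613
  have h33615 := checkRangeG_sound parWF r2 pf33614 h33614
  have h33616 := checkRangeG_sound parWF r2 pf33615 h33615
  have h33617 := checkRangeG_sound parWF r2 pf33616 h33616
  have h33618 := checkRangeG_sound parWF r2 pf33617 h33617
  have h33619 := checkRangeG_sound parWF r2 pf33618 h33618
  have h33620 := checkRangeG_sound parWF r2 pf33619 h33619
  have h33621 := checkRangeG_sound parWF r2 pf33620 h33620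
  have h33622 := checkRangeG_sound parWF r2 pf33621 h33621
  have h33623 := checkRangeG_sound parWF r2 pf33622 h33622
  have h33624 := checkRangeG_sound parWF r2 pf33623 h33623
  have h33625 := checkRangeG_sound parWF r2 pf33624 h33624
  have h33626 := checkRangeG_sound parWF r2 pf33625 h33625
  have h33627 := checkRangeG_sound parWF r2 pf33626 h33626
  have h33628 := checkRangeG_sound parWF r2 pf33627 h33627
  have h33629 := checkRangeG_sound parWF r2 pf33628 h33628
  have h33630 := checkRangeG_sound parWF r2 pf33629 h33629
  have h33631 := checkRangeG_sound parWF r2 pf33630 h33630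
  have h33632 := checkRangeG_sound parWF r2 pf33631 h33631
  have h33633 := checkRangeG_sound parWF r2 pf33632 h33632
  have h33634 := checkRangeG_sound parWF r2 pf33633 h33633
  have h33635 := checkRangeG_sound parWF r2 pf33634 h33634
  have h33636 := checkRangeG_sound parWF r2 pf33635 h33635
  have h33637 := checkRangeG_sound parWF r2 pf33636 h33636
  have h33638 := checkRangeG_sound parWF r2 pf33637 h33637
  have h33639 := checkRangeG_sound parWF r2 pf33638 h33638
  have h33640 := checkRangeG_sound parWF r2 pf33639 h33639
  have h33641 := checkRangeG_sound parWF r2 pf33640 h33640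
  have h33642 := checkRangeG_sound parWF r2 pf33641 h33641
  have h33643 := checkRangeG_sound parWF r2 pf33642 h33642
  have h33644 := checkRangeG_sound parWF r2 pf33643 h33643
  have h33645 := checkRangeG_sound parWF r2 pf33644 h33644
  have h33646 := checkRangeG_sound parWF r2 pf33645 h33645
  have h33647 := checkRangeG_sound parWF r2 pf33646 h33646
  have h33648 := checkRangeG_sound parWF r2 pf33647 h33647
  have h33649 := checkRangeG_sound parWF r2 pf33648 h33648
  have h33650 := checkRangeG_sound parWF r2 pf33649 h33649
  exact h33650

theorem c673 (h33650 : ∀ j, j < 112193 → GoodG.{u} par (db j)) : ∀ j, j < 112351 → GoodG.{u} par (db j) := by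
  have h33651 := checkRangeG_sound parWF r2 pf33650 h33650
  have h33652 := checkRangeG_sound parWF r2 pf33651 h33651
  have h33653 := checkRangeG_sound parWF r2 pf33652 h33652
  have h33654 := checkRangeG_sound parWF r2 pf33653 h33653
  have h33655 := checkRangeG_sound parWF r2 pf33654 h33654
  have h33656 := checkRangeG_sound parWF r2 pf33655 h33655
  have h33657 := checkRangeG_sound parWF r2 pf33656 h33656
  have h33658 := checkRangeG_sound parWF r2 pf33657 h33657
  have h33659 := checkRangeG_sound parWF r2 pf33658 h33658
  have h33660 := checkRangeG_sound parWF r2 pf33659 h33659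
  have h33661 := checkRangeG_sound parWF r2 pf33660 h33660
  have h33662 := checkRangeG_sound parWF r2 pf33661 h33661
  have h33663 := checkRangeG_sound parWF r2 pf33662 h33662
  have h33664 := checkRangeG_sound parWF r2 pf33663 h33663
  have h33665 := checkRangeG_sound parWF r2 pf33664 h33664
  have h33666 := checkRangeG_sound parWF r2 pf33665 h33665
  have h33667 := checkRangeG_sound parWF r2 pf33666 h33666
  have h33668 := checkRangeG_sound parWF r2 pf33667 h33667
  have h33669 := checkRangeG_sound parWF r2 pf33668 h33668
  have h33670 := checkRangeG_sound parWF r2 pf33669 h33669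
  have h33671 := checkRangeG_sound parWF r2 pf33670 h33670
  have h33672 := checkRangeG_sound parWF r2 pf33671 h33671
  have h33673 := checkRangeG_sound parWF r2 pf33672 h33672
  have h33674 := checkRangeG_sound parWF r2 pf33673 h33673
  have h33675 := checkRangeG_sound parWF r2 pf33674 h33674
  have h33676 := checkRangeG_sound parWF r2 pf33675 h33675
  have h33677 := checkRangeG_sound parWF r2 pf33676 h33676
  have h33678 := checkRangeG_sound parWF r2 pf33677 h33677
  have h33679 := checkRangeG_sound parWF r2 pf33678 h33678
  have h33680 := checkRangeG_sound parWF r2 pf33679 h33679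
  have h33681 := checkRangeG_sound parWF r2 pf33680 h33680
  have h33682 := checkRangeG_sound parWF r2 pf33681 h33681
  have h33683 := checkRangeG_sound parWF r2 pf33682 h33682
  have h33684 := checkRangeG_sound parWF r2 pf33683 h33683
  have h33685 := checkRangeG_sound parWF r2 pf33684 h33684
  have h33686 := checkRangeG_sound parWF r2 pf33685 h33685
  have h33687 := checkRangeG_sound parWF r2 pf33686 h33686
  have h33688 := checkRangeG_sound parWF r2 pf33687 h33687
  have h33689 := checkRangeG_sound parWF r2 pf33688 h33688
  have h33690 := checkRangeG_sound parWF r2 pf33689 h33689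
  have h33691 := checkRangeG_sound parWF r2 pf33690 h33690
  have h33692 := checkRangeG_sound parWF r2 pf33691 h33691
  have h33693 := checkRangeG_sound parWF r2 pf33692 h33692
  have h33694 := checkRangeG_sound parWF r2 pf33693 h33693
  have h33695 := checkRangeG_sound parWF r2 pf33694 h33694
  have h33696 := checkRangeG_sound parWF r2 pf33695 h33695
  have h33697 := checkRangeG_sound parWF r2 pf33696 h33696
  have h33698 := checkRangeG_sound parWF r2 pf33697 h33697
  have h33699 := checkRangeG_sound parWF r2 pf33698 h33698
  have h33700 := checkRangeG_sound parWF r2 pf33699 h33699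
  exact h33700

theorem c674 (h33700 : ∀ j, j < 112351 → GoodG.{u} par (db j)) : ∀ j, j < 112516 → GoodG.{u} par (db j) := by
  have h33701 := checkRangeG_sound parWF r2 pf33700 h33700
  have h33702 := checkRangeG_sound parWF r2 pf33701 h33701
  have h33703 := checkRangeG_sound parWF r2 pf33702 h33702
  have h33704 := checkRangeG_sound parWF r2 pf33703 h33703
  have h33705 := checkRangeG_sound parWF r2 pf33704 h33704
  have h33706 := checkRangeG_sound parWF r2 pf33705 h33705
  have h33707 := checkRangeG_sound parWF r2 pf33706 h33706
  have h33708 := checkRangeG_sound parWF r2 pf33707 h33707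
  have h33709 := checkRangeG_sound parWF r2 pf33708 h33708
  have h33710 := checkRangeG_sound parWF r2 pf33709 h33709
  have h33711 := checkRangeG_sound parWF r2 pf33710 h33710
  have h33712 := checkRangeG_sound parWF r2 pf33711 h33711
  have h33713 := checkRangeG_sound parWF r2 pf33712 h33712
  have h33714 := checkRangeG_sound parWF r2 pf33713 h33713
  have h33715 := checkRangeG_sound parWF r2 pf33714 h33714
  have h33716 := checkRangeG_sound parWF r2 pf33715 h33715
  have h33717 := checkRangeG_sound parWF r2 pf33716 h33716
  have h33718 := checkRangeG_sound parWF r2 pf33717 h33717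
  have h33719 := checkRangeG_sound parWF r2 pf33718 h33718
  have h33720 := checkRangeG_sound parWF r2 pf33719 h33719
  have h33721 := checkRangeG_sound parWF r2 pf33720 h33720
  have h33722 := checkRangeG_sound parWF r2 pf33721 h33721
  have h33723 := checkRangeG_sound parWF r2 pf33722 h33722
  have h33724 := checkRangeG_sound parWF r2 pf33723 h33723
  have h33725 := checkRangeG_sound parWF r2 pf33724 h33724
  have h33726 := checkRangeG_sound parWF r2 pf33725 h33725
  have h33727 := checkRangeG_sound parWF r2 pf33726 h33726
  have h33728 := checkRangeG_sound parWF r2 pf33727 h33727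
  have h33729 := checkRangeG_sound parWF r2 pf33728 h33728
  have h33730 := checkRangeG_sound parWF r2 pf33729 h33729
  have h33731 := checkRangeG_sound parWF r2 pf33730 h33730
  have h33732 := checkRangeG_sound parWF r2 pf33731 h33731
  have h33733 := checkRangeG_sound parWF r2 pf33732 h33732
  have h33734 := checkRangeG_sound parWF r2 pf33733 h33733
  have h33735 := checkRangeG_sound parWF r2 pf33734 h33734
  have h33736 := checkRangeG_sound parWF r2 pf33735 h33735
  have h33737 := checkRangeG_sound parWF r2 pf33736 h33736
  have h33738 := checkRangeG_sound parWF r2 pf33737 h33737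
  have h33739 := checkRangeG_sound parWF r2 pf33738 h33738
  have h33740 := checkRangeG_sound parWF r2 pf33739 h33739
  have h33741 := checkRangeG_sound parWF r2 pf33740 h33740
  have h33742 := checkRangeG_sound parWF r2 pf33741 h33741
  have h33743 := checkRangeG_sound parWF r2 pf33742 h33742
  have h33744 := checkRangeG_sound parWF r2 pf33743 h33743
  have h33745 := checkRangeG_sound parWF r2 pf33744 h33744
  have h33746 := checkRangeG_sound parWF r2 pf33745 h33745
  have h33747 := checkRangeG_sound parWF r2 pf33746 h33746
  have h33748 := checkRangeG_sound parWF r2 pf33747 h33747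
  have h33749 := checkRangeG_sound parWF r2 pf33748 h33748
  have h33750 := checkRangeG_sound parWF r2 pf33749 h33749
  exact h33750

theorem c675 (h33750 : ∀ j, j < 112516 → GoodG.{u} par (db j)) : ∀ j, j < 112707 → GoodG.{u} par (db j) := by
  have h33751 := checkRangeG_sound parWF r2 pf33750 h33750
  have h33752 := checkRangeG_sound parWF r2 pf33751 h33751
  have h33753 := checkRangeG_sound parWF r2 pf33752 h33752
  have h33754 := checkRangeG_sound parWF r2 pf33753 h33753
  have h33755 := checkRangeG_sound parWF r2 pf33754 h33754
  have h33756 := checkRangeG_sound parWF r2 pf33755 h33755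
  have h33757 := checkRangeG_sound parWF r2 pf33756 h33756
  have h33758 := checkRangeG_sound parWF r2 pf33757 h33757
  have h33759 := checkRangeG_sound parWF r2 pf33758 h33758
  have h33760 := checkRangeG_sound parWF r2 pf33759 h33759
  have h33761 := checkRangeG_sound parWF r2 pf33760 h33760
  have h33762 := checkRangeG_sound parWF r2 pf33761 h33761
  have h33763 := checkRangeG_sound parWF r2 pf33762 h33762
  have h33764 := checkRangeG_sound parWF r2 pf33763 h33763
  have h33765 := checkRangeG_sound parWF r2 pf33764 h33764
  have h33766 := checkRangeG_sound parWF r2 pf33765 h33765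
  have h33767 := checkRangeG_sound parWF r2 pf33766 h33766
  have h33768 := checkRangeG_sound parWF r2 pf33767 h33767
  have h33769 := checkRangeG_sound parWF r2 pf33768 h33768
  have h33770 := checkRangeG_sound parWF r2 pf33769 h33769
  have h33771 := checkRangeG_sound parWF r2 pf33770 h33770
  have h33772 := checkRangeG_sound parWF r2 pf33771 h33771
  have h33773 := checkRangeG_sound parWF r2 pf33772 h33772
  have h33774 := checkRangeG_sound parWF r2 pf33773 h33773
  have h33775 := checkRangeG_sound parWF r2 pf33774 h33774
  have h33776 := checkRangeG_sound parWF r2 pf33775 h33775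
  have h33777 := checkRangeG_sound parWF r2 pf33776 h33776
  have h33778 := checkRangeG_sound parWF r2 pf33777 h33777
  have h33779 := checkRangeG_sound parWF r2 pf33778 h33778
  have h33780 := checkRangeG_sound parWF r2 pf33779 h33779
  have h33781 := checkRangeG_sound parWF r2 pf33780 h33780
  have h33782 := checkRangeG_sound parWF r2 pf33781 h33781
  have h33783 := checkRangeG_sound parWF r2 pf33782 h33782
  have h33784 := checkRangeG_sound parWF r2 pf33783 h33783
  have h33785 := checkRangeG_sound parWF r2 pf33784 h33784
  have h33786 := checkRangeG_sound parWF r2 pf33785 h33785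
  have h33787 := checkRangeG_sound parWF r2 pf33786 h33786
  have h33788 := checkRangeG_sound parWF r2 pf33787 h33787
  have h33789 := checkRangeG_sound parWF r2 pf33788 h33788
  have h33790 := checkRangeG_sound parWF r2 pf33789 h33789
  have h33791 := checkRangeG_sound parWF r2 pf33790 h33790
  have h33792 := checkRangeG_sound parWF r2 pf33791 h33791
  have h33793 := checkRangeG_sound parWF r2 pf33792 h33792
  have h33794 := checkRangeG_sound parWF r2 pf33793 h33793
  have h33795 := checkRangeG_sound parWF r2 pf33794 h33794
  have h33796 := checkRangeG_sound parWF r2 pf33795 h33795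
  have h33797 := checkRangeG_sound parWF r2 pf33796 h33796
  have h33798 := checkRangeG_sound parWF r2 pf33797 h33797
  have h33799 := checkRangeG_sound parWF r2 pf33798 h33798
  have h33800 := checkRangeG_sound parWF r2 pf33799 h33799
  exact h33800

theorem c676 (h33800 : ∀ j, j < 112707 → GoodG.{u} par (db j)) : ∀ j, j < 112915 → GoodG.{u} par (db j) := by
  have h33801 := checkRangeG_sound parWF r2 pf33800 h33800
  have h33802 := checkRangeG_sound parWF r2 pf33801 h33801
  have h33803 := checkRangeG_sound parWF r2 pf33802 h33802
  have h33804 := checkRangeG_sound parWF r2 pf33803 h33803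
  have h33805 := checkRangeG_sound parWF r2 pf33804 h33804
  have h33806 := checkRangeG_sound parWF r2 pf33805 h33805
  have h33807 := checkRangeG_sound parWF r2 pf33806 h33806
  have h33808 := checkRangeG_sound parWF r2 pf33807 h33807
  have h33809 := checkRangeG_sound parWF r2 pf33808 h33808
  have h33810 := checkRangeG_sound parWF r2 pf33809 h33809
  have h33811 := checkRangeG_sound parWF r2 pf33810 h33810
  have h33812 := checkRangeG_sound parWF r2 pf33811 h33811
  have h33813 := checkRangeG_sound parWF r2 pf33812 h33812
  have h33814 := checkRangeG_sound parWF r2 pf33813 h33813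
  have h33815 := checkRangeG_sound parWF r2 pf33814 h33814
  have h33816 := checkRangeG_sound parWF r2 pf33815 h33815
  have h33817 := checkRangeG_sound parWF r2 pf33816 h33816
  have h33818 := checkRangeG_sound parWF r2 pf33817 h33817
  have h33819 := checkRangeG_sound parWF r2 pf33818 h33818
  have h33820 := checkRangeG_sound parWF r2 pf33819 h33819
  have h33821 := checkRangeG_sound parWF r2 pf33820 h33820
  have h33822 := checkRangeG_sound parWF r2 pf33821 h33821
  have h33823 := checkRangeG_sound parWF r2 pf33822 h33822
  have h33824 := checkRangeG_sound parWF r2 pf33823 h33823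
  have h33825 := checkRangeG_sound parWF r2 pf33824 h33824
  have h33826 := checkRangeG_sound parWF r2 pf33825 h33825
  have h33827 := checkRangeG_sound parWF r2 pf33826 h33826
  have h33828 := checkRangeG_sound parWF r2 pf33827 h33827
  have h33829 := checkRangeG_sound parWF r2 pf33828 h33828
  have h33830 := checkRangeG_sound parWF r2 pf33829 h33829
  have h33831 := checkRangeG_sound parWF r2 pf33830 h33830
  have h33832 := checkRangeG_sound parWF r2 pf33831 h33831
  have h33833 := checkRangeG_sound parWF r2 pf33832 h33832
  have h33834 := checkRangeG_sound parWF r2 pf33833 h33833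
  have h33835 := checkRangeG_sound parWF r2 pf33834 h33834
  have h33836 := checkRangeG_sound parWF r2 pf33835 h33835
  have h33837 := checkRangeG_sound parWF r2 pf33836 h33836
  have h33838 := checkRangeG_sound parWF r2 pf33837 h33837
  have h33839 := checkRangeG_sound parWF r2 pf33838 h33838
  have h33840 := checkRangeG_sound parWF r2 pf33839 h33839
  have h33841 := checkRangeG_sound parWF r2 pf33840 h33840
  have h33842 := checkRangeG_sound parWF r2 pf33841 h33841
  have h33843 := checkRangeG_sound parWF r2 pf33842 h33842
  have h33844 := checkRangeG_sound parWF r2 pf33843 h33843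
  have h33845 := checkRangeG_sound parWF r2 pf33844 h33844
  have h33846 := checkRangeG_sound parWF r2 pf33845 h33845
  have h33847 := checkRangeG_sound parWF r2 pf33846 h33846
  have h33848 := checkRangeG_sound parWF r2 pf33847 h33847
  have h33849 := checkRangeG_sound parWF r2 pf33848 h33848
  have h33850 := checkRangeG_sound parWF r2 pf33849 h33849
  exact h33850

theorem c677 (h33850 : ∀ j, j < 112915 → GoodG.{u} par (db j)) : ∀ j, j < 113126 → GoodG.{u} par (db j) := by
  have h33851 := checkRangeG_sound parWF r2 pf33850 h33850
  have h33852 := checkRangeG_sound parWF r2 pf33851 h33851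
  have h33853 := checkRangeG_sound parWF r2 pf33852 h33852
  have h33854 := checkRangeG_sound parWF r2 pf33853 h33853
  have h33855 := checkRangeG_sound parWF r2 pf33854 h33854
  have h33856 := checkRangeG_sound parWF r2 pf33855 h33855
  have h33857 := checkRangeG_sound parWF r2 pf33856 h33856
  have h33858 := checkRangeG_sound parWF r2 pf33857 h33857
  have h33859 := checkRangeG_sound parWF r2 pf33858 h33858
  have h33860 := checkRangeG_sound parWF r2 pf33859 h33859
  have h33861 := checkRangeG_sound parWF r2 pf33860 h33860
  have h33862 := checkRangeG_sound parWF r2 pf33861 h33861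
  have h33863 := checkRangeG_sound parWF r2 pf33862 h33862
  have h33864 := checkRangeG_sound parWF r2 pf33863 h33863
  have h33865 := checkRangeG_sound parWF r2 pf33864 h33864
  have h33866 := checkRangeG_sound parWF r2 pf33865 h33865
  have h33867 := checkRangeG_sound parWF r2 pf33866 h33866
  have h33868 := checkRangeG_sound parWF r2 pf33867 h33867
  have h33869 := checkRangeG_sound parWF r2 pf33868 h33868
  have h33870 := checkRangeG_sound parWF r2 pf33869 h33869
  have h33871 := checkRangeG_sound parWF r2 pf33870 h33870
  have h33872 := checkRangeG_sound parWF r2 pf33871 h33871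
  have h33873 := checkRangeG_sound parWF r2 pf33872 h33872
  have h33874 := checkRangeG_sound parWF r2 pf33873 h33873
  have h33875 := checkRangeG_sound parWF r2 pf33874 h33874
  have h33876 := checkRangeG_sound parWF r2 pf33875 h33875
  have h33877 := checkRangeG_sound parWF r2 pf33876 h33876
  have h33878 := checkRangeG_sound parWF r2 pf33877 h33877
  have h33879 := checkRangeG_sound parWF r2 pf33878 h33878
  have h33880 := checkRangeG_sound parWF r2 pf33879 h33879
  have h33881 := checkRangeG_sound parWF r2 pf33880 h33880
  have h33882 := checkRangeG_sound parWF r2 pf33881 h33881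
  have h33883 := checkRangeG_sound parWF r2 pf33882 h33882
  have h33884 := checkRangeG_sound parWF r2 pf33883 h33883
  have h33885 := checkRangeG_sound parWF r2 pf33884 h33884
  have h33886 := checkRangeG_sound parWF r2 pf33885 h33885
  have h33887 := checkRangeG_sound parWF r2 pf33886 h33886
  have h33888 := checkRangeG_sound parWF r2 pf33887 h33887
  have h33889 := checkRangeG_sound parWF r2 pf33888 h33888
  have h33890 := checkRangeG_sound parWF r2 pf33889 h33889
  have h33891 := checkRangeG_sound parWF r2 pf33890 h33890
  have h33892 := checkRangeG_sound parWF r2 pf33891 h33891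
  have h33893 := checkRangeG_sound parWF r2 pf33892 h33892
  have h33894 := checkRangeG_sound parWF r2 pf33893 h33893
  have h33895 := checkRangeG_sound parWF r2 pf33894 h33894
  have h33896 := checkRangeG_sound parWF r2 pf33895 h33895
  have h33897 := checkRangeG_sound parWF r2 pf33896 h33896
  have h33898 := checkRangeG_sound parWF r2 pf33897 h33897
  have h33899 := checkRangeG_sound parWF r2 pf33898 h33898
  have h33900 := checkRangeG_sound parWF r2 pf33899 h33899
  exact h33900

theorem c678 (h33900 : ∀ j, j < 113126 → GoodG.{u} par (db j)) : ∀ j, j < 113342 → GoodG.{u} par (db j) := by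
  have h33901 := checkRangeG_sound parWF r2 pf33900 h33900
  have h33902 := checkRangeG_sound parWF r2 pf33901 h33901
  have h33903 := checkRangeG_sound parWF r2 pf33902 h33902
  have h33904 := checkRangeG_sound parWF r2 pf33903 h33903
  have h33905 := checkRangeG_sound parWF r2 pf33904 h33904
  have h33906 := checkRangeG_sound parWF r2 pf33905 h33905
  have h33907 := checkRangeG_sound parWF r2 pf33906 h33906
  have h33908 := checkRangeG_sound parWF r2 pf33907 h33907
  have h33909 := checkRangeG_sound parWF r2 pf33908 h33908
  have h33910 := checkRangeG_sound parWF r2 pf33909 h33909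
  have h33911 := checkRangeG_sound parWF r2 pf33910 h33910
  have h33912 := checkRangeG_sound parWF r2 pf33911 h33911
  have h33913 := checkRangeG_sound parWF r2 pf33912 h33912
  have h33914 := checkRangeG_sound parWF r2 pf33913 h33913
  have h33915 := checkRangeG_sound parWF r2 pf33914 h33914
  have h33916 := checkRangeG_sound parWF r2 pf33915 h33915
  have h33917 := checkRangeG_sound parWF r2 pf33916 h33916
  have h33918 := checkRangeG_sound parWF r2 pf33917 h33917
  have h33919 := checkRangeG_sound parWF r2 pf33918 h33918
  have h33920 := checkRangeG_sound parWF r2 pf33919 h33919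
  have h33921 := checkRangeG_sound parWF r2 pf33920 h33920
  have h33922 := checkRangeG_sound parWF r2 pf33921 h33921
  have h33923 := checkRangeG_sound parWF r2 pf33922 h33922
  have h33924 := checkRangeG_sound parWF r2 pf33923 h33923
  have h33925 := checkRangeG_sound parWF r2 pf33924 h33924
  have h33926 := checkRangeG_sound parWF r2 pf33925 h33925
  have h33927 := checkRangeG_sound parWF r2 pf33926 h33926
  have h33928 := checkRangeG_sound parWF r2 pf33927 h33927
  have h33929 := checkRangeG_sound parWF r2 pf33928 h33928
  have h33930 := checkRangeG_sound parWF r2 pf33929 h33929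
  have h33931 := checkRangeG_sound parWF r2 pf33930 h33930
  have h33932 := checkRangeG_sound parWF r2 pf33931 h33931
  have h33933 := checkRangeG_sound parWF r2 pf33932 h33932
  have h33934 := checkRangeG_sound parWF r2 pf33933 h33933
  have h33935 := checkRangeG_sound parWF r2 pf33934 h33934
  have h33936 := checkRangeG_sound parWF r2 pf33935 h33935
  have h33937 := checkRangeG_sound parWF r2 pf33936 h33936
  have h33938 := checkRangeG_sound parWF r2 pf33937 h33937
  have h33939 := checkRangeG_sound parWF r2 pf33938 h33938
  have h33940 := checkRangeG_sound parWF r2 pf33939 h33939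
  have h33941 := checkRangeG_sound parWF r2 pf33940 h33940
  have h33942 := checkRangeG_sound parWF r2 pf33941 h33941
  have h33943 := checkRangeG_sound parWF r2 pf33942 h33942
  have h33944 := checkRangeG_sound parWF r2 pf33943 h33943
  have h33945 := checkRangeG_sound parWF r2 pf33944 h33944
  have h33946 := checkRangeG_sound parWF r2 pf33945 h33945
  have h33947 := checkRangeG_sound parWF r2 pf33946 h33946
  have h33948 := checkRangeG_sound parWF r2 pf33947 h33947
  have h33949 := checkRangeG_sound parWF r2 pf33948 h33948
  have h33950 := checkRangeG_sound parWF r2 pf33949 h33949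
  exact h33950

theorem c679 (h33950 : ∀ j, j < 113342 → GoodG.{u} par (db j)) : ∀ j, j < 113543 → GoodG.{u} par (db j) := by
  have h33951 := checkRangeG_sound parWF r2 pf33950 h33950
  have h33952 := checkRangeG_sound parWF r2 pf33951 h33951
  have h33953 := checkRangeG_sound parWF r2 pf33952 h33952
  have h33954 := checkRangeG_sound parWF r2 pf33953 h33953
  have h33955 := checkRangeG_sound parWF r2 pf33954 h33954
  have h33956 := checkRangeG_sound parWF r2 pf33955 h33955
  have h33957 := checkRangeG_sound parWF r2 pf33956 h33956
  have h33958 := checkRangeG_sound parWF r2 pf33957 h33957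
  have h33959 := checkRangeG_sound parWF r2 pf33958 h33958
  have h33960 := checkRangeG_sound parWF r2 pf33959 h33959
  have h33961 := checkRangeG_sound parWF r2 pf33960 h33960
  have h33962 := checkRangeG_sound parWF r2 pf33961 h33961
  have h33963 := checkRangeG_sound parWF r2 pf33962 h33962
  have h33964 := checkRangeG_sound parWF r2 pf33963 h33963
  have h33965 := checkRangeG_sound parWF r2 pf33964 h33964
  have h33966 := checkRangeG_sound parWF r2 pf33965 h33965
  have h33967 := checkRangeG_sound parWF r2 pf33966 h33966
  have h33968 := checkRangeG_sound parWF r2 pf33967 h33967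
  have h33969 := checkRangeG_sound parWF r2 pf33968 h33968
  have h33970 := checkRangeG_sound parWF r2 pf33969 h33969
  have h33971 := checkRangeG_sound parWF r2 pf33970 h33970
  have h33972 := checkRangeG_sound parWF r2 pf33971 h33971
  have h33973 := checkRangeG_sound parWF r2 pf33972 h33972
  have h33974 := checkRangeG_sound parWF r2 pf33973 h33973
  have h33975 := checkRangeG_sound parWF r2 pf33974 h33974
  have h33976 := checkRangeG_sound parWF r2 pf33975 h33975
  have h33977 := checkRangeG_sound parWF r2 pf33976 h33976
  have h33978 := checkRangeG_sound parWF r2 pf33977 h33977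
  have h33979 := checkRangeG_sound parWF r2 pf33978 h33978
  have h33980 := checkRangeG_sound parWF r2 pf33979 h33979
  have h33981 := checkRangeG_sound parWF r2 pf33980 h33980
  have h33982 := checkRangeG_sound parWF r2 pf33981 h33981
  have h33983 := checkRangeG_sound parWF r2 pf33982 h33982
  have h33984 := checkRangeG_sound parWF r2 pf33983 h33983
  have h33985 := checkRangeG_sound parWF r2 pf33984 h33984
  have h33986 := checkRangeG_sound parWF r2 pf33985 h33985
  have h33987 := checkRangeG_sound parWF r2 pf33986 h33986
  have h33988 := checkRangeG_sound parWF r2 pf33987 h33987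
  have h33989 := checkRangeG_sound parWF r2 pf33988 h33988
  have h33990 := checkRangeG_sound parWF r2 pf33989 h33989
  have h33991 := checkRangeG_sound parWF r2 pf33990 h33990
  have h33992 := checkRangeG_sound parWF r2 pf33991 h33991
  have h33993 := checkRangeG_sound parWF r2 pf33992 h33992
  have h33994 := checkRangeG_sound parWF r2 pf33993 h33993
  have h33995 := checkRangeG_sound parWF r2 pf33994 h33994
  have h33996 := checkRangeG_sound parWF r2 pf33995 h33995
  have h33997 := checkRangeG_sound parWF r2 pf33996 h33996
  have h33998 := checkRangeG_sound parWF r2 pf33997 h33997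
  have h33999 := checkRangeG_sound parWF r2 pf33998 h33998
  have h34000 := checkRangeG_sound parWF r2 pf33999 h33999
  exact h34000

theorem c680 (h34000 : ∀ j, j < 113543 → GoodG.{u} par (db j)) : ∀ j, j < 113703 → GoodG.{u} par (db j) := by
  have h34001 := checkRangeG_sound parWF r2 pf34000 h34000
  have h34002 := checkRangeG_sound parWF r2 pf34001 h34001
  have h34003 := checkRangeG_sound parWF r2 pf34002 h34002
  have h34004 := checkRangeG_sound parWF r2 pf34003 h34003
  have h34005 := checkRangeG_sound parWF r2 pf34004 h34004
  have h34006 := checkRangeG_sound parWF r2 pf34005 h34005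
  have h34007 := checkRangeG_sound parWF r2 pf34006 h34006
  have h34008 := checkRangeG_sound parWF r2 pf34007 h34007
  have h34009 := checkRangeG_sound parWF r2 pf34008 h34008
  have h34010 := checkRangeG_sound parWF r2 pf34009 h34009
  have h34011 := checkRangeG_sound parWF r2 pf34010 h34010
  have h34012 := checkRangeG_sound parWF r2 pf34011 h34011
  have h34013 := checkRangeG_sound parWF r2 pf34012 h34012
  have h34014 := checkRangeG_sound parWF r2 pf34013 h34013
  have h34015 := checkRangeG_sound parWF r2 pf34014 h34014
  have h34016 := checkRangeG_sound parWF r2 pf34015 h34015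
  have h34017 := checkRangeG_sound parWF r2 pf34016 h34016
  have h34018 := checkRangeG_sound parWF r2 pf34017 h34017
  have h34019 := checkRangeG_sound parWF r2 pf34018 h34018
  have h34020 := checkRangeG_sound parWF r2 pf34019 h34019
  have h34021 := checkRangeG_sound parWF r2 pf34020 h34020
  have h34022 := checkRangeG_sound parWF r2 pf34021 h34021
  have h34023 := checkRangeG_sound parWF r2 pf34022 h34022
  have h34024 := checkRangeG_sound parWF r2 pf34023 h34023
  have h34025 := checkRangeG_sound parWF r2 pf34024 h34024
  have h34026 := checkRangeG_sound parWF r2 pf34025 h34025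
  have h34027 := checkRangeG_sound parWF r2 pf34026 h34026
  have h34028 := checkRangeG_sound parWF r2 pf34027 h34027
  have h34029 := checkRangeG_sound parWF r2 pf34028 h34028
  have h34030 := checkRangeG_sound parWF r2 pf34029 h34029
  have h34031 := checkRangeG_sound parWF r2 pf34030 h34030
  have h34032 := checkRangeG_sound parWF r2 pf34031 h34031
  have h34033 := checkRangeG_sound parWF r2 pf34032 h34032
  have h34034 := checkRangeG_sound parWF r2 pf34033 h34033
  have h34035 := checkRangeG_sound parWF r2 pf34034 h34034
  have h34036 := checkRangeG_sound parWF r2 pf34035 h34035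
  have h34037 := checkRangeG_sound parWF r2 pf34036 h34036
  have h34038 := checkRangeG_sound parWF r2 pf34037 h34037
  have h34039 := checkRangeG_sound parWF r2 pf34038 h34038
  have h34040 := checkRangeG_sound parWF r2 pf34039 h34039
  have h34041 := checkRangeG_sound parWF r2 pf34040 h34040
  have h34042 := checkRangeG_sound parWF r2 pf34041 h34041
  have h34043 := checkRangeG_sound parWF r2 pf34042 h34042
  have h34044 := checkRangeG_sound parWF r2 pf34043 h34043
  have h34045 := checkRangeG_sound parWF r2 pf34044 h34044
  have h34046 := checkRangeG_sound parWF r2 pf34045 h34045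
  have h34047 := checkRangeG_sound parWF r2 pf34046 h34046
  have h34048 := checkRangeG_sound parWF r2 pf34047 h34047
  have h34049 := checkRangeG_sound parWF r2 pf34048 h34048
  have h34050 := checkRangeG_sound parWF r2 pf34049 h34049
  exact h34050

theorem c681 (h34050 : ∀ j, j < 113703 → GoodG.{u} par (db j)) : ∀ j, j < 113871 → GoodG.{u} par (db j) := by
  have h34051 := checkRangeG_sound parWF r2 pf34050 h34050
  have h34052 := checkRangeG_sound parWF r2 pf34051 h34051
  have h34053 := checkRangeG_sound parWF r2 pf34052 h34052
  have h34054 := checkRangeG_sound parWF r2 pf34053 h34053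
  have h34055 := checkRangeG_sound parWF r2 pf34054 h34054
  have h34056 := checkRangeG_sound parWF r2 pf34055 h34055
  have h34057 := checkRangeG_sound parWF r2 pf34056 h34056
  have h34058 := checkRangeG_sound parWF r2 pf34057 h34057
  have h34059 := checkRangeG_sound parWF r2 pf34058 h34058
  have h34060 := checkRangeG_sound parWF r2 pf34059 h34059
  have h34061 := checkRangeG_sound parWF r2 pf34060 h34060
  have h34062 := checkRangeG_sound parWF r2 pf34061 h34061
  have h34063 := checkRangeG_sound parWF r2 pf34062 h34062
  have h34064 := checkRangeG_sound parWF r2 pf34063 h34063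
  have h34065 := checkRangeG_sound parWF r2 pf34064 h34064
  have h34066 := checkRangeG_sound parWF r2 pf34065 h34065
  have h34067 := checkRangeG_sound parWF r2 pf34066 h34066
  have h34068 := checkRangeG_sound parWF r2 pf34067 h34067
  have h34069 := checkRangeG_sound parWF r2 pf34068 h34068
  have h34070 := checkRangeG_sound parWF r2 pf34069 h34069
  have h34071 := checkRangeG_sound parWF r2 pf34070 h34070
  have h34072 := checkRangeG_sound parWF r2 pf34071 h34071
  have h34073 := checkRangeG_sound parWF r2 pf34072 h34072
  have h34074 := checkRangeG_sound parWF r2 pf34073 h34073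
  have h34075 := checkRangeG_sound parWF r2 pf34074 h34074
  have h34076 := checkRangeG_sound parWF r2 pf34075 h34075
  have h34077 := checkRangeG_sound parWF r2 pf34076 h34076
  have h34078 := checkRangeG_sound parWF r2 pf34077 h34077
  have h34079 := checkRangeG_sound parWF r2 pf34078 h34078
  have h34080 := checkRangeG_sound parWF r2 pf34079 h34079
  have h34081 := checkRangeG_sound parWF r2 pf34080 h34080
  have h34082 := checkRangeG_sound parWF r2 pf34081 h34081
  have h34083 := checkRangeG_sound parWF r2 pf34082 h34082
  have h34084 := checkRangeG_sound parWF r2 pf34083 h34083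
  have h34085 := checkRangeG_sound parWF r2 pf34084 h34084
  have h34086 := checkRangeG_sound parWF r2 pf34085 h34085
  have h34087 := checkRangeG_sound parWF r2 pf34086 h34086
  have h34088 := checkRangeG_sound parWF r2 pf34087 h34087
  have h34089 := checkRangeG_sound parWF r2 pf34088 h34088
  have h34090 := checkRangeG_sound parWF r2 pf34089 h34089
  have h34091 := checkRangeG_sound parWF r2 pf34090 h34090
  have h34092 := checkRangeG_sound parWF r2 pf34091 h34091
  have h34093 := checkRangeG_sound parWF r2 pf34092 h34092
  have h34094 := checkRangeG_sound parWF r2 pf34093 h34093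
  have h34095 := checkRangeG_sound parWF r2 pf34094 h34094
  have h34096 := checkRangeG_sound parWF r2 pf34095 h34095
  have h34097 := checkRangeG_sound parWF r2 pf34096 h34096
  have h34098 := checkRangeG_sound parWF r2 pf34097 h34097
  have h34099 := checkRangeG_sound parWF r2 pf34098 h34098
  have h34100 := checkRangeG_sound parWF r2 pf34099 h34099
  exact h34100

theorem c682 (h34100 : ∀ j, j < 113871 → GoodG.{u} par (db j)) : ∀ j, j < 114041 → GoodG.{u} par (db j) := by
  have h34101 := checkRangeG_sound parWF r2 pf34100 h34100
  have h34102 := checkRangeG_sound parWF r2 pf34101 h34101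
  have h34103 := checkRangeG_sound parWF r2 pf34102 h34102
  have h34104 := checkRangeG_sound parWF r2 pf34103 h34103
  have h34105 := checkRangeG_sound parWF r2 pf34104 h34104
  have h34106 := checkRangeG_sound parWF r2 pf34105 h34105
  have h34107 := checkRangeG_sound parWF r2 pf34106 h34106
  have h34108 := checkRangeG_sound parWF r2 pf34107 h34107
  have h34109 := checkRangeG_sound parWF r2 pf34108 h34108
  have h34110 := checkRangeG_sound parWF r2 pf34109 h34109
  have h34111 := checkRangeG_sound parWF r2 pf34110 h34110
  have h34112 := checkRangeG_sound parWF r2 pf34111 h34111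
  have h34113 := checkRangeG_sound parWF r2 pf34112 h34112
  have h34114 := checkRangeG_sound parWF r2 pf34113 h34113
  have h34115 := checkRangeG_sound parWF r2 pf34114 h34114
  have h34116 := checkRangeG_sound parWF r2 pf34115 h34115
  have h34117 := checkRangeG_sound parWF r2 pf34116 h34116
  have h34118 := checkRangeG_sound parWF r2 pf34117 h34117
  have h34119 := checkRangeG_sound parWF r2 pf34118 h34118
  have h34120 := checkRangeG_sound parWF r2 pf34119 h34119
  have h34121 := checkRangeG_sound parWF r2 pf34120 h34120
  have h34122 := checkRangeG_sound parWF r2 pf34121 h34121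
  have h34123 := checkRangeG_sound parWF r2 pf34122 h34122
  have h34124 := checkRangeG_sound parWF r2 pf34123 h34123
  have h34125 := checkRangeG_sound parWF r2 pf34124 h34124
  have h34126 := checkRangeG_sound parWF r2 pf34125 h34125
  have h34127 := checkRangeG_sound parWF r2 pf34126 h34126
  have h34128 := checkRangeG_sound parWF r2 pf34127 h34127
  have h34129 := checkRangeG_sound parWF r2 pf34128 h34128
  have h34130 := checkRangeG_sound parWF r2 pf34129 h34129
  have h34131 := checkRangeG_sound parWF r2 pf34130 h34130
  have h34132 := checkRangeG_sound parWF r2 pf34131 h34131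
  have h34133 := checkRangeG_sound parWF r2 pf34132 h34132
  have h34134 := checkRangeG_sound parWF r2 pf34133 h34133
  have h34135 := checkRangeG_sound parWF r2 pf34134 h34134
  have h34136 := checkRangeG_sound parWF r2 pf34135 h34135
  have h34137 := checkRangeG_sound parWF r2 pf34136 h34136
  have h34138 := checkRangeG_sound parWF r2 pf34137 h34137
  have h34139 := checkRangeG_sound parWF r2 pf34138 h34138
  have h34140 := checkRangeG_sound parWF r2 pf34139 h34139
  have h34141 := checkRangeG_sound parWF r2 pf34140 h34140
  have h34142 := checkRangeG_sound parWF r2 pf34141 h34141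
  have h34143 := checkRangeG_sound parWF r2 pf34142 h34142
  have h34144 := checkRangeG_sound parWF r2 pf34143 h34143
  have h34145 := checkRangeG_sound parWF r2 pf34144 h34144
  have h34146 := checkRangeG_sound parWF r2 pf34145 h34145
  have h34147 := checkRangeG_sound parWF r2 pf34146 h34146
  have h34148 := checkRangeG_sound parWF r2 pf34147 h34147
  have h34149 := checkRangeG_sound parWF r2 pf34148 h34148
  have h34150 := checkRangeG_sound parWF r2 pf34149 h34149
  exact h34150

theorem c683 (h34150 : ∀ j, j < 114041 → GoodG.{u} par (db j)) : ∀ j, j < 114230 → GoodG.{u} par (db j) := by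
  have h34151 := checkRangeG_sound parWF r2 pf34150 h34150
  have h34152 := checkRangeG_sound parWF r2 pf34151 h34151
  have h34153 := checkRangeG_sound parWF r2 pf34152 h34152
  have h34154 := checkRangeG_sound parWF r2 pf34153 h34153
  have h34155 := checkRangeG_sound parWF r2 pf34154 h34154
  have h34156 := checkRangeG_sound parWF r2 pf34155 h34155
  have h34157 := checkRangeG_sound parWF r2 pf34156 h34156
  have h34158 := checkRangeG_sound parWF r2 pf34157 h34157
  have h34159 := checkRangeG_sound parWF r2 pf34158 h34158
  have h34160 := checkRangeG_sound parWF r2 pf34159 h34159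
  have h34161 := checkRangeG_sound parWF r2 pf34160 h34160
  have h34162 := checkRangeG_sound parWF r2 pf34161 h34161
  have h34163 := checkRangeG_sound parWF r2 pf34162 h34162
  have h34164 := checkRangeG_sound parWF r2 pf34163 h34163
  have h34165 := checkRangeG_sound parWF r2 pf34164 h34164
  have h34166 := checkRangeG_sound parWF r2 pf34165 h34165
  have h34167 := checkRangeG_sound parWF r2 pf34166 h34166
  have h34168 := checkRangeG_sound parWF r2 pf34167 h34167
  have h34169 := checkRangeG_sound parWF r2 pf34168 h34168
  have h34170 := checkRangeG_sound parWF r2 pf34169 h34169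
  have h34171 := checkRangeG_sound parWF r2 pf34170 h34170
  have h34172 := checkRangeG_sound parWF r2 pf34171 h34171
  have h34173 := checkRangeG_sound parWF r2 pf34172 h34172
  have h34174 := checkRangeG_sound parWF r2 pf34173 h34173
  have h34175 := checkRangeG_sound parWF r2 pf34174 h34174
  have h34176 := checkRangeG_sound parWF r2 pf34175 h34175
  have h34177 := checkRangeG_sound parWF r2 pf34176 h34176
  have h34178 := checkRangeG_sound parWF r2 pf34177 h34177
  have h34179 := checkRangeG_sound parWF r2 pf34178 h34178
  have h34180 := checkRangeG_sound parWF r2 pf34179 h34179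
  have h34181 := checkRangeG_sound parWF r2 pf34180 h34180
  have h34182 := checkRangeG_sound parWF r2 pf34181 h34181
  have h34183 := checkRangeG_sound parWF r2 pf34182 h34182
  have h34184 := checkRangeG_sound parWF r2 pf34183 h34183
  have h34185 := checkRangeG_sound parWF r2 pf34184 h34184
  have h34186 := checkRangeG_sound parWF r2 pf34185 h34185
  have h34187 := checkRangeG_sound parWF r2 pf34186 h34186
  have h34188 := checkRangeG_sound parWF r2 pf34187 h34187
  have h34189 := checkRangeG_sound parWF r2 pf34188 h34188
  have h34190 := checkRangeG_sound parWF r2 pf34189 h34189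
  have h34191 := checkRangeG_sound parWF r2 pf34190 h34190
  have h34192 := checkRangeG_sound parWF r2 pf34191 h34191
  have h34193 := checkRangeG_sound parWF r2 pf34192 h34192
  have h34194 := checkRangeG_sound parWF r2 pf34193 h34193
  have h34195 := checkRangeG_sound parWF r2 pf34194 h34194
  have h34196 := checkRangeG_sound parWF r2 pf34195 h34195
  have h34197 := checkRangeG_sound parWF r2 pf34196 h34196
  have h34198 := checkRangeG_sound parWF r2 pf34197 h34197
  have h34199 := checkRangeG_sound parWF r2 pf34198 h34198
  have h34200 := checkRangeG_sound parWF r2 pf34199 h34199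
  exact h34200


end Vale.Agent.P045g.C61
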