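import Vale.Agent.P045g.C61.WF
import Vale.Agent.P045g.C61.Pf570
import Vale.Agent.P045g.C61.Pf571
import Vale.Agent.P045g.C61.Pf572
import Vale.Agent.P045g.C61.Pf573
import Vale.Agent.P045g.C61.Pf574
import Vale.Agent.P045g.C61.Pf575
import Vale.Agent.P045g.C61.Pf576
import Vale.Agent.P045g.C61.Pf577
import Vale.Agent.P045g.C61.Pf578
import Vale.Agent.P045g.C61.Pf579

namespace Vale.Agent.P045g.C61

open Vale.Agent.P045b Vale.Agent.P045g

universe u

theorem c684 (h34200 : ∀ j, j < 114230 → GoodG.{u} par (db j)) : ∀ j, j < 114424 → GoodG.{u} par (db j) := by
  have h34201 := checkRangeG_sound parWF r2 pf34200 h34200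
  have h34202 := checkRangeG_sound parWF r2 pf34201 h34201
  have h34203 := checkRangeG_sound parWF r2 pf34202 h34202
  have h34204 := checkRangeG_sound parWF r2 pf34203 h34203
  have h34205 := checkRangeG_sound parWF r2 pf34204 h34204
  have h34206 := checkRangeG_sound parWF r2 pf34205 h34205
  have h34207 := checkRangeG_sound parWF r2 pf34206 h34206
  have h34208 := checkRangeG_sound parWF r2 pf34207 h34207
  have h34209 := checkRangeG_sound parWF r2 pf34208 h34208
  have h34210 := checkRangeG_sound parWF r2 pf34209 h34209
  have h34211 := checkRangeG_sound parWF r2 pf34210 h34210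
  have h34212 := checkRangeG_sound parWF r2 pf34211 h34211
  have h34213 := checkRangeG_sound parWF r2 pf34212 h34212
  have h34214 := checkRangeG_sound parWF r2 pf34213 h34213
  have h34215 := checkRangeG_sound parWF r2 pf34214 h34214
  have h34216 := checkRangeG_sound parWF r2 pf34215 h34215
  have h34217 := checkRangeG_sound parWF r2 pf34216 h34216
  have h34218 := checkRangeG_sound parWF r2 pf34217 h34217
  have h34219 := checkRangeG_sound parWF r2 pf34218 h34218
  have h34220 := checkRangeG_sound parWF r2 pf34219 h34219
  have h34221 := checkRangeG_sound parWF r2 pf34220 h34220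
  have h34222 := checkRangeG_sound parWF r2 pf34221 h34221
  have h34223 := checkRangeG_sound parWF r2 pf34222 h34222
  have h34224 := checkRangeG_sound parWF r2 pf34223 h34223
  have h34225 := checkRangeG_sound parWF r2 pf34224 h34224
  have h34226 := checkRangeG_sound parWF r2 pf34225 h34225
  have h34227 := checkRangeG_sound parWF r2 pf34226 h34226
  have h34228 := checkRangeG_sound parWF r2 pf34227 h34227
  have h34229 := checkRangeG_sound parWF r2 pf34228 h34228
  have h34230 := checkRangeG_sound parWF r2 pf34229 h34229
  have h34231 := checkRangeG_sound parWF r2 pf34230 h34230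
  have h34232 := checkRangeG_sound parWF r2 pf34231 h34231
  have h34233 := checkRangeG_sound parWF r2 pf34232 h34232
  have h34234 := checkRangeG_sound parWF r2 pf34233 h34233
  have h34235 := checkRangeG_sound parWF r2 pf34234 h34234
  have h34236 := checkRangeG_sound parWF r2 pf34235 h34235
  have h34237 := checkRangeG_sound parWF r2 pf34236 h34236
  have h34238 := checkRangeG_sound parWF r2 pf34237 h34237
  have h34239 := checkRangeG_sound parWF r2 pf34238 h34238
  have h34240 := checkRangeG_sound parWF r2 pf34239 h34239
  have h34241 := checkRangeG_sound parWF r2 pf34240 h34240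
  have h34242 := checkRangeG_sound parWF r2 pf34241 h34241
  have h34243 := checkRangeG_sound parWF r2 pf34242 h34242
  have h34244 := checkRangeG_sound parWF r2 pf34243 h34243
  have h34245 := checkRangeG_sound parWF r2 pf34244 h34244
  have h34246 := checkRangeG_sound parWF r2 pf34245 h34245
  have h34247 := checkRangeG_sound parWF r2 pf34246 h34246
  have h34248 := checkRangeG_sound parWF r2 pf34247 h34247
  have h34249 := checkRangeG_sound parWF r2 pf34248 h34248
  have h34250 := checkRangeG_sound parWF r2 pf34249 h34249
  exact h34250

theorem c685 (h34250 : ∀ j, j < 114424 → GoodG.{u} par (db j)) : ∀ j, j < 114630 → GoodG.{u} par (db j) := by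
  have h34251 := checkRangeG_sound parWF r2 pf34250 h34250
  have h34252 := checkRangeG_sound parWF r2 pf34251 h34251
  have h34253 := checkRangeG_sound parWF r2 pf34252 h34252
  have h34254 := checkRangeG_sound parWF r2 pf34253 h34253
  have h34255 := checkRangeG_sound parWF r2 pf34254 h34254
  have h34256 := checkRangeG_sound parWF r2 pf34255 h34255
  have h34257 := checkRangeG_sound parWF r2 pf34256 h34256
  have h34258 := checkRangeG_sound parWF r2 pf34257 h34257
  have h34259 := checkRangeG_sound parWF r2 pf34258 h34258
  have h34260 := checkRangeG_sound parWF r2 pf34259 h34259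
  have h34261 := checkRangeG_sound parWF r2 pf34260 h34260
  have h34262 := checkRangeG_sound parWF r2 pf34261 h34261
  have h34263 := checkRangeG_sound parWF r2 pf34262 h34262
  have h34264 := checkRangeG_sound parWF r2 pf34263 h34263
  have h34265 := checkRangeG_sound parWF r2 pf34264 h34264
  have h34266 := checkRangeG_sound parWF r2 pf34265 h34265
  have h34267 := checkRangeG_sound parWF r2 pf34266 h34266
  have h34268 := checkRangeG_sound parWF r2 pf34267 h34267
  have h34269 := checkRangeG_sound parWF r2 pf34268 h34268
  have h34270 := checkRangeG_sound parWF r2 pf34269 h34269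
  have h34271 := checkRangeG_sound parWF r2 pf34270 h34270
  have h34272 := checkRangeG_sound parWF r2 pf34271 h34271
  have h34273 := checkRangeG_sound parWF r2 pf34272 h34272
  have h34274 := checkRangeG_sound parWF r2 pf34273 h34273
  have h34275 := checkRangeG_sound parWF r2 pf34274 h34274
  have h34276 := checkRangeG_sound parWF r2 pf34275 h34275
  have h34277 := checkRangeG_sound parWF r2 pf34276 h34276
  have h34278 := checkRangeG_sound parWF r2 pf34277 h34277
  have h34279 := checkRangeG_sound parWF r2 pf34278 h34278
  have h34280 := checkRangeG_sound parWF r2 pf34279 h34279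
  have h34281 := checkRangeG_sound parWF r2 pf34280 h34280
  have h34282 := checkRangeG_sound parWF r2 pf34281 h34281
  have h34283 := checkRangeG_sound parWF r2 pf34282 h34282
  have h34284 := checkRangeG_sound parWF r2 pf34283 h34283
  have h34285 := checkRangeG_sound parWF r2 pf34284 h34284
  have h34286 := checkRangeG_sound parWF r2 pf34285 h34285
  have h34287 := checkRangeG_sound parWF r2 pf34286 h34286
  have h34288 := checkRangeG_sound parWF r2 pf34287 h34287
  have h34289 := checkRangeG_sound parWF r2 pf34288 h34288
  have h34290 := checkRangeG_sound parWF r2 pf34289 h34289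
  have h34291 := checkRangeG_sound parWF r2 pf34290 h34290
  have h34292 := checkRangeG_sound parWF r2 pf34291 h34291
  have h34293 := checkRangeG_sound parWF r2 pf34292 h34292
  have h34294 := checkRangeG_sound parWF r2 pf34293 h34293
  have h34295 := checkRangeG_sound parWF r2 pf34294 h34294
  have h34296 := checkRangeG_sound parWF r2 pf34295 h34295
  have h34297 := checkRangeG_sound parWF r2 pf34296 h34296
  have h34298 := checkRangeG_sound parWF r2 pf34297 h34297
  have h34299 := checkRangeG_sound parWF r2 pf34298 h34298
  have h34300 := checkRangeG_sound parWF r2 pf34299 h34299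
  exact h34300

theorem c686 (h34300 : ∀ j, j < 114630 → GoodG.{u} par (db j)) : ∀ j, j < 114820 → GoodG.{u} par (db j) := by
  have h34301 := checkRangeG_sound parWF r2 pf34300 h34300
  have h34302 := checkRangeG_sound parWF r2 pf34301 h34301
  have h34303 := checkRangeG_sound parWF r2 pf34302 h34302
  have h34304 := checkRangeG_sound parWF r2 pf34303 h34303
  have h34305 := checkRangeG_sound parWF r2 pf34304 h34304
  have h34306 := checkRangeG_sound parWF r2 pf34305 h34305
  have h34307 := checkRangeG_sound parWF r2 pf34306 h34306
  have h34308 := checkRangeG_sound parWF r2 pf34307 h34307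
  have h34309 := checkRangeG_sound parWF r2 pf34308 h34308
  have h34310 := checkRangeG_sound parWF r2 pf34309 h34309
  have h34311 := checkRangeG_sound parWF r2 pf34310 h34310
  have h34312 := checkRangeG_sound parWF r2 pf34311 h34311
  have h34313 := checkRangeG_sound parWF r2 pf34312 h34312
  have h34314 := checkRangeG_sound parWF r2 pf34313 h34313
  have h34315 := checkRangeG_sound parWF r2 pf34314 h34314
  have h34316 := checkRangeG_sound parWF r2 pf34315 h34315
  have h34317 := checkRangeG_sound parWF r2 pf34316 h34316
  have h34318 := checkRangeG_sound parWF r2 pf34317 h34317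
  have h34319 := checkRangeG_sound parWF r2 pf34318 h34318
  have h34320 := checkRangeG_sound parWF r2 pf34319 h34319
  have h34321 := checkRangeG_sound parWF r2 pf34320 h34320
  have h34322 := checkRangeG_sound parWF r2 pf34321 h34321
  have h34323 := checkRangeG_sound parWF r2 pf34322 h34322
  have h34324 := checkRangeG_sound parWF r2 pf34323 h34323
  have h34325 := checkRangeG_sound parWF r2 pf34324 h34324
  have h34326 := checkRangeG_sound parWF r2 pf34325 h34325
  have h34327 := checkRangeG_sound parWF r2 pf34326 h34326
  have h34328 := checkRangeG_sound parWF r2 pf34327 h34327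
  have h34329 := checkRangeG_sound parWF r2 pf34328 h34328
  have h34330 := checkRangeG_sound parWF r2 pf34329 h34329
  have h34331 := checkRangeG_sound parWF r2 pf34330 h34330
  have h34332 := checkRangeG_sound parWF r2 pf34331 h34331
  have h34333 := checkRangeG_sound parWF r2 pf34332 h34332
  have h34334 := checkRangeG_sound parWF r2 pf34333 h34333
  have h34335 := checkRangeG_sound parWF r2 pf34334 h34334
  have h34336 := checkRangeG_sound parWF r2 pf34335 h34335
  have h34337 := checkRangeG_sound parWF r2 pf34336 h34336
  have h34338 := checkRangeG_sound parWF r2 pf34337 h34337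
  have h34339 := checkRangeG_sound parWF r2 pf34338 h34338
  have h34340 := checkRangeG_sound parWF r2 pf34339 h34339
  have h34341 := checkRangeG_sound parWF r2 pf34340 h34340
  have h34342 := checkRangeG_sound parWF r2 pf34341 h34341
  have h34343 := checkRangeG_sound parWF r2 pf34342 h34342
  have h34344 := checkRangeG_sound parWF r2 pf34343 h34343
  have h34345 := checkRangeG_sound parWF r2 pf34344 h34344
  have h34346 := checkRangeG_sound parWF r2 pf34345 h34345
  have h34347 := checkRangeG_sound parWF r2 pf34346 h34346
  have h34348 := checkRangeG_sound parWF r2 pf34347 h34347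
  have h34349 := checkRangeG_sound parWF r2 pf34348 h34348
  have h34350 := checkRangeG_sound parWF r2 pf34349 h34349
  exact h34350

theorem c687 (h34350 : ∀ j, j < 114820 → GoodG.{u} par (db j)) : ∀ j, j < 114992 → GoodG.{u} par (db j) := by
  have h34351 := checkRangeG_sound parWF r2 pf34350 h34350
  have h34352 := checkRangeG_sound parWF r2 pf34351 h34351
  have h34353 := checkRangeG_sound parWF r2 pf34352 h34352
  have h34354 := checkRangeG_sound parWF r2 pf34353 h34353
  have h34355 := checkRangeG_sound parWF r2 pf34354 h34354
  have h34356 := checkRangeG_sound parWF r2 pf34355 h34355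
  have h34357 := checkRangeG_sound parWF r2 pf34356 h34356
  have h34358 := checkRangeG_sound parWF r2 pf34357 h34357
  have h34359 := checkRangeG_sound parWF r2 pf34358 h34358
  have h34360 := checkRangeG_sound parWF r2 pf34359 h34359
  have h34361 := checkRangeG_sound parWF r2 pf34360 h34360
  have h34362 := checkRangeG_sound parWF r2 pf34361 h34361
  have h34363 := checkRangeG_sound parWF r2 pf34362 h34362
  have h34364 := checkRangeG_sound parWF r2 pf34363 h34363
  have h34365 := checkRangeG_sound parWF r2 pf34364 h34364
  have h34366 := checkRangeG_sound parWF r2 pf34365 h34365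
  have h34367 := checkRangeG_sound parWF r2 pf34366 h34366
  have h34368 := checkRangeG_sound parWF r2 pf34367 h34367
  have h34369 := checkRangeG_sound parWF r2 pf34368 h34368
  have h34370 := checkRangeG_sound parWF r2 pf34369 h34369
  have h34371 := checkRangeG_sound parWF r2 pf34370 h34370
  have h34372 := checkRangeG_sound parWF r2 pf34371 h34371
  have h34373 := checkRangeG_sound parWF r2 pf34372 h34372
  have h34374 := checkRangeG_sound parWF r2 pf34373 h34373
  have h34375 := checkRangeG_sound parWF r2 pf34374 h34374
  have h34376 := checkRangeG_sound parWF r2 pf34375 h34375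
  have h34377 := checkRangeG_sound parWF r2 pf34376 h34376
  have h34378 := checkRangeG_sound parWF r2 pf34377 h34377
  have h34379 := checkRangeG_sound parWF r2 pf34378 h34378
  have h34380 := checkRangeG_sound parWF r2 pf34379 h34379
  have h34381 := checkRangeG_sound parWF r2 pf34380 h34380
  have h34382 := checkRangeG_sound parWF r2 pf34381 h34381
  have h34383 := checkRangeG_sound parWF r2 pf34382 h34382
  have h34384 := checkRangeG_sound parWF r2 pf34383 h34383
  have h34385 := checkRangeG_sound parWF r2 pf34384 h34384
  have h34386 := checkRangeG_sound parWF r2 pf34385 h34385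
  have h34387 := checkRangeG_sound parWF r2 pf34386 h34386
  have h34388 := checkRangeG_sound parWF r2 pf34387 h34387
  have h34389 := checkRangeG_sound parWF r2 pf34388 h34388
  have h34390 := checkRangeG_sound parWF r2 pf34389 h34389
  have h34391 := checkRangeG_sound parWF r2 pf34390 h34390
  have h34392 := checkRangeG_sound parWF r2 pf34391 h34391
  have h34393 := checkRangeG_sound parWF r2 pf34392 h34392
  have h34394 := checkRangeG_sound parWF r2 pf34393 h34393
  have h34395 := checkRangeG_sound parWF r2 pf34394 h34394
  have h34396 := checkRangeG_sound parWF r2 pf34395 h34395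
  have h34397 := checkRangeG_sound parWF r2 pf34396 h34396
  have h34398 := checkRangeG_sound parWF r2 pf34397 h34397
  have h34399 := checkRangeG_sound parWF r2 pf34398 h34398
  have h34400 := checkRangeG_sound parWF r2 pf34399 h34399
  exact h34400

theorem c688 (h34400 : ∀ j, j < 114992 → GoodG.{u} par (db j)) : ∀ j, j < 115150 → GoodG.{u} par (db j) := by
  have h34401 := checkRangeG_sound parWF r2 pf34400 h34400
  have h34402 := checkRangeG_sound parWF r2 pf34401 h34401
  have h34403 := checkRangeG_sound parWF r2 pf34402 h34402
  have h34404 := checkRangeG_sound parWF r2 pf34403 h34403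
  have h34405 := checkRangeG_sound parWF r2 pf34404 h34404
  have h34406 := checkRangeG_sound parWF r2 pf34405 h34405
  have h34407 := checkRangeG_sound parWF r2 pf34406 h34406
  have h34408 := checkRangeG_sound parWF r2 pf34407 h34407
  have h34409 := checkRangeG_sound parWF r2 pf34408 h34408
  have h34410 := checkRangeG_sound parWF r2 pf34409 h34409
  have h34411 := checkRangeG_sound parWF r2 pf34410 h34410
  have h34412 := checkRangeG_sound parWF r2 pf34411 h34411
  have h34413 := checkRangeG_sound parWF r2 pf34412 h34412
  have h34414 := checkRangeG_sound parWF r2 pf34413 h34413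
  have h34415 := checkRangeG_sound parWF r2 pf34414 h34414
  have h34416 := checkRangeG_sound parWF r2 pf34415 h34415
  have h34417 := checkRangeG_sound parWF r2 pf34416 h34416
  have h34418 := checkRangeG_sound parWF r2 pf34417 h34417
  have h34419 := checkRangeG_sound parWF r2 pf34418 h34418
  have h34420 := checkRangeG_sound parWF r2 pf34419 h34419
  have h34421 := checkRangeG_sound parWF r2 pf34420 h34420
  have h34422 := checkRangeG_sound parWF r2 pf34421 h34421
  have h34423 := checkRangeG_sound parWF r2 pf34422 h34422
  have h34424 := checkRangeG_sound parWF r2 pf34423 h34423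
  have h34425 := checkRangeG_sound parWF r2 pf34424 h34424
  have h34426 := checkRangeG_sound parWF r2 pf34425 h34425
  have h34427 := checkRangeG_sound parWF r2 pf34426 h34426
  have h34428 := checkRangeG_sound parWF r2 pf34427 h34427
  have h34429 := checkRangeG_sound parWF r2 pf34428 h34428
  have h34430 := checkRangeG_sound parWF r2 pf34429 h34429
  have h34431 := checkRangeG_sound parWF r2 pf34430 h34430
  have h34432 := checkRangeG_sound parWF r2 pf34431 h34431
  have h34433 := checkRangeG_sound parWF r2 pf34432 h34432
  have h34434 := checkRangeG_sound parWF r2 pf34433 h34433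
  have h34435 := checkRangeG_sound parWF r2 pf34434 h34434
  have h34436 := checkRangeG_sound parWF r2 pf34435 h34435
  have h34437 := checkRangeG_sound parWF r2 pf34436 h34436
  have h34438 := checkRangeG_sound parWF r2 pf34437 h34437
  have h34439 := checkRangeG_sound parWF r2 pf34438 h34438
  have h34440 := checkRangeG_sound parWF r2 pf34439 h34439
  have h34441 := checkRangeG_sound parWF r2 pf34440 h34440
  have h34442 := checkRangeG_sound parWF r2 pf34441 h34441
  have h34443 := checkRangeG_sound parWF r2 pf34442 h34442
  have h34444 := checkRangeG_sound parWF r2 pf34443 h34443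
  have h34445 := checkRangeG_sound parWF r2 pf34444 h34444
  have h34446 := checkRangeG_sound parWF r2 pf34445 h34445
  have h34447 := checkRangeG_sound parWF r2 pf34446 h34446
  have h34448 := checkRangeG_sound parWF r2 pf34447 h34447
  have h34449 := checkRangeG_sound parWF r2 pf34448 h34448
  have h34450 := checkRangeG_sound parWF r2 pf34449 h34449
  exact h34450

theorem c689 (h34450 : ∀ j, j < 115150 → GoodG.{u} par (db j)) : ∀ j, j < 115300 → GoodG.{u} par (db j) := by
  have h34451 := checkRangeG_sound parWF r2 pf34450 h34450
  have h34452 := checkRangeG_sound parWF r2 pf34451 h34451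
  have h34453 := checkRangeG_sound parWF r2 pf34452 h34452
  have h34454 := checkRangeG_sound parWF r2 pf34453 h34453
  have h34455 := checkRangeG_sound parWF r2 pf34454 h34454
  have h34456 := checkRangeG_sound parWF r2 pf34455 h34455
  have h34457 := checkRangeG_sound parWF r2 pf34456 h34456
  have h34458 := checkRangeG_sound parWF r2 pf34457 h34457
  have h34459 := checkRangeG_sound parWF r2 pf34458 h34458
  have h34460 := checkRangeG_sound parWF r2 pf34459 h34459
  have h34461 := checkRangeG_sound parWF r2 pf34460 h34460
  have h34462 := checkRangeG_sound parWF r2 pf34461 h34461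
  have h34463 := checkRangeG_sound parWF r2 pf34462 h34462
  have h34464 := checkRangeG_sound parWF r2 pf34463 h34463
  have h34465 := checkRangeG_sound parWF r2 pf34464 h34464
  have h34466 := checkRangeG_sound parWF r2 pf34465 h34465
  have h34467 := checkRangeG_sound parWF r2 pf34466 h34466
  have h34468 := checkRangeG_sound parWF r2 pf34467 h34467
  have h34469 := checkRangeG_sound parWF r2 pf34468 h34468
  have h34470 := checkRangeG_sound parWF r2 pf34469 h34469
  have h34471 := checkRangeG_sound parWF r2 pf34470 h34470
  have h34472 := checkRangeG_sound parWF r2 pf34471 h34471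
  have h34473 := checkRangeG_sound parWF r2 pf34472 h34472
  have h34474 := checkRangeG_sound parWF r2 pf34473 h34473
  have h34475 := checkRangeG_sound parWF r2 pf34474 h34474
  have h34476 := checkRangeG_sound parWF r2 pf34475 h34475
  have h34477 := checkRangeG_sound parWF r2 pf34476 h34476
  have h34478 := checkRangeG_sound parWF r2 pf34477 h34477
  have h34479 := checkRangeG_sound parWF r2 pf34478 h34478
  have h34480 := checkRangeG_sound parWF r2 pf34479 h34479
  have h34481 := checkRangeG_sound parWF r2 pf34480 h34480
  have h34482 := checkRangeG_sound parWF r2 pf34481 h34481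
  have h34483 := checkRangeG_sound parWF r2 pf34482 h34482
  have h34484 := checkRangeG_sound parWF r2 pf34483 h34483
  have h34485 := checkRangeG_sound parWF r2 pf34484 h34484
  have h34486 := checkRangeG_sound parWF r2 pf34485 h34485
  have h34487 := checkRangeG_sound parWF r2 pf34486 h34486
  have h34488 := checkRangeG_sound parWF r2 pf34487 h34487
  have h34489 := checkRangeG_sound parWF r2 pf34488 h34488
  have h34490 := checkRangeG_sound parWF r2 pf34489 h34489
  have h34491 := checkRangeG_sound parWF r2 pf34490 h34490
  have h34492 := checkRangeG_sound parWF r2 pf34491 h34491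
  have h34493 := checkRangeG_sound parWF r2 pf34492 h34492
  have h34494 := checkRangeG_sound parWF r2 pf34493 h34493
  have h34495 := checkRangeG_sound parWF r2 pf34494 h34494
  have h34496 := checkRangeG_sound parWF r2 pf34495 h34495
  have h34497 := checkRangeG_sound parWF r2 pf34496 h34496
  have h34498 := checkRangeG_sound parWF r2 pf34497 h34497
  have h34499 := checkRangeG_sound parWF r2 pf34498 h34498
  have h34500 := checkRangeG_sound parWF r2 pf34499 h34499
  exact h34500

theorem c690 (h34500 : ∀ j, j < 115300 → GoodG.{u} par (db j)) : ∀ j, j < 115452 → GoodG.{u} par (db j) := by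
  have h34501 := checkRangeG_sound parWF r2 pf34500 h34500
  have h34502 := checkRangeG_sound parWF r2 pf34501 h34501
  have h34503 := checkRangeG_sound parWF r2 pf34502 h34502
  have h34504 := checkRangeG_sound parWF r2 pf34503 h34503
  have h34505 := checkRangeG_sound parWF r2 pf34504 h34504
  have h34506 := checkRangeG_sound parWF r2 pf34505 h34505
  have h34507 := checkRangeG_sound parWF r2 pf34506 h34506
  have h34508 := checkRangeG_sound parWF r2 pf34507 h34507
  have h34509 := checkRangeG_sound parWF r2 pf34508 h34508
  have h34510 := checkRangeG_sound parWF r2 pf34509 h34509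
  have h34511 := checkRangeG_sound parWF r2 pf34510 h34510
  have h34512 := checkRangeG_sound parWF r2 pf34511 h34511
  have h34513 := checkRangeG_sound parWF r2 pf34512 h34512
  have h34514 := checkRangeG_sound parWF r2 pf34513 h34513
  have h34515 := checkRangeG_sound parWF r2 pf34514 h34514
  have h34516 := checkRangeG_sound parWF r2 pf34515 h34515
  have h34517 := checkRangeG_sound parWF r2 pf34516 h34516
  have h34518 := checkRangeG_sound parWF r2 pf34517 h34517
  have h34519 := checkRangeG_sound parWF r2 pf34518 h34518
  have h34520 := checkRangeG_sound parWF r2 pf34519 h34519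
  have h34521 := checkRangeG_sound parWF r2 pf34520 h34520
  have h34522 := checkRangeG_sound parWF r2 pf34521 h34521
  have h34523 := checkRangeG_sound parWF r2 pf34522 h34522
  have h34524 := checkRangeG_sound parWF r2 pf34523 h34523
  have h34525 := checkRangeG_sound parWF r2 pf34524 h34524
  have h34526 := checkRangeG_sound parWF r2 pf34525 h34525
  have h34527 := checkRangeG_sound parWF r2 pf34526 h34526
  have h34528 := checkRangeG_sound parWF r2 pf34527 h34527
  have h34529 := checkRangeG_sound parWF r2 pf34528 h34528
  have h34530 := checkRangeG_sound parWF r2 pf34529 h34529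
  have h34531 := checkRangeG_sound parWF r2 pf34530 h34530
  have h34532 := checkRangeG_sound parWF r2 pf34531 h34531
  have h34533 := checkRangeG_sound parWF r2 pf34532 h34532
  have h34534 := checkRangeG_sound parWF r2 pf34533 h34533
  have h34535 := checkRangeG_sound parWF r2 pf34534 h34534
  have h34536 := checkRangeG_sound parWF r2 pf34535 h34535
  have h34537 := checkRangeG_sound parWF r2 pf34536 h34536
  have h34538 := checkRangeG_sound parWF r2 pf34537 h34537
  have h34539 := checkRangeG_sound parWF r2 pf34538 h34538
  have h34540 := checkRangeG_sound parWF r2 pf34539 h34539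
  have h34541 := checkRangeG_sound parWF r2 pf34540 h34540
  have h34542 := checkRangeG_sound parWF r2 pf34541 h34541
  have h34543 := checkRangeG_sound parWF r2 pf34542 h34542
  have h34544 := checkRangeG_sound parWF r2 pf34543 h34543
  have h34545 := checkRangeG_sound parWF r2 pf34544 h34544
  have h34546 := checkRangeG_sound parWF r2 pf34545 h34545
  have h34547 := checkRangeG_sound parWF r2 pf34546 h34546
  have h34548 := checkRangeG_sound parWF r2 pf34547 h34547
  have h34549 := checkRangeG_sound parWF r2 pf34548 h34548
  have h34550 := checkRangeG_sound parWF r2 pf34549 h34549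
  exact h34550

theorem c691 (h34550 : ∀ j, j < 115452 → GoodG.{u} par (db j)) : ∀ j, j < 115605 → GoodG.{u} par (db j) := by
  have h34551 := checkRangeG_sound parWF r2 pf34550 h34550
  have h34552 := checkRangeG_sound parWF r2 pf34551 h34551
  have h34553 := checkRangeG_sound parWF r2 pf34552 h34552
  have h34554 := checkRangeG_sound parWF r2 pf34553 h34553
  have h34555 := checkRangeG_sound parWF r2 pf34554 h34554
  have h34556 := checkRangeG_sound parWF r2 pf34555 h34555
  have h34557 := checkRangeG_sound parWF r2 pf34556 h34556
  have h34558 := checkRangeG_sound parWF r2 pf34557 h34557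
  have h34559 := checkRangeG_sound parWF r2 pf34558 h34558
  have h34560 := checkRangeG_sound parWF r2 pf34559 h34559
  have h34561 := checkRangeG_sound parWF r2 pf34560 h34560
  have h34562 := checkRangeG_sound parWF r2 pf34561 h34561
  have h34563 := checkRangeG_sound parWF r2 pf34562 h34562
  have h34564 := checkRangeG_sound parWF r2 pf34563 h34563
  have h34565 := checkRangeG_sound parWF r2 pf34564 h34564
  have h34566 := checkRangeG_sound parWF r2 pf34565 h34565
  have h34567 := checkRangeG_sound parWF r2 pf34566 h34566
  have h34568 := checkRangeG_sound parWF r2 pf34567 h34567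
  have h34569 := checkRangeG_sound parWF r2 pf34568 h34568
  have h34570 := checkRangeG_sound parWF r2 pf34569 h34569
  have h34571 := checkRangeG_sound parWF r2 pf34570 h34570
  have h34572 := checkRangeG_sound parWF r2 pf34571 h34571
  have h34573 := checkRangeG_sound parWF r2 pf34572 h34572
  have h34574 := checkRangeG_sound parWF r2 pf34573 h34573
  have h34575 := checkRangeG_sound parWF r2 pf34574 h34574
  have h34576 := checkRangeG_sound parWF r2 pf34575 h34575
  have h34577 := checkRangeG_sound parWF r2 pf34576 h34576
  have h34578 := checkRangeG_sound parWF r2 pf34577 h34577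
  have h34579 := checkRangeG_sound parWF r2 pf34578 h34578
  have h34580 := checkRangeG_sound parWF r2 pf34579 h34579
  have h34581 := checkRangeG_sound parWF r2 pf34580 h34580
  have h34582 := checkRangeG_sound parWF r2 pf34581 h34581
  have h34583 := checkRangeG_sound parWF r2 pf34582 h34582
  have h34584 := checkRangeG_sound parWF r2 pf34583 h34583
  have h34585 := checkRangeG_sound parWF r2 pf34584 h34584
  have h34586 := checkRangeG_sound parWF r2 pf34585 h34585
  have h34587 := checkRangeG_sound parWF r2 pf34586 h34586
  have h34588 := checkRangeG_sound parWF r2 pf34587 h34587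
  have h34589 := checkRangeG_sound parWF r2 pf34588 h34588
  have h34590 := checkRangeG_sound parWF r2 pf34589 h34589
  have h34591 := checkRangeG_sound parWF r2 pf34590 h34590
  have h34592 := checkRangeG_sound parWF r2 pf34591 h34591
  have h34593 := checkRangeG_sound parWF r2 pf34592 h34592
  have h34594 := checkRangeG_sound parWF r2 pf34593 h34593
  have h34595 := checkRangeG_sound parWF r2 pf34594 h34594
  have h34596 := checkRangeG_sound parWF r2 pf34595 h34595
  have h34597 := checkRangeG_sound parWF r2 pf34596 h34596
  have h34598 := checkRangeG_sound parWF r2 pf34597 h34597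
  have h34599 := checkRangeG_sound parWF r2 pf34598 h34598
  have h34600 := checkRangeG_sound parWF r2 pf34599 h34599
  exact h34600

theorem c692 (h34600 : ∀ j, j < 115605 → GoodG.{u} par (db j)) : ∀ j, j < 115768 → GoodG.{u} par (db j) := by
  have h34601 := checkRangeG_sound parWF r2 pf34600 h34600
  have h34602 := checkRangeG_sound parWF r2 pf34601 h34601
  have h34603 := checkRangeG_sound parWF r2 pf34602 h34602
  have h34604 := checkRangeG_sound parWF r2 pf34603 h34603
  have h34605 := checkRangeG_sound parWF r2 pf34604 h34604
  have h34606 := checkRangeG_sound parWF r2 pf34605 h34605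
  have h34607 := checkRangeG_sound parWF r2 pf34606 h34606
  have h34608 := checkRangeG_sound parWF r2 pf34607 h34607
  have h34609 := checkRangeG_sound parWF r2 pf34608 h34608
  have h34610 := checkRangeG_sound parWF r2 pf34609 h34609
  have h34611 := checkRangeG_sound parWF r2 pf34610 h34610
  have h34612 := checkRangeG_sound parWF r2 pf34611 h34611
  have h34613 := checkRangeG_sound parWF r2 pf34612 h34612
  have h34614 := checkRangeG_sound parWF r2 pf34613 h34613
  have h34615 := checkRangeG_sound parWF r2 pf34614 h34614
  have h34616 := checkRangeG_sound parWF r2 pf34615 h34615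
  have h34617 := checkRangeG_sound parWF r2 pf34616 h34616
  have h34618 := checkRangeG_sound parWF r2 pf34617 h34617
  have h34619 := checkRangeG_sound parWF r2 pf34618 h34618
  have h34620 := checkRangeG_sound parWF r2 pf34619 h34619
  have h34621 := checkRangeG_sound parWF r2 pf34620 h34620
  have h34622 := checkRangeG_sound parWF r2 pf34621 h34621
  have h34623 := checkRangeG_sound parWF r2 pf34622 h34622
  have h34624 := checkRangeG_sound parWF r2 pf34623 h34623
  have h34625 := checkRangeG_sound parWF r2 pf34624 h34624
  have h34626 := checkRangeG_sound parWF r2 pf34625 h34625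
  have h34627 := checkRangeG_sound parWF r2 pf34626 h34626
  have h34628 := checkRangeG_sound parWF r2 pf34627 h34627
  have h34629 := checkRangeG_sound parWF r2 pf34628 h34628
  have h34630 := checkRangeG_sound parWF r2 pf34629 h34629
  have h34631 := checkRangeG_sound parWF r2 pf34630 h34630
  have h34632 := checkRangeG_sound parWF r2 pf34631 h34631
  have h34633 := checkRangeG_sound parWF r2 pf34632 h34632
  have h34634 := checkRangeG_sound parWF r2 pf34633 h34633
  have h34635 := checkRangeG_sound parWF r2 pf34634 h34634
  have h34636 := checkRangeG_sound parWF r2 pf34635 h34635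
  have h34637 := checkRangeG_sound parWF r2 pf34636 h34636
  have h34638 := checkRangeG_sound parWF r2 pf34637 h34637
  have h34639 := checkRangeG_sound parWF r2 pf34638 h34638
  have h34640 := checkRangeG_sound parWF r2 pf34639 h34639
  have h34641 := checkRangeG_sound parWF r2 pf34640 h34640
  have h34642 := checkRangeG_sound parWF r2 pf34641 h34641
  have h34643 := checkRangeG_sound parWF r2 pf34642 h34642
  have h34644 := checkRangeG_sound parWF r2 pf34643 h34643
  have h34645 := checkRangeG_sound parWF r2 pf34644 h34644
  have h34646 := checkRangeG_sound parWF r2 pf34645 h34645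
  have h34647 := checkRangeG_sound parWF r2 pf34646 h34646
  have h34648 := checkRangeG_sound parWF r2 pf34647 h34647
  have h34649 := checkRangeG_sound parWF r2 pf34648 h34648
  have h34650 := checkRangeG_sound parWF r2 pf34649 h34649
  exact h34650

theorem c693 (h34650 : ∀ j, j < 115768 → GoodG.{u} par (db j)) : ∀ j, j < 115936 → GoodG.{u} par (db j) := by
  have h34651 := checkRangeG_sound parWF r2 pf34650 h34650
  have h34652 := checkRangeG_sound parWF r2 pf34651 h34651
  have h34653 := checkRangeG_sound parWF r2 pf34652 h34652
  have h34654 := checkRangeG_sound parWF r2 pf34653 h34653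
  have h34655 := checkRangeG_sound parWF r2 pf34654 h34654
  have h34656 := checkRangeG_sound parWF r2 pf34655 h34655
  have h34657 := checkRangeG_sound parWF r2 pf34656 h34656
  have h34658 := checkRangeG_sound parWF r2 pf34657 h34657
  have h34659 := checkRangeG_sound parWF r2 pf34658 h34658
  have h34660 := checkRangeG_sound parWF r2 pf34659 h34659
  have h34661 := checkRangeG_sound parWF r2 pf34660 h34660
  have h34662 := checkRangeG_sound parWF r2 pf34661 h34661
  have h34663 := checkRangeG_sound parWF r2 pf34662 h34662
  have h34664 := checkRangeG_sound parWF r2 pf34663 h34663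
  have h34665 := checkRangeG_sound parWF r2 pf34664 h34664
  have h34666 := checkRangeG_sound parWF r2 pf34665 h34665
  have h34667 := checkRangeG_sound parWF r2 pf34666 h34666
  have h34668 := checkRangeG_sound parWF r2 pf34667 h34667
  have h34669 := checkRangeG_sound parWF r2 pf34668 h34668
  have h34670 := checkRangeG_sound parWF r2 pf34669 h34669
  have h34671 := checkRangeG_sound parWF r2 pf34670 h34670
  have h34672 := checkRangeG_sound parWF r2 pf34671 h34671
  have h34673 := checkRangeG_sound parWF r2 pf34672 h34672
  have h34674 := checkRangeG_sound parWF r2 pf34673 h34673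
  have h34675 := checkRangeG_sound parWF r2 pf34674 h34674
  have h34676 := checkRangeG_sound parWF r2 pf34675 h34675
  have h34677 := checkRangeG_sound parWF r2 pf34676 h34676
  have h34678 := checkRangeG_sound parWF r2 pf34677 h34677
  have h34679 := checkRangeG_sound parWF r2 pf34678 h34678
  have h34680 := checkRangeG_sound parWF r2 pf34679 h34679
  have h34681 := checkRangeG_sound parWF r2 pf34680 h34680
  have h34682 := checkRangeG_sound parWF r2 pf34681 h34681
  have h34683 := checkRangeG_sound parWF r2 pf34682 h34682
  have h34684 := checkRangeG_sound parWF r2 pf34683 h34683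
  have h34685 := checkRangeG_sound parWF r2 pf34684 h34684
  have h34686 := checkRangeG_sound parWF r2 pf34685 h34685
  have h34687 := checkRangeG_sound parWF r2 pf34686 h34686
  have h34688 := checkRangeG_sound parWF r2 pf34687 h34687
  have h34689 := checkRangeG_sound parWF r2 pf34688 h34688
  have h34690 := checkRangeG_sound parWF r2 pf34689 h34689
  have h34691 := checkRangeG_sound parWF r2 pf34690 h34690
  have h34692 := checkRangeG_sound parWF r2 pf34691 h34691
  have h34693 := checkRangeG_sound parWF r2 pf34692 h34692
  have h34694 := checkRangeG_sound parWF r2 pf34693 h34693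
  have h34695 := checkRangeG_sound parWF r2 pf34694 h34694
  have h34696 := checkRangeG_sound parWF r2 pf34695 h34695
  have h34697 := checkRangeG_sound parWF r2 pf34696 h34696
  have h34698 := checkRangeG_sound parWF r2 pf34697 h34697
  have h34699 := checkRangeG_sound parWF r2 pf34698 h34698
  have h34700 := checkRangeG_sound parWF r2 pf34699 h34699
  exact h34700

theorem c694 (h34700 : ∀ j, j < 115936 → GoodG.{u} par (db j)) : ∀ j, j < 116102 → GoodG.{u} par (db j) := by
  have h34701 := checkRangeG_sound parWF r2 pf34700 h34700
  have h34702 := checkRangeG_sound parWF r2 pf34701 h34701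
  have h34703 := checkRangeG_sound parWF r2 pf34702 h34702
  have h34704 := checkRangeG_sound parWF r2 pf34703 h34703
  have h34705 := checkRangeG_sound parWF r2 pf34704 h34704
  have h34706 := checkRangeG_sound parWF r2 pf34705 h34705
  have h34707 := checkRangeG_sound parWF r2 pf34706 h34706
  have h34708 := checkRangeG_sound parWF r2 pf34707 h34707
  have h34709 := checkRangeG_sound parWF r2 pf34708 h34708
  have h34710 := checkRangeG_sound parWF r2 pf34709 h34709
  have h34711 := checkRangeG_sound parWF r2 pf34710 h34710
  have h34712 := checkRangeG_sound parWF r2 pf34711 h34711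
  have h34713 := checkRangeG_sound parWF r2 pf34712 h34712
  have h34714 := checkRangeG_sound parWF r2 pf34713 h34713
  have h34715 := checkRangeG_sound parWF r2 pf34714 h34714
  have h34716 := checkRangeG_sound parWF r2 pf34715 h34715
  have h34717 := checkRangeG_sound parWF r2 pf34716 h34716
  have h34718 := checkRangeG_sound parWF r2 pf34717 h34717
  have h34719 := checkRangeG_sound parWF r2 pf34718 h34718
  have h34720 := checkRangeG_sound parWF r2 pf34719 h34719
  have h34721 := checkRangeG_sound parWF r2 pf34720 h34720
  have h34722 := checkRangeG_sound parWF r2 pf34721 h34721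
  have h34723 := checkRangeG_sound parWF r2 pf34722 h34722
  have h34724 := checkRangeG_sound parWF r2 pf34723 h34723
  have h34725 := checkRangeG_sound parWF r2 pf34724 h34724
  have h34726 := checkRangeG_sound parWF r2 pf34725 h34725
  have h34727 := checkRangeG_sound parWF r2 pf34726 h34726
  have h34728 := checkRangeG_sound parWF r2 pf34727 h34727
  have h34729 := checkRangeG_sound parWF r2 pf34728 h34728
  have h34730 := checkRangeG_sound parWF r2 pf34729 h34729
  have h34731 := checkRangeG_sound parWF r2 pf34730 h34730
  have h34732 := checkRangeG_sound parWF r2 pf34731 h34731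
  have h34733 := checkRangeG_sound parWF r2 pf34732 h34732
  have h34734 := checkRangeG_sound parWF r2 pf34733 h34733
  have h34735 := checkRangeG_sound parWF r2 pf34734 h34734
  have h34736 := checkRangeG_sound parWF r2 pf34735 h34735
  have h34737 := checkRangeG_sound parWF r2 pf34736 h34736
  have h34738 := checkRangeG_sound parWF r2 pf34737 h34737
  have h34739 := checkRangeG_sound parWF r2 pf34738 h34738
  have h34740 := checkRangeG_sound parWF r2 pf34739 h34739
  have h34741 := checkRangeG_sound parWF r2 pf34740 h34740
  have h34742 := checkRangeG_sound parWF r2 pf34741 h34741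
  have h34743 := checkRangeG_sound parWF r2 pf34742 h34742
  have h34744 := checkRangeG_sound parWF r2 pf34743 h34743
  have h34745 := checkRangeG_sound parWF r2 pf34744 h34744
  have h34746 := checkRangeG_sound parWF r2 pf34745 h34745
  have h34747 := checkRangeG_sound parWF r2 pf34746 h34746
  have h34748 := checkRangeG_sound parWF r2 pf34747 h34747
  have h34749 := checkRangeG_sound parWF r2 pf34748 h34748
  have h34750 := checkRangeG_sound parWF r2 pf34749 h34749
  exact h34750

theorem c695 (h34750 : ∀ j, j < 116102 → GoodG.{u} par (db j)) : ∀ j, j < 116264 → GoodG.{u} par (db j) := by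
  have h34751 := checkRangeG_sound parWF r2 pf34750 h34750
  have h34752 := checkRangeG_sound parWF r2 pf34751 h34751
  have h34753 := checkRangeG_sound parWF r2 pf34752 h34752
  have h34754 := checkRangeG_sound parWF r2 pf34753 h34753
  have h34755 := checkRangeG_sound parWF r2 pf34754 h34754
  have h34756 := checkRangeG_sound parWF r2 pf34755 h34755
  have h34757 := checkRangeG_sound parWF r2 pf34756 h34756
  have h34758 := checkRangeG_sound parWF r2 pf34757 h34757
  have h34759 := checkRangeG_sound parWF r2 pf34758 h34758
  have h34760 := checkRangeG_sound parWF r2 pf34759 h34759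
  have h34761 := checkRangeG_sound parWF r2 pf34760 h34760
  have h34762 := checkRangeG_sound parWF r2 pf34761 h34761
  have h34763 := checkRangeG_sound parWF r2 pf34762 h34762
  have h34764 := checkRangeG_sound parWF r2 pf34763 h34763
  have h34765 := checkRangeG_sound parWF r2 pf34764 h34764
  have h34766 := checkRangeG_sound parWF r2 pf34765 h34765
  have h34767 := checkRangeG_sound parWF r2 pf34766 h34766
  have h34768 := checkRangeG_sound parWF r2 pf34767 h34767
  have h34769 := checkRangeG_sound parWF r2 pf34768 h34768
  have h34770 := checkRangeG_sound parWF r2 pf34769 h34769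
  have h34771 := checkRangeG_sound parWF r2 pf34770 h34770
  have h34772 := checkRangeG_sound parWF r2 pf34771 h34771
  have h34773 := checkRangeG_sound parWF r2 pf34772 h34772
  have h34774 := checkRangeG_sound parWF r2 pf34773 h34773
  have h34775 := checkRangeG_sound parWF r2 pf34774 h34774
  have h34776 := checkRangeG_sound parWF r2 pf34775 h34775
  have h34777 := checkRangeG_sound parWF r2 pf34776 h34776
  have h34778 := checkRangeG_sound parWF r2 pf34777 h34777
  have h34779 := checkRangeG_sound parWF r2 pf34778 h34778
  have h34780 := checkRangeG_sound parWF r2 pf34779 h34779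
  have h34781 := checkRangeG_sound parWF r2 pf34780 h34780
  have h34782 := checkRangeG_sound parWF r2 pf34781 h34781
  have h34783 := checkRangeG_sound parWF r2 pf34782 h34782
  have h34784 := checkRangeG_sound parWF r2 pf34783 h34783
  have h34785 := checkRangeG_sound parWF r2 pf34784 h34784
  have h34786 := checkRangeG_sound parWF r2 pf34785 h34785
  have h34787 := checkRangeG_sound parWF r2 pf34786 h34786
  have h34788 := checkRangeG_sound parWF r2 pf34787 h34787
  have h34789 := checkRangeG_sound parWF r2 pf34788 h34788
  have h34790 := checkRangeG_sound parWF r2 pf34789 h34789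
  have h34791 := checkRangeG_sound parWF r2 pf34790 h34790
  have h34792 := checkRangeG_sound parWF r2 pf34791 h34791
  have h34793 := checkRangeG_sound parWF r2 pf34792 h34792
  have h34794 := checkRangeG_sound parWF r2 pf34793 h34793
  have h34795 := checkRangeG_sound parWF r2 pf34794 h34794
  have h34796 := checkRangeG_sound parWF r2 pf34795 h34795
  have h34797 := checkRangeG_sound parWF r2 pf34796 h34796
  have h34798 := checkRangeG_sound parWF r2 pf34797 h34797
  have h34799 := checkRangeG_sound parWF r2 pf34798 h34798
  have h34800 := checkRangeG_sound parWF r2 pf34799 h34799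
  exact h34800


end Vale.Agent.P045g.C61
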