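import Vale.Agent.P045g.C61.WF
import Vale.Agent.P045g.C61.Pf580
import Vale.Agent.P045g.C61.Pf581
import Vale.Agent.P045g.C61.Pf582
import Vale.Agent.P045g.C61.Pf583
import Vale.Agent.P045g.C61.Pf584
import Vale.Agent.P045g.C61.Pf585
import Vale.Agent.P045g.C61.Pf586
import Vale.Agent.P045g.C61.Pf587
import Vale.Agent.P045g.C61.Pf588
import Vale.Agent.P045g.C61.Pf589

namespace Vale.Agent.P045g.C61

open Vale.Agent.P045b Vale.Agent.P045g

universe u

theorem c696 (h34800 : ∀ j, j < 116264 → GoodG.{u} par (db j)) : ∀ j, j < 116437 → GoodG.{u} par (db j) := by
  have h34801 := checkRangeG_sound parWF r2 pf34800 h34800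
  have h34802 := checkRangeG_sound parWF r2 pf34801 h34801
  have h34803 := checkRangeG_sound parWF r2 pf34802 h34802
  have h34804 := checkRangeG_sound parWF r2 pf34803 h34803
  have h34805 := checkRangeG_sound parWF r2 pf34804 h34804
  have h34806 := checkRangeG_sound parWF r2 pf34805 h34805
  have h34807 := checkRangeG_sound parWF r2 pf34806 h34806
  have h34808 := checkRangeG_sound parWF r2 pf34807 h34807
  have h34809 := checkRangeG_sound parWF r2 pf34808 h34808
  have h34810 := checkRangeG_sound parWF r2 pf34809 h34809
  have h34811 := checkRangeG_sound parWF r2 pf34810 h34810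
  have h34812 := checkRangeG_sound parWF r2 pf34811 h34811
  have h34813 := checkRangeG_sound parWF r2 pf34812 h34812
  have h34814 := checkRangeG_sound parWF r2 pf34813 h34813
  have h34815 := checkRangeG_sound parWF r2 pf34814 h34814
  have h34816 := checkRangeG_sound parWF r2 pf34815 h34815
  have h34817 := checkRangeG_sound parWF r2 pf34816 h34816
  have h34818 := checkRangeG_sound parWF r2 pf34817 h34817
  have h34819 := checkRangeG_sound parWF r2 pf34818 h34818
  have h34820 := checkRangeG_sound parWF r2 pf34819 h34819
  have h34821 := checkRangeG_sound parWF r2 pf34820 h34820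
  have h34822 := checkRangeG_sound parWF r2 pf34821 h34821
  have h34823 := checkRangeG_sound parWF r2 pf34822 h34822
  have h34824 := checkRangeG_sound parWF r2 pf34823 h34823
  have h34825 := checkRangeG_sound parWF r2 pf34824 h34824
  have h34826 := checkRangeG_sound parWF r2 pf34825 h34825
  have h34827 := checkRangeG_sound parWF r2 pf34826 h34826
  have h34828 := checkRangeG_sound parWF r2 pf34827 h34827
  have h34829 := checkRangeG_sound parWF r2 pf34828 h34828
  have h34830 := checkRangeG_sound parWF r2 pf34829 h34829
  have h34831 := checkRangeG_sound parWF r2 pf34830 h34830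
  have h34832 := checkRangeG_sound parWF r2 pf34831 h34831
  have h34833 := checkRangeG_sound parWF r2 pf34832 h34832
  have h34834 := checkRangeG_sound parWF r2 pf34833 h34833
  have h34835 := checkRangeG_sound parWF r2 pf34834 h34834
  have h34836 := checkRangeG_sound parWF r2 pf34835 h34835
  have h34837 := checkRangeG_sound parWF r2 pf34836 h34836
  have h34838 := checkRangeG_sound parWF r2 pf34837 h34837
  have h34839 := checkRangeG_sound parWF r2 pf34838 h34838
  have h34840 := checkRangeG_sound parWF r2 pf34839 h34839
  have h34841 := checkRangeG_sound parWF r2 pf34840 h34840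
  have h34842 := checkRangeG_sound parWF r2 pf34841 h34841
  have h34843 := checkRangeG_sound parWF r2 pf34842 h34842
  have h34844 := checkRangeG_sound parWF r2 pf34843 h34843
  have h34845 := checkRangeG_sound parWF r2 pf34844 h34844
  have h34846 := checkRangeG_sound parWF r2 pf34845 h34845
  have h34847 := checkRangeG_sound parWF r2 pf34846 h34846
  have h34848 := checkRangeG_sound parWF r2 pf34847 h34847
  have h34849 := checkRangeG_sound parWF r2 pf34848 h34848
  have h34850 := checkRangeG_sound parWF r2 pf34849 h34849
  exact h34850

theorem c697 (h34850 : ∀ j, j < 116437 → GoodG.{u} par (db j)) : ∀ j, j < 116601 → GoodG.{u} par (db j) := by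
  have h34851 := checkRangeG_sound parWF r2 pf34850 h34850
  have h34852 := checkRangeG_sound parWF r2 pf34851 h34851
  have h34853 := checkRangeG_sound parWF r2 pf34852 h34852
  have h34854 := checkRangeG_sound parWF r2 pf34853 h34853
  have h34855 := checkRangeG_sound parWF r2 pf34854 h34854
  have h34856 := checkRangeG_sound parWF r2 pf34855 h34855
  have h34857 := checkRangeG_sound parWF r2 pf34856 h34856
  have h34858 := checkRangeG_sound parWF r2 pf34857 h34857
  have h34859 := checkRangeG_sound parWF r2 pf34858 h34858
  have h34860 := checkRangeG_sound parWF r2 pf34859 h34859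
  have h34861 := checkRangeG_sound parWF r2 pf34860 h34860
  have h34862 := checkRangeG_sound parWF r2 pf34861 h34861
  have h34863 := checkRangeG_sound parWF r2 pf34862 h34862
  have h34864 := checkRangeG_sound parWF r2 pf34863 h34863
  have h34865 := checkRangeG_sound parWF r2 pf34864 h34864
  have h34866 := checkRangeG_sound parWF r2 pf34865 h34865
  have h34867 := checkRangeG_sound parWF r2 pf34866 h34866
  have h34868 := checkRangeG_sound parWF r2 pf34867 h34867
  have h34869 := checkRangeG_sound parWF r2 pf34868 h34868
  have h34870 := checkRangeG_sound parWF r2 pf34869 h34869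
  have h34871 := checkRangeG_sound parWF r2 pf34870 h34870
  have h34872 := checkRangeG_sound parWF r2 pf34871 h34871
  have h34873 := checkRangeG_sound parWF r2 pf34872 h34872
  have h34874 := checkRangeG_sound parWF r2 pf34873 h34873
  have h34875 := checkRangeG_sound parWF r2 pf34874 h34874
  have h34876 := checkRangeG_sound parWF r2 pf34875 h34875
  have h34877 := checkRangeG_sound parWF r2 pf34876 h34876
  have h34878 := checkRangeG_sound parWF r2 pf34877 h34877
  have h34879 := checkRangeG_sound parWF r2 pf34878 h34878
  have h34880 := checkRangeG_sound parWF r2 pf34879 h34879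
  have h34881 := checkRangeG_sound parWF r2 pf34880 h34880
  have h34882 := checkRangeG_sound parWF r2 pf34881 h34881
  have h34883 := checkRangeG_sound parWF r2 pf34882 h34882
  have h34884 := checkRangeG_sound parWF r2 pf34883 h34883
  have h34885 := checkRangeG_sound parWF r2 pf34884 h34884
  have h34886 := checkRangeG_sound parWF r2 pf34885 h34885
  have h34887 := checkRangeG_sound parWF r2 pf34886 h34886
  have h34888 := checkRangeG_sound parWF r2 pf34887 h34887
  have h34889 := checkRangeG_sound parWF r2 pf34888 h34888
  have h34890 := checkRangeG_sound parWF r2 pf34889 h34889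
  have h34891 := checkRangeG_sound parWF r2 pf34890 h34890
  have h34892 := checkRangeG_sound parWF r2 pf34891 h34891
  have h34893 := checkRangeG_sound parWF r2 pf34892 h34892
  have h34894 := checkRangeG_sound parWF r2 pf34893 h34893
  have h34895 := checkRangeG_sound parWF r2 pf34894 h34894
  have h34896 := checkRangeG_sound parWF r2 pf34895 h34895
  have h34897 := checkRangeG_sound parWF r2 pf34896 h34896
  have h34898 := checkRangeG_sound parWF r2 pf34897 h34897
  have h34899 := checkRangeG_sound parWF r2 pf34898 h34898
  have h34900 := checkRangeG_sound parWF r2 pf34899 h34899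
  exact h34900

theorem c698 (h34900 : ∀ j, j < 116601 → GoodG.{u} par (db j)) : ∀ j, j < 116789 → GoodG.{u} par (db j) := by
  have h34901 := checkRangeG_sound parWF r2 pf34900 h34900
  have h34902 := checkRangeG_sound parWF r2 pf34901 h34901
  have h34903 := checkRangeG_sound parWF r2 pf34902 h34902
  have h34904 := checkRangeG_sound parWF r2 pf34903 h34903
  have h34905 := checkRangeG_sound parWF r2 pf34904 h34904
  have h34906 := checkRangeG_sound parWF r2 pf34905 h34905
  have h34907 := checkRangeG_sound parWF r2 pf34906 h34906
  have h34908 := checkRangeG_sound parWF r2 pf34907 h34907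
  have h34909 := checkRangeG_sound parWF r2 pf34908 h34908
  have h34910 := checkRangeG_sound parWF r2 pf34909 h34909
  have h34911 := checkRangeG_sound parWF r2 pf34910 h34910
  have h34912 := checkRangeG_sound parWF r2 pf34911 h34911
  have h34913 := checkRangeG_sound parWF r2 pf34912 h34912
  have h34914 := checkRangeG_sound parWF r2 pf34913 h34913
  have h34915 := checkRangeG_sound parWF r2 pf34914 h34914
  have h34916 := checkRangeG_sound parWF r2 pf34915 h34915
  have h34917 := checkRangeG_sound parWF r2 pf34916 h34916
  have h34918 := checkRangeG_sound parWF r2 pf34917 h34917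
  have h34919 := checkRangeG_sound parWF r2 pf34918 h34918
  have h34920 := checkRangeG_sound parWF r2 pf34919 h34919
  have h34921 := checkRangeG_sound parWF r2 pf34920 h34920
  have h34922 := checkRangeG_sound parWF r2 pf34921 h34921
  have h34923 := checkRangeG_sound parWF r2 pf34922 h34922
  have h34924 := checkRangeG_sound parWF r2 pf34923 h34923
  have h34925 := checkRangeG_sound parWF r2 pf34924 h34924
  have h34926 := checkRangeG_sound parWF r2 pf34925 h34925
  have h34927 := checkRangeG_sound parWF r2 pf34926 h34926
  have h34928 := checkRangeG_sound parWF r2 pf34927 h34927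
  have h34929 := checkRangeG_sound parWF r2 pf34928 h34928
  have h34930 := checkRangeG_sound parWF r2 pf34929 h34929
  have h34931 := checkRangeG_sound parWF r2 pf34930 h34930
  have h34932 := checkRangeG_sound parWF r2 pf34931 h34931
  have h34933 := checkRangeG_sound parWF r2 pf34932 h34932
  have h34934 := checkRangeG_sound parWF r2 pf34933 h34933
  have h34935 := checkRangeG_sound parWF r2 pf34934 h34934
  have h34936 := checkRangeG_sound parWF r2 pf34935 h34935
  have h34937 := checkRangeG_sound parWF r2 pf34936 h34936
  have h34938 := checkRangeG_sound parWF r2 pf34937 h34937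
  have h34939 := checkRangeG_sound parWF r2 pf34938 h34938
  have h34940 := checkRangeG_sound parWF r2 pf34939 h34939
  have h34941 := checkRangeG_sound parWF r2 pf34940 h34940
  have h34942 := checkRangeG_sound parWF r2 pf34941 h34941
  have h34943 := checkRangeG_sound parWF r2 pf34942 h34942
  have h34944 := checkRangeG_sound parWF r2 pf34943 h34943
  have h34945 := checkRangeG_sound parWF r2 pf34944 h34944
  have h34946 := checkRangeG_sound parWF r2 pf34945 h34945
  have h34947 := checkRangeG_sound parWF r2 pf34946 h34946
  have h34948 := checkRangeG_sound parWF r2 pf34947 h34947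
  have h34949 := checkRangeG_sound parWF r2 pf34948 h34948
  have h34950 := checkRangeG_sound parWF r2 pf34949 h34949
  exact h34950

theorem c699 (h34950 : ∀ j, j < 116789 → GoodG.{u} par (db j)) : ∀ j, j < 116987 → GoodG.{u} par (db j) := by
  have h34951 := checkRangeG_sound parWF r2 pf34950 h34950
  have h34952 := checkRangeG_sound parWF r2 pf34951 h34951
  have h34953 := checkRangeG_sound parWF r2 pf34952 h34952
  have h34954 := checkRangeG_sound parWF r2 pf34953 h34953
  have h34955 := checkRangeG_sound parWF r2 pf34954 h34954
  have h34956 := checkRangeG_sound parWF r2 pf34955 h34955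
  have h34957 := checkRangeG_sound parWF r2 pf34956 h34956
  have h34958 := checkRangeG_sound parWF r2 pf34957 h34957
  have h34959 := checkRangeG_sound parWF r2 pf34958 h34958
  have h34960 := checkRangeG_sound parWF r2 pf34959 h34959
  have h34961 := checkRangeG_sound parWF r2 pf34960 h34960
  have h34962 := checkRangeG_sound parWF r2 pf34961 h34961
  have h34963 := checkRangeG_sound parWF r2 pf34962 h34962
  have h34964 := checkRangeG_sound parWF r2 pf34963 h34963
  have h34965 := checkRangeG_sound parWF r2 pf34964 h34964
  have h34966 := checkRangeG_sound parWF r2 pf34965 h34965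
  have h34967 := checkRangeG_sound parWF r2 pf34966 h34966
  have h34968 := checkRangeG_sound parWF r2 pf34967 h34967
  have h34969 := checkRangeG_sound parWF r2 pf34968 h34968
  have h34970 := checkRangeG_sound parWF r2 pf34969 h34969
  have h34971 := checkRangeG_sound parWF r2 pf34970 h34970
  have h34972 := checkRangeG_sound parWF r2 pf34971 h34971
  have h34973 := checkRangeG_sound parWF r2 pf34972 h34972
  have h34974 := checkRangeG_sound parWF r2 pf34973 h34973
  have h34975 := checkRangeG_sound parWF r2 pf34974 h34974
  have h34976 := checkRangeG_sound parWF r2 pf34975 h34975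
  have h34977 := checkRangeG_sound parWF r2 pf34976 h34976
  have h34978 := checkRangeG_sound parWF r2 pf34977 h34977
  have h34979 := checkRangeG_sound parWF r2 pf34978 h34978
  have h34980 := checkRangeG_sound parWF r2 pf34979 h34979
  have h34981 := checkRangeG_sound parWF r2 pf34980 h34980
  have h34982 := checkRangeG_sound parWF r2 pf34981 h34981
  have h34983 := checkRangeG_sound parWF r2 pf34982 h34982
  have h34984 := checkRangeG_sound parWF r2 pf34983 h34983
  have h34985 := checkRangeG_sound parWF r2 pf34984 h34984
  have h34986 := checkRangeG_sound parWF r2 pf34985 h34985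
  have h34987 := checkRangeG_sound parWF r2 pf34986 h34986
  have h34988 := checkRangeG_sound parWF r2 pf34987 h34987
  have h34989 := checkRangeG_sound parWF r2 pf34988 h34988
  have h34990 := checkRangeG_sound parWF r2 pf34989 h34989
  have h34991 := checkRangeG_sound parWF r2 pf34990 h34990
  have h34992 := checkRangeG_sound parWF r2 pf34991 h34991
  have h34993 := checkRangeG_sound parWF r2 pf34992 h34992
  have h34994 := checkRangeG_sound parWF r2 pf34993 h34993
  have h34995 := checkRangeG_sound parWF r2 pf34994 h34994
  have h34996 := checkRangeG_sound parWF r2 pf34995 h34995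
  have h34997 := checkRangeG_sound parWF r2 pf34996 h34996
  have h34998 := checkRangeG_sound parWF r2 pf34997 h34997
  have h34999 := checkRangeG_sound parWF r2 pf34998 h34998
  have h35000 := checkRangeG_sound parWF r2 pf34999 h34999
  exact h35000

theorem c700 (h35000 : ∀ j, j < 116987 → GoodG.{u} par (db j)) : ∀ j, j < 117156 → GoodG.{u} par (db j) := by
  have h35001 := checkRangeG_sound parWF r2 pf35000 h35000
  have h35002 := checkRangeG_sound parWF r2 pf35001 h35001
  have h35003 := checkRangeG_sound parWF r2 pf35002 h35002
  have h35004 := checkRangeG_sound parWF r2 pf35003 h35003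
  have h35005 := checkRangeG_sound parWF r2 pf35004 h35004
  have h35006 := checkRangeG_sound parWF r2 pf35005 h35005
  have h35007 := checkRangeG_sound parWF r2 pf35006 h35006
  have h35008 := checkRangeG_sound parWF r2 pf35007 h35007
  have h35009 := checkRangeG_sound parWF r2 pf35008 h35008
  have h35010 := checkRangeG_sound parWF r2 pf35009 h35009
  have h35011 := checkRangeG_sound parWF r2 pf35010 h35010
  have h35012 := checkRangeG_sound parWF r2 pf35011 h35011
  have h35013 := checkRangeG_sound parWF r2 pf35012 h35012
  have h35014 := checkRangeG_sound parWF r2 pf35013 h35013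
  have h35015 := checkRangeG_sound parWF r2 pf35014 h35014
  have h35016 := checkRangeG_sound parWF r2 pf35015 h35015
  have h35017 := checkRangeG_sound parWF r2 pf35016 h35016
  have h35018 := checkRangeG_sound parWF r2 pf35017 h35017
  have h35019 := checkRangeG_sound parWF r2 pf35018 h35018
  have h35020 := checkRangeG_sound parWF r2 pf35019 h35019
  have h35021 := checkRangeG_sound parWF r2 pf35020 h35020
  have h35022 := checkRangeG_sound parWF r2 pf35021 h35021
  have h35023 := checkRangeG_sound parWF r2 pf35022 h35022
  have h35024 := checkRangeG_sound parWF r2 pf35023 h35023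
  have h35025 := checkRangeG_sound parWF r2 pf35024 h35024
  have h35026 := checkRangeG_sound parWF r2 pf35025 h35025
  have h35027 := checkRangeG_sound parWF r2 pf35026 h35026
  have h35028 := checkRangeG_sound parWF r2 pf35027 h35027
  have h35029 := checkRangeG_sound parWF r2 pf35028 h35028
  have h35030 := checkRangeG_sound parWF r2 pf35029 h35029
  have h35031 := checkRangeG_sound parWF r2 pf35030 h35030
  have h35032 := checkRangeG_sound parWF r2 pf35031 h35031
  have h35033 := checkRangeG_sound parWF r2 pf35032 h35032
  have h35034 := checkRangeG_sound parWF r2 pf35033 h35033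
  have h35035 := checkRangeG_sound parWF r2 pf35034 h35034
  have h35036 := checkRangeG_sound parWF r2 pf35035 h35035
  have h35037 := checkRangeG_sound parWF r2 pf35036 h35036
  have h35038 := checkRangeG_sound parWF r2 pf35037 h35037
  have h35039 := checkRangeG_sound parWF r2 pf35038 h35038
  have h35040 := checkRangeG_sound parWF r2 pf35039 h35039
  have h35041 := checkRangeG_sound parWF r2 pf35040 h35040
  have h35042 := checkRangeG_sound parWF r2 pf35041 h35041
  have h35043 := checkRangeG_sound parWF r2 pf35042 h35042
  have h35044 := checkRangeG_sound parWF r2 pf35043 h35043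
  have h35045 := checkRangeG_sound parWF r2 pf35044 h35044
  have h35046 := checkRangeG_sound parWF r2 pf35045 h35045
  have h35047 := checkRangeG_sound parWF r2 pf35046 h35046
  have h35048 := checkRangeG_sound parWF r2 pf35047 h35047
  have h35049 := checkRangeG_sound parWF r2 pf35048 h35048
  have h35050 := checkRangeG_sound parWF r2 pf35049 h35049
  exact h35050

theorem c701 (h35050 : ∀ j, j < 117156 → GoodG.{u} par (db j)) : ∀ j, j < 117340 → GoodG.{u} par (db j) := by
  have h35051 := checkRangeG_sound parWF r2 pf35050 h35050
  have h35052 := checkRangeG_sound parWF r2 pf35051 h35051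
  have h35053 := checkRangeG_sound parWF r2 pf35052 h35052
  have h35054 := checkRangeG_sound parWF r2 pf35053 h35053
  have h35055 := checkRangeG_sound parWF r2 pf35054 h35054
  have h35056 := checkRangeG_sound parWF r2 pf35055 h35055
  have h35057 := checkRangeG_sound parWF r2 pf35056 h35056
  have h35058 := checkRangeG_sound parWF r2 pf35057 h35057
  have h35059 := checkRangeG_sound parWF r2 pf35058 h35058
  have h35060 := checkRangeG_sound parWF r2 pf35059 h35059
  have h35061 := checkRangeG_sound parWF r2 pf35060 h35060
  have h35062 := checkRangeG_sound parWF r2 pf35061 h35061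
  have h35063 := checkRangeG_sound parWF r2 pf35062 h35062
  have h35064 := checkRangeG_sound parWF r2 pf35063 h35063
  have h35065 := checkRangeG_sound parWF r2 pf35064 h35064
  have h35066 := checkRangeG_sound parWF r2 pf35065 h35065
  have h35067 := checkRangeG_sound parWF r2 pf35066 h35066
  have h35068 := checkRangeG_sound parWF r2 pf35067 h35067
  have h35069 := checkRangeG_sound parWF r2 pf35068 h35068
  have h35070 := checkRangeG_sound parWF r2 pf35069 h35069
  have h35071 := checkRangeG_sound parWF r2 pf35070 h35070
  have h35072 := checkRangeG_sound parWF r2 pf35071 h35071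
  have h35073 := checkRangeG_sound parWF r2 pf35072 h35072
  have h35074 := checkRangeG_sound parWF r2 pf35073 h35073
  have h35075 := checkRangeG_sound parWF r2 pf35074 h35074
  have h35076 := checkRangeG_sound parWF r2 pf35075 h35075
  have h35077 := checkRangeG_sound parWF r2 pf35076 h35076
  have h35078 := checkRangeG_sound parWF r2 pf35077 h35077
  have h35079 := checkRangeG_sound parWF r2 pf35078 h35078
  have h35080 := checkRangeG_sound parWF r2 pf35079 h35079
  have h35081 := checkRangeG_sound parWF r2 pf35080 h35080
  have h35082 := checkRangeG_sound parWF r2 pf35081 h35081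
  have h35083 := checkRangeG_sound parWF r2 pf35082 h35082
  have h35084 := checkRangeG_sound parWF r2 pf35083 h35083
  have h35085 := checkRangeG_sound parWF r2 pf35084 h35084
  have h35086 := checkRangeG_sound parWF r2 pf35085 h35085
  have h35087 := checkRangeG_sound parWF r2 pf35086 h35086
  have h35088 := checkRangeG_sound parWF r2 pf35087 h35087
  have h35089 := checkRangeG_sound parWF r2 pf35088 h35088
  have h35090 := checkRangeG_sound parWF r2 pf35089 h35089
  have h35091 := checkRangeG_sound parWF r2 pf35090 h35090
  have h35092 := checkRangeG_sound parWF r2 pf35091 h35091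
  have h35093 := checkRangeG_sound parWF r2 pf35092 h35092
  have h35094 := checkRangeG_sound parWF r2 pf35093 h35093
  have h35095 := checkRangeG_sound parWF r2 pf35094 h35094
  have h35096 := checkRangeG_sound parWF r2 pf35095 h35095
  have h35097 := checkRangeG_sound parWF r2 pf35096 h35096
  have h35098 := checkRangeG_sound parWF r2 pf35097 h35097
  have h35099 := checkRangeG_sound parWF r2 pf35098 h35098
  have h35100 := checkRangeG_sound parWF r2 pf35099 h35099
  exact h35100

theorem c702 (h35100 : ∀ j, j < 117340 → GoodG.{u} par (db j)) : ∀ j, j < 117512 → GoodG.{u} par (db j) := by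
  have h35101 := checkRangeG_sound parWF r2 pf35100 h35100
  have h35102 := checkRangeG_sound parWF r2 pf35101 h35101
  have h35103 := checkRangeG_sound parWF r2 pf35102 h35102
  have h35104 := checkRangeG_sound parWF r2 pf35103 h35103
  have h35105 := checkRangeG_sound parWF r2 pf35104 h35104
  have h35106 := checkRangeG_sound parWF r2 pf35105 h35105
  have h35107 := checkRangeG_sound parWF r2 pf35106 h35106
  have h35108 := checkRangeG_sound parWF r2 pf35107 h35107
  have h35109 := checkRangeG_sound parWF r2 pf35108 h35108
  have h35110 := checkRangeG_sound parWF r2 pf35109 h35109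
  have h35111 := checkRangeG_sound parWF r2 pf35110 h35110
  have h35112 := checkRangeG_sound parWF r2 pf35111 h35111
  have h35113 := checkRangeG_sound parWF r2 pf35112 h35112
  have h35114 := checkRangeG_sound parWF r2 pf35113 h35113
  have h35115 := checkRangeG_sound parWF r2 pf35114 h35114
  have h35116 := checkRangeG_sound parWF r2 pf35115 h35115
  have h35117 := checkRangeG_sound parWF r2 pf35116 h35116
  have h35118 := checkRangeG_sound parWF r2 pf35117 h35117
  have h35119 := checkRangeG_sound parWF r2 pf35118 h35118
  have h35120 := checkRangeG_sound parWF r2 pf35119 h35119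
  have h35121 := checkRangeG_sound parWF r2 pf35120 h35120
  have h35122 := checkRangeG_sound parWF r2 pf35121 h35121
  have h35123 := checkRangeG_sound parWF r2 pf35122 h35122
  have h35124 := checkRangeG_sound parWF r2 pf35123 h35123
  have h35125 := checkRangeG_sound parWF r2 pf35124 h35124
  have h35126 := checkRangeG_sound parWF r2 pf35125 h35125
  have h35127 := checkRangeG_sound parWF r2 pf35126 h35126
  have h35128 := checkRangeG_sound parWF r2 pf35127 h35127
  have h35129 := checkRangeG_sound parWF r2 pf35128 h35128
  have h35130 := checkRangeG_sound parWF r2 pf35129 h35129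
  have h35131 := checkRangeG_sound parWF r2 pf35130 h35130
  have h35132 := checkRangeG_sound parWF r2 pf35131 h35131
  have h35133 := checkRangeG_sound parWF r2 pf35132 h35132
  have h35134 := checkRangeG_sound parWF r2 pf35133 h35133
  have h35135 := checkRangeG_sound parWF r2 pf35134 h35134
  have h35136 := checkRangeG_sound parWF r2 pf35135 h35135
  have h35137 := checkRangeG_sound parWF r2 pf35136 h35136
  have h35138 := checkRangeG_sound parWF r2 pf35137 h35137
  have h35139 := checkRangeG_sound parWF r2 pf35138 h35138
  have h35140 := checkRangeG_sound parWF r2 pf35139 h35139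
  have h35141 := checkRangeG_sound parWF r2 pf35140 h35140
  have h35142 := checkRangeG_sound parWF r2 pf35141 h35141
  have h35143 := checkRangeG_sound parWF r2 pf35142 h35142
  have h35144 := checkRangeG_sound parWF r2 pf35143 h35143
  have h35145 := checkRangeG_sound parWF r2 pf35144 h35144
  have h35146 := checkRangeG_sound parWF r2 pf35145 h35145
  have h35147 := checkRangeG_sound parWF r2 pf35146 h35146
  have h35148 := checkRangeG_sound parWF r2 pf35147 h35147
  have h35149 := checkRangeG_sound parWF r2 pf35148 h35148
  have h35150 := checkRangeG_sound parWF r2 pf35149 h35149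
  exact h35150

theorem c703 (h35150 : ∀ j, j < 117512 → GoodG.{u} par (db j)) : ∀ j, j < 117713 → GoodG.{u} par (db j) := by
  have h35151 := checkRangeG_sound parWF r2 pf35150 h35150
  have h35152 := checkRangeG_sound parWF r2 pf35151 h35151
  have h35153 := checkRangeG_sound parWF r2 pf35152 h35152
  have h35154 := checkRangeG_sound parWF r2 pf35153 h35153
  have h35155 := checkRangeG_sound parWF r2 pf35154 h35154
  have h35156 := checkRangeG_sound parWF r2 pf35155 h35155
  have h35157 := checkRangeG_sound parWF r2 pf35156 h35156
  have h35158 := checkRangeG_sound parWF r2 pf35157 h35157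
  have h35159 := checkRangeG_sound parWF r2 pf35158 h35158
  have h35160 := checkRangeG_sound parWF r2 pf35159 h35159
  have h35161 := checkRangeG_sound parWF r2 pf35160 h35160
  have h35162 := checkRangeG_sound parWF r2 pf35161 h35161
  have h35163 := checkRangeG_sound parWF r2 pf35162 h35162
  have h35164 := checkRangeG_sound parWF r2 pf35163 h35163
  have h35165 := checkRangeG_sound parWF r2 pf35164 h35164
  have h35166 := checkRangeG_sound parWF r2 pf35165 h35165
  have h35167 := checkRangeG_sound parWF r2 pf35166 h35166
  have h35168 := checkRangeG_sound parWF r2 pf35167 h35167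
  have h35169 := checkRangeG_sound parWF r2 pf35168 h35168
  have h35170 := checkRangeG_sound parWF r2 pf35169 h35169
  have h35171 := checkRangeG_sound parWF r2 pf35170 h35170
  have h35172 := checkRangeG_sound parWF r2 pf35171 h35171
  have h35173 := checkRangeG_sound parWF r2 pf35172 h35172
  have h35174 := checkRangeG_sound parWF r2 pf35173 h35173
  have h35175 := checkRangeG_sound parWF r2 pf35174 h35174
  have h35176 := checkRangeG_sound parWF r2 pf35175 h35175
  have h35177 := checkRangeG_sound parWF r2 pf35176 h35176
  have h35178 := checkRangeG_sound parWF r2 pf35177 h35177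
  have h35179 := checkRangeG_sound parWF r2 pf35178 h35178
  have h35180 := checkRangeG_sound parWF r2 pf35179 h35179
  have h35181 := checkRangeG_sound parWF r2 pf35180 h35180
  have h35182 := checkRangeG_sound parWF r2 pf35181 h35181
  have h35183 := checkRangeG_sound parWF r2 pf35182 h35182
  have h35184 := checkRangeG_sound parWF r2 pf35183 h35183
  have h35185 := checkRangeG_sound parWF r2 pf35184 h35184
  have h35186 := checkRangeG_sound parWF r2 pf35185 h35185
  have h35187 := checkRangeG_sound parWF r2 pf35186 h35186
  have h35188 := checkRangeG_sound parWF r2 pf35187 h35187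
  have h35189 := checkRangeG_sound parWF r2 pf35188 h35188
  have h35190 := checkRangeG_sound parWF r2 pf35189 h35189
  have h35191 := checkRangeG_sound parWF r2 pf35190 h35190
  have h35192 := checkRangeG_sound parWF r2 pf35191 h35191
  have h35193 := checkRangeG_sound parWF r2 pf35192 h35192
  have h35194 := checkRangeG_sound parWF r2 pf35193 h35193
  have h35195 := checkRangeG_sound parWF r2 pf35194 h35194
  have h35196 := checkRangeG_sound parWF r2 pf35195 h35195
  have h35197 := checkRangeG_sound parWF r2 pf35196 h35196
  have h35198 := checkRangeG_sound parWF r2 pf35197 h35197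
  have h35199 := checkRangeG_sound parWF r2 pf35198 h35198
  have h35200 := checkRangeG_sound parWF r2 pf35199 h35199
  exact h35200

theorem c704 (h35200 : ∀ j, j < 117713 → GoodG.{u} par (db j)) : ∀ j, j < 117892 → GoodG.{u} par (db j) := by
  have h35201 := checkRangeG_sound parWF r2 pf35200 h35200
  have h35202 := checkRangeG_sound parWF r2 pf35201 h35201
  have h35203 := checkRangeG_sound parWF r2 pf35202 h35202
  have h35204 := checkRangeG_sound parWF r2 pf35203 h35203
  have h35205 := checkRangeG_sound parWF r2 pf35204 h35204
  have h35206 := checkRangeG_sound parWF r2 pf35205 h35205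
  have h35207 := checkRangeG_sound parWF r2 pf35206 h35206
  have h35208 := checkRangeG_sound parWF r2 pf35207 h35207
  have h35209 := checkRangeG_sound parWF r2 pf35208 h35208
  have h35210 := checkRangeG_sound parWF r2 pf35209 h35209
  have h35211 := checkRangeG_sound parWF r2 pf35210 h35210
  have h35212 := checkRangeG_sound parWF r2 pf35211 h35211
  have h35213 := checkRangeG_sound parWF r2 pf35212 h35212
  have h35214 := checkRangeG_sound parWF r2 pf35213 h35213
  have h35215 := checkRangeG_sound parWF r2 pf35214 h35214
  have h35216 := checkRangeG_sound parWF r2 pf35215 h35215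
  have h35217 := checkRangeG_sound parWF r2 pf35216 h35216
  have h35218 := checkRangeG_sound parWF r2 pf35217 h35217
  have h35219 := checkRangeG_sound parWF r2 pf35218 h35218
  have h35220 := checkRangeG_sound parWF r2 pf35219 h35219
  have h35221 := checkRangeG_sound parWF r2 pf35220 h35220
  have h35222 := checkRangeG_sound parWF r2 pf35221 h35221
  have h35223 := checkRangeG_sound parWF r2 pf35222 h35222
  have h35224 := checkRangeG_sound parWF r2 pf35223 h35223
  have h35225 := checkRangeG_sound parWF r2 pf35224 h35224
  have h35226 := checkRangeG_sound parWF r2 pf35225 h35225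
  have h35227 := checkRangeG_sound parWF r2 pf35226 h35226
  have h35228 := checkRangeG_sound parWF r2 pf35227 h35227
  have h35229 := checkRangeG_sound parWF r2 pf35228 h35228
  have h35230 := checkRangeG_sound parWF r2 pf35229 h35229
  have h35231 := checkRangeG_sound parWF r2 pf35230 h35230
  have h35232 := checkRangeG_sound parWF r2 pf35231 h35231
  have h35233 := checkRangeG_sound parWF r2 pf35232 h35232
  have h35234 := checkRangeG_sound parWF r2 pf35233 h35233
  have h35235 := checkRangeG_sound parWF r2 pf35234 h35234
  have h35236 := checkRangeG_sound parWF r2 pf35235 h35235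
  have h35237 := checkRangeG_sound parWF r2 pf35236 h35236
  have h35238 := checkRangeG_sound parWF r2 pf35237 h35237
  have h35239 := checkRangeG_sound parWF r2 pf35238 h35238
  have h35240 := checkRangeG_sound parWF r2 pf35239 h35239
  have h35241 := checkRangeG_sound parWF r2 pf35240 h35240
  have h35242 := checkRangeG_sound parWF r2 pf35241 h35241
  have h35243 := checkRangeG_sound parWF r2 pf35242 h35242
  have h35244 := checkRangeG_sound parWF r2 pf35243 h35243
  have h35245 := checkRangeG_sound parWF r2 pf35244 h35244
  have h35246 := checkRangeG_sound parWF r2 pf35245 h35245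
  have h35247 := checkRangeG_sound parWF r2 pf35246 h35246
  have h35248 := checkRangeG_sound parWF r2 pf35247 h35247
  have h35249 := checkRangeG_sound parWF r2 pf35248 h35248
  have h35250 := checkRangeG_sound parWF r2 pf35249 h35249
  exact h35250

theorem c705 (h35250 : ∀ j, j < 117892 → GoodG.{u} par (db j)) : ∀ j, j < 118064 → GoodG.{u} par (db j) := by
  have h35251 := checkRangeG_sound parWF r2 pf35250 h35250
  have h35252 := checkRangeG_sound parWF r2 pf35251 h35251
  have h35253 := checkRangeG_sound parWF r2 pf35252 h35252
  have h35254 := checkRangeG_sound parWF r2 pf35253 h35253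
  have h35255 := checkRangeG_sound parWF r2 pf35254 h35254
  have h35256 := checkRangeG_sound parWF r2 pf35255 h35255
  have h35257 := checkRangeG_sound parWF r2 pf35256 h35256
  have h35258 := checkRangeG_sound parWF r2 pf35257 h35257
  have h35259 := checkRangeG_sound parWF r2 pf35258 h35258
  have h35260 := checkRangeG_sound parWF r2 pf35259 h35259
  have h35261 := checkRangeG_sound parWF r2 pf35260 h35260
  have h35262 := checkRangeG_sound parWF r2 pf35261 h35261
  have h35263 := checkRangeG_sound parWF r2 pf35262 h35262
  have h35264 := checkRangeG_sound parWF r2 pf35263 h35263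
  have h35265 := checkRangeG_sound parWF r2 pf35264 h35264
  have h35266 := checkRangeG_sound parWF r2 pf35265 h35265
  have h35267 := checkRangeG_sound parWF r2 pf35266 h35266
  have h35268 := checkRangeG_sound parWF r2 pf35267 h35267
  have h35269 := checkRangeG_sound parWF r2 pf35268 h35268
  have h35270 := checkRangeG_sound parWF r2 pf35269 h35269
  have h35271 := checkRangeG_sound parWF r2 pf35270 h35270
  have h35272 := checkRangeG_sound parWF r2 pf35271 h35271
  have h35273 := checkRangeG_sound parWF r2 pf35272 h35272
  have h35274 := checkRangeG_sound parWF r2 pf35273 h35273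
  have h35275 := checkRangeG_sound parWF r2 pf35274 h35274
  have h35276 := checkRangeG_sound parWF r2 pf35275 h35275
  have h35277 := checkRangeG_sound parWF r2 pf35276 h35276
  have h35278 := checkRangeG_sound parWF r2 pf35277 h35277
  have h35279 := checkRangeG_sound parWF r2 pf35278 h35278
  have h35280 := checkRangeG_sound parWF r2 pf35279 h35279
  have h35281 := checkRangeG_sound parWF r2 pf35280 h35280
  have h35282 := checkRangeG_sound parWF r2 pf35281 h35281
  have h35283 := checkRangeG_sound parWF r2 pf35282 h35282
  have h35284 := checkRangeG_sound parWF r2 pf35283 h35283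
  have h35285 := checkRangeG_sound parWF r2 pf35284 h35284
  have h35286 := checkRangeG_sound parWF r2 pf35285 h35285
  have h35287 := checkRangeG_sound parWF r2 pf35286 h35286
  have h35288 := checkRangeG_sound parWF r2 pf35287 h35287
  have h35289 := checkRangeG_sound parWF r2 pf35288 h35288
  have h35290 := checkRangeG_sound parWF r2 pf35289 h35289
  have h35291 := checkRangeG_sound parWF r2 pf35290 h35290
  have h35292 := checkRangeG_sound parWF r2 pf35291 h35291
  have h35293 := checkRangeG_sound parWF r2 pf35292 h35292
  have h35294 := checkRangeG_sound parWF r2 pf35293 h35293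
  have h35295 := checkRangeG_sound parWF r2 pf35294 h35294
  have h35296 := checkRangeG_sound parWF r2 pf35295 h35295
  have h35297 := checkRangeG_sound parWF r2 pf35296 h35296
  have h35298 := checkRangeG_sound parWF r2 pf35297 h35297
  have h35299 := checkRangeG_sound parWF r2 pf35298 h35298
  have h35300 := checkRangeG_sound parWF r2 pf35299 h35299
  exact h35300

theorem c706 (h35300 : ∀ j, j < 118064 → GoodG.{u} par (db j)) : ∀ j, j < 118225 → GoodG.{u} par (db j) := by
  have h35301 := checkRangeG_sound parWF r2 pf35300 h35300
  have h35302 := checkRangeG_sound parWF r2 pf35301 h35301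
  have h35303 := checkRangeG_sound parWF r2 pf35302 h35302
  have h35304 := checkRangeG_sound parWF r2 pf35303 h35303
  have h35305 := checkRangeG_sound parWF r2 pf35304 h35304
  have h35306 := checkRangeG_sound parWF r2 pf35305 h35305
  have h35307 := checkRangeG_sound parWF r2 pf35306 h35306
  have h35308 := checkRangeG_sound parWF r2 pf35307 h35307
  have h35309 := checkRangeG_sound parWF r2 pf35308 h35308
  have h35310 := checkRangeG_sound parWF r2 pf35309 h35309
  have h35311 := checkRangeG_sound parWF r2 pf35310 h35310
  have h35312 := checkRangeG_sound parWF r2 pf35311 h35311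
  have h35313 := checkRangeG_sound parWF r2 pf35312 h35312
  have h35314 := checkRangeG_sound parWF r2 pf35313 h35313
  have h35315 := checkRangeG_sound parWF r2 pf35314 h35314
  have h35316 := checkRangeG_sound parWF r2 pf35315 h35315
  have h35317 := checkRangeG_sound parWF r2 pf35316 h35316
  have h35318 := checkRangeG_sound parWF r2 pf35317 h35317
  have h35319 := checkRangeG_sound parWF r2 pf35318 h35318
  have h35320 := checkRangeG_sound parWF r2 pf35319 h35319
  have h35321 := checkRangeG_sound parWF r2 pf35320 h35320
  have h35322 := checkRangeG_sound parWF r2 pf35321 h35321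
  have h35323 := checkRangeG_sound parWF r2 pf35322 h35322
  have h35324 := checkRangeG_sound parWF r2 pf35323 h35323
  have h35325 := checkRangeG_sound parWF r2 pf35324 h35324
  have h35326 := checkRangeG_sound parWF r2 pf35325 h35325
  have h35327 := checkRangeG_sound parWF r2 pf35326 h35326
  have h35328 := checkRangeG_sound parWF r2 pf35327 h35327
  have h35329 := checkRangeG_sound parWF r2 pf35328 h35328
  have h35330 := checkRangeG_sound parWF r2 pf35329 h35329
  have h35331 := checkRangeG_sound parWF r2 pf35330 h35330
  have h35332 := checkRangeG_sound parWF r2 pf35331 h35331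
  have h35333 := checkRangeG_sound parWF r2 pf35332 h35332
  have h35334 := checkRangeG_sound parWF r2 pf35333 h35333
  have h35335 := checkRangeG_sound parWF r2 pf35334 h35334
  have h35336 := checkRangeG_sound parWF r2 pf35335 h35335
  have h35337 := checkRangeG_sound parWF r2 pf35336 h35336
  have h35338 := checkRangeG_sound parWF r2 pf35337 h35337
  have h35339 := checkRangeG_sound parWF r2 pf35338 h35338
  have h35340 := checkRangeG_sound parWF r2 pf35339 h35339
  have h35341 := checkRangeG_sound parWF r2 pf35340 h35340
  have h35342 := checkRangeG_sound parWF r2 pf35341 h35341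
  have h35343 := checkRangeG_sound parWF r2 pf35342 h35342
  have h35344 := checkRangeG_sound parWF r2 pf35343 h35343
  have h35345 := checkRangeG_sound parWF r2 pf35344 h35344
  have h35346 := checkRangeG_sound parWF r2 pf35345 h35345
  have h35347 := checkRangeG_sound parWF r2 pf35346 h35346
  have h35348 := checkRangeG_sound parWF r2 pf35347 h35347
  have h35349 := checkRangeG_sound parWF r2 pf35348 h35348
  have h35350 := checkRangeG_sound parWF r2 pf35349 h35349
  exact h35350

theorem c707 (h35350 : ∀ j, j < 118225 → GoodG.{u} par (db j)) : ∀ j, j < 118375 → GoodG.{u} par (db j) := by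
  have h35351 := checkRangeG_sound parWF r2 pf35350 h35350
  have h35352 := checkRangeG_sound parWF r2 pf35351 h35351
  have h35353 := checkRangeG_sound parWF r2 pf35352 h35352
  have h35354 := checkRangeG_sound parWF r2 pf35353 h35353
  have h35355 := checkRangeG_sound parWF r2 pf35354 h35354
  have h35356 := checkRangeG_sound parWF r2 pf35355 h35355
  have h35357 := checkRangeG_sound parWF r2 pf35356 h35356
  have h35358 := checkRangeG_sound parWF r2 pf35357 h35357
  have h35359 := checkRangeG_sound parWF r2 pf35358 h35358
  have h35360 := checkRangeG_sound parWF r2 pf35359 h35359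
  have h35361 := checkRangeG_sound parWF r2 pf35360 h35360
  have h35362 := checkRangeG_sound parWF r2 pf35361 h35361
  have h35363 := checkRangeG_sound parWF r2 pf35362 h35362
  have h35364 := checkRangeG_sound parWF r2 pf35363 h35363
  have h35365 := checkRangeG_sound parWF r2 pf35364 h35364
  have h35366 := checkRangeG_sound parWF r2 pf35365 h35365
  have h35367 := checkRangeG_sound parWF r2 pf35366 h35366
  have h35368 := checkRangeG_sound parWF r2 pf35367 h35367
  have h35369 := checkRangeG_sound parWF r2 pf35368 h35368
  have h35370 := checkRangeG_sound parWF r2 pf35369 h35369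
  have h35371 := checkRangeG_sound parWF r2 pf35370 h35370
  have h35372 := checkRangeG_sound parWF r2 pf35371 h35371
  have h35373 := checkRangeG_sound parWF r2 pf35372 h35372
  have h35374 := checkRangeG_sound parWF r2 pf35373 h35373
  have h35375 := checkRangeG_sound parWF r2 pf35374 h35374
  have h35376 := checkRangeG_sound parWF r2 pf35375 h35375
  have h35377 := checkRangeG_sound parWF r2 pf35376 h35376
  have h35378 := checkRangeG_sound parWF r2 pf35377 h35377
  have h35379 := checkRangeG_sound parWF r2 pf35378 h35378
  have h35380 := checkRangeG_sound parWF r2 pf35379 h35379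
  have h35381 := checkRangeG_sound parWF r2 pf35380 h35380
  have h35382 := checkRangeG_sound parWF r2 pf35381 h35381
  have h35383 := checkRangeG_sound parWF r2 pf35382 h35382
  have h35384 := checkRangeG_sound parWF r2 pf35383 h35383
  have h35385 := checkRangeG_sound parWF r2 pf35384 h35384
  have h35386 := checkRangeG_sound parWF r2 pf35385 h35385
  have h35387 := checkRangeG_sound parWF r2 pf35386 h35386
  have h35388 := checkRangeG_sound parWF r2 pf35387 h35387
  have h35389 := checkRangeG_sound parWF r2 pf35388 h35388
  have h35390 := checkRangeG_sound parWF r2 pf35389 h35389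
  have h35391 := checkRangeG_sound parWF r2 pf35390 h35390
  have h35392 := checkRangeG_sound parWF r2 pf35391 h35391
  have h35393 := checkRangeG_sound parWF r2 pf35392 h35392
  have h35394 := checkRangeG_sound parWF r2 pf35393 h35393
  have h35395 := checkRangeG_sound parWF r2 pf35394 h35394
  have h35396 := checkRangeG_sound parWF r2 pf35395 h35395
  have h35397 := checkRangeG_sound parWF r2 pf35396 h35396
  have h35398 := checkRangeG_sound parWF r2 pf35397 h35397
  have h35399 := checkRangeG_sound parWF r2 pf35398 h35398
  have h35400 := checkRangeG_sound parWF r2 pf35399 h35399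
  exact h35400


end Vale.Agent.P045g.C61
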