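import Vale.Agent.P045g.C61.WF
import Vale.Agent.P045g.C61.Pf590
import Vale.Agent.P045g.C61.Pf591
import Vale.Agent.P045g.C61.Pf592
import Vale.Agent.P045g.C61.Pf593
import Vale.Agent.P045g.C61.Pf594
import Vale.Agent.P045g.C61.Pf595
import Vale.Agent.P045g.C61.Pf596
import Vale.Agent.P045g.C61.Pf597
import Vale.Agent.P045g.C61.Pf598
import Vale.Agent.P045g.C61.Pf599

namespace Vale.Agent.P045g.C61

open Vale.Agent.P045b Vale.Agent.P045g

universe u

theorem c708 (h35400 : ∀ j, j < 118375 → GoodG.{u} par (db j)) : ∀ j, j < 118536 → GoodG.{u} par (db j) := by
  have h35401 := checkRangeG_sound parWF r2 pf35400 h35400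
  have h35402 := checkRangeG_sound parWF r2 pf35401 h35401
  have h35403 := checkRangeG_sound parWF r2 pf35402 h35402
  have h35404 := checkRangeG_sound parWF r2 pf35403 h35403
  have h35405 := checkRangeG_sound parWF r2 pf35404 h35404
  have h35406 := checkRangeG_sound parWF r2 pf35405 h35405
  have h35407 := checkRangeG_sound parWF r2 pf35406 h35406
  have h35408 := checkRangeG_sound parWF r2 pf35407 h35407
  have h35409 := checkRangeG_sound parWF r2 pf35408 h35408
  have h35410 := checkRangeG_sound parWF r2 pf35409 h35409
  have h35411 := checkRangeG_sound parWF r2 pf35410 h35410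
  have h35412 := checkRangeG_sound parWF r2 pf35411 h35411
  have h35413 := checkRangeG_sound parWF r2 pf35412 h35412
  have h35414 := checkRangeG_sound parWF r2 pf35413 h35413
  have h35415 := checkRangeG_sound parWF r2 pf35414 h35414
  have h35416 := checkRangeG_sound parWF r2 pf35415 h35415
  have h35417 := checkRangeG_sound parWF r2 pf35416 h35416
  have h35418 := checkRangeG_sound parWF r2 pf35417 h35417
  have h35419 := checkRangeG_sound parWF r2 pf35418 h35418
  have h35420 := checkRangeG_sound parWF r2 pf35419 h35419
  have h35421 := checkRangeG_sound parWF r2 pf35420 h35420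
  have h35422 := checkRangeG_sound parWF r2 pf35421 h35421
  have h35423 := checkRangeG_sound parWF r2 pf35422 h35422
  have h35424 := checkRangeG_sound parWF r2 pf35423 h35423
  have h35425 := checkRangeG_sound parWF r2 pf35424 h35424
  have h35426 := checkRangeG_sound parWF r2 pf35425 h35425
  have h35427 := checkRangeG_sound parWF r2 pf35426 h35426
  have h35428 := checkRangeG_sound parWF r2 pf35427 h35427
  have h35429 := checkRangeG_sound parWF r2 pf35428 h35428
  have h35430 := checkRangeG_sound parWF r2 pf35429 h35429
  have h35431 := checkRangeG_sound parWF r2 pf35430 h35430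
  have h35432 := checkRangeG_sound parWF r2 pf35431 h35431
  have h35433 := checkRangeG_sound parWF r2 pf35432 h35432
  have h35434 := checkRangeG_sound parWF r2 pf35433 h35433
  have h35435 := checkRangeG_sound parWF r2 pf35434 h35434
  have h35436 := checkRangeG_sound parWF r2 pf35435 h35435
  have h35437 := checkRangeG_sound parWF r2 pf35436 h35436
  have h35438 := checkRangeG_sound parWF r2 pf35437 h35437
  have h35439 := checkRangeG_sound parWF r2 pf35438 h35438
  have h35440 := checkRangeG_sound parWF r2 pf35439 h35439
  have h35441 := checkRangeG_sound parWF r2 pf35440 h35440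
  have h35442 := checkRangeG_sound parWF r2 pf35441 h35441
  have h35443 := checkRangeG_sound parWF r2 pf35442 h35442
  have h35444 := checkRangeG_sound parWF r2 pf35443 h35443
  have h35445 := checkRangeG_sound parWF r2 pf35444 h35444
  have h35446 := checkRangeG_sound parWF r2 pf35445 h35445
  have h35447 := checkRangeG_sound parWF r2 pf35446 h35446
  have h35448 := checkRangeG_sound parWF r2 pf35447 h35447
  have h35449 := checkRangeG_sound parWF r2 pf35448 h35448
  have h35450 := checkRangeG_sound parWF r2 pf35449 h35449
  exact h35450

theorem c709 (h35450 : ∀ j, j < 118536 → GoodG.{u} par (db j)) : ∀ j, j < 118750 → GoodG.{u} par (db j) := by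
  have h35451 := checkRangeG_sound parWF r2 pf35450 h35450
  have h35452 := checkRangeG_sound parWF r2 pf35451 h35451
  have h35453 := checkRangeG_sound parWF r2 pf35452 h35452
  have h35454 := checkRangeG_sound parWF r2 pf35453 h35453
  have h35455 := checkRangeG_sound parWF r2 pf35454 h35454
  have h35456 := checkRangeG_sound parWF r2 pf35455 h35455
  have h35457 := checkRangeG_sound parWF r2 pf35456 h35456
  have h35458 := checkRangeG_sound parWF r2 pf35457 h35457
  have h35459 := checkRangeG_sound parWF r2 pf35458 h35458
  have h35460 := checkRangeG_sound parWF r2 pf35459 h35459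
  have h35461 := checkRangeG_sound parWF r2 pf35460 h35460
  have h35462 := checkRangeG_sound parWF r2 pf35461 h35461
  have h35463 := checkRangeG_sound parWF r2 pf35462 h35462
  have h35464 := checkRangeG_sound parWF r2 pf35463 h35463
  have h35465 := checkRangeG_sound parWF r2 pf35464 h35464
  have h35466 := checkRangeG_sound parWF r2 pf35465 h35465
  have h35467 := checkRangeG_sound parWF r2 pf35466 h35466
  have h35468 := checkRangeG_sound parWF r2 pf35467 h35467
  have h35469 := checkRangeG_sound parWF r2 pf35468 h35468
  have h35470 := checkRangeG_sound parWF r2 pf35469 h35469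
  have h35471 := checkRangeG_sound parWF r2 pf35470 h35470
  have h35472 := checkRangeG_sound parWF r2 pf35471 h35471
  have h35473 := checkRangeG_sound parWF r2 pf35472 h35472
  have h35474 := checkRangeG_sound parWF r2 pf35473 h35473
  have h35475 := checkRangeG_sound parWF r2 pf35474 h35474
  have h35476 := checkRangeG_sound parWF r2 pf35475 h35475
  have h35477 := checkRangeG_sound parWF r2 pf35476 h35476
  have h35478 := checkRangeG_sound parWF r2 pf35477 h35477
  have h35479 := checkRangeG_sound parWF r2 pf35478 h35478
  have h35480 := checkRangeG_sound parWF r2 pf35479 h35479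
  have h35481 := checkRangeG_sound parWF r2 pf35480 h35480
  have h35482 := checkRangeG_sound parWF r2 pf35481 h35481
  have h35483 := checkRangeG_sound parWF r2 pf35482 h35482
  have h35484 := checkRangeG_sound parWF r2 pf35483 h35483
  have h35485 := checkRangeG_sound parWF r2 pf35484 h35484
  have h35486 := checkRangeG_sound parWF r2 pf35485 h35485
  have h35487 := checkRangeG_sound parWF r2 pf35486 h35486
  have h35488 := checkRangeG_sound parWF r2 pf35487 h35487
  have h35489 := checkRangeG_sound parWF r2 pf35488 h35488
  have h35490 := checkRangeG_sound parWF r2 pf35489 h35489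
  have h35491 := checkRangeG_sound parWF r2 pf35490 h35490
  have h35492 := checkRangeG_sound parWF r2 pf35491 h35491
  have h35493 := checkRangeG_sound parWF r2 pf35492 h35492
  have h35494 := checkRangeG_sound parWF r2 pf35493 h35493
  have h35495 := checkRangeG_sound parWF r2 pf35494 h35494
  have h35496 := checkRangeG_sound parWF r2 pf35495 h35495
  have h35497 := checkRangeG_sound parWF r2 pf35496 h35496
  have h35498 := checkRangeG_sound parWF r2 pf35497 h35497
  have h35499 := checkRangeG_sound parWF r2 pf35498 h35498
  have h35500 := checkRangeG_sound parWF r2 pf35499 h35499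
  exact h35500

theorem c710 (h35500 : ∀ j, j < 118750 → GoodG.{u} par (db j)) : ∀ j, j < 118948 → GoodG.{u} par (db j) := by
  have h35501 := checkRangeG_sound parWF r2 pf35500 h35500
  have h35502 := checkRangeG_sound parWF r2 pf35501 h35501
  have h35503 := checkRangeG_sound parWF r2 pf35502 h35502
  have h35504 := checkRangeG_sound parWF r2 pf35503 h35503
  have h35505 := checkRangeG_sound parWF r2 pf35504 h35504
  have h35506 := checkRangeG_sound parWF r2 pf35505 h35505
  have h35507 := checkRangeG_sound parWF r2 pf35506 h35506
  have h35508 := checkRangeG_sound parWF r2 pf35507 h35507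
  have h35509 := checkRangeG_sound parWF r2 pf35508 h35508
  have h35510 := checkRangeG_sound parWF r2 pf35509 h35509
  have h35511 := checkRangeG_sound parWF r2 pf35510 h35510
  have h35512 := checkRangeG_sound parWF r2 pf35511 h35511
  have h35513 := checkRangeG_sound parWF r2 pf35512 h35512
  have h35514 := checkRangeG_sound parWF r2 pf35513 h35513
  have h35515 := checkRangeG_sound parWF r2 pf35514 h35514
  have h35516 := checkRangeG_sound parWF r2 pf35515 h35515
  have h35517 := checkRangeG_sound parWF r2 pf35516 h35516
  have h35518 := checkRangeG_sound parWF r2 pf35517 h35517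
  have h35519 := checkRangeG_sound parWF r2 pf35518 h35518
  have h35520 := checkRangeG_sound parWF r2 pf35519 h35519
  have h35521 := checkRangeG_sound parWF r2 pf35520 h35520
  have h35522 := checkRangeG_sound parWF r2 pf35521 h35521
  have h35523 := checkRangeG_sound parWF r2 pf35522 h35522
  have h35524 := checkRangeG_sound parWF r2 pf35523 h35523
  have h35525 := checkRangeG_sound parWF r2 pf35524 h35524
  have h35526 := checkRangeG_sound parWF r2 pf35525 h35525
  have h35527 := checkRangeG_sound parWF r2 pf35526 h35526
  have h35528 := checkRangeG_sound parWF r2 pf35527 h35527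
  have h35529 := checkRangeG_sound parWF r2 pf35528 h35528
  have h35530 := checkRangeG_sound parWF r2 pf35529 h35529
  have h35531 := checkRangeG_sound parWF r2 pf35530 h35530
  have h35532 := checkRangeG_sound parWF r2 pf35531 h35531
  have h35533 := checkRangeG_sound parWF r2 pf35532 h35532
  have h35534 := checkRangeG_sound parWF r2 pf35533 h35533
  have h35535 := checkRangeG_sound parWF r2 pf35534 h35534
  have h35536 := checkRangeG_sound parWF r2 pf35535 h35535
  have h35537 := checkRangeG_sound parWF r2 pf35536 h35536
  have h35538 := checkRangeG_sound parWF r2 pf35537 h35537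
  have h35539 := checkRangeG_sound parWF r2 pf35538 h35538
  have h35540 := checkRangeG_sound parWF r2 pf35539 h35539
  have h35541 := checkRangeG_sound parWF r2 pf35540 h35540
  have h35542 := checkRangeG_sound parWF r2 pf35541 h35541
  have h35543 := checkRangeG_sound parWF r2 pf35542 h35542
  have h35544 := checkRangeG_sound parWF r2 pf35543 h35543
  have h35545 := checkRangeG_sound parWF r2 pf35544 h35544
  have h35546 := checkRangeG_sound parWF r2 pf35545 h35545
  have h35547 := checkRangeG_sound parWF r2 pf35546 h35546
  have h35548 := checkRangeG_sound parWF r2 pf35547 h35547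
  have h35549 := checkRangeG_sound parWF r2 pf35548 h35548
  have h35550 := checkRangeG_sound parWF r2 pf35549 h35549
  exact h35550

theorem c711 (h35550 : ∀ j, j < 118948 → GoodG.{u} par (db j)) : ∀ j, j < 119143 → GoodG.{u} par (db j) := by
  have h35551 := checkRangeG_sound parWF r2 pf35550 h35550
  have h35552 := checkRangeG_sound parWF r2 pf35551 h35551
  have h35553 := checkRangeG_sound parWF r2 pf35552 h35552
  have h35554 := checkRangeG_sound parWF r2 pf35553 h35553
  have h35555 := checkRangeG_sound parWF r2 pf35554 h35554
  have h35556 := checkRangeG_sound parWF r2 pf35555 h35555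
  have h35557 := checkRangeG_sound parWF r2 pf35556 h35556
  have h35558 := checkRangeG_sound parWF r2 pf35557 h35557
  have h35559 := checkRangeG_sound parWF r2 pf35558 h35558
  have h35560 := checkRangeG_sound parWF r2 pf35559 h35559
  have h35561 := checkRangeG_sound parWF r2 pf35560 h35560
  have h35562 := checkRangeG_sound parWF r2 pf35561 h35561
  have h35563 := checkRangeG_sound parWF r2 pf35562 h35562
  have h35564 := checkRangeG_sound parWF r2 pf35563 h35563
  have h35565 := checkRangeG_sound parWF r2 pf35564 h35564
  have h35566 := checkRangeG_sound parWF r2 pf35565 h35565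
  have h35567 := checkRangeG_sound parWF r2 pf35566 h35566
  have h35568 := checkRangeG_sound parWF r2 pf35567 h35567
  have h35569 := checkRangeG_sound parWF r2 pf35568 h35568
  have h35570 := checkRangeG_sound parWF r2 pf35569 h35569
  have h35571 := checkRangeG_sound parWF r2 pf35570 h35570
  have h35572 := checkRangeG_sound parWF r2 pf35571 h35571
  have h35573 := checkRangeG_sound parWF r2 pf35572 h35572
  have h35574 := checkRangeG_sound parWF r2 pf35573 h35573
  have h35575 := checkRangeG_sound parWF r2 pf35574 h35574
  have h35576 := checkRangeG_sound parWF r2 pf35575 h35575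
  have h35577 := checkRangeG_sound parWF r2 pf35576 h35576
  have h35578 := checkRangeG_sound parWF r2 pf35577 h35577
  have h35579 := checkRangeG_sound parWF r2 pf35578 h35578
  have h35580 := checkRangeG_sound parWF r2 pf35579 h35579
  have h35581 := checkRangeG_sound parWF r2 pf35580 h35580
  have h35582 := checkRangeG_sound parWF r2 pf35581 h35581
  have h35583 := checkRangeG_sound parWF r2 pf35582 h35582
  have h35584 := checkRangeG_sound parWF r2 pf35583 h35583
  have h35585 := checkRangeG_sound parWF r2 pf35584 h35584
  have h35586 := checkRangeG_sound parWF r2 pf35585 h35585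
  have h35587 := checkRangeG_sound parWF r2 pf35586 h35586
  have h35588 := checkRangeG_sound parWF r2 pf35587 h35587
  have h35589 := checkRangeG_sound parWF r2 pf35588 h35588
  have h35590 := checkRangeG_sound parWF r2 pf35589 h35589
  have h35591 := checkRangeG_sound parWF r2 pf35590 h35590
  have h35592 := checkRangeG_sound parWF r2 pf35591 h35591
  have h35593 := checkRangeG_sound parWF r2 pf35592 h35592
  have h35594 := checkRangeG_sound parWF r2 pf35593 h35593
  have h35595 := checkRangeG_sound parWF r2 pf35594 h35594
  have h35596 := checkRangeG_sound parWF r2 pf35595 h35595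
  have h35597 := checkRangeG_sound parWF r2 pf35596 h35596
  have h35598 := checkRangeG_sound parWF r2 pf35597 h35597
  have h35599 := checkRangeG_sound parWF r2 pf35598 h35598
  have h35600 := checkRangeG_sound parWF r2 pf35599 h35599
  exact h35600

theorem c712 (h35600 : ∀ j, j < 119143 → GoodG.{u} par (db j)) : ∀ j, j < 119345 → GoodG.{u} par (db j) := by
  have h35601 := checkRangeG_sound parWF r2 pf35600 h35600
  have h35602 := checkRangeG_sound parWF r2 pf35601 h35601
  have h35603 := checkRangeG_sound parWF r2 pf35602 h35602
  have h35604 := checkRangeG_sound parWF r2 pf35603 h35603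
  have h35605 := checkRangeG_sound parWF r2 pf35604 h35604
  have h35606 := checkRangeG_sound parWF r2 pf35605 h35605
  have h35607 := checkRangeG_sound parWF r2 pf35606 h35606
  have h35608 := checkRangeG_sound parWF r2 pf35607 h35607
  have h35609 := checkRangeG_sound parWF r2 pf35608 h35608
  have h35610 := checkRangeG_sound parWF r2 pf35609 h35609
  have h35611 := checkRangeG_sound parWF r2 pf35610 h35610
  have h35612 := checkRangeG_sound parWF r2 pf35611 h35611
  have h35613 := checkRangeG_sound parWF r2 pf35612 h35612
  have h35614 := checkRangeG_sound parWF r2 pf35613 h35613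
  have h35615 := checkRangeG_sound parWF r2 pf35614 h35614
  have h35616 := checkRangeG_sound parWF r2 pf35615 h35615
  have h35617 := checkRangeG_sound parWF r2 pf35616 h35616
  have h35618 := checkRangeG_sound parWF r2 pf35617 h35617
  have h35619 := checkRangeG_sound parWF r2 pf35618 h35618
  have h35620 := checkRangeG_sound parWF r2 pf35619 h35619
  have h35621 := checkRangeG_sound parWF r2 pf35620 h35620
  have h35622 := checkRangeG_sound parWF r2 pf35621 h35621
  have h35623 := checkRangeG_sound parWF r2 pf35622 h35622
  have h35624 := checkRangeG_sound parWF r2 pf35623 h35623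
  have h35625 := checkRangeG_sound parWF r2 pf35624 h35624
  have h35626 := checkRangeG_sound parWF r2 pf35625 h35625
  have h35627 := checkRangeG_sound parWF r2 pf35626 h35626
  have h35628 := checkRangeG_sound parWF r2 pf35627 h35627
  have h35629 := checkRangeG_sound parWF r2 pf35628 h35628
  have h35630 := checkRangeG_sound parWF r2 pf35629 h35629
  have h35631 := checkRangeG_sound parWF r2 pf35630 h35630
  have h35632 := checkRangeG_sound parWF r2 pf35631 h35631
  have h35633 := checkRangeG_sound parWF r2 pf35632 h35632
  have h35634 := checkRangeG_sound parWF r2 pf35633 h35633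
  have h35635 := checkRangeG_sound parWF r2 pf35634 h35634
  have h35636 := checkRangeG_sound parWF r2 pf35635 h35635
  have h35637 := checkRangeG_sound parWF r2 pf35636 h35636
  have h35638 := checkRangeG_sound parWF r2 pf35637 h35637
  have h35639 := checkRangeG_sound parWF r2 pf35638 h35638
  have h35640 := checkRangeG_sound parWF r2 pf35639 h35639
  have h35641 := checkRangeG_sound parWF r2 pf35640 h35640
  have h35642 := checkRangeG_sound parWF r2 pf35641 h35641
  have h35643 := checkRangeG_sound parWF r2 pf35642 h35642
  have h35644 := checkRangeG_sound parWF r2 pf35643 h35643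
  have h35645 := checkRangeG_sound parWF r2 pf35644 h35644
  have h35646 := checkRangeG_sound parWF r2 pf35645 h35645
  have h35647 := checkRangeG_sound parWF r2 pf35646 h35646
  have h35648 := checkRangeG_sound parWF r2 pf35647 h35647
  have h35649 := checkRangeG_sound parWF r2 pf35648 h35648
  have h35650 := checkRangeG_sound parWF r2 pf35649 h35649
  exact h35650

theorem c713 (h35650 : ∀ j, j < 119345 → GoodG.{u} par (db j)) : ∀ j, j < 119544 → GoodG.{u} par (db j) := by
  have h35651 := checkRangeG_sound parWF r2 pf35650 h35650
  have h35652 := checkRangeG_sound parWF r2 pf35651 h35651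
  have h35653 := checkRangeG_sound parWF r2 pf35652 h35652
  have h35654 := checkRangeG_sound parWF r2 pf35653 h35653
  have h35655 := checkRangeG_sound parWF r2 pf35654 h35654
  have h35656 := checkRangeG_sound parWF r2 pf35655 h35655
  have h35657 := checkRangeG_sound parWF r2 pf35656 h35656
  have h35658 := checkRangeG_sound parWF r2 pf35657 h35657
  have h35659 := checkRangeG_sound parWF r2 pf35658 h35658
  have h35660 := checkRangeG_sound parWF r2 pf35659 h35659
  have h35661 := checkRangeG_sound parWF r2 pf35660 h35660
  have h35662 := checkRangeG_sound parWF r2 pf35661 h35661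
  have h35663 := checkRangeG_sound parWF r2 pf35662 h35662
  have h35664 := checkRangeG_sound parWF r2 pf35663 h35663
  have h35665 := checkRangeG_sound parWF r2 pf35664 h35664
  have h35666 := checkRangeG_sound parWF r2 pf35665 h35665
  have h35667 := checkRangeG_sound parWF r2 pf35666 h35666
  have h35668 := checkRangeG_sound parWF r2 pf35667 h35667
  have h35669 := checkRangeG_sound parWF r2 pf35668 h35668
  have h35670 := checkRangeG_sound parWF r2 pf35669 h35669
  have h35671 := checkRangeG_sound parWF r2 pf35670 h35670
  have h35672 := checkRangeG_sound parWF r2 pf35671 h35671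
  have h35673 := checkRangeG_sound parWF r2 pf35672 h35672
  have h35674 := checkRangeG_sound parWF r2 pf35673 h35673
  have h35675 := checkRangeG_sound parWF r2 pf35674 h35674
  have h35676 := checkRangeG_sound parWF r2 pf35675 h35675
  have h35677 := checkRangeG_sound parWF r2 pf35676 h35676
  have h35678 := checkRangeG_sound parWF r2 pf35677 h35677
  have h35679 := checkRangeG_sound parWF r2 pf35678 h35678
  have h35680 := checkRangeG_sound parWF r2 pf35679 h35679
  have h35681 := checkRangeG_sound parWF r2 pf35680 h35680
  have h35682 := checkRangeG_sound parWF r2 pf35681 h35681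
  have h35683 := checkRangeG_sound parWF r2 pf35682 h35682
  have h35684 := checkRangeG_sound parWF r2 pf35683 h35683
  have h35685 := checkRangeG_sound parWF r2 pf35684 h35684
  have h35686 := checkRangeG_sound parWF r2 pf35685 h35685
  have h35687 := checkRangeG_sound parWF r2 pf35686 h35686
  have h35688 := checkRangeG_sound parWF r2 pf35687 h35687
  have h35689 := checkRangeG_sound parWF r2 pf35688 h35688
  have h35690 := checkRangeG_sound parWF r2 pf35689 h35689
  have h35691 := checkRangeG_sound parWF r2 pf35690 h35690
  have h35692 := checkRangeG_sound parWF r2 pf35691 h35691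
  have h35693 := checkRangeG_sound parWF r2 pf35692 h35692
  have h35694 := checkRangeG_sound parWF r2 pf35693 h35693
  have h35695 := checkRangeG_sound parWF r2 pf35694 h35694
  have h35696 := checkRangeG_sound parWF r2 pf35695 h35695
  have h35697 := checkRangeG_sound parWF r2 pf35696 h35696
  have h35698 := checkRangeG_sound parWF r2 pf35697 h35697
  have h35699 := checkRangeG_sound parWF r2 pf35698 h35698
  have h35700 := checkRangeG_sound parWF r2 pf35699 h35699
  exact h35700

theorem c714 (h35700 : ∀ j, j < 119544 → GoodG.{u} par (db j)) : ∀ j, j < 119757 → GoodG.{u} par (db j) := by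
  have h35701 := checkRangeG_sound parWF r2 pf35700 h35700
  have h35702 := checkRangeG_sound parWF r2 pf35701 h35701
  have h35703 := checkRangeG_sound parWF r2 pf35702 h35702
  have h35704 := checkRangeG_sound parWF r2 pf35703 h35703
  have h35705 := checkRangeG_sound parWF r2 pf35704 h35704
  have h35706 := checkRangeG_sound parWF r2 pf35705 h35705
  have h35707 := checkRangeG_sound parWF r2 pf35706 h35706
  have h35708 := checkRangeG_sound parWF r2 pf35707 h35707
  have h35709 := checkRangeG_sound parWF r2 pf35708 h35708
  have h35710 := checkRangeG_sound parWF r2 pf35709 h35709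
  have h35711 := checkRangeG_sound parWF r2 pf35710 h35710
  have h35712 := checkRangeG_sound parWF r2 pf35711 h35711
  have h35713 := checkRangeG_sound parWF r2 pf35712 h35712
  have h35714 := checkRangeG_sound parWF r2 pf35713 h35713
  have h35715 := checkRangeG_sound parWF r2 pf35714 h35714
  have h35716 := checkRangeG_sound parWF r2 pf35715 h35715
  have h35717 := checkRangeG_sound parWF r2 pf35716 h35716
  have h35718 := checkRangeG_sound parWF r2 pf35717 h35717
  have h35719 := checkRangeG_sound parWF r2 pf35718 h35718
  have h35720 := checkRangeG_sound parWF r2 pf35719 h35719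
  have h35721 := checkRangeG_sound parWF r2 pf35720 h35720
  have h35722 := checkRangeG_sound parWF r2 pf35721 h35721
  have h35723 := checkRangeG_sound parWF r2 pf35722 h35722
  have h35724 := checkRangeG_sound parWF r2 pf35723 h35723
  have h35725 := checkRangeG_sound parWF r2 pf35724 h35724
  have h35726 := checkRangeG_sound parWF r2 pf35725 h35725
  have h35727 := checkRangeG_sound parWF r2 pf35726 h35726
  have h35728 := checkRangeG_sound parWF r2 pf35727 h35727
  have h35729 := checkRangeG_sound parWF r2 pf35728 h35728
  have h35730 := checkRangeG_sound parWF r2 pf35729 h35729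
  have h35731 := checkRangeG_sound parWF r2 pf35730 h35730
  have h35732 := checkRangeG_sound parWF r2 pf35731 h35731
  have h35733 := checkRangeG_sound parWF r2 pf35732 h35732
  have h35734 := checkRangeG_sound parWF r2 pf35733 h35733
  have h35735 := checkRangeG_sound parWF r2 pf35734 h35734
  have h35736 := checkRangeG_sound parWF r2 pf35735 h35735
  have h35737 := checkRangeG_sound parWF r2 pf35736 h35736
  have h35738 := checkRangeG_sound parWF r2 pf35737 h35737
  have h35739 := checkRangeG_sound parWF r2 pf35738 h35738
  have h35740 := checkRangeG_sound parWF r2 pf35739 h35739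
  have h35741 := checkRangeG_sound parWF r2 pf35740 h35740
  have h35742 := checkRangeG_sound parWF r2 pf35741 h35741
  have h35743 := checkRangeG_sound parWF r2 pf35742 h35742
  have h35744 := checkRangeG_sound parWF r2 pf35743 h35743
  have h35745 := checkRangeG_sound parWF r2 pf35744 h35744
  have h35746 := checkRangeG_sound parWF r2 pf35745 h35745
  have h35747 := checkRangeG_sound parWF r2 pf35746 h35746
  have h35748 := checkRangeG_sound parWF r2 pf35747 h35747
  have h35749 := checkRangeG_sound parWF r2 pf35748 h35748
  have h35750 := checkRangeG_sound parWF r2 pf35749 h35749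
  exact h35750

theorem c715 (h35750 : ∀ j, j < 119757 → GoodG.{u} par (db j)) : ∀ j, j < 119960 → GoodG.{u} par (db j) := by
  have h35751 := checkRangeG_sound parWF r2 pf35750 h35750
  have h35752 := checkRangeG_sound parWF r2 pf35751 h35751
  have h35753 := checkRangeG_sound parWF r2 pf35752 h35752
  have h35754 := checkRangeG_sound parWF r2 pf35753 h35753
  have h35755 := checkRangeG_sound parWF r2 pf35754 h35754
  have h35756 := checkRangeG_sound parWF r2 pf35755 h35755
  have h35757 := checkRangeG_sound parWF r2 pf35756 h35756
  have h35758 := checkRangeG_sound parWF r2 pf35757 h35757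
  have h35759 := checkRangeG_sound parWF r2 pf35758 h35758
  have h35760 := checkRangeG_sound parWF r2 pf35759 h35759
  have h35761 := checkRangeG_sound parWF r2 pf35760 h35760
  have h35762 := checkRangeG_sound parWF r2 pf35761 h35761
  have h35763 := checkRangeG_sound parWF r2 pf35762 h35762
  have h35764 := checkRangeG_sound parWF r2 pf35763 h35763
  have h35765 := checkRangeG_sound parWF r2 pf35764 h35764
  have h35766 := checkRangeG_sound parWF r2 pf35765 h35765
  have h35767 := checkRangeG_sound parWF r2 pf35766 h35766
  have h35768 := checkRangeG_sound parWF r2 pf35767 h35767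
  have h35769 := checkRangeG_sound parWF r2 pf35768 h35768
  have h35770 := checkRangeG_sound parWF r2 pf35769 h35769
  have h35771 := checkRangeG_sound parWF r2 pf35770 h35770
  have h35772 := checkRangeG_sound parWF r2 pf35771 h35771
  have h35773 := checkRangeG_sound parWF r2 pf35772 h35772
  have h35774 := checkRangeG_sound parWF r2 pf35773 h35773
  have h35775 := checkRangeG_sound parWF r2 pf35774 h35774
  have h35776 := checkRangeG_sound parWF r2 pf35775 h35775
  have h35777 := checkRangeG_sound parWF r2 pf35776 h35776
  have h35778 := checkRangeG_sound parWF r2 pf35777 h35777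
  have h35779 := checkRangeG_sound parWF r2 pf35778 h35778
  have h35780 := checkRangeG_sound parWF r2 pf35779 h35779
  have h35781 := checkRangeG_sound parWF r2 pf35780 h35780
  have h35782 := checkRangeG_sound parWF r2 pf35781 h35781
  have h35783 := checkRangeG_sound parWF r2 pf35782 h35782
  have h35784 := checkRangeG_sound parWF r2 pf35783 h35783
  have h35785 := checkRangeG_sound parWF r2 pf35784 h35784
  have h35786 := checkRangeG_sound parWF r2 pf35785 h35785
  have h35787 := checkRangeG_sound parWF r2 pf35786 h35786
  have h35788 := checkRangeG_sound parWF r2 pf35787 h35787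
  have h35789 := checkRangeG_sound parWF r2 pf35788 h35788
  have h35790 := checkRangeG_sound parWF r2 pf35789 h35789
  have h35791 := checkRangeG_sound parWF r2 pf35790 h35790
  have h35792 := checkRangeG_sound parWF r2 pf35791 h35791
  have h35793 := checkRangeG_sound parWF r2 pf35792 h35792
  have h35794 := checkRangeG_sound parWF r2 pf35793 h35793
  have h35795 := checkRangeG_sound parWF r2 pf35794 h35794
  have h35796 := checkRangeG_sound parWF r2 pf35795 h35795
  have h35797 := checkRangeG_sound parWF r2 pf35796 h35796
  have h35798 := checkRangeG_sound parWF r2 pf35797 h35797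
  have h35799 := checkRangeG_sound parWF r2 pf35798 h35798
  have h35800 := checkRangeG_sound parWF r2 pf35799 h35799
  exact h35800

theorem c716 (h35800 : ∀ j, j < 119960 → GoodG.{u} par (db j)) : ∀ j, j < 120165 → GoodG.{u} par (db j) := by
  have h35801 := checkRangeG_sound parWF r2 pf35800 h35800
  have h35802 := checkRangeG_sound parWF r2 pf35801 h35801
  have h35803 := checkRangeG_sound parWF r2 pf35802 h35802
  have h35804 := checkRangeG_sound parWF r2 pf35803 h35803
  have h35805 := checkRangeG_sound parWF r2 pf35804 h35804
  have h35806 := checkRangeG_sound parWF r2 pf35805 h35805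
  have h35807 := checkRangeG_sound parWF r2 pf35806 h35806
  have h35808 := checkRangeG_sound parWF r2 pf35807 h35807
  have h35809 := checkRangeG_sound parWF r2 pf35808 h35808
  have h35810 := checkRangeG_sound parWF r2 pf35809 h35809
  have h35811 := checkRangeG_sound parWF r2 pf35810 h35810
  have h35812 := checkRangeG_sound parWF r2 pf35811 h35811
  have h35813 := checkRangeG_sound parWF r2 pf35812 h35812
  have h35814 := checkRangeG_sound parWF r2 pf35813 h35813
  have h35815 := checkRangeG_sound parWF r2 pf35814 h35814
  have h35816 := checkRangeG_sound parWF r2 pf35815 h35815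
  have h35817 := checkRangeG_sound parWF r2 pf35816 h35816
  have h35818 := checkRangeG_sound parWF r2 pf35817 h35817
  have h35819 := checkRangeG_sound parWF r2 pf35818 h35818
  have h35820 := checkRangeG_sound parWF r2 pf35819 h35819
  have h35821 := checkRangeG_sound parWF r2 pf35820 h35820
  have h35822 := checkRangeG_sound parWF r2 pf35821 h35821
  have h35823 := checkRangeG_sound parWF r2 pf35822 h35822
  have h35824 := checkRangeG_sound parWF r2 pf35823 h35823
  have h35825 := checkRangeG_sound parWF r2 pf35824 h35824
  have h35826 := checkRangeG_sound parWF r2 pf35825 h35825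
  have h35827 := checkRangeG_sound parWF r2 pf35826 h35826
  have h35828 := checkRangeG_sound parWF r2 pf35827 h35827
  have h35829 := checkRangeG_sound parWF r2 pf35828 h35828
  have h35830 := checkRangeG_sound parWF r2 pf35829 h35829
  have h35831 := checkRangeG_sound parWF r2 pf35830 h35830
  have h35832 := checkRangeG_sound parWF r2 pf35831 h35831
  have h35833 := checkRangeG_sound parWF r2 pf35832 h35832
  have h35834 := checkRangeG_sound parWF r2 pf35833 h35833
  have h35835 := checkRangeG_sound parWF r2 pf35834 h35834
  have h35836 := checkRangeG_sound parWF r2 pf35835 h35835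
  have h35837 := checkRangeG_sound parWF r2 pf35836 h35836
  have h35838 := checkRangeG_sound parWF r2 pf35837 h35837
  have h35839 := checkRangeG_sound parWF r2 pf35838 h35838
  have h35840 := checkRangeG_sound parWF r2 pf35839 h35839
  have h35841 := checkRangeG_sound parWF r2 pf35840 h35840
  have h35842 := checkRangeG_sound parWF r2 pf35841 h35841
  have h35843 := checkRangeG_sound parWF r2 pf35842 h35842
  have h35844 := checkRangeG_sound parWF r2 pf35843 h35843
  have h35845 := checkRangeG_sound parWF r2 pf35844 h35844
  have h35846 := checkRangeG_sound parWF r2 pf35845 h35845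
  have h35847 := checkRangeG_sound parWF r2 pf35846 h35846
  have h35848 := checkRangeG_sound parWF r2 pf35847 h35847
  have h35849 := checkRangeG_sound parWF r2 pf35848 h35848
  have h35850 := checkRangeG_sound parWF r2 pf35849 h35849
  exact h35850

theorem c717 (h35850 : ∀ j, j < 120165 → GoodG.{u} par (db j)) : ∀ j, j < 120344 → GoodG.{u} par (db j) := by
  have h35851 := checkRangeG_sound parWF r2 pf35850 h35850
  have h35852 := checkRangeG_sound parWF r2 pf35851 h35851
  have h35853 := checkRangeG_sound parWF r2 pf35852 h35852
  have h35854 := checkRangeG_sound parWF r2 pf35853 h35853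
  have h35855 := checkRangeG_sound parWF r2 pf35854 h35854
  have h35856 := checkRangeG_sound parWF r2 pf35855 h35855
  have h35857 := checkRangeG_sound parWF r2 pf35856 h35856
  have h35858 := checkRangeG_sound parWF r2 pf35857 h35857
  have h35859 := checkRangeG_sound parWF r2 pf35858 h35858
  have h35860 := checkRangeG_sound parWF r2 pf35859 h35859
  have h35861 := checkRangeG_sound parWF r2 pf35860 h35860
  have h35862 := checkRangeG_sound parWF r2 pf35861 h35861
  have h35863 := checkRangeG_sound parWF r2 pf35862 h35862
  have h35864 := checkRangeG_sound parWF r2 pf35863 h35863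
  have h35865 := checkRangeG_sound parWF r2 pf35864 h35864
  have h35866 := checkRangeG_sound parWF r2 pf35865 h35865
  have h35867 := checkRangeG_sound parWF r2 pf35866 h35866
  have h35868 := checkRangeG_sound parWF r2 pf35867 h35867
  have h35869 := checkRangeG_sound parWF r2 pf35868 h35868
  have h35870 := checkRangeG_sound parWF r2 pf35869 h35869
  have h35871 := checkRangeG_sound parWF r2 pf35870 h35870
  have h35872 := checkRangeG_sound parWF r2 pf35871 h35871
  have h35873 := checkRangeG_sound parWF r2 pf35872 h35872
  have h35874 := checkRangeG_sound parWF r2 pf35873 h35873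
  have h35875 := checkRangeG_sound parWF r2 pf35874 h35874
  have h35876 := checkRangeG_sound parWF r2 pf35875 h35875
  have h35877 := checkRangeG_sound parWF r2 pf35876 h35876
  have h35878 := checkRangeG_sound parWF r2 pf35877 h35877
  have h35879 := checkRangeG_sound parWF r2 pf35878 h35878
  have h35880 := checkRangeG_sound parWF r2 pf35879 h35879
  have h35881 := checkRangeG_sound parWF r2 pf35880 h35880
  have h35882 := checkRangeG_sound parWF r2 pf35881 h35881
  have h35883 := checkRangeG_sound parWF r2 pf35882 h35882
  have h35884 := checkRangeG_sound parWF r2 pf35883 h35883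
  have h35885 := checkRangeG_sound parWF r2 pf35884 h35884
  have h35886 := checkRangeG_sound parWF r2 pf35885 h35885
  have h35887 := checkRangeG_sound parWF r2 pf35886 h35886
  have h35888 := checkRangeG_sound parWF r2 pf35887 h35887
  have h35889 := checkRangeG_sound parWF r2 pf35888 h35888
  have h35890 := checkRangeG_sound parWF r2 pf35889 h35889
  have h35891 := checkRangeG_sound parWF r2 pf35890 h35890
  have h35892 := checkRangeG_sound parWF r2 pf35891 h35891
  have h35893 := checkRangeG_sound parWF r2 pf35892 h35892
  have h35894 := checkRangeG_sound parWF r2 pf35893 h35893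
  have h35895 := checkRangeG_sound parWF r2 pf35894 h35894
  have h35896 := checkRangeG_sound parWF r2 pf35895 h35895
  have h35897 := checkRangeG_sound parWF r2 pf35896 h35896
  have h35898 := checkRangeG_sound parWF r2 pf35897 h35897
  have h35899 := checkRangeG_sound parWF r2 pf35898 h35898
  have h35900 := checkRangeG_sound parWF r2 pf35899 h35899
  exact h35900

theorem c718 (h35900 : ∀ j, j < 120344 → GoodG.{u} par (db j)) : ∀ j, j < 120536 → GoodG.{u} par (db j) := by
  have h35901 := checkRangeG_sound parWF r2 pf35900 h35900
  have h35902 := checkRangeG_sound parWF r2 pf35901 h35901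
  have h35903 := checkRangeG_sound parWF r2 pf35902 h35902
  have h35904 := checkRangeG_sound parWF r2 pf35903 h35903
  have h35905 := checkRangeG_sound parWF r2 pf35904 h35904
  have h35906 := checkRangeG_sound parWF r2 pf35905 h35905
  have h35907 := checkRangeG_sound parWF r2 pf35906 h35906
  have h35908 := checkRangeG_sound parWF r2 pf35907 h35907
  have h35909 := checkRangeG_sound parWF r2 pf35908 h35908
  have h35910 := checkRangeG_sound parWF r2 pf35909 h35909
  have h35911 := checkRangeG_sound parWF r2 pf35910 h35910
  have h35912 := checkRangeG_sound parWF r2 pf35911 h35911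
  have h35913 := checkRangeG_sound parWF r2 pf35912 h35912
  have h35914 := checkRangeG_sound parWF r2 pf35913 h35913
  have h35915 := checkRangeG_sound parWF r2 pf35914 h35914
  have h35916 := checkRangeG_sound parWF r2 pf35915 h35915
  have h35917 := checkRangeG_sound parWF r2 pf35916 h35916
  have h35918 := checkRangeG_sound parWF r2 pf35917 h35917
  have h35919 := checkRangeG_sound parWF r2 pf35918 h35918
  have h35920 := checkRangeG_sound parWF r2 pf35919 h35919
  have h35921 := checkRangeG_sound parWF r2 pf35920 h35920
  have h35922 := checkRangeG_sound parWF r2 pf35921 h35921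
  have h35923 := checkRangeG_sound parWF r2 pf35922 h35922
  have h35924 := checkRangeG_sound parWF r2 pf35923 h35923
  have h35925 := checkRangeG_sound parWF r2 pf35924 h35924
  have h35926 := checkRangeG_sound parWF r2 pf35925 h35925
  have h35927 := checkRangeG_sound parWF r2 pf35926 h35926
  have h35928 := checkRangeG_sound parWF r2 pf35927 h35927
  have h35929 := checkRangeG_sound parWF r2 pf35928 h35928
  have h35930 := checkRangeG_sound parWF r2 pf35929 h35929
  have h35931 := checkRangeG_sound parWF r2 pf35930 h35930
  have h35932 := checkRangeG_sound parWF r2 pf35931 h35931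
  have h35933 := checkRangeG_sound parWF r2 pf35932 h35932
  have h35934 := checkRangeG_sound parWF r2 pf35933 h35933
  have h35935 := checkRangeG_sound parWF r2 pf35934 h35934
  have h35936 := checkRangeG_sound parWF r2 pf35935 h35935
  have h35937 := checkRangeG_sound parWF r2 pf35936 h35936
  have h35938 := checkRangeG_sound parWF r2 pf35937 h35937
  have h35939 := checkRangeG_sound parWF r2 pf35938 h35938
  have h35940 := checkRangeG_sound parWF r2 pf35939 h35939
  have h35941 := checkRangeG_sound parWF r2 pf35940 h35940
  have h35942 := checkRangeG_sound parWF r2 pf35941 h35941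
  have h35943 := checkRangeG_sound parWF r2 pf35942 h35942
  have h35944 := checkRangeG_sound parWF r2 pf35943 h35943
  have h35945 := checkRangeG_sound parWF r2 pf35944 h35944
  have h35946 := checkRangeG_sound parWF r2 pf35945 h35945
  have h35947 := checkRangeG_sound parWF r2 pf35946 h35946
  have h35948 := checkRangeG_sound parWF r2 pf35947 h35947
  have h35949 := checkRangeG_sound parWF r2 pf35948 h35948
  have h35950 := checkRangeG_sound parWF r2 pf35949 h35949
  exact h35950

theorem c719 (h35950 : ∀ j, j < 120536 → GoodG.{u} par (db j)) : ∀ j, j < 120706 → GoodG.{u} par (db j) := by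
  have h35951 := checkRangeG_sound parWF r2 pf35950 h35950
  have h35952 := checkRangeG_sound parWF r2 pf35951 h35951
  have h35953 := checkRangeG_sound parWF r2 pf35952 h35952
  have h35954 := checkRangeG_sound parWF r2 pf35953 h35953
  have h35955 := checkRangeG_sound parWF r2 pf35954 h35954
  have h35956 := checkRangeG_sound parWF r2 pf35955 h35955
  have h35957 := checkRangeG_sound parWF r2 pf35956 h35956
  have h35958 := checkRangeG_sound parWF r2 pf35957 h35957
  have h35959 := checkRangeG_sound parWF r2 pf35958 h35958
  have h35960 := checkRangeG_sound parWF r2 pf35959 h35959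
  have h35961 := checkRangeG_sound parWF r2 pf35960 h35960
  have h35962 := checkRangeG_sound parWF r2 pf35961 h35961
  have h35963 := checkRangeG_sound parWF r2 pf35962 h35962
  have h35964 := checkRangeG_sound parWF r2 pf35963 h35963
  have h35965 := checkRangeG_sound parWF r2 pf35964 h35964
  have h35966 := checkRangeG_sound parWF r2 pf35965 h35965
  have h35967 := checkRangeG_sound parWF r2 pf35966 h35966
  have h35968 := checkRangeG_sound parWF r2 pf35967 h35967
  have h35969 := checkRangeG_sound parWF r2 pf35968 h35968
  have h35970 := checkRangeG_sound parWF r2 pf35969 h35969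
  have h35971 := checkRangeG_sound parWF r2 pf35970 h35970
  have h35972 := checkRangeG_sound parWF r2 pf35971 h35971
  have h35973 := checkRangeG_sound parWF r2 pf35972 h35972
  have h35974 := checkRangeG_sound parWF r2 pf35973 h35973
  have h35975 := checkRangeG_sound parWF r2 pf35974 h35974
  have h35976 := checkRangeG_sound parWF r2 pf35975 h35975
  have h35977 := checkRangeG_sound parWF r2 pf35976 h35976
  have h35978 := checkRangeG_sound parWF r2 pf35977 h35977
  have h35979 := checkRangeG_sound parWF r2 pf35978 h35978
  have h35980 := checkRangeG_sound parWF r2 pf35979 h35979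
  have h35981 := checkRangeG_sound parWF r2 pf35980 h35980
  have h35982 := checkRangeG_sound parWF r2 pf35981 h35981
  have h35983 := checkRangeG_sound parWF r2 pf35982 h35982
  have h35984 := checkRangeG_sound parWF r2 pf35983 h35983
  have h35985 := checkRangeG_sound parWF r2 pf35984 h35984
  have h35986 := checkRangeG_sound parWF r2 pf35985 h35985
  have h35987 := checkRangeG_sound parWF r2 pf35986 h35986
  have h35988 := checkRangeG_sound parWF r2 pf35987 h35987
  have h35989 := checkRangeG_sound parWF r2 pf35988 h35988
  have h35990 := checkRangeG_sound parWF r2 pf35989 h35989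
  have h35991 := checkRangeG_sound parWF r2 pf35990 h35990
  have h35992 := checkRangeG_sound parWF r2 pf35991 h35991
  have h35993 := checkRangeG_sound parWF r2 pf35992 h35992
  have h35994 := checkRangeG_sound parWF r2 pf35993 h35993
  have h35995 := checkRangeG_sound parWF r2 pf35994 h35994
  have h35996 := checkRangeG_sound parWF r2 pf35995 h35995
  have h35997 := checkRangeG_sound parWF r2 pf35996 h35996
  have h35998 := checkRangeG_sound parWF r2 pf35997 h35997
  have h35999 := checkRangeG_sound parWF r2 pf35998 h35998
  have h36000 := checkRangeG_sound parWF r2 pf35999 h35999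
  exact h36000


end Vale.Agent.P045g.C61
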