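import Vale.Agent.P045g.C61.WF
import Vale.Agent.P045g.C61.Pf60
import Vale.Agent.P045g.C61.Pf61
import Vale.Agent.P045g.C61.Pf62
import Vale.Agent.P045g.C61.Pf63
import Vale.Agent.P045g.C61.Pf64
import Vale.Agent.P045g.C61.Pf65
import Vale.Agent.P045g.C61.Pf66
import Vale.Agent.P045g.C61.Pf67
import Vale.Agent.P045g.C61.Pf68
import Vale.Agent.P045g.C61.Pf69

namespace Vale.Agent.P045g.C61

open Vale.Agent.P045b Vale.Agent.P045g

universe u

theorem c72 (h3600 : ∀ j, j < 10391 → GoodG.{u} par (db j)) : ∀ j, j < 10539 → GoodG.{u} par (db j) := by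
  have h3601 := checkRangeG_sound parWF r2 pf3600 h3600
  have h3602 := checkRangeG_sound parWF r2 pf3601 h3601
  have h3603 := checkRangeG_sound parWF r2 pf3602 h3602
  have h3604 := checkRangeG_sound parWF r2 pf3603 h3603
  have h3605 := checkRangeG_sound parWF r2 pf3604 h3604
  have h3606 := checkRangeG_sound parWF r2 pf3605 h3605
  have h3607 := checkRangeG_sound parWF r2 pf3606 h3606
  have h3608 := checkRangeG_sound parWF r2 pf3607 h3607
  have h3609 := checkRangeG_sound parWF r2 pf3608 h3608
  have h3610 := checkRangeG_sound parWF r2 pf3609 h3609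
  have h3611 := checkRangeG_sound parWF r2 pf3610 h3610
  have h3612 := checkRangeG_sound parWF r2 pf3611 h3611
  have h3613 := checkRangeG_sound parWF r2 pf3612 h3612
  have h3614 := checkRangeG_sound parWF r2 pf3613 h3613
  have h3615 := checkRangeG_sound parWF r2 pf3614 h3614
  have h3616 := checkRangeG_sound parWF r2 pf3615 h3615
  have h3617 := checkRangeG_sound parWF r2 pf3616 h3616
  have h3618 := checkRangeG_sound parWF r2 pf3617 h3617
  have h3619 := checkRangeG_sound parWF r2 pf3618 h3618
  have h3620 := checkRangeG_sound parWF r2 pf3619 h3619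
  have h3621 := checkRangeG_sound parWF r2 pf3620 h3620
  have h3622 := checkRangeG_sound parWF r2 pf3621 h3621
  have h3623 := checkRangeG_sound parWF r2 pf3622 h3622
  have h3624 := checkRangeG_sound parWF r2 pf3623 h3623
  have h3625 := checkRangeG_sound parWF r2 pf3624 h3624
  have h3626 := checkRangeG_sound parWF r2 pf3625 h3625
  have h3627 := checkRangeG_sound parWF r2 pf3626 h3626
  have h3628 := checkRangeG_sound parWF r2 pf3627 h3627
  have h3629 := checkRangeG_sound parWF r2 pf3628 h3628
  have h3630 := checkRangeG_sound parWF r2 pf3629 h3629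
  have h3631 := checkRangeG_sound parWF r2 pf3630 h3630
  have h3632 := checkRangeG_sound parWF r2 pf3631 h3631
  have h3633 := checkRangeG_sound parWF r2 pf3632 h3632
  have h3634 := checkRangeG_sound parWF r2 pf3633 h3633
  have h3635 := checkRangeG_sound parWF r2 pf3634 h3634
  have h3636 := checkRangeG_sound parWF r2 pf3635 h3635
  have h3637 := checkRangeG_sound parWF r2 pf3636 h3636
  have h3638 := checkRangeG_sound parWF r2 pf3637 h3637
  have h3639 := checkRangeG_sound parWF r2 pf3638 h3638
  have h3640 := checkRangeG_sound parWF r2 pf3639 h3639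
  have h3641 := checkRangeG_sound parWF r2 pf3640 h3640
  have h3642 := checkRangeG_sound parWF r2 pf3641 h3641
  have h3643 := checkRangeG_sound parWF r2 pf3642 h3642
  have h3644 := checkRangeG_sound parWF r2 pf3643 h3643
  have h3645 := checkRangeG_sound parWF r2 pf3644 h3644
  have h3646 := checkRangeG_sound parWF r2 pf3645 h3645
  have h3647 := checkRangeG_sound parWF r2 pf3646 h3646
  have h3648 := checkRangeG_sound parWF r2 pf3647 h3647
  have h3649 := checkRangeG_sound parWF r2 pf3648 h3648
  have h3650 := checkRangeG_sound parWF r2 pf3649 h3649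
  exact h3650

theorem c73 (h3650 : ∀ j, j < 10539 → GoodG.{u} par (db j)) : ∀ j, j < 10680 → GoodG.{u} par (db j) := by
  have h3651 := checkRangeG_sound parWF r2 pf3650 h3650
  have h3652 := checkRangeG_sound parWF r2 pf3651 h3651
  have h3653 := checkRangeG_sound parWF r2 pf3652 h3652
  have h3654 := checkRangeG_sound parWF r2 pf3653 h3653
  have h3655 := checkRangeG_sound parWF r2 pf3654 h3654
  have h3656 := checkRangeG_sound parWF r2 pf3655 h3655
  have h3657 := checkRangeG_sound parWF r2 pf3656 h3656
  have h3658 := checkRangeG_sound parWF r2 pf3657 h3657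
  have h3659 := checkRangeG_sound parWF r2 pf3658 h3658
  have h3660 := checkRangeG_sound parWF r2 pf3659 h3659
  have h3661 := checkRangeG_sound parWF r2 pf3660 h3660
  have h3662 := checkRangeG_sound parWF r2 pf3661 h3661
  have h3663 := checkRangeG_sound parWF r2 pf3662 h3662
  have h3664 := checkRangeG_sound parWF r2 pf3663 h3663
  have h3665 := checkRangeG_sound parWF r2 pf3664 h3664
  have h3666 := checkRangeG_sound parWF r2 pf3665 h3665
  have h3667 := checkRangeG_sound parWF r2 pf3666 h3666
  have h3668 := checkRangeG_sound parWF r2 pf3667 h3667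
  have h3669 := checkRangeG_sound parWF r2 pf3668 h3668
  have h3670 := checkRangeG_sound parWF r2 pf3669 h3669
  have h3671 := checkRangeG_sound parWF r2 pf3670 h3670
  have h3672 := checkRangeG_sound parWF r2 pf3671 h3671
  have h3673 := checkRangeG_sound parWF r2 pf3672 h3672
  have h3674 := checkRangeG_sound parWF r2 pf3673 h3673
  have h3675 := checkRangeG_sound parWF r2 pf3674 h3674
  have h3676 := checkRangeG_sound parWF r2 pf3675 h3675
  have h3677 := checkRangeG_sound parWF r2 pf3676 h3676
  have h3678 := checkRangeG_sound parWF r2 pf3677 h3677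
  have h3679 := checkRangeG_sound parWF r2 pf3678 h3678
  have h3680 := checkRangeG_sound parWF r2 pf3679 h3679
  have h3681 := checkRangeG_sound parWF r2 pf3680 h3680
  have h3682 := checkRangeG_sound parWF r2 pf3681 h3681
  have h3683 := checkRangeG_sound parWF r2 pf3682 h3682
  have h3684 := checkRangeG_sound parWF r2 pf3683 h3683
  have h3685 := checkRangeG_sound parWF r2 pf3684 h3684
  have h3686 := checkRangeG_sound parWF r2 pf3685 h3685
  have h3687 := checkRangeG_sound parWF r2 pf3686 h3686
  have h3688 := checkRangeG_sound parWF r2 pf3687 h3687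
  have h3689 := checkRangeG_sound parWF r2 pf3688 h3688
  have h3690 := checkRangeG_sound parWF r2 pf3689 h3689
  have h3691 := checkRangeG_sound parWF r2 pf3690 h3690
  have h3692 := checkRangeG_sound parWF r2 pf3691 h3691
  have h3693 := checkRangeG_sound parWF r2 pf3692 h3692
  have h3694 := checkRangeG_sound parWF r2 pf3693 h3693
  have h3695 := checkRangeG_sound parWF r2 pf3694 h3694
  have h3696 := checkRangeG_sound parWF r2 pf3695 h3695
  have h3697 := checkRangeG_sound parWF r2 pf3696 h3696
  have h3698 := checkRangeG_sound parWF r2 pf3697 h3697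
  have h3699 := checkRangeG_sound parWF r2 pf3698 h3698
  have h3700 := checkRangeG_sound parWF r2 pf3699 h3699
  exact h3700

theorem c74 (h3700 : ∀ j, j < 10680 → GoodG.{u} par (db j)) : ∀ j, j < 10816 → GoodG.{u} par (db j) := by
  have h3701 := checkRangeG_sound parWF r2 pf3700 h3700
  have h3702 := checkRangeG_sound parWF r2 pf3701 h3701
  have h3703 := checkRangeG_sound parWF r2 pf3702 h3702
  have h3704 := checkRangeG_sound parWF r2 pf3703 h3703
  have h3705 := checkRangeG_sound parWF r2 pf3704 h3704
  have h3706 := checkRangeG_sound parWF r2 pf3705 h3705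
  have h3707 := checkRangeG_sound parWF r2 pf3706 h3706
  have h3708 := checkRangeG_sound parWF r2 pf3707 h3707
  have h3709 := checkRangeG_sound parWF r2 pf3708 h3708
  have h3710 := checkRangeG_sound parWF r2 pf3709 h3709
  have h3711 := checkRangeG_sound parWF r2 pf3710 h3710
  have h3712 := checkRangeG_sound parWF r2 pf3711 h3711
  have h3713 := checkRangeG_sound parWF r2 pf3712 h3712
  have h3714 := checkRangeG_sound parWF r2 pf3713 h3713
  have h3715 := checkRangeG_sound parWF r2 pf3714 h3714
  have h3716 := checkRangeG_sound parWF r2 pf3715 h3715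
  have h3717 := checkRangeG_sound parWF r2 pf3716 h3716
  have h3718 := checkRangeG_sound parWF r2 pf3717 h3717
  have h3719 := checkRangeG_sound parWF r2 pf3718 h3718
  have h3720 := checkRangeG_sound parWF r2 pf3719 h3719
  have h3721 := checkRangeG_sound parWF r2 pf3720 h3720
  have h3722 := checkRangeG_sound parWF r2 pf3721 h3721
  have h3723 := checkRangeG_sound parWF r2 pf3722 h3722
  have h3724 := checkRangeG_sound parWF r2 pf3723 h3723
  have h3725 := checkRangeG_sound parWF r2 pf3724 h3724
  have h3726 := checkRangeG_sound parWF r2 pf3725 h3725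
  have h3727 := checkRangeG_sound parWF r2 pf3726 h3726
  have h3728 := checkRangeG_sound parWF r2 pf3727 h3727
  have h3729 := checkRangeG_sound parWF r2 pf3728 h3728
  have h3730 := checkRangeG_sound parWF r2 pf3729 h3729
  have h3731 := checkRangeG_sound parWF r2 pf3730 h3730
  have h3732 := checkRangeG_sound parWF r2 pf3731 h3731
  have h3733 := checkRangeG_sound parWF r2 pf3732 h3732
  have h3734 := checkRangeG_sound parWF r2 pf3733 h3733
  have h3735 := checkRangeG_sound parWF r2 pf3734 h3734
  have h3736 := checkRangeG_sound parWF r2 pf3735 h3735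
  have h3737 := checkRangeG_sound parWF r2 pf3736 h3736
  have h3738 := checkRangeG_sound parWF r2 pf3737 h3737
  have h3739 := checkRangeG_sound parWF r2 pf3738 h3738
  have h3740 := checkRangeG_sound parWF r2 pf3739 h3739
  have h3741 := checkRangeG_sound parWF r2 pf3740 h3740
  have h3742 := checkRangeG_sound parWF r2 pf3741 h3741
  have h3743 := checkRangeG_sound parWF r2 pf3742 h3742
  have h3744 := checkRangeG_sound parWF r2 pf3743 h3743
  have h3745 := checkRangeG_sound parWF r2 pf3744 h3744
  have h3746 := checkRangeG_sound parWF r2 pf3745 h3745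
  have h3747 := checkRangeG_sound parWF r2 pf3746 h3746
  have h3748 := checkRangeG_sound parWF r2 pf3747 h3747
  have h3749 := checkRangeG_sound parWF r2 pf3748 h3748
  have h3750 := checkRangeG_sound parWF r2 pf3749 h3749
  exact h3750

theorem c75 (h3750 : ∀ j, j < 10816 → GoodG.{u} par (db j)) : ∀ j, j < 10955 → GoodG.{u} par (db j) := by
  have h3751 := checkRangeG_sound parWF r2 pf3750 h3750
  have h3752 := checkRangeG_sound parWF r2 pf3751 h3751
  have h3753 := checkRangeG_sound parWF r2 pf3752 h3752
  have h3754 := checkRangeG_sound parWF r2 pf3753 h3753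
  have h3755 := checkRangeG_sound parWF r2 pf3754 h3754
  have h3756 := checkRangeG_sound parWF r2 pf3755 h3755
  have h3757 := checkRangeG_sound parWF r2 pf3756 h3756
  have h3758 := checkRangeG_sound parWF r2 pf3757 h3757
  have h3759 := checkRangeG_sound parWF r2 pf3758 h3758
  have h3760 := checkRangeG_sound parWF r2 pf3759 h3759
  have h3761 := checkRangeG_sound parWF r2 pf3760 h3760
  have h3762 := checkRangeG_sound parWF r2 pf3761 h3761
  have h3763 := checkRangeG_sound parWF r2 pf3762 h3762
  have h3764 := checkRangeG_sound parWF r2 pf3763 h3763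
  have h3765 := checkRangeG_sound parWF r2 pf3764 h3764
  have h3766 := checkRangeG_sound parWF r2 pf3765 h3765
  have h3767 := checkRangeG_sound parWF r2 pf3766 h3766
  have h3768 := checkRangeG_sound parWF r2 pf3767 h3767
  have h3769 := checkRangeG_sound parWF r2 pf3768 h3768
  have h3770 := checkRangeG_sound parWF r2 pf3769 h3769
  have h3771 := checkRangeG_sound parWF r2 pf3770 h3770
  have h3772 := checkRangeG_sound parWF r2 pf3771 h3771
  have h3773 := checkRangeG_sound parWF r2 pf3772 h3772
  have h3774 := checkRangeG_sound parWF r2 pf3773 h3773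
  have h3775 := checkRangeG_sound parWF r2 pf3774 h3774
  have h3776 := checkRangeG_sound parWF r2 pf3775 h3775
  have h3777 := checkRangeG_sound parWF r2 pf3776 h3776
  have h3778 := checkRangeG_sound parWF r2 pf3777 h3777
  have h3779 := checkRangeG_sound parWF r2 pf3778 h3778
  have h3780 := checkRangeG_sound parWF r2 pf3779 h3779
  have h3781 := checkRangeG_sound parWF r2 pf3780 h3780
  have h3782 := checkRangeG_sound parWF r2 pf3781 h3781
  have h3783 := checkRangeG_sound parWF r2 pf3782 h3782
  have h3784 := checkRangeG_sound parWF r2 pf3783 h3783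
  have h3785 := checkRangeG_sound parWF r2 pf3784 h3784
  have h3786 := checkRangeG_sound parWF r2 pf3785 h3785
  have h3787 := checkRangeG_sound parWF r2 pf3786 h3786
  have h3788 := checkRangeG_sound parWF r2 pf3787 h3787
  have h3789 := checkRangeG_sound parWF r2 pf3788 h3788
  have h3790 := checkRangeG_sound parWF r2 pf3789 h3789
  have h3791 := checkRangeG_sound parWF r2 pf3790 h3790
  have h3792 := checkRangeG_sound parWF r2 pf3791 h3791
  have h3793 := checkRangeG_sound parWF r2 pf3792 h3792
  have h3794 := checkRangeG_sound parWF r2 pf3793 h3793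
  have h3795 := checkRangeG_sound parWF r2 pf3794 h3794
  have h3796 := checkRangeG_sound parWF r2 pf3795 h3795
  have h3797 := checkRangeG_sound parWF r2 pf3796 h3796
  have h3798 := checkRangeG_sound parWF r2 pf3797 h3797
  have h3799 := checkRangeG_sound parWF r2 pf3798 h3798
  have h3800 := checkRangeG_sound parWF r2 pf3799 h3799
  exact h3800

theorem c76 (h3800 : ∀ j, j < 10955 → GoodG.{u} par (db j)) : ∀ j, j < 11077 → GoodG.{u} par (db j) := by
  have h3801 := checkRangeG_sound parWF r2 pf3800 h3800
  have h3802 := checkRangeG_sound parWF r2 pf3801 h3801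
  have h3803 := checkRangeG_sound parWF r2 pf3802 h3802
  have h3804 := checkRangeG_sound parWF r2 pf3803 h3803
  have h3805 := checkRangeG_sound parWF r2 pf3804 h3804
  have h3806 := checkRangeG_sound parWF r2 pf3805 h3805
  have h3807 := checkRangeG_sound parWF r2 pf3806 h3806
  have h3808 := checkRangeG_sound parWF r2 pf3807 h3807
  have h3809 := checkRangeG_sound parWF r2 pf3808 h3808
  have h3810 := checkRangeG_sound parWF r2 pf3809 h3809
  have h3811 := checkRangeG_sound parWF r2 pf3810 h3810
  have h3812 := checkRangeG_sound parWF r2 pf3811 h3811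
  have h3813 := checkRangeG_sound parWF r2 pf3812 h3812
  have h3814 := checkRangeG_sound parWF r2 pf3813 h3813
  have h3815 := checkRangeG_sound parWF r2 pf3814 h3814
  have h3816 := checkRangeG_sound parWF r2 pf3815 h3815
  have h3817 := checkRangeG_sound parWF r2 pf3816 h3816
  have h3818 := checkRangeG_sound parWF r2 pf3817 h3817
  have h3819 := checkRangeG_sound parWF r2 pf3818 h3818
  have h3820 := checkRangeG_sound parWF r2 pf3819 h3819
  have h3821 := checkRangeG_sound parWF r2 pf3820 h3820
  have h3822 := checkRangeG_sound parWF r2 pf3821 h3821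
  have h3823 := checkRangeG_sound parWF r2 pf3822 h3822
  have h3824 := checkRangeG_sound parWF r2 pf3823 h3823
  have h3825 := checkRangeG_sound parWF r2 pf3824 h3824
  have h3826 := checkRangeG_sound parWF r2 pf3825 h3825
  have h3827 := checkRangeG_sound parWF r2 pf3826 h3826
  have h3828 := checkRangeG_sound parWF r2 pf3827 h3827
  have h3829 := checkRangeG_sound parWF r2 pf3828 h3828
  have h3830 := checkRangeG_sound parWF r2 pf3829 h3829
  have h3831 := checkRangeG_sound parWF r2 pf3830 h3830
  have h3832 := checkRangeG_sound parWF r2 pf3831 h3831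
  have h3833 := checkRangeG_sound parWF r2 pf3832 h3832
  have h3834 := checkRangeG_sound parWF r2 pf3833 h3833
  have h3835 := checkRangeG_sound parWF r2 pf3834 h3834
  have h3836 := checkRangeG_sound parWF r2 pf3835 h3835
  have h3837 := checkRangeG_sound parWF r2 pf3836 h3836
  have h3838 := checkRangeG_sound parWF r2 pf3837 h3837
  have h3839 := checkRangeG_sound parWF r2 pf3838 h3838
  have h3840 := checkRangeG_sound parWF r2 pf3839 h3839
  have h3841 := checkRangeG_sound parWF r2 pf3840 h3840
  have h3842 := checkRangeG_sound parWF r2 pf3841 h3841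
  have h3843 := checkRangeG_sound parWF r2 pf3842 h3842
  have h3844 := checkRangeG_sound parWF r2 pf3843 h3843
  have h3845 := checkRangeG_sound parWF r2 pf3844 h3844
  have h3846 := checkRangeG_sound parWF r2 pf3845 h3845
  have h3847 := checkRangeG_sound parWF r2 pf3846 h3846
  have h3848 := checkRangeG_sound parWF r2 pf3847 h3847
  have h3849 := checkRangeG_sound parWF r2 pf3848 h3848
  have h3850 := checkRangeG_sound parWF r2 pf3849 h3849
  exact h3850

theorem c77 (h3850 : ∀ j, j < 11077 → GoodG.{u} par (db j)) : ∀ j, j < 11213 → GoodG.{u} par (db j) := by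
  have h3851 := checkRangeG_sound parWF r2 pf3850 h3850
  have h3852 := checkRangeG_sound parWF r2 pf3851 h3851
  have h3853 := checkRangeG_sound parWF r2 pf3852 h3852
  have h3854 := checkRangeG_sound parWF r2 pf3853 h3853
  have h3855 := checkRangeG_sound parWF r2 pf3854 h3854
  have h3856 := checkRangeG_sound parWF r2 pf3855 h3855
  have h3857 := checkRangeG_sound parWF r2 pf3856 h3856
  have h3858 := checkRangeG_sound parWF r2 pf3857 h3857
  have h3859 := checkRangeG_sound parWF r2 pf3858 h3858
  have h3860 := checkRangeG_sound parWF r2 pf3859 h3859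
  have h3861 := checkRangeG_sound parWF r2 pf3860 h3860
  have h3862 := checkRangeG_sound parWF r2 pf3861 h3861
  have h3863 := checkRangeG_sound parWF r2 pf3862 h3862
  have h3864 := checkRangeG_sound parWF r2 pf3863 h3863
  have h3865 := checkRangeG_sound parWF r2 pf3864 h3864
  have h3866 := checkRangeG_sound parWF r2 pf3865 h3865
  have h3867 := checkRangeG_sound parWF r2 pf3866 h3866
  have h3868 := checkRangeG_sound parWF r2 pf3867 h3867
  have h3869 := checkRangeG_sound parWF r2 pf3868 h3868
  have h3870 := checkRangeG_sound parWF r2 pf3869 h3869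
  have h3871 := checkRangeG_sound parWF r2 pf3870 h3870
  have h3872 := checkRangeG_sound parWF r2 pf3871 h3871
  have h3873 := checkRangeG_sound parWF r2 pf3872 h3872
  have h3874 := checkRangeG_sound parWF r2 pf3873 h3873
  have h3875 := checkRangeG_sound parWF r2 pf3874 h3874
  have h3876 := checkRangeG_sound parWF r2 pf3875 h3875
  have h3877 := checkRangeG_sound parWF r2 pf3876 h3876
  have h3878 := checkRangeG_sound parWF r2 pf3877 h3877
  have h3879 := checkRangeG_sound parWF r2 pf3878 h3878
  have h3880 := checkRangeG_sound parWF r2 pf3879 h3879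
  have h3881 := checkRangeG_sound parWF r2 pf3880 h3880
  have h3882 := checkRangeG_sound parWF r2 pf3881 h3881
  have h3883 := checkRangeG_sound parWF r2 pf3882 h3882
  have h3884 := checkRangeG_sound parWF r2 pf3883 h3883
  have h3885 := checkRangeG_sound parWF r2 pf3884 h3884
  have h3886 := checkRangeG_sound parWF r2 pf3885 h3885
  have h3887 := checkRangeG_sound parWF r2 pf3886 h3886
  have h3888 := checkRangeG_sound parWF r2 pf3887 h3887
  have h3889 := checkRangeG_sound parWF r2 pf3888 h3888
  have h3890 := checkRangeG_sound parWF r2 pf3889 h3889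
  have h3891 := checkRangeG_sound parWF r2 pf3890 h3890
  have h3892 := checkRangeG_sound parWF r2 pf3891 h3891
  have h3893 := checkRangeG_sound parWF r2 pf3892 h3892
  have h3894 := checkRangeG_sound parWF r2 pf3893 h3893
  have h3895 := checkRangeG_sound parWF r2 pf3894 h3894
  have h3896 := checkRangeG_sound parWF r2 pf3895 h3895
  have h3897 := checkRangeG_sound parWF r2 pf3896 h3896
  have h3898 := checkRangeG_sound parWF r2 pf3897 h3897
  have h3899 := checkRangeG_sound parWF r2 pf3898 h3898
  have h3900 := checkRangeG_sound parWF r2 pf3899 h3899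
  exact h3900

theorem c78 (h3900 : ∀ j, j < 11213 → GoodG.{u} par (db j)) : ∀ j, j < 11360 → GoodG.{u} par (db j) := by
  have h3901 := checkRangeG_sound parWF r2 pf3900 h3900
  have h3902 := checkRangeG_sound parWF r2 pf3901 h3901
  have h3903 := checkRangeG_sound parWF r2 pf3902 h3902
  have h3904 := checkRangeG_sound parWF r2 pf3903 h3903
  have h3905 := checkRangeG_sound parWF r2 pf3904 h3904
  have h3906 := checkRangeG_sound parWF r2 pf3905 h3905
  have h3907 := checkRangeG_sound parWF r2 pf3906 h3906
  have h3908 := checkRangeG_sound parWF r2 pf3907 h3907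
  have h3909 := checkRangeG_sound parWF r2 pf3908 h3908
  have h3910 := checkRangeG_sound parWF r2 pf3909 h3909
  have h3911 := checkRangeG_sound parWF r2 pf3910 h3910
  have h3912 := checkRangeG_sound parWF r2 pf3911 h3911
  have h3913 := checkRangeG_sound parWF r2 pf3912 h3912
  have h3914 := checkRangeG_sound parWF r2 pf3913 h3913
  have h3915 := checkRangeG_sound parWF r2 pf3914 h3914
  have h3916 := checkRangeG_sound parWF r2 pf3915 h3915
  have h3917 := checkRangeG_sound parWF r2 pf3916 h3916
  have h3918 := checkRangeG_sound parWF r2 pf3917 h3917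
  have h3919 := checkRangeG_sound parWF r2 pf3918 h3918
  have h3920 := checkRangeG_sound parWF r2 pf3919 h3919
  have h3921 := checkRangeG_sound parWF r2 pf3920 h3920
  have h3922 := checkRangeG_sound parWF r2 pf3921 h3921
  have h3923 := checkRangeG_sound parWF r2 pf3922 h3922
  have h3924 := checkRangeG_sound parWF r2 pf3923 h3923
  have h3925 := checkRangeG_sound parWF r2 pf3924 h3924
  have h3926 := checkRangeG_sound parWF r2 pf3925 h3925
  have h3927 := checkRangeG_sound parWF r2 pf3926 h3926
  have h3928 := checkRangeG_sound parWF r2 pf3927 h3927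
  have h3929 := checkRangeG_sound parWF r2 pf3928 h3928
  have h3930 := checkRangeG_sound parWF r2 pf3929 h3929
  have h3931 := checkRangeG_sound parWF r2 pf3930 h3930
  have h3932 := checkRangeG_sound parWF r2 pf3931 h3931
  have h3933 := checkRangeG_sound parWF r2 pf3932 h3932
  have h3934 := checkRangeG_sound parWF r2 pf3933 h3933
  have h3935 := checkRangeG_sound parWF r2 pf3934 h3934
  have h3936 := checkRangeG_sound parWF r2 pf3935 h3935
  have h3937 := checkRangeG_sound parWF r2 pf3936 h3936
  have h3938 := checkRangeG_sound parWF r2 pf3937 h3937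
  have h3939 := checkRangeG_sound parWF r2 pf3938 h3938
  have h3940 := checkRangeG_sound parWF r2 pf3939 h3939
  have h3941 := checkRangeG_sound parWF r2 pf3940 h3940
  have h3942 := checkRangeG_sound parWF r2 pf3941 h3941
  have h3943 := checkRangeG_sound parWF r2 pf3942 h3942
  have h3944 := checkRangeG_sound parWF r2 pf3943 h3943
  have h3945 := checkRangeG_sound parWF r2 pf3944 h3944
  have h3946 := checkRangeG_sound parWF r2 pf3945 h3945
  have h3947 := checkRangeG_sound parWF r2 pf3946 h3946
  have h3948 := checkRangeG_sound parWF r2 pf3947 h3947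
  have h3949 := checkRangeG_sound parWF r2 pf3948 h3948
  have h3950 := checkRangeG_sound parWF r2 pf3949 h3949
  exact h3950

theorem c79 (h3950 : ∀ j, j < 11360 → GoodG.{u} par (db j)) : ∀ j, j < 11507 → GoodG.{u} par (db j) := by
  have h3951 := checkRangeG_sound parWF r2 pf3950 h3950
  have h3952 := checkRangeG_sound parWF r2 pf3951 h3951
  have h3953 := checkRangeG_sound parWF r2 pf3952 h3952
  have h3954 := checkRangeG_sound parWF r2 pf3953 h3953
  have h3955 := checkRangeG_sound parWF r2 pf3954 h3954
  have h3956 := checkRangeG_sound parWF r2 pf3955 h3955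
  have h3957 := checkRangeG_sound parWF r2 pf3956 h3956
  have h3958 := checkRangeG_sound parWF r2 pf3957 h3957
  have h3959 := checkRangeG_sound parWF r2 pf3958 h3958
  have h3960 := checkRangeG_sound parWF r2 pf3959 h3959
  have h3961 := checkRangeG_sound parWF r2 pf3960 h3960
  have h3962 := checkRangeG_sound parWF r2 pf3961 h3961
  have h3963 := checkRangeG_sound parWF r2 pf3962 h3962
  have h3964 := checkRangeG_sound parWF r2 pf3963 h3963
  have h3965 := checkRangeG_sound parWF r2 pf3964 h3964
  have h3966 := checkRangeG_sound parWF r2 pf3965 h3965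
  have h3967 := checkRangeG_sound parWF r2 pf3966 h3966
  have h3968 := checkRangeG_sound parWF r2 pf3967 h3967
  have h3969 := checkRangeG_sound parWF r2 pf3968 h3968
  have h3970 := checkRangeG_sound parWF r2 pf3969 h3969
  have h3971 := checkRangeG_sound parWF r2 pf3970 h3970
  have h3972 := checkRangeG_sound parWF r2 pf3971 h3971
  have h3973 := checkRangeG_sound parWF r2 pf3972 h3972
  have h3974 := checkRangeG_sound parWF r2 pf3973 h3973
  have h3975 := checkRangeG_sound parWF r2 pf3974 h3974
  have h3976 := checkRangeG_sound parWF r2 pf3975 h3975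
  have h3977 := checkRangeG_sound parWF r2 pf3976 h3976
  have h3978 := checkRangeG_sound parWF r2 pf3977 h3977
  have h3979 := checkRangeG_sound parWF r2 pf3978 h3978
  have h3980 := checkRangeG_sound parWF r2 pf3979 h3979
  have h3981 := checkRangeG_sound parWF r2 pf3980 h3980
  have h3982 := checkRangeG_sound parWF r2 pf3981 h3981
  have h3983 := checkRangeG_sound parWF r2 pf3982 h3982
  have h3984 := checkRangeG_sound parWF r2 pf3983 h3983
  have h3985 := checkRangeG_sound parWF r2 pf3984 h3984
  have h3986 := checkRangeG_sound parWF r2 pf3985 h3985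
  have h3987 := checkRangeG_sound parWF r2 pf3986 h3986
  have h3988 := checkRangeG_sound parWF r2 pf3987 h3987
  have h3989 := checkRangeG_sound parWF r2 pf3988 h3988
  have h3990 := checkRangeG_sound parWF r2 pf3989 h3989
  have h3991 := checkRangeG_sound parWF r2 pf3990 h3990
  have h3992 := checkRangeG_sound parWF r2 pf3991 h3991
  have h3993 := checkRangeG_sound parWF r2 pf3992 h3992
  have h3994 := checkRangeG_sound parWF r2 pf3993 h3993
  have h3995 := checkRangeG_sound parWF r2 pf3994 h3994
  have h3996 := checkRangeG_sound parWF r2 pf3995 h3995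
  have h3997 := checkRangeG_sound parWF r2 pf3996 h3996
  have h3998 := checkRangeG_sound parWF r2 pf3997 h3997
  have h3999 := checkRangeG_sound parWF r2 pf3998 h3998
  have h4000 := checkRangeG_sound parWF r2 pf3999 h3999
  exact h4000

theorem c80 (h4000 : ∀ j, j < 11507 → GoodG.{u} par (db j)) : ∀ j, j < 11663 → GoodG.{u} par (db j) := by
  have h4001 := checkRangeG_sound parWF r2 pf4000 h4000
  have h4002 := checkRangeG_sound parWF r2 pf4001 h4001
  have h4003 := checkRangeG_sound parWF r2 pf4002 h4002
  have h4004 := checkRangeG_sound parWF r2 pf4003 h4003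
  have h4005 := checkRangeG_sound parWF r2 pf4004 h4004
  have h4006 := checkRangeG_sound parWF r2 pf4005 h4005
  have h4007 := checkRangeG_sound parWF r2 pf4006 h4006
  have h4008 := checkRangeG_sound parWF r2 pf4007 h4007
  have h4009 := checkRangeG_sound parWF r2 pf4008 h4008
  have h4010 := checkRangeG_sound parWF r2 pf4009 h4009
  have h4011 := checkRangeG_sound parWF r2 pf4010 h4010
  have h4012 := checkRangeG_sound parWF r2 pf4011 h4011
  have h4013 := checkRangeG_sound parWF r2 pf4012 h4012
  have h4014 := checkRangeG_sound parWF r2 pf4013 h4013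
  have h4015 := checkRangeG_sound parWF r2 pf4014 h4014
  have h4016 := checkRangeG_sound parWF r2 pf4015 h4015
  have h4017 := checkRangeG_sound parWF r2 pf4016 h4016
  have h4018 := checkRangeG_sound parWF r2 pf4017 h4017
  have h4019 := checkRangeG_sound parWF r2 pf4018 h4018
  have h4020 := checkRangeG_sound parWF r2 pf4019 h4019
  have h4021 := checkRangeG_sound parWF r2 pf4020 h4020
  have h4022 := checkRangeG_sound parWF r2 pf4021 h4021
  have h4023 := checkRangeG_sound parWF r2 pf4022 h4022
  have h4024 := checkRangeG_sound parWF r2 pf4023 h4023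
  have h4025 := checkRangeG_sound parWF r2 pf4024 h4024
  have h4026 := checkRangeG_sound parWF r2 pf4025 h4025
  have h4027 := checkRangeG_sound parWF r2 pf4026 h4026
  have h4028 := checkRangeG_sound parWF r2 pf4027 h4027
  have h4029 := checkRangeG_sound parWF r2 pf4028 h4028
  have h4030 := checkRangeG_sound parWF r2 pf4029 h4029
  have h4031 := checkRangeG_sound parWF r2 pf4030 h4030
  have h4032 := checkRangeG_sound parWF r2 pf4031 h4031
  have h4033 := checkRangeG_sound parWF r2 pf4032 h4032
  have h4034 := checkRangeG_sound parWF r2 pf4033 h4033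
  have h4035 := checkRangeG_sound parWF r2 pf4034 h4034
  have h4036 := checkRangeG_sound parWF r2 pf4035 h4035
  have h4037 := checkRangeG_sound parWF r2 pf4036 h4036
  have h4038 := checkRangeG_sound parWF r2 pf4037 h4037
  have h4039 := checkRangeG_sound parWF r2 pf4038 h4038
  have h4040 := checkRangeG_sound parWF r2 pf4039 h4039
  have h4041 := checkRangeG_sound parWF r2 pf4040 h4040
  have h4042 := checkRangeG_sound parWF r2 pf4041 h4041
  have h4043 := checkRangeG_sound parWF r2 pf4042 h4042
  have h4044 := checkRangeG_sound parWF r2 pf4043 h4043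
  have h4045 := checkRangeG_sound parWF r2 pf4044 h4044
  have h4046 := checkRangeG_sound parWF r2 pf4045 h4045
  have h4047 := checkRangeG_sound parWF r2 pf4046 h4046
  have h4048 := checkRangeG_sound parWF r2 pf4047 h4047
  have h4049 := checkRangeG_sound parWF r2 pf4048 h4048
  have h4050 := checkRangeG_sound parWF r2 pf4049 h4049
  exact h4050

theorem c81 (h4050 : ∀ j, j < 11663 → GoodG.{u} par (db j)) : ∀ j, j < 11818 → GoodG.{u} par (db j) := by
  have h4051 := checkRangeG_sound parWF r2 pf4050 h4050
  have h4052 := checkRangeG_sound parWF r2 pf4051 h4051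
  have h4053 := checkRangeG_sound parWF r2 pf4052 h4052
  have h4054 := checkRangeG_sound parWF r2 pf4053 h4053
  have h4055 := checkRangeG_sound parWF r2 pf4054 h4054
  have h4056 := checkRangeG_sound parWF r2 pf4055 h4055
  have h4057 := checkRangeG_sound parWF r2 pf4056 h4056
  have h4058 := checkRangeG_sound parWF r2 pf4057 h4057
  have h4059 := checkRangeG_sound parWF r2 pf4058 h4058
  have h4060 := checkRangeG_sound parWF r2 pf4059 h4059
  have h4061 := checkRangeG_sound parWF r2 pf4060 h4060
  have h4062 := checkRangeG_sound parWF r2 pf4061 h4061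
  have h4063 := checkRangeG_sound parWF r2 pf4062 h4062
  have h4064 := checkRangeG_sound parWF r2 pf4063 h4063
  have h4065 := checkRangeG_sound parWF r2 pf4064 h4064
  have h4066 := checkRangeG_sound parWF r2 pf4065 h4065
  have h4067 := checkRangeG_sound parWF r2 pf4066 h4066
  have h4068 := checkRangeG_sound parWF r2 pf4067 h4067
  have h4069 := checkRangeG_sound parWF r2 pf4068 h4068
  have h4070 := checkRangeG_sound parWF r2 pf4069 h4069
  have h4071 := checkRangeG_sound parWF r2 pf4070 h4070
  have h4072 := checkRangeG_sound parWF r2 pf4071 h4071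
  have h4073 := checkRangeG_sound parWF r2 pf4072 h4072
  have h4074 := checkRangeG_sound parWF r2 pf4073 h4073
  have h4075 := checkRangeG_sound parWF r2 pf4074 h4074
  have h4076 := checkRangeG_sound parWF r2 pf4075 h4075
  have h4077 := checkRangeG_sound parWF r2 pf4076 h4076
  have h4078 := checkRangeG_sound parWF r2 pf4077 h4077
  have h4079 := checkRangeG_sound parWF r2 pf4078 h4078
  have h4080 := checkRangeG_sound parWF r2 pf4079 h4079
  have h4081 := checkRangeG_sound parWF r2 pf4080 h4080
  have h4082 := checkRangeG_sound parWF r2 pf4081 h4081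
  have h4083 := checkRangeG_sound parWF r2 pf4082 h4082
  have h4084 := checkRangeG_sound parWF r2 pf4083 h4083
  have h4085 := checkRangeG_sound parWF r2 pf4084 h4084
  have h4086 := checkRangeG_sound parWF r2 pf4085 h4085
  have h4087 := checkRangeG_sound parWF r2 pf4086 h4086
  have h4088 := checkRangeG_sound parWF r2 pf4087 h4087
  have h4089 := checkRangeG_sound parWF r2 pf4088 h4088
  have h4090 := checkRangeG_sound parWF r2 pf4089 h4089
  have h4091 := checkRangeG_sound parWF r2 pf4090 h4090
  have h4092 := checkRangeG_sound parWF r2 pf4091 h4091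
  have h4093 := checkRangeG_sound parWF r2 pf4092 h4092
  have h4094 := checkRangeG_sound parWF r2 pf4093 h4093
  have h4095 := checkRangeG_sound parWF r2 pf4094 h4094
  have h4096 := checkRangeG_sound parWF r2 pf4095 h4095
  have h4097 := checkRangeG_sound parWF r2 pf4096 h4096
  have h4098 := checkRangeG_sound parWF r2 pf4097 h4097
  have h4099 := checkRangeG_sound parWF r2 pf4098 h4098
  have h4100 := checkRangeG_sound parWF r2 pf4099 h4099
  exact h4100

theorem c82 (h4100 : ∀ j, j < 11818 → GoodG.{u} par (db j)) : ∀ j, j < 11975 → GoodG.{u} par (db j) := by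
  have h4101 := checkRangeG_sound parWF r2 pf4100 h4100
  have h4102 := checkRangeG_sound parWF r2 pf4101 h4101
  have h4103 := checkRangeG_sound parWF r2 pf4102 h4102
  have h4104 := checkRangeG_sound parWF r2 pf4103 h4103
  have h4105 := checkRangeG_sound parWF r2 pf4104 h4104
  have h4106 := checkRangeG_sound parWF r2 pf4105 h4105
  have h4107 := checkRangeG_sound parWF r2 pf4106 h4106
  have h4108 := checkRangeG_sound parWF r2 pf4107 h4107
  have h4109 := checkRangeG_sound parWF r2 pf4108 h4108
  have h4110 := checkRangeG_sound parWF r2 pf4109 h4109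
  have h4111 := checkRangeG_sound parWF r2 pf4110 h4110
  have h4112 := checkRangeG_sound parWF r2 pf4111 h4111
  have h4113 := checkRangeG_sound parWF r2 pf4112 h4112
  have h4114 := checkRangeG_sound parWF r2 pf4113 h4113
  have h4115 := checkRangeG_sound parWF r2 pf4114 h4114
  have h4116 := checkRangeG_sound parWF r2 pf4115 h4115
  have h4117 := checkRangeG_sound parWF r2 pf4116 h4116
  have h4118 := checkRangeG_sound parWF r2 pf4117 h4117
  have h4119 := checkRangeG_sound parWF r2 pf4118 h4118
  have h4120 := checkRangeG_sound parWF r2 pf4119 h4119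
  have h4121 := checkRangeG_sound parWF r2 pf4120 h4120
  have h4122 := checkRangeG_sound parWF r2 pf4121 h4121
  have h4123 := checkRangeG_sound parWF r2 pf4122 h4122
  have h4124 := checkRangeG_sound parWF r2 pf4123 h4123
  have h4125 := checkRangeG_sound parWF r2 pf4124 h4124
  have h4126 := checkRangeG_sound parWF r2 pf4125 h4125
  have h4127 := checkRangeG_sound parWF r2 pf4126 h4126
  have h4128 := checkRangeG_sound parWF r2 pf4127 h4127
  have h4129 := checkRangeG_sound parWF r2 pf4128 h4128
  have h4130 := checkRangeG_sound parWF r2 pf4129 h4129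
  have h4131 := checkRangeG_sound parWF r2 pf4130 h4130
  have h4132 := checkRangeG_sound parWF r2 pf4131 h4131
  have h4133 := checkRangeG_sound parWF r2 pf4132 h4132
  have h4134 := checkRangeG_sound parWF r2 pf4133 h4133
  have h4135 := checkRangeG_sound parWF r2 pf4134 h4134
  have h4136 := checkRangeG_sound parWF r2 pf4135 h4135
  have h4137 := checkRangeG_sound parWF r2 pf4136 h4136
  have h4138 := checkRangeG_sound parWF r2 pf4137 h4137
  have h4139 := checkRangeG_sound parWF r2 pf4138 h4138
  have h4140 := checkRangeG_sound parWF r2 pf4139 h4139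
  have h4141 := checkRangeG_sound parWF r2 pf4140 h4140
  have h4142 := checkRangeG_sound parWF r2 pf4141 h4141
  have h4143 := checkRangeG_sound parWF r2 pf4142 h4142
  have h4144 := checkRangeG_sound parWF r2 pf4143 h4143
  have h4145 := checkRangeG_sound parWF r2 pf4144 h4144
  have h4146 := checkRangeG_sound parWF r2 pf4145 h4145
  have h4147 := checkRangeG_sound parWF r2 pf4146 h4146
  have h4148 := checkRangeG_sound parWF r2 pf4147 h4147
  have h4149 := checkRangeG_sound parWF r2 pf4148 h4148
  have h4150 := checkRangeG_sound parWF r2 pf4149 h4149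
  exact h4150

theorem c83 (h4150 : ∀ j, j < 11975 → GoodG.{u} par (db j)) : ∀ j, j < 12134 → GoodG.{u} par (db j) := by
  have h4151 := checkRangeG_sound parWF r2 pf4150 h4150
  have h4152 := checkRangeG_sound parWF r2 pf4151 h4151
  have h4153 := checkRangeG_sound parWF r2 pf4152 h4152
  have h4154 := checkRangeG_sound parWF r2 pf4153 h4153
  have h4155 := checkRangeG_sound parWF r2 pf4154 h4154
  have h4156 := checkRangeG_sound parWF r2 pf4155 h4155
  have h4157 := checkRangeG_sound parWF r2 pf4156 h4156
  have h4158 := checkRangeG_sound parWF r2 pf4157 h4157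
  have h4159 := checkRangeG_sound parWF r2 pf4158 h4158
  have h4160 := checkRangeG_sound parWF r2 pf4159 h4159
  have h4161 := checkRangeG_sound parWF r2 pf4160 h4160
  have h4162 := checkRangeG_sound parWF r2 pf4161 h4161
  have h4163 := checkRangeG_sound parWF r2 pf4162 h4162
  have h4164 := checkRangeG_sound parWF r2 pf4163 h4163
  have h4165 := checkRangeG_sound parWF r2 pf4164 h4164
  have h4166 := checkRangeG_sound parWF r2 pf4165 h4165
  have h4167 := checkRangeG_sound parWF r2 pf4166 h4166
  have h4168 := checkRangeG_sound parWF r2 pf4167 h4167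
  have h4169 := checkRangeG_sound parWF r2 pf4168 h4168
  have h4170 := checkRangeG_sound parWF r2 pf4169 h4169
  have h4171 := checkRangeG_sound parWF r2 pf4170 h4170
  have h4172 := checkRangeG_sound parWF r2 pf4171 h4171
  have h4173 := checkRangeG_sound parWF r2 pf4172 h4172
  have h4174 := checkRangeG_sound parWF r2 pf4173 h4173
  have h4175 := checkRangeG_sound parWF r2 pf4174 h4174
  have h4176 := checkRangeG_sound parWF r2 pf4175 h4175
  have h4177 := checkRangeG_sound parWF r2 pf4176 h4176
  have h4178 := checkRangeG_sound parWF r2 pf4177 h4177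
  have h4179 := checkRangeG_sound parWF r2 pf4178 h4178
  have h4180 := checkRangeG_sound parWF r2 pf4179 h4179
  have h4181 := checkRangeG_sound parWF r2 pf4180 h4180
  have h4182 := checkRangeG_sound parWF r2 pf4181 h4181
  have h4183 := checkRangeG_sound parWF r2 pf4182 h4182
  have h4184 := checkRangeG_sound parWF r2 pf4183 h4183
  have h4185 := checkRangeG_sound parWF r2 pf4184 h4184
  have h4186 := checkRangeG_sound parWF r2 pf4185 h4185
  have h4187 := checkRangeG_sound parWF r2 pf4186 h4186
  have h4188 := checkRangeG_sound parWF r2 pf4187 h4187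
  have h4189 := checkRangeG_sound parWF r2 pf4188 h4188
  have h4190 := checkRangeG_sound parWF r2 pf4189 h4189
  have h4191 := checkRangeG_sound parWF r2 pf4190 h4190
  have h4192 := checkRangeG_sound parWF r2 pf4191 h4191
  have h4193 := checkRangeG_sound parWF r2 pf4192 h4192
  have h4194 := checkRangeG_sound parWF r2 pf4193 h4193
  have h4195 := checkRangeG_sound parWF r2 pf4194 h4194
  have h4196 := checkRangeG_sound parWF r2 pf4195 h4195
  have h4197 := checkRangeG_sound parWF r2 pf4196 h4196
  have h4198 := checkRangeG_sound parWF r2 pf4197 h4197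
  have h4199 := checkRangeG_sound parWF r2 pf4198 h4198
  have h4200 := checkRangeG_sound parWF r2 pf4199 h4199
  exact h4200


end Vale.Agent.P045g.C61
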