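import Vale.Agent.P045g.C61.WF
import Vale.Agent.P045g.C61.Pf600
import Vale.Agent.P045g.C61.Pf601
import Vale.Agent.P045g.C61.Pf602
import Vale.Agent.P045g.C61.Pf603
import Vale.Agent.P045g.C61.Pf604
import Vale.Agent.P045g.C61.Pf605
import Vale.Agent.P045g.C61.Pf606
import Vale.Agent.P045g.C61.Pf607
import Vale.Agent.P045g.C61.Pf608
import Vale.Agent.P045g.C61.Pf609

namespace Vale.Agent.P045g.C61

open Vale.Agent.P045b Vale.Agent.P045g

universe u

theorem c720 (h36000 : ∀ j, j < 120706 → GoodG.{u} par (db j)) : ∀ j, j < 120867 → GoodG.{u} par (db j) := by
  have h36001 := checkRangeG_sound parWF r2 pf36000 h36000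
  have h36002 := checkRangeG_sound parWF r2 pf36001 h36001
  have h36003 := checkRangeG_sound parWF r2 pf36002 h36002
  have h36004 := checkRangeG_sound parWF r2 pf36003 h36003
  have h36005 := checkRangeG_sound parWF r2 pf36004 h36004
  have h36006 := checkRangeG_sound parWF r2 pf36005 h36005
  have h36007 := checkRangeG_sound parWF r2 pf36006 h36006
  have h36008 := checkRangeG_sound parWF r2 pf36007 h36007
  have h36009 := checkRangeG_sound parWF r2 pf36008 h36008
  have h36010 := checkRangeG_sound parWF r2 pf36009 h36009
  have h36011 := checkRangeG_sound parWF r2 pf36010 h36010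
  have h36012 := checkRangeG_sound parWF r2 pf36011 h36011
  have h36013 := checkRangeG_sound parWF r2 pf36012 h36012
  have h36014 := checkRangeG_sound parWF r2 pf36013 h36013
  have h36015 := checkRangeG_sound parWF r2 pf36014 h36014
  have h36016 := checkRangeG_sound parWF r2 pf36015 h36015
  have h36017 := checkRangeG_sound parWF r2 pf36016 h36016
  have h36018 := checkRangeG_sound parWF r2 pf36017 h36017
  have h36019 := checkRangeG_sound parWF r2 pf36018 h36018
  have h36020 := checkRangeG_sound parWF r2 pf36019 h36019
  have h36021 := checkRangeG_sound parWF r2 pf36020 h36020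
  have h36022 := checkRangeG_sound parWF r2 pf36021 h36021
  have h36023 := checkRangeG_sound parWF r2 pf36022 h36022
  have h36024 := checkRangeG_sound parWF r2 pf36023 h36023
  have h36025 := checkRangeG_sound parWF r2 pf36024 h36024
  have h36026 := checkRangeG_sound parWF r2 pf36025 h36025
  have h36027 := checkRangeG_sound parWF r2 pf36026 h36026
  have h36028 := checkRangeG_sound parWF r2 pf36027 h36027
  have h36029 := checkRangeG_sound parWF r2 pf36028 h36028
  have h36030 := checkRangeG_sound parWF r2 pf36029 h36029
  have h36031 := checkRangeG_sound parWF r2 pf36030 h36030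
  have h36032 := checkRangeG_sound parWF r2 pf36031 h36031
  have h36033 := checkRangeG_sound parWF r2 pf36032 h36032
  have h36034 := checkRangeG_sound parWF r2 pf36033 h36033
  have h36035 := checkRangeG_sound parWF r2 pf36034 h36034
  have h36036 := checkRangeG_sound parWF r2 pf36035 h36035
  have h36037 := checkRangeG_sound parWF r2 pf36036 h36036
  have h36038 := checkRangeG_sound parWF r2 pf36037 h36037
  have h36039 := checkRangeG_sound parWF r2 pf36038 h36038
  have h36040 := checkRangeG_sound parWF r2 pf36039 h36039
  have h36041 := checkRangeG_sound parWF r2 pf36040 h36040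
  have h36042 := checkRangeG_sound parWF r2 pf36041 h36041
  have h36043 := checkRangeG_sound parWF r2 pf36042 h36042
  have h36044 := checkRangeG_sound parWF r2 pf36043 h36043
  have h36045 := checkRangeG_sound parWF r2 pf36044 h36044
  have h36046 := checkRangeG_sound parWF r2 pf36045 h36045
  have h36047 := checkRangeG_sound parWF r2 pf36046 h36046
  have h36048 := checkRangeG_sound parWF r2 pf36047 h36047
  have h36049 := checkRangeG_sound parWF r2 pf36048 h36048
  have h36050 := checkRangeG_sound parWF r2 pf36049 h36049
  exact h36050

theorem c721 (h36050 : ∀ j, j < 120867 → GoodG.{u} par (db j)) : ∀ j, j < 121036 → GoodG.{u} par (db j) := by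
  have h36051 := checkRangeG_sound parWF r2 pf36050 h36050
  have h36052 := checkRangeG_sound parWF r2 pf36051 h36051
  have h36053 := checkRangeG_sound parWF r2 pf36052 h36052
  have h36054 := checkRangeG_sound parWF r2 pf36053 h36053
  have h36055 := checkRangeG_sound parWF r2 pf36054 h36054
  have h36056 := checkRangeG_sound parWF r2 pf36055 h36055
  have h36057 := checkRangeG_sound parWF r2 pf36056 h36056
  have h36058 := checkRangeG_sound parWF r2 pf36057 h36057
  have h36059 := checkRangeG_sound parWF r2 pf36058 h36058
  have h36060 := checkRangeG_sound parWF r2 pf36059 h36059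
  have h36061 := checkRangeG_sound parWF r2 pf36060 h36060
  have h36062 := checkRangeG_sound parWF r2 pf36061 h36061
  have h36063 := checkRangeG_sound parWF r2 pf36062 h36062
  have h36064 := checkRangeG_sound parWF r2 pf36063 h36063
  have h36065 := checkRangeG_sound parWF r2 pf36064 h36064
  have h36066 := checkRangeG_sound parWF r2 pf36065 h36065
  have h36067 := checkRangeG_sound parWF r2 pf36066 h36066
  have h36068 := checkRangeG_sound parWF r2 pf36067 h36067
  have h36069 := checkRangeG_sound parWF r2 pf36068 h36068
  have h36070 := checkRangeG_sound parWF r2 pf36069 h36069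
  have h36071 := checkRangeG_sound parWF r2 pf36070 h36070
  have h36072 := checkRangeG_sound parWF r2 pf36071 h36071
  have h36073 := checkRangeG_sound parWF r2 pf36072 h36072
  have h36074 := checkRangeG_sound parWF r2 pf36073 h36073
  have h36075 := checkRangeG_sound parWF r2 pf36074 h36074
  have h36076 := checkRangeG_sound parWF r2 pf36075 h36075
  have h36077 := checkRangeG_sound parWF r2 pf36076 h36076
  have h36078 := checkRangeG_sound parWF r2 pf36077 h36077
  have h36079 := checkRangeG_sound parWF r2 pf36078 h36078
  have h36080 := checkRangeG_sound parWF r2 pf36079 h36079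
  have h36081 := checkRangeG_sound parWF r2 pf36080 h36080
  have h36082 := checkRangeG_sound parWF r2 pf36081 h36081
  have h36083 := checkRangeG_sound parWF r2 pf36082 h36082
  have h36084 := checkRangeG_sound parWF r2 pf36083 h36083
  have h36085 := checkRangeG_sound parWF r2 pf36084 h36084
  have h36086 := checkRangeG_sound parWF r2 pf36085 h36085
  have h36087 := checkRangeG_sound parWF r2 pf36086 h36086
  have h36088 := checkRangeG_sound parWF r2 pf36087 h36087
  have h36089 := checkRangeG_sound parWF r2 pf36088 h36088
  have h36090 := checkRangeG_sound parWF r2 pf36089 h36089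
  have h36091 := checkRangeG_sound parWF r2 pf36090 h36090
  have h36092 := checkRangeG_sound parWF r2 pf36091 h36091
  have h36093 := checkRangeG_sound parWF r2 pf36092 h36092
  have h36094 := checkRangeG_sound parWF r2 pf36093 h36093
  have h36095 := checkRangeG_sound parWF r2 pf36094 h36094
  have h36096 := checkRangeG_sound parWF r2 pf36095 h36095
  have h36097 := checkRangeG_sound parWF r2 pf36096 h36096
  have h36098 := checkRangeG_sound parWF r2 pf36097 h36097
  have h36099 := checkRangeG_sound parWF r2 pf36098 h36098
  have h36100 := checkRangeG_sound parWF r2 pf36099 h36099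
  exact h36100

theorem c722 (h36100 : ∀ j, j < 121036 → GoodG.{u} par (db j)) : ∀ j, j < 121191 → GoodG.{u} par (db j) := by
  have h36101 := checkRangeG_sound parWF r2 pf36100 h36100
  have h36102 := checkRangeG_sound parWF r2 pf36101 h36101
  have h36103 := checkRangeG_sound parWF r2 pf36102 h36102
  have h36104 := checkRangeG_sound parWF r2 pf36103 h36103
  have h36105 := checkRangeG_sound parWF r2 pf36104 h36104
  have h36106 := checkRangeG_sound parWF r2 pf36105 h36105
  have h36107 := checkRangeG_sound parWF r2 pf36106 h36106
  have h36108 := checkRangeG_sound parWF r2 pf36107 h36107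
  have h36109 := checkRangeG_sound parWF r2 pf36108 h36108
  have h36110 := checkRangeG_sound parWF r2 pf36109 h36109
  have h36111 := checkRangeG_sound parWF r2 pf36110 h36110
  have h36112 := checkRangeG_sound parWF r2 pf36111 h36111
  have h36113 := checkRangeG_sound parWF r2 pf36112 h36112
  have h36114 := checkRangeG_sound parWF r2 pf36113 h36113
  have h36115 := checkRangeG_sound parWF r2 pf36114 h36114
  have h36116 := checkRangeG_sound parWF r2 pf36115 h36115
  have h36117 := checkRangeG_sound parWF r2 pf36116 h36116
  have h36118 := checkRangeG_sound parWF r2 pf36117 h36117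
  have h36119 := checkRangeG_sound parWF r2 pf36118 h36118
  have h36120 := checkRangeG_sound parWF r2 pf36119 h36119
  have h36121 := checkRangeG_sound parWF r2 pf36120 h36120
  have h36122 := checkRangeG_sound parWF r2 pf36121 h36121
  have h36123 := checkRangeG_sound parWF r2 pf36122 h36122
  have h36124 := checkRangeG_sound parWF r2 pf36123 h36123
  have h36125 := checkRangeG_sound parWF r2 pf36124 h36124
  have h36126 := checkRangeG_sound parWF r2 pf36125 h36125
  have h36127 := checkRangeG_sound parWF r2 pf36126 h36126
  have h36128 := checkRangeG_sound parWF r2 pf36127 h36127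
  have h36129 := checkRangeG_sound parWF r2 pf36128 h36128
  have h36130 := checkRangeG_sound parWF r2 pf36129 h36129
  have h36131 := checkRangeG_sound parWF r2 pf36130 h36130
  have h36132 := checkRangeG_sound parWF r2 pf36131 h36131
  have h36133 := checkRangeG_sound parWF r2 pf36132 h36132
  have h36134 := checkRangeG_sound parWF r2 pf36133 h36133
  have h36135 := checkRangeG_sound parWF r2 pf36134 h36134
  have h36136 := checkRangeG_sound parWF r2 pf36135 h36135
  have h36137 := checkRangeG_sound parWF r2 pf36136 h36136
  have h36138 := checkRangeG_sound parWF r2 pf36137 h36137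
  have h36139 := checkRangeG_sound parWF r2 pf36138 h36138
  have h36140 := checkRangeG_sound parWF r2 pf36139 h36139
  have h36141 := checkRangeG_sound parWF r2 pf36140 h36140
  have h36142 := checkRangeG_sound parWF r2 pf36141 h36141
  have h36143 := checkRangeG_sound parWF r2 pf36142 h36142
  have h36144 := checkRangeG_sound parWF r2 pf36143 h36143
  have h36145 := checkRangeG_sound parWF r2 pf36144 h36144
  have h36146 := checkRangeG_sound parWF r2 pf36145 h36145
  have h36147 := checkRangeG_sound parWF r2 pf36146 h36146
  have h36148 := checkRangeG_sound parWF r2 pf36147 h36147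
  have h36149 := checkRangeG_sound parWF r2 pf36148 h36148
  have h36150 := checkRangeG_sound parWF r2 pf36149 h36149
  exact h36150

theorem c723 (h36150 : ∀ j, j < 121191 → GoodG.{u} par (db j)) : ∀ j, j < 121357 → GoodG.{u} par (db j) := by
  have h36151 := checkRangeG_sound parWF r2 pf36150 h36150
  have h36152 := checkRangeG_sound parWF r2 pf36151 h36151
  have h36153 := checkRangeG_sound parWF r2 pf36152 h36152
  have h36154 := checkRangeG_sound parWF r2 pf36153 h36153
  have h36155 := checkRangeG_sound parWF r2 pf36154 h36154
  have h36156 := checkRangeG_sound parWF r2 pf36155 h36155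
  have h36157 := checkRangeG_sound parWF r2 pf36156 h36156
  have h36158 := checkRangeG_sound parWF r2 pf36157 h36157
  have h36159 := checkRangeG_sound parWF r2 pf36158 h36158
  have h36160 := checkRangeG_sound parWF r2 pf36159 h36159
  have h36161 := checkRangeG_sound parWF r2 pf36160 h36160
  have h36162 := checkRangeG_sound parWF r2 pf36161 h36161
  have h36163 := checkRangeG_sound parWF r2 pf36162 h36162
  have h36164 := checkRangeG_sound parWF r2 pf36163 h36163
  have h36165 := checkRangeG_sound parWF r2 pf36164 h36164
  have h36166 := checkRangeG_sound parWF r2 pf36165 h36165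
  have h36167 := checkRangeG_sound parWF r2 pf36166 h36166
  have h36168 := checkRangeG_sound parWF r2 pf36167 h36167
  have h36169 := checkRangeG_sound parWF r2 pf36168 h36168
  have h36170 := checkRangeG_sound parWF r2 pf36169 h36169
  have h36171 := checkRangeG_sound parWF r2 pf36170 h36170
  have h36172 := checkRangeG_sound parWF r2 pf36171 h36171
  have h36173 := checkRangeG_sound parWF r2 pf36172 h36172
  have h36174 := checkRangeG_sound parWF r2 pf36173 h36173
  have h36175 := checkRangeG_sound parWF r2 pf36174 h36174
  have h36176 := checkRangeG_sound parWF r2 pf36175 h36175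
  have h36177 := checkRangeG_sound parWF r2 pf36176 h36176
  have h36178 := checkRangeG_sound parWF r2 pf36177 h36177
  have h36179 := checkRangeG_sound parWF r2 pf36178 h36178
  have h36180 := checkRangeG_sound parWF r2 pf36179 h36179
  have h36181 := checkRangeG_sound parWF r2 pf36180 h36180
  have h36182 := checkRangeG_sound parWF r2 pf36181 h36181
  have h36183 := checkRangeG_sound parWF r2 pf36182 h36182
  have h36184 := checkRangeG_sound parWF r2 pf36183 h36183
  have h36185 := checkRangeG_sound parWF r2 pf36184 h36184
  have h36186 := checkRangeG_sound parWF r2 pf36185 h36185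
  have h36187 := checkRangeG_sound parWF r2 pf36186 h36186
  have h36188 := checkRangeG_sound parWF r2 pf36187 h36187
  have h36189 := checkRangeG_sound parWF r2 pf36188 h36188
  have h36190 := checkRangeG_sound parWF r2 pf36189 h36189
  have h36191 := checkRangeG_sound parWF r2 pf36190 h36190
  have h36192 := checkRangeG_sound parWF r2 pf36191 h36191
  have h36193 := checkRangeG_sound parWF r2 pf36192 h36192
  have h36194 := checkRangeG_sound parWF r2 pf36193 h36193
  have h36195 := checkRangeG_sound parWF r2 pf36194 h36194
  have h36196 := checkRangeG_sound parWF r2 pf36195 h36195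
  have h36197 := checkRangeG_sound parWF r2 pf36196 h36196
  have h36198 := checkRangeG_sound parWF r2 pf36197 h36197
  have h36199 := checkRangeG_sound parWF r2 pf36198 h36198
  have h36200 := checkRangeG_sound parWF r2 pf36199 h36199
  exact h36200

theorem c724 (h36200 : ∀ j, j < 121357 → GoodG.{u} par (db j)) : ∀ j, j < 121599 → GoodG.{u} par (db j) := by
  have h36201 := checkRangeG_sound parWF r2 pf36200 h36200
  have h36202 := checkRangeG_sound parWF r2 pf36201 h36201
  have h36203 := checkRangeG_sound parWF r2 pf36202 h36202
  have h36204 := checkRangeG_sound parWF r2 pf36203 h36203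
  have h36205 := checkRangeG_sound parWF r2 pf36204 h36204
  have h36206 := checkRangeG_sound parWF r2 pf36205 h36205
  have h36207 := checkRangeG_sound parWF r2 pf36206 h36206
  have h36208 := checkRangeG_sound parWF r2 pf36207 h36207
  have h36209 := checkRangeG_sound parWF r2 pf36208 h36208
  have h36210 := checkRangeG_sound parWF r2 pf36209 h36209
  have h36211 := checkRangeG_sound parWF r2 pf36210 h36210
  have h36212 := checkRangeG_sound parWF r2 pf36211 h36211
  have h36213 := checkRangeG_sound parWF r2 pf36212 h36212
  have h36214 := checkRangeG_sound parWF r2 pf36213 h36213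
  have h36215 := checkRangeG_sound parWF r2 pf36214 h36214
  have h36216 := checkRangeG_sound parWF r2 pf36215 h36215
  have h36217 := checkRangeG_sound parWF r2 pf36216 h36216
  have h36218 := checkRangeG_sound parWF r2 pf36217 h36217
  have h36219 := checkRangeG_sound parWF r2 pf36218 h36218
  have h36220 := checkRangeG_sound parWF r2 pf36219 h36219
  have h36221 := checkRangeG_sound parWF r2 pf36220 h36220
  have h36222 := checkRangeG_sound parWF r2 pf36221 h36221
  have h36223 := checkRangeG_sound parWF r2 pf36222 h36222
  have h36224 := checkRangeG_sound parWF r2 pf36223 h36223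
  have h36225 := checkRangeG_sound parWF r2 pf36224 h36224
  have h36226 := checkRangeG_sound parWF r2 pf36225 h36225
  have h36227 := checkRangeG_sound parWF r2 pf36226 h36226
  have h36228 := checkRangeG_sound parWF r2 pf36227 h36227
  have h36229 := checkRangeG_sound parWF r2 pf36228 h36228
  have h36230 := checkRangeG_sound parWF r2 pf36229 h36229
  have h36231 := checkRangeG_sound parWF r2 pf36230 h36230
  have h36232 := checkRangeG_sound parWF r2 pf36231 h36231
  have h36233 := checkRangeG_sound parWF r2 pf36232 h36232
  have h36234 := checkRangeG_sound parWF r2 pf36233 h36233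
  have h36235 := checkRangeG_sound parWF r2 pf36234 h36234
  have h36236 := checkRangeG_sound parWF r2 pf36235 h36235
  have h36237 := checkRangeG_sound parWF r2 pf36236 h36236
  have h36238 := checkRangeG_sound parWF r2 pf36237 h36237
  have h36239 := checkRangeG_sound parWF r2 pf36238 h36238
  have h36240 := checkRangeG_sound parWF r2 pf36239 h36239
  have h36241 := checkRangeG_sound parWF r2 pf36240 h36240
  have h36242 := checkRangeG_sound parWF r2 pf36241 h36241
  have h36243 := checkRangeG_sound parWF r2 pf36242 h36242
  have h36244 := checkRangeG_sound parWF r2 pf36243 h36243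
  have h36245 := checkRangeG_sound parWF r2 pf36244 h36244
  have h36246 := checkRangeG_sound parWF r2 pf36245 h36245
  have h36247 := checkRangeG_sound parWF r2 pf36246 h36246
  have h36248 := checkRangeG_sound parWF r2 pf36247 h36247
  have h36249 := checkRangeG_sound parWF r2 pf36248 h36248
  have h36250 := checkRangeG_sound parWF r2 pf36249 h36249
  exact h36250

theorem c725 (h36250 : ∀ j, j < 121599 → GoodG.{u} par (db j)) : ∀ j, j < 121789 → GoodG.{u} par (db j) := by
  have h36251 := checkRangeG_sound parWF r2 pf36250 h36250
  have h36252 := checkRangeG_sound parWF r2 pf36251 h36251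
  have h36253 := checkRangeG_sound parWF r2 pf36252 h36252
  have h36254 := checkRangeG_sound parWF r2 pf36253 h36253
  have h36255 := checkRangeG_sound parWF r2 pf36254 h36254
  have h36256 := checkRangeG_sound parWF r2 pf36255 h36255
  have h36257 := checkRangeG_sound parWF r2 pf36256 h36256
  have h36258 := checkRangeG_sound parWF r2 pf36257 h36257
  have h36259 := checkRangeG_sound parWF r2 pf36258 h36258
  have h36260 := checkRangeG_sound parWF r2 pf36259 h36259
  have h36261 := checkRangeG_sound parWF r2 pf36260 h36260
  have h36262 := checkRangeG_sound parWF r2 pf36261 h36261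
  have h36263 := checkRangeG_sound parWF r2 pf36262 h36262
  have h36264 := checkRangeG_sound parWF r2 pf36263 h36263
  have h36265 := checkRangeG_sound parWF r2 pf36264 h36264
  have h36266 := checkRangeG_sound parWF r2 pf36265 h36265
  have h36267 := checkRangeG_sound parWF r2 pf36266 h36266
  have h36268 := checkRangeG_sound parWF r2 pf36267 h36267
  have h36269 := checkRangeG_sound parWF r2 pf36268 h36268
  have h36270 := checkRangeG_sound parWF r2 pf36269 h36269
  have h36271 := checkRangeG_sound parWF r2 pf36270 h36270
  have h36272 := checkRangeG_sound parWF r2 pf36271 h36271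
  have h36273 := checkRangeG_sound parWF r2 pf36272 h36272
  have h36274 := checkRangeG_sound parWF r2 pf36273 h36273
  have h36275 := checkRangeG_sound parWF r2 pf36274 h36274
  have h36276 := checkRangeG_sound parWF r2 pf36275 h36275
  have h36277 := checkRangeG_sound parWF r2 pf36276 h36276
  have h36278 := checkRangeG_sound parWF r2 pf36277 h36277
  have h36279 := checkRangeG_sound parWF r2 pf36278 h36278
  have h36280 := checkRangeG_sound parWF r2 pf36279 h36279
  have h36281 := checkRangeG_sound parWF r2 pf36280 h36280
  have h36282 := checkRangeG_sound parWF r2 pf36281 h36281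
  have h36283 := checkRangeG_sound parWF r2 pf36282 h36282
  have h36284 := checkRangeG_sound parWF r2 pf36283 h36283
  have h36285 := checkRangeG_sound parWF r2 pf36284 h36284
  have h36286 := checkRangeG_sound parWF r2 pf36285 h36285
  have h36287 := checkRangeG_sound parWF r2 pf36286 h36286
  have h36288 := checkRangeG_sound parWF r2 pf36287 h36287
  have h36289 := checkRangeG_sound parWF r2 pf36288 h36288
  have h36290 := checkRangeG_sound parWF r2 pf36289 h36289
  have h36291 := checkRangeG_sound parWF r2 pf36290 h36290
  have h36292 := checkRangeG_sound parWF r2 pf36291 h36291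
  have h36293 := checkRangeG_sound parWF r2 pf36292 h36292
  have h36294 := checkRangeG_sound parWF r2 pf36293 h36293
  have h36295 := checkRangeG_sound parWF r2 pf36294 h36294
  have h36296 := checkRangeG_sound parWF r2 pf36295 h36295
  have h36297 := checkRangeG_sound parWF r2 pf36296 h36296
  have h36298 := checkRangeG_sound parWF r2 pf36297 h36297
  have h36299 := checkRangeG_sound parWF r2 pf36298 h36298
  have h36300 := checkRangeG_sound parWF r2 pf36299 h36299
  exact h36300

theorem c726 (h36300 : ∀ j, j < 121789 → GoodG.{u} par (db j)) : ∀ j, j < 121976 → GoodG.{u} par (db j) := by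
  have h36301 := checkRangeG_sound parWF r2 pf36300 h36300
  have h36302 := checkRangeG_sound parWF r2 pf36301 h36301
  have h36303 := checkRangeG_sound parWF r2 pf36302 h36302
  have h36304 := checkRangeG_sound parWF r2 pf36303 h36303
  have h36305 := checkRangeG_sound parWF r2 pf36304 h36304
  have h36306 := checkRangeG_sound parWF r2 pf36305 h36305
  have h36307 := checkRangeG_sound parWF r2 pf36306 h36306
  have h36308 := checkRangeG_sound parWF r2 pf36307 h36307
  have h36309 := checkRangeG_sound parWF r2 pf36308 h36308
  have h36310 := checkRangeG_sound parWF r2 pf36309 h36309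
  have h36311 := checkRangeG_sound parWF r2 pf36310 h36310
  have h36312 := checkRangeG_sound parWF r2 pf36311 h36311
  have h36313 := checkRangeG_sound parWF r2 pf36312 h36312
  have h36314 := checkRangeG_sound parWF r2 pf36313 h36313
  have h36315 := checkRangeG_sound parWF r2 pf36314 h36314
  have h36316 := checkRangeG_sound parWF r2 pf36315 h36315
  have h36317 := checkRangeG_sound parWF r2 pf36316 h36316
  have h36318 := checkRangeG_sound parWF r2 pf36317 h36317
  have h36319 := checkRangeG_sound parWF r2 pf36318 h36318
  have h36320 := checkRangeG_sound parWF r2 pf36319 h36319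
  have h36321 := checkRangeG_sound parWF r2 pf36320 h36320
  have h36322 := checkRangeG_sound parWF r2 pf36321 h36321
  have h36323 := checkRangeG_sound parWF r2 pf36322 h36322
  have h36324 := checkRangeG_sound parWF r2 pf36323 h36323
  have h36325 := checkRangeG_sound parWF r2 pf36324 h36324
  have h36326 := checkRangeG_sound parWF r2 pf36325 h36325
  have h36327 := checkRangeG_sound parWF r2 pf36326 h36326
  have h36328 := checkRangeG_sound parWF r2 pf36327 h36327
  have h36329 := checkRangeG_sound parWF r2 pf36328 h36328
  have h36330 := checkRangeG_sound parWF r2 pf36329 h36329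
  have h36331 := checkRangeG_sound parWF r2 pf36330 h36330
  have h36332 := checkRangeG_sound parWF r2 pf36331 h36331
  have h36333 := checkRangeG_sound parWF r2 pf36332 h36332
  have h36334 := checkRangeG_sound parWF r2 pf36333 h36333
  have h36335 := checkRangeG_sound parWF r2 pf36334 h36334
  have h36336 := checkRangeG_sound parWF r2 pf36335 h36335
  have h36337 := checkRangeG_sound parWF r2 pf36336 h36336
  have h36338 := checkRangeG_sound parWF r2 pf36337 h36337
  have h36339 := checkRangeG_sound parWF r2 pf36338 h36338
  have h36340 := checkRangeG_sound parWF r2 pf36339 h36339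
  have h36341 := checkRangeG_sound parWF r2 pf36340 h36340
  have h36342 := checkRangeG_sound parWF r2 pf36341 h36341
  have h36343 := checkRangeG_sound parWF r2 pf36342 h36342
  have h36344 := checkRangeG_sound parWF r2 pf36343 h36343
  have h36345 := checkRangeG_sound parWF r2 pf36344 h36344
  have h36346 := checkRangeG_sound parWF r2 pf36345 h36345
  have h36347 := checkRangeG_sound parWF r2 pf36346 h36346
  have h36348 := checkRangeG_sound parWF r2 pf36347 h36347
  have h36349 := checkRangeG_sound parWF r2 pf36348 h36348
  have h36350 := checkRangeG_sound parWF r2 pf36349 h36349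
  exact h36350

theorem c727 (h36350 : ∀ j, j < 121976 → GoodG.{u} par (db j)) : ∀ j, j < 122171 → GoodG.{u} par (db j) := by
  have h36351 := checkRangeG_sound parWF r2 pf36350 h36350
  have h36352 := checkRangeG_sound parWF r2 pf36351 h36351
  have h36353 := checkRangeG_sound parWF r2 pf36352 h36352
  have h36354 := checkRangeG_sound parWF r2 pf36353 h36353
  have h36355 := checkRangeG_sound parWF r2 pf36354 h36354
  have h36356 := checkRangeG_sound parWF r2 pf36355 h36355
  have h36357 := checkRangeG_sound parWF r2 pf36356 h36356
  have h36358 := checkRangeG_sound parWF r2 pf36357 h36357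
  have h36359 := checkRangeG_sound parWF r2 pf36358 h36358
  have h36360 := checkRangeG_sound parWF r2 pf36359 h36359
  have h36361 := checkRangeG_sound parWF r2 pf36360 h36360
  have h36362 := checkRangeG_sound parWF r2 pf36361 h36361
  have h36363 := checkRangeG_sound parWF r2 pf36362 h36362
  have h36364 := checkRangeG_sound parWF r2 pf36363 h36363
  have h36365 := checkRangeG_sound parWF r2 pf36364 h36364
  have h36366 := checkRangeG_sound parWF r2 pf36365 h36365
  have h36367 := checkRangeG_sound parWF r2 pf36366 h36366
  have h36368 := checkRangeG_sound parWF r2 pf36367 h36367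
  have h36369 := checkRangeG_sound parWF r2 pf36368 h36368
  have h36370 := checkRangeG_sound parWF r2 pf36369 h36369
  have h36371 := checkRangeG_sound parWF r2 pf36370 h36370
  have h36372 := checkRangeG_sound parWF r2 pf36371 h36371
  have h36373 := checkRangeG_sound parWF r2 pf36372 h36372
  have h36374 := checkRangeG_sound parWF r2 pf36373 h36373
  have h36375 := checkRangeG_sound parWF r2 pf36374 h36374
  have h36376 := checkRangeG_sound parWF r2 pf36375 h36375
  have h36377 := checkRangeG_sound parWF r2 pf36376 h36376
  have h36378 := checkRangeG_sound parWF r2 pf36377 h36377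
  have h36379 := checkRangeG_sound parWF r2 pf36378 h36378
  have h36380 := checkRangeG_sound parWF r2 pf36379 h36379
  have h36381 := checkRangeG_sound parWF r2 pf36380 h36380
  have h36382 := checkRangeG_sound parWF r2 pf36381 h36381
  have h36383 := checkRangeG_sound parWF r2 pf36382 h36382
  have h36384 := checkRangeG_sound parWF r2 pf36383 h36383
  have h36385 := checkRangeG_sound parWF r2 pf36384 h36384
  have h36386 := checkRangeG_sound parWF r2 pf36385 h36385
  have h36387 := checkRangeG_sound parWF r2 pf36386 h36386
  have h36388 := checkRangeG_sound parWF r2 pf36387 h36387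
  have h36389 := checkRangeG_sound parWF r2 pf36388 h36388
  have h36390 := checkRangeG_sound parWF r2 pf36389 h36389
  have h36391 := checkRangeG_sound parWF r2 pf36390 h36390
  have h36392 := checkRangeG_sound parWF r2 pf36391 h36391
  have h36393 := checkRangeG_sound parWF r2 pf36392 h36392
  have h36394 := checkRangeG_sound parWF r2 pf36393 h36393
  have h36395 := checkRangeG_sound parWF r2 pf36394 h36394
  have h36396 := checkRangeG_sound parWF r2 pf36395 h36395
  have h36397 := checkRangeG_sound parWF r2 pf36396 h36396
  have h36398 := checkRangeG_sound parWF r2 pf36397 h36397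
  have h36399 := checkRangeG_sound parWF r2 pf36398 h36398
  have h36400 := checkRangeG_sound parWF r2 pf36399 h36399
  exact h36400

theorem c728 (h36400 : ∀ j, j < 122171 → GoodG.{u} par (db j)) : ∀ j, j < 122384 → GoodG.{u} par (db j) := by
  have h36401 := checkRangeG_sound parWF r2 pf36400 h36400
  have h36402 := checkRangeG_sound parWF r2 pf36401 h36401
  have h36403 := checkRangeG_sound parWF r2 pf36402 h36402
  have h36404 := checkRangeG_sound parWF r2 pf36403 h36403
  have h36405 := checkRangeG_sound parWF r2 pf36404 h36404
  have h36406 := checkRangeG_sound parWF r2 pf36405 h36405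
  have h36407 := checkRangeG_sound parWF r2 pf36406 h36406
  have h36408 := checkRangeG_sound parWF r2 pf36407 h36407
  have h36409 := checkRangeG_sound parWF r2 pf36408 h36408
  have h36410 := checkRangeG_sound parWF r2 pf36409 h36409
  have h36411 := checkRangeG_sound parWF r2 pf36410 h36410
  have h36412 := checkRangeG_sound parWF r2 pf36411 h36411
  have h36413 := checkRangeG_sound parWF r2 pf36412 h36412
  have h36414 := checkRangeG_sound parWF r2 pf36413 h36413
  have h36415 := checkRangeG_sound parWF r2 pf36414 h36414
  have h36416 := checkRangeG_sound parWF r2 pf36415 h36415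
  have h36417 := checkRangeG_sound parWF r2 pf36416 h36416
  have h36418 := checkRangeG_sound parWF r2 pf36417 h36417
  have h36419 := checkRangeG_sound parWF r2 pf36418 h36418
  have h36420 := checkRangeG_sound parWF r2 pf36419 h36419
  have h36421 := checkRangeG_sound parWF r2 pf36420 h36420
  have h36422 := checkRangeG_sound parWF r2 pf36421 h36421
  have h36423 := checkRangeG_sound parWF r2 pf36422 h36422
  have h36424 := checkRangeG_sound parWF r2 pf36423 h36423
  have h36425 := checkRangeG_sound parWF r2 pf36424 h36424
  have h36426 := checkRangeG_sound parWF r2 pf36425 h36425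
  have h36427 := checkRangeG_sound parWF r2 pf36426 h36426
  have h36428 := checkRangeG_sound parWF r2 pf36427 h36427
  have h36429 := checkRangeG_sound parWF r2 pf36428 h36428
  have h36430 := checkRangeG_sound parWF r2 pf36429 h36429
  have h36431 := checkRangeG_sound parWF r2 pf36430 h36430
  have h36432 := checkRangeG_sound parWF r2 pf36431 h36431
  have h36433 := checkRangeG_sound parWF r2 pf36432 h36432
  have h36434 := checkRangeG_sound parWF r2 pf36433 h36433
  have h36435 := checkRangeG_sound parWF r2 pf36434 h36434
  have h36436 := checkRangeG_sound parWF r2 pf36435 h36435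
  have h36437 := checkRangeG_sound parWF r2 pf36436 h36436
  have h36438 := checkRangeG_sound parWF r2 pf36437 h36437
  have h36439 := checkRangeG_sound parWF r2 pf36438 h36438
  have h36440 := checkRangeG_sound parWF r2 pf36439 h36439
  have h36441 := checkRangeG_sound parWF r2 pf36440 h36440
  have h36442 := checkRangeG_sound parWF r2 pf36441 h36441
  have h36443 := checkRangeG_sound parWF r2 pf36442 h36442
  have h36444 := checkRangeG_sound parWF r2 pf36443 h36443
  have h36445 := checkRangeG_sound parWF r2 pf36444 h36444
  have h36446 := checkRangeG_sound parWF r2 pf36445 h36445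
  have h36447 := checkRangeG_sound parWF r2 pf36446 h36446
  have h36448 := checkRangeG_sound parWF r2 pf36447 h36447
  have h36449 := checkRangeG_sound parWF r2 pf36448 h36448
  have h36450 := checkRangeG_sound parWF r2 pf36449 h36449
  exact h36450

theorem c729 (h36450 : ∀ j, j < 122384 → GoodG.{u} par (db j)) : ∀ j, j < 122538 → GoodG.{u} par (db j) := by
  have h36451 := checkRangeG_sound parWF r2 pf36450 h36450
  have h36452 := checkRangeG_sound parWF r2 pf36451 h36451
  have h36453 := checkRangeG_sound parWF r2 pf36452 h36452
  have h36454 := checkRangeG_sound parWF r2 pf36453 h36453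
  have h36455 := checkRangeG_sound parWF r2 pf36454 h36454
  have h36456 := checkRangeG_sound parWF r2 pf36455 h36455
  have h36457 := checkRangeG_sound parWF r2 pf36456 h36456
  have h36458 := checkRangeG_sound parWF r2 pf36457 h36457
  have h36459 := checkRangeG_sound parWF r2 pf36458 h36458
  have h36460 := checkRangeG_sound parWF r2 pf36459 h36459
  have h36461 := checkRangeG_sound parWF r2 pf36460 h36460
  have h36462 := checkRangeG_sound parWF r2 pf36461 h36461
  have h36463 := checkRangeG_sound parWF r2 pf36462 h36462
  have h36464 := checkRangeG_sound parWF r2 pf36463 h36463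
  have h36465 := checkRangeG_sound parWF r2 pf36464 h36464
  have h36466 := checkRangeG_sound parWF r2 pf36465 h36465
  have h36467 := checkRangeG_sound parWF r2 pf36466 h36466
  have h36468 := checkRangeG_sound parWF r2 pf36467 h36467
  have h36469 := checkRangeG_sound parWF r2 pf36468 h36468
  have h36470 := checkRangeG_sound parWF r2 pf36469 h36469
  have h36471 := checkRangeG_sound parWF r2 pf36470 h36470
  have h36472 := checkRangeG_sound parWF r2 pf36471 h36471
  have h36473 := checkRangeG_sound parWF r2 pf36472 h36472
  have h36474 := checkRangeG_sound parWF r2 pf36473 h36473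
  have h36475 := checkRangeG_sound parWF r2 pf36474 h36474
  have h36476 := checkRangeG_sound parWF r2 pf36475 h36475
  have h36477 := checkRangeG_sound parWF r2 pf36476 h36476
  have h36478 := checkRangeG_sound parWF r2 pf36477 h36477
  have h36479 := checkRangeG_sound parWF r2 pf36478 h36478
  have h36480 := checkRangeG_sound parWF r2 pf36479 h36479
  have h36481 := checkRangeG_sound parWF r2 pf36480 h36480
  have h36482 := checkRangeG_sound parWF r2 pf36481 h36481
  have h36483 := checkRangeG_sound parWF r2 pf36482 h36482
  have h36484 := checkRangeG_sound parWF r2 pf36483 h36483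
  have h36485 := checkRangeG_sound parWF r2 pf36484 h36484
  have h36486 := checkRangeG_sound parWF r2 pf36485 h36485
  have h36487 := checkRangeG_sound parWF r2 pf36486 h36486
  have h36488 := checkRangeG_sound parWF r2 pf36487 h36487
  have h36489 := checkRangeG_sound parWF r2 pf36488 h36488
  have h36490 := checkRangeG_sound parWF r2 pf36489 h36489
  have h36491 := checkRangeG_sound parWF r2 pf36490 h36490
  have h36492 := checkRangeG_sound parWF r2 pf36491 h36491
  have h36493 := checkRangeG_sound parWF r2 pf36492 h36492
  have h36494 := checkRangeG_sound parWF r2 pf36493 h36493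
  have h36495 := checkRangeG_sound parWF r2 pf36494 h36494
  have h36496 := checkRangeG_sound parWF r2 pf36495 h36495
  have h36497 := checkRangeG_sound parWF r2 pf36496 h36496
  have h36498 := checkRangeG_sound parWF r2 pf36497 h36497
  have h36499 := checkRangeG_sound parWF r2 pf36498 h36498
  have h36500 := checkRangeG_sound parWF r2 pf36499 h36499
  exact h36500

theorem c730 (h36500 : ∀ j, j < 122538 → GoodG.{u} par (db j)) : ∀ j, j < 122704 → GoodG.{u} par (db j) := by
  have h36501 := checkRangeG_sound parWF r2 pf36500 h36500
  have h36502 := checkRangeG_sound parWF r2 pf36501 h36501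
  have h36503 := checkRangeG_sound parWF r2 pf36502 h36502
  have h36504 := checkRangeG_sound parWF r2 pf36503 h36503
  have h36505 := checkRangeG_sound parWF r2 pf36504 h36504
  have h36506 := checkRangeG_sound parWF r2 pf36505 h36505
  have h36507 := checkRangeG_sound parWF r2 pf36506 h36506
  have h36508 := checkRangeG_sound parWF r2 pf36507 h36507
  have h36509 := checkRangeG_sound parWF r2 pf36508 h36508
  have h36510 := checkRangeG_sound parWF r2 pf36509 h36509
  have h36511 := checkRangeG_sound parWF r2 pf36510 h36510
  have h36512 := checkRangeG_sound parWF r2 pf36511 h36511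
  have h36513 := checkRangeG_sound parWF r2 pf36512 h36512
  have h36514 := checkRangeG_sound parWF r2 pf36513 h36513
  have h36515 := checkRangeG_sound parWF r2 pf36514 h36514
  have h36516 := checkRangeG_sound parWF r2 pf36515 h36515
  have h36517 := checkRangeG_sound parWF r2 pf36516 h36516
  have h36518 := checkRangeG_sound parWF r2 pf36517 h36517
  have h36519 := checkRangeG_sound parWF r2 pf36518 h36518
  have h36520 := checkRangeG_sound parWF r2 pf36519 h36519
  have h36521 := checkRangeG_sound parWF r2 pf36520 h36520
  have h36522 := checkRangeG_sound parWF r2 pf36521 h36521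
  have h36523 := checkRangeG_sound parWF r2 pf36522 h36522
  have h36524 := checkRangeG_sound parWF r2 pf36523 h36523
  have h36525 := checkRangeG_sound parWF r2 pf36524 h36524
  have h36526 := checkRangeG_sound parWF r2 pf36525 h36525
  have h36527 := checkRangeG_sound parWF r2 pf36526 h36526
  have h36528 := checkRangeG_sound parWF r2 pf36527 h36527
  have h36529 := checkRangeG_sound parWF r2 pf36528 h36528
  have h36530 := checkRangeG_sound parWF r2 pf36529 h36529
  have h36531 := checkRangeG_sound parWF r2 pf36530 h36530
  have h36532 := checkRangeG_sound parWF r2 pf36531 h36531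
  have h36533 := checkRangeG_sound parWF r2 pf36532 h36532
  have h36534 := checkRangeG_sound parWF r2 pf36533 h36533
  have h36535 := checkRangeG_sound parWF r2 pf36534 h36534
  have h36536 := checkRangeG_sound parWF r2 pf36535 h36535
  have h36537 := checkRangeG_sound parWF r2 pf36536 h36536
  have h36538 := checkRangeG_sound parWF r2 pf36537 h36537
  have h36539 := checkRangeG_sound parWF r2 pf36538 h36538
  have h36540 := checkRangeG_sound parWF r2 pf36539 h36539
  have h36541 := checkRangeG_sound parWF r2 pf36540 h36540
  have h36542 := checkRangeG_sound parWF r2 pf36541 h36541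
  have h36543 := checkRangeG_sound parWF r2 pf36542 h36542
  have h36544 := checkRangeG_sound parWF r2 pf36543 h36543
  have h36545 := checkRangeG_sound parWF r2 pf36544 h36544
  have h36546 := checkRangeG_sound parWF r2 pf36545 h36545
  have h36547 := checkRangeG_sound parWF r2 pf36546 h36546
  have h36548 := checkRangeG_sound parWF r2 pf36547 h36547
  have h36549 := checkRangeG_sound parWF r2 pf36548 h36548
  have h36550 := checkRangeG_sound parWF r2 pf36549 h36549
  exact h36550

theorem c731 (h36550 : ∀ j, j < 122704 → GoodG.{u} par (db j)) : ∀ j, j < 122880 → GoodG.{u} par (db j) := by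
  have h36551 := checkRangeG_sound parWF r2 pf36550 h36550
  have h36552 := checkRangeG_sound parWF r2 pf36551 h36551
  have h36553 := checkRangeG_sound parWF r2 pf36552 h36552
  have h36554 := checkRangeG_sound parWF r2 pf36553 h36553
  have h36555 := checkRangeG_sound parWF r2 pf36554 h36554
  have h36556 := checkRangeG_sound parWF r2 pf36555 h36555
  have h36557 := checkRangeG_sound parWF r2 pf36556 h36556
  have h36558 := checkRangeG_sound parWF r2 pf36557 h36557
  have h36559 := checkRangeG_sound parWF r2 pf36558 h36558
  have h36560 := checkRangeG_sound parWF r2 pf36559 h36559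
  have h36561 := checkRangeG_sound parWF r2 pf36560 h36560
  have h36562 := checkRangeG_sound parWF r2 pf36561 h36561
  have h36563 := checkRangeG_sound parWF r2 pf36562 h36562
  have h36564 := checkRangeG_sound parWF r2 pf36563 h36563
  have h36565 := checkRangeG_sound parWF r2 pf36564 h36564
  have h36566 := checkRangeG_sound parWF r2 pf36565 h36565
  have h36567 := checkRangeG_sound parWF r2 pf36566 h36566
  have h36568 := checkRangeG_sound parWF r2 pf36567 h36567
  have h36569 := checkRangeG_sound parWF r2 pf36568 h36568
  have h36570 := checkRangeG_sound parWF r2 pf36569 h36569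
  have h36571 := checkRangeG_sound parWF r2 pf36570 h36570
  have h36572 := checkRangeG_sound parWF r2 pf36571 h36571
  have h36573 := checkRangeG_sound parWF r2 pf36572 h36572
  have h36574 := checkRangeG_sound parWF r2 pf36573 h36573
  have h36575 := checkRangeG_sound parWF r2 pf36574 h36574
  have h36576 := checkRangeG_sound parWF r2 pf36575 h36575
  have h36577 := checkRangeG_sound parWF r2 pf36576 h36576
  have h36578 := checkRangeG_sound parWF r2 pf36577 h36577
  have h36579 := checkRangeG_sound parWF r2 pf36578 h36578
  have h36580 := checkRangeG_sound parWF r2 pf36579 h36579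
  have h36581 := checkRangeG_sound parWF r2 pf36580 h36580
  have h36582 := checkRangeG_sound parWF r2 pf36581 h36581
  have h36583 := checkRangeG_sound parWF r2 pf36582 h36582
  have h36584 := checkRangeG_sound parWF r2 pf36583 h36583
  have h36585 := checkRangeG_sound parWF r2 pf36584 h36584
  have h36586 := checkRangeG_sound parWF r2 pf36585 h36585
  have h36587 := checkRangeG_sound parWF r2 pf36586 h36586
  have h36588 := checkRangeG_sound parWF r2 pf36587 h36587
  have h36589 := checkRangeG_sound parWF r2 pf36588 h36588
  have h36590 := checkRangeG_sound parWF r2 pf36589 h36589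
  have h36591 := checkRangeG_sound parWF r2 pf36590 h36590
  have h36592 := checkRangeG_sound parWF r2 pf36591 h36591
  have h36593 := checkRangeG_sound parWF r2 pf36592 h36592
  have h36594 := checkRangeG_sound parWF r2 pf36593 h36593
  have h36595 := checkRangeG_sound parWF r2 pf36594 h36594
  have h36596 := checkRangeG_sound parWF r2 pf36595 h36595
  have h36597 := checkRangeG_sound parWF r2 pf36596 h36596
  have h36598 := checkRangeG_sound parWF r2 pf36597 h36597
  have h36599 := checkRangeG_sound parWF r2 pf36598 h36598
  have h36600 := checkRangeG_sound parWF r2 pf36599 h36599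
  exact h36600


end Vale.Agent.P045g.C61
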