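import Vale.Agent.P045g.C61.WF
import Vale.Agent.P045g.C61.Pf610
import Vale.Agent.P045g.C61.Pf611
import Vale.Agent.P045g.C61.Pf612
import Vale.Agent.P045g.C61.Pf613
import Vale.Agent.P045g.C61.Pf614
import Vale.Agent.P045g.C61.Pf615
import Vale.Agent.P045g.C61.Pf616
import Vale.Agent.P045g.C61.Pf617
import Vale.Agent.P045g.C61.Pf618
import Vale.Agent.P045g.C61.Pf619

namespace Vale.Agent.P045g.C61

open Vale.Agent.P045b Vale.Agent.P045g

universe u

theorem c732 (h36600 : ∀ j, j < 122880 → GoodG.{u} par (db j)) : ∀ j, j < 123067 → GoodG.{u} par (db j) := by
  have h36601 := checkRangeG_sound parWF r2 pf36600 h36600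
  have h36602 := checkRangeG_sound parWF r2 pf36601 h36601
  have h36603 := checkRangeG_sound parWF r2 pf36602 h36602
  have h36604 := checkRangeG_sound parWF r2 pf36603 h36603
  have h36605 := checkRangeG_sound parWF r2 pf36604 h36604
  have h36606 := checkRangeG_sound parWF r2 pf36605 h36605
  have h36607 := checkRangeG_sound parWF r2 pf36606 h36606
  have h36608 := checkRangeG_sound parWF r2 pf36607 h36607
  have h36609 := checkRangeG_sound parWF r2 pf36608 h36608
  have h36610 := checkRangeG_sound parWF r2 pf36609 h36609
  have h36611 := checkRangeG_sound parWF r2 pf36610 h36610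
  have h36612 := checkRangeG_sound parWF r2 pf36611 h36611
  have h36613 := checkRangeG_sound parWF r2 pf36612 h36612
  have h36614 := checkRangeG_sound parWF r2 pf36613 h36613
  have h36615 := checkRangeG_sound parWF r2 pf36614 h36614
  have h36616 := checkRangeG_sound parWF r2 pf36615 h36615
  have h36617 := checkRangeG_sound parWF r2 pf36616 h36616
  have h36618 := checkRangeG_sound parWF r2 pf36617 h36617
  have h36619 := checkRangeG_sound parWF r2 pf36618 h36618
  have h36620 := checkRangeG_sound parWF r2 pf36619 h36619
  have h36621 := checkRangeG_sound parWF r2 pf36620 h36620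
  have h36622 := checkRangeG_sound parWF r2 pf36621 h36621
  have h36623 := checkRangeG_sound parWF r2 pf36622 h36622
  have h36624 := checkRangeG_sound parWF r2 pf36623 h36623
  have h36625 := checkRangeG_sound parWF r2 pf36624 h36624
  have h36626 := checkRangeG_sound parWF r2 pf36625 h36625
  have h36627 := checkRangeG_sound parWF r2 pf36626 h36626
  have h36628 := checkRangeG_sound parWF r2 pf36627 h36627
  have h36629 := checkRangeG_sound parWF r2 pf36628 h36628
  have h36630 := checkRangeG_sound parWF r2 pf36629 h36629
  have h36631 := checkRangeG_sound parWF r2 pf36630 h36630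
  have h36632 := checkRangeG_sound parWF r2 pf36631 h36631
  have h36633 := checkRangeG_sound parWF r2 pf36632 h36632
  have h36634 := checkRangeG_sound parWF r2 pf36633 h36633
  have h36635 := checkRangeG_sound parWF r2 pf36634 h36634
  have h36636 := checkRangeG_sound parWF r2 pf36635 h36635
  have h36637 := checkRangeG_sound parWF r2 pf36636 h36636
  have h36638 := checkRangeG_sound parWF r2 pf36637 h36637
  have h36639 := checkRangeG_sound parWF r2 pf36638 h36638
  have h36640 := checkRangeG_sound parWF r2 pf36639 h36639
  have h36641 := checkRangeG_sound parWF r2 pf36640 h36640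
  have h36642 := checkRangeG_sound parWF r2 pf36641 h36641
  have h36643 := checkRangeG_sound parWF r2 pf36642 h36642
  have h36644 := checkRangeG_sound parWF r2 pf36643 h36643
  have h36645 := checkRangeG_sound parWF r2 pf36644 h36644
  have h36646 := checkRangeG_sound parWF r2 pf36645 h36645
  have h36647 := checkRangeG_sound parWF r2 pf36646 h36646
  have h36648 := checkRangeG_sound parWF r2 pf36647 h36647
  have h36649 := checkRangeG_sound parWF r2 pf36648 h36648
  have h36650 := checkRangeG_sound parWF r2 pf36649 h36649
  exact h36650

theorem c733 (h36650 : ∀ j, j < 123067 → GoodG.{u} par (db j)) : ∀ j, j < 123234 → GoodG.{u} par (db j) := by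
  have h36651 := checkRangeG_sound parWF r2 pf36650 h36650
  have h36652 := checkRangeG_sound parWF r2 pf36651 h36651
  have h36653 := checkRangeG_sound parWF r2 pf36652 h36652
  have h36654 := checkRangeG_sound parWF r2 pf36653 h36653
  have h36655 := checkRangeG_sound parWF r2 pf36654 h36654
  have h36656 := checkRangeG_sound parWF r2 pf36655 h36655
  have h36657 := checkRangeG_sound parWF r2 pf36656 h36656
  have h36658 := checkRangeG_sound parWF r2 pf36657 h36657
  have h36659 := checkRangeG_sound parWF r2 pf36658 h36658
  have h36660 := checkRangeG_sound parWF r2 pf36659 h36659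
  have h36661 := checkRangeG_sound parWF r2 pf36660 h36660
  have h36662 := checkRangeG_sound parWF r2 pf36661 h36661
  have h36663 := checkRangeG_sound parWF r2 pf36662 h36662
  have h36664 := checkRangeG_sound parWF r2 pf36663 h36663
  have h36665 := checkRangeG_sound parWF r2 pf36664 h36664
  have h36666 := checkRangeG_sound parWF r2 pf36665 h36665
  have h36667 := checkRangeG_sound parWF r2 pf36666 h36666
  have h36668 := checkRangeG_sound parWF r2 pf36667 h36667
  have h36669 := checkRangeG_sound parWF r2 pf36668 h36668
  have h36670 := checkRangeG_sound parWF r2 pf36669 h36669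
  have h36671 := checkRangeG_sound parWF r2 pf36670 h36670
  have h36672 := checkRangeG_sound parWF r2 pf36671 h36671
  have h36673 := checkRangeG_sound parWF r2 pf36672 h36672
  have h36674 := checkRangeG_sound parWF r2 pf36673 h36673
  have h36675 := checkRangeG_sound parWF r2 pf36674 h36674
  have h36676 := checkRangeG_sound parWF r2 pf36675 h36675
  have h36677 := checkRangeG_sound parWF r2 pf36676 h36676
  have h36678 := checkRangeG_sound parWF r2 pf36677 h36677
  have h36679 := checkRangeG_sound parWF r2 pf36678 h36678
  have h36680 := checkRangeG_sound parWF r2 pf36679 h36679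
  have h36681 := checkRangeG_sound parWF r2 pf36680 h36680
  have h36682 := checkRangeG_sound parWF r2 pf36681 h36681
  have h36683 := checkRangeG_sound parWF r2 pf36682 h36682
  have h36684 := checkRangeG_sound parWF r2 pf36683 h36683
  have h36685 := checkRangeG_sound parWF r2 pf36684 h36684
  have h36686 := checkRangeG_sound parWF r2 pf36685 h36685
  have h36687 := checkRangeG_sound parWF r2 pf36686 h36686
  have h36688 := checkRangeG_sound parWF r2 pf36687 h36687
  have h36689 := checkRangeG_sound parWF r2 pf36688 h36688
  have h36690 := checkRangeG_sound parWF r2 pf36689 h36689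
  have h36691 := checkRangeG_sound parWF r2 pf36690 h36690
  have h36692 := checkRangeG_sound parWF r2 pf36691 h36691
  have h36693 := checkRangeG_sound parWF r2 pf36692 h36692
  have h36694 := checkRangeG_sound parWF r2 pf36693 h36693
  have h36695 := checkRangeG_sound parWF r2 pf36694 h36694
  have h36696 := checkRangeG_sound parWF r2 pf36695 h36695
  have h36697 := checkRangeG_sound parWF r2 pf36696 h36696
  have h36698 := checkRangeG_sound parWF r2 pf36697 h36697
  have h36699 := checkRangeG_sound parWF r2 pf36698 h36698
  have h36700 := checkRangeG_sound parWF r2 pf36699 h36699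
  exact h36700

theorem c734 (h36700 : ∀ j, j < 123234 → GoodG.{u} par (db j)) : ∀ j, j < 123414 → GoodG.{u} par (db j) := by
  have h36701 := checkRangeG_sound parWF r2 pf36700 h36700
  have h36702 := checkRangeG_sound parWF r2 pf36701 h36701
  have h36703 := checkRangeG_sound parWF r2 pf36702 h36702
  have h36704 := checkRangeG_sound parWF r2 pf36703 h36703
  have h36705 := checkRangeG_sound parWF r2 pf36704 h36704
  have h36706 := checkRangeG_sound parWF r2 pf36705 h36705
  have h36707 := checkRangeG_sound parWF r2 pf36706 h36706
  have h36708 := checkRangeG_sound parWF r2 pf36707 h36707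
  have h36709 := checkRangeG_sound parWF r2 pf36708 h36708
  have h36710 := checkRangeG_sound parWF r2 pf36709 h36709
  have h36711 := checkRangeG_sound parWF r2 pf36710 h36710
  have h36712 := checkRangeG_sound parWF r2 pf36711 h36711
  have h36713 := checkRangeG_sound parWF r2 pf36712 h36712
  have h36714 := checkRangeG_sound parWF r2 pf36713 h36713
  have h36715 := checkRangeG_sound parWF r2 pf36714 h36714
  have h36716 := checkRangeG_sound parWF r2 pf36715 h36715
  have h36717 := checkRangeG_sound parWF r2 pf36716 h36716
  have h36718 := checkRangeG_sound parWF r2 pf36717 h36717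
  have h36719 := checkRangeG_sound parWF r2 pf36718 h36718
  have h36720 := checkRangeG_sound parWF r2 pf36719 h36719
  have h36721 := checkRangeG_sound parWF r2 pf36720 h36720
  have h36722 := checkRangeG_sound parWF r2 pf36721 h36721
  have h36723 := checkRangeG_sound parWF r2 pf36722 h36722
  have h36724 := checkRangeG_sound parWF r2 pf36723 h36723
  have h36725 := checkRangeG_sound parWF r2 pf36724 h36724
  have h36726 := checkRangeG_sound parWF r2 pf36725 h36725
  have h36727 := checkRangeG_sound parWF r2 pf36726 h36726
  have h36728 := checkRangeG_sound parWF r2 pf36727 h36727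
  have h36729 := checkRangeG_sound parWF r2 pf36728 h36728
  have h36730 := checkRangeG_sound parWF r2 pf36729 h36729
  have h36731 := checkRangeG_sound parWF r2 pf36730 h36730
  have h36732 := checkRangeG_sound parWF r2 pf36731 h36731
  have h36733 := checkRangeG_sound parWF r2 pf36732 h36732
  have h36734 := checkRangeG_sound parWF r2 pf36733 h36733
  have h36735 := checkRangeG_sound parWF r2 pf36734 h36734
  have h36736 := checkRangeG_sound parWF r2 pf36735 h36735
  have h36737 := checkRangeG_sound parWF r2 pf36736 h36736
  have h36738 := checkRangeG_sound parWF r2 pf36737 h36737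
  have h36739 := checkRangeG_sound parWF r2 pf36738 h36738
  have h36740 := checkRangeG_sound parWF r2 pf36739 h36739
  have h36741 := checkRangeG_sound parWF r2 pf36740 h36740
  have h36742 := checkRangeG_sound parWF r2 pf36741 h36741
  have h36743 := checkRangeG_sound parWF r2 pf36742 h36742
  have h36744 := checkRangeG_sound parWF r2 pf36743 h36743
  have h36745 := checkRangeG_sound parWF r2 pf36744 h36744
  have h36746 := checkRangeG_sound parWF r2 pf36745 h36745
  have h36747 := checkRangeG_sound parWF r2 pf36746 h36746
  have h36748 := checkRangeG_sound parWF r2 pf36747 h36747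
  have h36749 := checkRangeG_sound parWF r2 pf36748 h36748
  have h36750 := checkRangeG_sound parWF r2 pf36749 h36749
  exact h36750

theorem c735 (h36750 : ∀ j, j < 123414 → GoodG.{u} par (db j)) : ∀ j, j < 123627 → GoodG.{u} par (db j) := by
  have h36751 := checkRangeG_sound parWF r2 pf36750 h36750
  have h36752 := checkRangeG_sound parWF r2 pf36751 h36751
  have h36753 := checkRangeG_sound parWF r2 pf36752 h36752
  have h36754 := checkRangeG_sound parWF r2 pf36753 h36753
  have h36755 := checkRangeG_sound parWF r2 pf36754 h36754
  have h36756 := checkRangeG_sound parWF r2 pf36755 h36755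
  have h36757 := checkRangeG_sound parWF r2 pf36756 h36756
  have h36758 := checkRangeG_sound parWF r2 pf36757 h36757
  have h36759 := checkRangeG_sound parWF r2 pf36758 h36758
  have h36760 := checkRangeG_sound parWF r2 pf36759 h36759
  have h36761 := checkRangeG_sound parWF r2 pf36760 h36760
  have h36762 := checkRangeG_sound parWF r2 pf36761 h36761
  have h36763 := checkRangeG_sound parWF r2 pf36762 h36762
  have h36764 := checkRangeG_sound parWF r2 pf36763 h36763
  have h36765 := checkRangeG_sound parWF r2 pf36764 h36764
  have h36766 := checkRangeG_sound parWF r2 pf36765 h36765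
  have h36767 := checkRangeG_sound parWF r2 pf36766 h36766
  have h36768 := checkRangeG_sound parWF r2 pf36767 h36767
  have h36769 := checkRangeG_sound parWF r2 pf36768 h36768
  have h36770 := checkRangeG_sound parWF r2 pf36769 h36769
  have h36771 := checkRangeG_sound parWF r2 pf36770 h36770
  have h36772 := checkRangeG_sound parWF r2 pf36771 h36771
  have h36773 := checkRangeG_sound parWF r2 pf36772 h36772
  have h36774 := checkRangeG_sound parWF r2 pf36773 h36773
  have h36775 := checkRangeG_sound parWF r2 pf36774 h36774
  have h36776 := checkRangeG_sound parWF r2 pf36775 h36775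
  have h36777 := checkRangeG_sound parWF r2 pf36776 h36776
  have h36778 := checkRangeG_sound parWF r2 pf36777 h36777
  have h36779 := checkRangeG_sound parWF r2 pf36778 h36778
  have h36780 := checkRangeG_sound parWF r2 pf36779 h36779
  have h36781 := checkRangeG_sound parWF r2 pf36780 h36780
  have h36782 := checkRangeG_sound parWF r2 pf36781 h36781
  have h36783 := checkRangeG_sound parWF r2 pf36782 h36782
  have h36784 := checkRangeG_sound parWF r2 pf36783 h36783
  have h36785 := checkRangeG_sound parWF r2 pf36784 h36784
  have h36786 := checkRangeG_sound parWF r2 pf36785 h36785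
  have h36787 := checkRangeG_sound parWF r2 pf36786 h36786
  have h36788 := checkRangeG_sound parWF r2 pf36787 h36787
  have h36789 := checkRangeG_sound parWF r2 pf36788 h36788
  have h36790 := checkRangeG_sound parWF r2 pf36789 h36789
  have h36791 := checkRangeG_sound parWF r2 pf36790 h36790
  have h36792 := checkRangeG_sound parWF r2 pf36791 h36791
  have h36793 := checkRangeG_sound parWF r2 pf36792 h36792
  have h36794 := checkRangeG_sound parWF r2 pf36793 h36793
  have h36795 := checkRangeG_sound parWF r2 pf36794 h36794
  have h36796 := checkRangeG_sound parWF r2 pf36795 h36795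
  have h36797 := checkRangeG_sound parWF r2 pf36796 h36796
  have h36798 := checkRangeG_sound parWF r2 pf36797 h36797
  have h36799 := checkRangeG_sound parWF r2 pf36798 h36798
  have h36800 := checkRangeG_sound parWF r2 pf36799 h36799
  exact h36800

theorem c736 (h36800 : ∀ j, j < 123627 → GoodG.{u} par (db j)) : ∀ j, j < 123827 → GoodG.{u} par (db j) := by
  have h36801 := checkRangeG_sound parWF r2 pf36800 h36800
  have h36802 := checkRangeG_sound parWF r2 pf36801 h36801
  have h36803 := checkRangeG_sound parWF r2 pf36802 h36802
  have h36804 := checkRangeG_sound parWF r2 pf36803 h36803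
  have h36805 := checkRangeG_sound parWF r2 pf36804 h36804
  have h36806 := checkRangeG_sound parWF r2 pf36805 h36805
  have h36807 := checkRangeG_sound parWF r2 pf36806 h36806
  have h36808 := checkRangeG_sound parWF r2 pf36807 h36807
  have h36809 := checkRangeG_sound parWF r2 pf36808 h36808
  have h36810 := checkRangeG_sound parWF r2 pf36809 h36809
  have h36811 := checkRangeG_sound parWF r2 pf36810 h36810
  have h36812 := checkRangeG_sound parWF r2 pf36811 h36811
  have h36813 := checkRangeG_sound parWF r2 pf36812 h36812
  have h36814 := checkRangeG_sound parWF r2 pf36813 h36813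
  have h36815 := checkRangeG_sound parWF r2 pf36814 h36814
  have h36816 := checkRangeG_sound parWF r2 pf36815 h36815
  have h36817 := checkRangeG_sound parWF r2 pf36816 h36816
  have h36818 := checkRangeG_sound parWF r2 pf36817 h36817
  have h36819 := checkRangeG_sound parWF r2 pf36818 h36818
  have h36820 := checkRangeG_sound parWF r2 pf36819 h36819
  have h36821 := checkRangeG_sound parWF r2 pf36820 h36820
  have h36822 := checkRangeG_sound parWF r2 pf36821 h36821
  have h36823 := checkRangeG_sound parWF r2 pf36822 h36822
  have h36824 := checkRangeG_sound parWF r2 pf36823 h36823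
  have h36825 := checkRangeG_sound parWF r2 pf36824 h36824
  have h36826 := checkRangeG_sound parWF r2 pf36825 h36825
  have h36827 := checkRangeG_sound parWF r2 pf36826 h36826
  have h36828 := checkRangeG_sound parWF r2 pf36827 h36827
  have h36829 := checkRangeG_sound parWF r2 pf36828 h36828
  have h36830 := checkRangeG_sound parWF r2 pf36829 h36829
  have h36831 := checkRangeG_sound parWF r2 pf36830 h36830
  have h36832 := checkRangeG_sound parWF r2 pf36831 h36831
  have h36833 := checkRangeG_sound parWF r2 pf36832 h36832
  have h36834 := checkRangeG_sound parWF r2 pf36833 h36833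
  have h36835 := checkRangeG_sound parWF r2 pf36834 h36834
  have h36836 := checkRangeG_sound parWF r2 pf36835 h36835
  have h36837 := checkRangeG_sound parWF r2 pf36836 h36836
  have h36838 := checkRangeG_sound parWF r2 pf36837 h36837
  have h36839 := checkRangeG_sound parWF r2 pf36838 h36838
  have h36840 := checkRangeG_sound parWF r2 pf36839 h36839
  have h36841 := checkRangeG_sound parWF r2 pf36840 h36840
  have h36842 := checkRangeG_sound parWF r2 pf36841 h36841
  have h36843 := checkRangeG_sound parWF r2 pf36842 h36842
  have h36844 := checkRangeG_sound parWF r2 pf36843 h36843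
  have h36845 := checkRangeG_sound parWF r2 pf36844 h36844
  have h36846 := checkRangeG_sound parWF r2 pf36845 h36845
  have h36847 := checkRangeG_sound parWF r2 pf36846 h36846
  have h36848 := checkRangeG_sound parWF r2 pf36847 h36847
  have h36849 := checkRangeG_sound parWF r2 pf36848 h36848
  have h36850 := checkRangeG_sound parWF r2 pf36849 h36849
  exact h36850

theorem c737 (h36850 : ∀ j, j < 123827 → GoodG.{u} par (db j)) : ∀ j, j < 124020 → GoodG.{u} par (db j) := by
  have h36851 := checkRangeG_sound parWF r2 pf36850 h36850
  have h36852 := checkRangeG_sound parWF r2 pf36851 h36851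
  have h36853 := checkRangeG_sound parWF r2 pf36852 h36852
  have h36854 := checkRangeG_sound parWF r2 pf36853 h36853
  have h36855 := checkRangeG_sound parWF r2 pf36854 h36854
  have h36856 := checkRangeG_sound parWF r2 pf36855 h36855
  have h36857 := checkRangeG_sound parWF r2 pf36856 h36856
  have h36858 := checkRangeG_sound parWF r2 pf36857 h36857
  have h36859 := checkRangeG_sound parWF r2 pf36858 h36858
  have h36860 := checkRangeG_sound parWF r2 pf36859 h36859
  have h36861 := checkRangeG_sound parWF r2 pf36860 h36860
  have h36862 := checkRangeG_sound parWF r2 pf36861 h36861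
  have h36863 := checkRangeG_sound parWF r2 pf36862 h36862
  have h36864 := checkRangeG_sound parWF r2 pf36863 h36863
  have h36865 := checkRangeG_sound parWF r2 pf36864 h36864
  have h36866 := checkRangeG_sound parWF r2 pf36865 h36865
  have h36867 := checkRangeG_sound parWF r2 pf36866 h36866
  have h36868 := checkRangeG_sound parWF r2 pf36867 h36867
  have h36869 := checkRangeG_sound parWF r2 pf36868 h36868
  have h36870 := checkRangeG_sound parWF r2 pf36869 h36869
  have h36871 := checkRangeG_sound parWF r2 pf36870 h36870
  have h36872 := checkRangeG_sound parWF r2 pf36871 h36871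
  have h36873 := checkRangeG_sound parWF r2 pf36872 h36872
  have h36874 := checkRangeG_sound parWF r2 pf36873 h36873
  have h36875 := checkRangeG_sound parWF r2 pf36874 h36874
  have h36876 := checkRangeG_sound parWF r2 pf36875 h36875
  have h36877 := checkRangeG_sound parWF r2 pf36876 h36876
  have h36878 := checkRangeG_sound parWF r2 pf36877 h36877
  have h36879 := checkRangeG_sound parWF r2 pf36878 h36878
  have h36880 := checkRangeG_sound parWF r2 pf36879 h36879
  have h36881 := checkRangeG_sound parWF r2 pf36880 h36880
  have h36882 := checkRangeG_sound parWF r2 pf36881 h36881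
  have h36883 := checkRangeG_sound parWF r2 pf36882 h36882
  have h36884 := checkRangeG_sound parWF r2 pf36883 h36883
  have h36885 := checkRangeG_sound parWF r2 pf36884 h36884
  have h36886 := checkRangeG_sound parWF r2 pf36885 h36885
  have h36887 := checkRangeG_sound parWF r2 pf36886 h36886
  have h36888 := checkRangeG_sound parWF r2 pf36887 h36887
  have h36889 := checkRangeG_sound parWF r2 pf36888 h36888
  have h36890 := checkRangeG_sound parWF r2 pf36889 h36889
  have h36891 := checkRangeG_sound parWF r2 pf36890 h36890
  have h36892 := checkRangeG_sound parWF r2 pf36891 h36891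
  have h36893 := checkRangeG_sound parWF r2 pf36892 h36892
  have h36894 := checkRangeG_sound parWF r2 pf36893 h36893
  have h36895 := checkRangeG_sound parWF r2 pf36894 h36894
  have h36896 := checkRangeG_sound parWF r2 pf36895 h36895
  have h36897 := checkRangeG_sound parWF r2 pf36896 h36896
  have h36898 := checkRangeG_sound parWF r2 pf36897 h36897
  have h36899 := checkRangeG_sound parWF r2 pf36898 h36898
  have h36900 := checkRangeG_sound parWF r2 pf36899 h36899
  exact h36900

theorem c738 (h36900 : ∀ j, j < 124020 → GoodG.{u} par (db j)) : ∀ j, j < 124213 → GoodG.{u} par (db j) := by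
  have h36901 := checkRangeG_sound parWF r2 pf36900 h36900
  have h36902 := checkRangeG_sound parWF r2 pf36901 h36901
  have h36903 := checkRangeG_sound parWF r2 pf36902 h36902
  have h36904 := checkRangeG_sound parWF r2 pf36903 h36903
  have h36905 := checkRangeG_sound parWF r2 pf36904 h36904
  have h36906 := checkRangeG_sound parWF r2 pf36905 h36905
  have h36907 := checkRangeG_sound parWF r2 pf36906 h36906
  have h36908 := checkRangeG_sound parWF r2 pf36907 h36907
  have h36909 := checkRangeG_sound parWF r2 pf36908 h36908
  have h36910 := checkRangeG_sound parWF r2 pf36909 h36909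
  have h36911 := checkRangeG_sound parWF r2 pf36910 h36910
  have h36912 := checkRangeG_sound parWF r2 pf36911 h36911
  have h36913 := checkRangeG_sound parWF r2 pf36912 h36912
  have h36914 := checkRangeG_sound parWF r2 pf36913 h36913
  have h36915 := checkRangeG_sound parWF r2 pf36914 h36914
  have h36916 := checkRangeG_sound parWF r2 pf36915 h36915
  have h36917 := checkRangeG_sound parWF r2 pf36916 h36916
  have h36918 := checkRangeG_sound parWF r2 pf36917 h36917
  have h36919 := checkRangeG_sound parWF r2 pf36918 h36918
  have h36920 := checkRangeG_sound parWF r2 pf36919 h36919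
  have h36921 := checkRangeG_sound parWF r2 pf36920 h36920
  have h36922 := checkRangeG_sound parWF r2 pf36921 h36921
  have h36923 := checkRangeG_sound parWF r2 pf36922 h36922
  have h36924 := checkRangeG_sound parWF r2 pf36923 h36923
  have h36925 := checkRangeG_sound parWF r2 pf36924 h36924
  have h36926 := checkRangeG_sound parWF r2 pf36925 h36925
  have h36927 := checkRangeG_sound parWF r2 pf36926 h36926
  have h36928 := checkRangeG_sound parWF r2 pf36927 h36927
  have h36929 := checkRangeG_sound parWF r2 pf36928 h36928
  have h36930 := checkRangeG_sound parWF r2 pf36929 h36929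
  have h36931 := checkRangeG_sound parWF r2 pf36930 h36930
  have h36932 := checkRangeG_sound parWF r2 pf36931 h36931
  have h36933 := checkRangeG_sound parWF r2 pf36932 h36932
  have h36934 := checkRangeG_sound parWF r2 pf36933 h36933
  have h36935 := checkRangeG_sound parWF r2 pf36934 h36934
  have h36936 := checkRangeG_sound parWF r2 pf36935 h36935
  have h36937 := checkRangeG_sound parWF r2 pf36936 h36936
  have h36938 := checkRangeG_sound parWF r2 pf36937 h36937
  have h36939 := checkRangeG_sound parWF r2 pf36938 h36938
  have h36940 := checkRangeG_sound parWF r2 pf36939 h36939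
  have h36941 := checkRangeG_sound parWF r2 pf36940 h36940
  have h36942 := checkRangeG_sound parWF r2 pf36941 h36941
  have h36943 := checkRangeG_sound parWF r2 pf36942 h36942
  have h36944 := checkRangeG_sound parWF r2 pf36943 h36943
  have h36945 := checkRangeG_sound parWF r2 pf36944 h36944
  have h36946 := checkRangeG_sound parWF r2 pf36945 h36945
  have h36947 := checkRangeG_sound parWF r2 pf36946 h36946
  have h36948 := checkRangeG_sound parWF r2 pf36947 h36947
  have h36949 := checkRangeG_sound parWF r2 pf36948 h36948
  have h36950 := checkRangeG_sound parWF r2 pf36949 h36949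
  exact h36950

theorem c739 (h36950 : ∀ j, j < 124213 → GoodG.{u} par (db j)) : ∀ j, j < 124461 → GoodG.{u} par (db j) := by
  have h36951 := checkRangeG_sound parWF r2 pf36950 h36950
  have h36952 := checkRangeG_sound parWF r2 pf36951 h36951
  have h36953 := checkRangeG_sound parWF r2 pf36952 h36952
  have h36954 := checkRangeG_sound parWF r2 pf36953 h36953
  have h36955 := checkRangeG_sound parWF r2 pf36954 h36954
  have h36956 := checkRangeG_sound parWF r2 pf36955 h36955
  have h36957 := checkRangeG_sound parWF r2 pf36956 h36956
  have h36958 := checkRangeG_sound parWF r2 pf36957 h36957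
  have h36959 := checkRangeG_sound parWF r2 pf36958 h36958
  have h36960 := checkRangeG_sound parWF r2 pf36959 h36959
  have h36961 := checkRangeG_sound parWF r2 pf36960 h36960
  have h36962 := checkRangeG_sound parWF r2 pf36961 h36961
  have h36963 := checkRangeG_sound parWF r2 pf36962 h36962
  have h36964 := checkRangeG_sound parWF r2 pf36963 h36963
  have h36965 := checkRangeG_sound parWF r2 pf36964 h36964
  have h36966 := checkRangeG_sound parWF r2 pf36965 h36965
  have h36967 := checkRangeG_sound parWF r2 pf36966 h36966
  have h36968 := checkRangeG_sound parWF r2 pf36967 h36967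
  have h36969 := checkRangeG_sound parWF r2 pf36968 h36968
  have h36970 := checkRangeG_sound parWF r2 pf36969 h36969
  have h36971 := checkRangeG_sound parWF r2 pf36970 h36970
  have h36972 := checkRangeG_sound parWF r2 pf36971 h36971
  have h36973 := checkRangeG_sound parWF r2 pf36972 h36972
  have h36974 := checkRangeG_sound parWF r2 pf36973 h36973
  have h36975 := checkRangeG_sound parWF r2 pf36974 h36974
  have h36976 := checkRangeG_sound parWF r2 pf36975 h36975
  have h36977 := checkRangeG_sound parWF r2 pf36976 h36976
  have h36978 := checkRangeG_sound parWF r2 pf36977 h36977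
  have h36979 := checkRangeG_sound parWF r2 pf36978 h36978
  have h36980 := checkRangeG_sound parWF r2 pf36979 h36979
  have h36981 := checkRangeG_sound parWF r2 pf36980 h36980
  have h36982 := checkRangeG_sound parWF r2 pf36981 h36981
  have h36983 := checkRangeG_sound parWF r2 pf36982 h36982
  have h36984 := checkRangeG_sound parWF r2 pf36983 h36983
  have h36985 := checkRangeG_sound parWF r2 pf36984 h36984
  have h36986 := checkRangeG_sound parWF r2 pf36985 h36985
  have h36987 := checkRangeG_sound parWF r2 pf36986 h36986
  have h36988 := checkRangeG_sound parWF r2 pf36987 h36987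
  have h36989 := checkRangeG_sound parWF r2 pf36988 h36988
  have h36990 := checkRangeG_sound parWF r2 pf36989 h36989
  have h36991 := checkRangeG_sound parWF r2 pf36990 h36990
  have h36992 := checkRangeG_sound parWF r2 pf36991 h36991
  have h36993 := checkRangeG_sound parWF r2 pf36992 h36992
  have h36994 := checkRangeG_sound parWF r2 pf36993 h36993
  have h36995 := checkRangeG_sound parWF r2 pf36994 h36994
  have h36996 := checkRangeG_sound parWF r2 pf36995 h36995
  have h36997 := checkRangeG_sound parWF r2 pf36996 h36996
  have h36998 := checkRangeG_sound parWF r2 pf36997 h36997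
  have h36999 := checkRangeG_sound parWF r2 pf36998 h36998
  have h37000 := checkRangeG_sound parWF r2 pf36999 h36999
  exact h37000

theorem c740 (h37000 : ∀ j, j < 124461 → GoodG.{u} par (db j)) : ∀ j, j < 124701 → GoodG.{u} par (db j) := by
  have h37001 := checkRangeG_sound parWF r2 pf37000 h37000
  have h37002 := checkRangeG_sound parWF r2 pf37001 h37001
  have h37003 := checkRangeG_sound parWF r2 pf37002 h37002
  have h37004 := checkRangeG_sound parWF r2 pf37003 h37003
  have h37005 := checkRangeG_sound parWF r2 pf37004 h37004
  have h37006 := checkRangeG_sound parWF r2 pf37005 h37005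
  have h37007 := checkRangeG_sound parWF r2 pf37006 h37006
  have h37008 := checkRangeG_sound parWF r2 pf37007 h37007
  have h37009 := checkRangeG_sound parWF r2 pf37008 h37008
  have h37010 := checkRangeG_sound parWF r2 pf37009 h37009
  have h37011 := checkRangeG_sound parWF r2 pf37010 h37010
  have h37012 := checkRangeG_sound parWF r2 pf37011 h37011
  have h37013 := checkRangeG_sound parWF r2 pf37012 h37012
  have h37014 := checkRangeG_sound parWF r2 pf37013 h37013
  have h37015 := checkRangeG_sound parWF r2 pf37014 h37014
  have h37016 := checkRangeG_sound parWF r2 pf37015 h37015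
  have h37017 := checkRangeG_sound parWF r2 pf37016 h37016
  have h37018 := checkRangeG_sound parWF r2 pf37017 h37017
  have h37019 := checkRangeG_sound parWF r2 pf37018 h37018
  have h37020 := checkRangeG_sound parWF r2 pf37019 h37019
  have h37021 := checkRangeG_sound parWF r2 pf37020 h37020
  have h37022 := checkRangeG_sound parWF r2 pf37021 h37021
  have h37023 := checkRangeG_sound parWF r2 pf37022 h37022
  have h37024 := checkRangeG_sound parWF r2 pf37023 h37023
  have h37025 := checkRangeG_sound parWF r2 pf37024 h37024
  have h37026 := checkRangeG_sound parWF r2 pf37025 h37025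
  have h37027 := checkRangeG_sound parWF r2 pf37026 h37026
  have h37028 := checkRangeG_sound parWF r2 pf37027 h37027
  have h37029 := checkRangeG_sound parWF r2 pf37028 h37028
  have h37030 := checkRangeG_sound parWF r2 pf37029 h37029
  have h37031 := checkRangeG_sound parWF r2 pf37030 h37030
  have h37032 := checkRangeG_sound parWF r2 pf37031 h37031
  have h37033 := checkRangeG_sound parWF r2 pf37032 h37032
  have h37034 := checkRangeG_sound parWF r2 pf37033 h37033
  have h37035 := checkRangeG_sound parWF r2 pf37034 h37034
  have h37036 := checkRangeG_sound parWF r2 pf37035 h37035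
  have h37037 := checkRangeG_sound parWF r2 pf37036 h37036
  have h37038 := checkRangeG_sound parWF r2 pf37037 h37037
  have h37039 := checkRangeG_sound parWF r2 pf37038 h37038
  have h37040 := checkRangeG_sound parWF r2 pf37039 h37039
  have h37041 := checkRangeG_sound parWF r2 pf37040 h37040
  have h37042 := checkRangeG_sound parWF r2 pf37041 h37041
  have h37043 := checkRangeG_sound parWF r2 pf37042 h37042
  have h37044 := checkRangeG_sound parWF r2 pf37043 h37043
  have h37045 := checkRangeG_sound parWF r2 pf37044 h37044
  have h37046 := checkRangeG_sound parWF r2 pf37045 h37045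
  have h37047 := checkRangeG_sound parWF r2 pf37046 h37046
  have h37048 := checkRangeG_sound parWF r2 pf37047 h37047
  have h37049 := checkRangeG_sound parWF r2 pf37048 h37048
  have h37050 := checkRangeG_sound parWF r2 pf37049 h37049
  exact h37050

theorem c741 (h37050 : ∀ j, j < 124701 → GoodG.{u} par (db j)) : ∀ j, j < 124948 → GoodG.{u} par (db j) := by
  have h37051 := checkRangeG_sound parWF r2 pf37050 h37050
  have h37052 := checkRangeG_sound parWF r2 pf37051 h37051
  have h37053 := checkRangeG_sound parWF r2 pf37052 h37052
  have h37054 := checkRangeG_sound parWF r2 pf37053 h37053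
  have h37055 := checkRangeG_sound parWF r2 pf37054 h37054
  have h37056 := checkRangeG_sound parWF r2 pf37055 h37055
  have h37057 := checkRangeG_sound parWF r2 pf37056 h37056
  have h37058 := checkRangeG_sound parWF r2 pf37057 h37057
  have h37059 := checkRangeG_sound parWF r2 pf37058 h37058
  have h37060 := checkRangeG_sound parWF r2 pf37059 h37059
  have h37061 := checkRangeG_sound parWF r2 pf37060 h37060
  have h37062 := checkRangeG_sound parWF r2 pf37061 h37061
  have h37063 := checkRangeG_sound parWF r2 pf37062 h37062
  have h37064 := checkRangeG_sound parWF r2 pf37063 h37063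
  have h37065 := checkRangeG_sound parWF r2 pf37064 h37064
  have h37066 := checkRangeG_sound parWF r2 pf37065 h37065
  have h37067 := checkRangeG_sound parWF r2 pf37066 h37066
  have h37068 := checkRangeG_sound parWF r2 pf37067 h37067
  have h37069 := checkRangeG_sound parWF r2 pf37068 h37068
  have h37070 := checkRangeG_sound parWF r2 pf37069 h37069
  have h37071 := checkRangeG_sound parWF r2 pf37070 h37070
  have h37072 := checkRangeG_sound parWF r2 pf37071 h37071
  have h37073 := checkRangeG_sound parWF r2 pf37072 h37072
  have h37074 := checkRangeG_sound parWF r2 pf37073 h37073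
  have h37075 := checkRangeG_sound parWF r2 pf37074 h37074
  have h37076 := checkRangeG_sound parWF r2 pf37075 h37075
  have h37077 := checkRangeG_sound parWF r2 pf37076 h37076
  have h37078 := checkRangeG_sound parWF r2 pf37077 h37077
  have h37079 := checkRangeG_sound parWF r2 pf37078 h37078
  have h37080 := checkRangeG_sound parWF r2 pf37079 h37079
  have h37081 := checkRangeG_sound parWF r2 pf37080 h37080
  have h37082 := checkRangeG_sound parWF r2 pf37081 h37081
  have h37083 := checkRangeG_sound parWF r2 pf37082 h37082
  have h37084 := checkRangeG_sound parWF r2 pf37083 h37083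
  have h37085 := checkRangeG_sound parWF r2 pf37084 h37084
  have h37086 := checkRangeG_sound parWF r2 pf37085 h37085
  have h37087 := checkRangeG_sound parWF r2 pf37086 h37086
  have h37088 := checkRangeG_sound parWF r2 pf37087 h37087
  have h37089 := checkRangeG_sound parWF r2 pf37088 h37088
  have h37090 := checkRangeG_sound parWF r2 pf37089 h37089
  have h37091 := checkRangeG_sound parWF r2 pf37090 h37090
  have h37092 := checkRangeG_sound parWF r2 pf37091 h37091
  have h37093 := checkRangeG_sound parWF r2 pf37092 h37092
  have h37094 := checkRangeG_sound parWF r2 pf37093 h37093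
  have h37095 := checkRangeG_sound parWF r2 pf37094 h37094
  have h37096 := checkRangeG_sound parWF r2 pf37095 h37095
  have h37097 := checkRangeG_sound parWF r2 pf37096 h37096
  have h37098 := checkRangeG_sound parWF r2 pf37097 h37097
  have h37099 := checkRangeG_sound parWF r2 pf37098 h37098
  have h37100 := checkRangeG_sound parWF r2 pf37099 h37099
  exact h37100

theorem c742 (h37100 : ∀ j, j < 124948 → GoodG.{u} par (db j)) : ∀ j, j < 125167 → GoodG.{u} par (db j) := by
  have h37101 := checkRangeG_sound parWF r2 pf37100 h37100
  have h37102 := checkRangeG_sound parWF r2 pf37101 h37101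
  have h37103 := checkRangeG_sound parWF r2 pf37102 h37102
  have h37104 := checkRangeG_sound parWF r2 pf37103 h37103
  have h37105 := checkRangeG_sound parWF r2 pf37104 h37104
  have h37106 := checkRangeG_sound parWF r2 pf37105 h37105
  have h37107 := checkRangeG_sound parWF r2 pf37106 h37106
  have h37108 := checkRangeG_sound parWF r2 pf37107 h37107
  have h37109 := checkRangeG_sound parWF r2 pf37108 h37108
  have h37110 := checkRangeG_sound parWF r2 pf37109 h37109
  have h37111 := checkRangeG_sound parWF r2 pf37110 h37110
  have h37112 := checkRangeG_sound parWF r2 pf37111 h37111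
  have h37113 := checkRangeG_sound parWF r2 pf37112 h37112
  have h37114 := checkRangeG_sound parWF r2 pf37113 h37113
  have h37115 := checkRangeG_sound parWF r2 pf37114 h37114
  have h37116 := checkRangeG_sound parWF r2 pf37115 h37115
  have h37117 := checkRangeG_sound parWF r2 pf37116 h37116
  have h37118 := checkRangeG_sound parWF r2 pf37117 h37117
  have h37119 := checkRangeG_sound parWF r2 pf37118 h37118
  have h37120 := checkRangeG_sound parWF r2 pf37119 h37119
  have h37121 := checkRangeG_sound parWF r2 pf37120 h37120
  have h37122 := checkRangeG_sound parWF r2 pf37121 h37121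
  have h37123 := checkRangeG_sound parWF r2 pf37122 h37122
  have h37124 := checkRangeG_sound parWF r2 pf37123 h37123
  have h37125 := checkRangeG_sound parWF r2 pf37124 h37124
  have h37126 := checkRangeG_sound parWF r2 pf37125 h37125
  have h37127 := checkRangeG_sound parWF r2 pf37126 h37126
  have h37128 := checkRangeG_sound parWF r2 pf37127 h37127
  have h37129 := checkRangeG_sound parWF r2 pf37128 h37128
  have h37130 := checkRangeG_sound parWF r2 pf37129 h37129
  have h37131 := checkRangeG_sound parWF r2 pf37130 h37130
  have h37132 := checkRangeG_sound parWF r2 pf37131 h37131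
  have h37133 := checkRangeG_sound parWF r2 pf37132 h37132
  have h37134 := checkRangeG_sound parWF r2 pf37133 h37133
  have h37135 := checkRangeG_sound parWF r2 pf37134 h37134
  have h37136 := checkRangeG_sound parWF r2 pf37135 h37135
  have h37137 := checkRangeG_sound parWF r2 pf37136 h37136
  have h37138 := checkRangeG_sound parWF r2 pf37137 h37137
  have h37139 := checkRangeG_sound parWF r2 pf37138 h37138
  have h37140 := checkRangeG_sound parWF r2 pf37139 h37139
  have h37141 := checkRangeG_sound parWF r2 pf37140 h37140
  have h37142 := checkRangeG_sound parWF r2 pf37141 h37141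
  have h37143 := checkRangeG_sound parWF r2 pf37142 h37142
  have h37144 := checkRangeG_sound parWF r2 pf37143 h37143
  have h37145 := checkRangeG_sound parWF r2 pf37144 h37144
  have h37146 := checkRangeG_sound parWF r2 pf37145 h37145
  have h37147 := checkRangeG_sound parWF r2 pf37146 h37146
  have h37148 := checkRangeG_sound parWF r2 pf37147 h37147
  have h37149 := checkRangeG_sound parWF r2 pf37148 h37148
  have h37150 := checkRangeG_sound parWF r2 pf37149 h37149
  exact h37150

theorem c743 (h37150 : ∀ j, j < 125167 → GoodG.{u} par (db j)) : ∀ j, j < 125350 → GoodG.{u} par (db j) := by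
  have h37151 := checkRangeG_sound parWF r2 pf37150 h37150
  have h37152 := checkRangeG_sound parWF r2 pf37151 h37151
  have h37153 := checkRangeG_sound parWF r2 pf37152 h37152
  have h37154 := checkRangeG_sound parWF r2 pf37153 h37153
  have h37155 := checkRangeG_sound parWF r2 pf37154 h37154
  have h37156 := checkRangeG_sound parWF r2 pf37155 h37155
  have h37157 := checkRangeG_sound parWF r2 pf37156 h37156
  have h37158 := checkRangeG_sound parWF r2 pf37157 h37157
  have h37159 := checkRangeG_sound parWF r2 pf37158 h37158
  have h37160 := checkRangeG_sound parWF r2 pf37159 h37159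
  have h37161 := checkRangeG_sound parWF r2 pf37160 h37160
  have h37162 := checkRangeG_sound parWF r2 pf37161 h37161
  have h37163 := checkRangeG_sound parWF r2 pf37162 h37162
  have h37164 := checkRangeG_sound parWF r2 pf37163 h37163
  have h37165 := checkRangeG_sound parWF r2 pf37164 h37164
  have h37166 := checkRangeG_sound parWF r2 pf37165 h37165
  have h37167 := checkRangeG_sound parWF r2 pf37166 h37166
  have h37168 := checkRangeG_sound parWF r2 pf37167 h37167
  have h37169 := checkRangeG_sound parWF r2 pf37168 h37168
  have h37170 := checkRangeG_sound parWF r2 pf37169 h37169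
  have h37171 := checkRangeG_sound parWF r2 pf37170 h37170
  have h37172 := checkRangeG_sound parWF r2 pf37171 h37171
  have h37173 := checkRangeG_sound parWF r2 pf37172 h37172
  have h37174 := checkRangeG_sound parWF r2 pf37173 h37173
  have h37175 := checkRangeG_sound parWF r2 pf37174 h37174
  have h37176 := checkRangeG_sound parWF r2 pf37175 h37175
  have h37177 := checkRangeG_sound parWF r2 pf37176 h37176
  have h37178 := checkRangeG_sound parWF r2 pf37177 h37177
  have h37179 := checkRangeG_sound parWF r2 pf37178 h37178
  have h37180 := checkRangeG_sound parWF r2 pf37179 h37179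
  have h37181 := checkRangeG_sound parWF r2 pf37180 h37180
  have h37182 := checkRangeG_sound parWF r2 pf37181 h37181
  have h37183 := checkRangeG_sound parWF r2 pf37182 h37182
  have h37184 := checkRangeG_sound parWF r2 pf37183 h37183
  have h37185 := checkRangeG_sound parWF r2 pf37184 h37184
  have h37186 := checkRangeG_sound parWF r2 pf37185 h37185
  have h37187 := checkRangeG_sound parWF r2 pf37186 h37186
  have h37188 := checkRangeG_sound parWF r2 pf37187 h37187
  have h37189 := checkRangeG_sound parWF r2 pf37188 h37188
  have h37190 := checkRangeG_sound parWF r2 pf37189 h37189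
  have h37191 := checkRangeG_sound parWF r2 pf37190 h37190
  have h37192 := checkRangeG_sound parWF r2 pf37191 h37191
  have h37193 := checkRangeG_sound parWF r2 pf37192 h37192
  have h37194 := checkRangeG_sound parWF r2 pf37193 h37193
  have h37195 := checkRangeG_sound parWF r2 pf37194 h37194
  have h37196 := checkRangeG_sound parWF r2 pf37195 h37195
  have h37197 := checkRangeG_sound parWF r2 pf37196 h37196
  have h37198 := checkRangeG_sound parWF r2 pf37197 h37197
  have h37199 := checkRangeG_sound parWF r2 pf37198 h37198
  have h37200 := checkRangeG_sound parWF r2 pf37199 h37199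
  exact h37200


end Vale.Agent.P045g.C61
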