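import Vale.Agent.P045g.C61.WF
import Vale.Agent.P045g.C61.Pf620
import Vale.Agent.P045g.C61.Pf621
import Vale.Agent.P045g.C61.Pf622
import Vale.Agent.P045g.C61.Pf623
import Vale.Agent.P045g.C61.Pf624
import Vale.Agent.P045g.C61.Pf625
import Vale.Agent.P045g.C61.Pf626
import Vale.Agent.P045g.C61.Pf627
import Vale.Agent.P045g.C61.Pf628
import Vale.Agent.P045g.C61.Pf629

namespace Vale.Agent.P045g.C61

open Vale.Agent.P045b Vale.Agent.P045g

universe u

theorem c744 (h37200 : ∀ j, j < 125350 → GoodG.{u} par (db j)) : ∀ j, j < 125528 → GoodG.{u} par (db j) := by
  have h37201 := checkRangeG_sound parWF r2 pf37200 h37200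
  have h37202 := checkRangeG_sound parWF r2 pf37201 h37201
  have h37203 := checkRangeG_sound parWF r2 pf37202 h37202
  have h37204 := checkRangeG_sound parWF r2 pf37203 h37203
  have h37205 := checkRangeG_sound parWF r2 pf37204 h37204
  have h37206 := checkRangeG_sound parWF r2 pf37205 h37205
  have h37207 := checkRangeG_sound parWF r2 pf37206 h37206
  have h37208 := checkRangeG_sound parWF r2 pf37207 h37207
  have h37209 := checkRangeG_sound parWF r2 pf37208 h37208
  have h37210 := checkRangeG_sound parWF r2 pf37209 h37209
  have h37211 := checkRangeG_sound parWF r2 pf37210 h37210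
  have h37212 := checkRangeG_sound parWF r2 pf37211 h37211
  have h37213 := checkRangeG_sound parWF r2 pf37212 h37212
  have h37214 := checkRangeG_sound parWF r2 pf37213 h37213
  have h37215 := checkRangeG_sound parWF r2 pf37214 h37214
  have h37216 := checkRangeG_sound parWF r2 pf37215 h37215
  have h37217 := checkRangeG_sound parWF r2 pf37216 h37216
  have h37218 := checkRangeG_sound parWF r2 pf37217 h37217
  have h37219 := checkRangeG_sound parWF r2 pf37218 h37218
  have h37220 := checkRangeG_sound parWF r2 pf37219 h37219
  have h37221 := checkRangeG_sound parWF r2 pf37220 h37220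
  have h37222 := checkRangeG_sound parWF r2 pf37221 h37221
  have h37223 := checkRangeG_sound parWF r2 pf37222 h37222
  have h37224 := checkRangeG_sound parWF r2 pf37223 h37223
  have h37225 := checkRangeG_sound parWF r2 pf37224 h37224
  have h37226 := checkRangeG_sound parWF r2 pf37225 h37225
  have h37227 := checkRangeG_sound parWF r2 pf37226 h37226
  have h37228 := checkRangeG_sound parWF r2 pf37227 h37227
  have h37229 := checkRangeG_sound parWF r2 pf37228 h37228
  have h37230 := checkRangeG_sound parWF r2 pf37229 h37229
  have h37231 := checkRangeG_sound parWF r2 pf37230 h37230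
  have h37232 := checkRangeG_sound parWF r2 pf37231 h37231
  have h37233 := checkRangeG_sound parWF r2 pf37232 h37232
  have h37234 := checkRangeG_sound parWF r2 pf37233 h37233
  have h37235 := checkRangeG_sound parWF r2 pf37234 h37234
  have h37236 := checkRangeG_sound parWF r2 pf37235 h37235
  have h37237 := checkRangeG_sound parWF r2 pf37236 h37236
  have h37238 := checkRangeG_sound parWF r2 pf37237 h37237
  have h37239 := checkRangeG_sound parWF r2 pf37238 h37238
  have h37240 := checkRangeG_sound parWF r2 pf37239 h37239
  have h37241 := checkRangeG_sound parWF r2 pf37240 h37240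
  have h37242 := checkRangeG_sound parWF r2 pf37241 h37241
  have h37243 := checkRangeG_sound parWF r2 pf37242 h37242
  have h37244 := checkRangeG_sound parWF r2 pf37243 h37243
  have h37245 := checkRangeG_sound parWF r2 pf37244 h37244
  have h37246 := checkRangeG_sound parWF r2 pf37245 h37245
  have h37247 := checkRangeG_sound parWF r2 pf37246 h37246
  have h37248 := checkRangeG_sound parWF r2 pf37247 h37247
  have h37249 := checkRangeG_sound parWF r2 pf37248 h37248
  have h37250 := checkRangeG_sound parWF r2 pf37249 h37249
  exact h37250

theorem c745 (h37250 : ∀ j, j < 125528 → GoodG.{u} par (db j)) : ∀ j, j < 125737 → GoodG.{u} par (db j) := by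
  have h37251 := checkRangeG_sound parWF r2 pf37250 h37250
  have h37252 := checkRangeG_sound parWF r2 pf37251 h37251
  have h37253 := checkRangeG_sound parWF r2 pf37252 h37252
  have h37254 := checkRangeG_sound parWF r2 pf37253 h37253
  have h37255 := checkRangeG_sound parWF r2 pf37254 h37254
  have h37256 := checkRangeG_sound parWF r2 pf37255 h37255
  have h37257 := checkRangeG_sound parWF r2 pf37256 h37256
  have h37258 := checkRangeG_sound parWF r2 pf37257 h37257
  have h37259 := checkRangeG_sound parWF r2 pf37258 h37258
  have h37260 := checkRangeG_sound parWF r2 pf37259 h37259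
  have h37261 := checkRangeG_sound parWF r2 pf37260 h37260
  have h37262 := checkRangeG_sound parWF r2 pf37261 h37261
  have h37263 := checkRangeG_sound parWF r2 pf37262 h37262
  have h37264 := checkRangeG_sound parWF r2 pf37263 h37263
  have h37265 := checkRangeG_sound parWF r2 pf37264 h37264
  have h37266 := checkRangeG_sound parWF r2 pf37265 h37265
  have h37267 := checkRangeG_sound parWF r2 pf37266 h37266
  have h37268 := checkRangeG_sound parWF r2 pf37267 h37267
  have h37269 := checkRangeG_sound parWF r2 pf37268 h37268
  have h37270 := checkRangeG_sound parWF r2 pf37269 h37269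
  have h37271 := checkRangeG_sound parWF r2 pf37270 h37270
  have h37272 := checkRangeG_sound parWF r2 pf37271 h37271
  have h37273 := checkRangeG_sound parWF r2 pf37272 h37272
  have h37274 := checkRangeG_sound parWF r2 pf37273 h37273
  have h37275 := checkRangeG_sound parWF r2 pf37274 h37274
  have h37276 := checkRangeG_sound parWF r2 pf37275 h37275
  have h37277 := checkRangeG_sound parWF r2 pf37276 h37276
  have h37278 := checkRangeG_sound parWF r2 pf37277 h37277
  have h37279 := checkRangeG_sound parWF r2 pf37278 h37278
  have h37280 := checkRangeG_sound parWF r2 pf37279 h37279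
  have h37281 := checkRangeG_sound parWF r2 pf37280 h37280
  have h37282 := checkRangeG_sound parWF r2 pf37281 h37281
  have h37283 := checkRangeG_sound parWF r2 pf37282 h37282
  have h37284 := checkRangeG_sound parWF r2 pf37283 h37283
  have h37285 := checkRangeG_sound parWF r2 pf37284 h37284
  have h37286 := checkRangeG_sound parWF r2 pf37285 h37285
  have h37287 := checkRangeG_sound parWF r2 pf37286 h37286
  have h37288 := checkRangeG_sound parWF r2 pf37287 h37287
  have h37289 := checkRangeG_sound parWF r2 pf37288 h37288
  have h37290 := checkRangeG_sound parWF r2 pf37289 h37289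
  have h37291 := checkRangeG_sound parWF r2 pf37290 h37290
  have h37292 := checkRangeG_sound parWF r2 pf37291 h37291
  have h37293 := checkRangeG_sound parWF r2 pf37292 h37292
  have h37294 := checkRangeG_sound parWF r2 pf37293 h37293
  have h37295 := checkRangeG_sound parWF r2 pf37294 h37294
  have h37296 := checkRangeG_sound parWF r2 pf37295 h37295
  have h37297 := checkRangeG_sound parWF r2 pf37296 h37296
  have h37298 := checkRangeG_sound parWF r2 pf37297 h37297
  have h37299 := checkRangeG_sound parWF r2 pf37298 h37298
  have h37300 := checkRangeG_sound parWF r2 pf37299 h37299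
  exact h37300

theorem c746 (h37300 : ∀ j, j < 125737 → GoodG.{u} par (db j)) : ∀ j, j < 125931 → GoodG.{u} par (db j) := by
  have h37301 := checkRangeG_sound parWF r2 pf37300 h37300
  have h37302 := checkRangeG_sound parWF r2 pf37301 h37301
  have h37303 := checkRangeG_sound parWF r2 pf37302 h37302
  have h37304 := checkRangeG_sound parWF r2 pf37303 h37303
  have h37305 := checkRangeG_sound parWF r2 pf37304 h37304
  have h37306 := checkRangeG_sound parWF r2 pf37305 h37305
  have h37307 := checkRangeG_sound parWF r2 pf37306 h37306
  have h37308 := checkRangeG_sound parWF r2 pf37307 h37307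
  have h37309 := checkRangeG_sound parWF r2 pf37308 h37308
  have h37310 := checkRangeG_sound parWF r2 pf37309 h37309
  have h37311 := checkRangeG_sound parWF r2 pf37310 h37310
  have h37312 := checkRangeG_sound parWF r2 pf37311 h37311
  have h37313 := checkRangeG_sound parWF r2 pf37312 h37312
  have h37314 := checkRangeG_sound parWF r2 pf37313 h37313
  have h37315 := checkRangeG_sound parWF r2 pf37314 h37314
  have h37316 := checkRangeG_sound parWF r2 pf37315 h37315
  have h37317 := checkRangeG_sound parWF r2 pf37316 h37316
  have h37318 := checkRangeG_sound parWF r2 pf37317 h37317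
  have h37319 := checkRangeG_sound parWF r2 pf37318 h37318
  have h37320 := checkRangeG_sound parWF r2 pf37319 h37319
  have h37321 := checkRangeG_sound parWF r2 pf37320 h37320
  have h37322 := checkRangeG_sound parWF r2 pf37321 h37321
  have h37323 := checkRangeG_sound parWF r2 pf37322 h37322
  have h37324 := checkRangeG_sound parWF r2 pf37323 h37323
  have h37325 := checkRangeG_sound parWF r2 pf37324 h37324
  have h37326 := checkRangeG_sound parWF r2 pf37325 h37325
  have h37327 := checkRangeG_sound parWF r2 pf37326 h37326
  have h37328 := checkRangeG_sound parWF r2 pf37327 h37327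
  have h37329 := checkRangeG_sound parWF r2 pf37328 h37328
  have h37330 := checkRangeG_sound parWF r2 pf37329 h37329
  have h37331 := checkRangeG_sound parWF r2 pf37330 h37330
  have h37332 := checkRangeG_sound parWF r2 pf37331 h37331
  have h37333 := checkRangeG_sound parWF r2 pf37332 h37332
  have h37334 := checkRangeG_sound parWF r2 pf37333 h37333
  have h37335 := checkRangeG_sound parWF r2 pf37334 h37334
  have h37336 := checkRangeG_sound parWF r2 pf37335 h37335
  have h37337 := checkRangeG_sound parWF r2 pf37336 h37336
  have h37338 := checkRangeG_sound parWF r2 pf37337 h37337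
  have h37339 := checkRangeG_sound parWF r2 pf37338 h37338
  have h37340 := checkRangeG_sound parWF r2 pf37339 h37339
  have h37341 := checkRangeG_sound parWF r2 pf37340 h37340
  have h37342 := checkRangeG_sound parWF r2 pf37341 h37341
  have h37343 := checkRangeG_sound parWF r2 pf37342 h37342
  have h37344 := checkRangeG_sound parWF r2 pf37343 h37343
  have h37345 := checkRangeG_sound parWF r2 pf37344 h37344
  have h37346 := checkRangeG_sound parWF r2 pf37345 h37345
  have h37347 := checkRangeG_sound parWF r2 pf37346 h37346
  have h37348 := checkRangeG_sound parWF r2 pf37347 h37347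
  have h37349 := checkRangeG_sound parWF r2 pf37348 h37348
  have h37350 := checkRangeG_sound parWF r2 pf37349 h37349
  exact h37350

theorem c747 (h37350 : ∀ j, j < 125931 → GoodG.{u} par (db j)) : ∀ j, j < 126143 → GoodG.{u} par (db j) := by
  have h37351 := checkRangeG_sound parWF r2 pf37350 h37350
  have h37352 := checkRangeG_sound parWF r2 pf37351 h37351
  have h37353 := checkRangeG_sound parWF r2 pf37352 h37352
  have h37354 := checkRangeG_sound parWF r2 pf37353 h37353
  have h37355 := checkRangeG_sound parWF r2 pf37354 h37354
  have h37356 := checkRangeG_sound parWF r2 pf37355 h37355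
  have h37357 := checkRangeG_sound parWF r2 pf37356 h37356
  have h37358 := checkRangeG_sound parWF r2 pf37357 h37357
  have h37359 := checkRangeG_sound parWF r2 pf37358 h37358
  have h37360 := checkRangeG_sound parWF r2 pf37359 h37359
  have h37361 := checkRangeG_sound parWF r2 pf37360 h37360
  have h37362 := checkRangeG_sound parWF r2 pf37361 h37361
  have h37363 := checkRangeG_sound parWF r2 pf37362 h37362
  have h37364 := checkRangeG_sound parWF r2 pf37363 h37363
  have h37365 := checkRangeG_sound parWF r2 pf37364 h37364
  have h37366 := checkRangeG_sound parWF r2 pf37365 h37365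
  have h37367 := checkRangeG_sound parWF r2 pf37366 h37366
  have h37368 := checkRangeG_sound parWF r2 pf37367 h37367
  have h37369 := checkRangeG_sound parWF r2 pf37368 h37368
  have h37370 := checkRangeG_sound parWF r2 pf37369 h37369
  have h37371 := checkRangeG_sound parWF r2 pf37370 h37370
  have h37372 := checkRangeG_sound parWF r2 pf37371 h37371
  have h37373 := checkRangeG_sound parWF r2 pf37372 h37372
  have h37374 := checkRangeG_sound parWF r2 pf37373 h37373
  have h37375 := checkRangeG_sound parWF r2 pf37374 h37374
  have h37376 := checkRangeG_sound parWF r2 pf37375 h37375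
  have h37377 := checkRangeG_sound parWF r2 pf37376 h37376
  have h37378 := checkRangeG_sound parWF r2 pf37377 h37377
  have h37379 := checkRangeG_sound parWF r2 pf37378 h37378
  have h37380 := checkRangeG_sound parWF r2 pf37379 h37379
  have h37381 := checkRangeG_sound parWF r2 pf37380 h37380
  have h37382 := checkRangeG_sound parWF r2 pf37381 h37381
  have h37383 := checkRangeG_sound parWF r2 pf37382 h37382
  have h37384 := checkRangeG_sound parWF r2 pf37383 h37383
  have h37385 := checkRangeG_sound parWF r2 pf37384 h37384
  have h37386 := checkRangeG_sound parWF r2 pf37385 h37385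
  have h37387 := checkRangeG_sound parWF r2 pf37386 h37386
  have h37388 := checkRangeG_sound parWF r2 pf37387 h37387
  have h37389 := checkRangeG_sound parWF r2 pf37388 h37388
  have h37390 := checkRangeG_sound parWF r2 pf37389 h37389
  have h37391 := checkRangeG_sound parWF r2 pf37390 h37390
  have h37392 := checkRangeG_sound parWF r2 pf37391 h37391
  have h37393 := checkRangeG_sound parWF r2 pf37392 h37392
  have h37394 := checkRangeG_sound parWF r2 pf37393 h37393
  have h37395 := checkRangeG_sound parWF r2 pf37394 h37394
  have h37396 := checkRangeG_sound parWF r2 pf37395 h37395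
  have h37397 := checkRangeG_sound parWF r2 pf37396 h37396
  have h37398 := checkRangeG_sound parWF r2 pf37397 h37397
  have h37399 := checkRangeG_sound parWF r2 pf37398 h37398
  have h37400 := checkRangeG_sound parWF r2 pf37399 h37399
  exact h37400

theorem c748 (h37400 : ∀ j, j < 126143 → GoodG.{u} par (db j)) : ∀ j, j < 126358 → GoodG.{u} par (db j) := by
  have h37401 := checkRangeG_sound parWF r2 pf37400 h37400
  have h37402 := checkRangeG_sound parWF r2 pf37401 h37401
  have h37403 := checkRangeG_sound parWF r2 pf37402 h37402
  have h37404 := checkRangeG_sound parWF r2 pf37403 h37403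
  have h37405 := checkRangeG_sound parWF r2 pf37404 h37404
  have h37406 := checkRangeG_sound parWF r2 pf37405 h37405
  have h37407 := checkRangeG_sound parWF r2 pf37406 h37406
  have h37408 := checkRangeG_sound parWF r2 pf37407 h37407
  have h37409 := checkRangeG_sound parWF r2 pf37408 h37408
  have h37410 := checkRangeG_sound parWF r2 pf37409 h37409
  have h37411 := checkRangeG_sound parWF r2 pf37410 h37410
  have h37412 := checkRangeG_sound parWF r2 pf37411 h37411
  have h37413 := checkRangeG_sound parWF r2 pf37412 h37412
  have h37414 := checkRangeG_sound parWF r2 pf37413 h37413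
  have h37415 := checkRangeG_sound parWF r2 pf37414 h37414
  have h37416 := checkRangeG_sound parWF r2 pf37415 h37415
  have h37417 := checkRangeG_sound parWF r2 pf37416 h37416
  have h37418 := checkRangeG_sound parWF r2 pf37417 h37417
  have h37419 := checkRangeG_sound parWF r2 pf37418 h37418
  have h37420 := checkRangeG_sound parWF r2 pf37419 h37419
  have h37421 := checkRangeG_sound parWF r2 pf37420 h37420
  have h37422 := checkRangeG_sound parWF r2 pf37421 h37421
  have h37423 := checkRangeG_sound parWF r2 pf37422 h37422
  have h37424 := checkRangeG_sound parWF r2 pf37423 h37423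
  have h37425 := checkRangeG_sound parWF r2 pf37424 h37424
  have h37426 := checkRangeG_sound parWF r2 pf37425 h37425
  have h37427 := checkRangeG_sound parWF r2 pf37426 h37426
  have h37428 := checkRangeG_sound parWF r2 pf37427 h37427
  have h37429 := checkRangeG_sound parWF r2 pf37428 h37428
  have h37430 := checkRangeG_sound parWF r2 pf37429 h37429
  have h37431 := checkRangeG_sound parWF r2 pf37430 h37430
  have h37432 := checkRangeG_sound parWF r2 pf37431 h37431
  have h37433 := checkRangeG_sound parWF r2 pf37432 h37432
  have h37434 := checkRangeG_sound parWF r2 pf37433 h37433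
  have h37435 := checkRangeG_sound parWF r2 pf37434 h37434
  have h37436 := checkRangeG_sound parWF r2 pf37435 h37435
  have h37437 := checkRangeG_sound parWF r2 pf37436 h37436
  have h37438 := checkRangeG_sound parWF r2 pf37437 h37437
  have h37439 := checkRangeG_sound parWF r2 pf37438 h37438
  have h37440 := checkRangeG_sound parWF r2 pf37439 h37439
  have h37441 := checkRangeG_sound parWF r2 pf37440 h37440
  have h37442 := checkRangeG_sound parWF r2 pf37441 h37441
  have h37443 := checkRangeG_sound parWF r2 pf37442 h37442
  have h37444 := checkRangeG_sound parWF r2 pf37443 h37443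
  have h37445 := checkRangeG_sound parWF r2 pf37444 h37444
  have h37446 := checkRangeG_sound parWF r2 pf37445 h37445
  have h37447 := checkRangeG_sound parWF r2 pf37446 h37446
  have h37448 := checkRangeG_sound parWF r2 pf37447 h37447
  have h37449 := checkRangeG_sound parWF r2 pf37448 h37448
  have h37450 := checkRangeG_sound parWF r2 pf37449 h37449
  exact h37450

theorem c749 (h37450 : ∀ j, j < 126358 → GoodG.{u} par (db j)) : ∀ j, j < 126586 → GoodG.{u} par (db j) := by
  have h37451 := checkRangeG_sound parWF r2 pf37450 h37450
  have h37452 := checkRangeG_sound parWF r2 pf37451 h37451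
  have h37453 := checkRangeG_sound parWF r2 pf37452 h37452
  have h37454 := checkRangeG_sound parWF r2 pf37453 h37453
  have h37455 := checkRangeG_sound parWF r2 pf37454 h37454
  have h37456 := checkRangeG_sound parWF r2 pf37455 h37455
  have h37457 := checkRangeG_sound parWF r2 pf37456 h37456
  have h37458 := checkRangeG_sound parWF r2 pf37457 h37457
  have h37459 := checkRangeG_sound parWF r2 pf37458 h37458
  have h37460 := checkRangeG_sound parWF r2 pf37459 h37459
  have h37461 := checkRangeG_sound parWF r2 pf37460 h37460
  have h37462 := checkRangeG_sound parWF r2 pf37461 h37461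
  have h37463 := checkRangeG_sound parWF r2 pf37462 h37462
  have h37464 := checkRangeG_sound parWF r2 pf37463 h37463
  have h37465 := checkRangeG_sound parWF r2 pf37464 h37464
  have h37466 := checkRangeG_sound parWF r2 pf37465 h37465
  have h37467 := checkRangeG_sound parWF r2 pf37466 h37466
  have h37468 := checkRangeG_sound parWF r2 pf37467 h37467
  have h37469 := checkRangeG_sound parWF r2 pf37468 h37468
  have h37470 := checkRangeG_sound parWF r2 pf37469 h37469
  have h37471 := checkRangeG_sound parWF r2 pf37470 h37470
  have h37472 := checkRangeG_sound parWF r2 pf37471 h37471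
  have h37473 := checkRangeG_sound parWF r2 pf37472 h37472
  have h37474 := checkRangeG_sound parWF r2 pf37473 h37473
  have h37475 := checkRangeG_sound parWF r2 pf37474 h37474
  have h37476 := checkRangeG_sound parWF r2 pf37475 h37475
  have h37477 := checkRangeG_sound parWF r2 pf37476 h37476
  have h37478 := checkRangeG_sound parWF r2 pf37477 h37477
  have h37479 := checkRangeG_sound parWF r2 pf37478 h37478
  have h37480 := checkRangeG_sound parWF r2 pf37479 h37479
  have h37481 := checkRangeG_sound parWF r2 pf37480 h37480
  have h37482 := checkRangeG_sound parWF r2 pf37481 h37481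
  have h37483 := checkRangeG_sound parWF r2 pf37482 h37482
  have h37484 := checkRangeG_sound parWF r2 pf37483 h37483
  have h37485 := checkRangeG_sound parWF r2 pf37484 h37484
  have h37486 := checkRangeG_sound parWF r2 pf37485 h37485
  have h37487 := checkRangeG_sound parWF r2 pf37486 h37486
  have h37488 := checkRangeG_sound parWF r2 pf37487 h37487
  have h37489 := checkRangeG_sound parWF r2 pf37488 h37488
  have h37490 := checkRangeG_sound parWF r2 pf37489 h37489
  have h37491 := checkRangeG_sound parWF r2 pf37490 h37490
  have h37492 := checkRangeG_sound parWF r2 pf37491 h37491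
  have h37493 := checkRangeG_sound parWF r2 pf37492 h37492
  have h37494 := checkRangeG_sound parWF r2 pf37493 h37493
  have h37495 := checkRangeG_sound parWF r2 pf37494 h37494
  have h37496 := checkRangeG_sound parWF r2 pf37495 h37495
  have h37497 := checkRangeG_sound parWF r2 pf37496 h37496
  have h37498 := checkRangeG_sound parWF r2 pf37497 h37497
  have h37499 := checkRangeG_sound parWF r2 pf37498 h37498
  have h37500 := checkRangeG_sound parWF r2 pf37499 h37499
  exact h37500

theorem c750 (h37500 : ∀ j, j < 126586 → GoodG.{u} par (db j)) : ∀ j, j < 126793 → GoodG.{u} par (db j) := by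
  have h37501 := checkRangeG_sound parWF r2 pf37500 h37500
  have h37502 := checkRangeG_sound parWF r2 pf37501 h37501
  have h37503 := checkRangeG_sound parWF r2 pf37502 h37502
  have h37504 := checkRangeG_sound parWF r2 pf37503 h37503
  have h37505 := checkRangeG_sound parWF r2 pf37504 h37504
  have h37506 := checkRangeG_sound parWF r2 pf37505 h37505
  have h37507 := checkRangeG_sound parWF r2 pf37506 h37506
  have h37508 := checkRangeG_sound parWF r2 pf37507 h37507
  have h37509 := checkRangeG_sound parWF r2 pf37508 h37508
  have h37510 := checkRangeG_sound parWF r2 pf37509 h37509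
  have h37511 := checkRangeG_sound parWF r2 pf37510 h37510
  have h37512 := checkRangeG_sound parWF r2 pf37511 h37511
  have h37513 := checkRangeG_sound parWF r2 pf37512 h37512
  have h37514 := checkRangeG_sound parWF r2 pf37513 h37513
  have h37515 := checkRangeG_sound parWF r2 pf37514 h37514
  have h37516 := checkRangeG_sound parWF r2 pf37515 h37515
  have h37517 := checkRangeG_sound parWF r2 pf37516 h37516
  have h37518 := checkRangeG_sound parWF r2 pf37517 h37517
  have h37519 := checkRangeG_sound parWF r2 pf37518 h37518
  have h37520 := checkRangeG_sound parWF r2 pf37519 h37519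
  have h37521 := checkRangeG_sound parWF r2 pf37520 h37520
  have h37522 := checkRangeG_sound parWF r2 pf37521 h37521
  have h37523 := checkRangeG_sound parWF r2 pf37522 h37522
  have h37524 := checkRangeG_sound parWF r2 pf37523 h37523
  have h37525 := checkRangeG_sound parWF r2 pf37524 h37524
  have h37526 := checkRangeG_sound parWF r2 pf37525 h37525
  have h37527 := checkRangeG_sound parWF r2 pf37526 h37526
  have h37528 := checkRangeG_sound parWF r2 pf37527 h37527
  have h37529 := checkRangeG_sound parWF r2 pf37528 h37528
  have h37530 := checkRangeG_sound parWF r2 pf37529 h37529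
  have h37531 := checkRangeG_sound parWF r2 pf37530 h37530
  have h37532 := checkRangeG_sound parWF r2 pf37531 h37531
  have h37533 := checkRangeG_sound parWF r2 pf37532 h37532
  have h37534 := checkRangeG_sound parWF r2 pf37533 h37533
  have h37535 := checkRangeG_sound parWF r2 pf37534 h37534
  have h37536 := checkRangeG_sound parWF r2 pf37535 h37535
  have h37537 := checkRangeG_sound parWF r2 pf37536 h37536
  have h37538 := checkRangeG_sound parWF r2 pf37537 h37537
  have h37539 := checkRangeG_sound parWF r2 pf37538 h37538
  have h37540 := checkRangeG_sound parWF r2 pf37539 h37539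
  have h37541 := checkRangeG_sound parWF r2 pf37540 h37540
  have h37542 := checkRangeG_sound parWF r2 pf37541 h37541
  have h37543 := checkRangeG_sound parWF r2 pf37542 h37542
  have h37544 := checkRangeG_sound parWF r2 pf37543 h37543
  have h37545 := checkRangeG_sound parWF r2 pf37544 h37544
  have h37546 := checkRangeG_sound parWF r2 pf37545 h37545
  have h37547 := checkRangeG_sound parWF r2 pf37546 h37546
  have h37548 := checkRangeG_sound parWF r2 pf37547 h37547
  have h37549 := checkRangeG_sound parWF r2 pf37548 h37548
  have h37550 := checkRangeG_sound parWF r2 pf37549 h37549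
  exact h37550

theorem c751 (h37550 : ∀ j, j < 126793 → GoodG.{u} par (db j)) : ∀ j, j < 126979 → GoodG.{u} par (db j) := by
  have h37551 := checkRangeG_sound parWF r2 pf37550 h37550
  have h37552 := checkRangeG_sound parWF r2 pf37551 h37551
  have h37553 := checkRangeG_sound parWF r2 pf37552 h37552
  have h37554 := checkRangeG_sound parWF r2 pf37553 h37553
  have h37555 := checkRangeG_sound parWF r2 pf37554 h37554
  have h37556 := checkRangeG_sound parWF r2 pf37555 h37555
  have h37557 := checkRangeG_sound parWF r2 pf37556 h37556
  have h37558 := checkRangeG_sound parWF r2 pf37557 h37557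
  have h37559 := checkRangeG_sound parWF r2 pf37558 h37558
  have h37560 := checkRangeG_sound parWF r2 pf37559 h37559
  have h37561 := checkRangeG_sound parWF r2 pf37560 h37560
  have h37562 := checkRangeG_sound parWF r2 pf37561 h37561
  have h37563 := checkRangeG_sound parWF r2 pf37562 h37562
  have h37564 := checkRangeG_sound parWF r2 pf37563 h37563
  have h37565 := checkRangeG_sound parWF r2 pf37564 h37564
  have h37566 := checkRangeG_sound parWF r2 pf37565 h37565
  have h37567 := checkRangeG_sound parWF r2 pf37566 h37566
  have h37568 := checkRangeG_sound parWF r2 pf37567 h37567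
  have h37569 := checkRangeG_sound parWF r2 pf37568 h37568
  have h37570 := checkRangeG_sound parWF r2 pf37569 h37569
  have h37571 := checkRangeG_sound parWF r2 pf37570 h37570
  have h37572 := checkRangeG_sound parWF r2 pf37571 h37571
  have h37573 := checkRangeG_sound parWF r2 pf37572 h37572
  have h37574 := checkRangeG_sound parWF r2 pf37573 h37573
  have h37575 := checkRangeG_sound parWF r2 pf37574 h37574
  have h37576 := checkRangeG_sound parWF r2 pf37575 h37575
  have h37577 := checkRangeG_sound parWF r2 pf37576 h37576
  have h37578 := checkRangeG_sound parWF r2 pf37577 h37577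
  have h37579 := checkRangeG_sound parWF r2 pf37578 h37578
  have h37580 := checkRangeG_sound parWF r2 pf37579 h37579
  have h37581 := checkRangeG_sound parWF r2 pf37580 h37580
  have h37582 := checkRangeG_sound parWF r2 pf37581 h37581
  have h37583 := checkRangeG_sound parWF r2 pf37582 h37582
  have h37584 := checkRangeG_sound parWF r2 pf37583 h37583
  have h37585 := checkRangeG_sound parWF r2 pf37584 h37584
  have h37586 := checkRangeG_sound parWF r2 pf37585 h37585
  have h37587 := checkRangeG_sound parWF r2 pf37586 h37586
  have h37588 := checkRangeG_sound parWF r2 pf37587 h37587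
  have h37589 := checkRangeG_sound parWF r2 pf37588 h37588
  have h37590 := checkRangeG_sound parWF r2 pf37589 h37589
  have h37591 := checkRangeG_sound parWF r2 pf37590 h37590
  have h37592 := checkRangeG_sound parWF r2 pf37591 h37591
  have h37593 := checkRangeG_sound parWF r2 pf37592 h37592
  have h37594 := checkRangeG_sound parWF r2 pf37593 h37593
  have h37595 := checkRangeG_sound parWF r2 pf37594 h37594
  have h37596 := checkRangeG_sound parWF r2 pf37595 h37595
  have h37597 := checkRangeG_sound parWF r2 pf37596 h37596
  have h37598 := checkRangeG_sound parWF r2 pf37597 h37597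
  have h37599 := checkRangeG_sound parWF r2 pf37598 h37598
  have h37600 := checkRangeG_sound parWF r2 pf37599 h37599
  exact h37600

theorem c752 (h37600 : ∀ j, j < 126979 → GoodG.{u} par (db j)) : ∀ j, j < 127155 → GoodG.{u} par (db j) := by
  have h37601 := checkRangeG_sound parWF r2 pf37600 h37600
  have h37602 := checkRangeG_sound parWF r2 pf37601 h37601
  have h37603 := checkRangeG_sound parWF r2 pf37602 h37602
  have h37604 := checkRangeG_sound parWF r2 pf37603 h37603
  have h37605 := checkRangeG_sound parWF r2 pf37604 h37604
  have h37606 := checkRangeG_sound parWF r2 pf37605 h37605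
  have h37607 := checkRangeG_sound parWF r2 pf37606 h37606
  have h37608 := checkRangeG_sound parWF r2 pf37607 h37607
  have h37609 := checkRangeG_sound parWF r2 pf37608 h37608
  have h37610 := checkRangeG_sound parWF r2 pf37609 h37609
  have h37611 := checkRangeG_sound parWF r2 pf37610 h37610
  have h37612 := checkRangeG_sound parWF r2 pf37611 h37611
  have h37613 := checkRangeG_sound parWF r2 pf37612 h37612
  have h37614 := checkRangeG_sound parWF r2 pf37613 h37613
  have h37615 := checkRangeG_sound parWF r2 pf37614 h37614
  have h37616 := checkRangeG_sound parWF r2 pf37615 h37615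
  have h37617 := checkRangeG_sound parWF r2 pf37616 h37616
  have h37618 := checkRangeG_sound parWF r2 pf37617 h37617
  have h37619 := checkRangeG_sound parWF r2 pf37618 h37618
  have h37620 := checkRangeG_sound parWF r2 pf37619 h37619
  have h37621 := checkRangeG_sound parWF r2 pf37620 h37620
  have h37622 := checkRangeG_sound parWF r2 pf37621 h37621
  have h37623 := checkRangeG_sound parWF r2 pf37622 h37622
  have h37624 := checkRangeG_sound parWF r2 pf37623 h37623
  have h37625 := checkRangeG_sound parWF r2 pf37624 h37624
  have h37626 := checkRangeG_sound parWF r2 pf37625 h37625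
  have h37627 := checkRangeG_sound parWF r2 pf37626 h37626
  have h37628 := checkRangeG_sound parWF r2 pf37627 h37627
  have h37629 := checkRangeG_sound parWF r2 pf37628 h37628
  have h37630 := checkRangeG_sound parWF r2 pf37629 h37629
  have h37631 := checkRangeG_sound parWF r2 pf37630 h37630
  have h37632 := checkRangeG_sound parWF r2 pf37631 h37631
  have h37633 := checkRangeG_sound parWF r2 pf37632 h37632
  have h37634 := checkRangeG_sound parWF r2 pf37633 h37633
  have h37635 := checkRangeG_sound parWF r2 pf37634 h37634
  have h37636 := checkRangeG_sound parWF r2 pf37635 h37635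
  have h37637 := checkRangeG_sound parWF r2 pf37636 h37636
  have h37638 := checkRangeG_sound parWF r2 pf37637 h37637
  have h37639 := checkRangeG_sound parWF r2 pf37638 h37638
  have h37640 := checkRangeG_sound parWF r2 pf37639 h37639
  have h37641 := checkRangeG_sound parWF r2 pf37640 h37640
  have h37642 := checkRangeG_sound parWF r2 pf37641 h37641
  have h37643 := checkRangeG_sound parWF r2 pf37642 h37642
  have h37644 := checkRangeG_sound parWF r2 pf37643 h37643
  have h37645 := checkRangeG_sound parWF r2 pf37644 h37644
  have h37646 := checkRangeG_sound parWF r2 pf37645 h37645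
  have h37647 := checkRangeG_sound parWF r2 pf37646 h37646
  have h37648 := checkRangeG_sound parWF r2 pf37647 h37647
  have h37649 := checkRangeG_sound parWF r2 pf37648 h37648
  have h37650 := checkRangeG_sound parWF r2 pf37649 h37649
  exact h37650

theorem c753 (h37650 : ∀ j, j < 127155 → GoodG.{u} par (db j)) : ∀ j, j < 127325 → GoodG.{u} par (db j) := by
  have h37651 := checkRangeG_sound parWF r2 pf37650 h37650
  have h37652 := checkRangeG_sound parWF r2 pf37651 h37651
  have h37653 := checkRangeG_sound parWF r2 pf37652 h37652
  have h37654 := checkRangeG_sound parWF r2 pf37653 h37653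
  have h37655 := checkRangeG_sound parWF r2 pf37654 h37654
  have h37656 := checkRangeG_sound parWF r2 pf37655 h37655
  have h37657 := checkRangeG_sound parWF r2 pf37656 h37656
  have h37658 := checkRangeG_sound parWF r2 pf37657 h37657
  have h37659 := checkRangeG_sound parWF r2 pf37658 h37658
  have h37660 := checkRangeG_sound parWF r2 pf37659 h37659
  have h37661 := checkRangeG_sound parWF r2 pf37660 h37660
  have h37662 := checkRangeG_sound parWF r2 pf37661 h37661
  have h37663 := checkRangeG_sound parWF r2 pf37662 h37662
  have h37664 := checkRangeG_sound parWF r2 pf37663 h37663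
  have h37665 := checkRangeG_sound parWF r2 pf37664 h37664
  have h37666 := checkRangeG_sound parWF r2 pf37665 h37665
  have h37667 := checkRangeG_sound parWF r2 pf37666 h37666
  have h37668 := checkRangeG_sound parWF r2 pf37667 h37667
  have h37669 := checkRangeG_sound parWF r2 pf37668 h37668
  have h37670 := checkRangeG_sound parWF r2 pf37669 h37669
  have h37671 := checkRangeG_sound parWF r2 pf37670 h37670
  have h37672 := checkRangeG_sound parWF r2 pf37671 h37671
  have h37673 := checkRangeG_sound parWF r2 pf37672 h37672
  have h37674 := checkRangeG_sound parWF r2 pf37673 h37673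
  have h37675 := checkRangeG_sound parWF r2 pf37674 h37674
  have h37676 := checkRangeG_sound parWF r2 pf37675 h37675
  have h37677 := checkRangeG_sound parWF r2 pf37676 h37676
  have h37678 := checkRangeG_sound parWF r2 pf37677 h37677
  have h37679 := checkRangeG_sound parWF r2 pf37678 h37678
  have h37680 := checkRangeG_sound parWF r2 pf37679 h37679
  have h37681 := checkRangeG_sound parWF r2 pf37680 h37680
  have h37682 := checkRangeG_sound parWF r2 pf37681 h37681
  have h37683 := checkRangeG_sound parWF r2 pf37682 h37682
  have h37684 := checkRangeG_sound parWF r2 pf37683 h37683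
  have h37685 := checkRangeG_sound parWF r2 pf37684 h37684
  have h37686 := checkRangeG_sound parWF r2 pf37685 h37685
  have h37687 := checkRangeG_sound parWF r2 pf37686 h37686
  have h37688 := checkRangeG_sound parWF r2 pf37687 h37687
  have h37689 := checkRangeG_sound parWF r2 pf37688 h37688
  have h37690 := checkRangeG_sound parWF r2 pf37689 h37689
  have h37691 := checkRangeG_sound parWF r2 pf37690 h37690
  have h37692 := checkRangeG_sound parWF r2 pf37691 h37691
  have h37693 := checkRangeG_sound parWF r2 pf37692 h37692
  have h37694 := checkRangeG_sound parWF r2 pf37693 h37693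
  have h37695 := checkRangeG_sound parWF r2 pf37694 h37694
  have h37696 := checkRangeG_sound parWF r2 pf37695 h37695
  have h37697 := checkRangeG_sound parWF r2 pf37696 h37696
  have h37698 := checkRangeG_sound parWF r2 pf37697 h37697
  have h37699 := checkRangeG_sound parWF r2 pf37698 h37698
  have h37700 := checkRangeG_sound parWF r2 pf37699 h37699
  exact h37700

theorem c754 (h37700 : ∀ j, j < 127325 → GoodG.{u} par (db j)) : ∀ j, j < 127513 → GoodG.{u} par (db j) := by
  have h37701 := checkRangeG_sound parWF r2 pf37700 h37700
  have h37702 := checkRangeG_sound parWF r2 pf37701 h37701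
  have h37703 := checkRangeG_sound parWF r2 pf37702 h37702
  have h37704 := checkRangeG_sound parWF r2 pf37703 h37703
  have h37705 := checkRangeG_sound parWF r2 pf37704 h37704
  have h37706 := checkRangeG_sound parWF r2 pf37705 h37705
  have h37707 := checkRangeG_sound parWF r2 pf37706 h37706
  have h37708 := checkRangeG_sound parWF r2 pf37707 h37707
  have h37709 := checkRangeG_sound parWF r2 pf37708 h37708
  have h37710 := checkRangeG_sound parWF r2 pf37709 h37709
  have h37711 := checkRangeG_sound parWF r2 pf37710 h37710
  have h37712 := checkRangeG_sound parWF r2 pf37711 h37711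
  have h37713 := checkRangeG_sound parWF r2 pf37712 h37712
  have h37714 := checkRangeG_sound parWF r2 pf37713 h37713
  have h37715 := checkRangeG_sound parWF r2 pf37714 h37714
  have h37716 := checkRangeG_sound parWF r2 pf37715 h37715
  have h37717 := checkRangeG_sound parWF r2 pf37716 h37716
  have h37718 := checkRangeG_sound parWF r2 pf37717 h37717
  have h37719 := checkRangeG_sound parWF r2 pf37718 h37718
  have h37720 := checkRangeG_sound parWF r2 pf37719 h37719
  have h37721 := checkRangeG_sound parWF r2 pf37720 h37720
  have h37722 := checkRangeG_sound parWF r2 pf37721 h37721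
  have h37723 := checkRangeG_sound parWF r2 pf37722 h37722
  have h37724 := checkRangeG_sound parWF r2 pf37723 h37723
  have h37725 := checkRangeG_sound parWF r2 pf37724 h37724
  have h37726 := checkRangeG_sound parWF r2 pf37725 h37725
  have h37727 := checkRangeG_sound parWF r2 pf37726 h37726
  have h37728 := checkRangeG_sound parWF r2 pf37727 h37727
  have h37729 := checkRangeG_sound parWF r2 pf37728 h37728
  have h37730 := checkRangeG_sound parWF r2 pf37729 h37729
  have h37731 := checkRangeG_sound parWF r2 pf37730 h37730
  have h37732 := checkRangeG_sound parWF r2 pf37731 h37731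
  have h37733 := checkRangeG_sound parWF r2 pf37732 h37732
  have h37734 := checkRangeG_sound parWF r2 pf37733 h37733
  have h37735 := checkRangeG_sound parWF r2 pf37734 h37734
  have h37736 := checkRangeG_sound parWF r2 pf37735 h37735
  have h37737 := checkRangeG_sound parWF r2 pf37736 h37736
  have h37738 := checkRangeG_sound parWF r2 pf37737 h37737
  have h37739 := checkRangeG_sound parWF r2 pf37738 h37738
  have h37740 := checkRangeG_sound parWF r2 pf37739 h37739
  have h37741 := checkRangeG_sound parWF r2 pf37740 h37740
  have h37742 := checkRangeG_sound parWF r2 pf37741 h37741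
  have h37743 := checkRangeG_sound parWF r2 pf37742 h37742
  have h37744 := checkRangeG_sound parWF r2 pf37743 h37743
  have h37745 := checkRangeG_sound parWF r2 pf37744 h37744
  have h37746 := checkRangeG_sound parWF r2 pf37745 h37745
  have h37747 := checkRangeG_sound parWF r2 pf37746 h37746
  have h37748 := checkRangeG_sound parWF r2 pf37747 h37747
  have h37749 := checkRangeG_sound parWF r2 pf37748 h37748
  have h37750 := checkRangeG_sound parWF r2 pf37749 h37749
  exact h37750

theorem c755 (h37750 : ∀ j, j < 127513 → GoodG.{u} par (db j)) : ∀ j, j < 127692 → GoodG.{u} par (db j) := by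
  have h37751 := checkRangeG_sound parWF r2 pf37750 h37750
  have h37752 := checkRangeG_sound parWF r2 pf37751 h37751
  have h37753 := checkRangeG_sound parWF r2 pf37752 h37752
  have h37754 := checkRangeG_sound parWF r2 pf37753 h37753
  have h37755 := checkRangeG_sound parWF r2 pf37754 h37754
  have h37756 := checkRangeG_sound parWF r2 pf37755 h37755
  have h37757 := checkRangeG_sound parWF r2 pf37756 h37756
  have h37758 := checkRangeG_sound parWF r2 pf37757 h37757
  have h37759 := checkRangeG_sound parWF r2 pf37758 h37758
  have h37760 := checkRangeG_sound parWF r2 pf37759 h37759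
  have h37761 := checkRangeG_sound parWF r2 pf37760 h37760
  have h37762 := checkRangeG_sound parWF r2 pf37761 h37761
  have h37763 := checkRangeG_sound parWF r2 pf37762 h37762
  have h37764 := checkRangeG_sound parWF r2 pf37763 h37763
  have h37765 := checkRangeG_sound parWF r2 pf37764 h37764
  have h37766 := checkRangeG_sound parWF r2 pf37765 h37765
  have h37767 := checkRangeG_sound parWF r2 pf37766 h37766
  have h37768 := checkRangeG_sound parWF r2 pf37767 h37767
  have h37769 := checkRangeG_sound parWF r2 pf37768 h37768
  have h37770 := checkRangeG_sound parWF r2 pf37769 h37769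
  have h37771 := checkRangeG_sound parWF r2 pf37770 h37770
  have h37772 := checkRangeG_sound parWF r2 pf37771 h37771
  have h37773 := checkRangeG_sound parWF r2 pf37772 h37772
  have h37774 := checkRangeG_sound parWF r2 pf37773 h37773
  have h37775 := checkRangeG_sound parWF r2 pf37774 h37774
  have h37776 := checkRangeG_sound parWF r2 pf37775 h37775
  have h37777 := checkRangeG_sound parWF r2 pf37776 h37776
  have h37778 := checkRangeG_sound parWF r2 pf37777 h37777
  have h37779 := checkRangeG_sound parWF r2 pf37778 h37778
  have h37780 := checkRangeG_sound parWF r2 pf37779 h37779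
  have h37781 := checkRangeG_sound parWF r2 pf37780 h37780
  have h37782 := checkRangeG_sound parWF r2 pf37781 h37781
  have h37783 := checkRangeG_sound parWF r2 pf37782 h37782
  have h37784 := checkRangeG_sound parWF r2 pf37783 h37783
  have h37785 := checkRangeG_sound parWF r2 pf37784 h37784
  have h37786 := checkRangeG_sound parWF r2 pf37785 h37785
  have h37787 := checkRangeG_sound parWF r2 pf37786 h37786
  have h37788 := checkRangeG_sound parWF r2 pf37787 h37787
  have h37789 := checkRangeG_sound parWF r2 pf37788 h37788
  have h37790 := checkRangeG_sound parWF r2 pf37789 h37789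
  have h37791 := checkRangeG_sound parWF r2 pf37790 h37790
  have h37792 := checkRangeG_sound parWF r2 pf37791 h37791
  have h37793 := checkRangeG_sound parWF r2 pf37792 h37792
  have h37794 := checkRangeG_sound parWF r2 pf37793 h37793
  have h37795 := checkRangeG_sound parWF r2 pf37794 h37794
  have h37796 := checkRangeG_sound parWF r2 pf37795 h37795
  have h37797 := checkRangeG_sound parWF r2 pf37796 h37796
  have h37798 := checkRangeG_sound parWF r2 pf37797 h37797
  have h37799 := checkRangeG_sound parWF r2 pf37798 h37798
  have h37800 := checkRangeG_sound parWF r2 pf37799 h37799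
  exact h37800


end Vale.Agent.P045g.C61
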