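import Vale.Agent.P045g.C61.WF
import Vale.Agent.P045g.C61.Pf630
import Vale.Agent.P045g.C61.Pf631
import Vale.Agent.P045g.C61.Pf632
import Vale.Agent.P045g.C61.Pf633
import Vale.Agent.P045g.C61.Pf634
import Vale.Agent.P045g.C61.Pf635
import Vale.Agent.P045g.C61.Pf636
import Vale.Agent.P045g.C61.Pf637
import Vale.Agent.P045g.C61.Pf638
import Vale.Agent.P045g.C61.Pf639

namespace Vale.Agent.P045g.C61

open Vale.Agent.P045b Vale.Agent.P045g

universe u

theorem c756 (h37800 : ∀ j, j < 127692 → GoodG.{u} par (db j)) : ∀ j, j < 127887 → GoodG.{u} par (db j) := by
  have h37801 := checkRangeG_sound parWF r2 pf37800 h37800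
  have h37802 := checkRangeG_sound parWF r2 pf37801 h37801
  have h37803 := checkRangeG_sound parWF r2 pf37802 h37802
  have h37804 := checkRangeG_sound parWF r2 pf37803 h37803
  have h37805 := checkRangeG_sound parWF r2 pf37804 h37804
  have h37806 := checkRangeG_sound parWF r2 pf37805 h37805
  have h37807 := checkRangeG_sound parWF r2 pf37806 h37806
  have h37808 := checkRangeG_sound parWF r2 pf37807 h37807
  have h37809 := checkRangeG_sound parWF r2 pf37808 h37808
  have h37810 := checkRangeG_sound parWF r2 pf37809 h37809
  have h37811 := checkRangeG_sound parWF r2 pf37810 h37810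
  have h37812 := checkRangeG_sound parWF r2 pf37811 h37811
  have h37813 := checkRangeG_sound parWF r2 pf37812 h37812
  have h37814 := checkRangeG_sound parWF r2 pf37813 h37813
  have h37815 := checkRangeG_sound parWF r2 pf37814 h37814
  have h37816 := checkRangeG_sound parWF r2 pf37815 h37815
  have h37817 := checkRangeG_sound parWF r2 pf37816 h37816
  have h37818 := checkRangeG_sound parWF r2 pf37817 h37817
  have h37819 := checkRangeG_sound parWF r2 pf37818 h37818
  have h37820 := checkRangeG_sound parWF r2 pf37819 h37819
  have h37821 := checkRangeG_sound parWF r2 pf37820 h37820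
  have h37822 := checkRangeG_sound parWF r2 pf37821 h37821
  have h37823 := checkRangeG_sound parWF r2 pf37822 h37822
  have h37824 := checkRangeG_sound parWF r2 pf37823 h37823
  have h37825 := checkRangeG_sound parWF r2 pf37824 h37824
  have h37826 := checkRangeG_sound parWF r2 pf37825 h37825
  have h37827 := checkRangeG_sound parWF r2 pf37826 h37826
  have h37828 := checkRangeG_sound parWF r2 pf37827 h37827
  have h37829 := checkRangeG_sound parWF r2 pf37828 h37828
  have h37830 := checkRangeG_sound parWF r2 pf37829 h37829
  have h37831 := checkRangeG_sound parWF r2 pf37830 h37830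
  have h37832 := checkRangeG_sound parWF r2 pf37831 h37831
  have h37833 := checkRangeG_sound parWF r2 pf37832 h37832
  have h37834 := checkRangeG_sound parWF r2 pf37833 h37833
  have h37835 := checkRangeG_sound parWF r2 pf37834 h37834
  have h37836 := checkRangeG_sound parWF r2 pf37835 h37835
  have h37837 := checkRangeG_sound parWF r2 pf37836 h37836
  have h37838 := checkRangeG_sound parWF r2 pf37837 h37837
  have h37839 := checkRangeG_sound parWF r2 pf37838 h37838
  have h37840 := checkRangeG_sound parWF r2 pf37839 h37839
  have h37841 := checkRangeG_sound parWF r2 pf37840 h37840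
  have h37842 := checkRangeG_sound parWF r2 pf37841 h37841
  have h37843 := checkRangeG_sound parWF r2 pf37842 h37842
  have h37844 := checkRangeG_sound parWF r2 pf37843 h37843
  have h37845 := checkRangeG_sound parWF r2 pf37844 h37844
  have h37846 := checkRangeG_sound parWF r2 pf37845 h37845
  have h37847 := checkRangeG_sound parWF r2 pf37846 h37846
  have h37848 := checkRangeG_sound parWF r2 pf37847 h37847
  have h37849 := checkRangeG_sound parWF r2 pf37848 h37848
  have h37850 := checkRangeG_sound parWF r2 pf37849 h37849
  exact h37850

theorem c757 (h37850 : ∀ j, j < 127887 → GoodG.{u} par (db j)) : ∀ j, j < 128070 → GoodG.{u} par (db j) := by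
  have h37851 := checkRangeG_sound parWF r2 pf37850 h37850
  have h37852 := checkRangeG_sound parWF r2 pf37851 h37851
  have h37853 := checkRangeG_sound parWF r2 pf37852 h37852
  have h37854 := checkRangeG_sound parWF r2 pf37853 h37853
  have h37855 := checkRangeG_sound parWF r2 pf37854 h37854
  have h37856 := checkRangeG_sound parWF r2 pf37855 h37855
  have h37857 := checkRangeG_sound parWF r2 pf37856 h37856
  have h37858 := checkRangeG_sound parWF r2 pf37857 h37857
  have h37859 := checkRangeG_sound parWF r2 pf37858 h37858
  have h37860 := checkRangeG_sound parWF r2 pf37859 h37859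
  have h37861 := checkRangeG_sound parWF r2 pf37860 h37860
  have h37862 := checkRangeG_sound parWF r2 pf37861 h37861
  have h37863 := checkRangeG_sound parWF r2 pf37862 h37862
  have h37864 := checkRangeG_sound parWF r2 pf37863 h37863
  have h37865 := checkRangeG_sound parWF r2 pf37864 h37864
  have h37866 := checkRangeG_sound parWF r2 pf37865 h37865
  have h37867 := checkRangeG_sound parWF r2 pf37866 h37866
  have h37868 := checkRangeG_sound parWF r2 pf37867 h37867
  have h37869 := checkRangeG_sound parWF r2 pf37868 h37868
  have h37870 := checkRangeG_sound parWF r2 pf37869 h37869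
  have h37871 := checkRangeG_sound parWF r2 pf37870 h37870
  have h37872 := checkRangeG_sound parWF r2 pf37871 h37871
  have h37873 := checkRangeG_sound parWF r2 pf37872 h37872
  have h37874 := checkRangeG_sound parWF r2 pf37873 h37873
  have h37875 := checkRangeG_sound parWF r2 pf37874 h37874
  have h37876 := checkRangeG_sound parWF r2 pf37875 h37875
  have h37877 := checkRangeG_sound parWF r2 pf37876 h37876
  have h37878 := checkRangeG_sound parWF r2 pf37877 h37877
  have h37879 := checkRangeG_sound parWF r2 pf37878 h37878
  have h37880 := checkRangeG_sound parWF r2 pf37879 h37879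
  have h37881 := checkRangeG_sound parWF r2 pf37880 h37880
  have h37882 := checkRangeG_sound parWF r2 pf37881 h37881
  have h37883 := checkRangeG_sound parWF r2 pf37882 h37882
  have h37884 := checkRangeG_sound parWF r2 pf37883 h37883
  have h37885 := checkRangeG_sound parWF r2 pf37884 h37884
  have h37886 := checkRangeG_sound parWF r2 pf37885 h37885
  have h37887 := checkRangeG_sound parWF r2 pf37886 h37886
  have h37888 := checkRangeG_sound parWF r2 pf37887 h37887
  have h37889 := checkRangeG_sound parWF r2 pf37888 h37888
  have h37890 := checkRangeG_sound parWF r2 pf37889 h37889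
  have h37891 := checkRangeG_sound parWF r2 pf37890 h37890
  have h37892 := checkRangeG_sound parWF r2 pf37891 h37891
  have h37893 := checkRangeG_sound parWF r2 pf37892 h37892
  have h37894 := checkRangeG_sound parWF r2 pf37893 h37893
  have h37895 := checkRangeG_sound parWF r2 pf37894 h37894
  have h37896 := checkRangeG_sound parWF r2 pf37895 h37895
  have h37897 := checkRangeG_sound parWF r2 pf37896 h37896
  have h37898 := checkRangeG_sound parWF r2 pf37897 h37897
  have h37899 := checkRangeG_sound parWF r2 pf37898 h37898
  have h37900 := checkRangeG_sound parWF r2 pf37899 h37899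
  exact h37900

theorem c758 (h37900 : ∀ j, j < 128070 → GoodG.{u} par (db j)) : ∀ j, j < 128253 → GoodG.{u} par (db j) := by
  have h37901 := checkRangeG_sound parWF r2 pf37900 h37900
  have h37902 := checkRangeG_sound parWF r2 pf37901 h37901
  have h37903 := checkRangeG_sound parWF r2 pf37902 h37902
  have h37904 := checkRangeG_sound parWF r2 pf37903 h37903
  have h37905 := checkRangeG_sound parWF r2 pf37904 h37904
  have h37906 := checkRangeG_sound parWF r2 pf37905 h37905
  have h37907 := checkRangeG_sound parWF r2 pf37906 h37906
  have h37908 := checkRangeG_sound parWF r2 pf37907 h37907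
  have h37909 := checkRangeG_sound parWF r2 pf37908 h37908
  have h37910 := checkRangeG_sound parWF r2 pf37909 h37909
  have h37911 := checkRangeG_sound parWF r2 pf37910 h37910
  have h37912 := checkRangeG_sound parWF r2 pf37911 h37911
  have h37913 := checkRangeG_sound parWF r2 pf37912 h37912
  have h37914 := checkRangeG_sound parWF r2 pf37913 h37913
  have h37915 := checkRangeG_sound parWF r2 pf37914 h37914
  have h37916 := checkRangeG_sound parWF r2 pf37915 h37915
  have h37917 := checkRangeG_sound parWF r2 pf37916 h37916
  have h37918 := checkRangeG_sound parWF r2 pf37917 h37917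
  have h37919 := checkRangeG_sound parWF r2 pf37918 h37918
  have h37920 := checkRangeG_sound parWF r2 pf37919 h37919
  have h37921 := checkRangeG_sound parWF r2 pf37920 h37920
  have h37922 := checkRangeG_sound parWF r2 pf37921 h37921
  have h37923 := checkRangeG_sound parWF r2 pf37922 h37922
  have h37924 := checkRangeG_sound parWF r2 pf37923 h37923
  have h37925 := checkRangeG_sound parWF r2 pf37924 h37924
  have h37926 := checkRangeG_sound parWF r2 pf37925 h37925
  have h37927 := checkRangeG_sound parWF r2 pf37926 h37926
  have h37928 := checkRangeG_sound parWF r2 pf37927 h37927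
  have h37929 := checkRangeG_sound parWF r2 pf37928 h37928
  have h37930 := checkRangeG_sound parWF r2 pf37929 h37929
  have h37931 := checkRangeG_sound parWF r2 pf37930 h37930
  have h37932 := checkRangeG_sound parWF r2 pf37931 h37931
  have h37933 := checkRangeG_sound parWF r2 pf37932 h37932
  have h37934 := checkRangeG_sound parWF r2 pf37933 h37933
  have h37935 := checkRangeG_sound parWF r2 pf37934 h37934
  have h37936 := checkRangeG_sound parWF r2 pf37935 h37935
  have h37937 := checkRangeG_sound parWF r2 pf37936 h37936
  have h37938 := checkRangeG_sound parWF r2 pf37937 h37937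
  have h37939 := checkRangeG_sound parWF r2 pf37938 h37938
  have h37940 := checkRangeG_sound parWF r2 pf37939 h37939
  have h37941 := checkRangeG_sound parWF r2 pf37940 h37940
  have h37942 := checkRangeG_sound parWF r2 pf37941 h37941
  have h37943 := checkRangeG_sound parWF r2 pf37942 h37942
  have h37944 := checkRangeG_sound parWF r2 pf37943 h37943
  have h37945 := checkRangeG_sound parWF r2 pf37944 h37944
  have h37946 := checkRangeG_sound parWF r2 pf37945 h37945
  have h37947 := checkRangeG_sound parWF r2 pf37946 h37946
  have h37948 := checkRangeG_sound parWF r2 pf37947 h37947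
  have h37949 := checkRangeG_sound parWF r2 pf37948 h37948
  have h37950 := checkRangeG_sound parWF r2 pf37949 h37949
  exact h37950

theorem c759 (h37950 : ∀ j, j < 128253 → GoodG.{u} par (db j)) : ∀ j, j < 128441 → GoodG.{u} par (db j) := by
  have h37951 := checkRangeG_sound parWF r2 pf37950 h37950
  have h37952 := checkRangeG_sound parWF r2 pf37951 h37951
  have h37953 := checkRangeG_sound parWF r2 pf37952 h37952
  have h37954 := checkRangeG_sound parWF r2 pf37953 h37953
  have h37955 := checkRangeG_sound parWF r2 pf37954 h37954
  have h37956 := checkRangeG_sound parWF r2 pf37955 h37955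
  have h37957 := checkRangeG_sound parWF r2 pf37956 h37956
  have h37958 := checkRangeG_sound parWF r2 pf37957 h37957
  have h37959 := checkRangeG_sound parWF r2 pf37958 h37958
  have h37960 := checkRangeG_sound parWF r2 pf37959 h37959
  have h37961 := checkRangeG_sound parWF r2 pf37960 h37960
  have h37962 := checkRangeG_sound parWF r2 pf37961 h37961
  have h37963 := checkRangeG_sound parWF r2 pf37962 h37962
  have h37964 := checkRangeG_sound parWF r2 pf37963 h37963
  have h37965 := checkRangeG_sound parWF r2 pf37964 h37964
  have h37966 := checkRangeG_sound parWF r2 pf37965 h37965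
  have h37967 := checkRangeG_sound parWF r2 pf37966 h37966
  have h37968 := checkRangeG_sound parWF r2 pf37967 h37967
  have h37969 := checkRangeG_sound parWF r2 pf37968 h37968
  have h37970 := checkRangeG_sound parWF r2 pf37969 h37969
  have h37971 := checkRangeG_sound parWF r2 pf37970 h37970
  have h37972 := checkRangeG_sound parWF r2 pf37971 h37971
  have h37973 := checkRangeG_sound parWF r2 pf37972 h37972
  have h37974 := checkRangeG_sound parWF r2 pf37973 h37973
  have h37975 := checkRangeG_sound parWF r2 pf37974 h37974
  have h37976 := checkRangeG_sound parWF r2 pf37975 h37975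
  have h37977 := checkRangeG_sound parWF r2 pf37976 h37976
  have h37978 := checkRangeG_sound parWF r2 pf37977 h37977
  have h37979 := checkRangeG_sound parWF r2 pf37978 h37978
  have h37980 := checkRangeG_sound parWF r2 pf37979 h37979
  have h37981 := checkRangeG_sound parWF r2 pf37980 h37980
  have h37982 := checkRangeG_sound parWF r2 pf37981 h37981
  have h37983 := checkRangeG_sound parWF r2 pf37982 h37982
  have h37984 := checkRangeG_sound parWF r2 pf37983 h37983
  have h37985 := checkRangeG_sound parWF r2 pf37984 h37984
  have h37986 := checkRangeG_sound parWF r2 pf37985 h37985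
  have h37987 := checkRangeG_sound parWF r2 pf37986 h37986
  have h37988 := checkRangeG_sound parWF r2 pf37987 h37987
  have h37989 := checkRangeG_sound parWF r2 pf37988 h37988
  have h37990 := checkRangeG_sound parWF r2 pf37989 h37989
  have h37991 := checkRangeG_sound parWF r2 pf37990 h37990
  have h37992 := checkRangeG_sound parWF r2 pf37991 h37991
  have h37993 := checkRangeG_sound parWF r2 pf37992 h37992
  have h37994 := checkRangeG_sound parWF r2 pf37993 h37993
  have h37995 := checkRangeG_sound parWF r2 pf37994 h37994
  have h37996 := checkRangeG_sound parWF r2 pf37995 h37995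
  have h37997 := checkRangeG_sound parWF r2 pf37996 h37996
  have h37998 := checkRangeG_sound parWF r2 pf37997 h37997
  have h37999 := checkRangeG_sound parWF r2 pf37998 h37998
  have h38000 := checkRangeG_sound parWF r2 pf37999 h37999
  exact h38000

theorem c760 (h38000 : ∀ j, j < 128441 → GoodG.{u} par (db j)) : ∀ j, j < 128648 → GoodG.{u} par (db j) := by
  have h38001 := checkRangeG_sound parWF r2 pf38000 h38000
  have h38002 := checkRangeG_sound parWF r2 pf38001 h38001
  have h38003 := checkRangeG_sound parWF r2 pf38002 h38002
  have h38004 := checkRangeG_sound parWF r2 pf38003 h38003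
  have h38005 := checkRangeG_sound parWF r2 pf38004 h38004
  have h38006 := checkRangeG_sound parWF r2 pf38005 h38005
  have h38007 := checkRangeG_sound parWF r2 pf38006 h38006
  have h38008 := checkRangeG_sound parWF r2 pf38007 h38007
  have h38009 := checkRangeG_sound parWF r2 pf38008 h38008
  have h38010 := checkRangeG_sound parWF r2 pf38009 h38009
  have h38011 := checkRangeG_sound parWF r2 pf38010 h38010
  have h38012 := checkRangeG_sound parWF r2 pf38011 h38011
  have h38013 := checkRangeG_sound parWF r2 pf38012 h38012
  have h38014 := checkRangeG_sound parWF r2 pf38013 h38013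
  have h38015 := checkRangeG_sound parWF r2 pf38014 h38014
  have h38016 := checkRangeG_sound parWF r2 pf38015 h38015
  have h38017 := checkRangeG_sound parWF r2 pf38016 h38016
  have h38018 := checkRangeG_sound parWF r2 pf38017 h38017
  have h38019 := checkRangeG_sound parWF r2 pf38018 h38018
  have h38020 := checkRangeG_sound parWF r2 pf38019 h38019
  have h38021 := checkRangeG_sound parWF r2 pf38020 h38020
  have h38022 := checkRangeG_sound parWF r2 pf38021 h38021
  have h38023 := checkRangeG_sound parWF r2 pf38022 h38022
  have h38024 := checkRangeG_sound parWF r2 pf38023 h38023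
  have h38025 := checkRangeG_sound parWF r2 pf38024 h38024
  have h38026 := checkRangeG_sound parWF r2 pf38025 h38025
  have h38027 := checkRangeG_sound parWF r2 pf38026 h38026
  have h38028 := checkRangeG_sound parWF r2 pf38027 h38027
  have h38029 := checkRangeG_sound parWF r2 pf38028 h38028
  have h38030 := checkRangeG_sound parWF r2 pf38029 h38029
  have h38031 := checkRangeG_sound parWF r2 pf38030 h38030
  have h38032 := checkRangeG_sound parWF r2 pf38031 h38031
  have h38033 := checkRangeG_sound parWF r2 pf38032 h38032
  have h38034 := checkRangeG_sound parWF r2 pf38033 h38033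
  have h38035 := checkRangeG_sound parWF r2 pf38034 h38034
  have h38036 := checkRangeG_sound parWF r2 pf38035 h38035
  have h38037 := checkRangeG_sound parWF r2 pf38036 h38036
  have h38038 := checkRangeG_sound parWF r2 pf38037 h38037
  have h38039 := checkRangeG_sound parWF r2 pf38038 h38038
  have h38040 := checkRangeG_sound parWF r2 pf38039 h38039
  have h38041 := checkRangeG_sound parWF r2 pf38040 h38040
  have h38042 := checkRangeG_sound parWF r2 pf38041 h38041
  have h38043 := checkRangeG_sound parWF r2 pf38042 h38042
  have h38044 := checkRangeG_sound parWF r2 pf38043 h38043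
  have h38045 := checkRangeG_sound parWF r2 pf38044 h38044
  have h38046 := checkRangeG_sound parWF r2 pf38045 h38045
  have h38047 := checkRangeG_sound parWF r2 pf38046 h38046
  have h38048 := checkRangeG_sound parWF r2 pf38047 h38047
  have h38049 := checkRangeG_sound parWF r2 pf38048 h38048
  have h38050 := checkRangeG_sound parWF r2 pf38049 h38049
  exact h38050

theorem c761 (h38050 : ∀ j, j < 128648 → GoodG.{u} par (db j)) : ∀ j, j < 128840 → GoodG.{u} par (db j) := by
  have h38051 := checkRangeG_sound parWF r2 pf38050 h38050
  have h38052 := checkRangeG_sound parWF r2 pf38051 h38051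
  have h38053 := checkRangeG_sound parWF r2 pf38052 h38052
  have h38054 := checkRangeG_sound parWF r2 pf38053 h38053
  have h38055 := checkRangeG_sound parWF r2 pf38054 h38054
  have h38056 := checkRangeG_sound parWF r2 pf38055 h38055
  have h38057 := checkRangeG_sound parWF r2 pf38056 h38056
  have h38058 := checkRangeG_sound parWF r2 pf38057 h38057
  have h38059 := checkRangeG_sound parWF r2 pf38058 h38058
  have h38060 := checkRangeG_sound parWF r2 pf38059 h38059
  have h38061 := checkRangeG_sound parWF r2 pf38060 h38060
  have h38062 := checkRangeG_sound parWF r2 pf38061 h38061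
  have h38063 := checkRangeG_sound parWF r2 pf38062 h38062
  have h38064 := checkRangeG_sound parWF r2 pf38063 h38063
  have h38065 := checkRangeG_sound parWF r2 pf38064 h38064
  have h38066 := checkRangeG_sound parWF r2 pf38065 h38065
  have h38067 := checkRangeG_sound parWF r2 pf38066 h38066
  have h38068 := checkRangeG_sound parWF r2 pf38067 h38067
  have h38069 := checkRangeG_sound parWF r2 pf38068 h38068
  have h38070 := checkRangeG_sound parWF r2 pf38069 h38069
  have h38071 := checkRangeG_sound parWF r2 pf38070 h38070
  have h38072 := checkRangeG_sound parWF r2 pf38071 h38071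
  have h38073 := checkRangeG_sound parWF r2 pf38072 h38072
  have h38074 := checkRangeG_sound parWF r2 pf38073 h38073
  have h38075 := checkRangeG_sound parWF r2 pf38074 h38074
  have h38076 := checkRangeG_sound parWF r2 pf38075 h38075
  have h38077 := checkRangeG_sound parWF r2 pf38076 h38076
  have h38078 := checkRangeG_sound parWF r2 pf38077 h38077
  have h38079 := checkRangeG_sound parWF r2 pf38078 h38078
  have h38080 := checkRangeG_sound parWF r2 pf38079 h38079
  have h38081 := checkRangeG_sound parWF r2 pf38080 h38080
  have h38082 := checkRangeG_sound parWF r2 pf38081 h38081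
  have h38083 := checkRangeG_sound parWF r2 pf38082 h38082
  have h38084 := checkRangeG_sound parWF r2 pf38083 h38083
  have h38085 := checkRangeG_sound parWF r2 pf38084 h38084
  have h38086 := checkRangeG_sound parWF r2 pf38085 h38085
  have h38087 := checkRangeG_sound parWF r2 pf38086 h38086
  have h38088 := checkRangeG_sound parWF r2 pf38087 h38087
  have h38089 := checkRangeG_sound parWF r2 pf38088 h38088
  have h38090 := checkRangeG_sound parWF r2 pf38089 h38089
  have h38091 := checkRangeG_sound parWF r2 pf38090 h38090
  have h38092 := checkRangeG_sound parWF r2 pf38091 h38091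
  have h38093 := checkRangeG_sound parWF r2 pf38092 h38092
  have h38094 := checkRangeG_sound parWF r2 pf38093 h38093
  have h38095 := checkRangeG_sound parWF r2 pf38094 h38094
  have h38096 := checkRangeG_sound parWF r2 pf38095 h38095
  have h38097 := checkRangeG_sound parWF r2 pf38096 h38096
  have h38098 := checkRangeG_sound parWF r2 pf38097 h38097
  have h38099 := checkRangeG_sound parWF r2 pf38098 h38098
  have h38100 := checkRangeG_sound parWF r2 pf38099 h38099
  exact h38100

theorem c762 (h38100 : ∀ j, j < 128840 → GoodG.{u} par (db j)) : ∀ j, j < 129046 → GoodG.{u} par (db j) := by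
  have h38101 := checkRangeG_sound parWF r2 pf38100 h38100
  have h38102 := checkRangeG_sound parWF r2 pf38101 h38101
  have h38103 := checkRangeG_sound parWF r2 pf38102 h38102
  have h38104 := checkRangeG_sound parWF r2 pf38103 h38103
  have h38105 := checkRangeG_sound parWF r2 pf38104 h38104
  have h38106 := checkRangeG_sound parWF r2 pf38105 h38105
  have h38107 := checkRangeG_sound parWF r2 pf38106 h38106
  have h38108 := checkRangeG_sound parWF r2 pf38107 h38107
  have h38109 := checkRangeG_sound parWF r2 pf38108 h38108
  have h38110 := checkRangeG_sound parWF r2 pf38109 h38109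
  have h38111 := checkRangeG_sound parWF r2 pf38110 h38110
  have h38112 := checkRangeG_sound parWF r2 pf38111 h38111
  have h38113 := checkRangeG_sound parWF r2 pf38112 h38112
  have h38114 := checkRangeG_sound parWF r2 pf38113 h38113
  have h38115 := checkRangeG_sound parWF r2 pf38114 h38114
  have h38116 := checkRangeG_sound parWF r2 pf38115 h38115
  have h38117 := checkRangeG_sound parWF r2 pf38116 h38116
  have h38118 := checkRangeG_sound parWF r2 pf38117 h38117
  have h38119 := checkRangeG_sound parWF r2 pf38118 h38118
  have h38120 := checkRangeG_sound parWF r2 pf38119 h38119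
  have h38121 := checkRangeG_sound parWF r2 pf38120 h38120
  have h38122 := checkRangeG_sound parWF r2 pf38121 h38121
  have h38123 := checkRangeG_sound parWF r2 pf38122 h38122
  have h38124 := checkRangeG_sound parWF r2 pf38123 h38123
  have h38125 := checkRangeG_sound parWF r2 pf38124 h38124
  have h38126 := checkRangeG_sound parWF r2 pf38125 h38125
  have h38127 := checkRangeG_sound parWF r2 pf38126 h38126
  have h38128 := checkRangeG_sound parWF r2 pf38127 h38127
  have h38129 := checkRangeG_sound parWF r2 pf38128 h38128
  have h38130 := checkRangeG_sound parWF r2 pf38129 h38129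
  have h38131 := checkRangeG_sound parWF r2 pf38130 h38130
  have h38132 := checkRangeG_sound parWF r2 pf38131 h38131
  have h38133 := checkRangeG_sound parWF r2 pf38132 h38132
  have h38134 := checkRangeG_sound parWF r2 pf38133 h38133
  have h38135 := checkRangeG_sound parWF r2 pf38134 h38134
  have h38136 := checkRangeG_sound parWF r2 pf38135 h38135
  have h38137 := checkRangeG_sound parWF r2 pf38136 h38136
  have h38138 := checkRangeG_sound parWF r2 pf38137 h38137
  have h38139 := checkRangeG_sound parWF r2 pf38138 h38138
  have h38140 := checkRangeG_sound parWF r2 pf38139 h38139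
  have h38141 := checkRangeG_sound parWF r2 pf38140 h38140
  have h38142 := checkRangeG_sound parWF r2 pf38141 h38141
  have h38143 := checkRangeG_sound parWF r2 pf38142 h38142
  have h38144 := checkRangeG_sound parWF r2 pf38143 h38143
  have h38145 := checkRangeG_sound parWF r2 pf38144 h38144
  have h38146 := checkRangeG_sound parWF r2 pf38145 h38145
  have h38147 := checkRangeG_sound parWF r2 pf38146 h38146
  have h38148 := checkRangeG_sound parWF r2 pf38147 h38147
  have h38149 := checkRangeG_sound parWF r2 pf38148 h38148
  have h38150 := checkRangeG_sound parWF r2 pf38149 h38149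
  exact h38150

theorem c763 (h38150 : ∀ j, j < 129046 → GoodG.{u} par (db j)) : ∀ j, j < 129246 → GoodG.{u} par (db j) := by
  have h38151 := checkRangeG_sound parWF r2 pf38150 h38150
  have h38152 := checkRangeG_sound parWF r2 pf38151 h38151
  have h38153 := checkRangeG_sound parWF r2 pf38152 h38152
  have h38154 := checkRangeG_sound parWF r2 pf38153 h38153
  have h38155 := checkRangeG_sound parWF r2 pf38154 h38154
  have h38156 := checkRangeG_sound parWF r2 pf38155 h38155
  have h38157 := checkRangeG_sound parWF r2 pf38156 h38156
  have h38158 := checkRangeG_sound parWF r2 pf38157 h38157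
  have h38159 := checkRangeG_sound parWF r2 pf38158 h38158
  have h38160 := checkRangeG_sound parWF r2 pf38159 h38159
  have h38161 := checkRangeG_sound parWF r2 pf38160 h38160
  have h38162 := checkRangeG_sound parWF r2 pf38161 h38161
  have h38163 := checkRangeG_sound parWF r2 pf38162 h38162
  have h38164 := checkRangeG_sound parWF r2 pf38163 h38163
  have h38165 := checkRangeG_sound parWF r2 pf38164 h38164
  have h38166 := checkRangeG_sound parWF r2 pf38165 h38165
  have h38167 := checkRangeG_sound parWF r2 pf38166 h38166
  have h38168 := checkRangeG_sound parWF r2 pf38167 h38167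
  have h38169 := checkRangeG_sound parWF r2 pf38168 h38168
  have h38170 := checkRangeG_sound parWF r2 pf38169 h38169
  have h38171 := checkRangeG_sound parWF r2 pf38170 h38170
  have h38172 := checkRangeG_sound parWF r2 pf38171 h38171
  have h38173 := checkRangeG_sound parWF r2 pf38172 h38172
  have h38174 := checkRangeG_sound parWF r2 pf38173 h38173
  have h38175 := checkRangeG_sound parWF r2 pf38174 h38174
  have h38176 := checkRangeG_sound parWF r2 pf38175 h38175
  have h38177 := checkRangeG_sound parWF r2 pf38176 h38176
  have h38178 := checkRangeG_sound parWF r2 pf38177 h38177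
  have h38179 := checkRangeG_sound parWF r2 pf38178 h38178
  have h38180 := checkRangeG_sound parWF r2 pf38179 h38179
  have h38181 := checkRangeG_sound parWF r2 pf38180 h38180
  have h38182 := checkRangeG_sound parWF r2 pf38181 h38181
  have h38183 := checkRangeG_sound parWF r2 pf38182 h38182
  have h38184 := checkRangeG_sound parWF r2 pf38183 h38183
  have h38185 := checkRangeG_sound parWF r2 pf38184 h38184
  have h38186 := checkRangeG_sound parWF r2 pf38185 h38185
  have h38187 := checkRangeG_sound parWF r2 pf38186 h38186
  have h38188 := checkRangeG_sound parWF r2 pf38187 h38187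
  have h38189 := checkRangeG_sound parWF r2 pf38188 h38188
  have h38190 := checkRangeG_sound parWF r2 pf38189 h38189
  have h38191 := checkRangeG_sound parWF r2 pf38190 h38190
  have h38192 := checkRangeG_sound parWF r2 pf38191 h38191
  have h38193 := checkRangeG_sound parWF r2 pf38192 h38192
  have h38194 := checkRangeG_sound parWF r2 pf38193 h38193
  have h38195 := checkRangeG_sound parWF r2 pf38194 h38194
  have h38196 := checkRangeG_sound parWF r2 pf38195 h38195
  have h38197 := checkRangeG_sound parWF r2 pf38196 h38196
  have h38198 := checkRangeG_sound parWF r2 pf38197 h38197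
  have h38199 := checkRangeG_sound parWF r2 pf38198 h38198
  have h38200 := checkRangeG_sound parWF r2 pf38199 h38199
  exact h38200

theorem c764 (h38200 : ∀ j, j < 129246 → GoodG.{u} par (db j)) : ∀ j, j < 129419 → GoodG.{u} par (db j) := by
  have h38201 := checkRangeG_sound parWF r2 pf38200 h38200
  have h38202 := checkRangeG_sound parWF r2 pf38201 h38201
  have h38203 := checkRangeG_sound parWF r2 pf38202 h38202
  have h38204 := checkRangeG_sound parWF r2 pf38203 h38203
  have h38205 := checkRangeG_sound parWF r2 pf38204 h38204
  have h38206 := checkRangeG_sound parWF r2 pf38205 h38205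
  have h38207 := checkRangeG_sound parWF r2 pf38206 h38206
  have h38208 := checkRangeG_sound parWF r2 pf38207 h38207
  have h38209 := checkRangeG_sound parWF r2 pf38208 h38208
  have h38210 := checkRangeG_sound parWF r2 pf38209 h38209
  have h38211 := checkRangeG_sound parWF r2 pf38210 h38210
  have h38212 := checkRangeG_sound parWF r2 pf38211 h38211
  have h38213 := checkRangeG_sound parWF r2 pf38212 h38212
  have h38214 := checkRangeG_sound parWF r2 pf38213 h38213
  have h38215 := checkRangeG_sound parWF r2 pf38214 h38214
  have h38216 := checkRangeG_sound parWF r2 pf38215 h38215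
  have h38217 := checkRangeG_sound parWF r2 pf38216 h38216
  have h38218 := checkRangeG_sound parWF r2 pf38217 h38217
  have h38219 := checkRangeG_sound parWF r2 pf38218 h38218
  have h38220 := checkRangeG_sound parWF r2 pf38219 h38219
  have h38221 := checkRangeG_sound parWF r2 pf38220 h38220
  have h38222 := checkRangeG_sound parWF r2 pf38221 h38221
  have h38223 := checkRangeG_sound parWF r2 pf38222 h38222
  have h38224 := checkRangeG_sound parWF r2 pf38223 h38223
  have h38225 := checkRangeG_sound parWF r2 pf38224 h38224
  have h38226 := checkRangeG_sound parWF r2 pf38225 h38225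
  have h38227 := checkRangeG_sound parWF r2 pf38226 h38226
  have h38228 := checkRangeG_sound parWF r2 pf38227 h38227
  have h38229 := checkRangeG_sound parWF r2 pf38228 h38228
  have h38230 := checkRangeG_sound parWF r2 pf38229 h38229
  have h38231 := checkRangeG_sound parWF r2 pf38230 h38230
  have h38232 := checkRangeG_sound parWF r2 pf38231 h38231
  have h38233 := checkRangeG_sound parWF r2 pf38232 h38232
  have h38234 := checkRangeG_sound parWF r2 pf38233 h38233
  have h38235 := checkRangeG_sound parWF r2 pf38234 h38234
  have h38236 := checkRangeG_sound parWF r2 pf38235 h38235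
  have h38237 := checkRangeG_sound parWF r2 pf38236 h38236
  have h38238 := checkRangeG_sound parWF r2 pf38237 h38237
  have h38239 := checkRangeG_sound parWF r2 pf38238 h38238
  have h38240 := checkRangeG_sound parWF r2 pf38239 h38239
  have h38241 := checkRangeG_sound parWF r2 pf38240 h38240
  have h38242 := checkRangeG_sound parWF r2 pf38241 h38241
  have h38243 := checkRangeG_sound parWF r2 pf38242 h38242
  have h38244 := checkRangeG_sound parWF r2 pf38243 h38243
  have h38245 := checkRangeG_sound parWF r2 pf38244 h38244
  have h38246 := checkRangeG_sound parWF r2 pf38245 h38245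
  have h38247 := checkRangeG_sound parWF r2 pf38246 h38246
  have h38248 := checkRangeG_sound parWF r2 pf38247 h38247
  have h38249 := checkRangeG_sound parWF r2 pf38248 h38248
  have h38250 := checkRangeG_sound parWF r2 pf38249 h38249
  exact h38250

theorem c765 (h38250 : ∀ j, j < 129419 → GoodG.{u} par (db j)) : ∀ j, j < 129601 → GoodG.{u} par (db j) := by
  have h38251 := checkRangeG_sound parWF r2 pf38250 h38250
  have h38252 := checkRangeG_sound parWF r2 pf38251 h38251
  have h38253 := checkRangeG_sound parWF r2 pf38252 h38252
  have h38254 := checkRangeG_sound parWF r2 pf38253 h38253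
  have h38255 := checkRangeG_sound parWF r2 pf38254 h38254
  have h38256 := checkRangeG_sound parWF r2 pf38255 h38255
  have h38257 := checkRangeG_sound parWF r2 pf38256 h38256
  have h38258 := checkRangeG_sound parWF r2 pf38257 h38257
  have h38259 := checkRangeG_sound parWF r2 pf38258 h38258
  have h38260 := checkRangeG_sound parWF r2 pf38259 h38259
  have h38261 := checkRangeG_sound parWF r2 pf38260 h38260
  have h38262 := checkRangeG_sound parWF r2 pf38261 h38261
  have h38263 := checkRangeG_sound parWF r2 pf38262 h38262
  have h38264 := checkRangeG_sound parWF r2 pf38263 h38263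
  have h38265 := checkRangeG_sound parWF r2 pf38264 h38264
  have h38266 := checkRangeG_sound parWF r2 pf38265 h38265
  have h38267 := checkRangeG_sound parWF r2 pf38266 h38266
  have h38268 := checkRangeG_sound parWF r2 pf38267 h38267
  have h38269 := checkRangeG_sound parWF r2 pf38268 h38268
  have h38270 := checkRangeG_sound parWF r2 pf38269 h38269
  have h38271 := checkRangeG_sound parWF r2 pf38270 h38270
  have h38272 := checkRangeG_sound parWF r2 pf38271 h38271
  have h38273 := checkRangeG_sound parWF r2 pf38272 h38272
  have h38274 := checkRangeG_sound parWF r2 pf38273 h38273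
  have h38275 := checkRangeG_sound parWF r2 pf38274 h38274
  have h38276 := checkRangeG_sound parWF r2 pf38275 h38275
  have h38277 := checkRangeG_sound parWF r2 pf38276 h38276
  have h38278 := checkRangeG_sound parWF r2 pf38277 h38277
  have h38279 := checkRangeG_sound parWF r2 pf38278 h38278
  have h38280 := checkRangeG_sound parWF r2 pf38279 h38279
  have h38281 := checkRangeG_sound parWF r2 pf38280 h38280
  have h38282 := checkRangeG_sound parWF r2 pf38281 h38281
  have h38283 := checkRangeG_sound parWF r2 pf38282 h38282
  have h38284 := checkRangeG_sound parWF r2 pf38283 h38283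
  have h38285 := checkRangeG_sound parWF r2 pf38284 h38284
  have h38286 := checkRangeG_sound parWF r2 pf38285 h38285
  have h38287 := checkRangeG_sound parWF r2 pf38286 h38286
  have h38288 := checkRangeG_sound parWF r2 pf38287 h38287
  have h38289 := checkRangeG_sound parWF r2 pf38288 h38288
  have h38290 := checkRangeG_sound parWF r2 pf38289 h38289
  have h38291 := checkRangeG_sound parWF r2 pf38290 h38290
  have h38292 := checkRangeG_sound parWF r2 pf38291 h38291
  have h38293 := checkRangeG_sound parWF r2 pf38292 h38292
  have h38294 := checkRangeG_sound parWF r2 pf38293 h38293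
  have h38295 := checkRangeG_sound parWF r2 pf38294 h38294
  have h38296 := checkRangeG_sound parWF r2 pf38295 h38295
  have h38297 := checkRangeG_sound parWF r2 pf38296 h38296
  have h38298 := checkRangeG_sound parWF r2 pf38297 h38297
  have h38299 := checkRangeG_sound parWF r2 pf38298 h38298
  have h38300 := checkRangeG_sound parWF r2 pf38299 h38299
  exact h38300

theorem c766 (h38300 : ∀ j, j < 129601 → GoodG.{u} par (db j)) : ∀ j, j < 129776 → GoodG.{u} par (db j) := by
  have h38301 := checkRangeG_sound parWF r2 pf38300 h38300
  have h38302 := checkRangeG_sound parWF r2 pf38301 h38301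
  have h38303 := checkRangeG_sound parWF r2 pf38302 h38302
  have h38304 := checkRangeG_sound parWF r2 pf38303 h38303
  have h38305 := checkRangeG_sound parWF r2 pf38304 h38304
  have h38306 := checkRangeG_sound parWF r2 pf38305 h38305
  have h38307 := checkRangeG_sound parWF r2 pf38306 h38306
  have h38308 := checkRangeG_sound parWF r2 pf38307 h38307
  have h38309 := checkRangeG_sound parWF r2 pf38308 h38308
  have h38310 := checkRangeG_sound parWF r2 pf38309 h38309
  have h38311 := checkRangeG_sound parWF r2 pf38310 h38310
  have h38312 := checkRangeG_sound parWF r2 pf38311 h38311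
  have h38313 := checkRangeG_sound parWF r2 pf38312 h38312
  have h38314 := checkRangeG_sound parWF r2 pf38313 h38313
  have h38315 := checkRangeG_sound parWF r2 pf38314 h38314
  have h38316 := checkRangeG_sound parWF r2 pf38315 h38315
  have h38317 := checkRangeG_sound parWF r2 pf38316 h38316
  have h38318 := checkRangeG_sound parWF r2 pf38317 h38317
  have h38319 := checkRangeG_sound parWF r2 pf38318 h38318
  have h38320 := checkRangeG_sound parWF r2 pf38319 h38319
  have h38321 := checkRangeG_sound parWF r2 pf38320 h38320
  have h38322 := checkRangeG_sound parWF r2 pf38321 h38321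
  have h38323 := checkRangeG_sound parWF r2 pf38322 h38322
  have h38324 := checkRangeG_sound parWF r2 pf38323 h38323
  have h38325 := checkRangeG_sound parWF r2 pf38324 h38324
  have h38326 := checkRangeG_sound parWF r2 pf38325 h38325
  have h38327 := checkRangeG_sound parWF r2 pf38326 h38326
  have h38328 := checkRangeG_sound parWF r2 pf38327 h38327
  have h38329 := checkRangeG_sound parWF r2 pf38328 h38328
  have h38330 := checkRangeG_sound parWF r2 pf38329 h38329
  have h38331 := checkRangeG_sound parWF r2 pf38330 h38330
  have h38332 := checkRangeG_sound parWF r2 pf38331 h38331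
  have h38333 := checkRangeG_sound parWF r2 pf38332 h38332
  have h38334 := checkRangeG_sound parWF r2 pf38333 h38333
  have h38335 := checkRangeG_sound parWF r2 pf38334 h38334
  have h38336 := checkRangeG_sound parWF r2 pf38335 h38335
  have h38337 := checkRangeG_sound parWF r2 pf38336 h38336
  have h38338 := checkRangeG_sound parWF r2 pf38337 h38337
  have h38339 := checkRangeG_sound parWF r2 pf38338 h38338
  have h38340 := checkRangeG_sound parWF r2 pf38339 h38339
  have h38341 := checkRangeG_sound parWF r2 pf38340 h38340
  have h38342 := checkRangeG_sound parWF r2 pf38341 h38341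
  have h38343 := checkRangeG_sound parWF r2 pf38342 h38342
  have h38344 := checkRangeG_sound parWF r2 pf38343 h38343
  have h38345 := checkRangeG_sound parWF r2 pf38344 h38344
  have h38346 := checkRangeG_sound parWF r2 pf38345 h38345
  have h38347 := checkRangeG_sound parWF r2 pf38346 h38346
  have h38348 := checkRangeG_sound parWF r2 pf38347 h38347
  have h38349 := checkRangeG_sound parWF r2 pf38348 h38348
  have h38350 := checkRangeG_sound parWF r2 pf38349 h38349
  exact h38350

theorem c767 (h38350 : ∀ j, j < 129776 → GoodG.{u} par (db j)) : ∀ j, j < 129977 → GoodG.{u} par (db j) := by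
  have h38351 := checkRangeG_sound parWF r2 pf38350 h38350
  have h38352 := checkRangeG_sound parWF r2 pf38351 h38351
  have h38353 := checkRangeG_sound parWF r2 pf38352 h38352
  have h38354 := checkRangeG_sound parWF r2 pf38353 h38353
  have h38355 := checkRangeG_sound parWF r2 pf38354 h38354
  have h38356 := checkRangeG_sound parWF r2 pf38355 h38355
  have h38357 := checkRangeG_sound parWF r2 pf38356 h38356
  have h38358 := checkRangeG_sound parWF r2 pf38357 h38357
  have h38359 := checkRangeG_sound parWF r2 pf38358 h38358
  have h38360 := checkRangeG_sound parWF r2 pf38359 h38359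
  have h38361 := checkRangeG_sound parWF r2 pf38360 h38360
  have h38362 := checkRangeG_sound parWF r2 pf38361 h38361
  have h38363 := checkRangeG_sound parWF r2 pf38362 h38362
  have h38364 := checkRangeG_sound parWF r2 pf38363 h38363
  have h38365 := checkRangeG_sound parWF r2 pf38364 h38364
  have h38366 := checkRangeG_sound parWF r2 pf38365 h38365
  have h38367 := checkRangeG_sound parWF r2 pf38366 h38366
  have h38368 := checkRangeG_sound parWF r2 pf38367 h38367
  have h38369 := checkRangeG_sound parWF r2 pf38368 h38368
  have h38370 := checkRangeG_sound parWF r2 pf38369 h38369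
  have h38371 := checkRangeG_sound parWF r2 pf38370 h38370
  have h38372 := checkRangeG_sound parWF r2 pf38371 h38371
  have h38373 := checkRangeG_sound parWF r2 pf38372 h38372
  have h38374 := checkRangeG_sound parWF r2 pf38373 h38373
  have h38375 := checkRangeG_sound parWF r2 pf38374 h38374
  have h38376 := checkRangeG_sound parWF r2 pf38375 h38375
  have h38377 := checkRangeG_sound parWF r2 pf38376 h38376
  have h38378 := checkRangeG_sound parWF r2 pf38377 h38377
  have h38379 := checkRangeG_sound parWF r2 pf38378 h38378
  have h38380 := checkRangeG_sound parWF r2 pf38379 h38379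
  have h38381 := checkRangeG_sound parWF r2 pf38380 h38380
  have h38382 := checkRangeG_sound parWF r2 pf38381 h38381
  have h38383 := checkRangeG_sound parWF r2 pf38382 h38382
  have h38384 := checkRangeG_sound parWF r2 pf38383 h38383
  have h38385 := checkRangeG_sound parWF r2 pf38384 h38384
  have h38386 := checkRangeG_sound parWF r2 pf38385 h38385
  have h38387 := checkRangeG_sound parWF r2 pf38386 h38386
  have h38388 := checkRangeG_sound parWF r2 pf38387 h38387
  have h38389 := checkRangeG_sound parWF r2 pf38388 h38388
  have h38390 := checkRangeG_sound parWF r2 pf38389 h38389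
  have h38391 := checkRangeG_sound parWF r2 pf38390 h38390
  have h38392 := checkRangeG_sound parWF r2 pf38391 h38391
  have h38393 := checkRangeG_sound parWF r2 pf38392 h38392
  have h38394 := checkRangeG_sound parWF r2 pf38393 h38393
  have h38395 := checkRangeG_sound parWF r2 pf38394 h38394
  have h38396 := checkRangeG_sound parWF r2 pf38395 h38395
  have h38397 := checkRangeG_sound parWF r2 pf38396 h38396
  have h38398 := checkRangeG_sound parWF r2 pf38397 h38397
  have h38399 := checkRangeG_sound parWF r2 pf38398 h38398
  have h38400 := checkRangeG_sound parWF r2 pf38399 h38399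
  exact h38400


end Vale.Agent.P045g.C61
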