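import Vale.Agent.P045g.C61.WF
import Vale.Agent.P045g.C61.Pf640
import Vale.Agent.P045g.C61.Pf641
import Vale.Agent.P045g.C61.Pf642
import Vale.Agent.P045g.C61.Pf643
import Vale.Agent.P045g.C61.Pf644
import Vale.Agent.P045g.C61.Pf645
import Vale.Agent.P045g.C61.Pf646
import Vale.Agent.P045g.C61.Pf647
import Vale.Agent.P045g.C61.Pf648
import Vale.Agent.P045g.C61.Pf649

namespace Vale.Agent.P045g.C61

open Vale.Agent.P045b Vale.Agent.P045g

universe u

theorem c768 (h38400 : ∀ j, j < 129977 → GoodG.{u} par (db j)) : ∀ j, j < 130201 → GoodG.{u} par (db j) := by
  have h38401 := checkRangeG_sound parWF r2 pf38400 h38400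
  have h38402 := checkRangeG_sound parWF r2 pf38401 h38401
  have h38403 := checkRangeG_sound parWF r2 pf38402 h38402
  have h38404 := checkRangeG_sound parWF r2 pf38403 h38403
  have h38405 := checkRangeG_sound parWF r2 pf38404 h38404
  have h38406 := checkRangeG_sound parWF r2 pf38405 h38405
  have h38407 := checkRangeG_sound parWF r2 pf38406 h38406
  have h38408 := checkRangeG_sound parWF r2 pf38407 h38407
  have h38409 := checkRangeG_sound parWF r2 pf38408 h38408
  have h38410 := checkRangeG_sound parWF r2 pf38409 h38409
  have h38411 := checkRangeG_sound parWF r2 pf38410 h38410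
  have h38412 := checkRangeG_sound parWF r2 pf38411 h38411
  have h38413 := checkRangeG_sound parWF r2 pf38412 h38412
  have h38414 := checkRangeG_sound parWF r2 pf38413 h38413
  have h38415 := checkRangeG_sound parWF r2 pf38414 h38414
  have h38416 := checkRangeG_sound parWF r2 pf38415 h38415
  have h38417 := checkRangeG_sound parWF r2 pf38416 h38416
  have h38418 := checkRangeG_sound parWF r2 pf38417 h38417
  have h38419 := checkRangeG_sound parWF r2 pf38418 h38418
  have h38420 := checkRangeG_sound parWF r2 pf38419 h38419
  have h38421 := checkRangeG_sound parWF r2 pf38420 h38420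
  have h38422 := checkRangeG_sound parWF r2 pf38421 h38421
  have h38423 := checkRangeG_sound parWF r2 pf38422 h38422
  have h38424 := checkRangeG_sound parWF r2 pf38423 h38423
  have h38425 := checkRangeG_sound parWF r2 pf38424 h38424
  have h38426 := checkRangeG_sound parWF r2 pf38425 h38425
  have h38427 := checkRangeG_sound parWF r2 pf38426 h38426
  have h38428 := checkRangeG_sound parWF r2 pf38427 h38427
  have h38429 := checkRangeG_sound parWF r2 pf38428 h38428
  have h38430 := checkRangeG_sound parWF r2 pf38429 h38429
  have h38431 := checkRangeG_sound parWF r2 pf38430 h38430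
  have h38432 := checkRangeG_sound parWF r2 pf38431 h38431
  have h38433 := checkRangeG_sound parWF r2 pf38432 h38432
  have h38434 := checkRangeG_sound parWF r2 pf38433 h38433
  have h38435 := checkRangeG_sound parWF r2 pf38434 h38434
  have h38436 := checkRangeG_sound parWF r2 pf38435 h38435
  have h38437 := checkRangeG_sound parWF r2 pf38436 h38436
  have h38438 := checkRangeG_sound parWF r2 pf38437 h38437
  have h38439 := checkRangeG_sound parWF r2 pf38438 h38438
  have h38440 := checkRangeG_sound parWF r2 pf38439 h38439
  have h38441 := checkRangeG_sound parWF r2 pf38440 h38440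
  have h38442 := checkRangeG_sound parWF r2 pf38441 h38441
  have h38443 := checkRangeG_sound parWF r2 pf38442 h38442
  have h38444 := checkRangeG_sound parWF r2 pf38443 h38443
  have h38445 := checkRangeG_sound parWF r2 pf38444 h38444
  have h38446 := checkRangeG_sound parWF r2 pf38445 h38445
  have h38447 := checkRangeG_sound parWF r2 pf38446 h38446
  have h38448 := checkRangeG_sound parWF r2 pf38447 h38447
  have h38449 := checkRangeG_sound parWF r2 pf38448 h38448
  have h38450 := checkRangeG_sound parWF r2 pf38449 h38449
  exact h38450

theorem c769 (h38450 : ∀ j, j < 130201 → GoodG.{u} par (db j)) : ∀ j, j < 130435 → GoodG.{u} par (db j) := by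
  have h38451 := checkRangeG_sound parWF r2 pf38450 h38450
  have h38452 := checkRangeG_sound parWF r2 pf38451 h38451
  have h38453 := checkRangeG_sound parWF r2 pf38452 h38452
  have h38454 := checkRangeG_sound parWF r2 pf38453 h38453
  have h38455 := checkRangeG_sound parWF r2 pf38454 h38454
  have h38456 := checkRangeG_sound parWF r2 pf38455 h38455
  have h38457 := checkRangeG_sound parWF r2 pf38456 h38456
  have h38458 := checkRangeG_sound parWF r2 pf38457 h38457
  have h38459 := checkRangeG_sound parWF r2 pf38458 h38458
  have h38460 := checkRangeG_sound parWF r2 pf38459 h38459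
  have h38461 := checkRangeG_sound parWF r2 pf38460 h38460
  have h38462 := checkRangeG_sound parWF r2 pf38461 h38461
  have h38463 := checkRangeG_sound parWF r2 pf38462 h38462
  have h38464 := checkRangeG_sound parWF r2 pf38463 h38463
  have h38465 := checkRangeG_sound parWF r2 pf38464 h38464
  have h38466 := checkRangeG_sound parWF r2 pf38465 h38465
  have h38467 := checkRangeG_sound parWF r2 pf38466 h38466
  have h38468 := checkRangeG_sound parWF r2 pf38467 h38467
  have h38469 := checkRangeG_sound parWF r2 pf38468 h38468
  have h38470 := checkRangeG_sound parWF r2 pf38469 h38469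
  have h38471 := checkRangeG_sound parWF r2 pf38470 h38470
  have h38472 := checkRangeG_sound parWF r2 pf38471 h38471
  have h38473 := checkRangeG_sound parWF r2 pf38472 h38472
  have h38474 := checkRangeG_sound parWF r2 pf38473 h38473
  have h38475 := checkRangeG_sound parWF r2 pf38474 h38474
  have h38476 := checkRangeG_sound parWF r2 pf38475 h38475
  have h38477 := checkRangeG_sound parWF r2 pf38476 h38476
  have h38478 := checkRangeG_sound parWF r2 pf38477 h38477
  have h38479 := checkRangeG_sound parWF r2 pf38478 h38478
  have h38480 := checkRangeG_sound parWF r2 pf38479 h38479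
  have h38481 := checkRangeG_sound parWF r2 pf38480 h38480
  have h38482 := checkRangeG_sound parWF r2 pf38481 h38481
  have h38483 := checkRangeG_sound parWF r2 pf38482 h38482
  have h38484 := checkRangeG_sound parWF r2 pf38483 h38483
  have h38485 := checkRangeG_sound parWF r2 pf38484 h38484
  have h38486 := checkRangeG_sound parWF r2 pf38485 h38485
  have h38487 := checkRangeG_sound parWF r2 pf38486 h38486
  have h38488 := checkRangeG_sound parWF r2 pf38487 h38487
  have h38489 := checkRangeG_sound parWF r2 pf38488 h38488
  have h38490 := checkRangeG_sound parWF r2 pf38489 h38489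
  have h38491 := checkRangeG_sound parWF r2 pf38490 h38490
  have h38492 := checkRangeG_sound parWF r2 pf38491 h38491
  have h38493 := checkRangeG_sound parWF r2 pf38492 h38492
  have h38494 := checkRangeG_sound parWF r2 pf38493 h38493
  have h38495 := checkRangeG_sound parWF r2 pf38494 h38494
  have h38496 := checkRangeG_sound parWF r2 pf38495 h38495
  have h38497 := checkRangeG_sound parWF r2 pf38496 h38496
  have h38498 := checkRangeG_sound parWF r2 pf38497 h38497
  have h38499 := checkRangeG_sound parWF r2 pf38498 h38498
  have h38500 := checkRangeG_sound parWF r2 pf38499 h38499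
  exact h38500

theorem c770 (h38500 : ∀ j, j < 130435 → GoodG.{u} par (db j)) : ∀ j, j < 130655 → GoodG.{u} par (db j) := by
  have h38501 := checkRangeG_sound parWF r2 pf38500 h38500
  have h38502 := checkRangeG_sound parWF r2 pf38501 h38501
  have h38503 := checkRangeG_sound parWF r2 pf38502 h38502
  have h38504 := checkRangeG_sound parWF r2 pf38503 h38503
  have h38505 := checkRangeG_sound parWF r2 pf38504 h38504
  have h38506 := checkRangeG_sound parWF r2 pf38505 h38505
  have h38507 := checkRangeG_sound parWF r2 pf38506 h38506
  have h38508 := checkRangeG_sound parWF r2 pf38507 h38507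
  have h38509 := checkRangeG_sound parWF r2 pf38508 h38508
  have h38510 := checkRangeG_sound parWF r2 pf38509 h38509
  have h38511 := checkRangeG_sound parWF r2 pf38510 h38510
  have h38512 := checkRangeG_sound parWF r2 pf38511 h38511
  have h38513 := checkRangeG_sound parWF r2 pf38512 h38512
  have h38514 := checkRangeG_sound parWF r2 pf38513 h38513
  have h38515 := checkRangeG_sound parWF r2 pf38514 h38514
  have h38516 := checkRangeG_sound parWF r2 pf38515 h38515
  have h38517 := checkRangeG_sound parWF r2 pf38516 h38516
  have h38518 := checkRangeG_sound parWF r2 pf38517 h38517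
  have h38519 := checkRangeG_sound parWF r2 pf38518 h38518
  have h38520 := checkRangeG_sound parWF r2 pf38519 h38519
  have h38521 := checkRangeG_sound parWF r2 pf38520 h38520
  have h38522 := checkRangeG_sound parWF r2 pf38521 h38521
  have h38523 := checkRangeG_sound parWF r2 pf38522 h38522
  have h38524 := checkRangeG_sound parWF r2 pf38523 h38523
  have h38525 := checkRangeG_sound parWF r2 pf38524 h38524
  have h38526 := checkRangeG_sound parWF r2 pf38525 h38525
  have h38527 := checkRangeG_sound parWF r2 pf38526 h38526
  have h38528 := checkRangeG_sound parWF r2 pf38527 h38527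
  have h38529 := checkRangeG_sound parWF r2 pf38528 h38528
  have h38530 := checkRangeG_sound parWF r2 pf38529 h38529
  have h38531 := checkRangeG_sound parWF r2 pf38530 h38530
  have h38532 := checkRangeG_sound parWF r2 pf38531 h38531
  have h38533 := checkRangeG_sound parWF r2 pf38532 h38532
  have h38534 := checkRangeG_sound parWF r2 pf38533 h38533
  have h38535 := checkRangeG_sound parWF r2 pf38534 h38534
  have h38536 := checkRangeG_sound parWF r2 pf38535 h38535
  have h38537 := checkRangeG_sound parWF r2 pf38536 h38536
  have h38538 := checkRangeG_sound parWF r2 pf38537 h38537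
  have h38539 := checkRangeG_sound parWF r2 pf38538 h38538
  have h38540 := checkRangeG_sound parWF r2 pf38539 h38539
  have h38541 := checkRangeG_sound parWF r2 pf38540 h38540
  have h38542 := checkRangeG_sound parWF r2 pf38541 h38541
  have h38543 := checkRangeG_sound parWF r2 pf38542 h38542
  have h38544 := checkRangeG_sound parWF r2 pf38543 h38543
  have h38545 := checkRangeG_sound parWF r2 pf38544 h38544
  have h38546 := checkRangeG_sound parWF r2 pf38545 h38545
  have h38547 := checkRangeG_sound parWF r2 pf38546 h38546
  have h38548 := checkRangeG_sound parWF r2 pf38547 h38547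
  have h38549 := checkRangeG_sound parWF r2 pf38548 h38548
  have h38550 := checkRangeG_sound parWF r2 pf38549 h38549
  exact h38550

theorem c771 (h38550 : ∀ j, j < 130655 → GoodG.{u} par (db j)) : ∀ j, j < 130852 → GoodG.{u} par (db j) := by
  have h38551 := checkRangeG_sound parWF r2 pf38550 h38550
  have h38552 := checkRangeG_sound parWF r2 pf38551 h38551
  have h38553 := checkRangeG_sound parWF r2 pf38552 h38552
  have h38554 := checkRangeG_sound parWF r2 pf38553 h38553
  have h38555 := checkRangeG_sound parWF r2 pf38554 h38554
  have h38556 := checkRangeG_sound parWF r2 pf38555 h38555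
  have h38557 := checkRangeG_sound parWF r2 pf38556 h38556
  have h38558 := checkRangeG_sound parWF r2 pf38557 h38557
  have h38559 := checkRangeG_sound parWF r2 pf38558 h38558
  have h38560 := checkRangeG_sound parWF r2 pf38559 h38559
  have h38561 := checkRangeG_sound parWF r2 pf38560 h38560
  have h38562 := checkRangeG_sound parWF r2 pf38561 h38561
  have h38563 := checkRangeG_sound parWF r2 pf38562 h38562
  have h38564 := checkRangeG_sound parWF r2 pf38563 h38563
  have h38565 := checkRangeG_sound parWF r2 pf38564 h38564
  have h38566 := checkRangeG_sound parWF r2 pf38565 h38565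
  have h38567 := checkRangeG_sound parWF r2 pf38566 h38566
  have h38568 := checkRangeG_sound parWF r2 pf38567 h38567
  have h38569 := checkRangeG_sound parWF r2 pf38568 h38568
  have h38570 := checkRangeG_sound parWF r2 pf38569 h38569
  have h38571 := checkRangeG_sound parWF r2 pf38570 h38570
  have h38572 := checkRangeG_sound parWF r2 pf38571 h38571
  have h38573 := checkRangeG_sound parWF r2 pf38572 h38572
  have h38574 := checkRangeG_sound parWF r2 pf38573 h38573
  have h38575 := checkRangeG_sound parWF r2 pf38574 h38574
  have h38576 := checkRangeG_sound parWF r2 pf38575 h38575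
  have h38577 := checkRangeG_sound parWF r2 pf38576 h38576
  have h38578 := checkRangeG_sound parWF r2 pf38577 h38577
  have h38579 := checkRangeG_sound parWF r2 pf38578 h38578
  have h38580 := checkRangeG_sound parWF r2 pf38579 h38579
  have h38581 := checkRangeG_sound parWF r2 pf38580 h38580
  have h38582 := checkRangeG_sound parWF r2 pf38581 h38581
  have h38583 := checkRangeG_sound parWF r2 pf38582 h38582
  have h38584 := checkRangeG_sound parWF r2 pf38583 h38583
  have h38585 := checkRangeG_sound parWF r2 pf38584 h38584
  have h38586 := checkRangeG_sound parWF r2 pf38585 h38585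
  have h38587 := checkRangeG_sound parWF r2 pf38586 h38586
  have h38588 := checkRangeG_sound parWF r2 pf38587 h38587
  have h38589 := checkRangeG_sound parWF r2 pf38588 h38588
  have h38590 := checkRangeG_sound parWF r2 pf38589 h38589
  have h38591 := checkRangeG_sound parWF r2 pf38590 h38590
  have h38592 := checkRangeG_sound parWF r2 pf38591 h38591
  have h38593 := checkRangeG_sound parWF r2 pf38592 h38592
  have h38594 := checkRangeG_sound parWF r2 pf38593 h38593
  have h38595 := checkRangeG_sound parWF r2 pf38594 h38594
  have h38596 := checkRangeG_sound parWF r2 pf38595 h38595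
  have h38597 := checkRangeG_sound parWF r2 pf38596 h38596
  have h38598 := checkRangeG_sound parWF r2 pf38597 h38597
  have h38599 := checkRangeG_sound parWF r2 pf38598 h38598
  have h38600 := checkRangeG_sound parWF r2 pf38599 h38599
  exact h38600

theorem c772 (h38600 : ∀ j, j < 130852 → GoodG.{u} par (db j)) : ∀ j, j < 131064 → GoodG.{u} par (db j) := by
  have h38601 := checkRangeG_sound parWF r2 pf38600 h38600
  have h38602 := checkRangeG_sound parWF r2 pf38601 h38601
  have h38603 := checkRangeG_sound parWF r2 pf38602 h38602
  have h38604 := checkRangeG_sound parWF r2 pf38603 h38603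
  have h38605 := checkRangeG_sound parWF r2 pf38604 h38604
  have h38606 := checkRangeG_sound parWF r2 pf38605 h38605
  have h38607 := checkRangeG_sound parWF r2 pf38606 h38606
  have h38608 := checkRangeG_sound parWF r2 pf38607 h38607
  have h38609 := checkRangeG_sound parWF r2 pf38608 h38608
  have h38610 := checkRangeG_sound parWF r2 pf38609 h38609
  have h38611 := checkRangeG_sound parWF r2 pf38610 h38610
  have h38612 := checkRangeG_sound parWF r2 pf38611 h38611
  have h38613 := checkRangeG_sound parWF r2 pf38612 h38612
  have h38614 := checkRangeG_sound parWF r2 pf38613 h38613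
  have h38615 := checkRangeG_sound parWF r2 pf38614 h38614
  have h38616 := checkRangeG_sound parWF r2 pf38615 h38615
  have h38617 := checkRangeG_sound parWF r2 pf38616 h38616
  have h38618 := checkRangeG_sound parWF r2 pf38617 h38617
  have h38619 := checkRangeG_sound parWF r2 pf38618 h38618
  have h38620 := checkRangeG_sound parWF r2 pf38619 h38619
  have h38621 := checkRangeG_sound parWF r2 pf38620 h38620
  have h38622 := checkRangeG_sound parWF r2 pf38621 h38621
  have h38623 := checkRangeG_sound parWF r2 pf38622 h38622
  have h38624 := checkRangeG_sound parWF r2 pf38623 h38623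
  have h38625 := checkRangeG_sound parWF r2 pf38624 h38624
  have h38626 := checkRangeG_sound parWF r2 pf38625 h38625
  have h38627 := checkRangeG_sound parWF r2 pf38626 h38626
  have h38628 := checkRangeG_sound parWF r2 pf38627 h38627
  have h38629 := checkRangeG_sound parWF r2 pf38628 h38628
  have h38630 := checkRangeG_sound parWF r2 pf38629 h38629
  have h38631 := checkRangeG_sound parWF r2 pf38630 h38630
  have h38632 := checkRangeG_sound parWF r2 pf38631 h38631
  have h38633 := checkRangeG_sound parWF r2 pf38632 h38632
  have h38634 := checkRangeG_sound parWF r2 pf38633 h38633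
  have h38635 := checkRangeG_sound parWF r2 pf38634 h38634
  have h38636 := checkRangeG_sound parWF r2 pf38635 h38635
  have h38637 := checkRangeG_sound parWF r2 pf38636 h38636
  have h38638 := checkRangeG_sound parWF r2 pf38637 h38637
  have h38639 := checkRangeG_sound parWF r2 pf38638 h38638
  have h38640 := checkRangeG_sound parWF r2 pf38639 h38639
  have h38641 := checkRangeG_sound parWF r2 pf38640 h38640
  have h38642 := checkRangeG_sound parWF r2 pf38641 h38641
  have h38643 := checkRangeG_sound parWF r2 pf38642 h38642
  have h38644 := checkRangeG_sound parWF r2 pf38643 h38643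
  have h38645 := checkRangeG_sound parWF r2 pf38644 h38644
  have h38646 := checkRangeG_sound parWF r2 pf38645 h38645
  have h38647 := checkRangeG_sound parWF r2 pf38646 h38646
  have h38648 := checkRangeG_sound parWF r2 pf38647 h38647
  have h38649 := checkRangeG_sound parWF r2 pf38648 h38648
  have h38650 := checkRangeG_sound parWF r2 pf38649 h38649
  exact h38650

theorem c773 (h38650 : ∀ j, j < 131064 → GoodG.{u} par (db j)) : ∀ j, j < 131274 → GoodG.{u} par (db j) := by
  have h38651 := checkRangeG_sound parWF r2 pf38650 h38650
  have h38652 := checkRangeG_sound parWF r2 pf38651 h38651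
  have h38653 := checkRangeG_sound parWF r2 pf38652 h38652
  have h38654 := checkRangeG_sound parWF r2 pf38653 h38653
  have h38655 := checkRangeG_sound parWF r2 pf38654 h38654
  have h38656 := checkRangeG_sound parWF r2 pf38655 h38655
  have h38657 := checkRangeG_sound parWF r2 pf38656 h38656
  have h38658 := checkRangeG_sound parWF r2 pf38657 h38657
  have h38659 := checkRangeG_sound parWF r2 pf38658 h38658
  have h38660 := checkRangeG_sound parWF r2 pf38659 h38659
  have h38661 := checkRangeG_sound parWF r2 pf38660 h38660
  have h38662 := checkRangeG_sound parWF r2 pf38661 h38661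
  have h38663 := checkRangeG_sound parWF r2 pf38662 h38662
  have h38664 := checkRangeG_sound parWF r2 pf38663 h38663
  have h38665 := checkRangeG_sound parWF r2 pf38664 h38664
  have h38666 := checkRangeG_sound parWF r2 pf38665 h38665
  have h38667 := checkRangeG_sound parWF r2 pf38666 h38666
  have h38668 := checkRangeG_sound parWF r2 pf38667 h38667
  have h38669 := checkRangeG_sound parWF r2 pf38668 h38668
  have h38670 := checkRangeG_sound parWF r2 pf38669 h38669
  have h38671 := checkRangeG_sound parWF r2 pf38670 h38670
  have h38672 := checkRangeG_sound parWF r2 pf38671 h38671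
  have h38673 := checkRangeG_sound parWF r2 pf38672 h38672
  have h38674 := checkRangeG_sound parWF r2 pf38673 h38673
  have h38675 := checkRangeG_sound parWF r2 pf38674 h38674
  have h38676 := checkRangeG_sound parWF r2 pf38675 h38675
  have h38677 := checkRangeG_sound parWF r2 pf38676 h38676
  have h38678 := checkRangeG_sound parWF r2 pf38677 h38677
  have h38679 := checkRangeG_sound parWF r2 pf38678 h38678
  have h38680 := checkRangeG_sound parWF r2 pf38679 h38679
  have h38681 := checkRangeG_sound parWF r2 pf38680 h38680
  have h38682 := checkRangeG_sound parWF r2 pf38681 h38681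
  have h38683 := checkRangeG_sound parWF r2 pf38682 h38682
  have h38684 := checkRangeG_sound parWF r2 pf38683 h38683
  have h38685 := checkRangeG_sound parWF r2 pf38684 h38684
  have h38686 := checkRangeG_sound parWF r2 pf38685 h38685
  have h38687 := checkRangeG_sound parWF r2 pf38686 h38686
  have h38688 := checkRangeG_sound parWF r2 pf38687 h38687
  have h38689 := checkRangeG_sound parWF r2 pf38688 h38688
  have h38690 := checkRangeG_sound parWF r2 pf38689 h38689
  have h38691 := checkRangeG_sound parWF r2 pf38690 h38690
  have h38692 := checkRangeG_sound parWF r2 pf38691 h38691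
  have h38693 := checkRangeG_sound parWF r2 pf38692 h38692
  have h38694 := checkRangeG_sound parWF r2 pf38693 h38693
  have h38695 := checkRangeG_sound parWF r2 pf38694 h38694
  have h38696 := checkRangeG_sound parWF r2 pf38695 h38695
  have h38697 := checkRangeG_sound parWF r2 pf38696 h38696
  have h38698 := checkRangeG_sound parWF r2 pf38697 h38697
  have h38699 := checkRangeG_sound parWF r2 pf38698 h38698
  have h38700 := checkRangeG_sound parWF r2 pf38699 h38699
  exact h38700

theorem c774 (h38700 : ∀ j, j < 131274 → GoodG.{u} par (db j)) : ∀ j, j < 131470 → GoodG.{u} par (db j) := by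
  have h38701 := checkRangeG_sound parWF r2 pf38700 h38700
  have h38702 := checkRangeG_sound parWF r2 pf38701 h38701
  have h38703 := checkRangeG_sound parWF r2 pf38702 h38702
  have h38704 := checkRangeG_sound parWF r2 pf38703 h38703
  have h38705 := checkRangeG_sound parWF r2 pf38704 h38704
  have h38706 := checkRangeG_sound parWF r2 pf38705 h38705
  have h38707 := checkRangeG_sound parWF r2 pf38706 h38706
  have h38708 := checkRangeG_sound parWF r2 pf38707 h38707
  have h38709 := checkRangeG_sound parWF r2 pf38708 h38708
  have h38710 := checkRangeG_sound parWF r2 pf38709 h38709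
  have h38711 := checkRangeG_sound parWF r2 pf38710 h38710
  have h38712 := checkRangeG_sound parWF r2 pf38711 h38711
  have h38713 := checkRangeG_sound parWF r2 pf38712 h38712
  have h38714 := checkRangeG_sound parWF r2 pf38713 h38713
  have h38715 := checkRangeG_sound parWF r2 pf38714 h38714
  have h38716 := checkRangeG_sound parWF r2 pf38715 h38715
  have h38717 := checkRangeG_sound parWF r2 pf38716 h38716
  have h38718 := checkRangeG_sound parWF r2 pf38717 h38717
  have h38719 := checkRangeG_sound parWF r2 pf38718 h38718
  have h38720 := checkRangeG_sound parWF r2 pf38719 h38719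
  have h38721 := checkRangeG_sound parWF r2 pf38720 h38720
  have h38722 := checkRangeG_sound parWF r2 pf38721 h38721
  have h38723 := checkRangeG_sound parWF r2 pf38722 h38722
  have h38724 := checkRangeG_sound parWF r2 pf38723 h38723
  have h38725 := checkRangeG_sound parWF r2 pf38724 h38724
  have h38726 := checkRangeG_sound parWF r2 pf38725 h38725
  have h38727 := checkRangeG_sound parWF r2 pf38726 h38726
  have h38728 := checkRangeG_sound parWF r2 pf38727 h38727
  have h38729 := checkRangeG_sound parWF r2 pf38728 h38728
  have h38730 := checkRangeG_sound parWF r2 pf38729 h38729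
  have h38731 := checkRangeG_sound parWF r2 pf38730 h38730
  have h38732 := checkRangeG_sound parWF r2 pf38731 h38731
  have h38733 := checkRangeG_sound parWF r2 pf38732 h38732
  have h38734 := checkRangeG_sound parWF r2 pf38733 h38733
  have h38735 := checkRangeG_sound parWF r2 pf38734 h38734
  have h38736 := checkRangeG_sound parWF r2 pf38735 h38735
  have h38737 := checkRangeG_sound parWF r2 pf38736 h38736
  have h38738 := checkRangeG_sound parWF r2 pf38737 h38737
  have h38739 := checkRangeG_sound parWF r2 pf38738 h38738
  have h38740 := checkRangeG_sound parWF r2 pf38739 h38739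
  have h38741 := checkRangeG_sound parWF r2 pf38740 h38740
  have h38742 := checkRangeG_sound parWF r2 pf38741 h38741
  have h38743 := checkRangeG_sound parWF r2 pf38742 h38742
  have h38744 := checkRangeG_sound parWF r2 pf38743 h38743
  have h38745 := checkRangeG_sound parWF r2 pf38744 h38744
  have h38746 := checkRangeG_sound parWF r2 pf38745 h38745
  have h38747 := checkRangeG_sound parWF r2 pf38746 h38746
  have h38748 := checkRangeG_sound parWF r2 pf38747 h38747
  have h38749 := checkRangeG_sound parWF r2 pf38748 h38748
  have h38750 := checkRangeG_sound parWF r2 pf38749 h38749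
  exact h38750

theorem c775 (h38750 : ∀ j, j < 131470 → GoodG.{u} par (db j)) : ∀ j, j < 131680 → GoodG.{u} par (db j) := by
  have h38751 := checkRangeG_sound parWF r2 pf38750 h38750
  have h38752 := checkRangeG_sound parWF r2 pf38751 h38751
  have h38753 := checkRangeG_sound parWF r2 pf38752 h38752
  have h38754 := checkRangeG_sound parWF r2 pf38753 h38753
  have h38755 := checkRangeG_sound parWF r2 pf38754 h38754
  have h38756 := checkRangeG_sound parWF r2 pf38755 h38755
  have h38757 := checkRangeG_sound parWF r2 pf38756 h38756
  have h38758 := checkRangeG_sound parWF r2 pf38757 h38757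
  have h38759 := checkRangeG_sound parWF r2 pf38758 h38758
  have h38760 := checkRangeG_sound parWF r2 pf38759 h38759
  have h38761 := checkRangeG_sound parWF r2 pf38760 h38760
  have h38762 := checkRangeG_sound parWF r2 pf38761 h38761
  have h38763 := checkRangeG_sound parWF r2 pf38762 h38762
  have h38764 := checkRangeG_sound parWF r2 pf38763 h38763
  have h38765 := checkRangeG_sound parWF r2 pf38764 h38764
  have h38766 := checkRangeG_sound parWF r2 pf38765 h38765
  have h38767 := checkRangeG_sound parWF r2 pf38766 h38766
  have h38768 := checkRangeG_sound parWF r2 pf38767 h38767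
  have h38769 := checkRangeG_sound parWF r2 pf38768 h38768
  have h38770 := checkRangeG_sound parWF r2 pf38769 h38769
  have h38771 := checkRangeG_sound parWF r2 pf38770 h38770
  have h38772 := checkRangeG_sound parWF r2 pf38771 h38771
  have h38773 := checkRangeG_sound parWF r2 pf38772 h38772
  have h38774 := checkRangeG_sound parWF r2 pf38773 h38773
  have h38775 := checkRangeG_sound parWF r2 pf38774 h38774
  have h38776 := checkRangeG_sound parWF r2 pf38775 h38775
  have h38777 := checkRangeG_sound parWF r2 pf38776 h38776
  have h38778 := checkRangeG_sound parWF r2 pf38777 h38777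
  have h38779 := checkRangeG_sound parWF r2 pf38778 h38778
  have h38780 := checkRangeG_sound parWF r2 pf38779 h38779
  have h38781 := checkRangeG_sound parWF r2 pf38780 h38780
  have h38782 := checkRangeG_sound parWF r2 pf38781 h38781
  have h38783 := checkRangeG_sound parWF r2 pf38782 h38782
  have h38784 := checkRangeG_sound parWF r2 pf38783 h38783
  have h38785 := checkRangeG_sound parWF r2 pf38784 h38784
  have h38786 := checkRangeG_sound parWF r2 pf38785 h38785
  have h38787 := checkRangeG_sound parWF r2 pf38786 h38786
  have h38788 := checkRangeG_sound parWF r2 pf38787 h38787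
  have h38789 := checkRangeG_sound parWF r2 pf38788 h38788
  have h38790 := checkRangeG_sound parWF r2 pf38789 h38789
  have h38791 := checkRangeG_sound parWF r2 pf38790 h38790
  have h38792 := checkRangeG_sound parWF r2 pf38791 h38791
  have h38793 := checkRangeG_sound parWF r2 pf38792 h38792
  have h38794 := checkRangeG_sound parWF r2 pf38793 h38793
  have h38795 := checkRangeG_sound parWF r2 pf38794 h38794
  have h38796 := checkRangeG_sound parWF r2 pf38795 h38795
  have h38797 := checkRangeG_sound parWF r2 pf38796 h38796
  have h38798 := checkRangeG_sound parWF r2 pf38797 h38797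
  have h38799 := checkRangeG_sound parWF r2 pf38798 h38798
  have h38800 := checkRangeG_sound parWF r2 pf38799 h38799
  exact h38800

theorem c776 (h38800 : ∀ j, j < 131680 → GoodG.{u} par (db j)) : ∀ j, j < 131881 → GoodG.{u} par (db j) := by
  have h38801 := checkRangeG_sound parWF r2 pf38800 h38800
  have h38802 := checkRangeG_sound parWF r2 pf38801 h38801
  have h38803 := checkRangeG_sound parWF r2 pf38802 h38802
  have h38804 := checkRangeG_sound parWF r2 pf38803 h38803
  have h38805 := checkRangeG_sound parWF r2 pf38804 h38804
  have h38806 := checkRangeG_sound parWF r2 pf38805 h38805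
  have h38807 := checkRangeG_sound parWF r2 pf38806 h38806
  have h38808 := checkRangeG_sound parWF r2 pf38807 h38807
  have h38809 := checkRangeG_sound parWF r2 pf38808 h38808
  have h38810 := checkRangeG_sound parWF r2 pf38809 h38809
  have h38811 := checkRangeG_sound parWF r2 pf38810 h38810
  have h38812 := checkRangeG_sound parWF r2 pf38811 h38811
  have h38813 := checkRangeG_sound parWF r2 pf38812 h38812
  have h38814 := checkRangeG_sound parWF r2 pf38813 h38813
  have h38815 := checkRangeG_sound parWF r2 pf38814 h38814
  have h38816 := checkRangeG_sound parWF r2 pf38815 h38815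
  have h38817 := checkRangeG_sound parWF r2 pf38816 h38816
  have h38818 := checkRangeG_sound parWF r2 pf38817 h38817
  have h38819 := checkRangeG_sound parWF r2 pf38818 h38818
  have h38820 := checkRangeG_sound parWF r2 pf38819 h38819
  have h38821 := checkRangeG_sound parWF r2 pf38820 h38820
  have h38822 := checkRangeG_sound parWF r2 pf38821 h38821
  have h38823 := checkRangeG_sound parWF r2 pf38822 h38822
  have h38824 := checkRangeG_sound parWF r2 pf38823 h38823
  have h38825 := checkRangeG_sound parWF r2 pf38824 h38824
  have h38826 := checkRangeG_sound parWF r2 pf38825 h38825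
  have h38827 := checkRangeG_sound parWF r2 pf38826 h38826
  have h38828 := checkRangeG_sound parWF r2 pf38827 h38827
  have h38829 := checkRangeG_sound parWF r2 pf38828 h38828
  have h38830 := checkRangeG_sound parWF r2 pf38829 h38829
  have h38831 := checkRangeG_sound parWF r2 pf38830 h38830
  have h38832 := checkRangeG_sound parWF r2 pf38831 h38831
  have h38833 := checkRangeG_sound parWF r2 pf38832 h38832
  have h38834 := checkRangeG_sound parWF r2 pf38833 h38833
  have h38835 := checkRangeG_sound parWF r2 pf38834 h38834
  have h38836 := checkRangeG_sound parWF r2 pf38835 h38835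
  have h38837 := checkRangeG_sound parWF r2 pf38836 h38836
  have h38838 := checkRangeG_sound parWF r2 pf38837 h38837
  have h38839 := checkRangeG_sound parWF r2 pf38838 h38838
  have h38840 := checkRangeG_sound parWF r2 pf38839 h38839
  have h38841 := checkRangeG_sound parWF r2 pf38840 h38840
  have h38842 := checkRangeG_sound parWF r2 pf38841 h38841
  have h38843 := checkRangeG_sound parWF r2 pf38842 h38842
  have h38844 := checkRangeG_sound parWF r2 pf38843 h38843
  have h38845 := checkRangeG_sound parWF r2 pf38844 h38844
  have h38846 := checkRangeG_sound parWF r2 pf38845 h38845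
  have h38847 := checkRangeG_sound parWF r2 pf38846 h38846
  have h38848 := checkRangeG_sound parWF r2 pf38847 h38847
  have h38849 := checkRangeG_sound parWF r2 pf38848 h38848
  have h38850 := checkRangeG_sound parWF r2 pf38849 h38849
  exact h38850

theorem c777 (h38850 : ∀ j, j < 131881 → GoodG.{u} par (db j)) : ∀ j, j < 132072 → GoodG.{u} par (db j) := by
  have h38851 := checkRangeG_sound parWF r2 pf38850 h38850
  have h38852 := checkRangeG_sound parWF r2 pf38851 h38851
  have h38853 := checkRangeG_sound parWF r2 pf38852 h38852
  have h38854 := checkRangeG_sound parWF r2 pf38853 h38853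
  have h38855 := checkRangeG_sound parWF r2 pf38854 h38854
  have h38856 := checkRangeG_sound parWF r2 pf38855 h38855
  have h38857 := checkRangeG_sound parWF r2 pf38856 h38856
  have h38858 := checkRangeG_sound parWF r2 pf38857 h38857
  have h38859 := checkRangeG_sound parWF r2 pf38858 h38858
  have h38860 := checkRangeG_sound parWF r2 pf38859 h38859
  have h38861 := checkRangeG_sound parWF r2 pf38860 h38860
  have h38862 := checkRangeG_sound parWF r2 pf38861 h38861
  have h38863 := checkRangeG_sound parWF r2 pf38862 h38862
  have h38864 := checkRangeG_sound parWF r2 pf38863 h38863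
  have h38865 := checkRangeG_sound parWF r2 pf38864 h38864
  have h38866 := checkRangeG_sound parWF r2 pf38865 h38865
  have h38867 := checkRangeG_sound parWF r2 pf38866 h38866
  have h38868 := checkRangeG_sound parWF r2 pf38867 h38867
  have h38869 := checkRangeG_sound parWF r2 pf38868 h38868
  have h38870 := checkRangeG_sound parWF r2 pf38869 h38869
  have h38871 := checkRangeG_sound parWF r2 pf38870 h38870
  have h38872 := checkRangeG_sound parWF r2 pf38871 h38871
  have h38873 := checkRangeG_sound parWF r2 pf38872 h38872
  have h38874 := checkRangeG_sound parWF r2 pf38873 h38873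
  have h38875 := checkRangeG_sound parWF r2 pf38874 h38874
  have h38876 := checkRangeG_sound parWF r2 pf38875 h38875
  have h38877 := checkRangeG_sound parWF r2 pf38876 h38876
  have h38878 := checkRangeG_sound parWF r2 pf38877 h38877
  have h38879 := checkRangeG_sound parWF r2 pf38878 h38878
  have h38880 := checkRangeG_sound parWF r2 pf38879 h38879
  have h38881 := checkRangeG_sound parWF r2 pf38880 h38880
  have h38882 := checkRangeG_sound parWF r2 pf38881 h38881
  have h38883 := checkRangeG_sound parWF r2 pf38882 h38882
  have h38884 := checkRangeG_sound parWF r2 pf38883 h38883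
  have h38885 := checkRangeG_sound parWF r2 pf38884 h38884
  have h38886 := checkRangeG_sound parWF r2 pf38885 h38885
  have h38887 := checkRangeG_sound parWF r2 pf38886 h38886
  have h38888 := checkRangeG_sound parWF r2 pf38887 h38887
  have h38889 := checkRangeG_sound parWF r2 pf38888 h38888
  have h38890 := checkRangeG_sound parWF r2 pf38889 h38889
  have h38891 := checkRangeG_sound parWF r2 pf38890 h38890
  have h38892 := checkRangeG_sound parWF r2 pf38891 h38891
  have h38893 := checkRangeG_sound parWF r2 pf38892 h38892
  have h38894 := checkRangeG_sound parWF r2 pf38893 h38893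
  have h38895 := checkRangeG_sound parWF r2 pf38894 h38894
  have h38896 := checkRangeG_sound parWF r2 pf38895 h38895
  have h38897 := checkRangeG_sound parWF r2 pf38896 h38896
  have h38898 := checkRangeG_sound parWF r2 pf38897 h38897
  have h38899 := checkRangeG_sound parWF r2 pf38898 h38898
  have h38900 := checkRangeG_sound parWF r2 pf38899 h38899
  exact h38900

theorem c778 (h38900 : ∀ j, j < 132072 → GoodG.{u} par (db j)) : ∀ j, j < 132263 → GoodG.{u} par (db j) := by
  have h38901 := checkRangeG_sound parWF r2 pf38900 h38900
  have h38902 := checkRangeG_sound parWF r2 pf38901 h38901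
  have h38903 := checkRangeG_sound parWF r2 pf38902 h38902
  have h38904 := checkRangeG_sound parWF r2 pf38903 h38903
  have h38905 := checkRangeG_sound parWF r2 pf38904 h38904
  have h38906 := checkRangeG_sound parWF r2 pf38905 h38905
  have h38907 := checkRangeG_sound parWF r2 pf38906 h38906
  have h38908 := checkRangeG_sound parWF r2 pf38907 h38907
  have h38909 := checkRangeG_sound parWF r2 pf38908 h38908
  have h38910 := checkRangeG_sound parWF r2 pf38909 h38909
  have h38911 := checkRangeG_sound parWF r2 pf38910 h38910
  have h38912 := checkRangeG_sound parWF r2 pf38911 h38911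
  have h38913 := checkRangeG_sound parWF r2 pf38912 h38912
  have h38914 := checkRangeG_sound parWF r2 pf38913 h38913
  have h38915 := checkRangeG_sound parWF r2 pf38914 h38914
  have h38916 := checkRangeG_sound parWF r2 pf38915 h38915
  have h38917 := checkRangeG_sound parWF r2 pf38916 h38916
  have h38918 := checkRangeG_sound parWF r2 pf38917 h38917
  have h38919 := checkRangeG_sound parWF r2 pf38918 h38918
  have h38920 := checkRangeG_sound parWF r2 pf38919 h38919
  have h38921 := checkRangeG_sound parWF r2 pf38920 h38920
  have h38922 := checkRangeG_sound parWF r2 pf38921 h38921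
  have h38923 := checkRangeG_sound parWF r2 pf38922 h38922
  have h38924 := checkRangeG_sound parWF r2 pf38923 h38923
  have h38925 := checkRangeG_sound parWF r2 pf38924 h38924
  have h38926 := checkRangeG_sound parWF r2 pf38925 h38925
  have h38927 := checkRangeG_sound parWF r2 pf38926 h38926
  have h38928 := checkRangeG_sound parWF r2 pf38927 h38927
  have h38929 := checkRangeG_sound parWF r2 pf38928 h38928
  have h38930 := checkRangeG_sound parWF r2 pf38929 h38929
  have h38931 := checkRangeG_sound parWF r2 pf38930 h38930
  have h38932 := checkRangeG_sound parWF r2 pf38931 h38931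
  have h38933 := checkRangeG_sound parWF r2 pf38932 h38932
  have h38934 := checkRangeG_sound parWF r2 pf38933 h38933
  have h38935 := checkRangeG_sound parWF r2 pf38934 h38934
  have h38936 := checkRangeG_sound parWF r2 pf38935 h38935
  have h38937 := checkRangeG_sound parWF r2 pf38936 h38936
  have h38938 := checkRangeG_sound parWF r2 pf38937 h38937
  have h38939 := checkRangeG_sound parWF r2 pf38938 h38938
  have h38940 := checkRangeG_sound parWF r2 pf38939 h38939
  have h38941 := checkRangeG_sound parWF r2 pf38940 h38940
  have h38942 := checkRangeG_sound parWF r2 pf38941 h38941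
  have h38943 := checkRangeG_sound parWF r2 pf38942 h38942
  have h38944 := checkRangeG_sound parWF r2 pf38943 h38943
  have h38945 := checkRangeG_sound parWF r2 pf38944 h38944
  have h38946 := checkRangeG_sound parWF r2 pf38945 h38945
  have h38947 := checkRangeG_sound parWF r2 pf38946 h38946
  have h38948 := checkRangeG_sound parWF r2 pf38947 h38947
  have h38949 := checkRangeG_sound parWF r2 pf38948 h38948
  have h38950 := checkRangeG_sound parWF r2 pf38949 h38949
  exact h38950

theorem c779 (h38950 : ∀ j, j < 132263 → GoodG.{u} par (db j)) : ∀ j, j < 132454 → GoodG.{u} par (db j) := by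
  have h38951 := checkRangeG_sound parWF r2 pf38950 h38950
  have h38952 := checkRangeG_sound parWF r2 pf38951 h38951
  have h38953 := checkRangeG_sound parWF r2 pf38952 h38952
  have h38954 := checkRangeG_sound parWF r2 pf38953 h38953
  have h38955 := checkRangeG_sound parWF r2 pf38954 h38954
  have h38956 := checkRangeG_sound parWF r2 pf38955 h38955
  have h38957 := checkRangeG_sound parWF r2 pf38956 h38956
  have h38958 := checkRangeG_sound parWF r2 pf38957 h38957
  have h38959 := checkRangeG_sound parWF r2 pf38958 h38958
  have h38960 := checkRangeG_sound parWF r2 pf38959 h38959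
  have h38961 := checkRangeG_sound parWF r2 pf38960 h38960
  have h38962 := checkRangeG_sound parWF r2 pf38961 h38961
  have h38963 := checkRangeG_sound parWF r2 pf38962 h38962
  have h38964 := checkRangeG_sound parWF r2 pf38963 h38963
  have h38965 := checkRangeG_sound parWF r2 pf38964 h38964
  have h38966 := checkRangeG_sound parWF r2 pf38965 h38965
  have h38967 := checkRangeG_sound parWF r2 pf38966 h38966
  have h38968 := checkRangeG_sound parWF r2 pf38967 h38967
  have h38969 := checkRangeG_sound parWF r2 pf38968 h38968
  have h38970 := checkRangeG_sound parWF r2 pf38969 h38969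
  have h38971 := checkRangeG_sound parWF r2 pf38970 h38970
  have h38972 := checkRangeG_sound parWF r2 pf38971 h38971
  have h38973 := checkRangeG_sound parWF r2 pf38972 h38972
  have h38974 := checkRangeG_sound parWF r2 pf38973 h38973
  have h38975 := checkRangeG_sound parWF r2 pf38974 h38974
  have h38976 := checkRangeG_sound parWF r2 pf38975 h38975
  have h38977 := checkRangeG_sound parWF r2 pf38976 h38976
  have h38978 := checkRangeG_sound parWF r2 pf38977 h38977
  have h38979 := checkRangeG_sound parWF r2 pf38978 h38978
  have h38980 := checkRangeG_sound parWF r2 pf38979 h38979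
  have h38981 := checkRangeG_sound parWF r2 pf38980 h38980
  have h38982 := checkRangeG_sound parWF r2 pf38981 h38981
  have h38983 := checkRangeG_sound parWF r2 pf38982 h38982
  have h38984 := checkRangeG_sound parWF r2 pf38983 h38983
  have h38985 := checkRangeG_sound parWF r2 pf38984 h38984
  have h38986 := checkRangeG_sound parWF r2 pf38985 h38985
  have h38987 := checkRangeG_sound parWF r2 pf38986 h38986
  have h38988 := checkRangeG_sound parWF r2 pf38987 h38987
  have h38989 := checkRangeG_sound parWF r2 pf38988 h38988
  have h38990 := checkRangeG_sound parWF r2 pf38989 h38989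
  have h38991 := checkRangeG_sound parWF r2 pf38990 h38990
  have h38992 := checkRangeG_sound parWF r2 pf38991 h38991
  have h38993 := checkRangeG_sound parWF r2 pf38992 h38992
  have h38994 := checkRangeG_sound parWF r2 pf38993 h38993
  have h38995 := checkRangeG_sound parWF r2 pf38994 h38994
  have h38996 := checkRangeG_sound parWF r2 pf38995 h38995
  have h38997 := checkRangeG_sound parWF r2 pf38996 h38996
  have h38998 := checkRangeG_sound parWF r2 pf38997 h38997
  have h38999 := checkRangeG_sound parWF r2 pf38998 h38998
  have h39000 := checkRangeG_sound parWF r2 pf38999 h38999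
  exact h39000


end Vale.Agent.P045g.C61
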