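import Vale.Agent.P045g.C61.WF
import Vale.Agent.P045g.C61.Pf650
import Vale.Agent.P045g.C61.Pf651
import Vale.Agent.P045g.C61.Pf652
import Vale.Agent.P045g.C61.Pf653
import Vale.Agent.P045g.C61.Pf654
import Vale.Agent.P045g.C61.Pf655
import Vale.Agent.P045g.C61.Pf656
import Vale.Agent.P045g.C61.Pf657
import Vale.Agent.P045g.C61.Pf658
import Vale.Agent.P045g.C61.Pf659

namespace Vale.Agent.P045g.C61

open Vale.Agent.P045b Vale.Agent.P045g

universe u

theorem c780 (h39000 : ∀ j, j < 132454 → GoodG.{u} par (db j)) : ∀ j, j < 132640 → GoodG.{u} par (db j) := by
  have h39001 := checkRangeG_sound parWF r2 pf39000 h39000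
  have h39002 := checkRangeG_sound parWF r2 pf39001 h39001
  have h39003 := checkRangeG_sound parWF r2 pf39002 h39002
  have h39004 := checkRangeG_sound parWF r2 pf39003 h39003
  have h39005 := checkRangeG_sound parWF r2 pf39004 h39004
  have h39006 := checkRangeG_sound parWF r2 pf39005 h39005
  have h39007 := checkRangeG_sound parWF r2 pf39006 h39006
  have h39008 := checkRangeG_sound parWF r2 pf39007 h39007
  have h39009 := checkRangeG_sound parWF r2 pf39008 h39008
  have h39010 := checkRangeG_sound parWF r2 pf39009 h39009
  have h39011 := checkRangeG_sound parWF r2 pf39010 h39010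
  have h39012 := checkRangeG_sound parWF r2 pf39011 h39011
  have h39013 := checkRangeG_sound parWF r2 pf39012 h39012
  have h39014 := checkRangeG_sound parWF r2 pf39013 h39013
  have h39015 := checkRangeG_sound parWF r2 pf39014 h39014
  have h39016 := checkRangeG_sound parWF r2 pf39015 h39015
  have h39017 := checkRangeG_sound parWF r2 pf39016 h39016
  have h39018 := checkRangeG_sound parWF r2 pf39017 h39017
  have h39019 := checkRangeG_sound parWF r2 pf39018 h39018
  have h39020 := checkRangeG_sound parWF r2 pf39019 h39019
  have h39021 := checkRangeG_sound parWF r2 pf39020 h39020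
  have h39022 := checkRangeG_sound parWF r2 pf39021 h39021
  have h39023 := checkRangeG_sound parWF r2 pf39022 h39022
  have h39024 := checkRangeG_sound parWF r2 pf39023 h39023
  have h39025 := checkRangeG_sound parWF r2 pf39024 h39024
  have h39026 := checkRangeG_sound parWF r2 pf39025 h39025
  have h39027 := checkRangeG_sound parWF r2 pf39026 h39026
  have h39028 := checkRangeG_sound parWF r2 pf39027 h39027
  have h39029 := checkRangeG_sound parWF r2 pf39028 h39028
  have h39030 := checkRangeG_sound parWF r2 pf39029 h39029
  have h39031 := checkRangeG_sound parWF r2 pf39030 h39030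
  have h39032 := checkRangeG_sound parWF r2 pf39031 h39031
  have h39033 := checkRangeG_sound parWF r2 pf39032 h39032
  have h39034 := checkRangeG_sound parWF r2 pf39033 h39033
  have h39035 := checkRangeG_sound parWF r2 pf39034 h39034
  have h39036 := checkRangeG_sound parWF r2 pf39035 h39035
  have h39037 := checkRangeG_sound parWF r2 pf39036 h39036
  have h39038 := checkRangeG_sound parWF r2 pf39037 h39037
  have h39039 := checkRangeG_sound parWF r2 pf39038 h39038
  have h39040 := checkRangeG_sound parWF r2 pf39039 h39039
  have h39041 := checkRangeG_sound parWF r2 pf39040 h39040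
  have h39042 := checkRangeG_sound parWF r2 pf39041 h39041
  have h39043 := checkRangeG_sound parWF r2 pf39042 h39042
  have h39044 := checkRangeG_sound parWF r2 pf39043 h39043
  have h39045 := checkRangeG_sound parWF r2 pf39044 h39044
  have h39046 := checkRangeG_sound parWF r2 pf39045 h39045
  have h39047 := checkRangeG_sound parWF r2 pf39046 h39046
  have h39048 := checkRangeG_sound parWF r2 pf39047 h39047
  have h39049 := checkRangeG_sound parWF r2 pf39048 h39048
  have h39050 := checkRangeG_sound parWF r2 pf39049 h39049
  exact h39050

theorem c781 (h39050 : ∀ j, j < 132640 → GoodG.{u} par (db j)) : ∀ j, j < 132826 → GoodG.{u} par (db j) := by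
  have h39051 := checkRangeG_sound parWF r2 pf39050 h39050
  have h39052 := checkRangeG_sound parWF r2 pf39051 h39051
  have h39053 := checkRangeG_sound parWF r2 pf39052 h39052
  have h39054 := checkRangeG_sound parWF r2 pf39053 h39053
  have h39055 := checkRangeG_sound parWF r2 pf39054 h39054
  have h39056 := checkRangeG_sound parWF r2 pf39055 h39055
  have h39057 := checkRangeG_sound parWF r2 pf39056 h39056
  have h39058 := checkRangeG_sound parWF r2 pf39057 h39057
  have h39059 := checkRangeG_sound parWF r2 pf39058 h39058
  have h39060 := checkRangeG_sound parWF r2 pf39059 h39059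
  have h39061 := checkRangeG_sound parWF r2 pf39060 h39060
  have h39062 := checkRangeG_sound parWF r2 pf39061 h39061
  have h39063 := checkRangeG_sound parWF r2 pf39062 h39062
  have h39064 := checkRangeG_sound parWF r2 pf39063 h39063
  have h39065 := checkRangeG_sound parWF r2 pf39064 h39064
  have h39066 := checkRangeG_sound parWF r2 pf39065 h39065
  have h39067 := checkRangeG_sound parWF r2 pf39066 h39066
  have h39068 := checkRangeG_sound parWF r2 pf39067 h39067
  have h39069 := checkRangeG_sound parWF r2 pf39068 h39068
  have h39070 := checkRangeG_sound parWF r2 pf39069 h39069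
  have h39071 := checkRangeG_sound parWF r2 pf39070 h39070
  have h39072 := checkRangeG_sound parWF r2 pf39071 h39071
  have h39073 := checkRangeG_sound parWF r2 pf39072 h39072
  have h39074 := checkRangeG_sound parWF r2 pf39073 h39073
  have h39075 := checkRangeG_sound parWF r2 pf39074 h39074
  have h39076 := checkRangeG_sound parWF r2 pf39075 h39075
  have h39077 := checkRangeG_sound parWF r2 pf39076 h39076
  have h39078 := checkRangeG_sound parWF r2 pf39077 h39077
  have h39079 := checkRangeG_sound parWF r2 pf39078 h39078
  have h39080 := checkRangeG_sound parWF r2 pf39079 h39079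
  have h39081 := checkRangeG_sound parWF r2 pf39080 h39080
  have h39082 := checkRangeG_sound parWF r2 pf39081 h39081
  have h39083 := checkRangeG_sound parWF r2 pf39082 h39082
  have h39084 := checkRangeG_sound parWF r2 pf39083 h39083
  have h39085 := checkRangeG_sound parWF r2 pf39084 h39084
  have h39086 := checkRangeG_sound parWF r2 pf39085 h39085
  have h39087 := checkRangeG_sound parWF r2 pf39086 h39086
  have h39088 := checkRangeG_sound parWF r2 pf39087 h39087
  have h39089 := checkRangeG_sound parWF r2 pf39088 h39088
  have h39090 := checkRangeG_sound parWF r2 pf39089 h39089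
  have h39091 := checkRangeG_sound parWF r2 pf39090 h39090
  have h39092 := checkRangeG_sound parWF r2 pf39091 h39091
  have h39093 := checkRangeG_sound parWF r2 pf39092 h39092
  have h39094 := checkRangeG_sound parWF r2 pf39093 h39093
  have h39095 := checkRangeG_sound parWF r2 pf39094 h39094
  have h39096 := checkRangeG_sound parWF r2 pf39095 h39095
  have h39097 := checkRangeG_sound parWF r2 pf39096 h39096
  have h39098 := checkRangeG_sound parWF r2 pf39097 h39097
  have h39099 := checkRangeG_sound parWF r2 pf39098 h39098
  have h39100 := checkRangeG_sound parWF r2 pf39099 h39099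
  exact h39100

theorem c782 (h39100 : ∀ j, j < 132826 → GoodG.{u} par (db j)) : ∀ j, j < 133043 → GoodG.{u} par (db j) := by
  have h39101 := checkRangeG_sound parWF r2 pf39100 h39100
  have h39102 := checkRangeG_sound parWF r2 pf39101 h39101
  have h39103 := checkRangeG_sound parWF r2 pf39102 h39102
  have h39104 := checkRangeG_sound parWF r2 pf39103 h39103
  have h39105 := checkRangeG_sound parWF r2 pf39104 h39104
  have h39106 := checkRangeG_sound parWF r2 pf39105 h39105
  have h39107 := checkRangeG_sound parWF r2 pf39106 h39106
  have h39108 := checkRangeG_sound parWF r2 pf39107 h39107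
  have h39109 := checkRangeG_sound parWF r2 pf39108 h39108
  have h39110 := checkRangeG_sound parWF r2 pf39109 h39109
  have h39111 := checkRangeG_sound parWF r2 pf39110 h39110
  have h39112 := checkRangeG_sound parWF r2 pf39111 h39111
  have h39113 := checkRangeG_sound parWF r2 pf39112 h39112
  have h39114 := checkRangeG_sound parWF r2 pf39113 h39113
  have h39115 := checkRangeG_sound parWF r2 pf39114 h39114
  have h39116 := checkRangeG_sound parWF r2 pf39115 h39115
  have h39117 := checkRangeG_sound parWF r2 pf39116 h39116
  have h39118 := checkRangeG_sound parWF r2 pf39117 h39117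
  have h39119 := checkRangeG_sound parWF r2 pf39118 h39118
  have h39120 := checkRangeG_sound parWF r2 pf39119 h39119
  have h39121 := checkRangeG_sound parWF r2 pf39120 h39120
  have h39122 := checkRangeG_sound parWF r2 pf39121 h39121
  have h39123 := checkRangeG_sound parWF r2 pf39122 h39122
  have h39124 := checkRangeG_sound parWF r2 pf39123 h39123
  have h39125 := checkRangeG_sound parWF r2 pf39124 h39124
  have h39126 := checkRangeG_sound parWF r2 pf39125 h39125
  have h39127 := checkRangeG_sound parWF r2 pf39126 h39126
  have h39128 := checkRangeG_sound parWF r2 pf39127 h39127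
  have h39129 := checkRangeG_sound parWF r2 pf39128 h39128
  have h39130 := checkRangeG_sound parWF r2 pf39129 h39129
  have h39131 := checkRangeG_sound parWF r2 pf39130 h39130
  have h39132 := checkRangeG_sound parWF r2 pf39131 h39131
  have h39133 := checkRangeG_sound parWF r2 pf39132 h39132
  have h39134 := checkRangeG_sound parWF r2 pf39133 h39133
  have h39135 := checkRangeG_sound parWF r2 pf39134 h39134
  have h39136 := checkRangeG_sound parWF r2 pf39135 h39135
  have h39137 := checkRangeG_sound parWF r2 pf39136 h39136
  have h39138 := checkRangeG_sound parWF r2 pf39137 h39137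
  have h39139 := checkRangeG_sound parWF r2 pf39138 h39138
  have h39140 := checkRangeG_sound parWF r2 pf39139 h39139
  have h39141 := checkRangeG_sound parWF r2 pf39140 h39140
  have h39142 := checkRangeG_sound parWF r2 pf39141 h39141
  have h39143 := checkRangeG_sound parWF r2 pf39142 h39142
  have h39144 := checkRangeG_sound parWF r2 pf39143 h39143
  have h39145 := checkRangeG_sound parWF r2 pf39144 h39144
  have h39146 := checkRangeG_sound parWF r2 pf39145 h39145
  have h39147 := checkRangeG_sound parWF r2 pf39146 h39146
  have h39148 := checkRangeG_sound parWF r2 pf39147 h39147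
  have h39149 := checkRangeG_sound parWF r2 pf39148 h39148
  have h39150 := checkRangeG_sound parWF r2 pf39149 h39149
  exact h39150

theorem c783 (h39150 : ∀ j, j < 133043 → GoodG.{u} par (db j)) : ∀ j, j < 133262 → GoodG.{u} par (db j) := by
  have h39151 := checkRangeG_sound parWF r2 pf39150 h39150
  have h39152 := checkRangeG_sound parWF r2 pf39151 h39151
  have h39153 := checkRangeG_sound parWF r2 pf39152 h39152
  have h39154 := checkRangeG_sound parWF r2 pf39153 h39153
  have h39155 := checkRangeG_sound parWF r2 pf39154 h39154
  have h39156 := checkRangeG_sound parWF r2 pf39155 h39155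
  have h39157 := checkRangeG_sound parWF r2 pf39156 h39156
  have h39158 := checkRangeG_sound parWF r2 pf39157 h39157
  have h39159 := checkRangeG_sound parWF r2 pf39158 h39158
  have h39160 := checkRangeG_sound parWF r2 pf39159 h39159
  have h39161 := checkRangeG_sound parWF r2 pf39160 h39160
  have h39162 := checkRangeG_sound parWF r2 pf39161 h39161
  have h39163 := checkRangeG_sound parWF r2 pf39162 h39162
  have h39164 := checkRangeG_sound parWF r2 pf39163 h39163
  have h39165 := checkRangeG_sound parWF r2 pf39164 h39164
  have h39166 := checkRangeG_sound parWF r2 pf39165 h39165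
  have h39167 := checkRangeG_sound parWF r2 pf39166 h39166
  have h39168 := checkRangeG_sound parWF r2 pf39167 h39167
  have h39169 := checkRangeG_sound parWF r2 pf39168 h39168
  have h39170 := checkRangeG_sound parWF r2 pf39169 h39169
  have h39171 := checkRangeG_sound parWF r2 pf39170 h39170
  have h39172 := checkRangeG_sound parWF r2 pf39171 h39171
  have h39173 := checkRangeG_sound parWF r2 pf39172 h39172
  have h39174 := checkRangeG_sound parWF r2 pf39173 h39173
  have h39175 := checkRangeG_sound parWF r2 pf39174 h39174
  have h39176 := checkRangeG_sound parWF r2 pf39175 h39175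
  have h39177 := checkRangeG_sound parWF r2 pf39176 h39176
  have h39178 := checkRangeG_sound parWF r2 pf39177 h39177
  have h39179 := checkRangeG_sound parWF r2 pf39178 h39178
  have h39180 := checkRangeG_sound parWF r2 pf39179 h39179
  have h39181 := checkRangeG_sound parWF r2 pf39180 h39180
  have h39182 := checkRangeG_sound parWF r2 pf39181 h39181
  have h39183 := checkRangeG_sound parWF r2 pf39182 h39182
  have h39184 := checkRangeG_sound parWF r2 pf39183 h39183
  have h39185 := checkRangeG_sound parWF r2 pf39184 h39184
  have h39186 := checkRangeG_sound parWF r2 pf39185 h39185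
  have h39187 := checkRangeG_sound parWF r2 pf39186 h39186
  have h39188 := checkRangeG_sound parWF r2 pf39187 h39187
  have h39189 := checkRangeG_sound parWF r2 pf39188 h39188
  have h39190 := checkRangeG_sound parWF r2 pf39189 h39189
  have h39191 := checkRangeG_sound parWF r2 pf39190 h39190
  have h39192 := checkRangeG_sound parWF r2 pf39191 h39191
  have h39193 := checkRangeG_sound parWF r2 pf39192 h39192
  have h39194 := checkRangeG_sound parWF r2 pf39193 h39193
  have h39195 := checkRangeG_sound parWF r2 pf39194 h39194
  have h39196 := checkRangeG_sound parWF r2 pf39195 h39195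
  have h39197 := checkRangeG_sound parWF r2 pf39196 h39196
  have h39198 := checkRangeG_sound parWF r2 pf39197 h39197
  have h39199 := checkRangeG_sound parWF r2 pf39198 h39198
  have h39200 := checkRangeG_sound parWF r2 pf39199 h39199
  exact h39200

theorem c784 (h39200 : ∀ j, j < 133262 → GoodG.{u} par (db j)) : ∀ j, j < 133480 → GoodG.{u} par (db j) := by
  have h39201 := checkRangeG_sound parWF r2 pf39200 h39200
  have h39202 := checkRangeG_sound parWF r2 pf39201 h39201
  have h39203 := checkRangeG_sound parWF r2 pf39202 h39202
  have h39204 := checkRangeG_sound parWF r2 pf39203 h39203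
  have h39205 := checkRangeG_sound parWF r2 pf39204 h39204
  have h39206 := checkRangeG_sound parWF r2 pf39205 h39205
  have h39207 := checkRangeG_sound parWF r2 pf39206 h39206
  have h39208 := checkRangeG_sound parWF r2 pf39207 h39207
  have h39209 := checkRangeG_sound parWF r2 pf39208 h39208
  have h39210 := checkRangeG_sound parWF r2 pf39209 h39209
  have h39211 := checkRangeG_sound parWF r2 pf39210 h39210
  have h39212 := checkRangeG_sound parWF r2 pf39211 h39211
  have h39213 := checkRangeG_sound parWF r2 pf39212 h39212
  have h39214 := checkRangeG_sound parWF r2 pf39213 h39213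
  have h39215 := checkRangeG_sound parWF r2 pf39214 h39214
  have h39216 := checkRangeG_sound parWF r2 pf39215 h39215
  have h39217 := checkRangeG_sound parWF r2 pf39216 h39216
  have h39218 := checkRangeG_sound parWF r2 pf39217 h39217
  have h39219 := checkRangeG_sound parWF r2 pf39218 h39218
  have h39220 := checkRangeG_sound parWF r2 pf39219 h39219
  have h39221 := checkRangeG_sound parWF r2 pf39220 h39220
  have h39222 := checkRangeG_sound parWF r2 pf39221 h39221
  have h39223 := checkRangeG_sound parWF r2 pf39222 h39222
  have h39224 := checkRangeG_sound parWF r2 pf39223 h39223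
  have h39225 := checkRangeG_sound parWF r2 pf39224 h39224
  have h39226 := checkRangeG_sound parWF r2 pf39225 h39225
  have h39227 := checkRangeG_sound parWF r2 pf39226 h39226
  have h39228 := checkRangeG_sound parWF r2 pf39227 h39227
  have h39229 := checkRangeG_sound parWF r2 pf39228 h39228
  have h39230 := checkRangeG_sound parWF r2 pf39229 h39229
  have h39231 := checkRangeG_sound parWF r2 pf39230 h39230
  have h39232 := checkRangeG_sound parWF r2 pf39231 h39231
  have h39233 := checkRangeG_sound parWF r2 pf39232 h39232
  have h39234 := checkRangeG_sound parWF r2 pf39233 h39233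
  have h39235 := checkRangeG_sound parWF r2 pf39234 h39234
  have h39236 := checkRangeG_sound parWF r2 pf39235 h39235
  have h39237 := checkRangeG_sound parWF r2 pf39236 h39236
  have h39238 := checkRangeG_sound parWF r2 pf39237 h39237
  have h39239 := checkRangeG_sound parWF r2 pf39238 h39238
  have h39240 := checkRangeG_sound parWF r2 pf39239 h39239
  have h39241 := checkRangeG_sound parWF r2 pf39240 h39240
  have h39242 := checkRangeG_sound parWF r2 pf39241 h39241
  have h39243 := checkRangeG_sound parWF r2 pf39242 h39242
  have h39244 := checkRangeG_sound parWF r2 pf39243 h39243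
  have h39245 := checkRangeG_sound parWF r2 pf39244 h39244
  have h39246 := checkRangeG_sound parWF r2 pf39245 h39245
  have h39247 := checkRangeG_sound parWF r2 pf39246 h39246
  have h39248 := checkRangeG_sound parWF r2 pf39247 h39247
  have h39249 := checkRangeG_sound parWF r2 pf39248 h39248
  have h39250 := checkRangeG_sound parWF r2 pf39249 h39249
  exact h39250

theorem c785 (h39250 : ∀ j, j < 133480 → GoodG.{u} par (db j)) : ∀ j, j < 133687 → GoodG.{u} par (db j) := by
  have h39251 := checkRangeG_sound parWF r2 pf39250 h39250
  have h39252 := checkRangeG_sound parWF r2 pf39251 h39251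
  have h39253 := checkRangeG_sound parWF r2 pf39252 h39252
  have h39254 := checkRangeG_sound parWF r2 pf39253 h39253
  have h39255 := checkRangeG_sound parWF r2 pf39254 h39254
  have h39256 := checkRangeG_sound parWF r2 pf39255 h39255
  have h39257 := checkRangeG_sound parWF r2 pf39256 h39256
  have h39258 := checkRangeG_sound parWF r2 pf39257 h39257
  have h39259 := checkRangeG_sound parWF r2 pf39258 h39258
  have h39260 := checkRangeG_sound parWF r2 pf39259 h39259
  have h39261 := checkRangeG_sound parWF r2 pf39260 h39260
  have h39262 := checkRangeG_sound parWF r2 pf39261 h39261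
  have h39263 := checkRangeG_sound parWF r2 pf39262 h39262
  have h39264 := checkRangeG_sound parWF r2 pf39263 h39263
  have h39265 := checkRangeG_sound parWF r2 pf39264 h39264
  have h39266 := checkRangeG_sound parWF r2 pf39265 h39265
  have h39267 := checkRangeG_sound parWF r2 pf39266 h39266
  have h39268 := checkRangeG_sound parWF r2 pf39267 h39267
  have h39269 := checkRangeG_sound parWF r2 pf39268 h39268
  have h39270 := checkRangeG_sound parWF r2 pf39269 h39269
  have h39271 := checkRangeG_sound parWF r2 pf39270 h39270
  have h39272 := checkRangeG_sound parWF r2 pf39271 h39271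
  have h39273 := checkRangeG_sound parWF r2 pf39272 h39272
  have h39274 := checkRangeG_sound parWF r2 pf39273 h39273
  have h39275 := checkRangeG_sound parWF r2 pf39274 h39274
  have h39276 := checkRangeG_sound parWF r2 pf39275 h39275
  have h39277 := checkRangeG_sound parWF r2 pf39276 h39276
  have h39278 := checkRangeG_sound parWF r2 pf39277 h39277
  have h39279 := checkRangeG_sound parWF r2 pf39278 h39278
  have h39280 := checkRangeG_sound parWF r2 pf39279 h39279
  have h39281 := checkRangeG_sound parWF r2 pf39280 h39280
  have h39282 := checkRangeG_sound parWF r2 pf39281 h39281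
  have h39283 := checkRangeG_sound parWF r2 pf39282 h39282
  have h39284 := checkRangeG_sound parWF r2 pf39283 h39283
  have h39285 := checkRangeG_sound parWF r2 pf39284 h39284
  have h39286 := checkRangeG_sound parWF r2 pf39285 h39285
  have h39287 := checkRangeG_sound parWF r2 pf39286 h39286
  have h39288 := checkRangeG_sound parWF r2 pf39287 h39287
  have h39289 := checkRangeG_sound parWF r2 pf39288 h39288
  have h39290 := checkRangeG_sound parWF r2 pf39289 h39289
  have h39291 := checkRangeG_sound parWF r2 pf39290 h39290
  have h39292 := checkRangeG_sound parWF r2 pf39291 h39291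
  have h39293 := checkRangeG_sound parWF r2 pf39292 h39292
  have h39294 := checkRangeG_sound parWF r2 pf39293 h39293
  have h39295 := checkRangeG_sound parWF r2 pf39294 h39294
  have h39296 := checkRangeG_sound parWF r2 pf39295 h39295
  have h39297 := checkRangeG_sound parWF r2 pf39296 h39296
  have h39298 := checkRangeG_sound parWF r2 pf39297 h39297
  have h39299 := checkRangeG_sound parWF r2 pf39298 h39298
  have h39300 := checkRangeG_sound parWF r2 pf39299 h39299
  exact h39300

theorem c786 (h39300 : ∀ j, j < 133687 → GoodG.{u} par (db j)) : ∀ j, j < 133914 → GoodG.{u} par (db j) := by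
  have h39301 := checkRangeG_sound parWF r2 pf39300 h39300
  have h39302 := checkRangeG_sound parWF r2 pf39301 h39301
  have h39303 := checkRangeG_sound parWF r2 pf39302 h39302
  have h39304 := checkRangeG_sound parWF r2 pf39303 h39303
  have h39305 := checkRangeG_sound parWF r2 pf39304 h39304
  have h39306 := checkRangeG_sound parWF r2 pf39305 h39305
  have h39307 := checkRangeG_sound parWF r2 pf39306 h39306
  have h39308 := checkRangeG_sound parWF r2 pf39307 h39307
  have h39309 := checkRangeG_sound parWF r2 pf39308 h39308
  have h39310 := checkRangeG_sound parWF r2 pf39309 h39309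
  have h39311 := checkRangeG_sound parWF r2 pf39310 h39310
  have h39312 := checkRangeG_sound parWF r2 pf39311 h39311
  have h39313 := checkRangeG_sound parWF r2 pf39312 h39312
  have h39314 := checkRangeG_sound parWF r2 pf39313 h39313
  have h39315 := checkRangeG_sound parWF r2 pf39314 h39314
  have h39316 := checkRangeG_sound parWF r2 pf39315 h39315
  have h39317 := checkRangeG_sound parWF r2 pf39316 h39316
  have h39318 := checkRangeG_sound parWF r2 pf39317 h39317
  have h39319 := checkRangeG_sound parWF r2 pf39318 h39318
  have h39320 := checkRangeG_sound parWF r2 pf39319 h39319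
  have h39321 := checkRangeG_sound parWF r2 pf39320 h39320
  have h39322 := checkRangeG_sound parWF r2 pf39321 h39321
  have h39323 := checkRangeG_sound parWF r2 pf39322 h39322
  have h39324 := checkRangeG_sound parWF r2 pf39323 h39323
  have h39325 := checkRangeG_sound parWF r2 pf39324 h39324
  have h39326 := checkRangeG_sound parWF r2 pf39325 h39325
  have h39327 := checkRangeG_sound parWF r2 pf39326 h39326
  have h39328 := checkRangeG_sound parWF r2 pf39327 h39327
  have h39329 := checkRangeG_sound parWF r2 pf39328 h39328
  have h39330 := checkRangeG_sound parWF r2 pf39329 h39329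
  have h39331 := checkRangeG_sound parWF r2 pf39330 h39330
  have h39332 := checkRangeG_sound parWF r2 pf39331 h39331
  have h39333 := checkRangeG_sound parWF r2 pf39332 h39332
  have h39334 := checkRangeG_sound parWF r2 pf39333 h39333
  have h39335 := checkRangeG_sound parWF r2 pf39334 h39334
  have h39336 := checkRangeG_sound parWF r2 pf39335 h39335
  have h39337 := checkRangeG_sound parWF r2 pf39336 h39336
  have h39338 := checkRangeG_sound parWF r2 pf39337 h39337
  have h39339 := checkRangeG_sound parWF r2 pf39338 h39338
  have h39340 := checkRangeG_sound parWF r2 pf39339 h39339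
  have h39341 := checkRangeG_sound parWF r2 pf39340 h39340
  have h39342 := checkRangeG_sound parWF r2 pf39341 h39341
  have h39343 := checkRangeG_sound parWF r2 pf39342 h39342
  have h39344 := checkRangeG_sound parWF r2 pf39343 h39343
  have h39345 := checkRangeG_sound parWF r2 pf39344 h39344
  have h39346 := checkRangeG_sound parWF r2 pf39345 h39345
  have h39347 := checkRangeG_sound parWF r2 pf39346 h39346
  have h39348 := checkRangeG_sound parWF r2 pf39347 h39347
  have h39349 := checkRangeG_sound parWF r2 pf39348 h39348
  have h39350 := checkRangeG_sound parWF r2 pf39349 h39349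
  exact h39350

theorem c787 (h39350 : ∀ j, j < 133914 → GoodG.{u} par (db j)) : ∀ j, j < 134146 → GoodG.{u} par (db j) := by
  have h39351 := checkRangeG_sound parWF r2 pf39350 h39350
  have h39352 := checkRangeG_sound parWF r2 pf39351 h39351
  have h39353 := checkRangeG_sound parWF r2 pf39352 h39352
  have h39354 := checkRangeG_sound parWF r2 pf39353 h39353
  have h39355 := checkRangeG_sound parWF r2 pf39354 h39354
  have h39356 := checkRangeG_sound parWF r2 pf39355 h39355
  have h39357 := checkRangeG_sound parWF r2 pf39356 h39356
  have h39358 := checkRangeG_sound parWF r2 pf39357 h39357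
  have h39359 := checkRangeG_sound parWF r2 pf39358 h39358
  have h39360 := checkRangeG_sound parWF r2 pf39359 h39359
  have h39361 := checkRangeG_sound parWF r2 pf39360 h39360
  have h39362 := checkRangeG_sound parWF r2 pf39361 h39361
  have h39363 := checkRangeG_sound parWF r2 pf39362 h39362
  have h39364 := checkRangeG_sound parWF r2 pf39363 h39363
  have h39365 := checkRangeG_sound parWF r2 pf39364 h39364
  have h39366 := checkRangeG_sound parWF r2 pf39365 h39365
  have h39367 := checkRangeG_sound parWF r2 pf39366 h39366
  have h39368 := checkRangeG_sound parWF r2 pf39367 h39367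
  have h39369 := checkRangeG_sound parWF r2 pf39368 h39368
  have h39370 := checkRangeG_sound parWF r2 pf39369 h39369
  have h39371 := checkRangeG_sound parWF r2 pf39370 h39370
  have h39372 := checkRangeG_sound parWF r2 pf39371 h39371
  have h39373 := checkRangeG_sound parWF r2 pf39372 h39372
  have h39374 := checkRangeG_sound parWF r2 pf39373 h39373
  have h39375 := checkRangeG_sound parWF r2 pf39374 h39374
  have h39376 := checkRangeG_sound parWF r2 pf39375 h39375
  have h39377 := checkRangeG_sound parWF r2 pf39376 h39376
  have h39378 := checkRangeG_sound parWF r2 pf39377 h39377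
  have h39379 := checkRangeG_sound parWF r2 pf39378 h39378
  have h39380 := checkRangeG_sound parWF r2 pf39379 h39379
  have h39381 := checkRangeG_sound parWF r2 pf39380 h39380
  have h39382 := checkRangeG_sound parWF r2 pf39381 h39381
  have h39383 := checkRangeG_sound parWF r2 pf39382 h39382
  have h39384 := checkRangeG_sound parWF r2 pf39383 h39383
  have h39385 := checkRangeG_sound parWF r2 pf39384 h39384
  have h39386 := checkRangeG_sound parWF r2 pf39385 h39385
  have h39387 := checkRangeG_sound parWF r2 pf39386 h39386
  have h39388 := checkRangeG_sound parWF r2 pf39387 h39387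
  have h39389 := checkRangeG_sound parWF r2 pf39388 h39388
  have h39390 := checkRangeG_sound parWF r2 pf39389 h39389
  have h39391 := checkRangeG_sound parWF r2 pf39390 h39390
  have h39392 := checkRangeG_sound parWF r2 pf39391 h39391
  have h39393 := checkRangeG_sound parWF r2 pf39392 h39392
  have h39394 := checkRangeG_sound parWF r2 pf39393 h39393
  have h39395 := checkRangeG_sound parWF r2 pf39394 h39394
  have h39396 := checkRangeG_sound parWF r2 pf39395 h39395
  have h39397 := checkRangeG_sound parWF r2 pf39396 h39396
  have h39398 := checkRangeG_sound parWF r2 pf39397 h39397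
  have h39399 := checkRangeG_sound parWF r2 pf39398 h39398
  have h39400 := checkRangeG_sound parWF r2 pf39399 h39399
  exact h39400

theorem c788 (h39400 : ∀ j, j < 134146 → GoodG.{u} par (db j)) : ∀ j, j < 134384 → GoodG.{u} par (db j) := by
  have h39401 := checkRangeG_sound parWF r2 pf39400 h39400
  have h39402 := checkRangeG_sound parWF r2 pf39401 h39401
  have h39403 := checkRangeG_sound parWF r2 pf39402 h39402
  have h39404 := checkRangeG_sound parWF r2 pf39403 h39403
  have h39405 := checkRangeG_sound parWF r2 pf39404 h39404
  have h39406 := checkRangeG_sound parWF r2 pf39405 h39405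
  have h39407 := checkRangeG_sound parWF r2 pf39406 h39406
  have h39408 := checkRangeG_sound parWF r2 pf39407 h39407
  have h39409 := checkRangeG_sound parWF r2 pf39408 h39408
  have h39410 := checkRangeG_sound parWF r2 pf39409 h39409
  have h39411 := checkRangeG_sound parWF r2 pf39410 h39410
  have h39412 := checkRangeG_sound parWF r2 pf39411 h39411
  have h39413 := checkRangeG_sound parWF r2 pf39412 h39412
  have h39414 := checkRangeG_sound parWF r2 pf39413 h39413
  have h39415 := checkRangeG_sound parWF r2 pf39414 h39414
  have h39416 := checkRangeG_sound parWF r2 pf39415 h39415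
  have h39417 := checkRangeG_sound parWF r2 pf39416 h39416
  have h39418 := checkRangeG_sound parWF r2 pf39417 h39417
  have h39419 := checkRangeG_sound parWF r2 pf39418 h39418
  have h39420 := checkRangeG_sound parWF r2 pf39419 h39419
  have h39421 := checkRangeG_sound parWF r2 pf39420 h39420
  have h39422 := checkRangeG_sound parWF r2 pf39421 h39421
  have h39423 := checkRangeG_sound parWF r2 pf39422 h39422
  have h39424 := checkRangeG_sound parWF r2 pf39423 h39423
  have h39425 := checkRangeG_sound parWF r2 pf39424 h39424
  have h39426 := checkRangeG_sound parWF r2 pf39425 h39425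
  have h39427 := checkRangeG_sound parWF r2 pf39426 h39426
  have h39428 := checkRangeG_sound parWF r2 pf39427 h39427
  have h39429 := checkRangeG_sound parWF r2 pf39428 h39428
  have h39430 := checkRangeG_sound parWF r2 pf39429 h39429
  have h39431 := checkRangeG_sound parWF r2 pf39430 h39430
  have h39432 := checkRangeG_sound parWF r2 pf39431 h39431
  have h39433 := checkRangeG_sound parWF r2 pf39432 h39432
  have h39434 := checkRangeG_sound parWF r2 pf39433 h39433
  have h39435 := checkRangeG_sound parWF r2 pf39434 h39434
  have h39436 := checkRangeG_sound parWF r2 pf39435 h39435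
  have h39437 := checkRangeG_sound parWF r2 pf39436 h39436
  have h39438 := checkRangeG_sound parWF r2 pf39437 h39437
  have h39439 := checkRangeG_sound parWF r2 pf39438 h39438
  have h39440 := checkRangeG_sound parWF r2 pf39439 h39439
  have h39441 := checkRangeG_sound parWF r2 pf39440 h39440
  have h39442 := checkRangeG_sound parWF r2 pf39441 h39441
  have h39443 := checkRangeG_sound parWF r2 pf39442 h39442
  have h39444 := checkRangeG_sound parWF r2 pf39443 h39443
  have h39445 := checkRangeG_sound parWF r2 pf39444 h39444
  have h39446 := checkRangeG_sound parWF r2 pf39445 h39445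
  have h39447 := checkRangeG_sound parWF r2 pf39446 h39446
  have h39448 := checkRangeG_sound parWF r2 pf39447 h39447
  have h39449 := checkRangeG_sound parWF r2 pf39448 h39448
  have h39450 := checkRangeG_sound parWF r2 pf39449 h39449
  exact h39450

theorem c789 (h39450 : ∀ j, j < 134384 → GoodG.{u} par (db j)) : ∀ j, j < 134633 → GoodG.{u} par (db j) := by
  have h39451 := checkRangeG_sound parWF r2 pf39450 h39450
  have h39452 := checkRangeG_sound parWF r2 pf39451 h39451
  have h39453 := checkRangeG_sound parWF r2 pf39452 h39452
  have h39454 := checkRangeG_sound parWF r2 pf39453 h39453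
  have h39455 := checkRangeG_sound parWF r2 pf39454 h39454
  have h39456 := checkRangeG_sound parWF r2 pf39455 h39455
  have h39457 := checkRangeG_sound parWF r2 pf39456 h39456
  have h39458 := checkRangeG_sound parWF r2 pf39457 h39457
  have h39459 := checkRangeG_sound parWF r2 pf39458 h39458
  have h39460 := checkRangeG_sound parWF r2 pf39459 h39459
  have h39461 := checkRangeG_sound parWF r2 pf39460 h39460
  have h39462 := checkRangeG_sound parWF r2 pf39461 h39461
  have h39463 := checkRangeG_sound parWF r2 pf39462 h39462
  have h39464 := checkRangeG_sound parWF r2 pf39463 h39463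
  have h39465 := checkRangeG_sound parWF r2 pf39464 h39464
  have h39466 := checkRangeG_sound parWF r2 pf39465 h39465
  have h39467 := checkRangeG_sound parWF r2 pf39466 h39466
  have h39468 := checkRangeG_sound parWF r2 pf39467 h39467
  have h39469 := checkRangeG_sound parWF r2 pf39468 h39468
  have h39470 := checkRangeG_sound parWF r2 pf39469 h39469
  have h39471 := checkRangeG_sound parWF r2 pf39470 h39470
  have h39472 := checkRangeG_sound parWF r2 pf39471 h39471
  have h39473 := checkRangeG_sound parWF r2 pf39472 h39472
  have h39474 := checkRangeG_sound parWF r2 pf39473 h39473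
  have h39475 := checkRangeG_sound parWF r2 pf39474 h39474
  have h39476 := checkRangeG_sound parWF r2 pf39475 h39475
  have h39477 := checkRangeG_sound parWF r2 pf39476 h39476
  have h39478 := checkRangeG_sound parWF r2 pf39477 h39477
  have h39479 := checkRangeG_sound parWF r2 pf39478 h39478
  have h39480 := checkRangeG_sound parWF r2 pf39479 h39479
  have h39481 := checkRangeG_sound parWF r2 pf39480 h39480
  have h39482 := checkRangeG_sound parWF r2 pf39481 h39481
  have h39483 := checkRangeG_sound parWF r2 pf39482 h39482
  have h39484 := checkRangeG_sound parWF r2 pf39483 h39483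
  have h39485 := checkRangeG_sound parWF r2 pf39484 h39484
  have h39486 := checkRangeG_sound parWF r2 pf39485 h39485
  have h39487 := checkRangeG_sound parWF r2 pf39486 h39486
  have h39488 := checkRangeG_sound parWF r2 pf39487 h39487
  have h39489 := checkRangeG_sound parWF r2 pf39488 h39488
  have h39490 := checkRangeG_sound parWF r2 pf39489 h39489
  have h39491 := checkRangeG_sound parWF r2 pf39490 h39490
  have h39492 := checkRangeG_sound parWF r2 pf39491 h39491
  have h39493 := checkRangeG_sound parWF r2 pf39492 h39492
  have h39494 := checkRangeG_sound parWF r2 pf39493 h39493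
  have h39495 := checkRangeG_sound parWF r2 pf39494 h39494
  have h39496 := checkRangeG_sound parWF r2 pf39495 h39495
  have h39497 := checkRangeG_sound parWF r2 pf39496 h39496
  have h39498 := checkRangeG_sound parWF r2 pf39497 h39497
  have h39499 := checkRangeG_sound parWF r2 pf39498 h39498
  have h39500 := checkRangeG_sound parWF r2 pf39499 h39499
  exact h39500

theorem c790 (h39500 : ∀ j, j < 134633 → GoodG.{u} par (db j)) : ∀ j, j < 134861 → GoodG.{u} par (db j) := by
  have h39501 := checkRangeG_sound parWF r2 pf39500 h39500
  have h39502 := checkRangeG_sound parWF r2 pf39501 h39501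
  have h39503 := checkRangeG_sound parWF r2 pf39502 h39502
  have h39504 := checkRangeG_sound parWF r2 pf39503 h39503
  have h39505 := checkRangeG_sound parWF r2 pf39504 h39504
  have h39506 := checkRangeG_sound parWF r2 pf39505 h39505
  have h39507 := checkRangeG_sound parWF r2 pf39506 h39506
  have h39508 := checkRangeG_sound parWF r2 pf39507 h39507
  have h39509 := checkRangeG_sound parWF r2 pf39508 h39508
  have h39510 := checkRangeG_sound parWF r2 pf39509 h39509
  have h39511 := checkRangeG_sound parWF r2 pf39510 h39510
  have h39512 := checkRangeG_sound parWF r2 pf39511 h39511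
  have h39513 := checkRangeG_sound parWF r2 pf39512 h39512
  have h39514 := checkRangeG_sound parWF r2 pf39513 h39513
  have h39515 := checkRangeG_sound parWF r2 pf39514 h39514
  have h39516 := checkRangeG_sound parWF r2 pf39515 h39515
  have h39517 := checkRangeG_sound parWF r2 pf39516 h39516
  have h39518 := checkRangeG_sound parWF r2 pf39517 h39517
  have h39519 := checkRangeG_sound parWF r2 pf39518 h39518
  have h39520 := checkRangeG_sound parWF r2 pf39519 h39519
  have h39521 := checkRangeG_sound parWF r2 pf39520 h39520
  have h39522 := checkRangeG_sound parWF r2 pf39521 h39521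
  have h39523 := checkRangeG_sound parWF r2 pf39522 h39522
  have h39524 := checkRangeG_sound parWF r2 pf39523 h39523
  have h39525 := checkRangeG_sound parWF r2 pf39524 h39524
  have h39526 := checkRangeG_sound parWF r2 pf39525 h39525
  have h39527 := checkRangeG_sound parWF r2 pf39526 h39526
  have h39528 := checkRangeG_sound parWF r2 pf39527 h39527
  have h39529 := checkRangeG_sound parWF r2 pf39528 h39528
  have h39530 := checkRangeG_sound parWF r2 pf39529 h39529
  have h39531 := checkRangeG_sound parWF r2 pf39530 h39530
  have h39532 := checkRangeG_sound parWF r2 pf39531 h39531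
  have h39533 := checkRangeG_sound parWF r2 pf39532 h39532
  have h39534 := checkRangeG_sound parWF r2 pf39533 h39533
  have h39535 := checkRangeG_sound parWF r2 pf39534 h39534
  have h39536 := checkRangeG_sound parWF r2 pf39535 h39535
  have h39537 := checkRangeG_sound parWF r2 pf39536 h39536
  have h39538 := checkRangeG_sound parWF r2 pf39537 h39537
  have h39539 := checkRangeG_sound parWF r2 pf39538 h39538
  have h39540 := checkRangeG_sound parWF r2 pf39539 h39539
  have h39541 := checkRangeG_sound parWF r2 pf39540 h39540
  have h39542 := checkRangeG_sound parWF r2 pf39541 h39541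
  have h39543 := checkRangeG_sound parWF r2 pf39542 h39542
  have h39544 := checkRangeG_sound parWF r2 pf39543 h39543
  have h39545 := checkRangeG_sound parWF r2 pf39544 h39544
  have h39546 := checkRangeG_sound parWF r2 pf39545 h39545
  have h39547 := checkRangeG_sound parWF r2 pf39546 h39546
  have h39548 := checkRangeG_sound parWF r2 pf39547 h39547
  have h39549 := checkRangeG_sound parWF r2 pf39548 h39548
  have h39550 := checkRangeG_sound parWF r2 pf39549 h39549
  exact h39550

theorem c791 (h39550 : ∀ j, j < 134861 → GoodG.{u} par (db j)) : ∀ j, j < 135081 → GoodG.{u} par (db j) := by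
  have h39551 := checkRangeG_sound parWF r2 pf39550 h39550
  have h39552 := checkRangeG_sound parWF r2 pf39551 h39551
  have h39553 := checkRangeG_sound parWF r2 pf39552 h39552
  have h39554 := checkRangeG_sound parWF r2 pf39553 h39553
  have h39555 := checkRangeG_sound parWF r2 pf39554 h39554
  have h39556 := checkRangeG_sound parWF r2 pf39555 h39555
  have h39557 := checkRangeG_sound parWF r2 pf39556 h39556
  have h39558 := checkRangeG_sound parWF r2 pf39557 h39557
  have h39559 := checkRangeG_sound parWF r2 pf39558 h39558
  have h39560 := checkRangeG_sound parWF r2 pf39559 h39559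
  have h39561 := checkRangeG_sound parWF r2 pf39560 h39560
  have h39562 := checkRangeG_sound parWF r2 pf39561 h39561
  have h39563 := checkRangeG_sound parWF r2 pf39562 h39562
  have h39564 := checkRangeG_sound parWF r2 pf39563 h39563
  have h39565 := checkRangeG_sound parWF r2 pf39564 h39564
  have h39566 := checkRangeG_sound parWF r2 pf39565 h39565
  have h39567 := checkRangeG_sound parWF r2 pf39566 h39566
  have h39568 := checkRangeG_sound parWF r2 pf39567 h39567
  have h39569 := checkRangeG_sound parWF r2 pf39568 h39568
  have h39570 := checkRangeG_sound parWF r2 pf39569 h39569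
  have h39571 := checkRangeG_sound parWF r2 pf39570 h39570
  have h39572 := checkRangeG_sound parWF r2 pf39571 h39571
  have h39573 := checkRangeG_sound parWF r2 pf39572 h39572
  have h39574 := checkRangeG_sound parWF r2 pf39573 h39573
  have h39575 := checkRangeG_sound parWF r2 pf39574 h39574
  have h39576 := checkRangeG_sound parWF r2 pf39575 h39575
  have h39577 := checkRangeG_sound parWF r2 pf39576 h39576
  have h39578 := checkRangeG_sound parWF r2 pf39577 h39577
  have h39579 := checkRangeG_sound parWF r2 pf39578 h39578
  have h39580 := checkRangeG_sound parWF r2 pf39579 h39579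
  have h39581 := checkRangeG_sound parWF r2 pf39580 h39580
  have h39582 := checkRangeG_sound parWF r2 pf39581 h39581
  have h39583 := checkRangeG_sound parWF r2 pf39582 h39582
  have h39584 := checkRangeG_sound parWF r2 pf39583 h39583
  have h39585 := checkRangeG_sound parWF r2 pf39584 h39584
  have h39586 := checkRangeG_sound parWF r2 pf39585 h39585
  have h39587 := checkRangeG_sound parWF r2 pf39586 h39586
  have h39588 := checkRangeG_sound parWF r2 pf39587 h39587
  have h39589 := checkRangeG_sound parWF r2 pf39588 h39588
  have h39590 := checkRangeG_sound parWF r2 pf39589 h39589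
  have h39591 := checkRangeG_sound parWF r2 pf39590 h39590
  have h39592 := checkRangeG_sound parWF r2 pf39591 h39591
  have h39593 := checkRangeG_sound parWF r2 pf39592 h39592
  have h39594 := checkRangeG_sound parWF r2 pf39593 h39593
  have h39595 := checkRangeG_sound parWF r2 pf39594 h39594
  have h39596 := checkRangeG_sound parWF r2 pf39595 h39595
  have h39597 := checkRangeG_sound parWF r2 pf39596 h39596
  have h39598 := checkRangeG_sound parWF r2 pf39597 h39597
  have h39599 := checkRangeG_sound parWF r2 pf39598 h39598
  have h39600 := checkRangeG_sound parWF r2 pf39599 h39599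
  exact h39600


end Vale.Agent.P045g.C61
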