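import Vale.Agent.P045g.C61.WF
import Vale.Agent.P045g.C61.Pf660
import Vale.Agent.P045g.C61.Pf661
import Vale.Agent.P045g.C61.Pf662
import Vale.Agent.P045g.C61.Pf663
import Vale.Agent.P045g.C61.Pf664
import Vale.Agent.P045g.C61.Pf665
import Vale.Agent.P045g.C61.Pf666
import Vale.Agent.P045g.C61.Pf667
import Vale.Agent.P045g.C61.Pf668
import Vale.Agent.P045g.C61.Pf669

namespace Vale.Agent.P045g.C61

open Vale.Agent.P045b Vale.Agent.P045g

universe u

theorem c792 (h39600 : ∀ j, j < 135081 → GoodG.{u} par (db j)) : ∀ j, j < 135320 → GoodG.{u} par (db j) := by
  have h39601 := checkRangeG_sound parWF r2 pf39600 h39600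
  have h39602 := checkRangeG_sound parWF r2 pf39601 h39601
  have h39603 := checkRangeG_sound parWF r2 pf39602 h39602
  have h39604 := checkRangeG_sound parWF r2 pf39603 h39603
  have h39605 := checkRangeG_sound parWF r2 pf39604 h39604
  have h39606 := checkRangeG_sound parWF r2 pf39605 h39605
  have h39607 := checkRangeG_sound parWF r2 pf39606 h39606
  have h39608 := checkRangeG_sound parWF r2 pf39607 h39607
  have h39609 := checkRangeG_sound parWF r2 pf39608 h39608
  have h39610 := checkRangeG_sound parWF r2 pf39609 h39609
  have h39611 := checkRangeG_sound parWF r2 pf39610 h39610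
  have h39612 := checkRangeG_sound parWF r2 pf39611 h39611
  have h39613 := checkRangeG_sound parWF r2 pf39612 h39612
  have h39614 := checkRangeG_sound parWF r2 pf39613 h39613
  have h39615 := checkRangeG_sound parWF r2 pf39614 h39614
  have h39616 := checkRangeG_sound parWF r2 pf39615 h39615
  have h39617 := checkRangeG_sound parWF r2 pf39616 h39616
  have h39618 := checkRangeG_sound parWF r2 pf39617 h39617
  have h39619 := checkRangeG_sound parWF r2 pf39618 h39618
  have h39620 := checkRangeG_sound parWF r2 pf39619 h39619
  have h39621 := checkRangeG_sound parWF r2 pf39620 h39620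
  have h39622 := checkRangeG_sound parWF r2 pf39621 h39621
  have h39623 := checkRangeG_sound parWF r2 pf39622 h39622
  have h39624 := checkRangeG_sound parWF r2 pf39623 h39623
  have h39625 := checkRangeG_sound parWF r2 pf39624 h39624
  have h39626 := checkRangeG_sound parWF r2 pf39625 h39625
  have h39627 := checkRangeG_sound parWF r2 pf39626 h39626
  have h39628 := checkRangeG_sound parWF r2 pf39627 h39627
  have h39629 := checkRangeG_sound parWF r2 pf39628 h39628
  have h39630 := checkRangeG_sound parWF r2 pf39629 h39629
  have h39631 := checkRangeG_sound parWF r2 pf39630 h39630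
  have h39632 := checkRangeG_sound parWF r2 pf39631 h39631
  have h39633 := checkRangeG_sound parWF r2 pf39632 h39632
  have h39634 := checkRangeG_sound parWF r2 pf39633 h39633
  have h39635 := checkRangeG_sound parWF r2 pf39634 h39634
  have h39636 := checkRangeG_sound parWF r2 pf39635 h39635
  have h39637 := checkRangeG_sound parWF r2 pf39636 h39636
  have h39638 := checkRangeG_sound parWF r2 pf39637 h39637
  have h39639 := checkRangeG_sound parWF r2 pf39638 h39638
  have h39640 := checkRangeG_sound parWF r2 pf39639 h39639
  have h39641 := checkRangeG_sound parWF r2 pf39640 h39640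
  have h39642 := checkRangeG_sound parWF r2 pf39641 h39641
  have h39643 := checkRangeG_sound parWF r2 pf39642 h39642
  have h39644 := checkRangeG_sound parWF r2 pf39643 h39643
  have h39645 := checkRangeG_sound parWF r2 pf39644 h39644
  have h39646 := checkRangeG_sound parWF r2 pf39645 h39645
  have h39647 := checkRangeG_sound parWF r2 pf39646 h39646
  have h39648 := checkRangeG_sound parWF r2 pf39647 h39647
  have h39649 := checkRangeG_sound parWF r2 pf39648 h39648
  have h39650 := checkRangeG_sound parWF r2 pf39649 h39649
  exact h39650

theorem c793 (h39650 : ∀ j, j < 135320 → GoodG.{u} par (db j)) : ∀ j, j < 135483 → GoodG.{u} par (db j) := by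
  have h39651 := checkRangeG_sound parWF r2 pf39650 h39650
  have h39652 := checkRangeG_sound parWF r2 pf39651 h39651
  have h39653 := checkRangeG_sound parWF r2 pf39652 h39652
  have h39654 := checkRangeG_sound parWF r2 pf39653 h39653
  have h39655 := checkRangeG_sound parWF r2 pf39654 h39654
  have h39656 := checkRangeG_sound parWF r2 pf39655 h39655
  have h39657 := checkRangeG_sound parWF r2 pf39656 h39656
  have h39658 := checkRangeG_sound parWF r2 pf39657 h39657
  have h39659 := checkRangeG_sound parWF r2 pf39658 h39658
  have h39660 := checkRangeG_sound parWF r2 pf39659 h39659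
  have h39661 := checkRangeG_sound parWF r2 pf39660 h39660
  have h39662 := checkRangeG_sound parWF r2 pf39661 h39661
  have h39663 := checkRangeG_sound parWF r2 pf39662 h39662
  have h39664 := checkRangeG_sound parWF r2 pf39663 h39663
  have h39665 := checkRangeG_sound parWF r2 pf39664 h39664
  have h39666 := checkRangeG_sound parWF r2 pf39665 h39665
  have h39667 := checkRangeG_sound parWF r2 pf39666 h39666
  have h39668 := checkRangeG_sound parWF r2 pf39667 h39667
  have h39669 := checkRangeG_sound parWF r2 pf39668 h39668
  have h39670 := checkRangeG_sound parWF r2 pf39669 h39669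
  have h39671 := checkRangeG_sound parWF r2 pf39670 h39670
  have h39672 := checkRangeG_sound parWF r2 pf39671 h39671
  have h39673 := checkRangeG_sound parWF r2 pf39672 h39672
  have h39674 := checkRangeG_sound parWF r2 pf39673 h39673
  have h39675 := checkRangeG_sound parWF r2 pf39674 h39674
  have h39676 := checkRangeG_sound parWF r2 pf39675 h39675
  have h39677 := checkRangeG_sound parWF r2 pf39676 h39676
  have h39678 := checkRangeG_sound parWF r2 pf39677 h39677
  have h39679 := checkRangeG_sound parWF r2 pf39678 h39678
  have h39680 := checkRangeG_sound parWF r2 pf39679 h39679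
  have h39681 := checkRangeG_sound parWF r2 pf39680 h39680
  have h39682 := checkRangeG_sound parWF r2 pf39681 h39681
  have h39683 := checkRangeG_sound parWF r2 pf39682 h39682
  have h39684 := checkRangeG_sound parWF r2 pf39683 h39683
  have h39685 := checkRangeG_sound parWF r2 pf39684 h39684
  have h39686 := checkRangeG_sound parWF r2 pf39685 h39685
  have h39687 := checkRangeG_sound parWF r2 pf39686 h39686
  have h39688 := checkRangeG_sound parWF r2 pf39687 h39687
  have h39689 := checkRangeG_sound parWF r2 pf39688 h39688
  have h39690 := checkRangeG_sound parWF r2 pf39689 h39689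
  have h39691 := checkRangeG_sound parWF r2 pf39690 h39690
  have h39692 := checkRangeG_sound parWF r2 pf39691 h39691
  have h39693 := checkRangeG_sound parWF r2 pf39692 h39692
  have h39694 := checkRangeG_sound parWF r2 pf39693 h39693
  have h39695 := checkRangeG_sound parWF r2 pf39694 h39694
  have h39696 := checkRangeG_sound parWF r2 pf39695 h39695
  have h39697 := checkRangeG_sound parWF r2 pf39696 h39696
  have h39698 := checkRangeG_sound parWF r2 pf39697 h39697
  have h39699 := checkRangeG_sound parWF r2 pf39698 h39698
  have h39700 := checkRangeG_sound parWF r2 pf39699 h39699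
  exact h39700

theorem c794 (h39700 : ∀ j, j < 135483 → GoodG.{u} par (db j)) : ∀ j, j < 135658 → GoodG.{u} par (db j) := by
  have h39701 := checkRangeG_sound parWF r2 pf39700 h39700
  have h39702 := checkRangeG_sound parWF r2 pf39701 h39701
  have h39703 := checkRangeG_sound parWF r2 pf39702 h39702
  have h39704 := checkRangeG_sound parWF r2 pf39703 h39703
  have h39705 := checkRangeG_sound parWF r2 pf39704 h39704
  have h39706 := checkRangeG_sound parWF r2 pf39705 h39705
  have h39707 := checkRangeG_sound parWF r2 pf39706 h39706
  have h39708 := checkRangeG_sound parWF r2 pf39707 h39707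
  have h39709 := checkRangeG_sound parWF r2 pf39708 h39708
  have h39710 := checkRangeG_sound parWF r2 pf39709 h39709
  have h39711 := checkRangeG_sound parWF r2 pf39710 h39710
  have h39712 := checkRangeG_sound parWF r2 pf39711 h39711
  have h39713 := checkRangeG_sound parWF r2 pf39712 h39712
  have h39714 := checkRangeG_sound parWF r2 pf39713 h39713
  have h39715 := checkRangeG_sound parWF r2 pf39714 h39714
  have h39716 := checkRangeG_sound parWF r2 pf39715 h39715
  have h39717 := checkRangeG_sound parWF r2 pf39716 h39716
  have h39718 := checkRangeG_sound parWF r2 pf39717 h39717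
  have h39719 := checkRangeG_sound parWF r2 pf39718 h39718
  have h39720 := checkRangeG_sound parWF r2 pf39719 h39719
  have h39721 := checkRangeG_sound parWF r2 pf39720 h39720
  have h39722 := checkRangeG_sound parWF r2 pf39721 h39721
  have h39723 := checkRangeG_sound parWF r2 pf39722 h39722
  have h39724 := checkRangeG_sound parWF r2 pf39723 h39723
  have h39725 := checkRangeG_sound parWF r2 pf39724 h39724
  have h39726 := checkRangeG_sound parWF r2 pf39725 h39725
  have h39727 := checkRangeG_sound parWF r2 pf39726 h39726
  have h39728 := checkRangeG_sound parWF r2 pf39727 h39727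
  have h39729 := checkRangeG_sound parWF r2 pf39728 h39728
  have h39730 := checkRangeG_sound parWF r2 pf39729 h39729
  have h39731 := checkRangeG_sound parWF r2 pf39730 h39730
  have h39732 := checkRangeG_sound parWF r2 pf39731 h39731
  have h39733 := checkRangeG_sound parWF r2 pf39732 h39732
  have h39734 := checkRangeG_sound parWF r2 pf39733 h39733
  have h39735 := checkRangeG_sound parWF r2 pf39734 h39734
  have h39736 := checkRangeG_sound parWF r2 pf39735 h39735
  have h39737 := checkRangeG_sound parWF r2 pf39736 h39736
  have h39738 := checkRangeG_sound parWF r2 pf39737 h39737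
  have h39739 := checkRangeG_sound parWF r2 pf39738 h39738
  have h39740 := checkRangeG_sound parWF r2 pf39739 h39739
  have h39741 := checkRangeG_sound parWF r2 pf39740 h39740
  have h39742 := checkRangeG_sound parWF r2 pf39741 h39741
  have h39743 := checkRangeG_sound parWF r2 pf39742 h39742
  have h39744 := checkRangeG_sound parWF r2 pf39743 h39743
  have h39745 := checkRangeG_sound parWF r2 pf39744 h39744
  have h39746 := checkRangeG_sound parWF r2 pf39745 h39745
  have h39747 := checkRangeG_sound parWF r2 pf39746 h39746
  have h39748 := checkRangeG_sound parWF r2 pf39747 h39747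
  have h39749 := checkRangeG_sound parWF r2 pf39748 h39748
  have h39750 := checkRangeG_sound parWF r2 pf39749 h39749
  exact h39750

theorem c795 (h39750 : ∀ j, j < 135658 → GoodG.{u} par (db j)) : ∀ j, j < 135839 → GoodG.{u} par (db j) := by
  have h39751 := checkRangeG_sound parWF r2 pf39750 h39750
  have h39752 := checkRangeG_sound parWF r2 pf39751 h39751
  have h39753 := checkRangeG_sound parWF r2 pf39752 h39752
  have h39754 := checkRangeG_sound parWF r2 pf39753 h39753
  have h39755 := checkRangeG_sound parWF r2 pf39754 h39754
  have h39756 := checkRangeG_sound parWF r2 pf39755 h39755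
  have h39757 := checkRangeG_sound parWF r2 pf39756 h39756
  have h39758 := checkRangeG_sound parWF r2 pf39757 h39757
  have h39759 := checkRangeG_sound parWF r2 pf39758 h39758
  have h39760 := checkRangeG_sound parWF r2 pf39759 h39759
  have h39761 := checkRangeG_sound parWF r2 pf39760 h39760
  have h39762 := checkRangeG_sound parWF r2 pf39761 h39761
  have h39763 := checkRangeG_sound parWF r2 pf39762 h39762
  have h39764 := checkRangeG_sound parWF r2 pf39763 h39763
  have h39765 := checkRangeG_sound parWF r2 pf39764 h39764
  have h39766 := checkRangeG_sound parWF r2 pf39765 h39765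
  have h39767 := checkRangeG_sound parWF r2 pf39766 h39766
  have h39768 := checkRangeG_sound parWF r2 pf39767 h39767
  have h39769 := checkRangeG_sound parWF r2 pf39768 h39768
  have h39770 := checkRangeG_sound parWF r2 pf39769 h39769
  have h39771 := checkRangeG_sound parWF r2 pf39770 h39770
  have h39772 := checkRangeG_sound parWF r2 pf39771 h39771
  have h39773 := checkRangeG_sound parWF r2 pf39772 h39772
  have h39774 := checkRangeG_sound parWF r2 pf39773 h39773
  have h39775 := checkRangeG_sound parWF r2 pf39774 h39774
  have h39776 := checkRangeG_sound parWF r2 pf39775 h39775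
  have h39777 := checkRangeG_sound parWF r2 pf39776 h39776
  have h39778 := checkRangeG_sound parWF r2 pf39777 h39777
  have h39779 := checkRangeG_sound parWF r2 pf39778 h39778
  have h39780 := checkRangeG_sound parWF r2 pf39779 h39779
  have h39781 := checkRangeG_sound parWF r2 pf39780 h39780
  have h39782 := checkRangeG_sound parWF r2 pf39781 h39781
  have h39783 := checkRangeG_sound parWF r2 pf39782 h39782
  have h39784 := checkRangeG_sound parWF r2 pf39783 h39783
  have h39785 := checkRangeG_sound parWF r2 pf39784 h39784
  have h39786 := checkRangeG_sound parWF r2 pf39785 h39785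
  have h39787 := checkRangeG_sound parWF r2 pf39786 h39786
  have h39788 := checkRangeG_sound parWF r2 pf39787 h39787
  have h39789 := checkRangeG_sound parWF r2 pf39788 h39788
  have h39790 := checkRangeG_sound parWF r2 pf39789 h39789
  have h39791 := checkRangeG_sound parWF r2 pf39790 h39790
  have h39792 := checkRangeG_sound parWF r2 pf39791 h39791
  have h39793 := checkRangeG_sound parWF r2 pf39792 h39792
  have h39794 := checkRangeG_sound parWF r2 pf39793 h39793
  have h39795 := checkRangeG_sound parWF r2 pf39794 h39794
  have h39796 := checkRangeG_sound parWF r2 pf39795 h39795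
  have h39797 := checkRangeG_sound parWF r2 pf39796 h39796
  have h39798 := checkRangeG_sound parWF r2 pf39797 h39797
  have h39799 := checkRangeG_sound parWF r2 pf39798 h39798
  have h39800 := checkRangeG_sound parWF r2 pf39799 h39799
  exact h39800

theorem c796 (h39800 : ∀ j, j < 135839 → GoodG.{u} par (db j)) : ∀ j, j < 136011 → GoodG.{u} par (db j) := by
  have h39801 := checkRangeG_sound parWF r2 pf39800 h39800
  have h39802 := checkRangeG_sound parWF r2 pf39801 h39801
  have h39803 := checkRangeG_sound parWF r2 pf39802 h39802
  have h39804 := checkRangeG_sound parWF r2 pf39803 h39803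
  have h39805 := checkRangeG_sound parWF r2 pf39804 h39804
  have h39806 := checkRangeG_sound parWF r2 pf39805 h39805
  have h39807 := checkRangeG_sound parWF r2 pf39806 h39806
  have h39808 := checkRangeG_sound parWF r2 pf39807 h39807
  have h39809 := checkRangeG_sound parWF r2 pf39808 h39808
  have h39810 := checkRangeG_sound parWF r2 pf39809 h39809
  have h39811 := checkRangeG_sound parWF r2 pf39810 h39810
  have h39812 := checkRangeG_sound parWF r2 pf39811 h39811
  have h39813 := checkRangeG_sound parWF r2 pf39812 h39812
  have h39814 := checkRangeG_sound parWF r2 pf39813 h39813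
  have h39815 := checkRangeG_sound parWF r2 pf39814 h39814
  have h39816 := checkRangeG_sound parWF r2 pf39815 h39815
  have h39817 := checkRangeG_sound parWF r2 pf39816 h39816
  have h39818 := checkRangeG_sound parWF r2 pf39817 h39817
  have h39819 := checkRangeG_sound parWF r2 pf39818 h39818
  have h39820 := checkRangeG_sound parWF r2 pf39819 h39819
  have h39821 := checkRangeG_sound parWF r2 pf39820 h39820
  have h39822 := checkRangeG_sound parWF r2 pf39821 h39821
  have h39823 := checkRangeG_sound parWF r2 pf39822 h39822
  have h39824 := checkRangeG_sound parWF r2 pf39823 h39823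
  have h39825 := checkRangeG_sound parWF r2 pf39824 h39824
  have h39826 := checkRangeG_sound parWF r2 pf39825 h39825
  have h39827 := checkRangeG_sound parWF r2 pf39826 h39826
  have h39828 := checkRangeG_sound parWF r2 pf39827 h39827
  have h39829 := checkRangeG_sound parWF r2 pf39828 h39828
  have h39830 := checkRangeG_sound parWF r2 pf39829 h39829
  have h39831 := checkRangeG_sound parWF r2 pf39830 h39830
  have h39832 := checkRangeG_sound parWF r2 pf39831 h39831
  have h39833 := checkRangeG_sound parWF r2 pf39832 h39832
  have h39834 := checkRangeG_sound parWF r2 pf39833 h39833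
  have h39835 := checkRangeG_sound parWF r2 pf39834 h39834
  have h39836 := checkRangeG_sound parWF r2 pf39835 h39835
  have h39837 := checkRangeG_sound parWF r2 pf39836 h39836
  have h39838 := checkRangeG_sound parWF r2 pf39837 h39837
  have h39839 := checkRangeG_sound parWF r2 pf39838 h39838
  have h39840 := checkRangeG_sound parWF r2 pf39839 h39839
  have h39841 := checkRangeG_sound parWF r2 pf39840 h39840
  have h39842 := checkRangeG_sound parWF r2 pf39841 h39841
  have h39843 := checkRangeG_sound parWF r2 pf39842 h39842
  have h39844 := checkRangeG_sound parWF r2 pf39843 h39843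
  have h39845 := checkRangeG_sound parWF r2 pf39844 h39844
  have h39846 := checkRangeG_sound parWF r2 pf39845 h39845
  have h39847 := checkRangeG_sound parWF r2 pf39846 h39846
  have h39848 := checkRangeG_sound parWF r2 pf39847 h39847
  have h39849 := checkRangeG_sound parWF r2 pf39848 h39848
  have h39850 := checkRangeG_sound parWF r2 pf39849 h39849
  exact h39850

theorem c797 (h39850 : ∀ j, j < 136011 → GoodG.{u} par (db j)) : ∀ j, j < 136194 → GoodG.{u} par (db j) := by
  have h39851 := checkRangeG_sound parWF r2 pf39850 h39850
  have h39852 := checkRangeG_sound parWF r2 pf39851 h39851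
  have h39853 := checkRangeG_sound parWF r2 pf39852 h39852
  have h39854 := checkRangeG_sound parWF r2 pf39853 h39853
  have h39855 := checkRangeG_sound parWF r2 pf39854 h39854
  have h39856 := checkRangeG_sound parWF r2 pf39855 h39855
  have h39857 := checkRangeG_sound parWF r2 pf39856 h39856
  have h39858 := checkRangeG_sound parWF r2 pf39857 h39857
  have h39859 := checkRangeG_sound parWF r2 pf39858 h39858
  have h39860 := checkRangeG_sound parWF r2 pf39859 h39859
  have h39861 := checkRangeG_sound parWF r2 pf39860 h39860
  have h39862 := checkRangeG_sound parWF r2 pf39861 h39861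
  have h39863 := checkRangeG_sound parWF r2 pf39862 h39862
  have h39864 := checkRangeG_sound parWF r2 pf39863 h39863
  have h39865 := checkRangeG_sound parWF r2 pf39864 h39864
  have h39866 := checkRangeG_sound parWF r2 pf39865 h39865
  have h39867 := checkRangeG_sound parWF r2 pf39866 h39866
  have h39868 := checkRangeG_sound parWF r2 pf39867 h39867
  have h39869 := checkRangeG_sound parWF r2 pf39868 h39868
  have h39870 := checkRangeG_sound parWF r2 pf39869 h39869
  have h39871 := checkRangeG_sound parWF r2 pf39870 h39870
  have h39872 := checkRangeG_sound parWF r2 pf39871 h39871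
  have h39873 := checkRangeG_sound parWF r2 pf39872 h39872
  have h39874 := checkRangeG_sound parWF r2 pf39873 h39873
  have h39875 := checkRangeG_sound parWF r2 pf39874 h39874
  have h39876 := checkRangeG_sound parWF r2 pf39875 h39875
  have h39877 := checkRangeG_sound parWF r2 pf39876 h39876
  have h39878 := checkRangeG_sound parWF r2 pf39877 h39877
  have h39879 := checkRangeG_sound parWF r2 pf39878 h39878
  have h39880 := checkRangeG_sound parWF r2 pf39879 h39879
  have h39881 := checkRangeG_sound parWF r2 pf39880 h39880
  have h39882 := checkRangeG_sound parWF r2 pf39881 h39881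
  have h39883 := checkRangeG_sound parWF r2 pf39882 h39882
  have h39884 := checkRangeG_sound parWF r2 pf39883 h39883
  have h39885 := checkRangeG_sound parWF r2 pf39884 h39884
  have h39886 := checkRangeG_sound parWF r2 pf39885 h39885
  have h39887 := checkRangeG_sound parWF r2 pf39886 h39886
  have h39888 := checkRangeG_sound parWF r2 pf39887 h39887
  have h39889 := checkRangeG_sound parWF r2 pf39888 h39888
  have h39890 := checkRangeG_sound parWF r2 pf39889 h39889
  have h39891 := checkRangeG_sound parWF r2 pf39890 h39890
  have h39892 := checkRangeG_sound parWF r2 pf39891 h39891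
  have h39893 := checkRangeG_sound parWF r2 pf39892 h39892
  have h39894 := checkRangeG_sound parWF r2 pf39893 h39893
  have h39895 := checkRangeG_sound parWF r2 pf39894 h39894
  have h39896 := checkRangeG_sound parWF r2 pf39895 h39895
  have h39897 := checkRangeG_sound parWF r2 pf39896 h39896
  have h39898 := checkRangeG_sound parWF r2 pf39897 h39897
  have h39899 := checkRangeG_sound parWF r2 pf39898 h39898
  have h39900 := checkRangeG_sound parWF r2 pf39899 h39899
  exact h39900

theorem c798 (h39900 : ∀ j, j < 136194 → GoodG.{u} par (db j)) : ∀ j, j < 136382 → GoodG.{u} par (db j) := by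
  have h39901 := checkRangeG_sound parWF r2 pf39900 h39900
  have h39902 := checkRangeG_sound parWF r2 pf39901 h39901
  have h39903 := checkRangeG_sound parWF r2 pf39902 h39902
  have h39904 := checkRangeG_sound parWF r2 pf39903 h39903
  have h39905 := checkRangeG_sound parWF r2 pf39904 h39904
  have h39906 := checkRangeG_sound parWF r2 pf39905 h39905
  have h39907 := checkRangeG_sound parWF r2 pf39906 h39906
  have h39908 := checkRangeG_sound parWF r2 pf39907 h39907
  have h39909 := checkRangeG_sound parWF r2 pf39908 h39908
  have h39910 := checkRangeG_sound parWF r2 pf39909 h39909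
  have h39911 := checkRangeG_sound parWF r2 pf39910 h39910
  have h39912 := checkRangeG_sound parWF r2 pf39911 h39911
  have h39913 := checkRangeG_sound parWF r2 pf39912 h39912
  have h39914 := checkRangeG_sound parWF r2 pf39913 h39913
  have h39915 := checkRangeG_sound parWF r2 pf39914 h39914
  have h39916 := checkRangeG_sound parWF r2 pf39915 h39915
  have h39917 := checkRangeG_sound parWF r2 pf39916 h39916
  have h39918 := checkRangeG_sound parWF r2 pf39917 h39917
  have h39919 := checkRangeG_sound parWF r2 pf39918 h39918
  have h39920 := checkRangeG_sound parWF r2 pf39919 h39919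
  have h39921 := checkRangeG_sound parWF r2 pf39920 h39920
  have h39922 := checkRangeG_sound parWF r2 pf39921 h39921
  have h39923 := checkRangeG_sound parWF r2 pf39922 h39922
  have h39924 := checkRangeG_sound parWF r2 pf39923 h39923
  have h39925 := checkRangeG_sound parWF r2 pf39924 h39924
  have h39926 := checkRangeG_sound parWF r2 pf39925 h39925
  have h39927 := checkRangeG_sound parWF r2 pf39926 h39926
  have h39928 := checkRangeG_sound parWF r2 pf39927 h39927
  have h39929 := checkRangeG_sound parWF r2 pf39928 h39928
  have h39930 := checkRangeG_sound parWF r2 pf39929 h39929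
  have h39931 := checkRangeG_sound parWF r2 pf39930 h39930
  have h39932 := checkRangeG_sound parWF r2 pf39931 h39931
  have h39933 := checkRangeG_sound parWF r2 pf39932 h39932
  have h39934 := checkRangeG_sound parWF r2 pf39933 h39933
  have h39935 := checkRangeG_sound parWF r2 pf39934 h39934
  have h39936 := checkRangeG_sound parWF r2 pf39935 h39935
  have h39937 := checkRangeG_sound parWF r2 pf39936 h39936
  have h39938 := checkRangeG_sound parWF r2 pf39937 h39937
  have h39939 := checkRangeG_sound parWF r2 pf39938 h39938
  have h39940 := checkRangeG_sound parWF r2 pf39939 h39939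
  have h39941 := checkRangeG_sound parWF r2 pf39940 h39940
  have h39942 := checkRangeG_sound parWF r2 pf39941 h39941
  have h39943 := checkRangeG_sound parWF r2 pf39942 h39942
  have h39944 := checkRangeG_sound parWF r2 pf39943 h39943
  have h39945 := checkRangeG_sound parWF r2 pf39944 h39944
  have h39946 := checkRangeG_sound parWF r2 pf39945 h39945
  have h39947 := checkRangeG_sound parWF r2 pf39946 h39946
  have h39948 := checkRangeG_sound parWF r2 pf39947 h39947
  have h39949 := checkRangeG_sound parWF r2 pf39948 h39948
  have h39950 := checkRangeG_sound parWF r2 pf39949 h39949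
  exact h39950

theorem c799 (h39950 : ∀ j, j < 136382 → GoodG.{u} par (db j)) : ∀ j, j < 136534 → GoodG.{u} par (db j) := by
  have h39951 := checkRangeG_sound parWF r2 pf39950 h39950
  have h39952 := checkRangeG_sound parWF r2 pf39951 h39951
  have h39953 := checkRangeG_sound parWF r2 pf39952 h39952
  have h39954 := checkRangeG_sound parWF r2 pf39953 h39953
  have h39955 := checkRangeG_sound parWF r2 pf39954 h39954
  have h39956 := checkRangeG_sound parWF r2 pf39955 h39955
  have h39957 := checkRangeG_sound parWF r2 pf39956 h39956
  have h39958 := checkRangeG_sound parWF r2 pf39957 h39957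
  have h39959 := checkRangeG_sound parWF r2 pf39958 h39958
  have h39960 := checkRangeG_sound parWF r2 pf39959 h39959
  have h39961 := checkRangeG_sound parWF r2 pf39960 h39960
  have h39962 := checkRangeG_sound parWF r2 pf39961 h39961
  have h39963 := checkRangeG_sound parWF r2 pf39962 h39962
  have h39964 := checkRangeG_sound parWF r2 pf39963 h39963
  have h39965 := checkRangeG_sound parWF r2 pf39964 h39964
  have h39966 := checkRangeG_sound parWF r2 pf39965 h39965
  have h39967 := checkRangeG_sound parWF r2 pf39966 h39966
  have h39968 := checkRangeG_sound parWF r2 pf39967 h39967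
  have h39969 := checkRangeG_sound parWF r2 pf39968 h39968
  have h39970 := checkRangeG_sound parWF r2 pf39969 h39969
  have h39971 := checkRangeG_sound parWF r2 pf39970 h39970
  have h39972 := checkRangeG_sound parWF r2 pf39971 h39971
  have h39973 := checkRangeG_sound parWF r2 pf39972 h39972
  have h39974 := checkRangeG_sound parWF r2 pf39973 h39973
  have h39975 := checkRangeG_sound parWF r2 pf39974 h39974
  have h39976 := checkRangeG_sound parWF r2 pf39975 h39975
  have h39977 := checkRangeG_sound parWF r2 pf39976 h39976
  have h39978 := checkRangeG_sound parWF r2 pf39977 h39977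
  have h39979 := checkRangeG_sound parWF r2 pf39978 h39978
  have h39980 := checkRangeG_sound parWF r2 pf39979 h39979
  have h39981 := checkRangeG_sound parWF r2 pf39980 h39980
  have h39982 := checkRangeG_sound parWF r2 pf39981 h39981
  have h39983 := checkRangeG_sound parWF r2 pf39982 h39982
  have h39984 := checkRangeG_sound parWF r2 pf39983 h39983
  have h39985 := checkRangeG_sound parWF r2 pf39984 h39984
  have h39986 := checkRangeG_sound parWF r2 pf39985 h39985
  have h39987 := checkRangeG_sound parWF r2 pf39986 h39986
  have h39988 := checkRangeG_sound parWF r2 pf39987 h39987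
  have h39989 := checkRangeG_sound parWF r2 pf39988 h39988
  have h39990 := checkRangeG_sound parWF r2 pf39989 h39989
  have h39991 := checkRangeG_sound parWF r2 pf39990 h39990
  have h39992 := checkRangeG_sound parWF r2 pf39991 h39991
  have h39993 := checkRangeG_sound parWF r2 pf39992 h39992
  have h39994 := checkRangeG_sound parWF r2 pf39993 h39993
  have h39995 := checkRangeG_sound parWF r2 pf39994 h39994
  have h39996 := checkRangeG_sound parWF r2 pf39995 h39995
  have h39997 := checkRangeG_sound parWF r2 pf39996 h39996
  have h39998 := checkRangeG_sound parWF r2 pf39997 h39997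
  have h39999 := checkRangeG_sound parWF r2 pf39998 h39998
  have h40000 := checkRangeG_sound parWF r2 pf39999 h39999
  exact h40000

theorem c800 (h40000 : ∀ j, j < 136534 → GoodG.{u} par (db j)) : ∀ j, j < 136702 → GoodG.{u} par (db j) := by
  have h40001 := checkRangeG_sound parWF r2 pf40000 h40000
  have h40002 := checkRangeG_sound parWF r2 pf40001 h40001
  have h40003 := checkRangeG_sound parWF r2 pf40002 h40002
  have h40004 := checkRangeG_sound parWF r2 pf40003 h40003
  have h40005 := checkRangeG_sound parWF r2 pf40004 h40004
  have h40006 := checkRangeG_sound parWF r2 pf40005 h40005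
  have h40007 := checkRangeG_sound parWF r2 pf40006 h40006
  have h40008 := checkRangeG_sound parWF r2 pf40007 h40007
  have h40009 := checkRangeG_sound parWF r2 pf40008 h40008
  have h40010 := checkRangeG_sound parWF r2 pf40009 h40009
  have h40011 := checkRangeG_sound parWF r2 pf40010 h40010
  have h40012 := checkRangeG_sound parWF r2 pf40011 h40011
  have h40013 := checkRangeG_sound parWF r2 pf40012 h40012
  have h40014 := checkRangeG_sound parWF r2 pf40013 h40013
  have h40015 := checkRangeG_sound parWF r2 pf40014 h40014
  have h40016 := checkRangeG_sound parWF r2 pf40015 h40015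
  have h40017 := checkRangeG_sound parWF r2 pf40016 h40016
  have h40018 := checkRangeG_sound parWF r2 pf40017 h40017
  have h40019 := checkRangeG_sound parWF r2 pf40018 h40018
  have h40020 := checkRangeG_sound parWF r2 pf40019 h40019
  have h40021 := checkRangeG_sound parWF r2 pf40020 h40020
  have h40022 := checkRangeG_sound parWF r2 pf40021 h40021
  have h40023 := checkRangeG_sound parWF r2 pf40022 h40022
  have h40024 := checkRangeG_sound parWF r2 pf40023 h40023
  have h40025 := checkRangeG_sound parWF r2 pf40024 h40024
  have h40026 := checkRangeG_sound parWF r2 pf40025 h40025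
  have h40027 := checkRangeG_sound parWF r2 pf40026 h40026
  have h40028 := checkRangeG_sound parWF r2 pf40027 h40027
  have h40029 := checkRangeG_sound parWF r2 pf40028 h40028
  have h40030 := checkRangeG_sound parWF r2 pf40029 h40029
  have h40031 := checkRangeG_sound parWF r2 pf40030 h40030
  have h40032 := checkRangeG_sound parWF r2 pf40031 h40031
  have h40033 := checkRangeG_sound parWF r2 pf40032 h40032
  have h40034 := checkRangeG_sound parWF r2 pf40033 h40033
  have h40035 := checkRangeG_sound parWF r2 pf40034 h40034
  have h40036 := checkRangeG_sound parWF r2 pf40035 h40035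
  have h40037 := checkRangeG_sound parWF r2 pf40036 h40036
  have h40038 := checkRangeG_sound parWF r2 pf40037 h40037
  have h40039 := checkRangeG_sound parWF r2 pf40038 h40038
  have h40040 := checkRangeG_sound parWF r2 pf40039 h40039
  have h40041 := checkRangeG_sound parWF r2 pf40040 h40040
  have h40042 := checkRangeG_sound parWF r2 pf40041 h40041
  have h40043 := checkRangeG_sound parWF r2 pf40042 h40042
  have h40044 := checkRangeG_sound parWF r2 pf40043 h40043
  have h40045 := checkRangeG_sound parWF r2 pf40044 h40044
  have h40046 := checkRangeG_sound parWF r2 pf40045 h40045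
  have h40047 := checkRangeG_sound parWF r2 pf40046 h40046
  have h40048 := checkRangeG_sound parWF r2 pf40047 h40047
  have h40049 := checkRangeG_sound parWF r2 pf40048 h40048
  have h40050 := checkRangeG_sound parWF r2 pf40049 h40049
  exact h40050

theorem c801 (h40050 : ∀ j, j < 136702 → GoodG.{u} par (db j)) : ∀ j, j < 136861 → GoodG.{u} par (db j) := by
  have h40051 := checkRangeG_sound parWF r2 pf40050 h40050
  have h40052 := checkRangeG_sound parWF r2 pf40051 h40051
  have h40053 := checkRangeG_sound parWF r2 pf40052 h40052
  have h40054 := checkRangeG_sound parWF r2 pf40053 h40053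
  have h40055 := checkRangeG_sound parWF r2 pf40054 h40054
  have h40056 := checkRangeG_sound parWF r2 pf40055 h40055
  have h40057 := checkRangeG_sound parWF r2 pf40056 h40056
  have h40058 := checkRangeG_sound parWF r2 pf40057 h40057
  have h40059 := checkRangeG_sound parWF r2 pf40058 h40058
  have h40060 := checkRangeG_sound parWF r2 pf40059 h40059
  have h40061 := checkRangeG_sound parWF r2 pf40060 h40060
  have h40062 := checkRangeG_sound parWF r2 pf40061 h40061
  have h40063 := checkRangeG_sound parWF r2 pf40062 h40062
  have h40064 := checkRangeG_sound parWF r2 pf40063 h40063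
  have h40065 := checkRangeG_sound parWF r2 pf40064 h40064
  have h40066 := checkRangeG_sound parWF r2 pf40065 h40065
  have h40067 := checkRangeG_sound parWF r2 pf40066 h40066
  have h40068 := checkRangeG_sound parWF r2 pf40067 h40067
  have h40069 := checkRangeG_sound parWF r2 pf40068 h40068
  have h40070 := checkRangeG_sound parWF r2 pf40069 h40069
  have h40071 := checkRangeG_sound parWF r2 pf40070 h40070
  have h40072 := checkRangeG_sound parWF r2 pf40071 h40071
  have h40073 := checkRangeG_sound parWF r2 pf40072 h40072
  have h40074 := checkRangeG_sound parWF r2 pf40073 h40073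
  have h40075 := checkRangeG_sound parWF r2 pf40074 h40074
  have h40076 := checkRangeG_sound parWF r2 pf40075 h40075
  have h40077 := checkRangeG_sound parWF r2 pf40076 h40076
  have h40078 := checkRangeG_sound parWF r2 pf40077 h40077
  have h40079 := checkRangeG_sound parWF r2 pf40078 h40078
  have h40080 := checkRangeG_sound parWF r2 pf40079 h40079
  have h40081 := checkRangeG_sound parWF r2 pf40080 h40080
  have h40082 := checkRangeG_sound parWF r2 pf40081 h40081
  have h40083 := checkRangeG_sound parWF r2 pf40082 h40082
  have h40084 := checkRangeG_sound parWF r2 pf40083 h40083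
  have h40085 := checkRangeG_sound parWF r2 pf40084 h40084
  have h40086 := checkRangeG_sound parWF r2 pf40085 h40085
  have h40087 := checkRangeG_sound parWF r2 pf40086 h40086
  have h40088 := checkRangeG_sound parWF r2 pf40087 h40087
  have h40089 := checkRangeG_sound parWF r2 pf40088 h40088
  have h40090 := checkRangeG_sound parWF r2 pf40089 h40089
  have h40091 := checkRangeG_sound parWF r2 pf40090 h40090
  have h40092 := checkRangeG_sound parWF r2 pf40091 h40091
  have h40093 := checkRangeG_sound parWF r2 pf40092 h40092
  have h40094 := checkRangeG_sound parWF r2 pf40093 h40093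
  have h40095 := checkRangeG_sound parWF r2 pf40094 h40094
  have h40096 := checkRangeG_sound parWF r2 pf40095 h40095
  have h40097 := checkRangeG_sound parWF r2 pf40096 h40096
  have h40098 := checkRangeG_sound parWF r2 pf40097 h40097
  have h40099 := checkRangeG_sound parWF r2 pf40098 h40098
  have h40100 := checkRangeG_sound parWF r2 pf40099 h40099
  exact h40100

theorem c802 (h40100 : ∀ j, j < 136861 → GoodG.{u} par (db j)) : ∀ j, j < 137023 → GoodG.{u} par (db j) := by
  have h40101 := checkRangeG_sound parWF r2 pf40100 h40100
  have h40102 := checkRangeG_sound parWF r2 pf40101 h40101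
  have h40103 := checkRangeG_sound parWF r2 pf40102 h40102
  have h40104 := checkRangeG_sound parWF r2 pf40103 h40103
  have h40105 := checkRangeG_sound parWF r2 pf40104 h40104
  have h40106 := checkRangeG_sound parWF r2 pf40105 h40105
  have h40107 := checkRangeG_sound parWF r2 pf40106 h40106
  have h40108 := checkRangeG_sound parWF r2 pf40107 h40107
  have h40109 := checkRangeG_sound parWF r2 pf40108 h40108
  have h40110 := checkRangeG_sound parWF r2 pf40109 h40109
  have h40111 := checkRangeG_sound parWF r2 pf40110 h40110
  have h40112 := checkRangeG_sound parWF r2 pf40111 h40111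
  have h40113 := checkRangeG_sound parWF r2 pf40112 h40112
  have h40114 := checkRangeG_sound parWF r2 pf40113 h40113
  have h40115 := checkRangeG_sound parWF r2 pf40114 h40114
  have h40116 := checkRangeG_sound parWF r2 pf40115 h40115
  have h40117 := checkRangeG_sound parWF r2 pf40116 h40116
  have h40118 := checkRangeG_sound parWF r2 pf40117 h40117
  have h40119 := checkRangeG_sound parWF r2 pf40118 h40118
  have h40120 := checkRangeG_sound parWF r2 pf40119 h40119
  have h40121 := checkRangeG_sound parWF r2 pf40120 h40120
  have h40122 := checkRangeG_sound parWF r2 pf40121 h40121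
  have h40123 := checkRangeG_sound parWF r2 pf40122 h40122
  have h40124 := checkRangeG_sound parWF r2 pf40123 h40123
  have h40125 := checkRangeG_sound parWF r2 pf40124 h40124
  have h40126 := checkRangeG_sound parWF r2 pf40125 h40125
  have h40127 := checkRangeG_sound parWF r2 pf40126 h40126
  have h40128 := checkRangeG_sound parWF r2 pf40127 h40127
  have h40129 := checkRangeG_sound parWF r2 pf40128 h40128
  have h40130 := checkRangeG_sound parWF r2 pf40129 h40129
  have h40131 := checkRangeG_sound parWF r2 pf40130 h40130
  have h40132 := checkRangeG_sound parWF r2 pf40131 h40131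
  have h40133 := checkRangeG_sound parWF r2 pf40132 h40132
  have h40134 := checkRangeG_sound parWF r2 pf40133 h40133
  have h40135 := checkRangeG_sound parWF r2 pf40134 h40134
  have h40136 := checkRangeG_sound parWF r2 pf40135 h40135
  have h40137 := checkRangeG_sound parWF r2 pf40136 h40136
  have h40138 := checkRangeG_sound parWF r2 pf40137 h40137
  have h40139 := checkRangeG_sound parWF r2 pf40138 h40138
  have h40140 := checkRangeG_sound parWF r2 pf40139 h40139
  have h40141 := checkRangeG_sound parWF r2 pf40140 h40140
  have h40142 := checkRangeG_sound parWF r2 pf40141 h40141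
  have h40143 := checkRangeG_sound parWF r2 pf40142 h40142
  have h40144 := checkRangeG_sound parWF r2 pf40143 h40143
  have h40145 := checkRangeG_sound parWF r2 pf40144 h40144
  have h40146 := checkRangeG_sound parWF r2 pf40145 h40145
  have h40147 := checkRangeG_sound parWF r2 pf40146 h40146
  have h40148 := checkRangeG_sound parWF r2 pf40147 h40147
  have h40149 := checkRangeG_sound parWF r2 pf40148 h40148
  have h40150 := checkRangeG_sound parWF r2 pf40149 h40149
  exact h40150

theorem c803 (h40150 : ∀ j, j < 137023 → GoodG.{u} par (db j)) : ∀ j, j < 137177 → GoodG.{u} par (db j) := by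
  have h40151 := checkRangeG_sound parWF r2 pf40150 h40150
  have h40152 := checkRangeG_sound parWF r2 pf40151 h40151
  have h40153 := checkRangeG_sound parWF r2 pf40152 h40152
  have h40154 := checkRangeG_sound parWF r2 pf40153 h40153
  have h40155 := checkRangeG_sound parWF r2 pf40154 h40154
  have h40156 := checkRangeG_sound parWF r2 pf40155 h40155
  have h40157 := checkRangeG_sound parWF r2 pf40156 h40156
  have h40158 := checkRangeG_sound parWF r2 pf40157 h40157
  have h40159 := checkRangeG_sound parWF r2 pf40158 h40158
  have h40160 := checkRangeG_sound parWF r2 pf40159 h40159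
  have h40161 := checkRangeG_sound parWF r2 pf40160 h40160
  have h40162 := checkRangeG_sound parWF r2 pf40161 h40161
  have h40163 := checkRangeG_sound parWF r2 pf40162 h40162
  have h40164 := checkRangeG_sound parWF r2 pf40163 h40163
  have h40165 := checkRangeG_sound parWF r2 pf40164 h40164
  have h40166 := checkRangeG_sound parWF r2 pf40165 h40165
  have h40167 := checkRangeG_sound parWF r2 pf40166 h40166
  have h40168 := checkRangeG_sound parWF r2 pf40167 h40167
  have h40169 := checkRangeG_sound parWF r2 pf40168 h40168
  have h40170 := checkRangeG_sound parWF r2 pf40169 h40169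
  have h40171 := checkRangeG_sound parWF r2 pf40170 h40170
  have h40172 := checkRangeG_sound parWF r2 pf40171 h40171
  have h40173 := checkRangeG_sound parWF r2 pf40172 h40172
  have h40174 := checkRangeG_sound parWF r2 pf40173 h40173
  have h40175 := checkRangeG_sound parWF r2 pf40174 h40174
  have h40176 := checkRangeG_sound parWF r2 pf40175 h40175
  have h40177 := checkRangeG_sound parWF r2 pf40176 h40176
  have h40178 := checkRangeG_sound parWF r2 pf40177 h40177
  have h40179 := checkRangeG_sound parWF r2 pf40178 h40178
  have h40180 := checkRangeG_sound parWF r2 pf40179 h40179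
  have h40181 := checkRangeG_sound parWF r2 pf40180 h40180
  have h40182 := checkRangeG_sound parWF r2 pf40181 h40181
  have h40183 := checkRangeG_sound parWF r2 pf40182 h40182
  have h40184 := checkRangeG_sound parWF r2 pf40183 h40183
  have h40185 := checkRangeG_sound parWF r2 pf40184 h40184
  have h40186 := checkRangeG_sound parWF r2 pf40185 h40185
  have h40187 := checkRangeG_sound parWF r2 pf40186 h40186
  have h40188 := checkRangeG_sound parWF r2 pf40187 h40187
  have h40189 := checkRangeG_sound parWF r2 pf40188 h40188
  have h40190 := checkRangeG_sound parWF r2 pf40189 h40189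
  have h40191 := checkRangeG_sound parWF r2 pf40190 h40190
  have h40192 := checkRangeG_sound parWF r2 pf40191 h40191
  have h40193 := checkRangeG_sound parWF r2 pf40192 h40192
  have h40194 := checkRangeG_sound parWF r2 pf40193 h40193
  have h40195 := checkRangeG_sound parWF r2 pf40194 h40194
  have h40196 := checkRangeG_sound parWF r2 pf40195 h40195
  have h40197 := checkRangeG_sound parWF r2 pf40196 h40196
  have h40198 := checkRangeG_sound parWF r2 pf40197 h40197
  have h40199 := checkRangeG_sound parWF r2 pf40198 h40198
  have h40200 := checkRangeG_sound parWF r2 pf40199 h40199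
  exact h40200


end Vale.Agent.P045g.C61
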