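import Vale.Agent.P045g.C61.WF
import Vale.Agent.P045g.C61.Pf670
import Vale.Agent.P045g.C61.Pf671
import Vale.Agent.P045g.C61.Pf672
import Vale.Agent.P045g.C61.Pf673
import Vale.Agent.P045g.C61.Pf674
import Vale.Agent.P045g.C61.Pf675
import Vale.Agent.P045g.C61.Pf676
import Vale.Agent.P045g.C61.Pf677
import Vale.Agent.P045g.C61.Pf678
import Vale.Agent.P045g.C61.Pf679

namespace Vale.Agent.P045g.C61

open Vale.Agent.P045b Vale.Agent.P045g

universe u

theorem c804 (h40200 : ∀ j, j < 137177 → GoodG.{u} par (db j)) : ∀ j, j < 137335 → GoodG.{u} par (db j) := by
  have h40201 := checkRangeG_sound parWF r2 pf40200 h40200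
  have h40202 := checkRangeG_sound parWF r2 pf40201 h40201
  have h40203 := checkRangeG_sound parWF r2 pf40202 h40202
  have h40204 := checkRangeG_sound parWF r2 pf40203 h40203
  have h40205 := checkRangeG_sound parWF r2 pf40204 h40204
  have h40206 := checkRangeG_sound parWF r2 pf40205 h40205
  have h40207 := checkRangeG_sound parWF r2 pf40206 h40206
  have h40208 := checkRangeG_sound parWF r2 pf40207 h40207
  have h40209 := checkRangeG_sound parWF r2 pf40208 h40208
  have h40210 := checkRangeG_sound parWF r2 pf40209 h40209
  have h40211 := checkRangeG_sound parWF r2 pf40210 h40210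
  have h40212 := checkRangeG_sound parWF r2 pf40211 h40211
  have h40213 := checkRangeG_sound parWF r2 pf40212 h40212
  have h40214 := checkRangeG_sound parWF r2 pf40213 h40213
  have h40215 := checkRangeG_sound parWF r2 pf40214 h40214
  have h40216 := checkRangeG_sound parWF r2 pf40215 h40215
  have h40217 := checkRangeG_sound parWF r2 pf40216 h40216
  have h40218 := checkRangeG_sound parWF r2 pf40217 h40217
  have h40219 := checkRangeG_sound parWF r2 pf40218 h40218
  have h40220 := checkRangeG_sound parWF r2 pf40219 h40219
  have h40221 := checkRangeG_sound parWF r2 pf40220 h40220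
  have h40222 := checkRangeG_sound parWF r2 pf40221 h40221
  have h40223 := checkRangeG_sound parWF r2 pf40222 h40222
  have h40224 := checkRangeG_sound parWF r2 pf40223 h40223
  have h40225 := checkRangeG_sound parWF r2 pf40224 h40224
  have h40226 := checkRangeG_sound parWF r2 pf40225 h40225
  have h40227 := checkRangeG_sound parWF r2 pf40226 h40226
  have h40228 := checkRangeG_sound parWF r2 pf40227 h40227
  have h40229 := checkRangeG_sound parWF r2 pf40228 h40228
  have h40230 := checkRangeG_sound parWF r2 pf40229 h40229
  have h40231 := checkRangeG_sound parWF r2 pf40230 h40230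
  have h40232 := checkRangeG_sound parWF r2 pf40231 h40231
  have h40233 := checkRangeG_sound parWF r2 pf40232 h40232
  have h40234 := checkRangeG_sound parWF r2 pf40233 h40233
  have h40235 := checkRangeG_sound parWF r2 pf40234 h40234
  have h40236 := checkRangeG_sound parWF r2 pf40235 h40235
  have h40237 := checkRangeG_sound parWF r2 pf40236 h40236
  have h40238 := checkRangeG_sound parWF r2 pf40237 h40237
  have h40239 := checkRangeG_sound parWF r2 pf40238 h40238
  have h40240 := checkRangeG_sound parWF r2 pf40239 h40239
  have h40241 := checkRangeG_sound parWF r2 pf40240 h40240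
  have h40242 := checkRangeG_sound parWF r2 pf40241 h40241
  have h40243 := checkRangeG_sound parWF r2 pf40242 h40242
  have h40244 := checkRangeG_sound parWF r2 pf40243 h40243
  have h40245 := checkRangeG_sound parWF r2 pf40244 h40244
  have h40246 := checkRangeG_sound parWF r2 pf40245 h40245
  have h40247 := checkRangeG_sound parWF r2 pf40246 h40246
  have h40248 := checkRangeG_sound parWF r2 pf40247 h40247
  have h40249 := checkRangeG_sound parWF r2 pf40248 h40248
  have h40250 := checkRangeG_sound parWF r2 pf40249 h40249
  exact h40250

theorem c805 (h40250 : ∀ j, j < 137335 → GoodG.{u} par (db j)) : ∀ j, j < 137502 → GoodG.{u} par (db j) := by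
  have h40251 := checkRangeG_sound parWF r2 pf40250 h40250
  have h40252 := checkRangeG_sound parWF r2 pf40251 h40251
  have h40253 := checkRangeG_sound parWF r2 pf40252 h40252
  have h40254 := checkRangeG_sound parWF r2 pf40253 h40253
  have h40255 := checkRangeG_sound parWF r2 pf40254 h40254
  have h40256 := checkRangeG_sound parWF r2 pf40255 h40255
  have h40257 := checkRangeG_sound parWF r2 pf40256 h40256
  have h40258 := checkRangeG_sound parWF r2 pf40257 h40257
  have h40259 := checkRangeG_sound parWF r2 pf40258 h40258
  have h40260 := checkRangeG_sound parWF r2 pf40259 h40259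
  have h40261 := checkRangeG_sound parWF r2 pf40260 h40260
  have h40262 := checkRangeG_sound parWF r2 pf40261 h40261
  have h40263 := checkRangeG_sound parWF r2 pf40262 h40262
  have h40264 := checkRangeG_sound parWF r2 pf40263 h40263
  have h40265 := checkRangeG_sound parWF r2 pf40264 h40264
  have h40266 := checkRangeG_sound parWF r2 pf40265 h40265
  have h40267 := checkRangeG_sound parWF r2 pf40266 h40266
  have h40268 := checkRangeG_sound parWF r2 pf40267 h40267
  have h40269 := checkRangeG_sound parWF r2 pf40268 h40268
  have h40270 := checkRangeG_sound parWF r2 pf40269 h40269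
  have h40271 := checkRangeG_sound parWF r2 pf40270 h40270
  have h40272 := checkRangeG_sound parWF r2 pf40271 h40271
  have h40273 := checkRangeG_sound parWF r2 pf40272 h40272
  have h40274 := checkRangeG_sound parWF r2 pf40273 h40273
  have h40275 := checkRangeG_sound parWF r2 pf40274 h40274
  have h40276 := checkRangeG_sound parWF r2 pf40275 h40275
  have h40277 := checkRangeG_sound parWF r2 pf40276 h40276
  have h40278 := checkRangeG_sound parWF r2 pf40277 h40277
  have h40279 := checkRangeG_sound parWF r2 pf40278 h40278
  have h40280 := checkRangeG_sound parWF r2 pf40279 h40279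
  have h40281 := checkRangeG_sound parWF r2 pf40280 h40280
  have h40282 := checkRangeG_sound parWF r2 pf40281 h40281
  have h40283 := checkRangeG_sound parWF r2 pf40282 h40282
  have h40284 := checkRangeG_sound parWF r2 pf40283 h40283
  have h40285 := checkRangeG_sound parWF r2 pf40284 h40284
  have h40286 := checkRangeG_sound parWF r2 pf40285 h40285
  have h40287 := checkRangeG_sound parWF r2 pf40286 h40286
  have h40288 := checkRangeG_sound parWF r2 pf40287 h40287
  have h40289 := checkRangeG_sound parWF r2 pf40288 h40288
  have h40290 := checkRangeG_sound parWF r2 pf40289 h40289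
  have h40291 := checkRangeG_sound parWF r2 pf40290 h40290
  have h40292 := checkRangeG_sound parWF r2 pf40291 h40291
  have h40293 := checkRangeG_sound parWF r2 pf40292 h40292
  have h40294 := checkRangeG_sound parWF r2 pf40293 h40293
  have h40295 := checkRangeG_sound parWF r2 pf40294 h40294
  have h40296 := checkRangeG_sound parWF r2 pf40295 h40295
  have h40297 := checkRangeG_sound parWF r2 pf40296 h40296
  have h40298 := checkRangeG_sound parWF r2 pf40297 h40297
  have h40299 := checkRangeG_sound parWF r2 pf40298 h40298
  have h40300 := checkRangeG_sound parWF r2 pf40299 h40299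
  exact h40300

theorem c806 (h40300 : ∀ j, j < 137502 → GoodG.{u} par (db j)) : ∀ j, j < 137671 → GoodG.{u} par (db j) := by
  have h40301 := checkRangeG_sound parWF r2 pf40300 h40300
  have h40302 := checkRangeG_sound parWF r2 pf40301 h40301
  have h40303 := checkRangeG_sound parWF r2 pf40302 h40302
  have h40304 := checkRangeG_sound parWF r2 pf40303 h40303
  have h40305 := checkRangeG_sound parWF r2 pf40304 h40304
  have h40306 := checkRangeG_sound parWF r2 pf40305 h40305
  have h40307 := checkRangeG_sound parWF r2 pf40306 h40306
  have h40308 := checkRangeG_sound parWF r2 pf40307 h40307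
  have h40309 := checkRangeG_sound parWF r2 pf40308 h40308
  have h40310 := checkRangeG_sound parWF r2 pf40309 h40309
  have h40311 := checkRangeG_sound parWF r2 pf40310 h40310
  have h40312 := checkRangeG_sound parWF r2 pf40311 h40311
  have h40313 := checkRangeG_sound parWF r2 pf40312 h40312
  have h40314 := checkRangeG_sound parWF r2 pf40313 h40313
  have h40315 := checkRangeG_sound parWF r2 pf40314 h40314
  have h40316 := checkRangeG_sound parWF r2 pf40315 h40315
  have h40317 := checkRangeG_sound parWF r2 pf40316 h40316
  have h40318 := checkRangeG_sound parWF r2 pf40317 h40317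
  have h40319 := checkRangeG_sound parWF r2 pf40318 h40318
  have h40320 := checkRangeG_sound parWF r2 pf40319 h40319
  have h40321 := checkRangeG_sound parWF r2 pf40320 h40320
  have h40322 := checkRangeG_sound parWF r2 pf40321 h40321
  have h40323 := checkRangeG_sound parWF r2 pf40322 h40322
  have h40324 := checkRangeG_sound parWF r2 pf40323 h40323
  have h40325 := checkRangeG_sound parWF r2 pf40324 h40324
  have h40326 := checkRangeG_sound parWF r2 pf40325 h40325
  have h40327 := checkRangeG_sound parWF r2 pf40326 h40326
  have h40328 := checkRangeG_sound parWF r2 pf40327 h40327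
  have h40329 := checkRangeG_sound parWF r2 pf40328 h40328
  have h40330 := checkRangeG_sound parWF r2 pf40329 h40329
  have h40331 := checkRangeG_sound parWF r2 pf40330 h40330
  have h40332 := checkRangeG_sound parWF r2 pf40331 h40331
  have h40333 := checkRangeG_sound parWF r2 pf40332 h40332
  have h40334 := checkRangeG_sound parWF r2 pf40333 h40333
  have h40335 := checkRangeG_sound parWF r2 pf40334 h40334
  have h40336 := checkRangeG_sound parWF r2 pf40335 h40335
  have h40337 := checkRangeG_sound parWF r2 pf40336 h40336
  have h40338 := checkRangeG_sound parWF r2 pf40337 h40337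
  have h40339 := checkRangeG_sound parWF r2 pf40338 h40338
  have h40340 := checkRangeG_sound parWF r2 pf40339 h40339
  have h40341 := checkRangeG_sound parWF r2 pf40340 h40340
  have h40342 := checkRangeG_sound parWF r2 pf40341 h40341
  have h40343 := checkRangeG_sound parWF r2 pf40342 h40342
  have h40344 := checkRangeG_sound parWF r2 pf40343 h40343
  have h40345 := checkRangeG_sound parWF r2 pf40344 h40344
  have h40346 := checkRangeG_sound parWF r2 pf40345 h40345
  have h40347 := checkRangeG_sound parWF r2 pf40346 h40346
  have h40348 := checkRangeG_sound parWF r2 pf40347 h40347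
  have h40349 := checkRangeG_sound parWF r2 pf40348 h40348
  have h40350 := checkRangeG_sound parWF r2 pf40349 h40349
  exact h40350

theorem c807 (h40350 : ∀ j, j < 137671 → GoodG.{u} par (db j)) : ∀ j, j < 137866 → GoodG.{u} par (db j) := by
  have h40351 := checkRangeG_sound parWF r2 pf40350 h40350
  have h40352 := checkRangeG_sound parWF r2 pf40351 h40351
  have h40353 := checkRangeG_sound parWF r2 pf40352 h40352
  have h40354 := checkRangeG_sound parWF r2 pf40353 h40353
  have h40355 := checkRangeG_sound parWF r2 pf40354 h40354
  have h40356 := checkRangeG_sound parWF r2 pf40355 h40355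
  have h40357 := checkRangeG_sound parWF r2 pf40356 h40356
  have h40358 := checkRangeG_sound parWF r2 pf40357 h40357
  have h40359 := checkRangeG_sound parWF r2 pf40358 h40358
  have h40360 := checkRangeG_sound parWF r2 pf40359 h40359
  have h40361 := checkRangeG_sound parWF r2 pf40360 h40360
  have h40362 := checkRangeG_sound parWF r2 pf40361 h40361
  have h40363 := checkRangeG_sound parWF r2 pf40362 h40362
  have h40364 := checkRangeG_sound parWF r2 pf40363 h40363
  have h40365 := checkRangeG_sound parWF r2 pf40364 h40364
  have h40366 := checkRangeG_sound parWF r2 pf40365 h40365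
  have h40367 := checkRangeG_sound parWF r2 pf40366 h40366
  have h40368 := checkRangeG_sound parWF r2 pf40367 h40367
  have h40369 := checkRangeG_sound parWF r2 pf40368 h40368
  have h40370 := checkRangeG_sound parWF r2 pf40369 h40369
  have h40371 := checkRangeG_sound parWF r2 pf40370 h40370
  have h40372 := checkRangeG_sound parWF r2 pf40371 h40371
  have h40373 := checkRangeG_sound parWF r2 pf40372 h40372
  have h40374 := checkRangeG_sound parWF r2 pf40373 h40373
  have h40375 := checkRangeG_sound parWF r2 pf40374 h40374
  have h40376 := checkRangeG_sound parWF r2 pf40375 h40375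
  have h40377 := checkRangeG_sound parWF r2 pf40376 h40376
  have h40378 := checkRangeG_sound parWF r2 pf40377 h40377
  have h40379 := checkRangeG_sound parWF r2 pf40378 h40378
  have h40380 := checkRangeG_sound parWF r2 pf40379 h40379
  have h40381 := checkRangeG_sound parWF r2 pf40380 h40380
  have h40382 := checkRangeG_sound parWF r2 pf40381 h40381
  have h40383 := checkRangeG_sound parWF r2 pf40382 h40382
  have h40384 := checkRangeG_sound parWF r2 pf40383 h40383
  have h40385 := checkRangeG_sound parWF r2 pf40384 h40384
  have h40386 := checkRangeG_sound parWF r2 pf40385 h40385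
  have h40387 := checkRangeG_sound parWF r2 pf40386 h40386
  have h40388 := checkRangeG_sound parWF r2 pf40387 h40387
  have h40389 := checkRangeG_sound parWF r2 pf40388 h40388
  have h40390 := checkRangeG_sound parWF r2 pf40389 h40389
  have h40391 := checkRangeG_sound parWF r2 pf40390 h40390
  have h40392 := checkRangeG_sound parWF r2 pf40391 h40391
  have h40393 := checkRangeG_sound parWF r2 pf40392 h40392
  have h40394 := checkRangeG_sound parWF r2 pf40393 h40393
  have h40395 := checkRangeG_sound parWF r2 pf40394 h40394
  have h40396 := checkRangeG_sound parWF r2 pf40395 h40395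
  have h40397 := checkRangeG_sound parWF r2 pf40396 h40396
  have h40398 := checkRangeG_sound parWF r2 pf40397 h40397
  have h40399 := checkRangeG_sound parWF r2 pf40398 h40398
  have h40400 := checkRangeG_sound parWF r2 pf40399 h40399
  exact h40400

theorem c808 (h40400 : ∀ j, j < 137866 → GoodG.{u} par (db j)) : ∀ j, j < 138066 → GoodG.{u} par (db j) := by
  have h40401 := checkRangeG_sound parWF r2 pf40400 h40400
  have h40402 := checkRangeG_sound parWF r2 pf40401 h40401
  have h40403 := checkRangeG_sound parWF r2 pf40402 h40402
  have h40404 := checkRangeG_sound parWF r2 pf40403 h40403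
  have h40405 := checkRangeG_sound parWF r2 pf40404 h40404
  have h40406 := checkRangeG_sound parWF r2 pf40405 h40405
  have h40407 := checkRangeG_sound parWF r2 pf40406 h40406
  have h40408 := checkRangeG_sound parWF r2 pf40407 h40407
  have h40409 := checkRangeG_sound parWF r2 pf40408 h40408
  have h40410 := checkRangeG_sound parWF r2 pf40409 h40409
  have h40411 := checkRangeG_sound parWF r2 pf40410 h40410
  have h40412 := checkRangeG_sound parWF r2 pf40411 h40411
  have h40413 := checkRangeG_sound parWF r2 pf40412 h40412
  have h40414 := checkRangeG_sound parWF r2 pf40413 h40413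
  have h40415 := checkRangeG_sound parWF r2 pf40414 h40414
  have h40416 := checkRangeG_sound parWF r2 pf40415 h40415
  have h40417 := checkRangeG_sound parWF r2 pf40416 h40416
  have h40418 := checkRangeG_sound parWF r2 pf40417 h40417
  have h40419 := checkRangeG_sound parWF r2 pf40418 h40418
  have h40420 := checkRangeG_sound parWF r2 pf40419 h40419
  have h40421 := checkRangeG_sound parWF r2 pf40420 h40420
  have h40422 := checkRangeG_sound parWF r2 pf40421 h40421
  have h40423 := checkRangeG_sound parWF r2 pf40422 h40422
  have h40424 := checkRangeG_sound parWF r2 pf40423 h40423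
  have h40425 := checkRangeG_sound parWF r2 pf40424 h40424
  have h40426 := checkRangeG_sound parWF r2 pf40425 h40425
  have h40427 := checkRangeG_sound parWF r2 pf40426 h40426
  have h40428 := checkRangeG_sound parWF r2 pf40427 h40427
  have h40429 := checkRangeG_sound parWF r2 pf40428 h40428
  have h40430 := checkRangeG_sound parWF r2 pf40429 h40429
  have h40431 := checkRangeG_sound parWF r2 pf40430 h40430
  have h40432 := checkRangeG_sound parWF r2 pf40431 h40431
  have h40433 := checkRangeG_sound parWF r2 pf40432 h40432
  have h40434 := checkRangeG_sound parWF r2 pf40433 h40433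
  have h40435 := checkRangeG_sound parWF r2 pf40434 h40434
  have h40436 := checkRangeG_sound parWF r2 pf40435 h40435
  have h40437 := checkRangeG_sound parWF r2 pf40436 h40436
  have h40438 := checkRangeG_sound parWF r2 pf40437 h40437
  have h40439 := checkRangeG_sound parWF r2 pf40438 h40438
  have h40440 := checkRangeG_sound parWF r2 pf40439 h40439
  have h40441 := checkRangeG_sound parWF r2 pf40440 h40440
  have h40442 := checkRangeG_sound parWF r2 pf40441 h40441
  have h40443 := checkRangeG_sound parWF r2 pf40442 h40442
  have h40444 := checkRangeG_sound parWF r2 pf40443 h40443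
  have h40445 := checkRangeG_sound parWF r2 pf40444 h40444
  have h40446 := checkRangeG_sound parWF r2 pf40445 h40445
  have h40447 := checkRangeG_sound parWF r2 pf40446 h40446
  have h40448 := checkRangeG_sound parWF r2 pf40447 h40447
  have h40449 := checkRangeG_sound parWF r2 pf40448 h40448
  have h40450 := checkRangeG_sound parWF r2 pf40449 h40449
  exact h40450

theorem c809 (h40450 : ∀ j, j < 138066 → GoodG.{u} par (db j)) : ∀ j, j < 138266 → GoodG.{u} par (db j) := by
  have h40451 := checkRangeG_sound parWF r2 pf40450 h40450
  have h40452 := checkRangeG_sound parWF r2 pf40451 h40451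
  have h40453 := checkRangeG_sound parWF r2 pf40452 h40452
  have h40454 := checkRangeG_sound parWF r2 pf40453 h40453
  have h40455 := checkRangeG_sound parWF r2 pf40454 h40454
  have h40456 := checkRangeG_sound parWF r2 pf40455 h40455
  have h40457 := checkRangeG_sound parWF r2 pf40456 h40456
  have h40458 := checkRangeG_sound parWF r2 pf40457 h40457
  have h40459 := checkRangeG_sound parWF r2 pf40458 h40458
  have h40460 := checkRangeG_sound parWF r2 pf40459 h40459
  have h40461 := checkRangeG_sound parWF r2 pf40460 h40460
  have h40462 := checkRangeG_sound parWF r2 pf40461 h40461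
  have h40463 := checkRangeG_sound parWF r2 pf40462 h40462
  have h40464 := checkRangeG_sound parWF r2 pf40463 h40463
  have h40465 := checkRangeG_sound parWF r2 pf40464 h40464
  have h40466 := checkRangeG_sound parWF r2 pf40465 h40465
  have h40467 := checkRangeG_sound parWF r2 pf40466 h40466
  have h40468 := checkRangeG_sound parWF r2 pf40467 h40467
  have h40469 := checkRangeG_sound parWF r2 pf40468 h40468
  have h40470 := checkRangeG_sound parWF r2 pf40469 h40469
  have h40471 := checkRangeG_sound parWF r2 pf40470 h40470
  have h40472 := checkRangeG_sound parWF r2 pf40471 h40471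
  have h40473 := checkRangeG_sound parWF r2 pf40472 h40472
  have h40474 := checkRangeG_sound parWF r2 pf40473 h40473
  have h40475 := checkRangeG_sound parWF r2 pf40474 h40474
  have h40476 := checkRangeG_sound parWF r2 pf40475 h40475
  have h40477 := checkRangeG_sound parWF r2 pf40476 h40476
  have h40478 := checkRangeG_sound parWF r2 pf40477 h40477
  have h40479 := checkRangeG_sound parWF r2 pf40478 h40478
  have h40480 := checkRangeG_sound parWF r2 pf40479 h40479
  have h40481 := checkRangeG_sound parWF r2 pf40480 h40480
  have h40482 := checkRangeG_sound parWF r2 pf40481 h40481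
  have h40483 := checkRangeG_sound parWF r2 pf40482 h40482
  have h40484 := checkRangeG_sound parWF r2 pf40483 h40483
  have h40485 := checkRangeG_sound parWF r2 pf40484 h40484
  have h40486 := checkRangeG_sound parWF r2 pf40485 h40485
  have h40487 := checkRangeG_sound parWF r2 pf40486 h40486
  have h40488 := checkRangeG_sound parWF r2 pf40487 h40487
  have h40489 := checkRangeG_sound parWF r2 pf40488 h40488
  have h40490 := checkRangeG_sound parWF r2 pf40489 h40489
  have h40491 := checkRangeG_sound parWF r2 pf40490 h40490
  have h40492 := checkRangeG_sound parWF r2 pf40491 h40491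
  have h40493 := checkRangeG_sound parWF r2 pf40492 h40492
  have h40494 := checkRangeG_sound parWF r2 pf40493 h40493
  have h40495 := checkRangeG_sound parWF r2 pf40494 h40494
  have h40496 := checkRangeG_sound parWF r2 pf40495 h40495
  have h40497 := checkRangeG_sound parWF r2 pf40496 h40496
  have h40498 := checkRangeG_sound parWF r2 pf40497 h40497
  have h40499 := checkRangeG_sound parWF r2 pf40498 h40498
  have h40500 := checkRangeG_sound parWF r2 pf40499 h40499
  exact h40500

theorem c810 (h40500 : ∀ j, j < 138266 → GoodG.{u} par (db j)) : ∀ j, j < 138475 → GoodG.{u} par (db j) := by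
  have h40501 := checkRangeG_sound parWF r2 pf40500 h40500
  have h40502 := checkRangeG_sound parWF r2 pf40501 h40501
  have h40503 := checkRangeG_sound parWF r2 pf40502 h40502
  have h40504 := checkRangeG_sound parWF r2 pf40503 h40503
  have h40505 := checkRangeG_sound parWF r2 pf40504 h40504
  have h40506 := checkRangeG_sound parWF r2 pf40505 h40505
  have h40507 := checkRangeG_sound parWF r2 pf40506 h40506
  have h40508 := checkRangeG_sound parWF r2 pf40507 h40507
  have h40509 := checkRangeG_sound parWF r2 pf40508 h40508
  have h40510 := checkRangeG_sound parWF r2 pf40509 h40509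
  have h40511 := checkRangeG_sound parWF r2 pf40510 h40510
  have h40512 := checkRangeG_sound parWF r2 pf40511 h40511
  have h40513 := checkRangeG_sound parWF r2 pf40512 h40512
  have h40514 := checkRangeG_sound parWF r2 pf40513 h40513
  have h40515 := checkRangeG_sound parWF r2 pf40514 h40514
  have h40516 := checkRangeG_sound parWF r2 pf40515 h40515
  have h40517 := checkRangeG_sound parWF r2 pf40516 h40516
  have h40518 := checkRangeG_sound parWF r2 pf40517 h40517
  have h40519 := checkRangeG_sound parWF r2 pf40518 h40518
  have h40520 := checkRangeG_sound parWF r2 pf40519 h40519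
  have h40521 := checkRangeG_sound parWF r2 pf40520 h40520
  have h40522 := checkRangeG_sound parWF r2 pf40521 h40521
  have h40523 := checkRangeG_sound parWF r2 pf40522 h40522
  have h40524 := checkRangeG_sound parWF r2 pf40523 h40523
  have h40525 := checkRangeG_sound parWF r2 pf40524 h40524
  have h40526 := checkRangeG_sound parWF r2 pf40525 h40525
  have h40527 := checkRangeG_sound parWF r2 pf40526 h40526
  have h40528 := checkRangeG_sound parWF r2 pf40527 h40527
  have h40529 := checkRangeG_sound parWF r2 pf40528 h40528
  have h40530 := checkRangeG_sound parWF r2 pf40529 h40529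
  have h40531 := checkRangeG_sound parWF r2 pf40530 h40530
  have h40532 := checkRangeG_sound parWF r2 pf40531 h40531
  have h40533 := checkRangeG_sound parWF r2 pf40532 h40532
  have h40534 := checkRangeG_sound parWF r2 pf40533 h40533
  have h40535 := checkRangeG_sound parWF r2 pf40534 h40534
  have h40536 := checkRangeG_sound parWF r2 pf40535 h40535
  have h40537 := checkRangeG_sound parWF r2 pf40536 h40536
  have h40538 := checkRangeG_sound parWF r2 pf40537 h40537
  have h40539 := checkRangeG_sound parWF r2 pf40538 h40538
  have h40540 := checkRangeG_sound parWF r2 pf40539 h40539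
  have h40541 := checkRangeG_sound parWF r2 pf40540 h40540
  have h40542 := checkRangeG_sound parWF r2 pf40541 h40541
  have h40543 := checkRangeG_sound parWF r2 pf40542 h40542
  have h40544 := checkRangeG_sound parWF r2 pf40543 h40543
  have h40545 := checkRangeG_sound parWF r2 pf40544 h40544
  have h40546 := checkRangeG_sound parWF r2 pf40545 h40545
  have h40547 := checkRangeG_sound parWF r2 pf40546 h40546
  have h40548 := checkRangeG_sound parWF r2 pf40547 h40547
  have h40549 := checkRangeG_sound parWF r2 pf40548 h40548
  have h40550 := checkRangeG_sound parWF r2 pf40549 h40549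
  exact h40550

theorem c811 (h40550 : ∀ j, j < 138475 → GoodG.{u} par (db j)) : ∀ j, j < 138670 → GoodG.{u} par (db j) := by
  have h40551 := checkRangeG_sound parWF r2 pf40550 h40550
  have h40552 := checkRangeG_sound parWF r2 pf40551 h40551
  have h40553 := checkRangeG_sound parWF r2 pf40552 h40552
  have h40554 := checkRangeG_sound parWF r2 pf40553 h40553
  have h40555 := checkRangeG_sound parWF r2 pf40554 h40554
  have h40556 := checkRangeG_sound parWF r2 pf40555 h40555
  have h40557 := checkRangeG_sound parWF r2 pf40556 h40556
  have h40558 := checkRangeG_sound parWF r2 pf40557 h40557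
  have h40559 := checkRangeG_sound parWF r2 pf40558 h40558
  have h40560 := checkRangeG_sound parWF r2 pf40559 h40559
  have h40561 := checkRangeG_sound parWF r2 pf40560 h40560
  have h40562 := checkRangeG_sound parWF r2 pf40561 h40561
  have h40563 := checkRangeG_sound parWF r2 pf40562 h40562
  have h40564 := checkRangeG_sound parWF r2 pf40563 h40563
  have h40565 := checkRangeG_sound parWF r2 pf40564 h40564
  have h40566 := checkRangeG_sound parWF r2 pf40565 h40565
  have h40567 := checkRangeG_sound parWF r2 pf40566 h40566
  have h40568 := checkRangeG_sound parWF r2 pf40567 h40567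
  have h40569 := checkRangeG_sound parWF r2 pf40568 h40568
  have h40570 := checkRangeG_sound parWF r2 pf40569 h40569
  have h40571 := checkRangeG_sound parWF r2 pf40570 h40570
  have h40572 := checkRangeG_sound parWF r2 pf40571 h40571
  have h40573 := checkRangeG_sound parWF r2 pf40572 h40572
  have h40574 := checkRangeG_sound parWF r2 pf40573 h40573
  have h40575 := checkRangeG_sound parWF r2 pf40574 h40574
  have h40576 := checkRangeG_sound parWF r2 pf40575 h40575
  have h40577 := checkRangeG_sound parWF r2 pf40576 h40576
  have h40578 := checkRangeG_sound parWF r2 pf40577 h40577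
  have h40579 := checkRangeG_sound parWF r2 pf40578 h40578
  have h40580 := checkRangeG_sound parWF r2 pf40579 h40579
  have h40581 := checkRangeG_sound parWF r2 pf40580 h40580
  have h40582 := checkRangeG_sound parWF r2 pf40581 h40581
  have h40583 := checkRangeG_sound parWF r2 pf40582 h40582
  have h40584 := checkRangeG_sound parWF r2 pf40583 h40583
  have h40585 := checkRangeG_sound parWF r2 pf40584 h40584
  have h40586 := checkRangeG_sound parWF r2 pf40585 h40585
  have h40587 := checkRangeG_sound parWF r2 pf40586 h40586
  have h40588 := checkRangeG_sound parWF r2 pf40587 h40587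
  have h40589 := checkRangeG_sound parWF r2 pf40588 h40588
  have h40590 := checkRangeG_sound parWF r2 pf40589 h40589
  have h40591 := checkRangeG_sound parWF r2 pf40590 h40590
  have h40592 := checkRangeG_sound parWF r2 pf40591 h40591
  have h40593 := checkRangeG_sound parWF r2 pf40592 h40592
  have h40594 := checkRangeG_sound parWF r2 pf40593 h40593
  have h40595 := checkRangeG_sound parWF r2 pf40594 h40594
  have h40596 := checkRangeG_sound parWF r2 pf40595 h40595
  have h40597 := checkRangeG_sound parWF r2 pf40596 h40596
  have h40598 := checkRangeG_sound parWF r2 pf40597 h40597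
  have h40599 := checkRangeG_sound parWF r2 pf40598 h40598
  have h40600 := checkRangeG_sound parWF r2 pf40599 h40599
  exact h40600

theorem c812 (h40600 : ∀ j, j < 138670 → GoodG.{u} par (db j)) : ∀ j, j < 138818 → GoodG.{u} par (db j) := by
  have h40601 := checkRangeG_sound parWF r2 pf40600 h40600
  have h40602 := checkRangeG_sound parWF r2 pf40601 h40601
  have h40603 := checkRangeG_sound parWF r2 pf40602 h40602
  have h40604 := checkRangeG_sound parWF r2 pf40603 h40603
  have h40605 := checkRangeG_sound parWF r2 pf40604 h40604
  have h40606 := checkRangeG_sound parWF r2 pf40605 h40605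
  have h40607 := checkRangeG_sound parWF r2 pf40606 h40606
  have h40608 := checkRangeG_sound parWF r2 pf40607 h40607
  have h40609 := checkRangeG_sound parWF r2 pf40608 h40608
  have h40610 := checkRangeG_sound parWF r2 pf40609 h40609
  have h40611 := checkRangeG_sound parWF r2 pf40610 h40610
  have h40612 := checkRangeG_sound parWF r2 pf40611 h40611
  have h40613 := checkRangeG_sound parWF r2 pf40612 h40612
  have h40614 := checkRangeG_sound parWF r2 pf40613 h40613
  have h40615 := checkRangeG_sound parWF r2 pf40614 h40614
  have h40616 := checkRangeG_sound parWF r2 pf40615 h40615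
  have h40617 := checkRangeG_sound parWF r2 pf40616 h40616
  have h40618 := checkRangeG_sound parWF r2 pf40617 h40617
  have h40619 := checkRangeG_sound parWF r2 pf40618 h40618
  have h40620 := checkRangeG_sound parWF r2 pf40619 h40619
  have h40621 := checkRangeG_sound parWF r2 pf40620 h40620
  have h40622 := checkRangeG_sound parWF r2 pf40621 h40621
  have h40623 := checkRangeG_sound parWF r2 pf40622 h40622
  have h40624 := checkRangeG_sound parWF r2 pf40623 h40623
  have h40625 := checkRangeG_sound parWF r2 pf40624 h40624
  have h40626 := checkRangeG_sound parWF r2 pf40625 h40625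
  have h40627 := checkRangeG_sound parWF r2 pf40626 h40626
  have h40628 := checkRangeG_sound parWF r2 pf40627 h40627
  have h40629 := checkRangeG_sound parWF r2 pf40628 h40628
  have h40630 := checkRangeG_sound parWF r2 pf40629 h40629
  have h40631 := checkRangeG_sound parWF r2 pf40630 h40630
  have h40632 := checkRangeG_sound parWF r2 pf40631 h40631
  have h40633 := checkRangeG_sound parWF r2 pf40632 h40632
  have h40634 := checkRangeG_sound parWF r2 pf40633 h40633
  have h40635 := checkRangeG_sound parWF r2 pf40634 h40634
  have h40636 := checkRangeG_sound parWF r2 pf40635 h40635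
  have h40637 := checkRangeG_sound parWF r2 pf40636 h40636
  have h40638 := checkRangeG_sound parWF r2 pf40637 h40637
  have h40639 := checkRangeG_sound parWF r2 pf40638 h40638
  have h40640 := checkRangeG_sound parWF r2 pf40639 h40639
  have h40641 := checkRangeG_sound parWF r2 pf40640 h40640
  have h40642 := checkRangeG_sound parWF r2 pf40641 h40641
  have h40643 := checkRangeG_sound parWF r2 pf40642 h40642
  have h40644 := checkRangeG_sound parWF r2 pf40643 h40643
  have h40645 := checkRangeG_sound parWF r2 pf40644 h40644
  have h40646 := checkRangeG_sound parWF r2 pf40645 h40645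
  have h40647 := checkRangeG_sound parWF r2 pf40646 h40646
  have h40648 := checkRangeG_sound parWF r2 pf40647 h40647
  have h40649 := checkRangeG_sound parWF r2 pf40648 h40648
  have h40650 := checkRangeG_sound parWF r2 pf40649 h40649
  exact h40650

theorem c813 (h40650 : ∀ j, j < 138818 → GoodG.{u} par (db j)) : ∀ j, j < 138960 → GoodG.{u} par (db j) := by
  have h40651 := checkRangeG_sound parWF r2 pf40650 h40650
  have h40652 := checkRangeG_sound parWF r2 pf40651 h40651
  have h40653 := checkRangeG_sound parWF r2 pf40652 h40652
  have h40654 := checkRangeG_sound parWF r2 pf40653 h40653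
  have h40655 := checkRangeG_sound parWF r2 pf40654 h40654
  have h40656 := checkRangeG_sound parWF r2 pf40655 h40655
  have h40657 := checkRangeG_sound parWF r2 pf40656 h40656
  have h40658 := checkRangeG_sound parWF r2 pf40657 h40657
  have h40659 := checkRangeG_sound parWF r2 pf40658 h40658
  have h40660 := checkRangeG_sound parWF r2 pf40659 h40659
  have h40661 := checkRangeG_sound parWF r2 pf40660 h40660
  have h40662 := checkRangeG_sound parWF r2 pf40661 h40661
  have h40663 := checkRangeG_sound parWF r2 pf40662 h40662
  have h40664 := checkRangeG_sound parWF r2 pf40663 h40663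
  have h40665 := checkRangeG_sound parWF r2 pf40664 h40664
  have h40666 := checkRangeG_sound parWF r2 pf40665 h40665
  have h40667 := checkRangeG_sound parWF r2 pf40666 h40666
  have h40668 := checkRangeG_sound parWF r2 pf40667 h40667
  have h40669 := checkRangeG_sound parWF r2 pf40668 h40668
  have h40670 := checkRangeG_sound parWF r2 pf40669 h40669
  have h40671 := checkRangeG_sound parWF r2 pf40670 h40670
  have h40672 := checkRangeG_sound parWF r2 pf40671 h40671
  have h40673 := checkRangeG_sound parWF r2 pf40672 h40672
  have h40674 := checkRangeG_sound parWF r2 pf40673 h40673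
  have h40675 := checkRangeG_sound parWF r2 pf40674 h40674
  have h40676 := checkRangeG_sound parWF r2 pf40675 h40675
  have h40677 := checkRangeG_sound parWF r2 pf40676 h40676
  have h40678 := checkRangeG_sound parWF r2 pf40677 h40677
  have h40679 := checkRangeG_sound parWF r2 pf40678 h40678
  have h40680 := checkRangeG_sound parWF r2 pf40679 h40679
  have h40681 := checkRangeG_sound parWF r2 pf40680 h40680
  have h40682 := checkRangeG_sound parWF r2 pf40681 h40681
  have h40683 := checkRangeG_sound parWF r2 pf40682 h40682
  have h40684 := checkRangeG_sound parWF r2 pf40683 h40683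
  have h40685 := checkRangeG_sound parWF r2 pf40684 h40684
  have h40686 := checkRangeG_sound parWF r2 pf40685 h40685
  have h40687 := checkRangeG_sound parWF r2 pf40686 h40686
  have h40688 := checkRangeG_sound parWF r2 pf40687 h40687
  have h40689 := checkRangeG_sound parWF r2 pf40688 h40688
  have h40690 := checkRangeG_sound parWF r2 pf40689 h40689
  have h40691 := checkRangeG_sound parWF r2 pf40690 h40690
  have h40692 := checkRangeG_sound parWF r2 pf40691 h40691
  have h40693 := checkRangeG_sound parWF r2 pf40692 h40692
  have h40694 := checkRangeG_sound parWF r2 pf40693 h40693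
  have h40695 := checkRangeG_sound parWF r2 pf40694 h40694
  have h40696 := checkRangeG_sound parWF r2 pf40695 h40695
  have h40697 := checkRangeG_sound parWF r2 pf40696 h40696
  have h40698 := checkRangeG_sound parWF r2 pf40697 h40697
  have h40699 := checkRangeG_sound parWF r2 pf40698 h40698
  have h40700 := checkRangeG_sound parWF r2 pf40699 h40699
  exact h40700

theorem c814 (h40700 : ∀ j, j < 138960 → GoodG.{u} par (db j)) : ∀ j, j < 139132 → GoodG.{u} par (db j) := by
  have h40701 := checkRangeG_sound parWF r2 pf40700 h40700
  have h40702 := checkRangeG_sound parWF r2 pf40701 h40701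
  have h40703 := checkRangeG_sound parWF r2 pf40702 h40702
  have h40704 := checkRangeG_sound parWF r2 pf40703 h40703
  have h40705 := checkRangeG_sound parWF r2 pf40704 h40704
  have h40706 := checkRangeG_sound parWF r2 pf40705 h40705
  have h40707 := checkRangeG_sound parWF r2 pf40706 h40706
  have h40708 := checkRangeG_sound parWF r2 pf40707 h40707
  have h40709 := checkRangeG_sound parWF r2 pf40708 h40708
  have h40710 := checkRangeG_sound parWF r2 pf40709 h40709
  have h40711 := checkRangeG_sound parWF r2 pf40710 h40710
  have h40712 := checkRangeG_sound parWF r2 pf40711 h40711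
  have h40713 := checkRangeG_sound parWF r2 pf40712 h40712
  have h40714 := checkRangeG_sound parWF r2 pf40713 h40713
  have h40715 := checkRangeG_sound parWF r2 pf40714 h40714
  have h40716 := checkRangeG_sound parWF r2 pf40715 h40715
  have h40717 := checkRangeG_sound parWF r2 pf40716 h40716
  have h40718 := checkRangeG_sound parWF r2 pf40717 h40717
  have h40719 := checkRangeG_sound parWF r2 pf40718 h40718
  have h40720 := checkRangeG_sound parWF r2 pf40719 h40719
  have h40721 := checkRangeG_sound parWF r2 pf40720 h40720
  have h40722 := checkRangeG_sound parWF r2 pf40721 h40721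
  have h40723 := checkRangeG_sound parWF r2 pf40722 h40722
  have h40724 := checkRangeG_sound parWF r2 pf40723 h40723
  have h40725 := checkRangeG_sound parWF r2 pf40724 h40724
  have h40726 := checkRangeG_sound parWF r2 pf40725 h40725
  have h40727 := checkRangeG_sound parWF r2 pf40726 h40726
  have h40728 := checkRangeG_sound parWF r2 pf40727 h40727
  have h40729 := checkRangeG_sound parWF r2 pf40728 h40728
  have h40730 := checkRangeG_sound parWF r2 pf40729 h40729
  have h40731 := checkRangeG_sound parWF r2 pf40730 h40730
  have h40732 := checkRangeG_sound parWF r2 pf40731 h40731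
  have h40733 := checkRangeG_sound parWF r2 pf40732 h40732
  have h40734 := checkRangeG_sound parWF r2 pf40733 h40733
  have h40735 := checkRangeG_sound parWF r2 pf40734 h40734
  have h40736 := checkRangeG_sound parWF r2 pf40735 h40735
  have h40737 := checkRangeG_sound parWF r2 pf40736 h40736
  have h40738 := checkRangeG_sound parWF r2 pf40737 h40737
  have h40739 := checkRangeG_sound parWF r2 pf40738 h40738
  have h40740 := checkRangeG_sound parWF r2 pf40739 h40739
  have h40741 := checkRangeG_sound parWF r2 pf40740 h40740
  have h40742 := checkRangeG_sound parWF r2 pf40741 h40741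
  have h40743 := checkRangeG_sound parWF r2 pf40742 h40742
  have h40744 := checkRangeG_sound parWF r2 pf40743 h40743
  have h40745 := checkRangeG_sound parWF r2 pf40744 h40744
  have h40746 := checkRangeG_sound parWF r2 pf40745 h40745
  have h40747 := checkRangeG_sound parWF r2 pf40746 h40746
  have h40748 := checkRangeG_sound parWF r2 pf40747 h40747
  have h40749 := checkRangeG_sound parWF r2 pf40748 h40748
  have h40750 := checkRangeG_sound parWF r2 pf40749 h40749
  exact h40750

theorem c815 (h40750 : ∀ j, j < 139132 → GoodG.{u} par (db j)) : ∀ j, j < 139344 → GoodG.{u} par (db j) := by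
  have h40751 := checkRangeG_sound parWF r2 pf40750 h40750
  have h40752 := checkRangeG_sound parWF r2 pf40751 h40751
  have h40753 := checkRangeG_sound parWF r2 pf40752 h40752
  have h40754 := checkRangeG_sound parWF r2 pf40753 h40753
  have h40755 := checkRangeG_sound parWF r2 pf40754 h40754
  have h40756 := checkRangeG_sound parWF r2 pf40755 h40755
  have h40757 := checkRangeG_sound parWF r2 pf40756 h40756
  have h40758 := checkRangeG_sound parWF r2 pf40757 h40757
  have h40759 := checkRangeG_sound parWF r2 pf40758 h40758
  have h40760 := checkRangeG_sound parWF r2 pf40759 h40759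
  have h40761 := checkRangeG_sound parWF r2 pf40760 h40760
  have h40762 := checkRangeG_sound parWF r2 pf40761 h40761
  have h40763 := checkRangeG_sound parWF r2 pf40762 h40762
  have h40764 := checkRangeG_sound parWF r2 pf40763 h40763
  have h40765 := checkRangeG_sound parWF r2 pf40764 h40764
  have h40766 := checkRangeG_sound parWF r2 pf40765 h40765
  have h40767 := checkRangeG_sound parWF r2 pf40766 h40766
  have h40768 := checkRangeG_sound parWF r2 pf40767 h40767
  have h40769 := checkRangeG_sound parWF r2 pf40768 h40768
  have h40770 := checkRangeG_sound parWF r2 pf40769 h40769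
  have h40771 := checkRangeG_sound parWF r2 pf40770 h40770
  have h40772 := checkRangeG_sound parWF r2 pf40771 h40771
  have h40773 := checkRangeG_sound parWF r2 pf40772 h40772
  have h40774 := checkRangeG_sound parWF r2 pf40773 h40773
  have h40775 := checkRangeG_sound parWF r2 pf40774 h40774
  have h40776 := checkRangeG_sound parWF r2 pf40775 h40775
  have h40777 := checkRangeG_sound parWF r2 pf40776 h40776
  have h40778 := checkRangeG_sound parWF r2 pf40777 h40777
  have h40779 := checkRangeG_sound parWF r2 pf40778 h40778
  have h40780 := checkRangeG_sound parWF r2 pf40779 h40779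
  have h40781 := checkRangeG_sound parWF r2 pf40780 h40780
  have h40782 := checkRangeG_sound parWF r2 pf40781 h40781
  have h40783 := checkRangeG_sound parWF r2 pf40782 h40782
  have h40784 := checkRangeG_sound parWF r2 pf40783 h40783
  have h40785 := checkRangeG_sound parWF r2 pf40784 h40784
  have h40786 := checkRangeG_sound parWF r2 pf40785 h40785
  have h40787 := checkRangeG_sound parWF r2 pf40786 h40786
  have h40788 := checkRangeG_sound parWF r2 pf40787 h40787
  have h40789 := checkRangeG_sound parWF r2 pf40788 h40788
  have h40790 := checkRangeG_sound parWF r2 pf40789 h40789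
  have h40791 := checkRangeG_sound parWF r2 pf40790 h40790
  have h40792 := checkRangeG_sound parWF r2 pf40791 h40791
  have h40793 := checkRangeG_sound parWF r2 pf40792 h40792
  have h40794 := checkRangeG_sound parWF r2 pf40793 h40793
  have h40795 := checkRangeG_sound parWF r2 pf40794 h40794
  have h40796 := checkRangeG_sound parWF r2 pf40795 h40795
  have h40797 := checkRangeG_sound parWF r2 pf40796 h40796
  have h40798 := checkRangeG_sound parWF r2 pf40797 h40797
  have h40799 := checkRangeG_sound parWF r2 pf40798 h40798
  have h40800 := checkRangeG_sound parWF r2 pf40799 h40799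
  exact h40800


end Vale.Agent.P045g.C61
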