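import Vale.Agent.P045g.C61.WF
import Vale.Agent.P045g.C61.Pf680
import Vale.Agent.P045g.C61.Pf681
import Vale.Agent.P045g.C61.Pf682
import Vale.Agent.P045g.C61.Pf683
import Vale.Agent.P045g.C61.Pf684
import Vale.Agent.P045g.C61.Pf685
import Vale.Agent.P045g.C61.Pf686
import Vale.Agent.P045g.C61.Pf687
import Vale.Agent.P045g.C61.Pf688
import Vale.Agent.P045g.C61.Pf689

namespace Vale.Agent.P045g.C61

open Vale.Agent.P045b Vale.Agent.P045g

universe u

theorem c816 (h40800 : ∀ j, j < 139344 → GoodG.{u} par (db j)) : ∀ j, j < 139536 → GoodG.{u} par (db j) := by
  have h40801 := checkRangeG_sound parWF r2 pf40800 h40800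
  have h40802 := checkRangeG_sound parWF r2 pf40801 h40801
  have h40803 := checkRangeG_sound parWF r2 pf40802 h40802
  have h40804 := checkRangeG_sound parWF r2 pf40803 h40803
  have h40805 := checkRangeG_sound parWF r2 pf40804 h40804
  have h40806 := checkRangeG_sound parWF r2 pf40805 h40805
  have h40807 := checkRangeG_sound parWF r2 pf40806 h40806
  have h40808 := checkRangeG_sound parWF r2 pf40807 h40807
  have h40809 := checkRangeG_sound parWF r2 pf40808 h40808
  have h40810 := checkRangeG_sound parWF r2 pf40809 h40809
  have h40811 := checkRangeG_sound parWF r2 pf40810 h40810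
  have h40812 := checkRangeG_sound parWF r2 pf40811 h40811
  have h40813 := checkRangeG_sound parWF r2 pf40812 h40812
  have h40814 := checkRangeG_sound parWF r2 pf40813 h40813
  have h40815 := checkRangeG_sound parWF r2 pf40814 h40814
  have h40816 := checkRangeG_sound parWF r2 pf40815 h40815
  have h40817 := checkRangeG_sound parWF r2 pf40816 h40816
  have h40818 := checkRangeG_sound parWF r2 pf40817 h40817
  have h40819 := checkRangeG_sound parWF r2 pf40818 h40818
  have h40820 := checkRangeG_sound parWF r2 pf40819 h40819
  have h40821 := checkRangeG_sound parWF r2 pf40820 h40820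
  have h40822 := checkRangeG_sound parWF r2 pf40821 h40821
  have h40823 := checkRangeG_sound parWF r2 pf40822 h40822
  have h40824 := checkRangeG_sound parWF r2 pf40823 h40823
  have h40825 := checkRangeG_sound parWF r2 pf40824 h40824
  have h40826 := checkRangeG_sound parWF r2 pf40825 h40825
  have h40827 := checkRangeG_sound parWF r2 pf40826 h40826
  have h40828 := checkRangeG_sound parWF r2 pf40827 h40827
  have h40829 := checkRangeG_sound parWF r2 pf40828 h40828
  have h40830 := checkRangeG_sound parWF r2 pf40829 h40829
  have h40831 := checkRangeG_sound parWF r2 pf40830 h40830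
  have h40832 := checkRangeG_sound parWF r2 pf40831 h40831
  have h40833 := checkRangeG_sound parWF r2 pf40832 h40832
  have h40834 := checkRangeG_sound parWF r2 pf40833 h40833
  have h40835 := checkRangeG_sound parWF r2 pf40834 h40834
  have h40836 := checkRangeG_sound parWF r2 pf40835 h40835
  have h40837 := checkRangeG_sound parWF r2 pf40836 h40836
  have h40838 := checkRangeG_sound parWF r2 pf40837 h40837
  have h40839 := checkRangeG_sound parWF r2 pf40838 h40838
  have h40840 := checkRangeG_sound parWF r2 pf40839 h40839
  have h40841 := checkRangeG_sound parWF r2 pf40840 h40840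
  have h40842 := checkRangeG_sound parWF r2 pf40841 h40841
  have h40843 := checkRangeG_sound parWF r2 pf40842 h40842
  have h40844 := checkRangeG_sound parWF r2 pf40843 h40843
  have h40845 := checkRangeG_sound parWF r2 pf40844 h40844
  have h40846 := checkRangeG_sound parWF r2 pf40845 h40845
  have h40847 := checkRangeG_sound parWF r2 pf40846 h40846
  have h40848 := checkRangeG_sound parWF r2 pf40847 h40847
  have h40849 := checkRangeG_sound parWF r2 pf40848 h40848
  have h40850 := checkRangeG_sound parWF r2 pf40849 h40849
  exact h40850

theorem c817 (h40850 : ∀ j, j < 139536 → GoodG.{u} par (db j)) : ∀ j, j < 139718 → GoodG.{u} par (db j) := by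
  have h40851 := checkRangeG_sound parWF r2 pf40850 h40850
  have h40852 := checkRangeG_sound parWF r2 pf40851 h40851
  have h40853 := checkRangeG_sound parWF r2 pf40852 h40852
  have h40854 := checkRangeG_sound parWF r2 pf40853 h40853
  have h40855 := checkRangeG_sound parWF r2 pf40854 h40854
  have h40856 := checkRangeG_sound parWF r2 pf40855 h40855
  have h40857 := checkRangeG_sound parWF r2 pf40856 h40856
  have h40858 := checkRangeG_sound parWF r2 pf40857 h40857
  have h40859 := checkRangeG_sound parWF r2 pf40858 h40858
  have h40860 := checkRangeG_sound parWF r2 pf40859 h40859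
  have h40861 := checkRangeG_sound parWF r2 pf40860 h40860
  have h40862 := checkRangeG_sound parWF r2 pf40861 h40861
  have h40863 := checkRangeG_sound parWF r2 pf40862 h40862
  have h40864 := checkRangeG_sound parWF r2 pf40863 h40863
  have h40865 := checkRangeG_sound parWF r2 pf40864 h40864
  have h40866 := checkRangeG_sound parWF r2 pf40865 h40865
  have h40867 := checkRangeG_sound parWF r2 pf40866 h40866
  have h40868 := checkRangeG_sound parWF r2 pf40867 h40867
  have h40869 := checkRangeG_sound parWF r2 pf40868 h40868
  have h40870 := checkRangeG_sound parWF r2 pf40869 h40869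
  have h40871 := checkRangeG_sound parWF r2 pf40870 h40870
  have h40872 := checkRangeG_sound parWF r2 pf40871 h40871
  have h40873 := checkRangeG_sound parWF r2 pf40872 h40872
  have h40874 := checkRangeG_sound parWF r2 pf40873 h40873
  have h40875 := checkRangeG_sound parWF r2 pf40874 h40874
  have h40876 := checkRangeG_sound parWF r2 pf40875 h40875
  have h40877 := checkRangeG_sound parWF r2 pf40876 h40876
  have h40878 := checkRangeG_sound parWF r2 pf40877 h40877
  have h40879 := checkRangeG_sound parWF r2 pf40878 h40878
  have h40880 := checkRangeG_sound parWF r2 pf40879 h40879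
  have h40881 := checkRangeG_sound parWF r2 pf40880 h40880
  have h40882 := checkRangeG_sound parWF r2 pf40881 h40881
  have h40883 := checkRangeG_sound parWF r2 pf40882 h40882
  have h40884 := checkRangeG_sound parWF r2 pf40883 h40883
  have h40885 := checkRangeG_sound parWF r2 pf40884 h40884
  have h40886 := checkRangeG_sound parWF r2 pf40885 h40885
  have h40887 := checkRangeG_sound parWF r2 pf40886 h40886
  have h40888 := checkRangeG_sound parWF r2 pf40887 h40887
  have h40889 := checkRangeG_sound parWF r2 pf40888 h40888
  have h40890 := checkRangeG_sound parWF r2 pf40889 h40889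
  have h40891 := checkRangeG_sound parWF r2 pf40890 h40890
  have h40892 := checkRangeG_sound parWF r2 pf40891 h40891
  have h40893 := checkRangeG_sound parWF r2 pf40892 h40892
  have h40894 := checkRangeG_sound parWF r2 pf40893 h40893
  have h40895 := checkRangeG_sound parWF r2 pf40894 h40894
  have h40896 := checkRangeG_sound parWF r2 pf40895 h40895
  have h40897 := checkRangeG_sound parWF r2 pf40896 h40896
  have h40898 := checkRangeG_sound parWF r2 pf40897 h40897
  have h40899 := checkRangeG_sound parWF r2 pf40898 h40898
  have h40900 := checkRangeG_sound parWF r2 pf40899 h40899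
  exact h40900

theorem c818 (h40900 : ∀ j, j < 139718 → GoodG.{u} par (db j)) : ∀ j, j < 139916 → GoodG.{u} par (db j) := by
  have h40901 := checkRangeG_sound parWF r2 pf40900 h40900
  have h40902 := checkRangeG_sound parWF r2 pf40901 h40901
  have h40903 := checkRangeG_sound parWF r2 pf40902 h40902
  have h40904 := checkRangeG_sound parWF r2 pf40903 h40903
  have h40905 := checkRangeG_sound parWF r2 pf40904 h40904
  have h40906 := checkRangeG_sound parWF r2 pf40905 h40905
  have h40907 := checkRangeG_sound parWF r2 pf40906 h40906
  have h40908 := checkRangeG_sound parWF r2 pf40907 h40907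
  have h40909 := checkRangeG_sound parWF r2 pf40908 h40908
  have h40910 := checkRangeG_sound parWF r2 pf40909 h40909
  have h40911 := checkRangeG_sound parWF r2 pf40910 h40910
  have h40912 := checkRangeG_sound parWF r2 pf40911 h40911
  have h40913 := checkRangeG_sound parWF r2 pf40912 h40912
  have h40914 := checkRangeG_sound parWF r2 pf40913 h40913
  have h40915 := checkRangeG_sound parWF r2 pf40914 h40914
  have h40916 := checkRangeG_sound parWF r2 pf40915 h40915
  have h40917 := checkRangeG_sound parWF r2 pf40916 h40916
  have h40918 := checkRangeG_sound parWF r2 pf40917 h40917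
  have h40919 := checkRangeG_sound parWF r2 pf40918 h40918
  have h40920 := checkRangeG_sound parWF r2 pf40919 h40919
  have h40921 := checkRangeG_sound parWF r2 pf40920 h40920
  have h40922 := checkRangeG_sound parWF r2 pf40921 h40921
  have h40923 := checkRangeG_sound parWF r2 pf40922 h40922
  have h40924 := checkRangeG_sound parWF r2 pf40923 h40923
  have h40925 := checkRangeG_sound parWF r2 pf40924 h40924
  have h40926 := checkRangeG_sound parWF r2 pf40925 h40925
  have h40927 := checkRangeG_sound parWF r2 pf40926 h40926
  have h40928 := checkRangeG_sound parWF r2 pf40927 h40927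
  have h40929 := checkRangeG_sound parWF r2 pf40928 h40928
  have h40930 := checkRangeG_sound parWF r2 pf40929 h40929
  have h40931 := checkRangeG_sound parWF r2 pf40930 h40930
  have h40932 := checkRangeG_sound parWF r2 pf40931 h40931
  have h40933 := checkRangeG_sound parWF r2 pf40932 h40932
  have h40934 := checkRangeG_sound parWF r2 pf40933 h40933
  have h40935 := checkRangeG_sound parWF r2 pf40934 h40934
  have h40936 := checkRangeG_sound parWF r2 pf40935 h40935
  have h40937 := checkRangeG_sound parWF r2 pf40936 h40936
  have h40938 := checkRangeG_sound parWF r2 pf40937 h40937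
  have h40939 := checkRangeG_sound parWF r2 pf40938 h40938
  have h40940 := checkRangeG_sound parWF r2 pf40939 h40939
  have h40941 := checkRangeG_sound parWF r2 pf40940 h40940
  have h40942 := checkRangeG_sound parWF r2 pf40941 h40941
  have h40943 := checkRangeG_sound parWF r2 pf40942 h40942
  have h40944 := checkRangeG_sound parWF r2 pf40943 h40943
  have h40945 := checkRangeG_sound parWF r2 pf40944 h40944
  have h40946 := checkRangeG_sound parWF r2 pf40945 h40945
  have h40947 := checkRangeG_sound parWF r2 pf40946 h40946
  have h40948 := checkRangeG_sound parWF r2 pf40947 h40947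
  have h40949 := checkRangeG_sound parWF r2 pf40948 h40948
  have h40950 := checkRangeG_sound parWF r2 pf40949 h40949
  exact h40950

theorem c819 (h40950 : ∀ j, j < 139916 → GoodG.{u} par (db j)) : ∀ j, j < 140135 → GoodG.{u} par (db j) := by
  have h40951 := checkRangeG_sound parWF r2 pf40950 h40950
  have h40952 := checkRangeG_sound parWF r2 pf40951 h40951
  have h40953 := checkRangeG_sound parWF r2 pf40952 h40952
  have h40954 := checkRangeG_sound parWF r2 pf40953 h40953
  have h40955 := checkRangeG_sound parWF r2 pf40954 h40954
  have h40956 := checkRangeG_sound parWF r2 pf40955 h40955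
  have h40957 := checkRangeG_sound parWF r2 pf40956 h40956
  have h40958 := checkRangeG_sound parWF r2 pf40957 h40957
  have h40959 := checkRangeG_sound parWF r2 pf40958 h40958
  have h40960 := checkRangeG_sound parWF r2 pf40959 h40959
  have h40961 := checkRangeG_sound parWF r2 pf40960 h40960
  have h40962 := checkRangeG_sound parWF r2 pf40961 h40961
  have h40963 := checkRangeG_sound parWF r2 pf40962 h40962
  have h40964 := checkRangeG_sound parWF r2 pf40963 h40963
  have h40965 := checkRangeG_sound parWF r2 pf40964 h40964
  have h40966 := checkRangeG_sound parWF r2 pf40965 h40965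
  have h40967 := checkRangeG_sound parWF r2 pf40966 h40966
  have h40968 := checkRangeG_sound parWF r2 pf40967 h40967
  have h40969 := checkRangeG_sound parWF r2 pf40968 h40968
  have h40970 := checkRangeG_sound parWF r2 pf40969 h40969
  have h40971 := checkRangeG_sound parWF r2 pf40970 h40970
  have h40972 := checkRangeG_sound parWF r2 pf40971 h40971
  have h40973 := checkRangeG_sound parWF r2 pf40972 h40972
  have h40974 := checkRangeG_sound parWF r2 pf40973 h40973
  have h40975 := checkRangeG_sound parWF r2 pf40974 h40974
  have h40976 := checkRangeG_sound parWF r2 pf40975 h40975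
  have h40977 := checkRangeG_sound parWF r2 pf40976 h40976
  have h40978 := checkRangeG_sound parWF r2 pf40977 h40977
  have h40979 := checkRangeG_sound parWF r2 pf40978 h40978
  have h40980 := checkRangeG_sound parWF r2 pf40979 h40979
  have h40981 := checkRangeG_sound parWF r2 pf40980 h40980
  have h40982 := checkRangeG_sound parWF r2 pf40981 h40981
  have h40983 := checkRangeG_sound parWF r2 pf40982 h40982
  have h40984 := checkRangeG_sound parWF r2 pf40983 h40983
  have h40985 := checkRangeG_sound parWF r2 pf40984 h40984
  have h40986 := checkRangeG_sound parWF r2 pf40985 h40985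
  have h40987 := checkRangeG_sound parWF r2 pf40986 h40986
  have h40988 := checkRangeG_sound parWF r2 pf40987 h40987
  have h40989 := checkRangeG_sound parWF r2 pf40988 h40988
  have h40990 := checkRangeG_sound parWF r2 pf40989 h40989
  have h40991 := checkRangeG_sound parWF r2 pf40990 h40990
  have h40992 := checkRangeG_sound parWF r2 pf40991 h40991
  have h40993 := checkRangeG_sound parWF r2 pf40992 h40992
  have h40994 := checkRangeG_sound parWF r2 pf40993 h40993
  have h40995 := checkRangeG_sound parWF r2 pf40994 h40994
  have h40996 := checkRangeG_sound parWF r2 pf40995 h40995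
  have h40997 := checkRangeG_sound parWF r2 pf40996 h40996
  have h40998 := checkRangeG_sound parWF r2 pf40997 h40997
  have h40999 := checkRangeG_sound parWF r2 pf40998 h40998
  have h41000 := checkRangeG_sound parWF r2 pf40999 h40999
  exact h41000

theorem c820 (h41000 : ∀ j, j < 140135 → GoodG.{u} par (db j)) : ∀ j, j < 140351 → GoodG.{u} par (db j) := by
  have h41001 := checkRangeG_sound parWF r2 pf41000 h41000
  have h41002 := checkRangeG_sound parWF r2 pf41001 h41001
  have h41003 := checkRangeG_sound parWF r2 pf41002 h41002
  have h41004 := checkRangeG_sound parWF r2 pf41003 h41003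
  have h41005 := checkRangeG_sound parWF r2 pf41004 h41004
  have h41006 := checkRangeG_sound parWF r2 pf41005 h41005
  have h41007 := checkRangeG_sound parWF r2 pf41006 h41006
  have h41008 := checkRangeG_sound parWF r2 pf41007 h41007
  have h41009 := checkRangeG_sound parWF r2 pf41008 h41008
  have h41010 := checkRangeG_sound parWF r2 pf41009 h41009
  have h41011 := checkRangeG_sound parWF r2 pf41010 h41010
  have h41012 := checkRangeG_sound parWF r2 pf41011 h41011
  have h41013 := checkRangeG_sound parWF r2 pf41012 h41012
  have h41014 := checkRangeG_sound parWF r2 pf41013 h41013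
  have h41015 := checkRangeG_sound parWF r2 pf41014 h41014
  have h41016 := checkRangeG_sound parWF r2 pf41015 h41015
  have h41017 := checkRangeG_sound parWF r2 pf41016 h41016
  have h41018 := checkRangeG_sound parWF r2 pf41017 h41017
  have h41019 := checkRangeG_sound parWF r2 pf41018 h41018
  have h41020 := checkRangeG_sound parWF r2 pf41019 h41019
  have h41021 := checkRangeG_sound parWF r2 pf41020 h41020
  have h41022 := checkRangeG_sound parWF r2 pf41021 h41021
  have h41023 := checkRangeG_sound parWF r2 pf41022 h41022
  have h41024 := checkRangeG_sound parWF r2 pf41023 h41023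
  have h41025 := checkRangeG_sound parWF r2 pf41024 h41024
  have h41026 := checkRangeG_sound parWF r2 pf41025 h41025
  have h41027 := checkRangeG_sound parWF r2 pf41026 h41026
  have h41028 := checkRangeG_sound parWF r2 pf41027 h41027
  have h41029 := checkRangeG_sound parWF r2 pf41028 h41028
  have h41030 := checkRangeG_sound parWF r2 pf41029 h41029
  have h41031 := checkRangeG_sound parWF r2 pf41030 h41030
  have h41032 := checkRangeG_sound parWF r2 pf41031 h41031
  have h41033 := checkRangeG_sound parWF r2 pf41032 h41032
  have h41034 := checkRangeG_sound parWF r2 pf41033 h41033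
  have h41035 := checkRangeG_sound parWF r2 pf41034 h41034
  have h41036 := checkRangeG_sound parWF r2 pf41035 h41035
  have h41037 := checkRangeG_sound parWF r2 pf41036 h41036
  have h41038 := checkRangeG_sound parWF r2 pf41037 h41037
  have h41039 := checkRangeG_sound parWF r2 pf41038 h41038
  have h41040 := checkRangeG_sound parWF r2 pf41039 h41039
  have h41041 := checkRangeG_sound parWF r2 pf41040 h41040
  have h41042 := checkRangeG_sound parWF r2 pf41041 h41041
  have h41043 := checkRangeG_sound parWF r2 pf41042 h41042
  have h41044 := checkRangeG_sound parWF r2 pf41043 h41043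
  have h41045 := checkRangeG_sound parWF r2 pf41044 h41044
  have h41046 := checkRangeG_sound parWF r2 pf41045 h41045
  have h41047 := checkRangeG_sound parWF r2 pf41046 h41046
  have h41048 := checkRangeG_sound parWF r2 pf41047 h41047
  have h41049 := checkRangeG_sound parWF r2 pf41048 h41048
  have h41050 := checkRangeG_sound parWF r2 pf41049 h41049
  exact h41050

theorem c821 (h41050 : ∀ j, j < 140351 → GoodG.{u} par (db j)) : ∀ j, j < 140544 → GoodG.{u} par (db j) := by
  have h41051 := checkRangeG_sound parWF r2 pf41050 h41050
  have h41052 := checkRangeG_sound parWF r2 pf41051 h41051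
  have h41053 := checkRangeG_sound parWF r2 pf41052 h41052
  have h41054 := checkRangeG_sound parWF r2 pf41053 h41053
  have h41055 := checkRangeG_sound parWF r2 pf41054 h41054
  have h41056 := checkRangeG_sound parWF r2 pf41055 h41055
  have h41057 := checkRangeG_sound parWF r2 pf41056 h41056
  have h41058 := checkRangeG_sound parWF r2 pf41057 h41057
  have h41059 := checkRangeG_sound parWF r2 pf41058 h41058
  have h41060 := checkRangeG_sound parWF r2 pf41059 h41059
  have h41061 := checkRangeG_sound parWF r2 pf41060 h41060
  have h41062 := checkRangeG_sound parWF r2 pf41061 h41061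
  have h41063 := checkRangeG_sound parWF r2 pf41062 h41062
  have h41064 := checkRangeG_sound parWF r2 pf41063 h41063
  have h41065 := checkRangeG_sound parWF r2 pf41064 h41064
  have h41066 := checkRangeG_sound parWF r2 pf41065 h41065
  have h41067 := checkRangeG_sound parWF r2 pf41066 h41066
  have h41068 := checkRangeG_sound parWF r2 pf41067 h41067
  have h41069 := checkRangeG_sound parWF r2 pf41068 h41068
  have h41070 := checkRangeG_sound parWF r2 pf41069 h41069
  have h41071 := checkRangeG_sound parWF r2 pf41070 h41070
  have h41072 := checkRangeG_sound parWF r2 pf41071 h41071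
  have h41073 := checkRangeG_sound parWF r2 pf41072 h41072
  have h41074 := checkRangeG_sound parWF r2 pf41073 h41073
  have h41075 := checkRangeG_sound parWF r2 pf41074 h41074
  have h41076 := checkRangeG_sound parWF r2 pf41075 h41075
  have h41077 := checkRangeG_sound parWF r2 pf41076 h41076
  have h41078 := checkRangeG_sound parWF r2 pf41077 h41077
  have h41079 := checkRangeG_sound parWF r2 pf41078 h41078
  have h41080 := checkRangeG_sound parWF r2 pf41079 h41079
  have h41081 := checkRangeG_sound parWF r2 pf41080 h41080
  have h41082 := checkRangeG_sound parWF r2 pf41081 h41081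
  have h41083 := checkRangeG_sound parWF r2 pf41082 h41082
  have h41084 := checkRangeG_sound parWF r2 pf41083 h41083
  have h41085 := checkRangeG_sound parWF r2 pf41084 h41084
  have h41086 := checkRangeG_sound parWF r2 pf41085 h41085
  have h41087 := checkRangeG_sound parWF r2 pf41086 h41086
  have h41088 := checkRangeG_sound parWF r2 pf41087 h41087
  have h41089 := checkRangeG_sound parWF r2 pf41088 h41088
  have h41090 := checkRangeG_sound parWF r2 pf41089 h41089
  have h41091 := checkRangeG_sound parWF r2 pf41090 h41090
  have h41092 := checkRangeG_sound parWF r2 pf41091 h41091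
  have h41093 := checkRangeG_sound parWF r2 pf41092 h41092
  have h41094 := checkRangeG_sound parWF r2 pf41093 h41093
  have h41095 := checkRangeG_sound parWF r2 pf41094 h41094
  have h41096 := checkRangeG_sound parWF r2 pf41095 h41095
  have h41097 := checkRangeG_sound parWF r2 pf41096 h41096
  have h41098 := checkRangeG_sound parWF r2 pf41097 h41097
  have h41099 := checkRangeG_sound parWF r2 pf41098 h41098
  have h41100 := checkRangeG_sound parWF r2 pf41099 h41099
  exact h41100

theorem c822 (h41100 : ∀ j, j < 140544 → GoodG.{u} par (db j)) : ∀ j, j < 140743 → GoodG.{u} par (db j) := by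
  have h41101 := checkRangeG_sound parWF r2 pf41100 h41100
  have h41102 := checkRangeG_sound parWF r2 pf41101 h41101
  have h41103 := checkRangeG_sound parWF r2 pf41102 h41102
  have h41104 := checkRangeG_sound parWF r2 pf41103 h41103
  have h41105 := checkRangeG_sound parWF r2 pf41104 h41104
  have h41106 := checkRangeG_sound parWF r2 pf41105 h41105
  have h41107 := checkRangeG_sound parWF r2 pf41106 h41106
  have h41108 := checkRangeG_sound parWF r2 pf41107 h41107
  have h41109 := checkRangeG_sound parWF r2 pf41108 h41108
  have h41110 := checkRangeG_sound parWF r2 pf41109 h41109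
  have h41111 := checkRangeG_sound parWF r2 pf41110 h41110
  have h41112 := checkRangeG_sound parWF r2 pf41111 h41111
  have h41113 := checkRangeG_sound parWF r2 pf41112 h41112
  have h41114 := checkRangeG_sound parWF r2 pf41113 h41113
  have h41115 := checkRangeG_sound parWF r2 pf41114 h41114
  have h41116 := checkRangeG_sound parWF r2 pf41115 h41115
  have h41117 := checkRangeG_sound parWF r2 pf41116 h41116
  have h41118 := checkRangeG_sound parWF r2 pf41117 h41117
  have h41119 := checkRangeG_sound parWF r2 pf41118 h41118
  have h41120 := checkRangeG_sound parWF r2 pf41119 h41119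
  have h41121 := checkRangeG_sound parWF r2 pf41120 h41120
  have h41122 := checkRangeG_sound parWF r2 pf41121 h41121
  have h41123 := checkRangeG_sound parWF r2 pf41122 h41122
  have h41124 := checkRangeG_sound parWF r2 pf41123 h41123
  have h41125 := checkRangeG_sound parWF r2 pf41124 h41124
  have h41126 := checkRangeG_sound parWF r2 pf41125 h41125
  have h41127 := checkRangeG_sound parWF r2 pf41126 h41126
  have h41128 := checkRangeG_sound parWF r2 pf41127 h41127
  have h41129 := checkRangeG_sound parWF r2 pf41128 h41128
  have h41130 := checkRangeG_sound parWF r2 pf41129 h41129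
  have h41131 := checkRangeG_sound parWF r2 pf41130 h41130
  have h41132 := checkRangeG_sound parWF r2 pf41131 h41131
  have h41133 := checkRangeG_sound parWF r2 pf41132 h41132
  have h41134 := checkRangeG_sound parWF r2 pf41133 h41133
  have h41135 := checkRangeG_sound parWF r2 pf41134 h41134
  have h41136 := checkRangeG_sound parWF r2 pf41135 h41135
  have h41137 := checkRangeG_sound parWF r2 pf41136 h41136
  have h41138 := checkRangeG_sound parWF r2 pf41137 h41137
  have h41139 := checkRangeG_sound parWF r2 pf41138 h41138
  have h41140 := checkRangeG_sound parWF r2 pf41139 h41139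
  have h41141 := checkRangeG_sound parWF r2 pf41140 h41140
  have h41142 := checkRangeG_sound parWF r2 pf41141 h41141
  have h41143 := checkRangeG_sound parWF r2 pf41142 h41142
  have h41144 := checkRangeG_sound parWF r2 pf41143 h41143
  have h41145 := checkRangeG_sound parWF r2 pf41144 h41144
  have h41146 := checkRangeG_sound parWF r2 pf41145 h41145
  have h41147 := checkRangeG_sound parWF r2 pf41146 h41146
  have h41148 := checkRangeG_sound parWF r2 pf41147 h41147
  have h41149 := checkRangeG_sound parWF r2 pf41148 h41148
  have h41150 := checkRangeG_sound parWF r2 pf41149 h41149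
  exact h41150

theorem c823 (h41150 : ∀ j, j < 140743 → GoodG.{u} par (db j)) : ∀ j, j < 140954 → GoodG.{u} par (db j) := by
  have h41151 := checkRangeG_sound parWF r2 pf41150 h41150
  have h41152 := checkRangeG_sound parWF r2 pf41151 h41151
  have h41153 := checkRangeG_sound parWF r2 pf41152 h41152
  have h41154 := checkRangeG_sound parWF r2 pf41153 h41153
  have h41155 := checkRangeG_sound parWF r2 pf41154 h41154
  have h41156 := checkRangeG_sound parWF r2 pf41155 h41155
  have h41157 := checkRangeG_sound parWF r2 pf41156 h41156
  have h41158 := checkRangeG_sound parWF r2 pf41157 h41157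
  have h41159 := checkRangeG_sound parWF r2 pf41158 h41158
  have h41160 := checkRangeG_sound parWF r2 pf41159 h41159
  have h41161 := checkRangeG_sound parWF r2 pf41160 h41160
  have h41162 := checkRangeG_sound parWF r2 pf41161 h41161
  have h41163 := checkRangeG_sound parWF r2 pf41162 h41162
  have h41164 := checkRangeG_sound parWF r2 pf41163 h41163
  have h41165 := checkRangeG_sound parWF r2 pf41164 h41164
  have h41166 := checkRangeG_sound parWF r2 pf41165 h41165
  have h41167 := checkRangeG_sound parWF r2 pf41166 h41166
  have h41168 := checkRangeG_sound parWF r2 pf41167 h41167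
  have h41169 := checkRangeG_sound parWF r2 pf41168 h41168
  have h41170 := checkRangeG_sound parWF r2 pf41169 h41169
  have h41171 := checkRangeG_sound parWF r2 pf41170 h41170
  have h41172 := checkRangeG_sound parWF r2 pf41171 h41171
  have h41173 := checkRangeG_sound parWF r2 pf41172 h41172
  have h41174 := checkRangeG_sound parWF r2 pf41173 h41173
  have h41175 := checkRangeG_sound parWF r2 pf41174 h41174
  have h41176 := checkRangeG_sound parWF r2 pf41175 h41175
  have h41177 := checkRangeG_sound parWF r2 pf41176 h41176
  have h41178 := checkRangeG_sound parWF r2 pf41177 h41177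
  have h41179 := checkRangeG_sound parWF r2 pf41178 h41178
  have h41180 := checkRangeG_sound parWF r2 pf41179 h41179
  have h41181 := checkRangeG_sound parWF r2 pf41180 h41180
  have h41182 := checkRangeG_sound parWF r2 pf41181 h41181
  have h41183 := checkRangeG_sound parWF r2 pf41182 h41182
  have h41184 := checkRangeG_sound parWF r2 pf41183 h41183
  have h41185 := checkRangeG_sound parWF r2 pf41184 h41184
  have h41186 := checkRangeG_sound parWF r2 pf41185 h41185
  have h41187 := checkRangeG_sound parWF r2 pf41186 h41186
  have h41188 := checkRangeG_sound parWF r2 pf41187 h41187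
  have h41189 := checkRangeG_sound parWF r2 pf41188 h41188
  have h41190 := checkRangeG_sound parWF r2 pf41189 h41189
  have h41191 := checkRangeG_sound parWF r2 pf41190 h41190
  have h41192 := checkRangeG_sound parWF r2 pf41191 h41191
  have h41193 := checkRangeG_sound parWF r2 pf41192 h41192
  have h41194 := checkRangeG_sound parWF r2 pf41193 h41193
  have h41195 := checkRangeG_sound parWF r2 pf41194 h41194
  have h41196 := checkRangeG_sound parWF r2 pf41195 h41195
  have h41197 := checkRangeG_sound parWF r2 pf41196 h41196
  have h41198 := checkRangeG_sound parWF r2 pf41197 h41197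
  have h41199 := checkRangeG_sound parWF r2 pf41198 h41198
  have h41200 := checkRangeG_sound parWF r2 pf41199 h41199
  exact h41200

theorem c824 (h41200 : ∀ j, j < 140954 → GoodG.{u} par (db j)) : ∀ j, j < 141153 → GoodG.{u} par (db j) := by
  have h41201 := checkRangeG_sound parWF r2 pf41200 h41200
  have h41202 := checkRangeG_sound parWF r2 pf41201 h41201
  have h41203 := checkRangeG_sound parWF r2 pf41202 h41202
  have h41204 := checkRangeG_sound parWF r2 pf41203 h41203
  have h41205 := checkRangeG_sound parWF r2 pf41204 h41204
  have h41206 := checkRangeG_sound parWF r2 pf41205 h41205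
  have h41207 := checkRangeG_sound parWF r2 pf41206 h41206
  have h41208 := checkRangeG_sound parWF r2 pf41207 h41207
  have h41209 := checkRangeG_sound parWF r2 pf41208 h41208
  have h41210 := checkRangeG_sound parWF r2 pf41209 h41209
  have h41211 := checkRangeG_sound parWF r2 pf41210 h41210
  have h41212 := checkRangeG_sound parWF r2 pf41211 h41211
  have h41213 := checkRangeG_sound parWF r2 pf41212 h41212
  have h41214 := checkRangeG_sound parWF r2 pf41213 h41213
  have h41215 := checkRangeG_sound parWF r2 pf41214 h41214
  have h41216 := checkRangeG_sound parWF r2 pf41215 h41215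
  have h41217 := checkRangeG_sound parWF r2 pf41216 h41216
  have h41218 := checkRangeG_sound parWF r2 pf41217 h41217
  have h41219 := checkRangeG_sound parWF r2 pf41218 h41218
  have h41220 := checkRangeG_sound parWF r2 pf41219 h41219
  have h41221 := checkRangeG_sound parWF r2 pf41220 h41220
  have h41222 := checkRangeG_sound parWF r2 pf41221 h41221
  have h41223 := checkRangeG_sound parWF r2 pf41222 h41222
  have h41224 := checkRangeG_sound parWF r2 pf41223 h41223
  have h41225 := checkRangeG_sound parWF r2 pf41224 h41224
  have h41226 := checkRangeG_sound parWF r2 pf41225 h41225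
  have h41227 := checkRangeG_sound parWF r2 pf41226 h41226
  have h41228 := checkRangeG_sound parWF r2 pf41227 h41227
  have h41229 := checkRangeG_sound parWF r2 pf41228 h41228
  have h41230 := checkRangeG_sound parWF r2 pf41229 h41229
  have h41231 := checkRangeG_sound parWF r2 pf41230 h41230
  have h41232 := checkRangeG_sound parWF r2 pf41231 h41231
  have h41233 := checkRangeG_sound parWF r2 pf41232 h41232
  have h41234 := checkRangeG_sound parWF r2 pf41233 h41233
  have h41235 := checkRangeG_sound parWF r2 pf41234 h41234
  have h41236 := checkRangeG_sound parWF r2 pf41235 h41235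
  have h41237 := checkRangeG_sound parWF r2 pf41236 h41236
  have h41238 := checkRangeG_sound parWF r2 pf41237 h41237
  have h41239 := checkRangeG_sound parWF r2 pf41238 h41238
  have h41240 := checkRangeG_sound parWF r2 pf41239 h41239
  have h41241 := checkRangeG_sound parWF r2 pf41240 h41240
  have h41242 := checkRangeG_sound parWF r2 pf41241 h41241
  have h41243 := checkRangeG_sound parWF r2 pf41242 h41242
  have h41244 := checkRangeG_sound parWF r2 pf41243 h41243
  have h41245 := checkRangeG_sound parWF r2 pf41244 h41244
  have h41246 := checkRangeG_sound parWF r2 pf41245 h41245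
  have h41247 := checkRangeG_sound parWF r2 pf41246 h41246
  have h41248 := checkRangeG_sound parWF r2 pf41247 h41247
  have h41249 := checkRangeG_sound parWF r2 pf41248 h41248
  have h41250 := checkRangeG_sound parWF r2 pf41249 h41249
  exact h41250

theorem c825 (h41250 : ∀ j, j < 141153 → GoodG.{u} par (db j)) : ∀ j, j < 141367 → GoodG.{u} par (db j) := by
  have h41251 := checkRangeG_sound parWF r2 pf41250 h41250
  have h41252 := checkRangeG_sound parWF r2 pf41251 h41251
  have h41253 := checkRangeG_sound parWF r2 pf41252 h41252
  have h41254 := checkRangeG_sound parWF r2 pf41253 h41253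
  have h41255 := checkRangeG_sound parWF r2 pf41254 h41254
  have h41256 := checkRangeG_sound parWF r2 pf41255 h41255
  have h41257 := checkRangeG_sound parWF r2 pf41256 h41256
  have h41258 := checkRangeG_sound parWF r2 pf41257 h41257
  have h41259 := checkRangeG_sound parWF r2 pf41258 h41258
  have h41260 := checkRangeG_sound parWF r2 pf41259 h41259
  have h41261 := checkRangeG_sound parWF r2 pf41260 h41260
  have h41262 := checkRangeG_sound parWF r2 pf41261 h41261
  have h41263 := checkRangeG_sound parWF r2 pf41262 h41262
  have h41264 := checkRangeG_sound parWF r2 pf41263 h41263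
  have h41265 := checkRangeG_sound parWF r2 pf41264 h41264
  have h41266 := checkRangeG_sound parWF r2 pf41265 h41265
  have h41267 := checkRangeG_sound parWF r2 pf41266 h41266
  have h41268 := checkRangeG_sound parWF r2 pf41267 h41267
  have h41269 := checkRangeG_sound parWF r2 pf41268 h41268
  have h41270 := checkRangeG_sound parWF r2 pf41269 h41269
  have h41271 := checkRangeG_sound parWF r2 pf41270 h41270
  have h41272 := checkRangeG_sound parWF r2 pf41271 h41271
  have h41273 := checkRangeG_sound parWF r2 pf41272 h41272
  have h41274 := checkRangeG_sound parWF r2 pf41273 h41273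
  have h41275 := checkRangeG_sound parWF r2 pf41274 h41274
  have h41276 := checkRangeG_sound parWF r2 pf41275 h41275
  have h41277 := checkRangeG_sound parWF r2 pf41276 h41276
  have h41278 := checkRangeG_sound parWF r2 pf41277 h41277
  have h41279 := checkRangeG_sound parWF r2 pf41278 h41278
  have h41280 := checkRangeG_sound parWF r2 pf41279 h41279
  have h41281 := checkRangeG_sound parWF r2 pf41280 h41280
  have h41282 := checkRangeG_sound parWF r2 pf41281 h41281
  have h41283 := checkRangeG_sound parWF r2 pf41282 h41282
  have h41284 := checkRangeG_sound parWF r2 pf41283 h41283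
  have h41285 := checkRangeG_sound parWF r2 pf41284 h41284
  have h41286 := checkRangeG_sound parWF r2 pf41285 h41285
  have h41287 := checkRangeG_sound parWF r2 pf41286 h41286
  have h41288 := checkRangeG_sound parWF r2 pf41287 h41287
  have h41289 := checkRangeG_sound parWF r2 pf41288 h41288
  have h41290 := checkRangeG_sound parWF r2 pf41289 h41289
  have h41291 := checkRangeG_sound parWF r2 pf41290 h41290
  have h41292 := checkRangeG_sound parWF r2 pf41291 h41291
  have h41293 := checkRangeG_sound parWF r2 pf41292 h41292
  have h41294 := checkRangeG_sound parWF r2 pf41293 h41293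
  have h41295 := checkRangeG_sound parWF r2 pf41294 h41294
  have h41296 := checkRangeG_sound parWF r2 pf41295 h41295
  have h41297 := checkRangeG_sound parWF r2 pf41296 h41296
  have h41298 := checkRangeG_sound parWF r2 pf41297 h41297
  have h41299 := checkRangeG_sound parWF r2 pf41298 h41298
  have h41300 := checkRangeG_sound parWF r2 pf41299 h41299
  exact h41300

theorem c826 (h41300 : ∀ j, j < 141367 → GoodG.{u} par (db j)) : ∀ j, j < 141585 → GoodG.{u} par (db j) := by
  have h41301 := checkRangeG_sound parWF r2 pf41300 h41300
  have h41302 := checkRangeG_sound parWF r2 pf41301 h41301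
  have h41303 := checkRangeG_sound parWF r2 pf41302 h41302
  have h41304 := checkRangeG_sound parWF r2 pf41303 h41303
  have h41305 := checkRangeG_sound parWF r2 pf41304 h41304
  have h41306 := checkRangeG_sound parWF r2 pf41305 h41305
  have h41307 := checkRangeG_sound parWF r2 pf41306 h41306
  have h41308 := checkRangeG_sound parWF r2 pf41307 h41307
  have h41309 := checkRangeG_sound parWF r2 pf41308 h41308
  have h41310 := checkRangeG_sound parWF r2 pf41309 h41309
  have h41311 := checkRangeG_sound parWF r2 pf41310 h41310
  have h41312 := checkRangeG_sound parWF r2 pf41311 h41311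
  have h41313 := checkRangeG_sound parWF r2 pf41312 h41312
  have h41314 := checkRangeG_sound parWF r2 pf41313 h41313
  have h41315 := checkRangeG_sound parWF r2 pf41314 h41314
  have h41316 := checkRangeG_sound parWF r2 pf41315 h41315
  have h41317 := checkRangeG_sound parWF r2 pf41316 h41316
  have h41318 := checkRangeG_sound parWF r2 pf41317 h41317
  have h41319 := checkRangeG_sound parWF r2 pf41318 h41318
  have h41320 := checkRangeG_sound parWF r2 pf41319 h41319
  have h41321 := checkRangeG_sound parWF r2 pf41320 h41320
  have h41322 := checkRangeG_sound parWF r2 pf41321 h41321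
  have h41323 := checkRangeG_sound parWF r2 pf41322 h41322
  have h41324 := checkRangeG_sound parWF r2 pf41323 h41323
  have h41325 := checkRangeG_sound parWF r2 pf41324 h41324
  have h41326 := checkRangeG_sound parWF r2 pf41325 h41325
  have h41327 := checkRangeG_sound parWF r2 pf41326 h41326
  have h41328 := checkRangeG_sound parWF r2 pf41327 h41327
  have h41329 := checkRangeG_sound parWF r2 pf41328 h41328
  have h41330 := checkRangeG_sound parWF r2 pf41329 h41329
  have h41331 := checkRangeG_sound parWF r2 pf41330 h41330
  have h41332 := checkRangeG_sound parWF r2 pf41331 h41331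
  have h41333 := checkRangeG_sound parWF r2 pf41332 h41332
  have h41334 := checkRangeG_sound parWF r2 pf41333 h41333
  have h41335 := checkRangeG_sound parWF r2 pf41334 h41334
  have h41336 := checkRangeG_sound parWF r2 pf41335 h41335
  have h41337 := checkRangeG_sound parWF r2 pf41336 h41336
  have h41338 := checkRangeG_sound parWF r2 pf41337 h41337
  have h41339 := checkRangeG_sound parWF r2 pf41338 h41338
  have h41340 := checkRangeG_sound parWF r2 pf41339 h41339
  have h41341 := checkRangeG_sound parWF r2 pf41340 h41340
  have h41342 := checkRangeG_sound parWF r2 pf41341 h41341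
  have h41343 := checkRangeG_sound parWF r2 pf41342 h41342
  have h41344 := checkRangeG_sound parWF r2 pf41343 h41343
  have h41345 := checkRangeG_sound parWF r2 pf41344 h41344
  have h41346 := checkRangeG_sound parWF r2 pf41345 h41345
  have h41347 := checkRangeG_sound parWF r2 pf41346 h41346
  have h41348 := checkRangeG_sound parWF r2 pf41347 h41347
  have h41349 := checkRangeG_sound parWF r2 pf41348 h41348
  have h41350 := checkRangeG_sound parWF r2 pf41349 h41349
  exact h41350

theorem c827 (h41350 : ∀ j, j < 141585 → GoodG.{u} par (db j)) : ∀ j, j < 141795 → GoodG.{u} par (db j) := by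
  have h41351 := checkRangeG_sound parWF r2 pf41350 h41350
  have h41352 := checkRangeG_sound parWF r2 pf41351 h41351
  have h41353 := checkRangeG_sound parWF r2 pf41352 h41352
  have h41354 := checkRangeG_sound parWF r2 pf41353 h41353
  have h41355 := checkRangeG_sound parWF r2 pf41354 h41354
  have h41356 := checkRangeG_sound parWF r2 pf41355 h41355
  have h41357 := checkRangeG_sound parWF r2 pf41356 h41356
  have h41358 := checkRangeG_sound parWF r2 pf41357 h41357
  have h41359 := checkRangeG_sound parWF r2 pf41358 h41358
  have h41360 := checkRangeG_sound parWF r2 pf41359 h41359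
  have h41361 := checkRangeG_sound parWF r2 pf41360 h41360
  have h41362 := checkRangeG_sound parWF r2 pf41361 h41361
  have h41363 := checkRangeG_sound parWF r2 pf41362 h41362
  have h41364 := checkRangeG_sound parWF r2 pf41363 h41363
  have h41365 := checkRangeG_sound parWF r2 pf41364 h41364
  have h41366 := checkRangeG_sound parWF r2 pf41365 h41365
  have h41367 := checkRangeG_sound parWF r2 pf41366 h41366
  have h41368 := checkRangeG_sound parWF r2 pf41367 h41367
  have h41369 := checkRangeG_sound parWF r2 pf41368 h41368
  have h41370 := checkRangeG_sound parWF r2 pf41369 h41369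
  have h41371 := checkRangeG_sound parWF r2 pf41370 h41370
  have h41372 := checkRangeG_sound parWF r2 pf41371 h41371
  have h41373 := checkRangeG_sound parWF r2 pf41372 h41372
  have h41374 := checkRangeG_sound parWF r2 pf41373 h41373
  have h41375 := checkRangeG_sound parWF r2 pf41374 h41374
  have h41376 := checkRangeG_sound parWF r2 pf41375 h41375
  have h41377 := checkRangeG_sound parWF r2 pf41376 h41376
  have h41378 := checkRangeG_sound parWF r2 pf41377 h41377
  have h41379 := checkRangeG_sound parWF r2 pf41378 h41378
  have h41380 := checkRangeG_sound parWF r2 pf41379 h41379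
  have h41381 := checkRangeG_sound parWF r2 pf41380 h41380
  have h41382 := checkRangeG_sound parWF r2 pf41381 h41381
  have h41383 := checkRangeG_sound parWF r2 pf41382 h41382
  have h41384 := checkRangeG_sound parWF r2 pf41383 h41383
  have h41385 := checkRangeG_sound parWF r2 pf41384 h41384
  have h41386 := checkRangeG_sound parWF r2 pf41385 h41385
  have h41387 := checkRangeG_sound parWF r2 pf41386 h41386
  have h41388 := checkRangeG_sound parWF r2 pf41387 h41387
  have h41389 := checkRangeG_sound parWF r2 pf41388 h41388
  have h41390 := checkRangeG_sound parWF r2 pf41389 h41389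
  have h41391 := checkRangeG_sound parWF r2 pf41390 h41390
  have h41392 := checkRangeG_sound parWF r2 pf41391 h41391
  have h41393 := checkRangeG_sound parWF r2 pf41392 h41392
  have h41394 := checkRangeG_sound parWF r2 pf41393 h41393
  have h41395 := checkRangeG_sound parWF r2 pf41394 h41394
  have h41396 := checkRangeG_sound parWF r2 pf41395 h41395
  have h41397 := checkRangeG_sound parWF r2 pf41396 h41396
  have h41398 := checkRangeG_sound parWF r2 pf41397 h41397
  have h41399 := checkRangeG_sound parWF r2 pf41398 h41398
  have h41400 := checkRangeG_sound parWF r2 pf41399 h41399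
  exact h41400


end Vale.Agent.P045g.C61
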