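import Vale.Agent.P045g.C61.WF
import Vale.Agent.P045g.C61.Pf690
import Vale.Agent.P045g.C61.Pf691
import Vale.Agent.P045g.C61.Pf692
import Vale.Agent.P045g.C61.Pf693
import Vale.Agent.P045g.C61.Pf694
import Vale.Agent.P045g.C61.Pf695
import Vale.Agent.P045g.C61.Pf696
import Vale.Agent.P045g.C61.Pf697
import Vale.Agent.P045g.C61.Pf698
import Vale.Agent.P045g.C61.Pf699

namespace Vale.Agent.P045g.C61

open Vale.Agent.P045b Vale.Agent.P045g

universe u

theorem c828 (h41400 : ∀ j, j < 141795 → GoodG.{u} par (db j)) : ∀ j, j < 142002 → GoodG.{u} par (db j) := by
  have h41401 := checkRangeG_sound parWF r2 pf41400 h41400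
  have h41402 := checkRangeG_sound parWF r2 pf41401 h41401
  have h41403 := checkRangeG_sound parWF r2 pf41402 h41402
  have h41404 := checkRangeG_sound parWF r2 pf41403 h41403
  have h41405 := checkRangeG_sound parWF r2 pf41404 h41404
  have h41406 := checkRangeG_sound parWF r2 pf41405 h41405
  have h41407 := checkRangeG_sound parWF r2 pf41406 h41406
  have h41408 := checkRangeG_sound parWF r2 pf41407 h41407
  have h41409 := checkRangeG_sound parWF r2 pf41408 h41408
  have h41410 := checkRangeG_sound parWF r2 pf41409 h41409
  have h41411 := checkRangeG_sound parWF r2 pf41410 h41410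
  have h41412 := checkRangeG_sound parWF r2 pf41411 h41411
  have h41413 := checkRangeG_sound parWF r2 pf41412 h41412
  have h41414 := checkRangeG_sound parWF r2 pf41413 h41413
  have h41415 := checkRangeG_sound parWF r2 pf41414 h41414
  have h41416 := checkRangeG_sound parWF r2 pf41415 h41415
  have h41417 := checkRangeG_sound parWF r2 pf41416 h41416
  have h41418 := checkRangeG_sound parWF r2 pf41417 h41417
  have h41419 := checkRangeG_sound parWF r2 pf41418 h41418
  have h41420 := checkRangeG_sound parWF r2 pf41419 h41419
  have h41421 := checkRangeG_sound parWF r2 pf41420 h41420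
  have h41422 := checkRangeG_sound parWF r2 pf41421 h41421
  have h41423 := checkRangeG_sound parWF r2 pf41422 h41422
  have h41424 := checkRangeG_sound parWF r2 pf41423 h41423
  have h41425 := checkRangeG_sound parWF r2 pf41424 h41424
  have h41426 := checkRangeG_sound parWF r2 pf41425 h41425
  have h41427 := checkRangeG_sound parWF r2 pf41426 h41426
  have h41428 := checkRangeG_sound parWF r2 pf41427 h41427
  have h41429 := checkRangeG_sound parWF r2 pf41428 h41428
  have h41430 := checkRangeG_sound parWF r2 pf41429 h41429
  have h41431 := checkRangeG_sound parWF r2 pf41430 h41430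
  have h41432 := checkRangeG_sound parWF r2 pf41431 h41431
  have h41433 := checkRangeG_sound parWF r2 pf41432 h41432
  have h41434 := checkRangeG_sound parWF r2 pf41433 h41433
  have h41435 := checkRangeG_sound parWF r2 pf41434 h41434
  have h41436 := checkRangeG_sound parWF r2 pf41435 h41435
  have h41437 := checkRangeG_sound parWF r2 pf41436 h41436
  have h41438 := checkRangeG_sound parWF r2 pf41437 h41437
  have h41439 := checkRangeG_sound parWF r2 pf41438 h41438
  have h41440 := checkRangeG_sound parWF r2 pf41439 h41439
  have h41441 := checkRangeG_sound parWF r2 pf41440 h41440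
  have h41442 := checkRangeG_sound parWF r2 pf41441 h41441
  have h41443 := checkRangeG_sound parWF r2 pf41442 h41442
  have h41444 := checkRangeG_sound parWF r2 pf41443 h41443
  have h41445 := checkRangeG_sound parWF r2 pf41444 h41444
  have h41446 := checkRangeG_sound parWF r2 pf41445 h41445
  have h41447 := checkRangeG_sound parWF r2 pf41446 h41446
  have h41448 := checkRangeG_sound parWF r2 pf41447 h41447
  have h41449 := checkRangeG_sound parWF r2 pf41448 h41448
  have h41450 := checkRangeG_sound parWF r2 pf41449 h41449
  exact h41450

theorem c829 (h41450 : ∀ j, j < 142002 → GoodG.{u} par (db j)) : ∀ j, j < 142175 → GoodG.{u} par (db j) := by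
  have h41451 := checkRangeG_sound parWF r2 pf41450 h41450
  have h41452 := checkRangeG_sound parWF r2 pf41451 h41451
  have h41453 := checkRangeG_sound parWF r2 pf41452 h41452
  have h41454 := checkRangeG_sound parWF r2 pf41453 h41453
  have h41455 := checkRangeG_sound parWF r2 pf41454 h41454
  have h41456 := checkRangeG_sound parWF r2 pf41455 h41455
  have h41457 := checkRangeG_sound parWF r2 pf41456 h41456
  have h41458 := checkRangeG_sound parWF r2 pf41457 h41457
  have h41459 := checkRangeG_sound parWF r2 pf41458 h41458
  have h41460 := checkRangeG_sound parWF r2 pf41459 h41459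
  have h41461 := checkRangeG_sound parWF r2 pf41460 h41460
  have h41462 := checkRangeG_sound parWF r2 pf41461 h41461
  have h41463 := checkRangeG_sound parWF r2 pf41462 h41462
  have h41464 := checkRangeG_sound parWF r2 pf41463 h41463
  have h41465 := checkRangeG_sound parWF r2 pf41464 h41464
  have h41466 := checkRangeG_sound parWF r2 pf41465 h41465
  have h41467 := checkRangeG_sound parWF r2 pf41466 h41466
  have h41468 := checkRangeG_sound parWF r2 pf41467 h41467
  have h41469 := checkRangeG_sound parWF r2 pf41468 h41468
  have h41470 := checkRangeG_sound parWF r2 pf41469 h41469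
  have h41471 := checkRangeG_sound parWF r2 pf41470 h41470
  have h41472 := checkRangeG_sound parWF r2 pf41471 h41471
  have h41473 := checkRangeG_sound parWF r2 pf41472 h41472
  have h41474 := checkRangeG_sound parWF r2 pf41473 h41473
  have h41475 := checkRangeG_sound parWF r2 pf41474 h41474
  have h41476 := checkRangeG_sound parWF r2 pf41475 h41475
  have h41477 := checkRangeG_sound parWF r2 pf41476 h41476
  have h41478 := checkRangeG_sound parWF r2 pf41477 h41477
  have h41479 := checkRangeG_sound parWF r2 pf41478 h41478
  have h41480 := checkRangeG_sound parWF r2 pf41479 h41479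
  have h41481 := checkRangeG_sound parWF r2 pf41480 h41480
  have h41482 := checkRangeG_sound parWF r2 pf41481 h41481
  have h41483 := checkRangeG_sound parWF r2 pf41482 h41482
  have h41484 := checkRangeG_sound parWF r2 pf41483 h41483
  have h41485 := checkRangeG_sound parWF r2 pf41484 h41484
  have h41486 := checkRangeG_sound parWF r2 pf41485 h41485
  have h41487 := checkRangeG_sound parWF r2 pf41486 h41486
  have h41488 := checkRangeG_sound parWF r2 pf41487 h41487
  have h41489 := checkRangeG_sound parWF r2 pf41488 h41488
  have h41490 := checkRangeG_sound parWF r2 pf41489 h41489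
  have h41491 := checkRangeG_sound parWF r2 pf41490 h41490
  have h41492 := checkRangeG_sound parWF r2 pf41491 h41491
  have h41493 := checkRangeG_sound parWF r2 pf41492 h41492
  have h41494 := checkRangeG_sound parWF r2 pf41493 h41493
  have h41495 := checkRangeG_sound parWF r2 pf41494 h41494
  have h41496 := checkRangeG_sound parWF r2 pf41495 h41495
  have h41497 := checkRangeG_sound parWF r2 pf41496 h41496
  have h41498 := checkRangeG_sound parWF r2 pf41497 h41497
  have h41499 := checkRangeG_sound parWF r2 pf41498 h41498
  have h41500 := checkRangeG_sound parWF r2 pf41499 h41499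
  exact h41500

theorem c830 (h41500 : ∀ j, j < 142175 → GoodG.{u} par (db j)) : ∀ j, j < 142343 → GoodG.{u} par (db j) := by
  have h41501 := checkRangeG_sound parWF r2 pf41500 h41500
  have h41502 := checkRangeG_sound parWF r2 pf41501 h41501
  have h41503 := checkRangeG_sound parWF r2 pf41502 h41502
  have h41504 := checkRangeG_sound parWF r2 pf41503 h41503
  have h41505 := checkRangeG_sound parWF r2 pf41504 h41504
  have h41506 := checkRangeG_sound parWF r2 pf41505 h41505
  have h41507 := checkRangeG_sound parWF r2 pf41506 h41506
  have h41508 := checkRangeG_sound parWF r2 pf41507 h41507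
  have h41509 := checkRangeG_sound parWF r2 pf41508 h41508
  have h41510 := checkRangeG_sound parWF r2 pf41509 h41509
  have h41511 := checkRangeG_sound parWF r2 pf41510 h41510
  have h41512 := checkRangeG_sound parWF r2 pf41511 h41511
  have h41513 := checkRangeG_sound parWF r2 pf41512 h41512
  have h41514 := checkRangeG_sound parWF r2 pf41513 h41513
  have h41515 := checkRangeG_sound parWF r2 pf41514 h41514
  have h41516 := checkRangeG_sound parWF r2 pf41515 h41515
  have h41517 := checkRangeG_sound parWF r2 pf41516 h41516
  have h41518 := checkRangeG_sound parWF r2 pf41517 h41517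
  have h41519 := checkRangeG_sound parWF r2 pf41518 h41518
  have h41520 := checkRangeG_sound parWF r2 pf41519 h41519
  have h41521 := checkRangeG_sound parWF r2 pf41520 h41520
  have h41522 := checkRangeG_sound parWF r2 pf41521 h41521
  have h41523 := checkRangeG_sound parWF r2 pf41522 h41522
  have h41524 := checkRangeG_sound parWF r2 pf41523 h41523
  have h41525 := checkRangeG_sound parWF r2 pf41524 h41524
  have h41526 := checkRangeG_sound parWF r2 pf41525 h41525
  have h41527 := checkRangeG_sound parWF r2 pf41526 h41526
  have h41528 := checkRangeG_sound parWF r2 pf41527 h41527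
  have h41529 := checkRangeG_sound parWF r2 pf41528 h41528
  have h41530 := checkRangeG_sound parWF r2 pf41529 h41529
  have h41531 := checkRangeG_sound parWF r2 pf41530 h41530
  have h41532 := checkRangeG_sound parWF r2 pf41531 h41531
  have h41533 := checkRangeG_sound parWF r2 pf41532 h41532
  have h41534 := checkRangeG_sound parWF r2 pf41533 h41533
  have h41535 := checkRangeG_sound parWF r2 pf41534 h41534
  have h41536 := checkRangeG_sound parWF r2 pf41535 h41535
  have h41537 := checkRangeG_sound parWF r2 pf41536 h41536
  have h41538 := checkRangeG_sound parWF r2 pf41537 h41537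
  have h41539 := checkRangeG_sound parWF r2 pf41538 h41538
  have h41540 := checkRangeG_sound parWF r2 pf41539 h41539
  have h41541 := checkRangeG_sound parWF r2 pf41540 h41540
  have h41542 := checkRangeG_sound parWF r2 pf41541 h41541
  have h41543 := checkRangeG_sound parWF r2 pf41542 h41542
  have h41544 := checkRangeG_sound parWF r2 pf41543 h41543
  have h41545 := checkRangeG_sound parWF r2 pf41544 h41544
  have h41546 := checkRangeG_sound parWF r2 pf41545 h41545
  have h41547 := checkRangeG_sound parWF r2 pf41546 h41546
  have h41548 := checkRangeG_sound parWF r2 pf41547 h41547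
  have h41549 := checkRangeG_sound parWF r2 pf41548 h41548
  have h41550 := checkRangeG_sound parWF r2 pf41549 h41549
  exact h41550

theorem c831 (h41550 : ∀ j, j < 142343 → GoodG.{u} par (db j)) : ∀ j, j < 142522 → GoodG.{u} par (db j) := by
  have h41551 := checkRangeG_sound parWF r2 pf41550 h41550
  have h41552 := checkRangeG_sound parWF r2 pf41551 h41551
  have h41553 := checkRangeG_sound parWF r2 pf41552 h41552
  have h41554 := checkRangeG_sound parWF r2 pf41553 h41553
  have h41555 := checkRangeG_sound parWF r2 pf41554 h41554
  have h41556 := checkRangeG_sound parWF r2 pf41555 h41555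
  have h41557 := checkRangeG_sound parWF r2 pf41556 h41556
  have h41558 := checkRangeG_sound parWF r2 pf41557 h41557
  have h41559 := checkRangeG_sound parWF r2 pf41558 h41558
  have h41560 := checkRangeG_sound parWF r2 pf41559 h41559
  have h41561 := checkRangeG_sound parWF r2 pf41560 h41560
  have h41562 := checkRangeG_sound parWF r2 pf41561 h41561
  have h41563 := checkRangeG_sound parWF r2 pf41562 h41562
  have h41564 := checkRangeG_sound parWF r2 pf41563 h41563
  have h41565 := checkRangeG_sound parWF r2 pf41564 h41564
  have h41566 := checkRangeG_sound parWF r2 pf41565 h41565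
  have h41567 := checkRangeG_sound parWF r2 pf41566 h41566
  have h41568 := checkRangeG_sound parWF r2 pf41567 h41567
  have h41569 := checkRangeG_sound parWF r2 pf41568 h41568
  have h41570 := checkRangeG_sound parWF r2 pf41569 h41569
  have h41571 := checkRangeG_sound parWF r2 pf41570 h41570
  have h41572 := checkRangeG_sound parWF r2 pf41571 h41571
  have h41573 := checkRangeG_sound parWF r2 pf41572 h41572
  have h41574 := checkRangeG_sound parWF r2 pf41573 h41573
  have h41575 := checkRangeG_sound parWF r2 pf41574 h41574
  have h41576 := checkRangeG_sound parWF r2 pf41575 h41575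
  have h41577 := checkRangeG_sound parWF r2 pf41576 h41576
  have h41578 := checkRangeG_sound parWF r2 pf41577 h41577
  have h41579 := checkRangeG_sound parWF r2 pf41578 h41578
  have h41580 := checkRangeG_sound parWF r2 pf41579 h41579
  have h41581 := checkRangeG_sound parWF r2 pf41580 h41580
  have h41582 := checkRangeG_sound parWF r2 pf41581 h41581
  have h41583 := checkRangeG_sound parWF r2 pf41582 h41582
  have h41584 := checkRangeG_sound parWF r2 pf41583 h41583
  have h41585 := checkRangeG_sound parWF r2 pf41584 h41584
  have h41586 := checkRangeG_sound parWF r2 pf41585 h41585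
  have h41587 := checkRangeG_sound parWF r2 pf41586 h41586
  have h41588 := checkRangeG_sound parWF r2 pf41587 h41587
  have h41589 := checkRangeG_sound parWF r2 pf41588 h41588
  have h41590 := checkRangeG_sound parWF r2 pf41589 h41589
  have h41591 := checkRangeG_sound parWF r2 pf41590 h41590
  have h41592 := checkRangeG_sound parWF r2 pf41591 h41591
  have h41593 := checkRangeG_sound parWF r2 pf41592 h41592
  have h41594 := checkRangeG_sound parWF r2 pf41593 h41593
  have h41595 := checkRangeG_sound parWF r2 pf41594 h41594
  have h41596 := checkRangeG_sound parWF r2 pf41595 h41595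
  have h41597 := checkRangeG_sound parWF r2 pf41596 h41596
  have h41598 := checkRangeG_sound parWF r2 pf41597 h41597
  have h41599 := checkRangeG_sound parWF r2 pf41598 h41598
  have h41600 := checkRangeG_sound parWF r2 pf41599 h41599
  exact h41600

theorem c832 (h41600 : ∀ j, j < 142522 → GoodG.{u} par (db j)) : ∀ j, j < 142707 → GoodG.{u} par (db j) := by
  have h41601 := checkRangeG_sound parWF r2 pf41600 h41600
  have h41602 := checkRangeG_sound parWF r2 pf41601 h41601
  have h41603 := checkRangeG_sound parWF r2 pf41602 h41602
  have h41604 := checkRangeG_sound parWF r2 pf41603 h41603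
  have h41605 := checkRangeG_sound parWF r2 pf41604 h41604
  have h41606 := checkRangeG_sound parWF r2 pf41605 h41605
  have h41607 := checkRangeG_sound parWF r2 pf41606 h41606
  have h41608 := checkRangeG_sound parWF r2 pf41607 h41607
  have h41609 := checkRangeG_sound parWF r2 pf41608 h41608
  have h41610 := checkRangeG_sound parWF r2 pf41609 h41609
  have h41611 := checkRangeG_sound parWF r2 pf41610 h41610
  have h41612 := checkRangeG_sound parWF r2 pf41611 h41611
  have h41613 := checkRangeG_sound parWF r2 pf41612 h41612
  have h41614 := checkRangeG_sound parWF r2 pf41613 h41613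
  have h41615 := checkRangeG_sound parWF r2 pf41614 h41614
  have h41616 := checkRangeG_sound parWF r2 pf41615 h41615
  have h41617 := checkRangeG_sound parWF r2 pf41616 h41616
  have h41618 := checkRangeG_sound parWF r2 pf41617 h41617
  have h41619 := checkRangeG_sound parWF r2 pf41618 h41618
  have h41620 := checkRangeG_sound parWF r2 pf41619 h41619
  have h41621 := checkRangeG_sound parWF r2 pf41620 h41620
  have h41622 := checkRangeG_sound parWF r2 pf41621 h41621
  have h41623 := checkRangeG_sound parWF r2 pf41622 h41622
  have h41624 := checkRangeG_sound parWF r2 pf41623 h41623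
  have h41625 := checkRangeG_sound parWF r2 pf41624 h41624
  have h41626 := checkRangeG_sound parWF r2 pf41625 h41625
  have h41627 := checkRangeG_sound parWF r2 pf41626 h41626
  have h41628 := checkRangeG_sound parWF r2 pf41627 h41627
  have h41629 := checkRangeG_sound parWF r2 pf41628 h41628
  have h41630 := checkRangeG_sound parWF r2 pf41629 h41629
  have h41631 := checkRangeG_sound parWF r2 pf41630 h41630
  have h41632 := checkRangeG_sound parWF r2 pf41631 h41631
  have h41633 := checkRangeG_sound parWF r2 pf41632 h41632
  have h41634 := checkRangeG_sound parWF r2 pf41633 h41633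
  have h41635 := checkRangeG_sound parWF r2 pf41634 h41634
  have h41636 := checkRangeG_sound parWF r2 pf41635 h41635
  have h41637 := checkRangeG_sound parWF r2 pf41636 h41636
  have h41638 := checkRangeG_sound parWF r2 pf41637 h41637
  have h41639 := checkRangeG_sound parWF r2 pf41638 h41638
  have h41640 := checkRangeG_sound parWF r2 pf41639 h41639
  have h41641 := checkRangeG_sound parWF r2 pf41640 h41640
  have h41642 := checkRangeG_sound parWF r2 pf41641 h41641
  have h41643 := checkRangeG_sound parWF r2 pf41642 h41642
  have h41644 := checkRangeG_sound parWF r2 pf41643 h41643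
  have h41645 := checkRangeG_sound parWF r2 pf41644 h41644
  have h41646 := checkRangeG_sound parWF r2 pf41645 h41645
  have h41647 := checkRangeG_sound parWF r2 pf41646 h41646
  have h41648 := checkRangeG_sound parWF r2 pf41647 h41647
  have h41649 := checkRangeG_sound parWF r2 pf41648 h41648
  have h41650 := checkRangeG_sound parWF r2 pf41649 h41649
  exact h41650

theorem c833 (h41650 : ∀ j, j < 142707 → GoodG.{u} par (db j)) : ∀ j, j < 142899 → GoodG.{u} par (db j) := by
  have h41651 := checkRangeG_sound parWF r2 pf41650 h41650
  have h41652 := checkRangeG_sound parWF r2 pf41651 h41651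
  have h41653 := checkRangeG_sound parWF r2 pf41652 h41652
  have h41654 := checkRangeG_sound parWF r2 pf41653 h41653
  have h41655 := checkRangeG_sound parWF r2 pf41654 h41654
  have h41656 := checkRangeG_sound parWF r2 pf41655 h41655
  have h41657 := checkRangeG_sound parWF r2 pf41656 h41656
  have h41658 := checkRangeG_sound parWF r2 pf41657 h41657
  have h41659 := checkRangeG_sound parWF r2 pf41658 h41658
  have h41660 := checkRangeG_sound parWF r2 pf41659 h41659
  have h41661 := checkRangeG_sound parWF r2 pf41660 h41660
  have h41662 := checkRangeG_sound parWF r2 pf41661 h41661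
  have h41663 := checkRangeG_sound parWF r2 pf41662 h41662
  have h41664 := checkRangeG_sound parWF r2 pf41663 h41663
  have h41665 := checkRangeG_sound parWF r2 pf41664 h41664
  have h41666 := checkRangeG_sound parWF r2 pf41665 h41665
  have h41667 := checkRangeG_sound parWF r2 pf41666 h41666
  have h41668 := checkRangeG_sound parWF r2 pf41667 h41667
  have h41669 := checkRangeG_sound parWF r2 pf41668 h41668
  have h41670 := checkRangeG_sound parWF r2 pf41669 h41669
  have h41671 := checkRangeG_sound parWF r2 pf41670 h41670
  have h41672 := checkRangeG_sound parWF r2 pf41671 h41671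
  have h41673 := checkRangeG_sound parWF r2 pf41672 h41672
  have h41674 := checkRangeG_sound parWF r2 pf41673 h41673
  have h41675 := checkRangeG_sound parWF r2 pf41674 h41674
  have h41676 := checkRangeG_sound parWF r2 pf41675 h41675
  have h41677 := checkRangeG_sound parWF r2 pf41676 h41676
  have h41678 := checkRangeG_sound parWF r2 pf41677 h41677
  have h41679 := checkRangeG_sound parWF r2 pf41678 h41678
  have h41680 := checkRangeG_sound parWF r2 pf41679 h41679
  have h41681 := checkRangeG_sound parWF r2 pf41680 h41680
  have h41682 := checkRangeG_sound parWF r2 pf41681 h41681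
  have h41683 := checkRangeG_sound parWF r2 pf41682 h41682
  have h41684 := checkRangeG_sound parWF r2 pf41683 h41683
  have h41685 := checkRangeG_sound parWF r2 pf41684 h41684
  have h41686 := checkRangeG_sound parWF r2 pf41685 h41685
  have h41687 := checkRangeG_sound parWF r2 pf41686 h41686
  have h41688 := checkRangeG_sound parWF r2 pf41687 h41687
  have h41689 := checkRangeG_sound parWF r2 pf41688 h41688
  have h41690 := checkRangeG_sound parWF r2 pf41689 h41689
  have h41691 := checkRangeG_sound parWF r2 pf41690 h41690
  have h41692 := checkRangeG_sound parWF r2 pf41691 h41691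
  have h41693 := checkRangeG_sound parWF r2 pf41692 h41692
  have h41694 := checkRangeG_sound parWF r2 pf41693 h41693
  have h41695 := checkRangeG_sound parWF r2 pf41694 h41694
  have h41696 := checkRangeG_sound parWF r2 pf41695 h41695
  have h41697 := checkRangeG_sound parWF r2 pf41696 h41696
  have h41698 := checkRangeG_sound parWF r2 pf41697 h41697
  have h41699 := checkRangeG_sound parWF r2 pf41698 h41698
  have h41700 := checkRangeG_sound parWF r2 pf41699 h41699
  exact h41700

theorem c834 (h41700 : ∀ j, j < 142899 → GoodG.{u} par (db j)) : ∀ j, j < 143086 → GoodG.{u} par (db j) := by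
  have h41701 := checkRangeG_sound parWF r2 pf41700 h41700
  have h41702 := checkRangeG_sound parWF r2 pf41701 h41701
  have h41703 := checkRangeG_sound parWF r2 pf41702 h41702
  have h41704 := checkRangeG_sound parWF r2 pf41703 h41703
  have h41705 := checkRangeG_sound parWF r2 pf41704 h41704
  have h41706 := checkRangeG_sound parWF r2 pf41705 h41705
  have h41707 := checkRangeG_sound parWF r2 pf41706 h41706
  have h41708 := checkRangeG_sound parWF r2 pf41707 h41707
  have h41709 := checkRangeG_sound parWF r2 pf41708 h41708
  have h41710 := checkRangeG_sound parWF r2 pf41709 h41709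
  have h41711 := checkRangeG_sound parWF r2 pf41710 h41710
  have h41712 := checkRangeG_sound parWF r2 pf41711 h41711
  have h41713 := checkRangeG_sound parWF r2 pf41712 h41712
  have h41714 := checkRangeG_sound parWF r2 pf41713 h41713
  have h41715 := checkRangeG_sound parWF r2 pf41714 h41714
  have h41716 := checkRangeG_sound parWF r2 pf41715 h41715
  have h41717 := checkRangeG_sound parWF r2 pf41716 h41716
  have h41718 := checkRangeG_sound parWF r2 pf41717 h41717
  have h41719 := checkRangeG_sound parWF r2 pf41718 h41718
  have h41720 := checkRangeG_sound parWF r2 pf41719 h41719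
  have h41721 := checkRangeG_sound parWF r2 pf41720 h41720
  have h41722 := checkRangeG_sound parWF r2 pf41721 h41721
  have h41723 := checkRangeG_sound parWF r2 pf41722 h41722
  have h41724 := checkRangeG_sound parWF r2 pf41723 h41723
  have h41725 := checkRangeG_sound parWF r2 pf41724 h41724
  have h41726 := checkRangeG_sound parWF r2 pf41725 h41725
  have h41727 := checkRangeG_sound parWF r2 pf41726 h41726
  have h41728 := checkRangeG_sound parWF r2 pf41727 h41727
  have h41729 := checkRangeG_sound parWF r2 pf41728 h41728
  have h41730 := checkRangeG_sound parWF r2 pf41729 h41729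
  have h41731 := checkRangeG_sound parWF r2 pf41730 h41730
  have h41732 := checkRangeG_sound parWF r2 pf41731 h41731
  have h41733 := checkRangeG_sound parWF r2 pf41732 h41732
  have h41734 := checkRangeG_sound parWF r2 pf41733 h41733
  have h41735 := checkRangeG_sound parWF r2 pf41734 h41734
  have h41736 := checkRangeG_sound parWF r2 pf41735 h41735
  have h41737 := checkRangeG_sound parWF r2 pf41736 h41736
  have h41738 := checkRangeG_sound parWF r2 pf41737 h41737
  have h41739 := checkRangeG_sound parWF r2 pf41738 h41738
  have h41740 := checkRangeG_sound parWF r2 pf41739 h41739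
  have h41741 := checkRangeG_sound parWF r2 pf41740 h41740
  have h41742 := checkRangeG_sound parWF r2 pf41741 h41741
  have h41743 := checkRangeG_sound parWF r2 pf41742 h41742
  have h41744 := checkRangeG_sound parWF r2 pf41743 h41743
  have h41745 := checkRangeG_sound parWF r2 pf41744 h41744
  have h41746 := checkRangeG_sound parWF r2 pf41745 h41745
  have h41747 := checkRangeG_sound parWF r2 pf41746 h41746
  have h41748 := checkRangeG_sound parWF r2 pf41747 h41747
  have h41749 := checkRangeG_sound parWF r2 pf41748 h41748
  have h41750 := checkRangeG_sound parWF r2 pf41749 h41749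
  exact h41750

theorem c835 (h41750 : ∀ j, j < 143086 → GoodG.{u} par (db j)) : ∀ j, j < 143284 → GoodG.{u} par (db j) := by
  have h41751 := checkRangeG_sound parWF r2 pf41750 h41750
  have h41752 := checkRangeG_sound parWF r2 pf41751 h41751
  have h41753 := checkRangeG_sound parWF r2 pf41752 h41752
  have h41754 := checkRangeG_sound parWF r2 pf41753 h41753
  have h41755 := checkRangeG_sound parWF r2 pf41754 h41754
  have h41756 := checkRangeG_sound parWF r2 pf41755 h41755
  have h41757 := checkRangeG_sound parWF r2 pf41756 h41756
  have h41758 := checkRangeG_sound parWF r2 pf41757 h41757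
  have h41759 := checkRangeG_sound parWF r2 pf41758 h41758
  have h41760 := checkRangeG_sound parWF r2 pf41759 h41759
  have h41761 := checkRangeG_sound parWF r2 pf41760 h41760
  have h41762 := checkRangeG_sound parWF r2 pf41761 h41761
  have h41763 := checkRangeG_sound parWF r2 pf41762 h41762
  have h41764 := checkRangeG_sound parWF r2 pf41763 h41763
  have h41765 := checkRangeG_sound parWF r2 pf41764 h41764
  have h41766 := checkRangeG_sound parWF r2 pf41765 h41765
  have h41767 := checkRangeG_sound parWF r2 pf41766 h41766
  have h41768 := checkRangeG_sound parWF r2 pf41767 h41767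
  have h41769 := checkRangeG_sound parWF r2 pf41768 h41768
  have h41770 := checkRangeG_sound parWF r2 pf41769 h41769
  have h41771 := checkRangeG_sound parWF r2 pf41770 h41770
  have h41772 := checkRangeG_sound parWF r2 pf41771 h41771
  have h41773 := checkRangeG_sound parWF r2 pf41772 h41772
  have h41774 := checkRangeG_sound parWF r2 pf41773 h41773
  have h41775 := checkRangeG_sound parWF r2 pf41774 h41774
  have h41776 := checkRangeG_sound parWF r2 pf41775 h41775
  have h41777 := checkRangeG_sound parWF r2 pf41776 h41776
  have h41778 := checkRangeG_sound parWF r2 pf41777 h41777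
  have h41779 := checkRangeG_sound parWF r2 pf41778 h41778
  have h41780 := checkRangeG_sound parWF r2 pf41779 h41779
  have h41781 := checkRangeG_sound parWF r2 pf41780 h41780
  have h41782 := checkRangeG_sound parWF r2 pf41781 h41781
  have h41783 := checkRangeG_sound parWF r2 pf41782 h41782
  have h41784 := checkRangeG_sound parWF r2 pf41783 h41783
  have h41785 := checkRangeG_sound parWF r2 pf41784 h41784
  have h41786 := checkRangeG_sound parWF r2 pf41785 h41785
  have h41787 := checkRangeG_sound parWF r2 pf41786 h41786
  have h41788 := checkRangeG_sound parWF r2 pf41787 h41787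
  have h41789 := checkRangeG_sound parWF r2 pf41788 h41788
  have h41790 := checkRangeG_sound parWF r2 pf41789 h41789
  have h41791 := checkRangeG_sound parWF r2 pf41790 h41790
  have h41792 := checkRangeG_sound parWF r2 pf41791 h41791
  have h41793 := checkRangeG_sound parWF r2 pf41792 h41792
  have h41794 := checkRangeG_sound parWF r2 pf41793 h41793
  have h41795 := checkRangeG_sound parWF r2 pf41794 h41794
  have h41796 := checkRangeG_sound parWF r2 pf41795 h41795
  have h41797 := checkRangeG_sound parWF r2 pf41796 h41796
  have h41798 := checkRangeG_sound parWF r2 pf41797 h41797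
  have h41799 := checkRangeG_sound parWF r2 pf41798 h41798
  have h41800 := checkRangeG_sound parWF r2 pf41799 h41799
  exact h41800

theorem c836 (h41800 : ∀ j, j < 143284 → GoodG.{u} par (db j)) : ∀ j, j < 143464 → GoodG.{u} par (db j) := by
  have h41801 := checkRangeG_sound parWF r2 pf41800 h41800
  have h41802 := checkRangeG_sound parWF r2 pf41801 h41801
  have h41803 := checkRangeG_sound parWF r2 pf41802 h41802
  have h41804 := checkRangeG_sound parWF r2 pf41803 h41803
  have h41805 := checkRangeG_sound parWF r2 pf41804 h41804
  have h41806 := checkRangeG_sound parWF r2 pf41805 h41805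
  have h41807 := checkRangeG_sound parWF r2 pf41806 h41806
  have h41808 := checkRangeG_sound parWF r2 pf41807 h41807
  have h41809 := checkRangeG_sound parWF r2 pf41808 h41808
  have h41810 := checkRangeG_sound parWF r2 pf41809 h41809
  have h41811 := checkRangeG_sound parWF r2 pf41810 h41810
  have h41812 := checkRangeG_sound parWF r2 pf41811 h41811
  have h41813 := checkRangeG_sound parWF r2 pf41812 h41812
  have h41814 := checkRangeG_sound parWF r2 pf41813 h41813
  have h41815 := checkRangeG_sound parWF r2 pf41814 h41814
  have h41816 := checkRangeG_sound parWF r2 pf41815 h41815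
  have h41817 := checkRangeG_sound parWF r2 pf41816 h41816
  have h41818 := checkRangeG_sound parWF r2 pf41817 h41817
  have h41819 := checkRangeG_sound parWF r2 pf41818 h41818
  have h41820 := checkRangeG_sound parWF r2 pf41819 h41819
  have h41821 := checkRangeG_sound parWF r2 pf41820 h41820
  have h41822 := checkRangeG_sound parWF r2 pf41821 h41821
  have h41823 := checkRangeG_sound parWF r2 pf41822 h41822
  have h41824 := checkRangeG_sound parWF r2 pf41823 h41823
  have h41825 := checkRangeG_sound parWF r2 pf41824 h41824
  have h41826 := checkRangeG_sound parWF r2 pf41825 h41825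
  have h41827 := checkRangeG_sound parWF r2 pf41826 h41826
  have h41828 := checkRangeG_sound parWF r2 pf41827 h41827
  have h41829 := checkRangeG_sound parWF r2 pf41828 h41828
  have h41830 := checkRangeG_sound parWF r2 pf41829 h41829
  have h41831 := checkRangeG_sound parWF r2 pf41830 h41830
  have h41832 := checkRangeG_sound parWF r2 pf41831 h41831
  have h41833 := checkRangeG_sound parWF r2 pf41832 h41832
  have h41834 := checkRangeG_sound parWF r2 pf41833 h41833
  have h41835 := checkRangeG_sound parWF r2 pf41834 h41834
  have h41836 := checkRangeG_sound parWF r2 pf41835 h41835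
  have h41837 := checkRangeG_sound parWF r2 pf41836 h41836
  have h41838 := checkRangeG_sound parWF r2 pf41837 h41837
  have h41839 := checkRangeG_sound parWF r2 pf41838 h41838
  have h41840 := checkRangeG_sound parWF r2 pf41839 h41839
  have h41841 := checkRangeG_sound parWF r2 pf41840 h41840
  have h41842 := checkRangeG_sound parWF r2 pf41841 h41841
  have h41843 := checkRangeG_sound parWF r2 pf41842 h41842
  have h41844 := checkRangeG_sound parWF r2 pf41843 h41843
  have h41845 := checkRangeG_sound parWF r2 pf41844 h41844
  have h41846 := checkRangeG_sound parWF r2 pf41845 h41845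
  have h41847 := checkRangeG_sound parWF r2 pf41846 h41846
  have h41848 := checkRangeG_sound parWF r2 pf41847 h41847
  have h41849 := checkRangeG_sound parWF r2 pf41848 h41848
  have h41850 := checkRangeG_sound parWF r2 pf41849 h41849
  exact h41850

theorem c837 (h41850 : ∀ j, j < 143464 → GoodG.{u} par (db j)) : ∀ j, j < 143646 → GoodG.{u} par (db j) := by
  have h41851 := checkRangeG_sound parWF r2 pf41850 h41850
  have h41852 := checkRangeG_sound parWF r2 pf41851 h41851
  have h41853 := checkRangeG_sound parWF r2 pf41852 h41852
  have h41854 := checkRangeG_sound parWF r2 pf41853 h41853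
  have h41855 := checkRangeG_sound parWF r2 pf41854 h41854
  have h41856 := checkRangeG_sound parWF r2 pf41855 h41855
  have h41857 := checkRangeG_sound parWF r2 pf41856 h41856
  have h41858 := checkRangeG_sound parWF r2 pf41857 h41857
  have h41859 := checkRangeG_sound parWF r2 pf41858 h41858
  have h41860 := checkRangeG_sound parWF r2 pf41859 h41859
  have h41861 := checkRangeG_sound parWF r2 pf41860 h41860
  have h41862 := checkRangeG_sound parWF r2 pf41861 h41861
  have h41863 := checkRangeG_sound parWF r2 pf41862 h41862
  have h41864 := checkRangeG_sound parWF r2 pf41863 h41863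
  have h41865 := checkRangeG_sound parWF r2 pf41864 h41864
  have h41866 := checkRangeG_sound parWF r2 pf41865 h41865
  have h41867 := checkRangeG_sound parWF r2 pf41866 h41866
  have h41868 := checkRangeG_sound parWF r2 pf41867 h41867
  have h41869 := checkRangeG_sound parWF r2 pf41868 h41868
  have h41870 := checkRangeG_sound parWF r2 pf41869 h41869
  have h41871 := checkRangeG_sound parWF r2 pf41870 h41870
  have h41872 := checkRangeG_sound parWF r2 pf41871 h41871
  have h41873 := checkRangeG_sound parWF r2 pf41872 h41872
  have h41874 := checkRangeG_sound parWF r2 pf41873 h41873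
  have h41875 := checkRangeG_sound parWF r2 pf41874 h41874
  have h41876 := checkRangeG_sound parWF r2 pf41875 h41875
  have h41877 := checkRangeG_sound parWF r2 pf41876 h41876
  have h41878 := checkRangeG_sound parWF r2 pf41877 h41877
  have h41879 := checkRangeG_sound parWF r2 pf41878 h41878
  have h41880 := checkRangeG_sound parWF r2 pf41879 h41879
  have h41881 := checkRangeG_sound parWF r2 pf41880 h41880
  have h41882 := checkRangeG_sound parWF r2 pf41881 h41881
  have h41883 := checkRangeG_sound parWF r2 pf41882 h41882
  have h41884 := checkRangeG_sound parWF r2 pf41883 h41883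
  have h41885 := checkRangeG_sound parWF r2 pf41884 h41884
  have h41886 := checkRangeG_sound parWF r2 pf41885 h41885
  have h41887 := checkRangeG_sound parWF r2 pf41886 h41886
  have h41888 := checkRangeG_sound parWF r2 pf41887 h41887
  have h41889 := checkRangeG_sound parWF r2 pf41888 h41888
  have h41890 := checkRangeG_sound parWF r2 pf41889 h41889
  have h41891 := checkRangeG_sound parWF r2 pf41890 h41890
  have h41892 := checkRangeG_sound parWF r2 pf41891 h41891
  have h41893 := checkRangeG_sound parWF r2 pf41892 h41892
  have h41894 := checkRangeG_sound parWF r2 pf41893 h41893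
  have h41895 := checkRangeG_sound parWF r2 pf41894 h41894
  have h41896 := checkRangeG_sound parWF r2 pf41895 h41895
  have h41897 := checkRangeG_sound parWF r2 pf41896 h41896
  have h41898 := checkRangeG_sound parWF r2 pf41897 h41897
  have h41899 := checkRangeG_sound parWF r2 pf41898 h41898
  have h41900 := checkRangeG_sound parWF r2 pf41899 h41899
  exact h41900

theorem c838 (h41900 : ∀ j, j < 143646 → GoodG.{u} par (db j)) : ∀ j, j < 143844 → GoodG.{u} par (db j) := by
  have h41901 := checkRangeG_sound parWF r2 pf41900 h41900
  have h41902 := checkRangeG_sound parWF r2 pf41901 h41901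
  have h41903 := checkRangeG_sound parWF r2 pf41902 h41902
  have h41904 := checkRangeG_sound parWF r2 pf41903 h41903
  have h41905 := checkRangeG_sound parWF r2 pf41904 h41904
  have h41906 := checkRangeG_sound parWF r2 pf41905 h41905
  have h41907 := checkRangeG_sound parWF r2 pf41906 h41906
  have h41908 := checkRangeG_sound parWF r2 pf41907 h41907
  have h41909 := checkRangeG_sound parWF r2 pf41908 h41908
  have h41910 := checkRangeG_sound parWF r2 pf41909 h41909
  have h41911 := checkRangeG_sound parWF r2 pf41910 h41910
  have h41912 := checkRangeG_sound parWF r2 pf41911 h41911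
  have h41913 := checkRangeG_sound parWF r2 pf41912 h41912
  have h41914 := checkRangeG_sound parWF r2 pf41913 h41913
  have h41915 := checkRangeG_sound parWF r2 pf41914 h41914
  have h41916 := checkRangeG_sound parWF r2 pf41915 h41915
  have h41917 := checkRangeG_sound parWF r2 pf41916 h41916
  have h41918 := checkRangeG_sound parWF r2 pf41917 h41917
  have h41919 := checkRangeG_sound parWF r2 pf41918 h41918
  have h41920 := checkRangeG_sound parWF r2 pf41919 h41919
  have h41921 := checkRangeG_sound parWF r2 pf41920 h41920
  have h41922 := checkRangeG_sound parWF r2 pf41921 h41921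
  have h41923 := checkRangeG_sound parWF r2 pf41922 h41922
  have h41924 := checkRangeG_sound parWF r2 pf41923 h41923
  have h41925 := checkRangeG_sound parWF r2 pf41924 h41924
  have h41926 := checkRangeG_sound parWF r2 pf41925 h41925
  have h41927 := checkRangeG_sound parWF r2 pf41926 h41926
  have h41928 := checkRangeG_sound parWF r2 pf41927 h41927
  have h41929 := checkRangeG_sound parWF r2 pf41928 h41928
  have h41930 := checkRangeG_sound parWF r2 pf41929 h41929
  have h41931 := checkRangeG_sound parWF r2 pf41930 h41930
  have h41932 := checkRangeG_sound parWF r2 pf41931 h41931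
  have h41933 := checkRangeG_sound parWF r2 pf41932 h41932
  have h41934 := checkRangeG_sound parWF r2 pf41933 h41933
  have h41935 := checkRangeG_sound parWF r2 pf41934 h41934
  have h41936 := checkRangeG_sound parWF r2 pf41935 h41935
  have h41937 := checkRangeG_sound parWF r2 pf41936 h41936
  have h41938 := checkRangeG_sound parWF r2 pf41937 h41937
  have h41939 := checkRangeG_sound parWF r2 pf41938 h41938
  have h41940 := checkRangeG_sound parWF r2 pf41939 h41939
  have h41941 := checkRangeG_sound parWF r2 pf41940 h41940
  have h41942 := checkRangeG_sound parWF r2 pf41941 h41941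
  have h41943 := checkRangeG_sound parWF r2 pf41942 h41942
  have h41944 := checkRangeG_sound parWF r2 pf41943 h41943
  have h41945 := checkRangeG_sound parWF r2 pf41944 h41944
  have h41946 := checkRangeG_sound parWF r2 pf41945 h41945
  have h41947 := checkRangeG_sound parWF r2 pf41946 h41946
  have h41948 := checkRangeG_sound parWF r2 pf41947 h41947
  have h41949 := checkRangeG_sound parWF r2 pf41948 h41948
  have h41950 := checkRangeG_sound parWF r2 pf41949 h41949
  exact h41950

theorem c839 (h41950 : ∀ j, j < 143844 → GoodG.{u} par (db j)) : ∀ j, j < 144052 → GoodG.{u} par (db j) := by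
  have h41951 := checkRangeG_sound parWF r2 pf41950 h41950
  have h41952 := checkRangeG_sound parWF r2 pf41951 h41951
  have h41953 := checkRangeG_sound parWF r2 pf41952 h41952
  have h41954 := checkRangeG_sound parWF r2 pf41953 h41953
  have h41955 := checkRangeG_sound parWF r2 pf41954 h41954
  have h41956 := checkRangeG_sound parWF r2 pf41955 h41955
  have h41957 := checkRangeG_sound parWF r2 pf41956 h41956
  have h41958 := checkRangeG_sound parWF r2 pf41957 h41957
  have h41959 := checkRangeG_sound parWF r2 pf41958 h41958
  have h41960 := checkRangeG_sound parWF r2 pf41959 h41959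
  have h41961 := checkRangeG_sound parWF r2 pf41960 h41960
  have h41962 := checkRangeG_sound parWF r2 pf41961 h41961
  have h41963 := checkRangeG_sound parWF r2 pf41962 h41962
  have h41964 := checkRangeG_sound parWF r2 pf41963 h41963
  have h41965 := checkRangeG_sound parWF r2 pf41964 h41964
  have h41966 := checkRangeG_sound parWF r2 pf41965 h41965
  have h41967 := checkRangeG_sound parWF r2 pf41966 h41966
  have h41968 := checkRangeG_sound parWF r2 pf41967 h41967
  have h41969 := checkRangeG_sound parWF r2 pf41968 h41968
  have h41970 := checkRangeG_sound parWF r2 pf41969 h41969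
  have h41971 := checkRangeG_sound parWF r2 pf41970 h41970
  have h41972 := checkRangeG_sound parWF r2 pf41971 h41971
  have h41973 := checkRangeG_sound parWF r2 pf41972 h41972
  have h41974 := checkRangeG_sound parWF r2 pf41973 h41973
  have h41975 := checkRangeG_sound parWF r2 pf41974 h41974
  have h41976 := checkRangeG_sound parWF r2 pf41975 h41975
  have h41977 := checkRangeG_sound parWF r2 pf41976 h41976
  have h41978 := checkRangeG_sound parWF r2 pf41977 h41977
  have h41979 := checkRangeG_sound parWF r2 pf41978 h41978
  have h41980 := checkRangeG_sound parWF r2 pf41979 h41979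
  have h41981 := checkRangeG_sound parWF r2 pf41980 h41980
  have h41982 := checkRangeG_sound parWF r2 pf41981 h41981
  have h41983 := checkRangeG_sound parWF r2 pf41982 h41982
  have h41984 := checkRangeG_sound parWF r2 pf41983 h41983
  have h41985 := checkRangeG_sound parWF r2 pf41984 h41984
  have h41986 := checkRangeG_sound parWF r2 pf41985 h41985
  have h41987 := checkRangeG_sound parWF r2 pf41986 h41986
  have h41988 := checkRangeG_sound parWF r2 pf41987 h41987
  have h41989 := checkRangeG_sound parWF r2 pf41988 h41988
  have h41990 := checkRangeG_sound parWF r2 pf41989 h41989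
  have h41991 := checkRangeG_sound parWF r2 pf41990 h41990
  have h41992 := checkRangeG_sound parWF r2 pf41991 h41991
  have h41993 := checkRangeG_sound parWF r2 pf41992 h41992
  have h41994 := checkRangeG_sound parWF r2 pf41993 h41993
  have h41995 := checkRangeG_sound parWF r2 pf41994 h41994
  have h41996 := checkRangeG_sound parWF r2 pf41995 h41995
  have h41997 := checkRangeG_sound parWF r2 pf41996 h41996
  have h41998 := checkRangeG_sound parWF r2 pf41997 h41997
  have h41999 := checkRangeG_sound parWF r2 pf41998 h41998
  have h42000 := checkRangeG_sound parWF r2 pf41999 h41999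
  exact h42000


end Vale.Agent.P045g.C61
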