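import Vale.Agent.P045g.C61.WF
import Vale.Agent.P045g.C61.Pf70
import Vale.Agent.P045g.C61.Pf71
import Vale.Agent.P045g.C61.Pf72
import Vale.Agent.P045g.C61.Pf73
import Vale.Agent.P045g.C61.Pf74
import Vale.Agent.P045g.C61.Pf75
import Vale.Agent.P045g.C61.Pf76
import Vale.Agent.P045g.C61.Pf77
import Vale.Agent.P045g.C61.Pf78
import Vale.Agent.P045g.C61.Pf79

namespace Vale.Agent.P045g.C61

open Vale.Agent.P045b Vale.Agent.P045g

universe u

theorem c84 (h4200 : ∀ j, j < 12134 → GoodG.{u} par (db j)) : ∀ j, j < 12278 → GoodG.{u} par (db j) := by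
  have h4201 := checkRangeG_sound parWF r2 pf4200 h4200
  have h4202 := checkRangeG_sound parWF r2 pf4201 h4201
  have h4203 := checkRangeG_sound parWF r2 pf4202 h4202
  have h4204 := checkRangeG_sound parWF r2 pf4203 h4203
  have h4205 := checkRangeG_sound parWF r2 pf4204 h4204
  have h4206 := checkRangeG_sound parWF r2 pf4205 h4205
  have h4207 := checkRangeG_sound parWF r2 pf4206 h4206
  have h4208 := checkRangeG_sound parWF r2 pf4207 h4207
  have h4209 := checkRangeG_sound parWF r2 pf4208 h4208
  have h4210 := checkRangeG_sound parWF r2 pf4209 h4209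
  have h4211 := checkRangeG_sound parWF r2 pf4210 h4210
  have h4212 := checkRangeG_sound parWF r2 pf4211 h4211
  have h4213 := checkRangeG_sound parWF r2 pf4212 h4212
  have h4214 := checkRangeG_sound parWF r2 pf4213 h4213
  have h4215 := checkRangeG_sound parWF r2 pf4214 h4214
  have h4216 := checkRangeG_sound parWF r2 pf4215 h4215
  have h4217 := checkRangeG_sound parWF r2 pf4216 h4216
  have h4218 := checkRangeG_sound parWF r2 pf4217 h4217
  have h4219 := checkRangeG_sound parWF r2 pf4218 h4218
  have h4220 := checkRangeG_sound parWF r2 pf4219 h4219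
  have h4221 := checkRangeG_sound parWF r2 pf4220 h4220
  have h4222 := checkRangeG_sound parWF r2 pf4221 h4221
  have h4223 := checkRangeG_sound parWF r2 pf4222 h4222
  have h4224 := checkRangeG_sound parWF r2 pf4223 h4223
  have h4225 := checkRangeG_sound parWF r2 pf4224 h4224
  have h4226 := checkRangeG_sound parWF r2 pf4225 h4225
  have h4227 := checkRangeG_sound parWF r2 pf4226 h4226
  have h4228 := checkRangeG_sound parWF r2 pf4227 h4227
  have h4229 := checkRangeG_sound parWF r2 pf4228 h4228
  have h4230 := checkRangeG_sound parWF r2 pf4229 h4229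
  have h4231 := checkRangeG_sound parWF r2 pf4230 h4230
  have h4232 := checkRangeG_sound parWF r2 pf4231 h4231
  have h4233 := checkRangeG_sound parWF r2 pf4232 h4232
  have h4234 := checkRangeG_sound parWF r2 pf4233 h4233
  have h4235 := checkRangeG_sound parWF r2 pf4234 h4234
  have h4236 := checkRangeG_sound parWF r2 pf4235 h4235
  have h4237 := checkRangeG_sound parWF r2 pf4236 h4236
  have h4238 := checkRangeG_sound parWF r2 pf4237 h4237
  have h4239 := checkRangeG_sound parWF r2 pf4238 h4238
  have h4240 := checkRangeG_sound parWF r2 pf4239 h4239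
  have h4241 := checkRangeG_sound parWF r2 pf4240 h4240
  have h4242 := checkRangeG_sound parWF r2 pf4241 h4241
  have h4243 := checkRangeG_sound parWF r2 pf4242 h4242
  have h4244 := checkRangeG_sound parWF r2 pf4243 h4243
  have h4245 := checkRangeG_sound parWF r2 pf4244 h4244
  have h4246 := checkRangeG_sound parWF r2 pf4245 h4245
  have h4247 := checkRangeG_sound parWF r2 pf4246 h4246
  have h4248 := checkRangeG_sound parWF r2 pf4247 h4247
  have h4249 := checkRangeG_sound parWF r2 pf4248 h4248
  have h4250 := checkRangeG_sound parWF r2 pf4249 h4249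
  exact h4250

theorem c85 (h4250 : ∀ j, j < 12278 → GoodG.{u} par (db j)) : ∀ j, j < 12444 → GoodG.{u} par (db j) := by
  have h4251 := checkRangeG_sound parWF r2 pf4250 h4250
  have h4252 := checkRangeG_sound parWF r2 pf4251 h4251
  have h4253 := checkRangeG_sound parWF r2 pf4252 h4252
  have h4254 := checkRangeG_sound parWF r2 pf4253 h4253
  have h4255 := checkRangeG_sound parWF r2 pf4254 h4254
  have h4256 := checkRangeG_sound parWF r2 pf4255 h4255
  have h4257 := checkRangeG_sound parWF r2 pf4256 h4256
  have h4258 := checkRangeG_sound parWF r2 pf4257 h4257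
  have h4259 := checkRangeG_sound parWF r2 pf4258 h4258
  have h4260 := checkRangeG_sound parWF r2 pf4259 h4259
  have h4261 := checkRangeG_sound parWF r2 pf4260 h4260
  have h4262 := checkRangeG_sound parWF r2 pf4261 h4261
  have h4263 := checkRangeG_sound parWF r2 pf4262 h4262
  have h4264 := checkRangeG_sound parWF r2 pf4263 h4263
  have h4265 := checkRangeG_sound parWF r2 pf4264 h4264
  have h4266 := checkRangeG_sound parWF r2 pf4265 h4265
  have h4267 := checkRangeG_sound parWF r2 pf4266 h4266
  have h4268 := checkRangeG_sound parWF r2 pf4267 h4267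
  have h4269 := checkRangeG_sound parWF r2 pf4268 h4268
  have h4270 := checkRangeG_sound parWF r2 pf4269 h4269
  have h4271 := checkRangeG_sound parWF r2 pf4270 h4270
  have h4272 := checkRangeG_sound parWF r2 pf4271 h4271
  have h4273 := checkRangeG_sound parWF r2 pf4272 h4272
  have h4274 := checkRangeG_sound parWF r2 pf4273 h4273
  have h4275 := checkRangeG_sound parWF r2 pf4274 h4274
  have h4276 := checkRangeG_sound parWF r2 pf4275 h4275
  have h4277 := checkRangeG_sound parWF r2 pf4276 h4276
  have h4278 := checkRangeG_sound parWF r2 pf4277 h4277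
  have h4279 := checkRangeG_sound parWF r2 pf4278 h4278
  have h4280 := checkRangeG_sound parWF r2 pf4279 h4279
  have h4281 := checkRangeG_sound parWF r2 pf4280 h4280
  have h4282 := checkRangeG_sound parWF r2 pf4281 h4281
  have h4283 := checkRangeG_sound parWF r2 pf4282 h4282
  have h4284 := checkRangeG_sound parWF r2 pf4283 h4283
  have h4285 := checkRangeG_sound parWF r2 pf4284 h4284
  have h4286 := checkRangeG_sound parWF r2 pf4285 h4285
  have h4287 := checkRangeG_sound parWF r2 pf4286 h4286
  have h4288 := checkRangeG_sound parWF r2 pf4287 h4287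
  have h4289 := checkRangeG_sound parWF r2 pf4288 h4288
  have h4290 := checkRangeG_sound parWF r2 pf4289 h4289
  have h4291 := checkRangeG_sound parWF r2 pf4290 h4290
  have h4292 := checkRangeG_sound parWF r2 pf4291 h4291
  have h4293 := checkRangeG_sound parWF r2 pf4292 h4292
  have h4294 := checkRangeG_sound parWF r2 pf4293 h4293
  have h4295 := checkRangeG_sound parWF r2 pf4294 h4294
  have h4296 := checkRangeG_sound parWF r2 pf4295 h4295
  have h4297 := checkRangeG_sound parWF r2 pf4296 h4296
  have h4298 := checkRangeG_sound parWF r2 pf4297 h4297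
  have h4299 := checkRangeG_sound parWF r2 pf4298 h4298
  have h4300 := checkRangeG_sound parWF r2 pf4299 h4299
  exact h4300

theorem c86 (h4300 : ∀ j, j < 12444 → GoodG.{u} par (db j)) : ∀ j, j < 12606 → GoodG.{u} par (db j) := by
  have h4301 := checkRangeG_sound parWF r2 pf4300 h4300
  have h4302 := checkRangeG_sound parWF r2 pf4301 h4301
  have h4303 := checkRangeG_sound parWF r2 pf4302 h4302
  have h4304 := checkRangeG_sound parWF r2 pf4303 h4303
  have h4305 := checkRangeG_sound parWF r2 pf4304 h4304
  have h4306 := checkRangeG_sound parWF r2 pf4305 h4305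
  have h4307 := checkRangeG_sound parWF r2 pf4306 h4306
  have h4308 := checkRangeG_sound parWF r2 pf4307 h4307
  have h4309 := checkRangeG_sound parWF r2 pf4308 h4308
  have h4310 := checkRangeG_sound parWF r2 pf4309 h4309
  have h4311 := checkRangeG_sound parWF r2 pf4310 h4310
  have h4312 := checkRangeG_sound parWF r2 pf4311 h4311
  have h4313 := checkRangeG_sound parWF r2 pf4312 h4312
  have h4314 := checkRangeG_sound parWF r2 pf4313 h4313
  have h4315 := checkRangeG_sound parWF r2 pf4314 h4314
  have h4316 := checkRangeG_sound parWF r2 pf4315 h4315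
  have h4317 := checkRangeG_sound parWF r2 pf4316 h4316
  have h4318 := checkRangeG_sound parWF r2 pf4317 h4317
  have h4319 := checkRangeG_sound parWF r2 pf4318 h4318
  have h4320 := checkRangeG_sound parWF r2 pf4319 h4319
  have h4321 := checkRangeG_sound parWF r2 pf4320 h4320
  have h4322 := checkRangeG_sound parWF r2 pf4321 h4321
  have h4323 := checkRangeG_sound parWF r2 pf4322 h4322
  have h4324 := checkRangeG_sound parWF r2 pf4323 h4323
  have h4325 := checkRangeG_sound parWF r2 pf4324 h4324
  have h4326 := checkRangeG_sound parWF r2 pf4325 h4325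
  have h4327 := checkRangeG_sound parWF r2 pf4326 h4326
  have h4328 := checkRangeG_sound parWF r2 pf4327 h4327
  have h4329 := checkRangeG_sound parWF r2 pf4328 h4328
  have h4330 := checkRangeG_sound parWF r2 pf4329 h4329
  have h4331 := checkRangeG_sound parWF r2 pf4330 h4330
  have h4332 := checkRangeG_sound parWF r2 pf4331 h4331
  have h4333 := checkRangeG_sound parWF r2 pf4332 h4332
  have h4334 := checkRangeG_sound parWF r2 pf4333 h4333
  have h4335 := checkRangeG_sound parWF r2 pf4334 h4334
  have h4336 := checkRangeG_sound parWF r2 pf4335 h4335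
  have h4337 := checkRangeG_sound parWF r2 pf4336 h4336
  have h4338 := checkRangeG_sound parWF r2 pf4337 h4337
  have h4339 := checkRangeG_sound parWF r2 pf4338 h4338
  have h4340 := checkRangeG_sound parWF r2 pf4339 h4339
  have h4341 := checkRangeG_sound parWF r2 pf4340 h4340
  have h4342 := checkRangeG_sound parWF r2 pf4341 h4341
  have h4343 := checkRangeG_sound parWF r2 pf4342 h4342
  have h4344 := checkRangeG_sound parWF r2 pf4343 h4343
  have h4345 := checkRangeG_sound parWF r2 pf4344 h4344
  have h4346 := checkRangeG_sound parWF r2 pf4345 h4345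
  have h4347 := checkRangeG_sound parWF r2 pf4346 h4346
  have h4348 := checkRangeG_sound parWF r2 pf4347 h4347
  have h4349 := checkRangeG_sound parWF r2 pf4348 h4348
  have h4350 := checkRangeG_sound parWF r2 pf4349 h4349
  exact h4350

theorem c87 (h4350 : ∀ j, j < 12606 → GoodG.{u} par (db j)) : ∀ j, j < 12758 → GoodG.{u} par (db j) := by
  have h4351 := checkRangeG_sound parWF r2 pf4350 h4350
  have h4352 := checkRangeG_sound parWF r2 pf4351 h4351
  have h4353 := checkRangeG_sound parWF r2 pf4352 h4352
  have h4354 := checkRangeG_sound parWF r2 pf4353 h4353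
  have h4355 := checkRangeG_sound parWF r2 pf4354 h4354
  have h4356 := checkRangeG_sound parWF r2 pf4355 h4355
  have h4357 := checkRangeG_sound parWF r2 pf4356 h4356
  have h4358 := checkRangeG_sound parWF r2 pf4357 h4357
  have h4359 := checkRangeG_sound parWF r2 pf4358 h4358
  have h4360 := checkRangeG_sound parWF r2 pf4359 h4359
  have h4361 := checkRangeG_sound parWF r2 pf4360 h4360
  have h4362 := checkRangeG_sound parWF r2 pf4361 h4361
  have h4363 := checkRangeG_sound parWF r2 pf4362 h4362
  have h4364 := checkRangeG_sound parWF r2 pf4363 h4363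
  have h4365 := checkRangeG_sound parWF r2 pf4364 h4364
  have h4366 := checkRangeG_sound parWF r2 pf4365 h4365
  have h4367 := checkRangeG_sound parWF r2 pf4366 h4366
  have h4368 := checkRangeG_sound parWF r2 pf4367 h4367
  have h4369 := checkRangeG_sound parWF r2 pf4368 h4368
  have h4370 := checkRangeG_sound parWF r2 pf4369 h4369
  have h4371 := checkRangeG_sound parWF r2 pf4370 h4370
  have h4372 := checkRangeG_sound parWF r2 pf4371 h4371
  have h4373 := checkRangeG_sound parWF r2 pf4372 h4372
  have h4374 := checkRangeG_sound parWF r2 pf4373 h4373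
  have h4375 := checkRangeG_sound parWF r2 pf4374 h4374
  have h4376 := checkRangeG_sound parWF r2 pf4375 h4375
  have h4377 := checkRangeG_sound parWF r2 pf4376 h4376
  have h4378 := checkRangeG_sound parWF r2 pf4377 h4377
  have h4379 := checkRangeG_sound parWF r2 pf4378 h4378
  have h4380 := checkRangeG_sound parWF r2 pf4379 h4379
  have h4381 := checkRangeG_sound parWF r2 pf4380 h4380
  have h4382 := checkRangeG_sound parWF r2 pf4381 h4381
  have h4383 := checkRangeG_sound parWF r2 pf4382 h4382
  have h4384 := checkRangeG_sound parWF r2 pf4383 h4383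
  have h4385 := checkRangeG_sound parWF r2 pf4384 h4384
  have h4386 := checkRangeG_sound parWF r2 pf4385 h4385
  have h4387 := checkRangeG_sound parWF r2 pf4386 h4386
  have h4388 := checkRangeG_sound parWF r2 pf4387 h4387
  have h4389 := checkRangeG_sound parWF r2 pf4388 h4388
  have h4390 := checkRangeG_sound parWF r2 pf4389 h4389
  have h4391 := checkRangeG_sound parWF r2 pf4390 h4390
  have h4392 := checkRangeG_sound parWF r2 pf4391 h4391
  have h4393 := checkRangeG_sound parWF r2 pf4392 h4392
  have h4394 := checkRangeG_sound parWF r2 pf4393 h4393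
  have h4395 := checkRangeG_sound parWF r2 pf4394 h4394
  have h4396 := checkRangeG_sound parWF r2 pf4395 h4395
  have h4397 := checkRangeG_sound parWF r2 pf4396 h4396
  have h4398 := checkRangeG_sound parWF r2 pf4397 h4397
  have h4399 := checkRangeG_sound parWF r2 pf4398 h4398
  have h4400 := checkRangeG_sound parWF r2 pf4399 h4399
  exact h4400

theorem c88 (h4400 : ∀ j, j < 12758 → GoodG.{u} par (db j)) : ∀ j, j < 12912 → GoodG.{u} par (db j) := by
  have h4401 := checkRangeG_sound parWF r2 pf4400 h4400
  have h4402 := checkRangeG_sound parWF r2 pf4401 h4401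
  have h4403 := checkRangeG_sound parWF r2 pf4402 h4402
  have h4404 := checkRangeG_sound parWF r2 pf4403 h4403
  have h4405 := checkRangeG_sound parWF r2 pf4404 h4404
  have h4406 := checkRangeG_sound parWF r2 pf4405 h4405
  have h4407 := checkRangeG_sound parWF r2 pf4406 h4406
  have h4408 := checkRangeG_sound parWF r2 pf4407 h4407
  have h4409 := checkRangeG_sound parWF r2 pf4408 h4408
  have h4410 := checkRangeG_sound parWF r2 pf4409 h4409
  have h4411 := checkRangeG_sound parWF r2 pf4410 h4410
  have h4412 := checkRangeG_sound parWF r2 pf4411 h4411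
  have h4413 := checkRangeG_sound parWF r2 pf4412 h4412
  have h4414 := checkRangeG_sound parWF r2 pf4413 h4413
  have h4415 := checkRangeG_sound parWF r2 pf4414 h4414
  have h4416 := checkRangeG_sound parWF r2 pf4415 h4415
  have h4417 := checkRangeG_sound parWF r2 pf4416 h4416
  have h4418 := checkRangeG_sound parWF r2 pf4417 h4417
  have h4419 := checkRangeG_sound parWF r2 pf4418 h4418
  have h4420 := checkRangeG_sound parWF r2 pf4419 h4419
  have h4421 := checkRangeG_sound parWF r2 pf4420 h4420
  have h4422 := checkRangeG_sound parWF r2 pf4421 h4421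
  have h4423 := checkRangeG_sound parWF r2 pf4422 h4422
  have h4424 := checkRangeG_sound parWF r2 pf4423 h4423
  have h4425 := checkRangeG_sound parWF r2 pf4424 h4424
  have h4426 := checkRangeG_sound parWF r2 pf4425 h4425
  have h4427 := checkRangeG_sound parWF r2 pf4426 h4426
  have h4428 := checkRangeG_sound parWF r2 pf4427 h4427
  have h4429 := checkRangeG_sound parWF r2 pf4428 h4428
  have h4430 := checkRangeG_sound parWF r2 pf4429 h4429
  have h4431 := checkRangeG_sound parWF r2 pf4430 h4430
  have h4432 := checkRangeG_sound parWF r2 pf4431 h4431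
  have h4433 := checkRangeG_sound parWF r2 pf4432 h4432
  have h4434 := checkRangeG_sound parWF r2 pf4433 h4433
  have h4435 := checkRangeG_sound parWF r2 pf4434 h4434
  have h4436 := checkRangeG_sound parWF r2 pf4435 h4435
  have h4437 := checkRangeG_sound parWF r2 pf4436 h4436
  have h4438 := checkRangeG_sound parWF r2 pf4437 h4437
  have h4439 := checkRangeG_sound parWF r2 pf4438 h4438
  have h4440 := checkRangeG_sound parWF r2 pf4439 h4439
  have h4441 := checkRangeG_sound parWF r2 pf4440 h4440
  have h4442 := checkRangeG_sound parWF r2 pf4441 h4441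
  have h4443 := checkRangeG_sound parWF r2 pf4442 h4442
  have h4444 := checkRangeG_sound parWF r2 pf4443 h4443
  have h4445 := checkRangeG_sound parWF r2 pf4444 h4444
  have h4446 := checkRangeG_sound parWF r2 pf4445 h4445
  have h4447 := checkRangeG_sound parWF r2 pf4446 h4446
  have h4448 := checkRangeG_sound parWF r2 pf4447 h4447
  have h4449 := checkRangeG_sound parWF r2 pf4448 h4448
  have h4450 := checkRangeG_sound parWF r2 pf4449 h4449
  exact h4450

theorem c89 (h4450 : ∀ j, j < 12912 → GoodG.{u} par (db j)) : ∀ j, j < 13068 → GoodG.{u} par (db j) := by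
  have h4451 := checkRangeG_sound parWF r2 pf4450 h4450
  have h4452 := checkRangeG_sound parWF r2 pf4451 h4451
  have h4453 := checkRangeG_sound parWF r2 pf4452 h4452
  have h4454 := checkRangeG_sound parWF r2 pf4453 h4453
  have h4455 := checkRangeG_sound parWF r2 pf4454 h4454
  have h4456 := checkRangeG_sound parWF r2 pf4455 h4455
  have h4457 := checkRangeG_sound parWF r2 pf4456 h4456
  have h4458 := checkRangeG_sound parWF r2 pf4457 h4457
  have h4459 := checkRangeG_sound parWF r2 pf4458 h4458
  have h4460 := checkRangeG_sound parWF r2 pf4459 h4459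
  have h4461 := checkRangeG_sound parWF r2 pf4460 h4460
  have h4462 := checkRangeG_sound parWF r2 pf4461 h4461
  have h4463 := checkRangeG_sound parWF r2 pf4462 h4462
  have h4464 := checkRangeG_sound parWF r2 pf4463 h4463
  have h4465 := checkRangeG_sound parWF r2 pf4464 h4464
  have h4466 := checkRangeG_sound parWF r2 pf4465 h4465
  have h4467 := checkRangeG_sound parWF r2 pf4466 h4466
  have h4468 := checkRangeG_sound parWF r2 pf4467 h4467
  have h4469 := checkRangeG_sound parWF r2 pf4468 h4468
  have h4470 := checkRangeG_sound parWF r2 pf4469 h4469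
  have h4471 := checkRangeG_sound parWF r2 pf4470 h4470
  have h4472 := checkRangeG_sound parWF r2 pf4471 h4471
  have h4473 := checkRangeG_sound parWF r2 pf4472 h4472
  have h4474 := checkRangeG_sound parWF r2 pf4473 h4473
  have h4475 := checkRangeG_sound parWF r2 pf4474 h4474
  have h4476 := checkRangeG_sound parWF r2 pf4475 h4475
  have h4477 := checkRangeG_sound parWF r2 pf4476 h4476
  have h4478 := checkRangeG_sound parWF r2 pf4477 h4477
  have h4479 := checkRangeG_sound parWF r2 pf4478 h4478
  have h4480 := checkRangeG_sound parWF r2 pf4479 h4479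
  have h4481 := checkRangeG_sound parWF r2 pf4480 h4480
  have h4482 := checkRangeG_sound parWF r2 pf4481 h4481
  have h4483 := checkRangeG_sound parWF r2 pf4482 h4482
  have h4484 := checkRangeG_sound parWF r2 pf4483 h4483
  have h4485 := checkRangeG_sound parWF r2 pf4484 h4484
  have h4486 := checkRangeG_sound parWF r2 pf4485 h4485
  have h4487 := checkRangeG_sound parWF r2 pf4486 h4486
  have h4488 := checkRangeG_sound parWF r2 pf4487 h4487
  have h4489 := checkRangeG_sound parWF r2 pf4488 h4488
  have h4490 := checkRangeG_sound parWF r2 pf4489 h4489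
  have h4491 := checkRangeG_sound parWF r2 pf4490 h4490
  have h4492 := checkRangeG_sound parWF r2 pf4491 h4491
  have h4493 := checkRangeG_sound parWF r2 pf4492 h4492
  have h4494 := checkRangeG_sound parWF r2 pf4493 h4493
  have h4495 := checkRangeG_sound parWF r2 pf4494 h4494
  have h4496 := checkRangeG_sound parWF r2 pf4495 h4495
  have h4497 := checkRangeG_sound parWF r2 pf4496 h4496
  have h4498 := checkRangeG_sound parWF r2 pf4497 h4497
  have h4499 := checkRangeG_sound parWF r2 pf4498 h4498
  have h4500 := checkRangeG_sound parWF r2 pf4499 h4499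
  exact h4500

theorem c90 (h4500 : ∀ j, j < 13068 → GoodG.{u} par (db j)) : ∀ j, j < 13218 → GoodG.{u} par (db j) := by
  have h4501 := checkRangeG_sound parWF r2 pf4500 h4500
  have h4502 := checkRangeG_sound parWF r2 pf4501 h4501
  have h4503 := checkRangeG_sound parWF r2 pf4502 h4502
  have h4504 := checkRangeG_sound parWF r2 pf4503 h4503
  have h4505 := checkRangeG_sound parWF r2 pf4504 h4504
  have h4506 := checkRangeG_sound parWF r2 pf4505 h4505
  have h4507 := checkRangeG_sound parWF r2 pf4506 h4506
  have h4508 := checkRangeG_sound parWF r2 pf4507 h4507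
  have h4509 := checkRangeG_sound parWF r2 pf4508 h4508
  have h4510 := checkRangeG_sound parWF r2 pf4509 h4509
  have h4511 := checkRangeG_sound parWF r2 pf4510 h4510
  have h4512 := checkRangeG_sound parWF r2 pf4511 h4511
  have h4513 := checkRangeG_sound parWF r2 pf4512 h4512
  have h4514 := checkRangeG_sound parWF r2 pf4513 h4513
  have h4515 := checkRangeG_sound parWF r2 pf4514 h4514
  have h4516 := checkRangeG_sound parWF r2 pf4515 h4515
  have h4517 := checkRangeG_sound parWF r2 pf4516 h4516
  have h4518 := checkRangeG_sound parWF r2 pf4517 h4517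
  have h4519 := checkRangeG_sound parWF r2 pf4518 h4518
  have h4520 := checkRangeG_sound parWF r2 pf4519 h4519
  have h4521 := checkRangeG_sound parWF r2 pf4520 h4520
  have h4522 := checkRangeG_sound parWF r2 pf4521 h4521
  have h4523 := checkRangeG_sound parWF r2 pf4522 h4522
  have h4524 := checkRangeG_sound parWF r2 pf4523 h4523
  have h4525 := checkRangeG_sound parWF r2 pf4524 h4524
  have h4526 := checkRangeG_sound parWF r2 pf4525 h4525
  have h4527 := checkRangeG_sound parWF r2 pf4526 h4526
  have h4528 := checkRangeG_sound parWF r2 pf4527 h4527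
  have h4529 := checkRangeG_sound parWF r2 pf4528 h4528
  have h4530 := checkRangeG_sound parWF r2 pf4529 h4529
  have h4531 := checkRangeG_sound parWF r2 pf4530 h4530
  have h4532 := checkRangeG_sound parWF r2 pf4531 h4531
  have h4533 := checkRangeG_sound parWF r2 pf4532 h4532
  have h4534 := checkRangeG_sound parWF r2 pf4533 h4533
  have h4535 := checkRangeG_sound parWF r2 pf4534 h4534
  have h4536 := checkRangeG_sound parWF r2 pf4535 h4535
  have h4537 := checkRangeG_sound parWF r2 pf4536 h4536
  have h4538 := checkRangeG_sound parWF r2 pf4537 h4537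
  have h4539 := checkRangeG_sound parWF r2 pf4538 h4538
  have h4540 := checkRangeG_sound parWF r2 pf4539 h4539
  have h4541 := checkRangeG_sound parWF r2 pf4540 h4540
  have h4542 := checkRangeG_sound parWF r2 pf4541 h4541
  have h4543 := checkRangeG_sound parWF r2 pf4542 h4542
  have h4544 := checkRangeG_sound parWF r2 pf4543 h4543
  have h4545 := checkRangeG_sound parWF r2 pf4544 h4544
  have h4546 := checkRangeG_sound parWF r2 pf4545 h4545
  have h4547 := checkRangeG_sound parWF r2 pf4546 h4546
  have h4548 := checkRangeG_sound parWF r2 pf4547 h4547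
  have h4549 := checkRangeG_sound parWF r2 pf4548 h4548
  have h4550 := checkRangeG_sound parWF r2 pf4549 h4549
  exact h4550

theorem c91 (h4550 : ∀ j, j < 13218 → GoodG.{u} par (db j)) : ∀ j, j < 13346 → GoodG.{u} par (db j) := by
  have h4551 := checkRangeG_sound parWF r2 pf4550 h4550
  have h4552 := checkRangeG_sound parWF r2 pf4551 h4551
  have h4553 := checkRangeG_sound parWF r2 pf4552 h4552
  have h4554 := checkRangeG_sound parWF r2 pf4553 h4553
  have h4555 := checkRangeG_sound parWF r2 pf4554 h4554
  have h4556 := checkRangeG_sound parWF r2 pf4555 h4555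
  have h4557 := checkRangeG_sound parWF r2 pf4556 h4556
  have h4558 := checkRangeG_sound parWF r2 pf4557 h4557
  have h4559 := checkRangeG_sound parWF r2 pf4558 h4558
  have h4560 := checkRangeG_sound parWF r2 pf4559 h4559
  have h4561 := checkRangeG_sound parWF r2 pf4560 h4560
  have h4562 := checkRangeG_sound parWF r2 pf4561 h4561
  have h4563 := checkRangeG_sound parWF r2 pf4562 h4562
  have h4564 := checkRangeG_sound parWF r2 pf4563 h4563
  have h4565 := checkRangeG_sound parWF r2 pf4564 h4564
  have h4566 := checkRangeG_sound parWF r2 pf4565 h4565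
  have h4567 := checkRangeG_sound parWF r2 pf4566 h4566
  have h4568 := checkRangeG_sound parWF r2 pf4567 h4567
  have h4569 := checkRangeG_sound parWF r2 pf4568 h4568
  have h4570 := checkRangeG_sound parWF r2 pf4569 h4569
  have h4571 := checkRangeG_sound parWF r2 pf4570 h4570
  have h4572 := checkRangeG_sound parWF r2 pf4571 h4571
  have h4573 := checkRangeG_sound parWF r2 pf4572 h4572
  have h4574 := checkRangeG_sound parWF r2 pf4573 h4573
  have h4575 := checkRangeG_sound parWF r2 pf4574 h4574
  have h4576 := checkRangeG_sound parWF r2 pf4575 h4575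
  have h4577 := checkRangeG_sound parWF r2 pf4576 h4576
  have h4578 := checkRangeG_sound parWF r2 pf4577 h4577
  have h4579 := checkRangeG_sound parWF r2 pf4578 h4578
  have h4580 := checkRangeG_sound parWF r2 pf4579 h4579
  have h4581 := checkRangeG_sound parWF r2 pf4580 h4580
  have h4582 := checkRangeG_sound parWF r2 pf4581 h4581
  have h4583 := checkRangeG_sound parWF r2 pf4582 h4582
  have h4584 := checkRangeG_sound parWF r2 pf4583 h4583
  have h4585 := checkRangeG_sound parWF r2 pf4584 h4584
  have h4586 := checkRangeG_sound parWF r2 pf4585 h4585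
  have h4587 := checkRangeG_sound parWF r2 pf4586 h4586
  have h4588 := checkRangeG_sound parWF r2 pf4587 h4587
  have h4589 := checkRangeG_sound parWF r2 pf4588 h4588
  have h4590 := checkRangeG_sound parWF r2 pf4589 h4589
  have h4591 := checkRangeG_sound parWF r2 pf4590 h4590
  have h4592 := checkRangeG_sound parWF r2 pf4591 h4591
  have h4593 := checkRangeG_sound parWF r2 pf4592 h4592
  have h4594 := checkRangeG_sound parWF r2 pf4593 h4593
  have h4595 := checkRangeG_sound parWF r2 pf4594 h4594
  have h4596 := checkRangeG_sound parWF r2 pf4595 h4595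
  have h4597 := checkRangeG_sound parWF r2 pf4596 h4596
  have h4598 := checkRangeG_sound parWF r2 pf4597 h4597
  have h4599 := checkRangeG_sound parWF r2 pf4598 h4598
  have h4600 := checkRangeG_sound parWF r2 pf4599 h4599
  exact h4600

theorem c92 (h4600 : ∀ j, j < 13346 → GoodG.{u} par (db j)) : ∀ j, j < 13476 → GoodG.{u} par (db j) := by
  have h4601 := checkRangeG_sound parWF r2 pf4600 h4600
  have h4602 := checkRangeG_sound parWF r2 pf4601 h4601
  have h4603 := checkRangeG_sound parWF r2 pf4602 h4602
  have h4604 := checkRangeG_sound parWF r2 pf4603 h4603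
  have h4605 := checkRangeG_sound parWF r2 pf4604 h4604
  have h4606 := checkRangeG_sound parWF r2 pf4605 h4605
  have h4607 := checkRangeG_sound parWF r2 pf4606 h4606
  have h4608 := checkRangeG_sound parWF r2 pf4607 h4607
  have h4609 := checkRangeG_sound parWF r2 pf4608 h4608
  have h4610 := checkRangeG_sound parWF r2 pf4609 h4609
  have h4611 := checkRangeG_sound parWF r2 pf4610 h4610
  have h4612 := checkRangeG_sound parWF r2 pf4611 h4611
  have h4613 := checkRangeG_sound parWF r2 pf4612 h4612
  have h4614 := checkRangeG_sound parWF r2 pf4613 h4613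
  have h4615 := checkRangeG_sound parWF r2 pf4614 h4614
  have h4616 := checkRangeG_sound parWF r2 pf4615 h4615
  have h4617 := checkRangeG_sound parWF r2 pf4616 h4616
  have h4618 := checkRangeG_sound parWF r2 pf4617 h4617
  have h4619 := checkRangeG_sound parWF r2 pf4618 h4618
  have h4620 := checkRangeG_sound parWF r2 pf4619 h4619
  have h4621 := checkRangeG_sound parWF r2 pf4620 h4620
  have h4622 := checkRangeG_sound parWF r2 pf4621 h4621
  have h4623 := checkRangeG_sound parWF r2 pf4622 h4622
  have h4624 := checkRangeG_sound parWF r2 pf4623 h4623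
  have h4625 := checkRangeG_sound parWF r2 pf4624 h4624
  have h4626 := checkRangeG_sound parWF r2 pf4625 h4625
  have h4627 := checkRangeG_sound parWF r2 pf4626 h4626
  have h4628 := checkRangeG_sound parWF r2 pf4627 h4627
  have h4629 := checkRangeG_sound parWF r2 pf4628 h4628
  have h4630 := checkRangeG_sound parWF r2 pf4629 h4629
  have h4631 := checkRangeG_sound parWF r2 pf4630 h4630
  have h4632 := checkRangeG_sound parWF r2 pf4631 h4631
  have h4633 := checkRangeG_sound parWF r2 pf4632 h4632
  have h4634 := checkRangeG_sound parWF r2 pf4633 h4633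
  have h4635 := checkRangeG_sound parWF r2 pf4634 h4634
  have h4636 := checkRangeG_sound parWF r2 pf4635 h4635
  have h4637 := checkRangeG_sound parWF r2 pf4636 h4636
  have h4638 := checkRangeG_sound parWF r2 pf4637 h4637
  have h4639 := checkRangeG_sound parWF r2 pf4638 h4638
  have h4640 := checkRangeG_sound parWF r2 pf4639 h4639
  have h4641 := checkRangeG_sound parWF r2 pf4640 h4640
  have h4642 := checkRangeG_sound parWF r2 pf4641 h4641
  have h4643 := checkRangeG_sound parWF r2 pf4642 h4642
  have h4644 := checkRangeG_sound parWF r2 pf4643 h4643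
  have h4645 := checkRangeG_sound parWF r2 pf4644 h4644
  have h4646 := checkRangeG_sound parWF r2 pf4645 h4645
  have h4647 := checkRangeG_sound parWF r2 pf4646 h4646
  have h4648 := checkRangeG_sound parWF r2 pf4647 h4647
  have h4649 := checkRangeG_sound parWF r2 pf4648 h4648
  have h4650 := checkRangeG_sound parWF r2 pf4649 h4649
  exact h4650

theorem c93 (h4650 : ∀ j, j < 13476 → GoodG.{u} par (db j)) : ∀ j, j < 13594 → GoodG.{u} par (db j) := by
  have h4651 := checkRangeG_sound parWF r2 pf4650 h4650
  have h4652 := checkRangeG_sound parWF r2 pf4651 h4651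
  have h4653 := checkRangeG_sound parWF r2 pf4652 h4652
  have h4654 := checkRangeG_sound parWF r2 pf4653 h4653
  have h4655 := checkRangeG_sound parWF r2 pf4654 h4654
  have h4656 := checkRangeG_sound parWF r2 pf4655 h4655
  have h4657 := checkRangeG_sound parWF r2 pf4656 h4656
  have h4658 := checkRangeG_sound parWF r2 pf4657 h4657
  have h4659 := checkRangeG_sound parWF r2 pf4658 h4658
  have h4660 := checkRangeG_sound parWF r2 pf4659 h4659
  have h4661 := checkRangeG_sound parWF r2 pf4660 h4660
  have h4662 := checkRangeG_sound parWF r2 pf4661 h4661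
  have h4663 := checkRangeG_sound parWF r2 pf4662 h4662
  have h4664 := checkRangeG_sound parWF r2 pf4663 h4663
  have h4665 := checkRangeG_sound parWF r2 pf4664 h4664
  have h4666 := checkRangeG_sound parWF r2 pf4665 h4665
  have h4667 := checkRangeG_sound parWF r2 pf4666 h4666
  have h4668 := checkRangeG_sound parWF r2 pf4667 h4667
  have h4669 := checkRangeG_sound parWF r2 pf4668 h4668
  have h4670 := checkRangeG_sound parWF r2 pf4669 h4669
  have h4671 := checkRangeG_sound parWF r2 pf4670 h4670
  have h4672 := checkRangeG_sound parWF r2 pf4671 h4671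
  have h4673 := checkRangeG_sound parWF r2 pf4672 h4672
  have h4674 := checkRangeG_sound parWF r2 pf4673 h4673
  have h4675 := checkRangeG_sound parWF r2 pf4674 h4674
  have h4676 := checkRangeG_sound parWF r2 pf4675 h4675
  have h4677 := checkRangeG_sound parWF r2 pf4676 h4676
  have h4678 := checkRangeG_sound parWF r2 pf4677 h4677
  have h4679 := checkRangeG_sound parWF r2 pf4678 h4678
  have h4680 := checkRangeG_sound parWF r2 pf4679 h4679
  have h4681 := checkRangeG_sound parWF r2 pf4680 h4680
  have h4682 := checkRangeG_sound parWF r2 pf4681 h4681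
  have h4683 := checkRangeG_sound parWF r2 pf4682 h4682
  have h4684 := checkRangeG_sound parWF r2 pf4683 h4683
  have h4685 := checkRangeG_sound parWF r2 pf4684 h4684
  have h4686 := checkRangeG_sound parWF r2 pf4685 h4685
  have h4687 := checkRangeG_sound parWF r2 pf4686 h4686
  have h4688 := checkRangeG_sound parWF r2 pf4687 h4687
  have h4689 := checkRangeG_sound parWF r2 pf4688 h4688
  have h4690 := checkRangeG_sound parWF r2 pf4689 h4689
  have h4691 := checkRangeG_sound parWF r2 pf4690 h4690
  have h4692 := checkRangeG_sound parWF r2 pf4691 h4691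
  have h4693 := checkRangeG_sound parWF r2 pf4692 h4692
  have h4694 := checkRangeG_sound parWF r2 pf4693 h4693
  have h4695 := checkRangeG_sound parWF r2 pf4694 h4694
  have h4696 := checkRangeG_sound parWF r2 pf4695 h4695
  have h4697 := checkRangeG_sound parWF r2 pf4696 h4696
  have h4698 := checkRangeG_sound parWF r2 pf4697 h4697
  have h4699 := checkRangeG_sound parWF r2 pf4698 h4698
  have h4700 := checkRangeG_sound parWF r2 pf4699 h4699
  exact h4700

theorem c94 (h4700 : ∀ j, j < 13594 → GoodG.{u} par (db j)) : ∀ j, j < 13717 → GoodG.{u} par (db j) := by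
  have h4701 := checkRangeG_sound parWF r2 pf4700 h4700
  have h4702 := checkRangeG_sound parWF r2 pf4701 h4701
  have h4703 := checkRangeG_sound parWF r2 pf4702 h4702
  have h4704 := checkRangeG_sound parWF r2 pf4703 h4703
  have h4705 := checkRangeG_sound parWF r2 pf4704 h4704
  have h4706 := checkRangeG_sound parWF r2 pf4705 h4705
  have h4707 := checkRangeG_sound parWF r2 pf4706 h4706
  have h4708 := checkRangeG_sound parWF r2 pf4707 h4707
  have h4709 := checkRangeG_sound parWF r2 pf4708 h4708
  have h4710 := checkRangeG_sound parWF r2 pf4709 h4709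
  have h4711 := checkRangeG_sound parWF r2 pf4710 h4710
  have h4712 := checkRangeG_sound parWF r2 pf4711 h4711
  have h4713 := checkRangeG_sound parWF r2 pf4712 h4712
  have h4714 := checkRangeG_sound parWF r2 pf4713 h4713
  have h4715 := checkRangeG_sound parWF r2 pf4714 h4714
  have h4716 := checkRangeG_sound parWF r2 pf4715 h4715
  have h4717 := checkRangeG_sound parWF r2 pf4716 h4716
  have h4718 := checkRangeG_sound parWF r2 pf4717 h4717
  have h4719 := checkRangeG_sound parWF r2 pf4718 h4718
  have h4720 := checkRangeG_sound parWF r2 pf4719 h4719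
  have h4721 := checkRangeG_sound parWF r2 pf4720 h4720
  have h4722 := checkRangeG_sound parWF r2 pf4721 h4721
  have h4723 := checkRangeG_sound parWF r2 pf4722 h4722
  have h4724 := checkRangeG_sound parWF r2 pf4723 h4723
  have h4725 := checkRangeG_sound parWF r2 pf4724 h4724
  have h4726 := checkRangeG_sound parWF r2 pf4725 h4725
  have h4727 := checkRangeG_sound parWF r2 pf4726 h4726
  have h4728 := checkRangeG_sound parWF r2 pf4727 h4727
  have h4729 := checkRangeG_sound parWF r2 pf4728 h4728
  have h4730 := checkRangeG_sound parWF r2 pf4729 h4729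
  have h4731 := checkRangeG_sound parWF r2 pf4730 h4730
  have h4732 := checkRangeG_sound parWF r2 pf4731 h4731
  have h4733 := checkRangeG_sound parWF r2 pf4732 h4732
  have h4734 := checkRangeG_sound parWF r2 pf4733 h4733
  have h4735 := checkRangeG_sound parWF r2 pf4734 h4734
  have h4736 := checkRangeG_sound parWF r2 pf4735 h4735
  have h4737 := checkRangeG_sound parWF r2 pf4736 h4736
  have h4738 := checkRangeG_sound parWF r2 pf4737 h4737
  have h4739 := checkRangeG_sound parWF r2 pf4738 h4738
  have h4740 := checkRangeG_sound parWF r2 pf4739 h4739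
  have h4741 := checkRangeG_sound parWF r2 pf4740 h4740
  have h4742 := checkRangeG_sound parWF r2 pf4741 h4741
  have h4743 := checkRangeG_sound parWF r2 pf4742 h4742
  have h4744 := checkRangeG_sound parWF r2 pf4743 h4743
  have h4745 := checkRangeG_sound parWF r2 pf4744 h4744
  have h4746 := checkRangeG_sound parWF r2 pf4745 h4745
  have h4747 := checkRangeG_sound parWF r2 pf4746 h4746
  have h4748 := checkRangeG_sound parWF r2 pf4747 h4747
  have h4749 := checkRangeG_sound parWF r2 pf4748 h4748
  have h4750 := checkRangeG_sound parWF r2 pf4749 h4749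
  exact h4750

theorem c95 (h4750 : ∀ j, j < 13717 → GoodG.{u} par (db j)) : ∀ j, j < 13828 → GoodG.{u} par (db j) := by
  have h4751 := checkRangeG_sound parWF r2 pf4750 h4750
  have h4752 := checkRangeG_sound parWF r2 pf4751 h4751
  have h4753 := checkRangeG_sound parWF r2 pf4752 h4752
  have h4754 := checkRangeG_sound parWF r2 pf4753 h4753
  have h4755 := checkRangeG_sound parWF r2 pf4754 h4754
  have h4756 := checkRangeG_sound parWF r2 pf4755 h4755
  have h4757 := checkRangeG_sound parWF r2 pf4756 h4756
  have h4758 := checkRangeG_sound parWF r2 pf4757 h4757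
  have h4759 := checkRangeG_sound parWF r2 pf4758 h4758
  have h4760 := checkRangeG_sound parWF r2 pf4759 h4759
  have h4761 := checkRangeG_sound parWF r2 pf4760 h4760
  have h4762 := checkRangeG_sound parWF r2 pf4761 h4761
  have h4763 := checkRangeG_sound parWF r2 pf4762 h4762
  have h4764 := checkRangeG_sound parWF r2 pf4763 h4763
  have h4765 := checkRangeG_sound parWF r2 pf4764 h4764
  have h4766 := checkRangeG_sound parWF r2 pf4765 h4765
  have h4767 := checkRangeG_sound parWF r2 pf4766 h4766
  have h4768 := checkRangeG_sound parWF r2 pf4767 h4767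
  have h4769 := checkRangeG_sound parWF r2 pf4768 h4768
  have h4770 := checkRangeG_sound parWF r2 pf4769 h4769
  have h4771 := checkRangeG_sound parWF r2 pf4770 h4770
  have h4772 := checkRangeG_sound parWF r2 pf4771 h4771
  have h4773 := checkRangeG_sound parWF r2 pf4772 h4772
  have h4774 := checkRangeG_sound parWF r2 pf4773 h4773
  have h4775 := checkRangeG_sound parWF r2 pf4774 h4774
  have h4776 := checkRangeG_sound parWF r2 pf4775 h4775
  have h4777 := checkRangeG_sound parWF r2 pf4776 h4776
  have h4778 := checkRangeG_sound parWF r2 pf4777 h4777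
  have h4779 := checkRangeG_sound parWF r2 pf4778 h4778
  have h4780 := checkRangeG_sound parWF r2 pf4779 h4779
  have h4781 := checkRangeG_sound parWF r2 pf4780 h4780
  have h4782 := checkRangeG_sound parWF r2 pf4781 h4781
  have h4783 := checkRangeG_sound parWF r2 pf4782 h4782
  have h4784 := checkRangeG_sound parWF r2 pf4783 h4783
  have h4785 := checkRangeG_sound parWF r2 pf4784 h4784
  have h4786 := checkRangeG_sound parWF r2 pf4785 h4785
  have h4787 := checkRangeG_sound parWF r2 pf4786 h4786
  have h4788 := checkRangeG_sound parWF r2 pf4787 h4787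
  have h4789 := checkRangeG_sound parWF r2 pf4788 h4788
  have h4790 := checkRangeG_sound parWF r2 pf4789 h4789
  have h4791 := checkRangeG_sound parWF r2 pf4790 h4790
  have h4792 := checkRangeG_sound parWF r2 pf4791 h4791
  have h4793 := checkRangeG_sound parWF r2 pf4792 h4792
  have h4794 := checkRangeG_sound parWF r2 pf4793 h4793
  have h4795 := checkRangeG_sound parWF r2 pf4794 h4794
  have h4796 := checkRangeG_sound parWF r2 pf4795 h4795
  have h4797 := checkRangeG_sound parWF r2 pf4796 h4796
  have h4798 := checkRangeG_sound parWF r2 pf4797 h4797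
  have h4799 := checkRangeG_sound parWF r2 pf4798 h4798
  have h4800 := checkRangeG_sound parWF r2 pf4799 h4799
  exact h4800


end Vale.Agent.P045g.C61
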