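import Vale.Agent.P045g.C61.WF
import Vale.Agent.P045g.C61.Pf700
import Vale.Agent.P045g.C61.Pf701
import Vale.Agent.P045g.C61.Pf702
import Vale.Agent.P045g.C61.Pf703
import Vale.Agent.P045g.C61.Pf704
import Vale.Agent.P045g.C61.Pf705
import Vale.Agent.P045g.C61.Pf706
import Vale.Agent.P045g.C61.Pf707
import Vale.Agent.P045g.C61.Pf708
import Vale.Agent.P045g.C61.Pf709

namespace Vale.Agent.P045g.C61

open Vale.Agent.P045b Vale.Agent.P045g

universe u

theorem c840 (h42000 : ∀ j, j < 144052 → GoodG.{u} par (db j)) : ∀ j, j < 144273 → GoodG.{u} par (db j) := by
  have h42001 := checkRangeG_sound parWF r2 pf42000 h42000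
  have h42002 := checkRangeG_sound parWF r2 pf42001 h42001
  have h42003 := checkRangeG_sound parWF r2 pf42002 h42002
  have h42004 := checkRangeG_sound parWF r2 pf42003 h42003
  have h42005 := checkRangeG_sound parWF r2 pf42004 h42004
  have h42006 := checkRangeG_sound parWF r2 pf42005 h42005
  have h42007 := checkRangeG_sound parWF r2 pf42006 h42006
  have h42008 := checkRangeG_sound parWF r2 pf42007 h42007
  have h42009 := checkRangeG_sound parWF r2 pf42008 h42008
  have h42010 := checkRangeG_sound parWF r2 pf42009 h42009
  have h42011 := checkRangeG_sound parWF r2 pf42010 h42010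
  have h42012 := checkRangeG_sound parWF r2 pf42011 h42011
  have h42013 := checkRangeG_sound parWF r2 pf42012 h42012
  have h42014 := checkRangeG_sound parWF r2 pf42013 h42013
  have h42015 := checkRangeG_sound parWF r2 pf42014 h42014
  have h42016 := checkRangeG_sound parWF r2 pf42015 h42015
  have h42017 := checkRangeG_sound parWF r2 pf42016 h42016
  have h42018 := checkRangeG_sound parWF r2 pf42017 h42017
  have h42019 := checkRangeG_sound parWF r2 pf42018 h42018
  have h42020 := checkRangeG_sound parWF r2 pf42019 h42019
  have h42021 := checkRangeG_sound parWF r2 pf42020 h42020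
  have h42022 := checkRangeG_sound parWF r2 pf42021 h42021
  have h42023 := checkRangeG_sound parWF r2 pf42022 h42022
  have h42024 := checkRangeG_sound parWF r2 pf42023 h42023
  have h42025 := checkRangeG_sound parWF r2 pf42024 h42024
  have h42026 := checkRangeG_sound parWF r2 pf42025 h42025
  have h42027 := checkRangeG_sound parWF r2 pf42026 h42026
  have h42028 := checkRangeG_sound parWF r2 pf42027 h42027
  have h42029 := checkRangeG_sound parWF r2 pf42028 h42028
  have h42030 := checkRangeG_sound parWF r2 pf42029 h42029
  have h42031 := checkRangeG_sound parWF r2 pf42030 h42030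
  have h42032 := checkRangeG_sound parWF r2 pf42031 h42031
  have h42033 := checkRangeG_sound parWF r2 pf42032 h42032
  have h42034 := checkRangeG_sound parWF r2 pf42033 h42033
  have h42035 := checkRangeG_sound parWF r2 pf42034 h42034
  have h42036 := checkRangeG_sound parWF r2 pf42035 h42035
  have h42037 := checkRangeG_sound parWF r2 pf42036 h42036
  have h42038 := checkRangeG_sound parWF r2 pf42037 h42037
  have h42039 := checkRangeG_sound parWF r2 pf42038 h42038
  have h42040 := checkRangeG_sound parWF r2 pf42039 h42039
  have h42041 := checkRangeG_sound parWF r2 pf42040 h42040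
  have h42042 := checkRangeG_sound parWF r2 pf42041 h42041
  have h42043 := checkRangeG_sound parWF r2 pf42042 h42042
  have h42044 := checkRangeG_sound parWF r2 pf42043 h42043
  have h42045 := checkRangeG_sound parWF r2 pf42044 h42044
  have h42046 := checkRangeG_sound parWF r2 pf42045 h42045
  have h42047 := checkRangeG_sound parWF r2 pf42046 h42046
  have h42048 := checkRangeG_sound parWF r2 pf42047 h42047
  have h42049 := checkRangeG_sound parWF r2 pf42048 h42048
  have h42050 := checkRangeG_sound parWF r2 pf42049 h42049
  exact h42050

theorem c841 (h42050 : ∀ j, j < 144273 → GoodG.{u} par (db j)) : ∀ j, j < 144536 → GoodG.{u} par (db j) := by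
  have h42051 := checkRangeG_sound parWF r2 pf42050 h42050
  have h42052 := checkRangeG_sound parWF r2 pf42051 h42051
  have h42053 := checkRangeG_sound parWF r2 pf42052 h42052
  have h42054 := checkRangeG_sound parWF r2 pf42053 h42053
  have h42055 := checkRangeG_sound parWF r2 pf42054 h42054
  have h42056 := checkRangeG_sound parWF r2 pf42055 h42055
  have h42057 := checkRangeG_sound parWF r2 pf42056 h42056
  have h42058 := checkRangeG_sound parWF r2 pf42057 h42057
  have h42059 := checkRangeG_sound parWF r2 pf42058 h42058
  have h42060 := checkRangeG_sound parWF r2 pf42059 h42059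
  have h42061 := checkRangeG_sound parWF r2 pf42060 h42060
  have h42062 := checkRangeG_sound parWF r2 pf42061 h42061
  have h42063 := checkRangeG_sound parWF r2 pf42062 h42062
  have h42064 := checkRangeG_sound parWF r2 pf42063 h42063
  have h42065 := checkRangeG_sound parWF r2 pf42064 h42064
  have h42066 := checkRangeG_sound parWF r2 pf42065 h42065
  have h42067 := checkRangeG_sound parWF r2 pf42066 h42066
  have h42068 := checkRangeG_sound parWF r2 pf42067 h42067
  have h42069 := checkRangeG_sound parWF r2 pf42068 h42068
  have h42070 := checkRangeG_sound parWF r2 pf42069 h42069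
  have h42071 := checkRangeG_sound parWF r2 pf42070 h42070
  have h42072 := checkRangeG_sound parWF r2 pf42071 h42071
  have h42073 := checkRangeG_sound parWF r2 pf42072 h42072
  have h42074 := checkRangeG_sound parWF r2 pf42073 h42073
  have h42075 := checkRangeG_sound parWF r2 pf42074 h42074
  have h42076 := checkRangeG_sound parWF r2 pf42075 h42075
  have h42077 := checkRangeG_sound parWF r2 pf42076 h42076
  have h42078 := checkRangeG_sound parWF r2 pf42077 h42077
  have h42079 := checkRangeG_sound parWF r2 pf42078 h42078
  have h42080 := checkRangeG_sound parWF r2 pf42079 h42079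
  have h42081 := checkRangeG_sound parWF r2 pf42080 h42080
  have h42082 := checkRangeG_sound parWF r2 pf42081 h42081
  have h42083 := checkRangeG_sound parWF r2 pf42082 h42082
  have h42084 := checkRangeG_sound parWF r2 pf42083 h42083
  have h42085 := checkRangeG_sound parWF r2 pf42084 h42084
  have h42086 := checkRangeG_sound parWF r2 pf42085 h42085
  have h42087 := checkRangeG_sound parWF r2 pf42086 h42086
  have h42088 := checkRangeG_sound parWF r2 pf42087 h42087
  have h42089 := checkRangeG_sound parWF r2 pf42088 h42088
  have h42090 := checkRangeG_sound parWF r2 pf42089 h42089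
  have h42091 := checkRangeG_sound parWF r2 pf42090 h42090
  have h42092 := checkRangeG_sound parWF r2 pf42091 h42091
  have h42093 := checkRangeG_sound parWF r2 pf42092 h42092
  have h42094 := checkRangeG_sound parWF r2 pf42093 h42093
  have h42095 := checkRangeG_sound parWF r2 pf42094 h42094
  have h42096 := checkRangeG_sound parWF r2 pf42095 h42095
  have h42097 := checkRangeG_sound parWF r2 pf42096 h42096
  have h42098 := checkRangeG_sound parWF r2 pf42097 h42097
  have h42099 := checkRangeG_sound parWF r2 pf42098 h42098
  have h42100 := checkRangeG_sound parWF r2 pf42099 h42099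
  exact h42100

theorem c842 (h42100 : ∀ j, j < 144536 → GoodG.{u} par (db j)) : ∀ j, j < 144763 → GoodG.{u} par (db j) := by
  have h42101 := checkRangeG_sound parWF r2 pf42100 h42100
  have h42102 := checkRangeG_sound parWF r2 pf42101 h42101
  have h42103 := checkRangeG_sound parWF r2 pf42102 h42102
  have h42104 := checkRangeG_sound parWF r2 pf42103 h42103
  have h42105 := checkRangeG_sound parWF r2 pf42104 h42104
  have h42106 := checkRangeG_sound parWF r2 pf42105 h42105
  have h42107 := checkRangeG_sound parWF r2 pf42106 h42106
  have h42108 := checkRangeG_sound parWF r2 pf42107 h42107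
  have h42109 := checkRangeG_sound parWF r2 pf42108 h42108
  have h42110 := checkRangeG_sound parWF r2 pf42109 h42109
  have h42111 := checkRangeG_sound parWF r2 pf42110 h42110
  have h42112 := checkRangeG_sound parWF r2 pf42111 h42111
  have h42113 := checkRangeG_sound parWF r2 pf42112 h42112
  have h42114 := checkRangeG_sound parWF r2 pf42113 h42113
  have h42115 := checkRangeG_sound parWF r2 pf42114 h42114
  have h42116 := checkRangeG_sound parWF r2 pf42115 h42115
  have h42117 := checkRangeG_sound parWF r2 pf42116 h42116
  have h42118 := checkRangeG_sound parWF r2 pf42117 h42117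
  have h42119 := checkRangeG_sound parWF r2 pf42118 h42118
  have h42120 := checkRangeG_sound parWF r2 pf42119 h42119
  have h42121 := checkRangeG_sound parWF r2 pf42120 h42120
  have h42122 := checkRangeG_sound parWF r2 pf42121 h42121
  have h42123 := checkRangeG_sound parWF r2 pf42122 h42122
  have h42124 := checkRangeG_sound parWF r2 pf42123 h42123
  have h42125 := checkRangeG_sound parWF r2 pf42124 h42124
  have h42126 := checkRangeG_sound parWF r2 pf42125 h42125
  have h42127 := checkRangeG_sound parWF r2 pf42126 h42126
  have h42128 := checkRangeG_sound parWF r2 pf42127 h42127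
  have h42129 := checkRangeG_sound parWF r2 pf42128 h42128
  have h42130 := checkRangeG_sound parWF r2 pf42129 h42129
  have h42131 := checkRangeG_sound parWF r2 pf42130 h42130
  have h42132 := checkRangeG_sound parWF r2 pf42131 h42131
  have h42133 := checkRangeG_sound parWF r2 pf42132 h42132
  have h42134 := checkRangeG_sound parWF r2 pf42133 h42133
  have h42135 := checkRangeG_sound parWF r2 pf42134 h42134
  have h42136 := checkRangeG_sound parWF r2 pf42135 h42135
  have h42137 := checkRangeG_sound parWF r2 pf42136 h42136
  have h42138 := checkRangeG_sound parWF r2 pf42137 h42137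
  have h42139 := checkRangeG_sound parWF r2 pf42138 h42138
  have h42140 := checkRangeG_sound parWF r2 pf42139 h42139
  have h42141 := checkRangeG_sound parWF r2 pf42140 h42140
  have h42142 := checkRangeG_sound parWF r2 pf42141 h42141
  have h42143 := checkRangeG_sound parWF r2 pf42142 h42142
  have h42144 := checkRangeG_sound parWF r2 pf42143 h42143
  have h42145 := checkRangeG_sound parWF r2 pf42144 h42144
  have h42146 := checkRangeG_sound parWF r2 pf42145 h42145
  have h42147 := checkRangeG_sound parWF r2 pf42146 h42146
  have h42148 := checkRangeG_sound parWF r2 pf42147 h42147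
  have h42149 := checkRangeG_sound parWF r2 pf42148 h42148
  have h42150 := checkRangeG_sound parWF r2 pf42149 h42149
  exact h42150

theorem c843 (h42150 : ∀ j, j < 144763 → GoodG.{u} par (db j)) : ∀ j, j < 144996 → GoodG.{u} par (db j) := by
  have h42151 := checkRangeG_sound parWF r2 pf42150 h42150
  have h42152 := checkRangeG_sound parWF r2 pf42151 h42151
  have h42153 := checkRangeG_sound parWF r2 pf42152 h42152
  have h42154 := checkRangeG_sound parWF r2 pf42153 h42153
  have h42155 := checkRangeG_sound parWF r2 pf42154 h42154
  have h42156 := checkRangeG_sound parWF r2 pf42155 h42155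
  have h42157 := checkRangeG_sound parWF r2 pf42156 h42156
  have h42158 := checkRangeG_sound parWF r2 pf42157 h42157
  have h42159 := checkRangeG_sound parWF r2 pf42158 h42158
  have h42160 := checkRangeG_sound parWF r2 pf42159 h42159
  have h42161 := checkRangeG_sound parWF r2 pf42160 h42160
  have h42162 := checkRangeG_sound parWF r2 pf42161 h42161
  have h42163 := checkRangeG_sound parWF r2 pf42162 h42162
  have h42164 := checkRangeG_sound parWF r2 pf42163 h42163
  have h42165 := checkRangeG_sound parWF r2 pf42164 h42164
  have h42166 := checkRangeG_sound parWF r2 pf42165 h42165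
  have h42167 := checkRangeG_sound parWF r2 pf42166 h42166
  have h42168 := checkRangeG_sound parWF r2 pf42167 h42167
  have h42169 := checkRangeG_sound parWF r2 pf42168 h42168
  have h42170 := checkRangeG_sound parWF r2 pf42169 h42169
  have h42171 := checkRangeG_sound parWF r2 pf42170 h42170
  have h42172 := checkRangeG_sound parWF r2 pf42171 h42171
  have h42173 := checkRangeG_sound parWF r2 pf42172 h42172
  have h42174 := checkRangeG_sound parWF r2 pf42173 h42173
  have h42175 := checkRangeG_sound parWF r2 pf42174 h42174
  have h42176 := checkRangeG_sound parWF r2 pf42175 h42175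
  have h42177 := checkRangeG_sound parWF r2 pf42176 h42176
  have h42178 := checkRangeG_sound parWF r2 pf42177 h42177
  have h42179 := checkRangeG_sound parWF r2 pf42178 h42178
  have h42180 := checkRangeG_sound parWF r2 pf42179 h42179
  have h42181 := checkRangeG_sound parWF r2 pf42180 h42180
  have h42182 := checkRangeG_sound parWF r2 pf42181 h42181
  have h42183 := checkRangeG_sound parWF r2 pf42182 h42182
  have h42184 := checkRangeG_sound parWF r2 pf42183 h42183
  have h42185 := checkRangeG_sound parWF r2 pf42184 h42184
  have h42186 := checkRangeG_sound parWF r2 pf42185 h42185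
  have h42187 := checkRangeG_sound parWF r2 pf42186 h42186
  have h42188 := checkRangeG_sound parWF r2 pf42187 h42187
  have h42189 := checkRangeG_sound parWF r2 pf42188 h42188
  have h42190 := checkRangeG_sound parWF r2 pf42189 h42189
  have h42191 := checkRangeG_sound parWF r2 pf42190 h42190
  have h42192 := checkRangeG_sound parWF r2 pf42191 h42191
  have h42193 := checkRangeG_sound parWF r2 pf42192 h42192
  have h42194 := checkRangeG_sound parWF r2 pf42193 h42193
  have h42195 := checkRangeG_sound parWF r2 pf42194 h42194
  have h42196 := checkRangeG_sound parWF r2 pf42195 h42195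
  have h42197 := checkRangeG_sound parWF r2 pf42196 h42196
  have h42198 := checkRangeG_sound parWF r2 pf42197 h42197
  have h42199 := checkRangeG_sound parWF r2 pf42198 h42198
  have h42200 := checkRangeG_sound parWF r2 pf42199 h42199
  exact h42200

theorem c844 (h42200 : ∀ j, j < 144996 → GoodG.{u} par (db j)) : ∀ j, j < 145236 → GoodG.{u} par (db j) := by
  have h42201 := checkRangeG_sound parWF r2 pf42200 h42200
  have h42202 := checkRangeG_sound parWF r2 pf42201 h42201
  have h42203 := checkRangeG_sound parWF r2 pf42202 h42202
  have h42204 := checkRangeG_sound parWF r2 pf42203 h42203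
  have h42205 := checkRangeG_sound parWF r2 pf42204 h42204
  have h42206 := checkRangeG_sound parWF r2 pf42205 h42205
  have h42207 := checkRangeG_sound parWF r2 pf42206 h42206
  have h42208 := checkRangeG_sound parWF r2 pf42207 h42207
  have h42209 := checkRangeG_sound parWF r2 pf42208 h42208
  have h42210 := checkRangeG_sound parWF r2 pf42209 h42209
  have h42211 := checkRangeG_sound parWF r2 pf42210 h42210
  have h42212 := checkRangeG_sound parWF r2 pf42211 h42211
  have h42213 := checkRangeG_sound parWF r2 pf42212 h42212
  have h42214 := checkRangeG_sound parWF r2 pf42213 h42213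
  have h42215 := checkRangeG_sound parWF r2 pf42214 h42214
  have h42216 := checkRangeG_sound parWF r2 pf42215 h42215
  have h42217 := checkRangeG_sound parWF r2 pf42216 h42216
  have h42218 := checkRangeG_sound parWF r2 pf42217 h42217
  have h42219 := checkRangeG_sound parWF r2 pf42218 h42218
  have h42220 := checkRangeG_sound parWF r2 pf42219 h42219
  have h42221 := checkRangeG_sound parWF r2 pf42220 h42220
  have h42222 := checkRangeG_sound parWF r2 pf42221 h42221
  have h42223 := checkRangeG_sound parWF r2 pf42222 h42222
  have h42224 := checkRangeG_sound parWF r2 pf42223 h42223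
  have h42225 := checkRangeG_sound parWF r2 pf42224 h42224
  have h42226 := checkRangeG_sound parWF r2 pf42225 h42225
  have h42227 := checkRangeG_sound parWF r2 pf42226 h42226
  have h42228 := checkRangeG_sound parWF r2 pf42227 h42227
  have h42229 := checkRangeG_sound parWF r2 pf42228 h42228
  have h42230 := checkRangeG_sound parWF r2 pf42229 h42229
  have h42231 := checkRangeG_sound parWF r2 pf42230 h42230
  have h42232 := checkRangeG_sound parWF r2 pf42231 h42231
  have h42233 := checkRangeG_sound parWF r2 pf42232 h42232
  have h42234 := checkRangeG_sound parWF r2 pf42233 h42233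
  have h42235 := checkRangeG_sound parWF r2 pf42234 h42234
  have h42236 := checkRangeG_sound parWF r2 pf42235 h42235
  have h42237 := checkRangeG_sound parWF r2 pf42236 h42236
  have h42238 := checkRangeG_sound parWF r2 pf42237 h42237
  have h42239 := checkRangeG_sound parWF r2 pf42238 h42238
  have h42240 := checkRangeG_sound parWF r2 pf42239 h42239
  have h42241 := checkRangeG_sound parWF r2 pf42240 h42240
  have h42242 := checkRangeG_sound parWF r2 pf42241 h42241
  have h42243 := checkRangeG_sound parWF r2 pf42242 h42242
  have h42244 := checkRangeG_sound parWF r2 pf42243 h42243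
  have h42245 := checkRangeG_sound parWF r2 pf42244 h42244
  have h42246 := checkRangeG_sound parWF r2 pf42245 h42245
  have h42247 := checkRangeG_sound parWF r2 pf42246 h42246
  have h42248 := checkRangeG_sound parWF r2 pf42247 h42247
  have h42249 := checkRangeG_sound parWF r2 pf42248 h42248
  have h42250 := checkRangeG_sound parWF r2 pf42249 h42249
  exact h42250

theorem c845 (h42250 : ∀ j, j < 145236 → GoodG.{u} par (db j)) : ∀ j, j < 145476 → GoodG.{u} par (db j) := by
  have h42251 := checkRangeG_sound parWF r2 pf42250 h42250
  have h42252 := checkRangeG_sound parWF r2 pf42251 h42251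
  have h42253 := checkRangeG_sound parWF r2 pf42252 h42252
  have h42254 := checkRangeG_sound parWF r2 pf42253 h42253
  have h42255 := checkRangeG_sound parWF r2 pf42254 h42254
  have h42256 := checkRangeG_sound parWF r2 pf42255 h42255
  have h42257 := checkRangeG_sound parWF r2 pf42256 h42256
  have h42258 := checkRangeG_sound parWF r2 pf42257 h42257
  have h42259 := checkRangeG_sound parWF r2 pf42258 h42258
  have h42260 := checkRangeG_sound parWF r2 pf42259 h42259
  have h42261 := checkRangeG_sound parWF r2 pf42260 h42260
  have h42262 := checkRangeG_sound parWF r2 pf42261 h42261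
  have h42263 := checkRangeG_sound parWF r2 pf42262 h42262
  have h42264 := checkRangeG_sound parWF r2 pf42263 h42263
  have h42265 := checkRangeG_sound parWF r2 pf42264 h42264
  have h42266 := checkRangeG_sound parWF r2 pf42265 h42265
  have h42267 := checkRangeG_sound parWF r2 pf42266 h42266
  have h42268 := checkRangeG_sound parWF r2 pf42267 h42267
  have h42269 := checkRangeG_sound parWF r2 pf42268 h42268
  have h42270 := checkRangeG_sound parWF r2 pf42269 h42269
  have h42271 := checkRangeG_sound parWF r2 pf42270 h42270
  have h42272 := checkRangeG_sound parWF r2 pf42271 h42271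
  have h42273 := checkRangeG_sound parWF r2 pf42272 h42272
  have h42274 := checkRangeG_sound parWF r2 pf42273 h42273
  have h42275 := checkRangeG_sound parWF r2 pf42274 h42274
  have h42276 := checkRangeG_sound parWF r2 pf42275 h42275
  have h42277 := checkRangeG_sound parWF r2 pf42276 h42276
  have h42278 := checkRangeG_sound parWF r2 pf42277 h42277
  have h42279 := checkRangeG_sound parWF r2 pf42278 h42278
  have h42280 := checkRangeG_sound parWF r2 pf42279 h42279
  have h42281 := checkRangeG_sound parWF r2 pf42280 h42280
  have h42282 := checkRangeG_sound parWF r2 pf42281 h42281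
  have h42283 := checkRangeG_sound parWF r2 pf42282 h42282
  have h42284 := checkRangeG_sound parWF r2 pf42283 h42283
  have h42285 := checkRangeG_sound parWF r2 pf42284 h42284
  have h42286 := checkRangeG_sound parWF r2 pf42285 h42285
  have h42287 := checkRangeG_sound parWF r2 pf42286 h42286
  have h42288 := checkRangeG_sound parWF r2 pf42287 h42287
  have h42289 := checkRangeG_sound parWF r2 pf42288 h42288
  have h42290 := checkRangeG_sound parWF r2 pf42289 h42289
  have h42291 := checkRangeG_sound parWF r2 pf42290 h42290
  have h42292 := checkRangeG_sound parWF r2 pf42291 h42291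
  have h42293 := checkRangeG_sound parWF r2 pf42292 h42292
  have h42294 := checkRangeG_sound parWF r2 pf42293 h42293
  have h42295 := checkRangeG_sound parWF r2 pf42294 h42294
  have h42296 := checkRangeG_sound parWF r2 pf42295 h42295
  have h42297 := checkRangeG_sound parWF r2 pf42296 h42296
  have h42298 := checkRangeG_sound parWF r2 pf42297 h42297
  have h42299 := checkRangeG_sound parWF r2 pf42298 h42298
  have h42300 := checkRangeG_sound parWF r2 pf42299 h42299
  exact h42300

theorem c846 (h42300 : ∀ j, j < 145476 → GoodG.{u} par (db j)) : ∀ j, j < 145731 → GoodG.{u} par (db j) := by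
  have h42301 := checkRangeG_sound parWF r2 pf42300 h42300
  have h42302 := checkRangeG_sound parWF r2 pf42301 h42301
  have h42303 := checkRangeG_sound parWF r2 pf42302 h42302
  have h42304 := checkRangeG_sound parWF r2 pf42303 h42303
  have h42305 := checkRangeG_sound parWF r2 pf42304 h42304
  have h42306 := checkRangeG_sound parWF r2 pf42305 h42305
  have h42307 := checkRangeG_sound parWF r2 pf42306 h42306
  have h42308 := checkRangeG_sound parWF r2 pf42307 h42307
  have h42309 := checkRangeG_sound parWF r2 pf42308 h42308
  have h42310 := checkRangeG_sound parWF r2 pf42309 h42309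
  have h42311 := checkRangeG_sound parWF r2 pf42310 h42310
  have h42312 := checkRangeG_sound parWF r2 pf42311 h42311
  have h42313 := checkRangeG_sound parWF r2 pf42312 h42312
  have h42314 := checkRangeG_sound parWF r2 pf42313 h42313
  have h42315 := checkRangeG_sound parWF r2 pf42314 h42314
  have h42316 := checkRangeG_sound parWF r2 pf42315 h42315
  have h42317 := checkRangeG_sound parWF r2 pf42316 h42316
  have h42318 := checkRangeG_sound parWF r2 pf42317 h42317
  have h42319 := checkRangeG_sound parWF r2 pf42318 h42318
  have h42320 := checkRangeG_sound parWF r2 pf42319 h42319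
  have h42321 := checkRangeG_sound parWF r2 pf42320 h42320
  have h42322 := checkRangeG_sound parWF r2 pf42321 h42321
  have h42323 := checkRangeG_sound parWF r2 pf42322 h42322
  have h42324 := checkRangeG_sound parWF r2 pf42323 h42323
  have h42325 := checkRangeG_sound parWF r2 pf42324 h42324
  have h42326 := checkRangeG_sound parWF r2 pf42325 h42325
  have h42327 := checkRangeG_sound parWF r2 pf42326 h42326
  have h42328 := checkRangeG_sound parWF r2 pf42327 h42327
  have h42329 := checkRangeG_sound parWF r2 pf42328 h42328
  have h42330 := checkRangeG_sound parWF r2 pf42329 h42329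
  have h42331 := checkRangeG_sound parWF r2 pf42330 h42330
  have h42332 := checkRangeG_sound parWF r2 pf42331 h42331
  have h42333 := checkRangeG_sound parWF r2 pf42332 h42332
  have h42334 := checkRangeG_sound parWF r2 pf42333 h42333
  have h42335 := checkRangeG_sound parWF r2 pf42334 h42334
  have h42336 := checkRangeG_sound parWF r2 pf42335 h42335
  have h42337 := checkRangeG_sound parWF r2 pf42336 h42336
  have h42338 := checkRangeG_sound parWF r2 pf42337 h42337
  have h42339 := checkRangeG_sound parWF r2 pf42338 h42338
  have h42340 := checkRangeG_sound parWF r2 pf42339 h42339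
  have h42341 := checkRangeG_sound parWF r2 pf42340 h42340
  have h42342 := checkRangeG_sound parWF r2 pf42341 h42341
  have h42343 := checkRangeG_sound parWF r2 pf42342 h42342
  have h42344 := checkRangeG_sound parWF r2 pf42343 h42343
  have h42345 := checkRangeG_sound parWF r2 pf42344 h42344
  have h42346 := checkRangeG_sound parWF r2 pf42345 h42345
  have h42347 := checkRangeG_sound parWF r2 pf42346 h42346
  have h42348 := checkRangeG_sound parWF r2 pf42347 h42347
  have h42349 := checkRangeG_sound parWF r2 pf42348 h42348
  have h42350 := checkRangeG_sound parWF r2 pf42349 h42349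
  exact h42350

theorem c847 (h42350 : ∀ j, j < 145731 → GoodG.{u} par (db j)) : ∀ j, j < 145960 → GoodG.{u} par (db j) := by
  have h42351 := checkRangeG_sound parWF r2 pf42350 h42350
  have h42352 := checkRangeG_sound parWF r2 pf42351 h42351
  have h42353 := checkRangeG_sound parWF r2 pf42352 h42352
  have h42354 := checkRangeG_sound parWF r2 pf42353 h42353
  have h42355 := checkRangeG_sound parWF r2 pf42354 h42354
  have h42356 := checkRangeG_sound parWF r2 pf42355 h42355
  have h42357 := checkRangeG_sound parWF r2 pf42356 h42356
  have h42358 := checkRangeG_sound parWF r2 pf42357 h42357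
  have h42359 := checkRangeG_sound parWF r2 pf42358 h42358
  have h42360 := checkRangeG_sound parWF r2 pf42359 h42359
  have h42361 := checkRangeG_sound parWF r2 pf42360 h42360
  have h42362 := checkRangeG_sound parWF r2 pf42361 h42361
  have h42363 := checkRangeG_sound parWF r2 pf42362 h42362
  have h42364 := checkRangeG_sound parWF r2 pf42363 h42363
  have h42365 := checkRangeG_sound parWF r2 pf42364 h42364
  have h42366 := checkRangeG_sound parWF r2 pf42365 h42365
  have h42367 := checkRangeG_sound parWF r2 pf42366 h42366
  have h42368 := checkRangeG_sound parWF r2 pf42367 h42367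
  have h42369 := checkRangeG_sound parWF r2 pf42368 h42368
  have h42370 := checkRangeG_sound parWF r2 pf42369 h42369
  have h42371 := checkRangeG_sound parWF r2 pf42370 h42370
  have h42372 := checkRangeG_sound parWF r2 pf42371 h42371
  have h42373 := checkRangeG_sound parWF r2 pf42372 h42372
  have h42374 := checkRangeG_sound parWF r2 pf42373 h42373
  have h42375 := checkRangeG_sound parWF r2 pf42374 h42374
  have h42376 := checkRangeG_sound parWF r2 pf42375 h42375
  have h42377 := checkRangeG_sound parWF r2 pf42376 h42376
  have h42378 := checkRangeG_sound parWF r2 pf42377 h42377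
  have h42379 := checkRangeG_sound parWF r2 pf42378 h42378
  have h42380 := checkRangeG_sound parWF r2 pf42379 h42379
  have h42381 := checkRangeG_sound parWF r2 pf42380 h42380
  have h42382 := checkRangeG_sound parWF r2 pf42381 h42381
  have h42383 := checkRangeG_sound parWF r2 pf42382 h42382
  have h42384 := checkRangeG_sound parWF r2 pf42383 h42383
  have h42385 := checkRangeG_sound parWF r2 pf42384 h42384
  have h42386 := checkRangeG_sound parWF r2 pf42385 h42385
  have h42387 := checkRangeG_sound parWF r2 pf42386 h42386
  have h42388 := checkRangeG_sound parWF r2 pf42387 h42387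
  have h42389 := checkRangeG_sound parWF r2 pf42388 h42388
  have h42390 := checkRangeG_sound parWF r2 pf42389 h42389
  have h42391 := checkRangeG_sound parWF r2 pf42390 h42390
  have h42392 := checkRangeG_sound parWF r2 pf42391 h42391
  have h42393 := checkRangeG_sound parWF r2 pf42392 h42392
  have h42394 := checkRangeG_sound parWF r2 pf42393 h42393
  have h42395 := checkRangeG_sound parWF r2 pf42394 h42394
  have h42396 := checkRangeG_sound parWF r2 pf42395 h42395
  have h42397 := checkRangeG_sound parWF r2 pf42396 h42396
  have h42398 := checkRangeG_sound parWF r2 pf42397 h42397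
  have h42399 := checkRangeG_sound parWF r2 pf42398 h42398
  have h42400 := checkRangeG_sound parWF r2 pf42399 h42399
  exact h42400

theorem c848 (h42400 : ∀ j, j < 145960 → GoodG.{u} par (db j)) : ∀ j, j < 146157 → GoodG.{u} par (db j) := by
  have h42401 := checkRangeG_sound parWF r2 pf42400 h42400
  have h42402 := checkRangeG_sound parWF r2 pf42401 h42401
  have h42403 := checkRangeG_sound parWF r2 pf42402 h42402
  have h42404 := checkRangeG_sound parWF r2 pf42403 h42403
  have h42405 := checkRangeG_sound parWF r2 pf42404 h42404
  have h42406 := checkRangeG_sound parWF r2 pf42405 h42405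
  have h42407 := checkRangeG_sound parWF r2 pf42406 h42406
  have h42408 := checkRangeG_sound parWF r2 pf42407 h42407
  have h42409 := checkRangeG_sound parWF r2 pf42408 h42408
  have h42410 := checkRangeG_sound parWF r2 pf42409 h42409
  have h42411 := checkRangeG_sound parWF r2 pf42410 h42410
  have h42412 := checkRangeG_sound parWF r2 pf42411 h42411
  have h42413 := checkRangeG_sound parWF r2 pf42412 h42412
  have h42414 := checkRangeG_sound parWF r2 pf42413 h42413
  have h42415 := checkRangeG_sound parWF r2 pf42414 h42414
  have h42416 := checkRangeG_sound parWF r2 pf42415 h42415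
  have h42417 := checkRangeG_sound parWF r2 pf42416 h42416
  have h42418 := checkRangeG_sound parWF r2 pf42417 h42417
  have h42419 := checkRangeG_sound parWF r2 pf42418 h42418
  have h42420 := checkRangeG_sound parWF r2 pf42419 h42419
  have h42421 := checkRangeG_sound parWF r2 pf42420 h42420
  have h42422 := checkRangeG_sound parWF r2 pf42421 h42421
  have h42423 := checkRangeG_sound parWF r2 pf42422 h42422
  have h42424 := checkRangeG_sound parWF r2 pf42423 h42423
  have h42425 := checkRangeG_sound parWF r2 pf42424 h42424
  have h42426 := checkRangeG_sound parWF r2 pf42425 h42425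
  have h42427 := checkRangeG_sound parWF r2 pf42426 h42426
  have h42428 := checkRangeG_sound parWF r2 pf42427 h42427
  have h42429 := checkRangeG_sound parWF r2 pf42428 h42428
  have h42430 := checkRangeG_sound parWF r2 pf42429 h42429
  have h42431 := checkRangeG_sound parWF r2 pf42430 h42430
  have h42432 := checkRangeG_sound parWF r2 pf42431 h42431
  have h42433 := checkRangeG_sound parWF r2 pf42432 h42432
  have h42434 := checkRangeG_sound parWF r2 pf42433 h42433
  have h42435 := checkRangeG_sound parWF r2 pf42434 h42434
  have h42436 := checkRangeG_sound parWF r2 pf42435 h42435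
  have h42437 := checkRangeG_sound parWF r2 pf42436 h42436
  have h42438 := checkRangeG_sound parWF r2 pf42437 h42437
  have h42439 := checkRangeG_sound parWF r2 pf42438 h42438
  have h42440 := checkRangeG_sound parWF r2 pf42439 h42439
  have h42441 := checkRangeG_sound parWF r2 pf42440 h42440
  have h42442 := checkRangeG_sound parWF r2 pf42441 h42441
  have h42443 := checkRangeG_sound parWF r2 pf42442 h42442
  have h42444 := checkRangeG_sound parWF r2 pf42443 h42443
  have h42445 := checkRangeG_sound parWF r2 pf42444 h42444
  have h42446 := checkRangeG_sound parWF r2 pf42445 h42445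
  have h42447 := checkRangeG_sound parWF r2 pf42446 h42446
  have h42448 := checkRangeG_sound parWF r2 pf42447 h42447
  have h42449 := checkRangeG_sound parWF r2 pf42448 h42448
  have h42450 := checkRangeG_sound parWF r2 pf42449 h42449
  exact h42450

theorem c849 (h42450 : ∀ j, j < 146157 → GoodG.{u} par (db j)) : ∀ j, j < 146357 → GoodG.{u} par (db j) := by
  have h42451 := checkRangeG_sound parWF r2 pf42450 h42450
  have h42452 := checkRangeG_sound parWF r2 pf42451 h42451
  have h42453 := checkRangeG_sound parWF r2 pf42452 h42452
  have h42454 := checkRangeG_sound parWF r2 pf42453 h42453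
  have h42455 := checkRangeG_sound parWF r2 pf42454 h42454
  have h42456 := checkRangeG_sound parWF r2 pf42455 h42455
  have h42457 := checkRangeG_sound parWF r2 pf42456 h42456
  have h42458 := checkRangeG_sound parWF r2 pf42457 h42457
  have h42459 := checkRangeG_sound parWF r2 pf42458 h42458
  have h42460 := checkRangeG_sound parWF r2 pf42459 h42459
  have h42461 := checkRangeG_sound parWF r2 pf42460 h42460
  have h42462 := checkRangeG_sound parWF r2 pf42461 h42461
  have h42463 := checkRangeG_sound parWF r2 pf42462 h42462
  have h42464 := checkRangeG_sound parWF r2 pf42463 h42463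
  have h42465 := checkRangeG_sound parWF r2 pf42464 h42464
  have h42466 := checkRangeG_sound parWF r2 pf42465 h42465
  have h42467 := checkRangeG_sound parWF r2 pf42466 h42466
  have h42468 := checkRangeG_sound parWF r2 pf42467 h42467
  have h42469 := checkRangeG_sound parWF r2 pf42468 h42468
  have h42470 := checkRangeG_sound parWF r2 pf42469 h42469
  have h42471 := checkRangeG_sound parWF r2 pf42470 h42470
  have h42472 := checkRangeG_sound parWF r2 pf42471 h42471
  have h42473 := checkRangeG_sound parWF r2 pf42472 h42472
  have h42474 := checkRangeG_sound parWF r2 pf42473 h42473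
  have h42475 := checkRangeG_sound parWF r2 pf42474 h42474
  have h42476 := checkRangeG_sound parWF r2 pf42475 h42475
  have h42477 := checkRangeG_sound parWF r2 pf42476 h42476
  have h42478 := checkRangeG_sound parWF r2 pf42477 h42477
  have h42479 := checkRangeG_sound parWF r2 pf42478 h42478
  have h42480 := checkRangeG_sound parWF r2 pf42479 h42479
  have h42481 := checkRangeG_sound parWF r2 pf42480 h42480
  have h42482 := checkRangeG_sound parWF r2 pf42481 h42481
  have h42483 := checkRangeG_sound parWF r2 pf42482 h42482
  have h42484 := checkRangeG_sound parWF r2 pf42483 h42483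
  have h42485 := checkRangeG_sound parWF r2 pf42484 h42484
  have h42486 := checkRangeG_sound parWF r2 pf42485 h42485
  have h42487 := checkRangeG_sound parWF r2 pf42486 h42486
  have h42488 := checkRangeG_sound parWF r2 pf42487 h42487
  have h42489 := checkRangeG_sound parWF r2 pf42488 h42488
  have h42490 := checkRangeG_sound parWF r2 pf42489 h42489
  have h42491 := checkRangeG_sound parWF r2 pf42490 h42490
  have h42492 := checkRangeG_sound parWF r2 pf42491 h42491
  have h42493 := checkRangeG_sound parWF r2 pf42492 h42492
  have h42494 := checkRangeG_sound parWF r2 pf42493 h42493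
  have h42495 := checkRangeG_sound parWF r2 pf42494 h42494
  have h42496 := checkRangeG_sound parWF r2 pf42495 h42495
  have h42497 := checkRangeG_sound parWF r2 pf42496 h42496
  have h42498 := checkRangeG_sound parWF r2 pf42497 h42497
  have h42499 := checkRangeG_sound parWF r2 pf42498 h42498
  have h42500 := checkRangeG_sound parWF r2 pf42499 h42499
  exact h42500

theorem c850 (h42500 : ∀ j, j < 146357 → GoodG.{u} par (db j)) : ∀ j, j < 146556 → GoodG.{u} par (db j) := by
  have h42501 := checkRangeG_sound parWF r2 pf42500 h42500
  have h42502 := checkRangeG_sound parWF r2 pf42501 h42501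
  have h42503 := checkRangeG_sound parWF r2 pf42502 h42502
  have h42504 := checkRangeG_sound parWF r2 pf42503 h42503
  have h42505 := checkRangeG_sound parWF r2 pf42504 h42504
  have h42506 := checkRangeG_sound parWF r2 pf42505 h42505
  have h42507 := checkRangeG_sound parWF r2 pf42506 h42506
  have h42508 := checkRangeG_sound parWF r2 pf42507 h42507
  have h42509 := checkRangeG_sound parWF r2 pf42508 h42508
  have h42510 := checkRangeG_sound parWF r2 pf42509 h42509
  have h42511 := checkRangeG_sound parWF r2 pf42510 h42510
  have h42512 := checkRangeG_sound parWF r2 pf42511 h42511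
  have h42513 := checkRangeG_sound parWF r2 pf42512 h42512
  have h42514 := checkRangeG_sound parWF r2 pf42513 h42513
  have h42515 := checkRangeG_sound parWF r2 pf42514 h42514
  have h42516 := checkRangeG_sound parWF r2 pf42515 h42515
  have h42517 := checkRangeG_sound parWF r2 pf42516 h42516
  have h42518 := checkRangeG_sound parWF r2 pf42517 h42517
  have h42519 := checkRangeG_sound parWF r2 pf42518 h42518
  have h42520 := checkRangeG_sound parWF r2 pf42519 h42519
  have h42521 := checkRangeG_sound parWF r2 pf42520 h42520
  have h42522 := checkRangeG_sound parWF r2 pf42521 h42521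
  have h42523 := checkRangeG_sound parWF r2 pf42522 h42522
  have h42524 := checkRangeG_sound parWF r2 pf42523 h42523
  have h42525 := checkRangeG_sound parWF r2 pf42524 h42524
  have h42526 := checkRangeG_sound parWF r2 pf42525 h42525
  have h42527 := checkRangeG_sound parWF r2 pf42526 h42526
  have h42528 := checkRangeG_sound parWF r2 pf42527 h42527
  have h42529 := checkRangeG_sound parWF r2 pf42528 h42528
  have h42530 := checkRangeG_sound parWF r2 pf42529 h42529
  have h42531 := checkRangeG_sound parWF r2 pf42530 h42530
  have h42532 := checkRangeG_sound parWF r2 pf42531 h42531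
  have h42533 := checkRangeG_sound parWF r2 pf42532 h42532
  have h42534 := checkRangeG_sound parWF r2 pf42533 h42533
  have h42535 := checkRangeG_sound parWF r2 pf42534 h42534
  have h42536 := checkRangeG_sound parWF r2 pf42535 h42535
  have h42537 := checkRangeG_sound parWF r2 pf42536 h42536
  have h42538 := checkRangeG_sound parWF r2 pf42537 h42537
  have h42539 := checkRangeG_sound parWF r2 pf42538 h42538
  have h42540 := checkRangeG_sound parWF r2 pf42539 h42539
  have h42541 := checkRangeG_sound parWF r2 pf42540 h42540
  have h42542 := checkRangeG_sound parWF r2 pf42541 h42541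
  have h42543 := checkRangeG_sound parWF r2 pf42542 h42542
  have h42544 := checkRangeG_sound parWF r2 pf42543 h42543
  have h42545 := checkRangeG_sound parWF r2 pf42544 h42544
  have h42546 := checkRangeG_sound parWF r2 pf42545 h42545
  have h42547 := checkRangeG_sound parWF r2 pf42546 h42546
  have h42548 := checkRangeG_sound parWF r2 pf42547 h42547
  have h42549 := checkRangeG_sound parWF r2 pf42548 h42548
  have h42550 := checkRangeG_sound parWF r2 pf42549 h42549
  exact h42550

theorem c851 (h42550 : ∀ j, j < 146556 → GoodG.{u} par (db j)) : ∀ j, j < 146764 → GoodG.{u} par (db j) := by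
  have h42551 := checkRangeG_sound parWF r2 pf42550 h42550
  have h42552 := checkRangeG_sound parWF r2 pf42551 h42551
  have h42553 := checkRangeG_sound parWF r2 pf42552 h42552
  have h42554 := checkRangeG_sound parWF r2 pf42553 h42553
  have h42555 := checkRangeG_sound parWF r2 pf42554 h42554
  have h42556 := checkRangeG_sound parWF r2 pf42555 h42555
  have h42557 := checkRangeG_sound parWF r2 pf42556 h42556
  have h42558 := checkRangeG_sound parWF r2 pf42557 h42557
  have h42559 := checkRangeG_sound parWF r2 pf42558 h42558
  have h42560 := checkRangeG_sound parWF r2 pf42559 h42559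
  have h42561 := checkRangeG_sound parWF r2 pf42560 h42560
  have h42562 := checkRangeG_sound parWF r2 pf42561 h42561
  have h42563 := checkRangeG_sound parWF r2 pf42562 h42562
  have h42564 := checkRangeG_sound parWF r2 pf42563 h42563
  have h42565 := checkRangeG_sound parWF r2 pf42564 h42564
  have h42566 := checkRangeG_sound parWF r2 pf42565 h42565
  have h42567 := checkRangeG_sound parWF r2 pf42566 h42566
  have h42568 := checkRangeG_sound parWF r2 pf42567 h42567
  have h42569 := checkRangeG_sound parWF r2 pf42568 h42568
  have h42570 := checkRangeG_sound parWF r2 pf42569 h42569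
  have h42571 := checkRangeG_sound parWF r2 pf42570 h42570
  have h42572 := checkRangeG_sound parWF r2 pf42571 h42571
  have h42573 := checkRangeG_sound parWF r2 pf42572 h42572
  have h42574 := checkRangeG_sound parWF r2 pf42573 h42573
  have h42575 := checkRangeG_sound parWF r2 pf42574 h42574
  have h42576 := checkRangeG_sound parWF r2 pf42575 h42575
  have h42577 := checkRangeG_sound parWF r2 pf42576 h42576
  have h42578 := checkRangeG_sound parWF r2 pf42577 h42577
  have h42579 := checkRangeG_sound parWF r2 pf42578 h42578
  have h42580 := checkRangeG_sound parWF r2 pf42579 h42579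
  have h42581 := checkRangeG_sound parWF r2 pf42580 h42580
  have h42582 := checkRangeG_sound parWF r2 pf42581 h42581
  have h42583 := checkRangeG_sound parWF r2 pf42582 h42582
  have h42584 := checkRangeG_sound parWF r2 pf42583 h42583
  have h42585 := checkRangeG_sound parWF r2 pf42584 h42584
  have h42586 := checkRangeG_sound parWF r2 pf42585 h42585
  have h42587 := checkRangeG_sound parWF r2 pf42586 h42586
  have h42588 := checkRangeG_sound parWF r2 pf42587 h42587
  have h42589 := checkRangeG_sound parWF r2 pf42588 h42588
  have h42590 := checkRangeG_sound parWF r2 pf42589 h42589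
  have h42591 := checkRangeG_sound parWF r2 pf42590 h42590
  have h42592 := checkRangeG_sound parWF r2 pf42591 h42591
  have h42593 := checkRangeG_sound parWF r2 pf42592 h42592
  have h42594 := checkRangeG_sound parWF r2 pf42593 h42593
  have h42595 := checkRangeG_sound parWF r2 pf42594 h42594
  have h42596 := checkRangeG_sound parWF r2 pf42595 h42595
  have h42597 := checkRangeG_sound parWF r2 pf42596 h42596
  have h42598 := checkRangeG_sound parWF r2 pf42597 h42597
  have h42599 := checkRangeG_sound parWF r2 pf42598 h42598
  have h42600 := checkRangeG_sound parWF r2 pf42599 h42599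
  exact h42600


end Vale.Agent.P045g.C61
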