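import Vale.Agent.P045g.C61.WF
import Vale.Agent.P045g.C61.Pf710
import Vale.Agent.P045g.C61.Pf711
import Vale.Agent.P045g.C61.Pf712
import Vale.Agent.P045g.C61.Pf713
import Vale.Agent.P045g.C61.Pf714
import Vale.Agent.P045g.C61.Pf715
import Vale.Agent.P045g.C61.Pf716
import Vale.Agent.P045g.C61.Pf717
import Vale.Agent.P045g.C61.Pf718
import Vale.Agent.P045g.C61.Pf719

namespace Vale.Agent.P045g.C61

open Vale.Agent.P045b Vale.Agent.P045g

universe u

theorem c852 (h42600 : ∀ j, j < 146764 → GoodG.{u} par (db j)) : ∀ j, j < 146976 → GoodG.{u} par (db j) := by
  have h42601 := checkRangeG_sound parWF r2 pf42600 h42600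
  have h42602 := checkRangeG_sound parWF r2 pf42601 h42601
  have h42603 := checkRangeG_sound parWF r2 pf42602 h42602
  have h42604 := checkRangeG_sound parWF r2 pf42603 h42603
  have h42605 := checkRangeG_sound parWF r2 pf42604 h42604
  have h42606 := checkRangeG_sound parWF r2 pf42605 h42605
  have h42607 := checkRangeG_sound parWF r2 pf42606 h42606
  have h42608 := checkRangeG_sound parWF r2 pf42607 h42607
  have h42609 := checkRangeG_sound parWF r2 pf42608 h42608
  have h42610 := checkRangeG_sound parWF r2 pf42609 h42609
  have h42611 := checkRangeG_sound parWF r2 pf42610 h42610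
  have h42612 := checkRangeG_sound parWF r2 pf42611 h42611
  have h42613 := checkRangeG_sound parWF r2 pf42612 h42612
  have h42614 := checkRangeG_sound parWF r2 pf42613 h42613
  have h42615 := checkRangeG_sound parWF r2 pf42614 h42614
  have h42616 := checkRangeG_sound parWF r2 pf42615 h42615
  have h42617 := checkRangeG_sound parWF r2 pf42616 h42616
  have h42618 := checkRangeG_sound parWF r2 pf42617 h42617
  have h42619 := checkRangeG_sound parWF r2 pf42618 h42618
  have h42620 := checkRangeG_sound parWF r2 pf42619 h42619
  have h42621 := checkRangeG_sound parWF r2 pf42620 h42620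
  have h42622 := checkRangeG_sound parWF r2 pf42621 h42621
  have h42623 := checkRangeG_sound parWF r2 pf42622 h42622
  have h42624 := checkRangeG_sound parWF r2 pf42623 h42623
  have h42625 := checkRangeG_sound parWF r2 pf42624 h42624
  have h42626 := checkRangeG_sound parWF r2 pf42625 h42625
  have h42627 := checkRangeG_sound parWF r2 pf42626 h42626
  have h42628 := checkRangeG_sound parWF r2 pf42627 h42627
  have h42629 := checkRangeG_sound parWF r2 pf42628 h42628
  have h42630 := checkRangeG_sound parWF r2 pf42629 h42629
  have h42631 := checkRangeG_sound parWF r2 pf42630 h42630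
  have h42632 := checkRangeG_sound parWF r2 pf42631 h42631
  have h42633 := checkRangeG_sound parWF r2 pf42632 h42632
  have h42634 := checkRangeG_sound parWF r2 pf42633 h42633
  have h42635 := checkRangeG_sound parWF r2 pf42634 h42634
  have h42636 := checkRangeG_sound parWF r2 pf42635 h42635
  have h42637 := checkRangeG_sound parWF r2 pf42636 h42636
  have h42638 := checkRangeG_sound parWF r2 pf42637 h42637
  have h42639 := checkRangeG_sound parWF r2 pf42638 h42638
  have h42640 := checkRangeG_sound parWF r2 pf42639 h42639
  have h42641 := checkRangeG_sound parWF r2 pf42640 h42640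
  have h42642 := checkRangeG_sound parWF r2 pf42641 h42641
  have h42643 := checkRangeG_sound parWF r2 pf42642 h42642
  have h42644 := checkRangeG_sound parWF r2 pf42643 h42643
  have h42645 := checkRangeG_sound parWF r2 pf42644 h42644
  have h42646 := checkRangeG_sound parWF r2 pf42645 h42645
  have h42647 := checkRangeG_sound parWF r2 pf42646 h42646
  have h42648 := checkRangeG_sound parWF r2 pf42647 h42647
  have h42649 := checkRangeG_sound parWF r2 pf42648 h42648
  have h42650 := checkRangeG_sound parWF r2 pf42649 h42649
  exact h42650

theorem c853 (h42650 : ∀ j, j < 146976 → GoodG.{u} par (db j)) : ∀ j, j < 147191 → GoodG.{u} par (db j) := by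
  have h42651 := checkRangeG_sound parWF r2 pf42650 h42650
  have h42652 := checkRangeG_sound parWF r2 pf42651 h42651
  have h42653 := checkRangeG_sound parWF r2 pf42652 h42652
  have h42654 := checkRangeG_sound parWF r2 pf42653 h42653
  have h42655 := checkRangeG_sound parWF r2 pf42654 h42654
  have h42656 := checkRangeG_sound parWF r2 pf42655 h42655
  have h42657 := checkRangeG_sound parWF r2 pf42656 h42656
  have h42658 := checkRangeG_sound parWF r2 pf42657 h42657
  have h42659 := checkRangeG_sound parWF r2 pf42658 h42658
  have h42660 := checkRangeG_sound parWF r2 pf42659 h42659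
  have h42661 := checkRangeG_sound parWF r2 pf42660 h42660
  have h42662 := checkRangeG_sound parWF r2 pf42661 h42661
  have h42663 := checkRangeG_sound parWF r2 pf42662 h42662
  have h42664 := checkRangeG_sound parWF r2 pf42663 h42663
  have h42665 := checkRangeG_sound parWF r2 pf42664 h42664
  have h42666 := checkRangeG_sound parWF r2 pf42665 h42665
  have h42667 := checkRangeG_sound parWF r2 pf42666 h42666
  have h42668 := checkRangeG_sound parWF r2 pf42667 h42667
  have h42669 := checkRangeG_sound parWF r2 pf42668 h42668
  have h42670 := checkRangeG_sound parWF r2 pf42669 h42669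
  have h42671 := checkRangeG_sound parWF r2 pf42670 h42670
  have h42672 := checkRangeG_sound parWF r2 pf42671 h42671
  have h42673 := checkRangeG_sound parWF r2 pf42672 h42672
  have h42674 := checkRangeG_sound parWF r2 pf42673 h42673
  have h42675 := checkRangeG_sound parWF r2 pf42674 h42674
  have h42676 := checkRangeG_sound parWF r2 pf42675 h42675
  have h42677 := checkRangeG_sound parWF r2 pf42676 h42676
  have h42678 := checkRangeG_sound parWF r2 pf42677 h42677
  have h42679 := checkRangeG_sound parWF r2 pf42678 h42678
  have h42680 := checkRangeG_sound parWF r2 pf42679 h42679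
  have h42681 := checkRangeG_sound parWF r2 pf42680 h42680
  have h42682 := checkRangeG_sound parWF r2 pf42681 h42681
  have h42683 := checkRangeG_sound parWF r2 pf42682 h42682
  have h42684 := checkRangeG_sound parWF r2 pf42683 h42683
  have h42685 := checkRangeG_sound parWF r2 pf42684 h42684
  have h42686 := checkRangeG_sound parWF r2 pf42685 h42685
  have h42687 := checkRangeG_sound parWF r2 pf42686 h42686
  have h42688 := checkRangeG_sound parWF r2 pf42687 h42687
  have h42689 := checkRangeG_sound parWF r2 pf42688 h42688
  have h42690 := checkRangeG_sound parWF r2 pf42689 h42689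
  have h42691 := checkRangeG_sound parWF r2 pf42690 h42690
  have h42692 := checkRangeG_sound parWF r2 pf42691 h42691
  have h42693 := checkRangeG_sound parWF r2 pf42692 h42692
  have h42694 := checkRangeG_sound parWF r2 pf42693 h42693
  have h42695 := checkRangeG_sound parWF r2 pf42694 h42694
  have h42696 := checkRangeG_sound parWF r2 pf42695 h42695
  have h42697 := checkRangeG_sound parWF r2 pf42696 h42696
  have h42698 := checkRangeG_sound parWF r2 pf42697 h42697
  have h42699 := checkRangeG_sound parWF r2 pf42698 h42698
  have h42700 := checkRangeG_sound parWF r2 pf42699 h42699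
  exact h42700

theorem c854 (h42700 : ∀ j, j < 147191 → GoodG.{u} par (db j)) : ∀ j, j < 147395 → GoodG.{u} par (db j) := by
  have h42701 := checkRangeG_sound parWF r2 pf42700 h42700
  have h42702 := checkRangeG_sound parWF r2 pf42701 h42701
  have h42703 := checkRangeG_sound parWF r2 pf42702 h42702
  have h42704 := checkRangeG_sound parWF r2 pf42703 h42703
  have h42705 := checkRangeG_sound parWF r2 pf42704 h42704
  have h42706 := checkRangeG_sound parWF r2 pf42705 h42705
  have h42707 := checkRangeG_sound parWF r2 pf42706 h42706
  have h42708 := checkRangeG_sound parWF r2 pf42707 h42707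
  have h42709 := checkRangeG_sound parWF r2 pf42708 h42708
  have h42710 := checkRangeG_sound parWF r2 pf42709 h42709
  have h42711 := checkRangeG_sound parWF r2 pf42710 h42710
  have h42712 := checkRangeG_sound parWF r2 pf42711 h42711
  have h42713 := checkRangeG_sound parWF r2 pf42712 h42712
  have h42714 := checkRangeG_sound parWF r2 pf42713 h42713
  have h42715 := checkRangeG_sound parWF r2 pf42714 h42714
  have h42716 := checkRangeG_sound parWF r2 pf42715 h42715
  have h42717 := checkRangeG_sound parWF r2 pf42716 h42716
  have h42718 := checkRangeG_sound parWF r2 pf42717 h42717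
  have h42719 := checkRangeG_sound parWF r2 pf42718 h42718
  have h42720 := checkRangeG_sound parWF r2 pf42719 h42719
  have h42721 := checkRangeG_sound parWF r2 pf42720 h42720
  have h42722 := checkRangeG_sound parWF r2 pf42721 h42721
  have h42723 := checkRangeG_sound parWF r2 pf42722 h42722
  have h42724 := checkRangeG_sound parWF r2 pf42723 h42723
  have h42725 := checkRangeG_sound parWF r2 pf42724 h42724
  have h42726 := checkRangeG_sound parWF r2 pf42725 h42725
  have h42727 := checkRangeG_sound parWF r2 pf42726 h42726
  have h42728 := checkRangeG_sound parWF r2 pf42727 h42727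
  have h42729 := checkRangeG_sound parWF r2 pf42728 h42728
  have h42730 := checkRangeG_sound parWF r2 pf42729 h42729
  have h42731 := checkRangeG_sound parWF r2 pf42730 h42730
  have h42732 := checkRangeG_sound parWF r2 pf42731 h42731
  have h42733 := checkRangeG_sound parWF r2 pf42732 h42732
  have h42734 := checkRangeG_sound parWF r2 pf42733 h42733
  have h42735 := checkRangeG_sound parWF r2 pf42734 h42734
  have h42736 := checkRangeG_sound parWF r2 pf42735 h42735
  have h42737 := checkRangeG_sound parWF r2 pf42736 h42736
  have h42738 := checkRangeG_sound parWF r2 pf42737 h42737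
  have h42739 := checkRangeG_sound parWF r2 pf42738 h42738
  have h42740 := checkRangeG_sound parWF r2 pf42739 h42739
  have h42741 := checkRangeG_sound parWF r2 pf42740 h42740
  have h42742 := checkRangeG_sound parWF r2 pf42741 h42741
  have h42743 := checkRangeG_sound parWF r2 pf42742 h42742
  have h42744 := checkRangeG_sound parWF r2 pf42743 h42743
  have h42745 := checkRangeG_sound parWF r2 pf42744 h42744
  have h42746 := checkRangeG_sound parWF r2 pf42745 h42745
  have h42747 := checkRangeG_sound parWF r2 pf42746 h42746
  have h42748 := checkRangeG_sound parWF r2 pf42747 h42747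
  have h42749 := checkRangeG_sound parWF r2 pf42748 h42748
  have h42750 := checkRangeG_sound parWF r2 pf42749 h42749
  exact h42750

theorem c855 (h42750 : ∀ j, j < 147395 → GoodG.{u} par (db j)) : ∀ j, j < 147588 → GoodG.{u} par (db j) := by
  have h42751 := checkRangeG_sound parWF r2 pf42750 h42750
  have h42752 := checkRangeG_sound parWF r2 pf42751 h42751
  have h42753 := checkRangeG_sound parWF r2 pf42752 h42752
  have h42754 := checkRangeG_sound parWF r2 pf42753 h42753
  have h42755 := checkRangeG_sound parWF r2 pf42754 h42754
  have h42756 := checkRangeG_sound parWF r2 pf42755 h42755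
  have h42757 := checkRangeG_sound parWF r2 pf42756 h42756
  have h42758 := checkRangeG_sound parWF r2 pf42757 h42757
  have h42759 := checkRangeG_sound parWF r2 pf42758 h42758
  have h42760 := checkRangeG_sound parWF r2 pf42759 h42759
  have h42761 := checkRangeG_sound parWF r2 pf42760 h42760
  have h42762 := checkRangeG_sound parWF r2 pf42761 h42761
  have h42763 := checkRangeG_sound parWF r2 pf42762 h42762
  have h42764 := checkRangeG_sound parWF r2 pf42763 h42763
  have h42765 := checkRangeG_sound parWF r2 pf42764 h42764
  have h42766 := checkRangeG_sound parWF r2 pf42765 h42765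
  have h42767 := checkRangeG_sound parWF r2 pf42766 h42766
  have h42768 := checkRangeG_sound parWF r2 pf42767 h42767
  have h42769 := checkRangeG_sound parWF r2 pf42768 h42768
  have h42770 := checkRangeG_sound parWF r2 pf42769 h42769
  have h42771 := checkRangeG_sound parWF r2 pf42770 h42770
  have h42772 := checkRangeG_sound parWF r2 pf42771 h42771
  have h42773 := checkRangeG_sound parWF r2 pf42772 h42772
  have h42774 := checkRangeG_sound parWF r2 pf42773 h42773
  have h42775 := checkRangeG_sound parWF r2 pf42774 h42774
  have h42776 := checkRangeG_sound parWF r2 pf42775 h42775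
  have h42777 := checkRangeG_sound parWF r2 pf42776 h42776
  have h42778 := checkRangeG_sound parWF r2 pf42777 h42777
  have h42779 := checkRangeG_sound parWF r2 pf42778 h42778
  have h42780 := checkRangeG_sound parWF r2 pf42779 h42779
  have h42781 := checkRangeG_sound parWF r2 pf42780 h42780
  have h42782 := checkRangeG_sound parWF r2 pf42781 h42781
  have h42783 := checkRangeG_sound parWF r2 pf42782 h42782
  have h42784 := checkRangeG_sound parWF r2 pf42783 h42783
  have h42785 := checkRangeG_sound parWF r2 pf42784 h42784
  have h42786 := checkRangeG_sound parWF r2 pf42785 h42785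
  have h42787 := checkRangeG_sound parWF r2 pf42786 h42786
  have h42788 := checkRangeG_sound parWF r2 pf42787 h42787
  have h42789 := checkRangeG_sound parWF r2 pf42788 h42788
  have h42790 := checkRangeG_sound parWF r2 pf42789 h42789
  have h42791 := checkRangeG_sound parWF r2 pf42790 h42790
  have h42792 := checkRangeG_sound parWF r2 pf42791 h42791
  have h42793 := checkRangeG_sound parWF r2 pf42792 h42792
  have h42794 := checkRangeG_sound parWF r2 pf42793 h42793
  have h42795 := checkRangeG_sound parWF r2 pf42794 h42794
  have h42796 := checkRangeG_sound parWF r2 pf42795 h42795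
  have h42797 := checkRangeG_sound parWF r2 pf42796 h42796
  have h42798 := checkRangeG_sound parWF r2 pf42797 h42797
  have h42799 := checkRangeG_sound parWF r2 pf42798 h42798
  have h42800 := checkRangeG_sound parWF r2 pf42799 h42799
  exact h42800

theorem c856 (h42800 : ∀ j, j < 147588 → GoodG.{u} par (db j)) : ∀ j, j < 147784 → GoodG.{u} par (db j) := by
  have h42801 := checkRangeG_sound parWF r2 pf42800 h42800
  have h42802 := checkRangeG_sound parWF r2 pf42801 h42801
  have h42803 := checkRangeG_sound parWF r2 pf42802 h42802
  have h42804 := checkRangeG_sound parWF r2 pf42803 h42803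
  have h42805 := checkRangeG_sound parWF r2 pf42804 h42804
  have h42806 := checkRangeG_sound parWF r2 pf42805 h42805
  have h42807 := checkRangeG_sound parWF r2 pf42806 h42806
  have h42808 := checkRangeG_sound parWF r2 pf42807 h42807
  have h42809 := checkRangeG_sound parWF r2 pf42808 h42808
  have h42810 := checkRangeG_sound parWF r2 pf42809 h42809
  have h42811 := checkRangeG_sound parWF r2 pf42810 h42810
  have h42812 := checkRangeG_sound parWF r2 pf42811 h42811
  have h42813 := checkRangeG_sound parWF r2 pf42812 h42812
  have h42814 := checkRangeG_sound parWF r2 pf42813 h42813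
  have h42815 := checkRangeG_sound parWF r2 pf42814 h42814
  have h42816 := checkRangeG_sound parWF r2 pf42815 h42815
  have h42817 := checkRangeG_sound parWF r2 pf42816 h42816
  have h42818 := checkRangeG_sound parWF r2 pf42817 h42817
  have h42819 := checkRangeG_sound parWF r2 pf42818 h42818
  have h42820 := checkRangeG_sound parWF r2 pf42819 h42819
  have h42821 := checkRangeG_sound parWF r2 pf42820 h42820
  have h42822 := checkRangeG_sound parWF r2 pf42821 h42821
  have h42823 := checkRangeG_sound parWF r2 pf42822 h42822
  have h42824 := checkRangeG_sound parWF r2 pf42823 h42823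
  have h42825 := checkRangeG_sound parWF r2 pf42824 h42824
  have h42826 := checkRangeG_sound parWF r2 pf42825 h42825
  have h42827 := checkRangeG_sound parWF r2 pf42826 h42826
  have h42828 := checkRangeG_sound parWF r2 pf42827 h42827
  have h42829 := checkRangeG_sound parWF r2 pf42828 h42828
  have h42830 := checkRangeG_sound parWF r2 pf42829 h42829
  have h42831 := checkRangeG_sound parWF r2 pf42830 h42830
  have h42832 := checkRangeG_sound parWF r2 pf42831 h42831
  have h42833 := checkRangeG_sound parWF r2 pf42832 h42832
  have h42834 := checkRangeG_sound parWF r2 pf42833 h42833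
  have h42835 := checkRangeG_sound parWF r2 pf42834 h42834
  have h42836 := checkRangeG_sound parWF r2 pf42835 h42835
  have h42837 := checkRangeG_sound parWF r2 pf42836 h42836
  have h42838 := checkRangeG_sound parWF r2 pf42837 h42837
  have h42839 := checkRangeG_sound parWF r2 pf42838 h42838
  have h42840 := checkRangeG_sound parWF r2 pf42839 h42839
  have h42841 := checkRangeG_sound parWF r2 pf42840 h42840
  have h42842 := checkRangeG_sound parWF r2 pf42841 h42841
  have h42843 := checkRangeG_sound parWF r2 pf42842 h42842
  have h42844 := checkRangeG_sound parWF r2 pf42843 h42843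
  have h42845 := checkRangeG_sound parWF r2 pf42844 h42844
  have h42846 := checkRangeG_sound parWF r2 pf42845 h42845
  have h42847 := checkRangeG_sound parWF r2 pf42846 h42846
  have h42848 := checkRangeG_sound parWF r2 pf42847 h42847
  have h42849 := checkRangeG_sound parWF r2 pf42848 h42848
  have h42850 := checkRangeG_sound parWF r2 pf42849 h42849
  exact h42850

theorem c857 (h42850 : ∀ j, j < 147784 → GoodG.{u} par (db j)) : ∀ j, j < 147985 → GoodG.{u} par (db j) := by
  have h42851 := checkRangeG_sound parWF r2 pf42850 h42850
  have h42852 := checkRangeG_sound parWF r2 pf42851 h42851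
  have h42853 := checkRangeG_sound parWF r2 pf42852 h42852
  have h42854 := checkRangeG_sound parWF r2 pf42853 h42853
  have h42855 := checkRangeG_sound parWF r2 pf42854 h42854
  have h42856 := checkRangeG_sound parWF r2 pf42855 h42855
  have h42857 := checkRangeG_sound parWF r2 pf42856 h42856
  have h42858 := checkRangeG_sound parWF r2 pf42857 h42857
  have h42859 := checkRangeG_sound parWF r2 pf42858 h42858
  have h42860 := checkRangeG_sound parWF r2 pf42859 h42859
  have h42861 := checkRangeG_sound parWF r2 pf42860 h42860
  have h42862 := checkRangeG_sound parWF r2 pf42861 h42861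
  have h42863 := checkRangeG_sound parWF r2 pf42862 h42862
  have h42864 := checkRangeG_sound parWF r2 pf42863 h42863
  have h42865 := checkRangeG_sound parWF r2 pf42864 h42864
  have h42866 := checkRangeG_sound parWF r2 pf42865 h42865
  have h42867 := checkRangeG_sound parWF r2 pf42866 h42866
  have h42868 := checkRangeG_sound parWF r2 pf42867 h42867
  have h42869 := checkRangeG_sound parWF r2 pf42868 h42868
  have h42870 := checkRangeG_sound parWF r2 pf42869 h42869
  have h42871 := checkRangeG_sound parWF r2 pf42870 h42870
  have h42872 := checkRangeG_sound parWF r2 pf42871 h42871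
  have h42873 := checkRangeG_sound parWF r2 pf42872 h42872
  have h42874 := checkRangeG_sound parWF r2 pf42873 h42873
  have h42875 := checkRangeG_sound parWF r2 pf42874 h42874
  have h42876 := checkRangeG_sound parWF r2 pf42875 h42875
  have h42877 := checkRangeG_sound parWF r2 pf42876 h42876
  have h42878 := checkRangeG_sound parWF r2 pf42877 h42877
  have h42879 := checkRangeG_sound parWF r2 pf42878 h42878
  have h42880 := checkRangeG_sound parWF r2 pf42879 h42879
  have h42881 := checkRangeG_sound parWF r2 pf42880 h42880
  have h42882 := checkRangeG_sound parWF r2 pf42881 h42881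
  have h42883 := checkRangeG_sound parWF r2 pf42882 h42882
  have h42884 := checkRangeG_sound parWF r2 pf42883 h42883
  have h42885 := checkRangeG_sound parWF r2 pf42884 h42884
  have h42886 := checkRangeG_sound parWF r2 pf42885 h42885
  have h42887 := checkRangeG_sound parWF r2 pf42886 h42886
  have h42888 := checkRangeG_sound parWF r2 pf42887 h42887
  have h42889 := checkRangeG_sound parWF r2 pf42888 h42888
  have h42890 := checkRangeG_sound parWF r2 pf42889 h42889
  have h42891 := checkRangeG_sound parWF r2 pf42890 h42890
  have h42892 := checkRangeG_sound parWF r2 pf42891 h42891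
  have h42893 := checkRangeG_sound parWF r2 pf42892 h42892
  have h42894 := checkRangeG_sound parWF r2 pf42893 h42893
  have h42895 := checkRangeG_sound parWF r2 pf42894 h42894
  have h42896 := checkRangeG_sound parWF r2 pf42895 h42895
  have h42897 := checkRangeG_sound parWF r2 pf42896 h42896
  have h42898 := checkRangeG_sound parWF r2 pf42897 h42897
  have h42899 := checkRangeG_sound parWF r2 pf42898 h42898
  have h42900 := checkRangeG_sound parWF r2 pf42899 h42899
  exact h42900

theorem c858 (h42900 : ∀ j, j < 147985 → GoodG.{u} par (db j)) : ∀ j, j < 148178 → GoodG.{u} par (db j) := by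
  have h42901 := checkRangeG_sound parWF r2 pf42900 h42900
  have h42902 := checkRangeG_sound parWF r2 pf42901 h42901
  have h42903 := checkRangeG_sound parWF r2 pf42902 h42902
  have h42904 := checkRangeG_sound parWF r2 pf42903 h42903
  have h42905 := checkRangeG_sound parWF r2 pf42904 h42904
  have h42906 := checkRangeG_sound parWF r2 pf42905 h42905
  have h42907 := checkRangeG_sound parWF r2 pf42906 h42906
  have h42908 := checkRangeG_sound parWF r2 pf42907 h42907
  have h42909 := checkRangeG_sound parWF r2 pf42908 h42908
  have h42910 := checkRangeG_sound parWF r2 pf42909 h42909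
  have h42911 := checkRangeG_sound parWF r2 pf42910 h42910
  have h42912 := checkRangeG_sound parWF r2 pf42911 h42911
  have h42913 := checkRangeG_sound parWF r2 pf42912 h42912
  have h42914 := checkRangeG_sound parWF r2 pf42913 h42913
  have h42915 := checkRangeG_sound parWF r2 pf42914 h42914
  have h42916 := checkRangeG_sound parWF r2 pf42915 h42915
  have h42917 := checkRangeG_sound parWF r2 pf42916 h42916
  have h42918 := checkRangeG_sound parWF r2 pf42917 h42917
  have h42919 := checkRangeG_sound parWF r2 pf42918 h42918
  have h42920 := checkRangeG_sound parWF r2 pf42919 h42919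
  have h42921 := checkRangeG_sound parWF r2 pf42920 h42920
  have h42922 := checkRangeG_sound parWF r2 pf42921 h42921
  have h42923 := checkRangeG_sound parWF r2 pf42922 h42922
  have h42924 := checkRangeG_sound parWF r2 pf42923 h42923
  have h42925 := checkRangeG_sound parWF r2 pf42924 h42924
  have h42926 := checkRangeG_sound parWF r2 pf42925 h42925
  have h42927 := checkRangeG_sound parWF r2 pf42926 h42926
  have h42928 := checkRangeG_sound parWF r2 pf42927 h42927
  have h42929 := checkRangeG_sound parWF r2 pf42928 h42928
  have h42930 := checkRangeG_sound parWF r2 pf42929 h42929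
  have h42931 := checkRangeG_sound parWF r2 pf42930 h42930
  have h42932 := checkRangeG_sound parWF r2 pf42931 h42931
  have h42933 := checkRangeG_sound parWF r2 pf42932 h42932
  have h42934 := checkRangeG_sound parWF r2 pf42933 h42933
  have h42935 := checkRangeG_sound parWF r2 pf42934 h42934
  have h42936 := checkRangeG_sound parWF r2 pf42935 h42935
  have h42937 := checkRangeG_sound parWF r2 pf42936 h42936
  have h42938 := checkRangeG_sound parWF r2 pf42937 h42937
  have h42939 := checkRangeG_sound parWF r2 pf42938 h42938
  have h42940 := checkRangeG_sound parWF r2 pf42939 h42939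
  have h42941 := checkRangeG_sound parWF r2 pf42940 h42940
  have h42942 := checkRangeG_sound parWF r2 pf42941 h42941
  have h42943 := checkRangeG_sound parWF r2 pf42942 h42942
  have h42944 := checkRangeG_sound parWF r2 pf42943 h42943
  have h42945 := checkRangeG_sound parWF r2 pf42944 h42944
  have h42946 := checkRangeG_sound parWF r2 pf42945 h42945
  have h42947 := checkRangeG_sound parWF r2 pf42946 h42946
  have h42948 := checkRangeG_sound parWF r2 pf42947 h42947
  have h42949 := checkRangeG_sound parWF r2 pf42948 h42948
  have h42950 := checkRangeG_sound parWF r2 pf42949 h42949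
  exact h42950

theorem c859 (h42950 : ∀ j, j < 148178 → GoodG.{u} par (db j)) : ∀ j, j < 148374 → GoodG.{u} par (db j) := by
  have h42951 := checkRangeG_sound parWF r2 pf42950 h42950
  have h42952 := checkRangeG_sound parWF r2 pf42951 h42951
  have h42953 := checkRangeG_sound parWF r2 pf42952 h42952
  have h42954 := checkRangeG_sound parWF r2 pf42953 h42953
  have h42955 := checkRangeG_sound parWF r2 pf42954 h42954
  have h42956 := checkRangeG_sound parWF r2 pf42955 h42955
  have h42957 := checkRangeG_sound parWF r2 pf42956 h42956
  have h42958 := checkRangeG_sound parWF r2 pf42957 h42957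
  have h42959 := checkRangeG_sound parWF r2 pf42958 h42958
  have h42960 := checkRangeG_sound parWF r2 pf42959 h42959
  have h42961 := checkRangeG_sound parWF r2 pf42960 h42960
  have h42962 := checkRangeG_sound parWF r2 pf42961 h42961
  have h42963 := checkRangeG_sound parWF r2 pf42962 h42962
  have h42964 := checkRangeG_sound parWF r2 pf42963 h42963
  have h42965 := checkRangeG_sound parWF r2 pf42964 h42964
  have h42966 := checkRangeG_sound parWF r2 pf42965 h42965
  have h42967 := checkRangeG_sound parWF r2 pf42966 h42966
  have h42968 := checkRangeG_sound parWF r2 pf42967 h42967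
  have h42969 := checkRangeG_sound parWF r2 pf42968 h42968
  have h42970 := checkRangeG_sound parWF r2 pf42969 h42969
  have h42971 := checkRangeG_sound parWF r2 pf42970 h42970
  have h42972 := checkRangeG_sound parWF r2 pf42971 h42971
  have h42973 := checkRangeG_sound parWF r2 pf42972 h42972
  have h42974 := checkRangeG_sound parWF r2 pf42973 h42973
  have h42975 := checkRangeG_sound parWF r2 pf42974 h42974
  have h42976 := checkRangeG_sound parWF r2 pf42975 h42975
  have h42977 := checkRangeG_sound parWF r2 pf42976 h42976
  have h42978 := checkRangeG_sound parWF r2 pf42977 h42977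
  have h42979 := checkRangeG_sound parWF r2 pf42978 h42978
  have h42980 := checkRangeG_sound parWF r2 pf42979 h42979
  have h42981 := checkRangeG_sound parWF r2 pf42980 h42980
  have h42982 := checkRangeG_sound parWF r2 pf42981 h42981
  have h42983 := checkRangeG_sound parWF r2 pf42982 h42982
  have h42984 := checkRangeG_sound parWF r2 pf42983 h42983
  have h42985 := checkRangeG_sound parWF r2 pf42984 h42984
  have h42986 := checkRangeG_sound parWF r2 pf42985 h42985
  have h42987 := checkRangeG_sound parWF r2 pf42986 h42986
  have h42988 := checkRangeG_sound parWF r2 pf42987 h42987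
  have h42989 := checkRangeG_sound parWF r2 pf42988 h42988
  have h42990 := checkRangeG_sound parWF r2 pf42989 h42989
  have h42991 := checkRangeG_sound parWF r2 pf42990 h42990
  have h42992 := checkRangeG_sound parWF r2 pf42991 h42991
  have h42993 := checkRangeG_sound parWF r2 pf42992 h42992
  have h42994 := checkRangeG_sound parWF r2 pf42993 h42993
  have h42995 := checkRangeG_sound parWF r2 pf42994 h42994
  have h42996 := checkRangeG_sound parWF r2 pf42995 h42995
  have h42997 := checkRangeG_sound parWF r2 pf42996 h42996
  have h42998 := checkRangeG_sound parWF r2 pf42997 h42997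
  have h42999 := checkRangeG_sound parWF r2 pf42998 h42998
  have h43000 := checkRangeG_sound parWF r2 pf42999 h42999
  exact h43000

theorem c860 (h43000 : ∀ j, j < 148374 → GoodG.{u} par (db j)) : ∀ j, j < 148571 → GoodG.{u} par (db j) := by
  have h43001 := checkRangeG_sound parWF r2 pf43000 h43000
  have h43002 := checkRangeG_sound parWF r2 pf43001 h43001
  have h43003 := checkRangeG_sound parWF r2 pf43002 h43002
  have h43004 := checkRangeG_sound parWF r2 pf43003 h43003
  have h43005 := checkRangeG_sound parWF r2 pf43004 h43004
  have h43006 := checkRangeG_sound parWF r2 pf43005 h43005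
  have h43007 := checkRangeG_sound parWF r2 pf43006 h43006
  have h43008 := checkRangeG_sound parWF r2 pf43007 h43007
  have h43009 := checkRangeG_sound parWF r2 pf43008 h43008
  have h43010 := checkRangeG_sound parWF r2 pf43009 h43009
  have h43011 := checkRangeG_sound parWF r2 pf43010 h43010
  have h43012 := checkRangeG_sound parWF r2 pf43011 h43011
  have h43013 := checkRangeG_sound parWF r2 pf43012 h43012
  have h43014 := checkRangeG_sound parWF r2 pf43013 h43013
  have h43015 := checkRangeG_sound parWF r2 pf43014 h43014
  have h43016 := checkRangeG_sound parWF r2 pf43015 h43015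
  have h43017 := checkRangeG_sound parWF r2 pf43016 h43016
  have h43018 := checkRangeG_sound parWF r2 pf43017 h43017
  have h43019 := checkRangeG_sound parWF r2 pf43018 h43018
  have h43020 := checkRangeG_sound parWF r2 pf43019 h43019
  have h43021 := checkRangeG_sound parWF r2 pf43020 h43020
  have h43022 := checkRangeG_sound parWF r2 pf43021 h43021
  have h43023 := checkRangeG_sound parWF r2 pf43022 h43022
  have h43024 := checkRangeG_sound parWF r2 pf43023 h43023
  have h43025 := checkRangeG_sound parWF r2 pf43024 h43024
  have h43026 := checkRangeG_sound parWF r2 pf43025 h43025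
  have h43027 := checkRangeG_sound parWF r2 pf43026 h43026
  have h43028 := checkRangeG_sound parWF r2 pf43027 h43027
  have h43029 := checkRangeG_sound parWF r2 pf43028 h43028
  have h43030 := checkRangeG_sound parWF r2 pf43029 h43029
  have h43031 := checkRangeG_sound parWF r2 pf43030 h43030
  have h43032 := checkRangeG_sound parWF r2 pf43031 h43031
  have h43033 := checkRangeG_sound parWF r2 pf43032 h43032
  have h43034 := checkRangeG_sound parWF r2 pf43033 h43033
  have h43035 := checkRangeG_sound parWF r2 pf43034 h43034
  have h43036 := checkRangeG_sound parWF r2 pf43035 h43035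
  have h43037 := checkRangeG_sound parWF r2 pf43036 h43036
  have h43038 := checkRangeG_sound parWF r2 pf43037 h43037
  have h43039 := checkRangeG_sound parWF r2 pf43038 h43038
  have h43040 := checkRangeG_sound parWF r2 pf43039 h43039
  have h43041 := checkRangeG_sound parWF r2 pf43040 h43040
  have h43042 := checkRangeG_sound parWF r2 pf43041 h43041
  have h43043 := checkRangeG_sound parWF r2 pf43042 h43042
  have h43044 := checkRangeG_sound parWF r2 pf43043 h43043
  have h43045 := checkRangeG_sound parWF r2 pf43044 h43044
  have h43046 := checkRangeG_sound parWF r2 pf43045 h43045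
  have h43047 := checkRangeG_sound parWF r2 pf43046 h43046
  have h43048 := checkRangeG_sound parWF r2 pf43047 h43047
  have h43049 := checkRangeG_sound parWF r2 pf43048 h43048
  have h43050 := checkRangeG_sound parWF r2 pf43049 h43049
  exact h43050

theorem c861 (h43050 : ∀ j, j < 148571 → GoodG.{u} par (db j)) : ∀ j, j < 148778 → GoodG.{u} par (db j) := by
  have h43051 := checkRangeG_sound parWF r2 pf43050 h43050
  have h43052 := checkRangeG_sound parWF r2 pf43051 h43051
  have h43053 := checkRangeG_sound parWF r2 pf43052 h43052
  have h43054 := checkRangeG_sound parWF r2 pf43053 h43053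
  have h43055 := checkRangeG_sound parWF r2 pf43054 h43054
  have h43056 := checkRangeG_sound parWF r2 pf43055 h43055
  have h43057 := checkRangeG_sound parWF r2 pf43056 h43056
  have h43058 := checkRangeG_sound parWF r2 pf43057 h43057
  have h43059 := checkRangeG_sound parWF r2 pf43058 h43058
  have h43060 := checkRangeG_sound parWF r2 pf43059 h43059
  have h43061 := checkRangeG_sound parWF r2 pf43060 h43060
  have h43062 := checkRangeG_sound parWF r2 pf43061 h43061
  have h43063 := checkRangeG_sound parWF r2 pf43062 h43062
  have h43064 := checkRangeG_sound parWF r2 pf43063 h43063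
  have h43065 := checkRangeG_sound parWF r2 pf43064 h43064
  have h43066 := checkRangeG_sound parWF r2 pf43065 h43065
  have h43067 := checkRangeG_sound parWF r2 pf43066 h43066
  have h43068 := checkRangeG_sound parWF r2 pf43067 h43067
  have h43069 := checkRangeG_sound parWF r2 pf43068 h43068
  have h43070 := checkRangeG_sound parWF r2 pf43069 h43069
  have h43071 := checkRangeG_sound parWF r2 pf43070 h43070
  have h43072 := checkRangeG_sound parWF r2 pf43071 h43071
  have h43073 := checkRangeG_sound parWF r2 pf43072 h43072
  have h43074 := checkRangeG_sound parWF r2 pf43073 h43073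
  have h43075 := checkRangeG_sound parWF r2 pf43074 h43074
  have h43076 := checkRangeG_sound parWF r2 pf43075 h43075
  have h43077 := checkRangeG_sound parWF r2 pf43076 h43076
  have h43078 := checkRangeG_sound parWF r2 pf43077 h43077
  have h43079 := checkRangeG_sound parWF r2 pf43078 h43078
  have h43080 := checkRangeG_sound parWF r2 pf43079 h43079
  have h43081 := checkRangeG_sound parWF r2 pf43080 h43080
  have h43082 := checkRangeG_sound parWF r2 pf43081 h43081
  have h43083 := checkRangeG_sound parWF r2 pf43082 h43082
  have h43084 := checkRangeG_sound parWF r2 pf43083 h43083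
  have h43085 := checkRangeG_sound parWF r2 pf43084 h43084
  have h43086 := checkRangeG_sound parWF r2 pf43085 h43085
  have h43087 := checkRangeG_sound parWF r2 pf43086 h43086
  have h43088 := checkRangeG_sound parWF r2 pf43087 h43087
  have h43089 := checkRangeG_sound parWF r2 pf43088 h43088
  have h43090 := checkRangeG_sound parWF r2 pf43089 h43089
  have h43091 := checkRangeG_sound parWF r2 pf43090 h43090
  have h43092 := checkRangeG_sound parWF r2 pf43091 h43091
  have h43093 := checkRangeG_sound parWF r2 pf43092 h43092
  have h43094 := checkRangeG_sound parWF r2 pf43093 h43093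
  have h43095 := checkRangeG_sound parWF r2 pf43094 h43094
  have h43096 := checkRangeG_sound parWF r2 pf43095 h43095
  have h43097 := checkRangeG_sound parWF r2 pf43096 h43096
  have h43098 := checkRangeG_sound parWF r2 pf43097 h43097
  have h43099 := checkRangeG_sound parWF r2 pf43098 h43098
  have h43100 := checkRangeG_sound parWF r2 pf43099 h43099
  exact h43100

theorem c862 (h43100 : ∀ j, j < 148778 → GoodG.{u} par (db j)) : ∀ j, j < 148976 → GoodG.{u} par (db j) := by
  have h43101 := checkRangeG_sound parWF r2 pf43100 h43100
  have h43102 := checkRangeG_sound parWF r2 pf43101 h43101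
  have h43103 := checkRangeG_sound parWF r2 pf43102 h43102
  have h43104 := checkRangeG_sound parWF r2 pf43103 h43103
  have h43105 := checkRangeG_sound parWF r2 pf43104 h43104
  have h43106 := checkRangeG_sound parWF r2 pf43105 h43105
  have h43107 := checkRangeG_sound parWF r2 pf43106 h43106
  have h43108 := checkRangeG_sound parWF r2 pf43107 h43107
  have h43109 := checkRangeG_sound parWF r2 pf43108 h43108
  have h43110 := checkRangeG_sound parWF r2 pf43109 h43109
  have h43111 := checkRangeG_sound parWF r2 pf43110 h43110
  have h43112 := checkRangeG_sound parWF r2 pf43111 h43111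
  have h43113 := checkRangeG_sound parWF r2 pf43112 h43112
  have h43114 := checkRangeG_sound parWF r2 pf43113 h43113
  have h43115 := checkRangeG_sound parWF r2 pf43114 h43114
  have h43116 := checkRangeG_sound parWF r2 pf43115 h43115
  have h43117 := checkRangeG_sound parWF r2 pf43116 h43116
  have h43118 := checkRangeG_sound parWF r2 pf43117 h43117
  have h43119 := checkRangeG_sound parWF r2 pf43118 h43118
  have h43120 := checkRangeG_sound parWF r2 pf43119 h43119
  have h43121 := checkRangeG_sound parWF r2 pf43120 h43120
  have h43122 := checkRangeG_sound parWF r2 pf43121 h43121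
  have h43123 := checkRangeG_sound parWF r2 pf43122 h43122
  have h43124 := checkRangeG_sound parWF r2 pf43123 h43123
  have h43125 := checkRangeG_sound parWF r2 pf43124 h43124
  have h43126 := checkRangeG_sound parWF r2 pf43125 h43125
  have h43127 := checkRangeG_sound parWF r2 pf43126 h43126
  have h43128 := checkRangeG_sound parWF r2 pf43127 h43127
  have h43129 := checkRangeG_sound parWF r2 pf43128 h43128
  have h43130 := checkRangeG_sound parWF r2 pf43129 h43129
  have h43131 := checkRangeG_sound parWF r2 pf43130 h43130
  have h43132 := checkRangeG_sound parWF r2 pf43131 h43131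
  have h43133 := checkRangeG_sound parWF r2 pf43132 h43132
  have h43134 := checkRangeG_sound parWF r2 pf43133 h43133
  have h43135 := checkRangeG_sound parWF r2 pf43134 h43134
  have h43136 := checkRangeG_sound parWF r2 pf43135 h43135
  have h43137 := checkRangeG_sound parWF r2 pf43136 h43136
  have h43138 := checkRangeG_sound parWF r2 pf43137 h43137
  have h43139 := checkRangeG_sound parWF r2 pf43138 h43138
  have h43140 := checkRangeG_sound parWF r2 pf43139 h43139
  have h43141 := checkRangeG_sound parWF r2 pf43140 h43140
  have h43142 := checkRangeG_sound parWF r2 pf43141 h43141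
  have h43143 := checkRangeG_sound parWF r2 pf43142 h43142
  have h43144 := checkRangeG_sound parWF r2 pf43143 h43143
  have h43145 := checkRangeG_sound parWF r2 pf43144 h43144
  have h43146 := checkRangeG_sound parWF r2 pf43145 h43145
  have h43147 := checkRangeG_sound parWF r2 pf43146 h43146
  have h43148 := checkRangeG_sound parWF r2 pf43147 h43147
  have h43149 := checkRangeG_sound parWF r2 pf43148 h43148
  have h43150 := checkRangeG_sound parWF r2 pf43149 h43149
  exact h43150

theorem c863 (h43150 : ∀ j, j < 148976 → GoodG.{u} par (db j)) : ∀ j, j < 149182 → GoodG.{u} par (db j) := by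
  have h43151 := checkRangeG_sound parWF r2 pf43150 h43150
  have h43152 := checkRangeG_sound parWF r2 pf43151 h43151
  have h43153 := checkRangeG_sound parWF r2 pf43152 h43152
  have h43154 := checkRangeG_sound parWF r2 pf43153 h43153
  have h43155 := checkRangeG_sound parWF r2 pf43154 h43154
  have h43156 := checkRangeG_sound parWF r2 pf43155 h43155
  have h43157 := checkRangeG_sound parWF r2 pf43156 h43156
  have h43158 := checkRangeG_sound parWF r2 pf43157 h43157
  have h43159 := checkRangeG_sound parWF r2 pf43158 h43158
  have h43160 := checkRangeG_sound parWF r2 pf43159 h43159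
  have h43161 := checkRangeG_sound parWF r2 pf43160 h43160
  have h43162 := checkRangeG_sound parWF r2 pf43161 h43161
  have h43163 := checkRangeG_sound parWF r2 pf43162 h43162
  have h43164 := checkRangeG_sound parWF r2 pf43163 h43163
  have h43165 := checkRangeG_sound parWF r2 pf43164 h43164
  have h43166 := checkRangeG_sound parWF r2 pf43165 h43165
  have h43167 := checkRangeG_sound parWF r2 pf43166 h43166
  have h43168 := checkRangeG_sound parWF r2 pf43167 h43167
  have h43169 := checkRangeG_sound parWF r2 pf43168 h43168
  have h43170 := checkRangeG_sound parWF r2 pf43169 h43169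
  have h43171 := checkRangeG_sound parWF r2 pf43170 h43170
  have h43172 := checkRangeG_sound parWF r2 pf43171 h43171
  have h43173 := checkRangeG_sound parWF r2 pf43172 h43172
  have h43174 := checkRangeG_sound parWF r2 pf43173 h43173
  have h43175 := checkRangeG_sound parWF r2 pf43174 h43174
  have h43176 := checkRangeG_sound parWF r2 pf43175 h43175
  have h43177 := checkRangeG_sound parWF r2 pf43176 h43176
  have h43178 := checkRangeG_sound parWF r2 pf43177 h43177
  have h43179 := checkRangeG_sound parWF r2 pf43178 h43178
  have h43180 := checkRangeG_sound parWF r2 pf43179 h43179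
  have h43181 := checkRangeG_sound parWF r2 pf43180 h43180
  have h43182 := checkRangeG_sound parWF r2 pf43181 h43181
  have h43183 := checkRangeG_sound parWF r2 pf43182 h43182
  have h43184 := checkRangeG_sound parWF r2 pf43183 h43183
  have h43185 := checkRangeG_sound parWF r2 pf43184 h43184
  have h43186 := checkRangeG_sound parWF r2 pf43185 h43185
  have h43187 := checkRangeG_sound parWF r2 pf43186 h43186
  have h43188 := checkRangeG_sound parWF r2 pf43187 h43187
  have h43189 := checkRangeG_sound parWF r2 pf43188 h43188
  have h43190 := checkRangeG_sound parWF r2 pf43189 h43189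
  have h43191 := checkRangeG_sound parWF r2 pf43190 h43190
  have h43192 := checkRangeG_sound parWF r2 pf43191 h43191
  have h43193 := checkRangeG_sound parWF r2 pf43192 h43192
  have h43194 := checkRangeG_sound parWF r2 pf43193 h43193
  have h43195 := checkRangeG_sound parWF r2 pf43194 h43194
  have h43196 := checkRangeG_sound parWF r2 pf43195 h43195
  have h43197 := checkRangeG_sound parWF r2 pf43196 h43196
  have h43198 := checkRangeG_sound parWF r2 pf43197 h43197
  have h43199 := checkRangeG_sound parWF r2 pf43198 h43198
  have h43200 := checkRangeG_sound parWF r2 pf43199 h43199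
  exact h43200


end Vale.Agent.P045g.C61
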