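import Vale.Agent.P045g.C61.WF
import Vale.Agent.P045g.C61.Pf720
import Vale.Agent.P045g.C61.Pf721
import Vale.Agent.P045g.C61.Pf722
import Vale.Agent.P045g.C61.Pf723
import Vale.Agent.P045g.C61.Pf724
import Vale.Agent.P045g.C61.Pf725
import Vale.Agent.P045g.C61.Pf726
import Vale.Agent.P045g.C61.Pf727
import Vale.Agent.P045g.C61.Pf728
import Vale.Agent.P045g.C61.Pf729

namespace Vale.Agent.P045g.C61

open Vale.Agent.P045b Vale.Agent.P045g

universe u

theorem c864 (h43200 : ∀ j, j < 149182 → GoodG.{u} par (db j)) : ∀ j, j < 149377 → GoodG.{u} par (db j) := by
  have h43201 := checkRangeG_sound parWF r2 pf43200 h43200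
  have h43202 := checkRangeG_sound parWF r2 pf43201 h43201
  have h43203 := checkRangeG_sound parWF r2 pf43202 h43202
  have h43204 := checkRangeG_sound parWF r2 pf43203 h43203
  have h43205 := checkRangeG_sound parWF r2 pf43204 h43204
  have h43206 := checkRangeG_sound parWF r2 pf43205 h43205
  have h43207 := checkRangeG_sound parWF r2 pf43206 h43206
  have h43208 := checkRangeG_sound parWF r2 pf43207 h43207
  have h43209 := checkRangeG_sound parWF r2 pf43208 h43208
  have h43210 := checkRangeG_sound parWF r2 pf43209 h43209
  have h43211 := checkRangeG_sound parWF r2 pf43210 h43210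
  have h43212 := checkRangeG_sound parWF r2 pf43211 h43211
  have h43213 := checkRangeG_sound parWF r2 pf43212 h43212
  have h43214 := checkRangeG_sound parWF r2 pf43213 h43213
  have h43215 := checkRangeG_sound parWF r2 pf43214 h43214
  have h43216 := checkRangeG_sound parWF r2 pf43215 h43215
  have h43217 := checkRangeG_sound parWF r2 pf43216 h43216
  have h43218 := checkRangeG_sound parWF r2 pf43217 h43217
  have h43219 := checkRangeG_sound parWF r2 pf43218 h43218
  have h43220 := checkRangeG_sound parWF r2 pf43219 h43219
  have h43221 := checkRangeG_sound parWF r2 pf43220 h43220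
  have h43222 := checkRangeG_sound parWF r2 pf43221 h43221
  have h43223 := checkRangeG_sound parWF r2 pf43222 h43222
  have h43224 := checkRangeG_sound parWF r2 pf43223 h43223
  have h43225 := checkRangeG_sound parWF r2 pf43224 h43224
  have h43226 := checkRangeG_sound parWF r2 pf43225 h43225
  have h43227 := checkRangeG_sound parWF r2 pf43226 h43226
  have h43228 := checkRangeG_sound parWF r2 pf43227 h43227
  have h43229 := checkRangeG_sound parWF r2 pf43228 h43228
  have h43230 := checkRangeG_sound parWF r2 pf43229 h43229
  have h43231 := checkRangeG_sound parWF r2 pf43230 h43230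
  have h43232 := checkRangeG_sound parWF r2 pf43231 h43231
  have h43233 := checkRangeG_sound parWF r2 pf43232 h43232
  have h43234 := checkRangeG_sound parWF r2 pf43233 h43233
  have h43235 := checkRangeG_sound parWF r2 pf43234 h43234
  have h43236 := checkRangeG_sound parWF r2 pf43235 h43235
  have h43237 := checkRangeG_sound parWF r2 pf43236 h43236
  have h43238 := checkRangeG_sound parWF r2 pf43237 h43237
  have h43239 := checkRangeG_sound parWF r2 pf43238 h43238
  have h43240 := checkRangeG_sound parWF r2 pf43239 h43239
  have h43241 := checkRangeG_sound parWF r2 pf43240 h43240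
  have h43242 := checkRangeG_sound parWF r2 pf43241 h43241
  have h43243 := checkRangeG_sound parWF r2 pf43242 h43242
  have h43244 := checkRangeG_sound parWF r2 pf43243 h43243
  have h43245 := checkRangeG_sound parWF r2 pf43244 h43244
  have h43246 := checkRangeG_sound parWF r2 pf43245 h43245
  have h43247 := checkRangeG_sound parWF r2 pf43246 h43246
  have h43248 := checkRangeG_sound parWF r2 pf43247 h43247
  have h43249 := checkRangeG_sound parWF r2 pf43248 h43248
  have h43250 := checkRangeG_sound parWF r2 pf43249 h43249
  exact h43250

theorem c865 (h43250 : ∀ j, j < 149377 → GoodG.{u} par (db j)) : ∀ j, j < 149569 → GoodG.{u} par (db j) := by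
  have h43251 := checkRangeG_sound parWF r2 pf43250 h43250
  have h43252 := checkRangeG_sound parWF r2 pf43251 h43251
  have h43253 := checkRangeG_sound parWF r2 pf43252 h43252
  have h43254 := checkRangeG_sound parWF r2 pf43253 h43253
  have h43255 := checkRangeG_sound parWF r2 pf43254 h43254
  have h43256 := checkRangeG_sound parWF r2 pf43255 h43255
  have h43257 := checkRangeG_sound parWF r2 pf43256 h43256
  have h43258 := checkRangeG_sound parWF r2 pf43257 h43257
  have h43259 := checkRangeG_sound parWF r2 pf43258 h43258
  have h43260 := checkRangeG_sound parWF r2 pf43259 h43259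
  have h43261 := checkRangeG_sound parWF r2 pf43260 h43260
  have h43262 := checkRangeG_sound parWF r2 pf43261 h43261
  have h43263 := checkRangeG_sound parWF r2 pf43262 h43262
  have h43264 := checkRangeG_sound parWF r2 pf43263 h43263
  have h43265 := checkRangeG_sound parWF r2 pf43264 h43264
  have h43266 := checkRangeG_sound parWF r2 pf43265 h43265
  have h43267 := checkRangeG_sound parWF r2 pf43266 h43266
  have h43268 := checkRangeG_sound parWF r2 pf43267 h43267
  have h43269 := checkRangeG_sound parWF r2 pf43268 h43268
  have h43270 := checkRangeG_sound parWF r2 pf43269 h43269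
  have h43271 := checkRangeG_sound parWF r2 pf43270 h43270
  have h43272 := checkRangeG_sound parWF r2 pf43271 h43271
  have h43273 := checkRangeG_sound parWF r2 pf43272 h43272
  have h43274 := checkRangeG_sound parWF r2 pf43273 h43273
  have h43275 := checkRangeG_sound parWF r2 pf43274 h43274
  have h43276 := checkRangeG_sound parWF r2 pf43275 h43275
  have h43277 := checkRangeG_sound parWF r2 pf43276 h43276
  have h43278 := checkRangeG_sound parWF r2 pf43277 h43277
  have h43279 := checkRangeG_sound parWF r2 pf43278 h43278
  have h43280 := checkRangeG_sound parWF r2 pf43279 h43279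
  have h43281 := checkRangeG_sound parWF r2 pf43280 h43280
  have h43282 := checkRangeG_sound parWF r2 pf43281 h43281
  have h43283 := checkRangeG_sound parWF r2 pf43282 h43282
  have h43284 := checkRangeG_sound parWF r2 pf43283 h43283
  have h43285 := checkRangeG_sound parWF r2 pf43284 h43284
  have h43286 := checkRangeG_sound parWF r2 pf43285 h43285
  have h43287 := checkRangeG_sound parWF r2 pf43286 h43286
  have h43288 := checkRangeG_sound parWF r2 pf43287 h43287
  have h43289 := checkRangeG_sound parWF r2 pf43288 h43288
  have h43290 := checkRangeG_sound parWF r2 pf43289 h43289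
  have h43291 := checkRangeG_sound parWF r2 pf43290 h43290
  have h43292 := checkRangeG_sound parWF r2 pf43291 h43291
  have h43293 := checkRangeG_sound parWF r2 pf43292 h43292
  have h43294 := checkRangeG_sound parWF r2 pf43293 h43293
  have h43295 := checkRangeG_sound parWF r2 pf43294 h43294
  have h43296 := checkRangeG_sound parWF r2 pf43295 h43295
  have h43297 := checkRangeG_sound parWF r2 pf43296 h43296
  have h43298 := checkRangeG_sound parWF r2 pf43297 h43297
  have h43299 := checkRangeG_sound parWF r2 pf43298 h43298
  have h43300 := checkRangeG_sound parWF r2 pf43299 h43299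
  exact h43300

theorem c866 (h43300 : ∀ j, j < 149569 → GoodG.{u} par (db j)) : ∀ j, j < 149786 → GoodG.{u} par (db j) := by
  have h43301 := checkRangeG_sound parWF r2 pf43300 h43300
  have h43302 := checkRangeG_sound parWF r2 pf43301 h43301
  have h43303 := checkRangeG_sound parWF r2 pf43302 h43302
  have h43304 := checkRangeG_sound parWF r2 pf43303 h43303
  have h43305 := checkRangeG_sound parWF r2 pf43304 h43304
  have h43306 := checkRangeG_sound parWF r2 pf43305 h43305
  have h43307 := checkRangeG_sound parWF r2 pf43306 h43306
  have h43308 := checkRangeG_sound parWF r2 pf43307 h43307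
  have h43309 := checkRangeG_sound parWF r2 pf43308 h43308
  have h43310 := checkRangeG_sound parWF r2 pf43309 h43309
  have h43311 := checkRangeG_sound parWF r2 pf43310 h43310
  have h43312 := checkRangeG_sound parWF r2 pf43311 h43311
  have h43313 := checkRangeG_sound parWF r2 pf43312 h43312
  have h43314 := checkRangeG_sound parWF r2 pf43313 h43313
  have h43315 := checkRangeG_sound parWF r2 pf43314 h43314
  have h43316 := checkRangeG_sound parWF r2 pf43315 h43315
  have h43317 := checkRangeG_sound parWF r2 pf43316 h43316
  have h43318 := checkRangeG_sound parWF r2 pf43317 h43317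
  have h43319 := checkRangeG_sound parWF r2 pf43318 h43318
  have h43320 := checkRangeG_sound parWF r2 pf43319 h43319
  have h43321 := checkRangeG_sound parWF r2 pf43320 h43320
  have h43322 := checkRangeG_sound parWF r2 pf43321 h43321
  have h43323 := checkRangeG_sound parWF r2 pf43322 h43322
  have h43324 := checkRangeG_sound parWF r2 pf43323 h43323
  have h43325 := checkRangeG_sound parWF r2 pf43324 h43324
  have h43326 := checkRangeG_sound parWF r2 pf43325 h43325
  have h43327 := checkRangeG_sound parWF r2 pf43326 h43326
  have h43328 := checkRangeG_sound parWF r2 pf43327 h43327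
  have h43329 := checkRangeG_sound parWF r2 pf43328 h43328
  have h43330 := checkRangeG_sound parWF r2 pf43329 h43329
  have h43331 := checkRangeG_sound parWF r2 pf43330 h43330
  have h43332 := checkRangeG_sound parWF r2 pf43331 h43331
  have h43333 := checkRangeG_sound parWF r2 pf43332 h43332
  have h43334 := checkRangeG_sound parWF r2 pf43333 h43333
  have h43335 := checkRangeG_sound parWF r2 pf43334 h43334
  have h43336 := checkRangeG_sound parWF r2 pf43335 h43335
  have h43337 := checkRangeG_sound parWF r2 pf43336 h43336
  have h43338 := checkRangeG_sound parWF r2 pf43337 h43337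
  have h43339 := checkRangeG_sound parWF r2 pf43338 h43338
  have h43340 := checkRangeG_sound parWF r2 pf43339 h43339
  have h43341 := checkRangeG_sound parWF r2 pf43340 h43340
  have h43342 := checkRangeG_sound parWF r2 pf43341 h43341
  have h43343 := checkRangeG_sound parWF r2 pf43342 h43342
  have h43344 := checkRangeG_sound parWF r2 pf43343 h43343
  have h43345 := checkRangeG_sound parWF r2 pf43344 h43344
  have h43346 := checkRangeG_sound parWF r2 pf43345 h43345
  have h43347 := checkRangeG_sound parWF r2 pf43346 h43346
  have h43348 := checkRangeG_sound parWF r2 pf43347 h43347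
  have h43349 := checkRangeG_sound parWF r2 pf43348 h43348
  have h43350 := checkRangeG_sound parWF r2 pf43349 h43349
  exact h43350

theorem c867 (h43350 : ∀ j, j < 149786 → GoodG.{u} par (db j)) : ∀ j, j < 150001 → GoodG.{u} par (db j) := by
  have h43351 := checkRangeG_sound parWF r2 pf43350 h43350
  have h43352 := checkRangeG_sound parWF r2 pf43351 h43351
  have h43353 := checkRangeG_sound parWF r2 pf43352 h43352
  have h43354 := checkRangeG_sound parWF r2 pf43353 h43353
  have h43355 := checkRangeG_sound parWF r2 pf43354 h43354
  have h43356 := checkRangeG_sound parWF r2 pf43355 h43355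
  have h43357 := checkRangeG_sound parWF r2 pf43356 h43356
  have h43358 := checkRangeG_sound parWF r2 pf43357 h43357
  have h43359 := checkRangeG_sound parWF r2 pf43358 h43358
  have h43360 := checkRangeG_sound parWF r2 pf43359 h43359
  have h43361 := checkRangeG_sound parWF r2 pf43360 h43360
  have h43362 := checkRangeG_sound parWF r2 pf43361 h43361
  have h43363 := checkRangeG_sound parWF r2 pf43362 h43362
  have h43364 := checkRangeG_sound parWF r2 pf43363 h43363
  have h43365 := checkRangeG_sound parWF r2 pf43364 h43364
  have h43366 := checkRangeG_sound parWF r2 pf43365 h43365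
  have h43367 := checkRangeG_sound parWF r2 pf43366 h43366
  have h43368 := checkRangeG_sound parWF r2 pf43367 h43367
  have h43369 := checkRangeG_sound parWF r2 pf43368 h43368
  have h43370 := checkRangeG_sound parWF r2 pf43369 h43369
  have h43371 := checkRangeG_sound parWF r2 pf43370 h43370
  have h43372 := checkRangeG_sound parWF r2 pf43371 h43371
  have h43373 := checkRangeG_sound parWF r2 pf43372 h43372
  have h43374 := checkRangeG_sound parWF r2 pf43373 h43373
  have h43375 := checkRangeG_sound parWF r2 pf43374 h43374
  have h43376 := checkRangeG_sound parWF r2 pf43375 h43375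
  have h43377 := checkRangeG_sound parWF r2 pf43376 h43376
  have h43378 := checkRangeG_sound parWF r2 pf43377 h43377
  have h43379 := checkRangeG_sound parWF r2 pf43378 h43378
  have h43380 := checkRangeG_sound parWF r2 pf43379 h43379
  have h43381 := checkRangeG_sound parWF r2 pf43380 h43380
  have h43382 := checkRangeG_sound parWF r2 pf43381 h43381
  have h43383 := checkRangeG_sound parWF r2 pf43382 h43382
  have h43384 := checkRangeG_sound parWF r2 pf43383 h43383
  have h43385 := checkRangeG_sound parWF r2 pf43384 h43384
  have h43386 := checkRangeG_sound parWF r2 pf43385 h43385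
  have h43387 := checkRangeG_sound parWF r2 pf43386 h43386
  have h43388 := checkRangeG_sound parWF r2 pf43387 h43387
  have h43389 := checkRangeG_sound parWF r2 pf43388 h43388
  have h43390 := checkRangeG_sound parWF r2 pf43389 h43389
  have h43391 := checkRangeG_sound parWF r2 pf43390 h43390
  have h43392 := checkRangeG_sound parWF r2 pf43391 h43391
  have h43393 := checkRangeG_sound parWF r2 pf43392 h43392
  have h43394 := checkRangeG_sound parWF r2 pf43393 h43393
  have h43395 := checkRangeG_sound parWF r2 pf43394 h43394
  have h43396 := checkRangeG_sound parWF r2 pf43395 h43395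
  have h43397 := checkRangeG_sound parWF r2 pf43396 h43396
  have h43398 := checkRangeG_sound parWF r2 pf43397 h43397
  have h43399 := checkRangeG_sound parWF r2 pf43398 h43398
  have h43400 := checkRangeG_sound parWF r2 pf43399 h43399
  exact h43400

theorem c868 (h43400 : ∀ j, j < 150001 → GoodG.{u} par (db j)) : ∀ j, j < 150195 → GoodG.{u} par (db j) := by
  have h43401 := checkRangeG_sound parWF r2 pf43400 h43400
  have h43402 := checkRangeG_sound parWF r2 pf43401 h43401
  have h43403 := checkRangeG_sound parWF r2 pf43402 h43402
  have h43404 := checkRangeG_sound parWF r2 pf43403 h43403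
  have h43405 := checkRangeG_sound parWF r2 pf43404 h43404
  have h43406 := checkRangeG_sound parWF r2 pf43405 h43405
  have h43407 := checkRangeG_sound parWF r2 pf43406 h43406
  have h43408 := checkRangeG_sound parWF r2 pf43407 h43407
  have h43409 := checkRangeG_sound parWF r2 pf43408 h43408
  have h43410 := checkRangeG_sound parWF r2 pf43409 h43409
  have h43411 := checkRangeG_sound parWF r2 pf43410 h43410
  have h43412 := checkRangeG_sound parWF r2 pf43411 h43411
  have h43413 := checkRangeG_sound parWF r2 pf43412 h43412
  have h43414 := checkRangeG_sound parWF r2 pf43413 h43413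
  have h43415 := checkRangeG_sound parWF r2 pf43414 h43414
  have h43416 := checkRangeG_sound parWF r2 pf43415 h43415
  have h43417 := checkRangeG_sound parWF r2 pf43416 h43416
  have h43418 := checkRangeG_sound parWF r2 pf43417 h43417
  have h43419 := checkRangeG_sound parWF r2 pf43418 h43418
  have h43420 := checkRangeG_sound parWF r2 pf43419 h43419
  have h43421 := checkRangeG_sound parWF r2 pf43420 h43420
  have h43422 := checkRangeG_sound parWF r2 pf43421 h43421
  have h43423 := checkRangeG_sound parWF r2 pf43422 h43422
  have h43424 := checkRangeG_sound parWF r2 pf43423 h43423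
  have h43425 := checkRangeG_sound parWF r2 pf43424 h43424
  have h43426 := checkRangeG_sound parWF r2 pf43425 h43425
  have h43427 := checkRangeG_sound parWF r2 pf43426 h43426
  have h43428 := checkRangeG_sound parWF r2 pf43427 h43427
  have h43429 := checkRangeG_sound parWF r2 pf43428 h43428
  have h43430 := checkRangeG_sound parWF r2 pf43429 h43429
  have h43431 := checkRangeG_sound parWF r2 pf43430 h43430
  have h43432 := checkRangeG_sound parWF r2 pf43431 h43431
  have h43433 := checkRangeG_sound parWF r2 pf43432 h43432
  have h43434 := checkRangeG_sound parWF r2 pf43433 h43433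
  have h43435 := checkRangeG_sound parWF r2 pf43434 h43434
  have h43436 := checkRangeG_sound parWF r2 pf43435 h43435
  have h43437 := checkRangeG_sound parWF r2 pf43436 h43436
  have h43438 := checkRangeG_sound parWF r2 pf43437 h43437
  have h43439 := checkRangeG_sound parWF r2 pf43438 h43438
  have h43440 := checkRangeG_sound parWF r2 pf43439 h43439
  have h43441 := checkRangeG_sound parWF r2 pf43440 h43440
  have h43442 := checkRangeG_sound parWF r2 pf43441 h43441
  have h43443 := checkRangeG_sound parWF r2 pf43442 h43442
  have h43444 := checkRangeG_sound parWF r2 pf43443 h43443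
  have h43445 := checkRangeG_sound parWF r2 pf43444 h43444
  have h43446 := checkRangeG_sound parWF r2 pf43445 h43445
  have h43447 := checkRangeG_sound parWF r2 pf43446 h43446
  have h43448 := checkRangeG_sound parWF r2 pf43447 h43447
  have h43449 := checkRangeG_sound parWF r2 pf43448 h43448
  have h43450 := checkRangeG_sound parWF r2 pf43449 h43449
  exact h43450

theorem c869 (h43450 : ∀ j, j < 150195 → GoodG.{u} par (db j)) : ∀ j, j < 150380 → GoodG.{u} par (db j) := by
  have h43451 := checkRangeG_sound parWF r2 pf43450 h43450
  have h43452 := checkRangeG_sound parWF r2 pf43451 h43451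
  have h43453 := checkRangeG_sound parWF r2 pf43452 h43452
  have h43454 := checkRangeG_sound parWF r2 pf43453 h43453
  have h43455 := checkRangeG_sound parWF r2 pf43454 h43454
  have h43456 := checkRangeG_sound parWF r2 pf43455 h43455
  have h43457 := checkRangeG_sound parWF r2 pf43456 h43456
  have h43458 := checkRangeG_sound parWF r2 pf43457 h43457
  have h43459 := checkRangeG_sound parWF r2 pf43458 h43458
  have h43460 := checkRangeG_sound parWF r2 pf43459 h43459
  have h43461 := checkRangeG_sound parWF r2 pf43460 h43460
  have h43462 := checkRangeG_sound parWF r2 pf43461 h43461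
  have h43463 := checkRangeG_sound parWF r2 pf43462 h43462
  have h43464 := checkRangeG_sound parWF r2 pf43463 h43463
  have h43465 := checkRangeG_sound parWF r2 pf43464 h43464
  have h43466 := checkRangeG_sound parWF r2 pf43465 h43465
  have h43467 := checkRangeG_sound parWF r2 pf43466 h43466
  have h43468 := checkRangeG_sound parWF r2 pf43467 h43467
  have h43469 := checkRangeG_sound parWF r2 pf43468 h43468
  have h43470 := checkRangeG_sound parWF r2 pf43469 h43469
  have h43471 := checkRangeG_sound parWF r2 pf43470 h43470
  have h43472 := checkRangeG_sound parWF r2 pf43471 h43471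
  have h43473 := checkRangeG_sound parWF r2 pf43472 h43472
  have h43474 := checkRangeG_sound parWF r2 pf43473 h43473
  have h43475 := checkRangeG_sound parWF r2 pf43474 h43474
  have h43476 := checkRangeG_sound parWF r2 pf43475 h43475
  have h43477 := checkRangeG_sound parWF r2 pf43476 h43476
  have h43478 := checkRangeG_sound parWF r2 pf43477 h43477
  have h43479 := checkRangeG_sound parWF r2 pf43478 h43478
  have h43480 := checkRangeG_sound parWF r2 pf43479 h43479
  have h43481 := checkRangeG_sound parWF r2 pf43480 h43480
  have h43482 := checkRangeG_sound parWF r2 pf43481 h43481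
  have h43483 := checkRangeG_sound parWF r2 pf43482 h43482
  have h43484 := checkRangeG_sound parWF r2 pf43483 h43483
  have h43485 := checkRangeG_sound parWF r2 pf43484 h43484
  have h43486 := checkRangeG_sound parWF r2 pf43485 h43485
  have h43487 := checkRangeG_sound parWF r2 pf43486 h43486
  have h43488 := checkRangeG_sound parWF r2 pf43487 h43487
  have h43489 := checkRangeG_sound parWF r2 pf43488 h43488
  have h43490 := checkRangeG_sound parWF r2 pf43489 h43489
  have h43491 := checkRangeG_sound parWF r2 pf43490 h43490
  have h43492 := checkRangeG_sound parWF r2 pf43491 h43491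
  have h43493 := checkRangeG_sound parWF r2 pf43492 h43492
  have h43494 := checkRangeG_sound parWF r2 pf43493 h43493
  have h43495 := checkRangeG_sound parWF r2 pf43494 h43494
  have h43496 := checkRangeG_sound parWF r2 pf43495 h43495
  have h43497 := checkRangeG_sound parWF r2 pf43496 h43496
  have h43498 := checkRangeG_sound parWF r2 pf43497 h43497
  have h43499 := checkRangeG_sound parWF r2 pf43498 h43498
  have h43500 := checkRangeG_sound parWF r2 pf43499 h43499
  exact h43500

theorem c870 (h43500 : ∀ j, j < 150380 → GoodG.{u} par (db j)) : ∀ j, j < 150585 → GoodG.{u} par (db j) := by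
  have h43501 := checkRangeG_sound parWF r2 pf43500 h43500
  have h43502 := checkRangeG_sound parWF r2 pf43501 h43501
  have h43503 := checkRangeG_sound parWF r2 pf43502 h43502
  have h43504 := checkRangeG_sound parWF r2 pf43503 h43503
  have h43505 := checkRangeG_sound parWF r2 pf43504 h43504
  have h43506 := checkRangeG_sound parWF r2 pf43505 h43505
  have h43507 := checkRangeG_sound parWF r2 pf43506 h43506
  have h43508 := checkRangeG_sound parWF r2 pf43507 h43507
  have h43509 := checkRangeG_sound parWF r2 pf43508 h43508
  have h43510 := checkRangeG_sound parWF r2 pf43509 h43509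
  have h43511 := checkRangeG_sound parWF r2 pf43510 h43510
  have h43512 := checkRangeG_sound parWF r2 pf43511 h43511
  have h43513 := checkRangeG_sound parWF r2 pf43512 h43512
  have h43514 := checkRangeG_sound parWF r2 pf43513 h43513
  have h43515 := checkRangeG_sound parWF r2 pf43514 h43514
  have h43516 := checkRangeG_sound parWF r2 pf43515 h43515
  have h43517 := checkRangeG_sound parWF r2 pf43516 h43516
  have h43518 := checkRangeG_sound parWF r2 pf43517 h43517
  have h43519 := checkRangeG_sound parWF r2 pf43518 h43518
  have h43520 := checkRangeG_sound parWF r2 pf43519 h43519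
  have h43521 := checkRangeG_sound parWF r2 pf43520 h43520
  have h43522 := checkRangeG_sound parWF r2 pf43521 h43521
  have h43523 := checkRangeG_sound parWF r2 pf43522 h43522
  have h43524 := checkRangeG_sound parWF r2 pf43523 h43523
  have h43525 := checkRangeG_sound parWF r2 pf43524 h43524
  have h43526 := checkRangeG_sound parWF r2 pf43525 h43525
  have h43527 := checkRangeG_sound parWF r2 pf43526 h43526
  have h43528 := checkRangeG_sound parWF r2 pf43527 h43527
  have h43529 := checkRangeG_sound parWF r2 pf43528 h43528
  have h43530 := checkRangeG_sound parWF r2 pf43529 h43529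
  have h43531 := checkRangeG_sound parWF r2 pf43530 h43530
  have h43532 := checkRangeG_sound parWF r2 pf43531 h43531
  have h43533 := checkRangeG_sound parWF r2 pf43532 h43532
  have h43534 := checkRangeG_sound parWF r2 pf43533 h43533
  have h43535 := checkRangeG_sound parWF r2 pf43534 h43534
  have h43536 := checkRangeG_sound parWF r2 pf43535 h43535
  have h43537 := checkRangeG_sound parWF r2 pf43536 h43536
  have h43538 := checkRangeG_sound parWF r2 pf43537 h43537
  have h43539 := checkRangeG_sound parWF r2 pf43538 h43538
  have h43540 := checkRangeG_sound parWF r2 pf43539 h43539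
  have h43541 := checkRangeG_sound parWF r2 pf43540 h43540
  have h43542 := checkRangeG_sound parWF r2 pf43541 h43541
  have h43543 := checkRangeG_sound parWF r2 pf43542 h43542
  have h43544 := checkRangeG_sound parWF r2 pf43543 h43543
  have h43545 := checkRangeG_sound parWF r2 pf43544 h43544
  have h43546 := checkRangeG_sound parWF r2 pf43545 h43545
  have h43547 := checkRangeG_sound parWF r2 pf43546 h43546
  have h43548 := checkRangeG_sound parWF r2 pf43547 h43547
  have h43549 := checkRangeG_sound parWF r2 pf43548 h43548
  have h43550 := checkRangeG_sound parWF r2 pf43549 h43549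
  exact h43550

theorem c871 (h43550 : ∀ j, j < 150585 → GoodG.{u} par (db j)) : ∀ j, j < 150773 → GoodG.{u} par (db j) := by
  have h43551 := checkRangeG_sound parWF r2 pf43550 h43550
  have h43552 := checkRangeG_sound parWF r2 pf43551 h43551
  have h43553 := checkRangeG_sound parWF r2 pf43552 h43552
  have h43554 := checkRangeG_sound parWF r2 pf43553 h43553
  have h43555 := checkRangeG_sound parWF r2 pf43554 h43554
  have h43556 := checkRangeG_sound parWF r2 pf43555 h43555
  have h43557 := checkRangeG_sound parWF r2 pf43556 h43556
  have h43558 := checkRangeG_sound parWF r2 pf43557 h43557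
  have h43559 := checkRangeG_sound parWF r2 pf43558 h43558
  have h43560 := checkRangeG_sound parWF r2 pf43559 h43559
  have h43561 := checkRangeG_sound parWF r2 pf43560 h43560
  have h43562 := checkRangeG_sound parWF r2 pf43561 h43561
  have h43563 := checkRangeG_sound parWF r2 pf43562 h43562
  have h43564 := checkRangeG_sound parWF r2 pf43563 h43563
  have h43565 := checkRangeG_sound parWF r2 pf43564 h43564
  have h43566 := checkRangeG_sound parWF r2 pf43565 h43565
  have h43567 := checkRangeG_sound parWF r2 pf43566 h43566
  have h43568 := checkRangeG_sound parWF r2 pf43567 h43567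
  have h43569 := checkRangeG_sound parWF r2 pf43568 h43568
  have h43570 := checkRangeG_sound parWF r2 pf43569 h43569
  have h43571 := checkRangeG_sound parWF r2 pf43570 h43570
  have h43572 := checkRangeG_sound parWF r2 pf43571 h43571
  have h43573 := checkRangeG_sound parWF r2 pf43572 h43572
  have h43574 := checkRangeG_sound parWF r2 pf43573 h43573
  have h43575 := checkRangeG_sound parWF r2 pf43574 h43574
  have h43576 := checkRangeG_sound parWF r2 pf43575 h43575
  have h43577 := checkRangeG_sound parWF r2 pf43576 h43576
  have h43578 := checkRangeG_sound parWF r2 pf43577 h43577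
  have h43579 := checkRangeG_sound parWF r2 pf43578 h43578
  have h43580 := checkRangeG_sound parWF r2 pf43579 h43579
  have h43581 := checkRangeG_sound parWF r2 pf43580 h43580
  have h43582 := checkRangeG_sound parWF r2 pf43581 h43581
  have h43583 := checkRangeG_sound parWF r2 pf43582 h43582
  have h43584 := checkRangeG_sound parWF r2 pf43583 h43583
  have h43585 := checkRangeG_sound parWF r2 pf43584 h43584
  have h43586 := checkRangeG_sound parWF r2 pf43585 h43585
  have h43587 := checkRangeG_sound parWF r2 pf43586 h43586
  have h43588 := checkRangeG_sound parWF r2 pf43587 h43587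
  have h43589 := checkRangeG_sound parWF r2 pf43588 h43588
  have h43590 := checkRangeG_sound parWF r2 pf43589 h43589
  have h43591 := checkRangeG_sound parWF r2 pf43590 h43590
  have h43592 := checkRangeG_sound parWF r2 pf43591 h43591
  have h43593 := checkRangeG_sound parWF r2 pf43592 h43592
  have h43594 := checkRangeG_sound parWF r2 pf43593 h43593
  have h43595 := checkRangeG_sound parWF r2 pf43594 h43594
  have h43596 := checkRangeG_sound parWF r2 pf43595 h43595
  have h43597 := checkRangeG_sound parWF r2 pf43596 h43596
  have h43598 := checkRangeG_sound parWF r2 pf43597 h43597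
  have h43599 := checkRangeG_sound parWF r2 pf43598 h43598
  have h43600 := checkRangeG_sound parWF r2 pf43599 h43599
  exact h43600

theorem c872 (h43600 : ∀ j, j < 150773 → GoodG.{u} par (db j)) : ∀ j, j < 150960 → GoodG.{u} par (db j) := by
  have h43601 := checkRangeG_sound parWF r2 pf43600 h43600
  have h43602 := checkRangeG_sound parWF r2 pf43601 h43601
  have h43603 := checkRangeG_sound parWF r2 pf43602 h43602
  have h43604 := checkRangeG_sound parWF r2 pf43603 h43603
  have h43605 := checkRangeG_sound parWF r2 pf43604 h43604
  have h43606 := checkRangeG_sound parWF r2 pf43605 h43605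
  have h43607 := checkRangeG_sound parWF r2 pf43606 h43606
  have h43608 := checkRangeG_sound parWF r2 pf43607 h43607
  have h43609 := checkRangeG_sound parWF r2 pf43608 h43608
  have h43610 := checkRangeG_sound parWF r2 pf43609 h43609
  have h43611 := checkRangeG_sound parWF r2 pf43610 h43610
  have h43612 := checkRangeG_sound parWF r2 pf43611 h43611
  have h43613 := checkRangeG_sound parWF r2 pf43612 h43612
  have h43614 := checkRangeG_sound parWF r2 pf43613 h43613
  have h43615 := checkRangeG_sound parWF r2 pf43614 h43614
  have h43616 := checkRangeG_sound parWF r2 pf43615 h43615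
  have h43617 := checkRangeG_sound parWF r2 pf43616 h43616
  have h43618 := checkRangeG_sound parWF r2 pf43617 h43617
  have h43619 := checkRangeG_sound parWF r2 pf43618 h43618
  have h43620 := checkRangeG_sound parWF r2 pf43619 h43619
  have h43621 := checkRangeG_sound parWF r2 pf43620 h43620
  have h43622 := checkRangeG_sound parWF r2 pf43621 h43621
  have h43623 := checkRangeG_sound parWF r2 pf43622 h43622
  have h43624 := checkRangeG_sound parWF r2 pf43623 h43623
  have h43625 := checkRangeG_sound parWF r2 pf43624 h43624
  have h43626 := checkRangeG_sound parWF r2 pf43625 h43625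
  have h43627 := checkRangeG_sound parWF r2 pf43626 h43626
  have h43628 := checkRangeG_sound parWF r2 pf43627 h43627
  have h43629 := checkRangeG_sound parWF r2 pf43628 h43628
  have h43630 := checkRangeG_sound parWF r2 pf43629 h43629
  have h43631 := checkRangeG_sound parWF r2 pf43630 h43630
  have h43632 := checkRangeG_sound parWF r2 pf43631 h43631
  have h43633 := checkRangeG_sound parWF r2 pf43632 h43632
  have h43634 := checkRangeG_sound parWF r2 pf43633 h43633
  have h43635 := checkRangeG_sound parWF r2 pf43634 h43634
  have h43636 := checkRangeG_sound parWF r2 pf43635 h43635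
  have h43637 := checkRangeG_sound parWF r2 pf43636 h43636
  have h43638 := checkRangeG_sound parWF r2 pf43637 h43637
  have h43639 := checkRangeG_sound parWF r2 pf43638 h43638
  have h43640 := checkRangeG_sound parWF r2 pf43639 h43639
  have h43641 := checkRangeG_sound parWF r2 pf43640 h43640
  have h43642 := checkRangeG_sound parWF r2 pf43641 h43641
  have h43643 := checkRangeG_sound parWF r2 pf43642 h43642
  have h43644 := checkRangeG_sound parWF r2 pf43643 h43643
  have h43645 := checkRangeG_sound parWF r2 pf43644 h43644
  have h43646 := checkRangeG_sound parWF r2 pf43645 h43645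
  have h43647 := checkRangeG_sound parWF r2 pf43646 h43646
  have h43648 := checkRangeG_sound parWF r2 pf43647 h43647
  have h43649 := checkRangeG_sound parWF r2 pf43648 h43648
  have h43650 := checkRangeG_sound parWF r2 pf43649 h43649
  exact h43650

theorem c873 (h43650 : ∀ j, j < 150960 → GoodG.{u} par (db j)) : ∀ j, j < 151144 → GoodG.{u} par (db j) := by
  have h43651 := checkRangeG_sound parWF r2 pf43650 h43650
  have h43652 := checkRangeG_sound parWF r2 pf43651 h43651
  have h43653 := checkRangeG_sound parWF r2 pf43652 h43652
  have h43654 := checkRangeG_sound parWF r2 pf43653 h43653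
  have h43655 := checkRangeG_sound parWF r2 pf43654 h43654
  have h43656 := checkRangeG_sound parWF r2 pf43655 h43655
  have h43657 := checkRangeG_sound parWF r2 pf43656 h43656
  have h43658 := checkRangeG_sound parWF r2 pf43657 h43657
  have h43659 := checkRangeG_sound parWF r2 pf43658 h43658
  have h43660 := checkRangeG_sound parWF r2 pf43659 h43659
  have h43661 := checkRangeG_sound parWF r2 pf43660 h43660
  have h43662 := checkRangeG_sound parWF r2 pf43661 h43661
  have h43663 := checkRangeG_sound parWF r2 pf43662 h43662
  have h43664 := checkRangeG_sound parWF r2 pf43663 h43663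
  have h43665 := checkRangeG_sound parWF r2 pf43664 h43664
  have h43666 := checkRangeG_sound parWF r2 pf43665 h43665
  have h43667 := checkRangeG_sound parWF r2 pf43666 h43666
  have h43668 := checkRangeG_sound parWF r2 pf43667 h43667
  have h43669 := checkRangeG_sound parWF r2 pf43668 h43668
  have h43670 := checkRangeG_sound parWF r2 pf43669 h43669
  have h43671 := checkRangeG_sound parWF r2 pf43670 h43670
  have h43672 := checkRangeG_sound parWF r2 pf43671 h43671
  have h43673 := checkRangeG_sound parWF r2 pf43672 h43672
  have h43674 := checkRangeG_sound parWF r2 pf43673 h43673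
  have h43675 := checkRangeG_sound parWF r2 pf43674 h43674
  have h43676 := checkRangeG_sound parWF r2 pf43675 h43675
  have h43677 := checkRangeG_sound parWF r2 pf43676 h43676
  have h43678 := checkRangeG_sound parWF r2 pf43677 h43677
  have h43679 := checkRangeG_sound parWF r2 pf43678 h43678
  have h43680 := checkRangeG_sound parWF r2 pf43679 h43679
  have h43681 := checkRangeG_sound parWF r2 pf43680 h43680
  have h43682 := checkRangeG_sound parWF r2 pf43681 h43681
  have h43683 := checkRangeG_sound parWF r2 pf43682 h43682
  have h43684 := checkRangeG_sound parWF r2 pf43683 h43683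
  have h43685 := checkRangeG_sound parWF r2 pf43684 h43684
  have h43686 := checkRangeG_sound parWF r2 pf43685 h43685
  have h43687 := checkRangeG_sound parWF r2 pf43686 h43686
  have h43688 := checkRangeG_sound parWF r2 pf43687 h43687
  have h43689 := checkRangeG_sound parWF r2 pf43688 h43688
  have h43690 := checkRangeG_sound parWF r2 pf43689 h43689
  have h43691 := checkRangeG_sound parWF r2 pf43690 h43690
  have h43692 := checkRangeG_sound parWF r2 pf43691 h43691
  have h43693 := checkRangeG_sound parWF r2 pf43692 h43692
  have h43694 := checkRangeG_sound parWF r2 pf43693 h43693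
  have h43695 := checkRangeG_sound parWF r2 pf43694 h43694
  have h43696 := checkRangeG_sound parWF r2 pf43695 h43695
  have h43697 := checkRangeG_sound parWF r2 pf43696 h43696
  have h43698 := checkRangeG_sound parWF r2 pf43697 h43697
  have h43699 := checkRangeG_sound parWF r2 pf43698 h43698
  have h43700 := checkRangeG_sound parWF r2 pf43699 h43699
  exact h43700

theorem c874 (h43700 : ∀ j, j < 151144 → GoodG.{u} par (db j)) : ∀ j, j < 151343 → GoodG.{u} par (db j) := by
  have h43701 := checkRangeG_sound parWF r2 pf43700 h43700
  have h43702 := checkRangeG_sound parWF r2 pf43701 h43701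
  have h43703 := checkRangeG_sound parWF r2 pf43702 h43702
  have h43704 := checkRangeG_sound parWF r2 pf43703 h43703
  have h43705 := checkRangeG_sound parWF r2 pf43704 h43704
  have h43706 := checkRangeG_sound parWF r2 pf43705 h43705
  have h43707 := checkRangeG_sound parWF r2 pf43706 h43706
  have h43708 := checkRangeG_sound parWF r2 pf43707 h43707
  have h43709 := checkRangeG_sound parWF r2 pf43708 h43708
  have h43710 := checkRangeG_sound parWF r2 pf43709 h43709
  have h43711 := checkRangeG_sound parWF r2 pf43710 h43710
  have h43712 := checkRangeG_sound parWF r2 pf43711 h43711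
  have h43713 := checkRangeG_sound parWF r2 pf43712 h43712
  have h43714 := checkRangeG_sound parWF r2 pf43713 h43713
  have h43715 := checkRangeG_sound parWF r2 pf43714 h43714
  have h43716 := checkRangeG_sound parWF r2 pf43715 h43715
  have h43717 := checkRangeG_sound parWF r2 pf43716 h43716
  have h43718 := checkRangeG_sound parWF r2 pf43717 h43717
  have h43719 := checkRangeG_sound parWF r2 pf43718 h43718
  have h43720 := checkRangeG_sound parWF r2 pf43719 h43719
  have h43721 := checkRangeG_sound parWF r2 pf43720 h43720
  have h43722 := checkRangeG_sound parWF r2 pf43721 h43721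
  have h43723 := checkRangeG_sound parWF r2 pf43722 h43722
  have h43724 := checkRangeG_sound parWF r2 pf43723 h43723
  have h43725 := checkRangeG_sound parWF r2 pf43724 h43724
  have h43726 := checkRangeG_sound parWF r2 pf43725 h43725
  have h43727 := checkRangeG_sound parWF r2 pf43726 h43726
  have h43728 := checkRangeG_sound parWF r2 pf43727 h43727
  have h43729 := checkRangeG_sound parWF r2 pf43728 h43728
  have h43730 := checkRangeG_sound parWF r2 pf43729 h43729
  have h43731 := checkRangeG_sound parWF r2 pf43730 h43730
  have h43732 := checkRangeG_sound parWF r2 pf43731 h43731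
  have h43733 := checkRangeG_sound parWF r2 pf43732 h43732
  have h43734 := checkRangeG_sound parWF r2 pf43733 h43733
  have h43735 := checkRangeG_sound parWF r2 pf43734 h43734
  have h43736 := checkRangeG_sound parWF r2 pf43735 h43735
  have h43737 := checkRangeG_sound parWF r2 pf43736 h43736
  have h43738 := checkRangeG_sound parWF r2 pf43737 h43737
  have h43739 := checkRangeG_sound parWF r2 pf43738 h43738
  have h43740 := checkRangeG_sound parWF r2 pf43739 h43739
  have h43741 := checkRangeG_sound parWF r2 pf43740 h43740
  have h43742 := checkRangeG_sound parWF r2 pf43741 h43741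
  have h43743 := checkRangeG_sound parWF r2 pf43742 h43742
  have h43744 := checkRangeG_sound parWF r2 pf43743 h43743
  have h43745 := checkRangeG_sound parWF r2 pf43744 h43744
  have h43746 := checkRangeG_sound parWF r2 pf43745 h43745
  have h43747 := checkRangeG_sound parWF r2 pf43746 h43746
  have h43748 := checkRangeG_sound parWF r2 pf43747 h43747
  have h43749 := checkRangeG_sound parWF r2 pf43748 h43748
  have h43750 := checkRangeG_sound parWF r2 pf43749 h43749
  exact h43750

theorem c875 (h43750 : ∀ j, j < 151343 → GoodG.{u} par (db j)) : ∀ j, j < 151527 → GoodG.{u} par (db j) := by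
  have h43751 := checkRangeG_sound parWF r2 pf43750 h43750
  have h43752 := checkRangeG_sound parWF r2 pf43751 h43751
  have h43753 := checkRangeG_sound parWF r2 pf43752 h43752
  have h43754 := checkRangeG_sound parWF r2 pf43753 h43753
  have h43755 := checkRangeG_sound parWF r2 pf43754 h43754
  have h43756 := checkRangeG_sound parWF r2 pf43755 h43755
  have h43757 := checkRangeG_sound parWF r2 pf43756 h43756
  have h43758 := checkRangeG_sound parWF r2 pf43757 h43757
  have h43759 := checkRangeG_sound parWF r2 pf43758 h43758
  have h43760 := checkRangeG_sound parWF r2 pf43759 h43759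
  have h43761 := checkRangeG_sound parWF r2 pf43760 h43760
  have h43762 := checkRangeG_sound parWF r2 pf43761 h43761
  have h43763 := checkRangeG_sound parWF r2 pf43762 h43762
  have h43764 := checkRangeG_sound parWF r2 pf43763 h43763
  have h43765 := checkRangeG_sound parWF r2 pf43764 h43764
  have h43766 := checkRangeG_sound parWF r2 pf43765 h43765
  have h43767 := checkRangeG_sound parWF r2 pf43766 h43766
  have h43768 := checkRangeG_sound parWF r2 pf43767 h43767
  have h43769 := checkRangeG_sound parWF r2 pf43768 h43768
  have h43770 := checkRangeG_sound parWF r2 pf43769 h43769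
  have h43771 := checkRangeG_sound parWF r2 pf43770 h43770
  have h43772 := checkRangeG_sound parWF r2 pf43771 h43771
  have h43773 := checkRangeG_sound parWF r2 pf43772 h43772
  have h43774 := checkRangeG_sound parWF r2 pf43773 h43773
  have h43775 := checkRangeG_sound parWF r2 pf43774 h43774
  have h43776 := checkRangeG_sound parWF r2 pf43775 h43775
  have h43777 := checkRangeG_sound parWF r2 pf43776 h43776
  have h43778 := checkRangeG_sound parWF r2 pf43777 h43777
  have h43779 := checkRangeG_sound parWF r2 pf43778 h43778
  have h43780 := checkRangeG_sound parWF r2 pf43779 h43779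
  have h43781 := checkRangeG_sound parWF r2 pf43780 h43780
  have h43782 := checkRangeG_sound parWF r2 pf43781 h43781
  have h43783 := checkRangeG_sound parWF r2 pf43782 h43782
  have h43784 := checkRangeG_sound parWF r2 pf43783 h43783
  have h43785 := checkRangeG_sound parWF r2 pf43784 h43784
  have h43786 := checkRangeG_sound parWF r2 pf43785 h43785
  have h43787 := checkRangeG_sound parWF r2 pf43786 h43786
  have h43788 := checkRangeG_sound parWF r2 pf43787 h43787
  have h43789 := checkRangeG_sound parWF r2 pf43788 h43788
  have h43790 := checkRangeG_sound parWF r2 pf43789 h43789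
  have h43791 := checkRangeG_sound parWF r2 pf43790 h43790
  have h43792 := checkRangeG_sound parWF r2 pf43791 h43791
  have h43793 := checkRangeG_sound parWF r2 pf43792 h43792
  have h43794 := checkRangeG_sound parWF r2 pf43793 h43793
  have h43795 := checkRangeG_sound parWF r2 pf43794 h43794
  have h43796 := checkRangeG_sound parWF r2 pf43795 h43795
  have h43797 := checkRangeG_sound parWF r2 pf43796 h43796
  have h43798 := checkRangeG_sound parWF r2 pf43797 h43797
  have h43799 := checkRangeG_sound parWF r2 pf43798 h43798
  have h43800 := checkRangeG_sound parWF r2 pf43799 h43799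
  exact h43800


end Vale.Agent.P045g.C61
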