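import Vale.Agent.P045g.C61.WF
import Vale.Agent.P045g.C61.Pf730
import Vale.Agent.P045g.C61.Pf731
import Vale.Agent.P045g.C61.Pf732
import Vale.Agent.P045g.C61.Pf733
import Vale.Agent.P045g.C61.Pf734
import Vale.Agent.P045g.C61.Pf735
import Vale.Agent.P045g.C61.Pf736
import Vale.Agent.P045g.C61.Pf737
import Vale.Agent.P045g.C61.Pf738
import Vale.Agent.P045g.C61.Pf739

namespace Vale.Agent.P045g.C61

open Vale.Agent.P045b Vale.Agent.P045g

universe u

theorem c876 (h43800 : ∀ j, j < 151527 → GoodG.{u} par (db j)) : ∀ j, j < 151711 → GoodG.{u} par (db j) := by
  have h43801 := checkRangeG_sound parWF r2 pf43800 h43800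
  have h43802 := checkRangeG_sound parWF r2 pf43801 h43801
  have h43803 := checkRangeG_sound parWF r2 pf43802 h43802
  have h43804 := checkRangeG_sound parWF r2 pf43803 h43803
  have h43805 := checkRangeG_sound parWF r2 pf43804 h43804
  have h43806 := checkRangeG_sound parWF r2 pf43805 h43805
  have h43807 := checkRangeG_sound parWF r2 pf43806 h43806
  have h43808 := checkRangeG_sound parWF r2 pf43807 h43807
  have h43809 := checkRangeG_sound parWF r2 pf43808 h43808
  have h43810 := checkRangeG_sound parWF r2 pf43809 h43809
  have h43811 := checkRangeG_sound parWF r2 pf43810 h43810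
  have h43812 := checkRangeG_sound parWF r2 pf43811 h43811
  have h43813 := checkRangeG_sound parWF r2 pf43812 h43812
  have h43814 := checkRangeG_sound parWF r2 pf43813 h43813
  have h43815 := checkRangeG_sound parWF r2 pf43814 h43814
  have h43816 := checkRangeG_sound parWF r2 pf43815 h43815
  have h43817 := checkRangeG_sound parWF r2 pf43816 h43816
  have h43818 := checkRangeG_sound parWF r2 pf43817 h43817
  have h43819 := checkRangeG_sound parWF r2 pf43818 h43818
  have h43820 := checkRangeG_sound parWF r2 pf43819 h43819
  have h43821 := checkRangeG_sound parWF r2 pf43820 h43820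
  have h43822 := checkRangeG_sound parWF r2 pf43821 h43821
  have h43823 := checkRangeG_sound parWF r2 pf43822 h43822
  have h43824 := checkRangeG_sound parWF r2 pf43823 h43823
  have h43825 := checkRangeG_sound parWF r2 pf43824 h43824
  have h43826 := checkRangeG_sound parWF r2 pf43825 h43825
  have h43827 := checkRangeG_sound parWF r2 pf43826 h43826
  have h43828 := checkRangeG_sound parWF r2 pf43827 h43827
  have h43829 := checkRangeG_sound parWF r2 pf43828 h43828
  have h43830 := checkRangeG_sound parWF r2 pf43829 h43829
  have h43831 := checkRangeG_sound parWF r2 pf43830 h43830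
  have h43832 := checkRangeG_sound parWF r2 pf43831 h43831
  have h43833 := checkRangeG_sound parWF r2 pf43832 h43832
  have h43834 := checkRangeG_sound parWF r2 pf43833 h43833
  have h43835 := checkRangeG_sound parWF r2 pf43834 h43834
  have h43836 := checkRangeG_sound parWF r2 pf43835 h43835
  have h43837 := checkRangeG_sound parWF r2 pf43836 h43836
  have h43838 := checkRangeG_sound parWF r2 pf43837 h43837
  have h43839 := checkRangeG_sound parWF r2 pf43838 h43838
  have h43840 := checkRangeG_sound parWF r2 pf43839 h43839
  have h43841 := checkRangeG_sound parWF r2 pf43840 h43840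
  have h43842 := checkRangeG_sound parWF r2 pf43841 h43841
  have h43843 := checkRangeG_sound parWF r2 pf43842 h43842
  have h43844 := checkRangeG_sound parWF r2 pf43843 h43843
  have h43845 := checkRangeG_sound parWF r2 pf43844 h43844
  have h43846 := checkRangeG_sound parWF r2 pf43845 h43845
  have h43847 := checkRangeG_sound parWF r2 pf43846 h43846
  have h43848 := checkRangeG_sound parWF r2 pf43847 h43847
  have h43849 := checkRangeG_sound parWF r2 pf43848 h43848
  have h43850 := checkRangeG_sound parWF r2 pf43849 h43849
  exact h43850

theorem c877 (h43850 : ∀ j, j < 151711 → GoodG.{u} par (db j)) : ∀ j, j < 151912 → GoodG.{u} par (db j) := by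
  have h43851 := checkRangeG_sound parWF r2 pf43850 h43850
  have h43852 := checkRangeG_sound parWF r2 pf43851 h43851
  have h43853 := checkRangeG_sound parWF r2 pf43852 h43852
  have h43854 := checkRangeG_sound parWF r2 pf43853 h43853
  have h43855 := checkRangeG_sound parWF r2 pf43854 h43854
  have h43856 := checkRangeG_sound parWF r2 pf43855 h43855
  have h43857 := checkRangeG_sound parWF r2 pf43856 h43856
  have h43858 := checkRangeG_sound parWF r2 pf43857 h43857
  have h43859 := checkRangeG_sound parWF r2 pf43858 h43858
  have h43860 := checkRangeG_sound parWF r2 pf43859 h43859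
  have h43861 := checkRangeG_sound parWF r2 pf43860 h43860
  have h43862 := checkRangeG_sound parWF r2 pf43861 h43861
  have h43863 := checkRangeG_sound parWF r2 pf43862 h43862
  have h43864 := checkRangeG_sound parWF r2 pf43863 h43863
  have h43865 := checkRangeG_sound parWF r2 pf43864 h43864
  have h43866 := checkRangeG_sound parWF r2 pf43865 h43865
  have h43867 := checkRangeG_sound parWF r2 pf43866 h43866
  have h43868 := checkRangeG_sound parWF r2 pf43867 h43867
  have h43869 := checkRangeG_sound parWF r2 pf43868 h43868
  have h43870 := checkRangeG_sound parWF r2 pf43869 h43869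
  have h43871 := checkRangeG_sound parWF r2 pf43870 h43870
  have h43872 := checkRangeG_sound parWF r2 pf43871 h43871
  have h43873 := checkRangeG_sound parWF r2 pf43872 h43872
  have h43874 := checkRangeG_sound parWF r2 pf43873 h43873
  have h43875 := checkRangeG_sound parWF r2 pf43874 h43874
  have h43876 := checkRangeG_sound parWF r2 pf43875 h43875
  have h43877 := checkRangeG_sound parWF r2 pf43876 h43876
  have h43878 := checkRangeG_sound parWF r2 pf43877 h43877
  have h43879 := checkRangeG_sound parWF r2 pf43878 h43878
  have h43880 := checkRangeG_sound parWF r2 pf43879 h43879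
  have h43881 := checkRangeG_sound parWF r2 pf43880 h43880
  have h43882 := checkRangeG_sound parWF r2 pf43881 h43881
  have h43883 := checkRangeG_sound parWF r2 pf43882 h43882
  have h43884 := checkRangeG_sound parWF r2 pf43883 h43883
  have h43885 := checkRangeG_sound parWF r2 pf43884 h43884
  have h43886 := checkRangeG_sound parWF r2 pf43885 h43885
  have h43887 := checkRangeG_sound parWF r2 pf43886 h43886
  have h43888 := checkRangeG_sound parWF r2 pf43887 h43887
  have h43889 := checkRangeG_sound parWF r2 pf43888 h43888
  have h43890 := checkRangeG_sound parWF r2 pf43889 h43889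
  have h43891 := checkRangeG_sound parWF r2 pf43890 h43890
  have h43892 := checkRangeG_sound parWF r2 pf43891 h43891
  have h43893 := checkRangeG_sound parWF r2 pf43892 h43892
  have h43894 := checkRangeG_sound parWF r2 pf43893 h43893
  have h43895 := checkRangeG_sound parWF r2 pf43894 h43894
  have h43896 := checkRangeG_sound parWF r2 pf43895 h43895
  have h43897 := checkRangeG_sound parWF r2 pf43896 h43896
  have h43898 := checkRangeG_sound parWF r2 pf43897 h43897
  have h43899 := checkRangeG_sound parWF r2 pf43898 h43898
  have h43900 := checkRangeG_sound parWF r2 pf43899 h43899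
  exact h43900

theorem c878 (h43900 : ∀ j, j < 151912 → GoodG.{u} par (db j)) : ∀ j, j < 152124 → GoodG.{u} par (db j) := by
  have h43901 := checkRangeG_sound parWF r2 pf43900 h43900
  have h43902 := checkRangeG_sound parWF r2 pf43901 h43901
  have h43903 := checkRangeG_sound parWF r2 pf43902 h43902
  have h43904 := checkRangeG_sound parWF r2 pf43903 h43903
  have h43905 := checkRangeG_sound parWF r2 pf43904 h43904
  have h43906 := checkRangeG_sound parWF r2 pf43905 h43905
  have h43907 := checkRangeG_sound parWF r2 pf43906 h43906
  have h43908 := checkRangeG_sound parWF r2 pf43907 h43907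
  have h43909 := checkRangeG_sound parWF r2 pf43908 h43908
  have h43910 := checkRangeG_sound parWF r2 pf43909 h43909
  have h43911 := checkRangeG_sound parWF r2 pf43910 h43910
  have h43912 := checkRangeG_sound parWF r2 pf43911 h43911
  have h43913 := checkRangeG_sound parWF r2 pf43912 h43912
  have h43914 := checkRangeG_sound parWF r2 pf43913 h43913
  have h43915 := checkRangeG_sound parWF r2 pf43914 h43914
  have h43916 := checkRangeG_sound parWF r2 pf43915 h43915
  have h43917 := checkRangeG_sound parWF r2 pf43916 h43916
  have h43918 := checkRangeG_sound parWF r2 pf43917 h43917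
  have h43919 := checkRangeG_sound parWF r2 pf43918 h43918
  have h43920 := checkRangeG_sound parWF r2 pf43919 h43919
  have h43921 := checkRangeG_sound parWF r2 pf43920 h43920
  have h43922 := checkRangeG_sound parWF r2 pf43921 h43921
  have h43923 := checkRangeG_sound parWF r2 pf43922 h43922
  have h43924 := checkRangeG_sound parWF r2 pf43923 h43923
  have h43925 := checkRangeG_sound parWF r2 pf43924 h43924
  have h43926 := checkRangeG_sound parWF r2 pf43925 h43925
  have h43927 := checkRangeG_sound parWF r2 pf43926 h43926
  have h43928 := checkRangeG_sound parWF r2 pf43927 h43927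
  have h43929 := checkRangeG_sound parWF r2 pf43928 h43928
  have h43930 := checkRangeG_sound parWF r2 pf43929 h43929
  have h43931 := checkRangeG_sound parWF r2 pf43930 h43930
  have h43932 := checkRangeG_sound parWF r2 pf43931 h43931
  have h43933 := checkRangeG_sound parWF r2 pf43932 h43932
  have h43934 := checkRangeG_sound parWF r2 pf43933 h43933
  have h43935 := checkRangeG_sound parWF r2 pf43934 h43934
  have h43936 := checkRangeG_sound parWF r2 pf43935 h43935
  have h43937 := checkRangeG_sound parWF r2 pf43936 h43936
  have h43938 := checkRangeG_sound parWF r2 pf43937 h43937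
  have h43939 := checkRangeG_sound parWF r2 pf43938 h43938
  have h43940 := checkRangeG_sound parWF r2 pf43939 h43939
  have h43941 := checkRangeG_sound parWF r2 pf43940 h43940
  have h43942 := checkRangeG_sound parWF r2 pf43941 h43941
  have h43943 := checkRangeG_sound parWF r2 pf43942 h43942
  have h43944 := checkRangeG_sound parWF r2 pf43943 h43943
  have h43945 := checkRangeG_sound parWF r2 pf43944 h43944
  have h43946 := checkRangeG_sound parWF r2 pf43945 h43945
  have h43947 := checkRangeG_sound parWF r2 pf43946 h43946
  have h43948 := checkRangeG_sound parWF r2 pf43947 h43947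
  have h43949 := checkRangeG_sound parWF r2 pf43948 h43948
  have h43950 := checkRangeG_sound parWF r2 pf43949 h43949
  exact h43950

theorem c879 (h43950 : ∀ j, j < 152124 → GoodG.{u} par (db j)) : ∀ j, j < 152317 → GoodG.{u} par (db j) := by
  have h43951 := checkRangeG_sound parWF r2 pf43950 h43950
  have h43952 := checkRangeG_sound parWF r2 pf43951 h43951
  have h43953 := checkRangeG_sound parWF r2 pf43952 h43952
  have h43954 := checkRangeG_sound parWF r2 pf43953 h43953
  have h43955 := checkRangeG_sound parWF r2 pf43954 h43954
  have h43956 := checkRangeG_sound parWF r2 pf43955 h43955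
  have h43957 := checkRangeG_sound parWF r2 pf43956 h43956
  have h43958 := checkRangeG_sound parWF r2 pf43957 h43957
  have h43959 := checkRangeG_sound parWF r2 pf43958 h43958
  have h43960 := checkRangeG_sound parWF r2 pf43959 h43959
  have h43961 := checkRangeG_sound parWF r2 pf43960 h43960
  have h43962 := checkRangeG_sound parWF r2 pf43961 h43961
  have h43963 := checkRangeG_sound parWF r2 pf43962 h43962
  have h43964 := checkRangeG_sound parWF r2 pf43963 h43963
  have h43965 := checkRangeG_sound parWF r2 pf43964 h43964
  have h43966 := checkRangeG_sound parWF r2 pf43965 h43965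
  have h43967 := checkRangeG_sound parWF r2 pf43966 h43966
  have h43968 := checkRangeG_sound parWF r2 pf43967 h43967
  have h43969 := checkRangeG_sound parWF r2 pf43968 h43968
  have h43970 := checkRangeG_sound parWF r2 pf43969 h43969
  have h43971 := checkRangeG_sound parWF r2 pf43970 h43970
  have h43972 := checkRangeG_sound parWF r2 pf43971 h43971
  have h43973 := checkRangeG_sound parWF r2 pf43972 h43972
  have h43974 := checkRangeG_sound parWF r2 pf43973 h43973
  have h43975 := checkRangeG_sound parWF r2 pf43974 h43974
  have h43976 := checkRangeG_sound parWF r2 pf43975 h43975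
  have h43977 := checkRangeG_sound parWF r2 pf43976 h43976
  have h43978 := checkRangeG_sound parWF r2 pf43977 h43977
  have h43979 := checkRangeG_sound parWF r2 pf43978 h43978
  have h43980 := checkRangeG_sound parWF r2 pf43979 h43979
  have h43981 := checkRangeG_sound parWF r2 pf43980 h43980
  have h43982 := checkRangeG_sound parWF r2 pf43981 h43981
  have h43983 := checkRangeG_sound parWF r2 pf43982 h43982
  have h43984 := checkRangeG_sound parWF r2 pf43983 h43983
  have h43985 := checkRangeG_sound parWF r2 pf43984 h43984
  have h43986 := checkRangeG_sound parWF r2 pf43985 h43985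
  have h43987 := checkRangeG_sound parWF r2 pf43986 h43986
  have h43988 := checkRangeG_sound parWF r2 pf43987 h43987
  have h43989 := checkRangeG_sound parWF r2 pf43988 h43988
  have h43990 := checkRangeG_sound parWF r2 pf43989 h43989
  have h43991 := checkRangeG_sound parWF r2 pf43990 h43990
  have h43992 := checkRangeG_sound parWF r2 pf43991 h43991
  have h43993 := checkRangeG_sound parWF r2 pf43992 h43992
  have h43994 := checkRangeG_sound parWF r2 pf43993 h43993
  have h43995 := checkRangeG_sound parWF r2 pf43994 h43994
  have h43996 := checkRangeG_sound parWF r2 pf43995 h43995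
  have h43997 := checkRangeG_sound parWF r2 pf43996 h43996
  have h43998 := checkRangeG_sound parWF r2 pf43997 h43997
  have h43999 := checkRangeG_sound parWF r2 pf43998 h43998
  have h44000 := checkRangeG_sound parWF r2 pf43999 h43999
  exact h44000

theorem c880 (h44000 : ∀ j, j < 152317 → GoodG.{u} par (db j)) : ∀ j, j < 152547 → GoodG.{u} par (db j) := by
  have h44001 := checkRangeG_sound parWF r2 pf44000 h44000
  have h44002 := checkRangeG_sound parWF r2 pf44001 h44001
  have h44003 := checkRangeG_sound parWF r2 pf44002 h44002
  have h44004 := checkRangeG_sound parWF r2 pf44003 h44003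
  have h44005 := checkRangeG_sound parWF r2 pf44004 h44004
  have h44006 := checkRangeG_sound parWF r2 pf44005 h44005
  have h44007 := checkRangeG_sound parWF r2 pf44006 h44006
  have h44008 := checkRangeG_sound parWF r2 pf44007 h44007
  have h44009 := checkRangeG_sound parWF r2 pf44008 h44008
  have h44010 := checkRangeG_sound parWF r2 pf44009 h44009
  have h44011 := checkRangeG_sound parWF r2 pf44010 h44010
  have h44012 := checkRangeG_sound parWF r2 pf44011 h44011
  have h44013 := checkRangeG_sound parWF r2 pf44012 h44012
  have h44014 := checkRangeG_sound parWF r2 pf44013 h44013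
  have h44015 := checkRangeG_sound parWF r2 pf44014 h44014
  have h44016 := checkRangeG_sound parWF r2 pf44015 h44015
  have h44017 := checkRangeG_sound parWF r2 pf44016 h44016
  have h44018 := checkRangeG_sound parWF r2 pf44017 h44017
  have h44019 := checkRangeG_sound parWF r2 pf44018 h44018
  have h44020 := checkRangeG_sound parWF r2 pf44019 h44019
  have h44021 := checkRangeG_sound parWF r2 pf44020 h44020
  have h44022 := checkRangeG_sound parWF r2 pf44021 h44021
  have h44023 := checkRangeG_sound parWF r2 pf44022 h44022
  have h44024 := checkRangeG_sound parWF r2 pf44023 h44023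
  have h44025 := checkRangeG_sound parWF r2 pf44024 h44024
  have h44026 := checkRangeG_sound parWF r2 pf44025 h44025
  have h44027 := checkRangeG_sound parWF r2 pf44026 h44026
  have h44028 := checkRangeG_sound parWF r2 pf44027 h44027
  have h44029 := checkRangeG_sound parWF r2 pf44028 h44028
  have h44030 := checkRangeG_sound parWF r2 pf44029 h44029
  have h44031 := checkRangeG_sound parWF r2 pf44030 h44030
  have h44032 := checkRangeG_sound parWF r2 pf44031 h44031
  have h44033 := checkRangeG_sound parWF r2 pf44032 h44032
  have h44034 := checkRangeG_sound parWF r2 pf44033 h44033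
  have h44035 := checkRangeG_sound parWF r2 pf44034 h44034
  have h44036 := checkRangeG_sound parWF r2 pf44035 h44035
  have h44037 := checkRangeG_sound parWF r2 pf44036 h44036
  have h44038 := checkRangeG_sound parWF r2 pf44037 h44037
  have h44039 := checkRangeG_sound parWF r2 pf44038 h44038
  have h44040 := checkRangeG_sound parWF r2 pf44039 h44039
  have h44041 := checkRangeG_sound parWF r2 pf44040 h44040
  have h44042 := checkRangeG_sound parWF r2 pf44041 h44041
  have h44043 := checkRangeG_sound parWF r2 pf44042 h44042
  have h44044 := checkRangeG_sound parWF r2 pf44043 h44043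
  have h44045 := checkRangeG_sound parWF r2 pf44044 h44044
  have h44046 := checkRangeG_sound parWF r2 pf44045 h44045
  have h44047 := checkRangeG_sound parWF r2 pf44046 h44046
  have h44048 := checkRangeG_sound parWF r2 pf44047 h44047
  have h44049 := checkRangeG_sound parWF r2 pf44048 h44048
  have h44050 := checkRangeG_sound parWF r2 pf44049 h44049
  exact h44050

theorem c881 (h44050 : ∀ j, j < 152547 → GoodG.{u} par (db j)) : ∀ j, j < 152764 → GoodG.{u} par (db j) := by
  have h44051 := checkRangeG_sound parWF r2 pf44050 h44050
  have h44052 := checkRangeG_sound parWF r2 pf44051 h44051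
  have h44053 := checkRangeG_sound parWF r2 pf44052 h44052
  have h44054 := checkRangeG_sound parWF r2 pf44053 h44053
  have h44055 := checkRangeG_sound parWF r2 pf44054 h44054
  have h44056 := checkRangeG_sound parWF r2 pf44055 h44055
  have h44057 := checkRangeG_sound parWF r2 pf44056 h44056
  have h44058 := checkRangeG_sound parWF r2 pf44057 h44057
  have h44059 := checkRangeG_sound parWF r2 pf44058 h44058
  have h44060 := checkRangeG_sound parWF r2 pf44059 h44059
  have h44061 := checkRangeG_sound parWF r2 pf44060 h44060
  have h44062 := checkRangeG_sound parWF r2 pf44061 h44061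
  have h44063 := checkRangeG_sound parWF r2 pf44062 h44062
  have h44064 := checkRangeG_sound parWF r2 pf44063 h44063
  have h44065 := checkRangeG_sound parWF r2 pf44064 h44064
  have h44066 := checkRangeG_sound parWF r2 pf44065 h44065
  have h44067 := checkRangeG_sound parWF r2 pf44066 h44066
  have h44068 := checkRangeG_sound parWF r2 pf44067 h44067
  have h44069 := checkRangeG_sound parWF r2 pf44068 h44068
  have h44070 := checkRangeG_sound parWF r2 pf44069 h44069
  have h44071 := checkRangeG_sound parWF r2 pf44070 h44070
  have h44072 := checkRangeG_sound parWF r2 pf44071 h44071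
  have h44073 := checkRangeG_sound parWF r2 pf44072 h44072
  have h44074 := checkRangeG_sound parWF r2 pf44073 h44073
  have h44075 := checkRangeG_sound parWF r2 pf44074 h44074
  have h44076 := checkRangeG_sound parWF r2 pf44075 h44075
  have h44077 := checkRangeG_sound parWF r2 pf44076 h44076
  have h44078 := checkRangeG_sound parWF r2 pf44077 h44077
  have h44079 := checkRangeG_sound parWF r2 pf44078 h44078
  have h44080 := checkRangeG_sound parWF r2 pf44079 h44079
  have h44081 := checkRangeG_sound parWF r2 pf44080 h44080
  have h44082 := checkRangeG_sound parWF r2 pf44081 h44081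
  have h44083 := checkRangeG_sound parWF r2 pf44082 h44082
  have h44084 := checkRangeG_sound parWF r2 pf44083 h44083
  have h44085 := checkRangeG_sound parWF r2 pf44084 h44084
  have h44086 := checkRangeG_sound parWF r2 pf44085 h44085
  have h44087 := checkRangeG_sound parWF r2 pf44086 h44086
  have h44088 := checkRangeG_sound parWF r2 pf44087 h44087
  have h44089 := checkRangeG_sound parWF r2 pf44088 h44088
  have h44090 := checkRangeG_sound parWF r2 pf44089 h44089
  have h44091 := checkRangeG_sound parWF r2 pf44090 h44090
  have h44092 := checkRangeG_sound parWF r2 pf44091 h44091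
  have h44093 := checkRangeG_sound parWF r2 pf44092 h44092
  have h44094 := checkRangeG_sound parWF r2 pf44093 h44093
  have h44095 := checkRangeG_sound parWF r2 pf44094 h44094
  have h44096 := checkRangeG_sound parWF r2 pf44095 h44095
  have h44097 := checkRangeG_sound parWF r2 pf44096 h44096
  have h44098 := checkRangeG_sound parWF r2 pf44097 h44097
  have h44099 := checkRangeG_sound parWF r2 pf44098 h44098
  have h44100 := checkRangeG_sound parWF r2 pf44099 h44099
  exact h44100

theorem c882 (h44100 : ∀ j, j < 152764 → GoodG.{u} par (db j)) : ∀ j, j < 152984 → GoodG.{u} par (db j) := by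
  have h44101 := checkRangeG_sound parWF r2 pf44100 h44100
  have h44102 := checkRangeG_sound parWF r2 pf44101 h44101
  have h44103 := checkRangeG_sound parWF r2 pf44102 h44102
  have h44104 := checkRangeG_sound parWF r2 pf44103 h44103
  have h44105 := checkRangeG_sound parWF r2 pf44104 h44104
  have h44106 := checkRangeG_sound parWF r2 pf44105 h44105
  have h44107 := checkRangeG_sound parWF r2 pf44106 h44106
  have h44108 := checkRangeG_sound parWF r2 pf44107 h44107
  have h44109 := checkRangeG_sound parWF r2 pf44108 h44108
  have h44110 := checkRangeG_sound parWF r2 pf44109 h44109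
  have h44111 := checkRangeG_sound parWF r2 pf44110 h44110
  have h44112 := checkRangeG_sound parWF r2 pf44111 h44111
  have h44113 := checkRangeG_sound parWF r2 pf44112 h44112
  have h44114 := checkRangeG_sound parWF r2 pf44113 h44113
  have h44115 := checkRangeG_sound parWF r2 pf44114 h44114
  have h44116 := checkRangeG_sound parWF r2 pf44115 h44115
  have h44117 := checkRangeG_sound parWF r2 pf44116 h44116
  have h44118 := checkRangeG_sound parWF r2 pf44117 h44117
  have h44119 := checkRangeG_sound parWF r2 pf44118 h44118
  have h44120 := checkRangeG_sound parWF r2 pf44119 h44119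
  have h44121 := checkRangeG_sound parWF r2 pf44120 h44120
  have h44122 := checkRangeG_sound parWF r2 pf44121 h44121
  have h44123 := checkRangeG_sound parWF r2 pf44122 h44122
  have h44124 := checkRangeG_sound parWF r2 pf44123 h44123
  have h44125 := checkRangeG_sound parWF r2 pf44124 h44124
  have h44126 := checkRangeG_sound parWF r2 pf44125 h44125
  have h44127 := checkRangeG_sound parWF r2 pf44126 h44126
  have h44128 := checkRangeG_sound parWF r2 pf44127 h44127
  have h44129 := checkRangeG_sound parWF r2 pf44128 h44128
  have h44130 := checkRangeG_sound parWF r2 pf44129 h44129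
  have h44131 := checkRangeG_sound parWF r2 pf44130 h44130
  have h44132 := checkRangeG_sound parWF r2 pf44131 h44131
  have h44133 := checkRangeG_sound parWF r2 pf44132 h44132
  have h44134 := checkRangeG_sound parWF r2 pf44133 h44133
  have h44135 := checkRangeG_sound parWF r2 pf44134 h44134
  have h44136 := checkRangeG_sound parWF r2 pf44135 h44135
  have h44137 := checkRangeG_sound parWF r2 pf44136 h44136
  have h44138 := checkRangeG_sound parWF r2 pf44137 h44137
  have h44139 := checkRangeG_sound parWF r2 pf44138 h44138
  have h44140 := checkRangeG_sound parWF r2 pf44139 h44139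
  have h44141 := checkRangeG_sound parWF r2 pf44140 h44140
  have h44142 := checkRangeG_sound parWF r2 pf44141 h44141
  have h44143 := checkRangeG_sound parWF r2 pf44142 h44142
  have h44144 := checkRangeG_sound parWF r2 pf44143 h44143
  have h44145 := checkRangeG_sound parWF r2 pf44144 h44144
  have h44146 := checkRangeG_sound parWF r2 pf44145 h44145
  have h44147 := checkRangeG_sound parWF r2 pf44146 h44146
  have h44148 := checkRangeG_sound parWF r2 pf44147 h44147
  have h44149 := checkRangeG_sound parWF r2 pf44148 h44148
  have h44150 := checkRangeG_sound parWF r2 pf44149 h44149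
  exact h44150

theorem c883 (h44150 : ∀ j, j < 152984 → GoodG.{u} par (db j)) : ∀ j, j < 153224 → GoodG.{u} par (db j) := by
  have h44151 := checkRangeG_sound parWF r2 pf44150 h44150
  have h44152 := checkRangeG_sound parWF r2 pf44151 h44151
  have h44153 := checkRangeG_sound parWF r2 pf44152 h44152
  have h44154 := checkRangeG_sound parWF r2 pf44153 h44153
  have h44155 := checkRangeG_sound parWF r2 pf44154 h44154
  have h44156 := checkRangeG_sound parWF r2 pf44155 h44155
  have h44157 := checkRangeG_sound parWF r2 pf44156 h44156
  have h44158 := checkRangeG_sound parWF r2 pf44157 h44157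
  have h44159 := checkRangeG_sound parWF r2 pf44158 h44158
  have h44160 := checkRangeG_sound parWF r2 pf44159 h44159
  have h44161 := checkRangeG_sound parWF r2 pf44160 h44160
  have h44162 := checkRangeG_sound parWF r2 pf44161 h44161
  have h44163 := checkRangeG_sound parWF r2 pf44162 h44162
  have h44164 := checkRangeG_sound parWF r2 pf44163 h44163
  have h44165 := checkRangeG_sound parWF r2 pf44164 h44164
  have h44166 := checkRangeG_sound parWF r2 pf44165 h44165
  have h44167 := checkRangeG_sound parWF r2 pf44166 h44166
  have h44168 := checkRangeG_sound parWF r2 pf44167 h44167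
  have h44169 := checkRangeG_sound parWF r2 pf44168 h44168
  have h44170 := checkRangeG_sound parWF r2 pf44169 h44169
  have h44171 := checkRangeG_sound parWF r2 pf44170 h44170
  have h44172 := checkRangeG_sound parWF r2 pf44171 h44171
  have h44173 := checkRangeG_sound parWF r2 pf44172 h44172
  have h44174 := checkRangeG_sound parWF r2 pf44173 h44173
  have h44175 := checkRangeG_sound parWF r2 pf44174 h44174
  have h44176 := checkRangeG_sound parWF r2 pf44175 h44175
  have h44177 := checkRangeG_sound parWF r2 pf44176 h44176
  have h44178 := checkRangeG_sound parWF r2 pf44177 h44177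
  have h44179 := checkRangeG_sound parWF r2 pf44178 h44178
  have h44180 := checkRangeG_sound parWF r2 pf44179 h44179
  have h44181 := checkRangeG_sound parWF r2 pf44180 h44180
  have h44182 := checkRangeG_sound parWF r2 pf44181 h44181
  have h44183 := checkRangeG_sound parWF r2 pf44182 h44182
  have h44184 := checkRangeG_sound parWF r2 pf44183 h44183
  have h44185 := checkRangeG_sound parWF r2 pf44184 h44184
  have h44186 := checkRangeG_sound parWF r2 pf44185 h44185
  have h44187 := checkRangeG_sound parWF r2 pf44186 h44186
  have h44188 := checkRangeG_sound parWF r2 pf44187 h44187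
  have h44189 := checkRangeG_sound parWF r2 pf44188 h44188
  have h44190 := checkRangeG_sound parWF r2 pf44189 h44189
  have h44191 := checkRangeG_sound parWF r2 pf44190 h44190
  have h44192 := checkRangeG_sound parWF r2 pf44191 h44191
  have h44193 := checkRangeG_sound parWF r2 pf44192 h44192
  have h44194 := checkRangeG_sound parWF r2 pf44193 h44193
  have h44195 := checkRangeG_sound parWF r2 pf44194 h44194
  have h44196 := checkRangeG_sound parWF r2 pf44195 h44195
  have h44197 := checkRangeG_sound parWF r2 pf44196 h44196
  have h44198 := checkRangeG_sound parWF r2 pf44197 h44197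
  have h44199 := checkRangeG_sound parWF r2 pf44198 h44198
  have h44200 := checkRangeG_sound parWF r2 pf44199 h44199
  exact h44200

theorem c884 (h44200 : ∀ j, j < 153224 → GoodG.{u} par (db j)) : ∀ j, j < 153452 → GoodG.{u} par (db j) := by
  have h44201 := checkRangeG_sound parWF r2 pf44200 h44200
  have h44202 := checkRangeG_sound parWF r2 pf44201 h44201
  have h44203 := checkRangeG_sound parWF r2 pf44202 h44202
  have h44204 := checkRangeG_sound parWF r2 pf44203 h44203
  have h44205 := checkRangeG_sound parWF r2 pf44204 h44204
  have h44206 := checkRangeG_sound parWF r2 pf44205 h44205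
  have h44207 := checkRangeG_sound parWF r2 pf44206 h44206
  have h44208 := checkRangeG_sound parWF r2 pf44207 h44207
  have h44209 := checkRangeG_sound parWF r2 pf44208 h44208
  have h44210 := checkRangeG_sound parWF r2 pf44209 h44209
  have h44211 := checkRangeG_sound parWF r2 pf44210 h44210
  have h44212 := checkRangeG_sound parWF r2 pf44211 h44211
  have h44213 := checkRangeG_sound parWF r2 pf44212 h44212
  have h44214 := checkRangeG_sound parWF r2 pf44213 h44213
  have h44215 := checkRangeG_sound parWF r2 pf44214 h44214
  have h44216 := checkRangeG_sound parWF r2 pf44215 h44215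
  have h44217 := checkRangeG_sound parWF r2 pf44216 h44216
  have h44218 := checkRangeG_sound parWF r2 pf44217 h44217
  have h44219 := checkRangeG_sound parWF r2 pf44218 h44218
  have h44220 := checkRangeG_sound parWF r2 pf44219 h44219
  have h44221 := checkRangeG_sound parWF r2 pf44220 h44220
  have h44222 := checkRangeG_sound parWF r2 pf44221 h44221
  have h44223 := checkRangeG_sound parWF r2 pf44222 h44222
  have h44224 := checkRangeG_sound parWF r2 pf44223 h44223
  have h44225 := checkRangeG_sound parWF r2 pf44224 h44224
  have h44226 := checkRangeG_sound parWF r2 pf44225 h44225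
  have h44227 := checkRangeG_sound parWF r2 pf44226 h44226
  have h44228 := checkRangeG_sound parWF r2 pf44227 h44227
  have h44229 := checkRangeG_sound parWF r2 pf44228 h44228
  have h44230 := checkRangeG_sound parWF r2 pf44229 h44229
  have h44231 := checkRangeG_sound parWF r2 pf44230 h44230
  have h44232 := checkRangeG_sound parWF r2 pf44231 h44231
  have h44233 := checkRangeG_sound parWF r2 pf44232 h44232
  have h44234 := checkRangeG_sound parWF r2 pf44233 h44233
  have h44235 := checkRangeG_sound parWF r2 pf44234 h44234
  have h44236 := checkRangeG_sound parWF r2 pf44235 h44235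
  have h44237 := checkRangeG_sound parWF r2 pf44236 h44236
  have h44238 := checkRangeG_sound parWF r2 pf44237 h44237
  have h44239 := checkRangeG_sound parWF r2 pf44238 h44238
  have h44240 := checkRangeG_sound parWF r2 pf44239 h44239
  have h44241 := checkRangeG_sound parWF r2 pf44240 h44240
  have h44242 := checkRangeG_sound parWF r2 pf44241 h44241
  have h44243 := checkRangeG_sound parWF r2 pf44242 h44242
  have h44244 := checkRangeG_sound parWF r2 pf44243 h44243
  have h44245 := checkRangeG_sound parWF r2 pf44244 h44244
  have h44246 := checkRangeG_sound parWF r2 pf44245 h44245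
  have h44247 := checkRangeG_sound parWF r2 pf44246 h44246
  have h44248 := checkRangeG_sound parWF r2 pf44247 h44247
  have h44249 := checkRangeG_sound parWF r2 pf44248 h44248
  have h44250 := checkRangeG_sound parWF r2 pf44249 h44249
  exact h44250

theorem c885 (h44250 : ∀ j, j < 153452 → GoodG.{u} par (db j)) : ∀ j, j < 153661 → GoodG.{u} par (db j) := by
  have h44251 := checkRangeG_sound parWF r2 pf44250 h44250
  have h44252 := checkRangeG_sound parWF r2 pf44251 h44251
  have h44253 := checkRangeG_sound parWF r2 pf44252 h44252
  have h44254 := checkRangeG_sound parWF r2 pf44253 h44253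
  have h44255 := checkRangeG_sound parWF r2 pf44254 h44254
  have h44256 := checkRangeG_sound parWF r2 pf44255 h44255
  have h44257 := checkRangeG_sound parWF r2 pf44256 h44256
  have h44258 := checkRangeG_sound parWF r2 pf44257 h44257
  have h44259 := checkRangeG_sound parWF r2 pf44258 h44258
  have h44260 := checkRangeG_sound parWF r2 pf44259 h44259
  have h44261 := checkRangeG_sound parWF r2 pf44260 h44260
  have h44262 := checkRangeG_sound parWF r2 pf44261 h44261
  have h44263 := checkRangeG_sound parWF r2 pf44262 h44262
  have h44264 := checkRangeG_sound parWF r2 pf44263 h44263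
  have h44265 := checkRangeG_sound parWF r2 pf44264 h44264
  have h44266 := checkRangeG_sound parWF r2 pf44265 h44265
  have h44267 := checkRangeG_sound parWF r2 pf44266 h44266
  have h44268 := checkRangeG_sound parWF r2 pf44267 h44267
  have h44269 := checkRangeG_sound parWF r2 pf44268 h44268
  have h44270 := checkRangeG_sound parWF r2 pf44269 h44269
  have h44271 := checkRangeG_sound parWF r2 pf44270 h44270
  have h44272 := checkRangeG_sound parWF r2 pf44271 h44271
  have h44273 := checkRangeG_sound parWF r2 pf44272 h44272
  have h44274 := checkRangeG_sound parWF r2 pf44273 h44273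
  have h44275 := checkRangeG_sound parWF r2 pf44274 h44274
  have h44276 := checkRangeG_sound parWF r2 pf44275 h44275
  have h44277 := checkRangeG_sound parWF r2 pf44276 h44276
  have h44278 := checkRangeG_sound parWF r2 pf44277 h44277
  have h44279 := checkRangeG_sound parWF r2 pf44278 h44278
  have h44280 := checkRangeG_sound parWF r2 pf44279 h44279
  have h44281 := checkRangeG_sound parWF r2 pf44280 h44280
  have h44282 := checkRangeG_sound parWF r2 pf44281 h44281
  have h44283 := checkRangeG_sound parWF r2 pf44282 h44282
  have h44284 := checkRangeG_sound parWF r2 pf44283 h44283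
  have h44285 := checkRangeG_sound parWF r2 pf44284 h44284
  have h44286 := checkRangeG_sound parWF r2 pf44285 h44285
  have h44287 := checkRangeG_sound parWF r2 pf44286 h44286
  have h44288 := checkRangeG_sound parWF r2 pf44287 h44287
  have h44289 := checkRangeG_sound parWF r2 pf44288 h44288
  have h44290 := checkRangeG_sound parWF r2 pf44289 h44289
  have h44291 := checkRangeG_sound parWF r2 pf44290 h44290
  have h44292 := checkRangeG_sound parWF r2 pf44291 h44291
  have h44293 := checkRangeG_sound parWF r2 pf44292 h44292
  have h44294 := checkRangeG_sound parWF r2 pf44293 h44293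
  have h44295 := checkRangeG_sound parWF r2 pf44294 h44294
  have h44296 := checkRangeG_sound parWF r2 pf44295 h44295
  have h44297 := checkRangeG_sound parWF r2 pf44296 h44296
  have h44298 := checkRangeG_sound parWF r2 pf44297 h44297
  have h44299 := checkRangeG_sound parWF r2 pf44298 h44298
  have h44300 := checkRangeG_sound parWF r2 pf44299 h44299
  exact h44300

theorem c886 (h44300 : ∀ j, j < 153661 → GoodG.{u} par (db j)) : ∀ j, j < 153865 → GoodG.{u} par (db j) := by
  have h44301 := checkRangeG_sound parWF r2 pf44300 h44300
  have h44302 := checkRangeG_sound parWF r2 pf44301 h44301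
  have h44303 := checkRangeG_sound parWF r2 pf44302 h44302
  have h44304 := checkRangeG_sound parWF r2 pf44303 h44303
  have h44305 := checkRangeG_sound parWF r2 pf44304 h44304
  have h44306 := checkRangeG_sound parWF r2 pf44305 h44305
  have h44307 := checkRangeG_sound parWF r2 pf44306 h44306
  have h44308 := checkRangeG_sound parWF r2 pf44307 h44307
  have h44309 := checkRangeG_sound parWF r2 pf44308 h44308
  have h44310 := checkRangeG_sound parWF r2 pf44309 h44309
  have h44311 := checkRangeG_sound parWF r2 pf44310 h44310
  have h44312 := checkRangeG_sound parWF r2 pf44311 h44311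
  have h44313 := checkRangeG_sound parWF r2 pf44312 h44312
  have h44314 := checkRangeG_sound parWF r2 pf44313 h44313
  have h44315 := checkRangeG_sound parWF r2 pf44314 h44314
  have h44316 := checkRangeG_sound parWF r2 pf44315 h44315
  have h44317 := checkRangeG_sound parWF r2 pf44316 h44316
  have h44318 := checkRangeG_sound parWF r2 pf44317 h44317
  have h44319 := checkRangeG_sound parWF r2 pf44318 h44318
  have h44320 := checkRangeG_sound parWF r2 pf44319 h44319
  have h44321 := checkRangeG_sound parWF r2 pf44320 h44320
  have h44322 := checkRangeG_sound parWF r2 pf44321 h44321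
  have h44323 := checkRangeG_sound parWF r2 pf44322 h44322
  have h44324 := checkRangeG_sound parWF r2 pf44323 h44323
  have h44325 := checkRangeG_sound parWF r2 pf44324 h44324
  have h44326 := checkRangeG_sound parWF r2 pf44325 h44325
  have h44327 := checkRangeG_sound parWF r2 pf44326 h44326
  have h44328 := checkRangeG_sound parWF r2 pf44327 h44327
  have h44329 := checkRangeG_sound parWF r2 pf44328 h44328
  have h44330 := checkRangeG_sound parWF r2 pf44329 h44329
  have h44331 := checkRangeG_sound parWF r2 pf44330 h44330
  have h44332 := checkRangeG_sound parWF r2 pf44331 h44331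
  have h44333 := checkRangeG_sound parWF r2 pf44332 h44332
  have h44334 := checkRangeG_sound parWF r2 pf44333 h44333
  have h44335 := checkRangeG_sound parWF r2 pf44334 h44334
  have h44336 := checkRangeG_sound parWF r2 pf44335 h44335
  have h44337 := checkRangeG_sound parWF r2 pf44336 h44336
  have h44338 := checkRangeG_sound parWF r2 pf44337 h44337
  have h44339 := checkRangeG_sound parWF r2 pf44338 h44338
  have h44340 := checkRangeG_sound parWF r2 pf44339 h44339
  have h44341 := checkRangeG_sound parWF r2 pf44340 h44340
  have h44342 := checkRangeG_sound parWF r2 pf44341 h44341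
  have h44343 := checkRangeG_sound parWF r2 pf44342 h44342
  have h44344 := checkRangeG_sound parWF r2 pf44343 h44343
  have h44345 := checkRangeG_sound parWF r2 pf44344 h44344
  have h44346 := checkRangeG_sound parWF r2 pf44345 h44345
  have h44347 := checkRangeG_sound parWF r2 pf44346 h44346
  have h44348 := checkRangeG_sound parWF r2 pf44347 h44347
  have h44349 := checkRangeG_sound parWF r2 pf44348 h44348
  have h44350 := checkRangeG_sound parWF r2 pf44349 h44349
  exact h44350

theorem c887 (h44350 : ∀ j, j < 153865 → GoodG.{u} par (db j)) : ∀ j, j < 154086 → GoodG.{u} par (db j) := by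
  have h44351 := checkRangeG_sound parWF r2 pf44350 h44350
  have h44352 := checkRangeG_sound parWF r2 pf44351 h44351
  have h44353 := checkRangeG_sound parWF r2 pf44352 h44352
  have h44354 := checkRangeG_sound parWF r2 pf44353 h44353
  have h44355 := checkRangeG_sound parWF r2 pf44354 h44354
  have h44356 := checkRangeG_sound parWF r2 pf44355 h44355
  have h44357 := checkRangeG_sound parWF r2 pf44356 h44356
  have h44358 := checkRangeG_sound parWF r2 pf44357 h44357
  have h44359 := checkRangeG_sound parWF r2 pf44358 h44358
  have h44360 := checkRangeG_sound parWF r2 pf44359 h44359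
  have h44361 := checkRangeG_sound parWF r2 pf44360 h44360
  have h44362 := checkRangeG_sound parWF r2 pf44361 h44361
  have h44363 := checkRangeG_sound parWF r2 pf44362 h44362
  have h44364 := checkRangeG_sound parWF r2 pf44363 h44363
  have h44365 := checkRangeG_sound parWF r2 pf44364 h44364
  have h44366 := checkRangeG_sound parWF r2 pf44365 h44365
  have h44367 := checkRangeG_sound parWF r2 pf44366 h44366
  have h44368 := checkRangeG_sound parWF r2 pf44367 h44367
  have h44369 := checkRangeG_sound parWF r2 pf44368 h44368
  have h44370 := checkRangeG_sound parWF r2 pf44369 h44369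
  have h44371 := checkRangeG_sound parWF r2 pf44370 h44370
  have h44372 := checkRangeG_sound parWF r2 pf44371 h44371
  have h44373 := checkRangeG_sound parWF r2 pf44372 h44372
  have h44374 := checkRangeG_sound parWF r2 pf44373 h44373
  have h44375 := checkRangeG_sound parWF r2 pf44374 h44374
  have h44376 := checkRangeG_sound parWF r2 pf44375 h44375
  have h44377 := checkRangeG_sound parWF r2 pf44376 h44376
  have h44378 := checkRangeG_sound parWF r2 pf44377 h44377
  have h44379 := checkRangeG_sound parWF r2 pf44378 h44378
  have h44380 := checkRangeG_sound parWF r2 pf44379 h44379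
  have h44381 := checkRangeG_sound parWF r2 pf44380 h44380
  have h44382 := checkRangeG_sound parWF r2 pf44381 h44381
  have h44383 := checkRangeG_sound parWF r2 pf44382 h44382
  have h44384 := checkRangeG_sound parWF r2 pf44383 h44383
  have h44385 := checkRangeG_sound parWF r2 pf44384 h44384
  have h44386 := checkRangeG_sound parWF r2 pf44385 h44385
  have h44387 := checkRangeG_sound parWF r2 pf44386 h44386
  have h44388 := checkRangeG_sound parWF r2 pf44387 h44387
  have h44389 := checkRangeG_sound parWF r2 pf44388 h44388
  have h44390 := checkRangeG_sound parWF r2 pf44389 h44389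
  have h44391 := checkRangeG_sound parWF r2 pf44390 h44390
  have h44392 := checkRangeG_sound parWF r2 pf44391 h44391
  have h44393 := checkRangeG_sound parWF r2 pf44392 h44392
  have h44394 := checkRangeG_sound parWF r2 pf44393 h44393
  have h44395 := checkRangeG_sound parWF r2 pf44394 h44394
  have h44396 := checkRangeG_sound parWF r2 pf44395 h44395
  have h44397 := checkRangeG_sound parWF r2 pf44396 h44396
  have h44398 := checkRangeG_sound parWF r2 pf44397 h44397
  have h44399 := checkRangeG_sound parWF r2 pf44398 h44398
  have h44400 := checkRangeG_sound parWF r2 pf44399 h44399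
  exact h44400


end Vale.Agent.P045g.C61
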