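import Vale.Agent.P045g.C61.WF
import Vale.Agent.P045g.C61.Pf740
import Vale.Agent.P045g.C61.Pf741
import Vale.Agent.P045g.C61.Pf742
import Vale.Agent.P045g.C61.Pf743
import Vale.Agent.P045g.C61.Pf744
import Vale.Agent.P045g.C61.Pf745
import Vale.Agent.P045g.C61.Pf746
import Vale.Agent.P045g.C61.Pf747
import Vale.Agent.P045g.C61.Pf748
import Vale.Agent.P045g.C61.Pf749

namespace Vale.Agent.P045g.C61

open Vale.Agent.P045b Vale.Agent.P045g

universe u

theorem c888 (h44400 : ∀ j, j < 154086 → GoodG.{u} par (db j)) : ∀ j, j < 154302 → GoodG.{u} par (db j) := by
  have h44401 := checkRangeG_sound parWF r2 pf44400 h44400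
  have h44402 := checkRangeG_sound parWF r2 pf44401 h44401
  have h44403 := checkRangeG_sound parWF r2 pf44402 h44402
  have h44404 := checkRangeG_sound parWF r2 pf44403 h44403
  have h44405 := checkRangeG_sound parWF r2 pf44404 h44404
  have h44406 := checkRangeG_sound parWF r2 pf44405 h44405
  have h44407 := checkRangeG_sound parWF r2 pf44406 h44406
  have h44408 := checkRangeG_sound parWF r2 pf44407 h44407
  have h44409 := checkRangeG_sound parWF r2 pf44408 h44408
  have h44410 := checkRangeG_sound parWF r2 pf44409 h44409
  have h44411 := checkRangeG_sound parWF r2 pf44410 h44410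
  have h44412 := checkRangeG_sound parWF r2 pf44411 h44411
  have h44413 := checkRangeG_sound parWF r2 pf44412 h44412
  have h44414 := checkRangeG_sound parWF r2 pf44413 h44413
  have h44415 := checkRangeG_sound parWF r2 pf44414 h44414
  have h44416 := checkRangeG_sound parWF r2 pf44415 h44415
  have h44417 := checkRangeG_sound parWF r2 pf44416 h44416
  have h44418 := checkRangeG_sound parWF r2 pf44417 h44417
  have h44419 := checkRangeG_sound parWF r2 pf44418 h44418
  have h44420 := checkRangeG_sound parWF r2 pf44419 h44419
  have h44421 := checkRangeG_sound parWF r2 pf44420 h44420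
  have h44422 := checkRangeG_sound parWF r2 pf44421 h44421
  have h44423 := checkRangeG_sound parWF r2 pf44422 h44422
  have h44424 := checkRangeG_sound parWF r2 pf44423 h44423
  have h44425 := checkRangeG_sound parWF r2 pf44424 h44424
  have h44426 := checkRangeG_sound parWF r2 pf44425 h44425
  have h44427 := checkRangeG_sound parWF r2 pf44426 h44426
  have h44428 := checkRangeG_sound parWF r2 pf44427 h44427
  have h44429 := checkRangeG_sound parWF r2 pf44428 h44428
  have h44430 := checkRangeG_sound parWF r2 pf44429 h44429
  have h44431 := checkRangeG_sound parWF r2 pf44430 h44430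
  have h44432 := checkRangeG_sound parWF r2 pf44431 h44431
  have h44433 := checkRangeG_sound parWF r2 pf44432 h44432
  have h44434 := checkRangeG_sound parWF r2 pf44433 h44433
  have h44435 := checkRangeG_sound parWF r2 pf44434 h44434
  have h44436 := checkRangeG_sound parWF r2 pf44435 h44435
  have h44437 := checkRangeG_sound parWF r2 pf44436 h44436
  have h44438 := checkRangeG_sound parWF r2 pf44437 h44437
  have h44439 := checkRangeG_sound parWF r2 pf44438 h44438
  have h44440 := checkRangeG_sound parWF r2 pf44439 h44439
  have h44441 := checkRangeG_sound parWF r2 pf44440 h44440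
  have h44442 := checkRangeG_sound parWF r2 pf44441 h44441
  have h44443 := checkRangeG_sound parWF r2 pf44442 h44442
  have h44444 := checkRangeG_sound parWF r2 pf44443 h44443
  have h44445 := checkRangeG_sound parWF r2 pf44444 h44444
  have h44446 := checkRangeG_sound parWF r2 pf44445 h44445
  have h44447 := checkRangeG_sound parWF r2 pf44446 h44446
  have h44448 := checkRangeG_sound parWF r2 pf44447 h44447
  have h44449 := checkRangeG_sound parWF r2 pf44448 h44448
  have h44450 := checkRangeG_sound parWF r2 pf44449 h44449
  exact h44450

theorem c889 (h44450 : ∀ j, j < 154302 → GoodG.{u} par (db j)) : ∀ j, j < 154518 → GoodG.{u} par (db j) := by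
  have h44451 := checkRangeG_sound parWF r2 pf44450 h44450
  have h44452 := checkRangeG_sound parWF r2 pf44451 h44451
  have h44453 := checkRangeG_sound parWF r2 pf44452 h44452
  have h44454 := checkRangeG_sound parWF r2 pf44453 h44453
  have h44455 := checkRangeG_sound parWF r2 pf44454 h44454
  have h44456 := checkRangeG_sound parWF r2 pf44455 h44455
  have h44457 := checkRangeG_sound parWF r2 pf44456 h44456
  have h44458 := checkRangeG_sound parWF r2 pf44457 h44457
  have h44459 := checkRangeG_sound parWF r2 pf44458 h44458
  have h44460 := checkRangeG_sound parWF r2 pf44459 h44459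
  have h44461 := checkRangeG_sound parWF r2 pf44460 h44460
  have h44462 := checkRangeG_sound parWF r2 pf44461 h44461
  have h44463 := checkRangeG_sound parWF r2 pf44462 h44462
  have h44464 := checkRangeG_sound parWF r2 pf44463 h44463
  have h44465 := checkRangeG_sound parWF r2 pf44464 h44464
  have h44466 := checkRangeG_sound parWF r2 pf44465 h44465
  have h44467 := checkRangeG_sound parWF r2 pf44466 h44466
  have h44468 := checkRangeG_sound parWF r2 pf44467 h44467
  have h44469 := checkRangeG_sound parWF r2 pf44468 h44468
  have h44470 := checkRangeG_sound parWF r2 pf44469 h44469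
  have h44471 := checkRangeG_sound parWF r2 pf44470 h44470
  have h44472 := checkRangeG_sound parWF r2 pf44471 h44471
  have h44473 := checkRangeG_sound parWF r2 pf44472 h44472
  have h44474 := checkRangeG_sound parWF r2 pf44473 h44473
  have h44475 := checkRangeG_sound parWF r2 pf44474 h44474
  have h44476 := checkRangeG_sound parWF r2 pf44475 h44475
  have h44477 := checkRangeG_sound parWF r2 pf44476 h44476
  have h44478 := checkRangeG_sound parWF r2 pf44477 h44477
  have h44479 := checkRangeG_sound parWF r2 pf44478 h44478
  have h44480 := checkRangeG_sound parWF r2 pf44479 h44479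
  have h44481 := checkRangeG_sound parWF r2 pf44480 h44480
  have h44482 := checkRangeG_sound parWF r2 pf44481 h44481
  have h44483 := checkRangeG_sound parWF r2 pf44482 h44482
  have h44484 := checkRangeG_sound parWF r2 pf44483 h44483
  have h44485 := checkRangeG_sound parWF r2 pf44484 h44484
  have h44486 := checkRangeG_sound parWF r2 pf44485 h44485
  have h44487 := checkRangeG_sound parWF r2 pf44486 h44486
  have h44488 := checkRangeG_sound parWF r2 pf44487 h44487
  have h44489 := checkRangeG_sound parWF r2 pf44488 h44488
  have h44490 := checkRangeG_sound parWF r2 pf44489 h44489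
  have h44491 := checkRangeG_sound parWF r2 pf44490 h44490
  have h44492 := checkRangeG_sound parWF r2 pf44491 h44491
  have h44493 := checkRangeG_sound parWF r2 pf44492 h44492
  have h44494 := checkRangeG_sound parWF r2 pf44493 h44493
  have h44495 := checkRangeG_sound parWF r2 pf44494 h44494
  have h44496 := checkRangeG_sound parWF r2 pf44495 h44495
  have h44497 := checkRangeG_sound parWF r2 pf44496 h44496
  have h44498 := checkRangeG_sound parWF r2 pf44497 h44497
  have h44499 := checkRangeG_sound parWF r2 pf44498 h44498
  have h44500 := checkRangeG_sound parWF r2 pf44499 h44499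
  exact h44500

theorem c890 (h44500 : ∀ j, j < 154518 → GoodG.{u} par (db j)) : ∀ j, j < 154713 → GoodG.{u} par (db j) := by
  have h44501 := checkRangeG_sound parWF r2 pf44500 h44500
  have h44502 := checkRangeG_sound parWF r2 pf44501 h44501
  have h44503 := checkRangeG_sound parWF r2 pf44502 h44502
  have h44504 := checkRangeG_sound parWF r2 pf44503 h44503
  have h44505 := checkRangeG_sound parWF r2 pf44504 h44504
  have h44506 := checkRangeG_sound parWF r2 pf44505 h44505
  have h44507 := checkRangeG_sound parWF r2 pf44506 h44506
  have h44508 := checkRangeG_sound parWF r2 pf44507 h44507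
  have h44509 := checkRangeG_sound parWF r2 pf44508 h44508
  have h44510 := checkRangeG_sound parWF r2 pf44509 h44509
  have h44511 := checkRangeG_sound parWF r2 pf44510 h44510
  have h44512 := checkRangeG_sound parWF r2 pf44511 h44511
  have h44513 := checkRangeG_sound parWF r2 pf44512 h44512
  have h44514 := checkRangeG_sound parWF r2 pf44513 h44513
  have h44515 := checkRangeG_sound parWF r2 pf44514 h44514
  have h44516 := checkRangeG_sound parWF r2 pf44515 h44515
  have h44517 := checkRangeG_sound parWF r2 pf44516 h44516
  have h44518 := checkRangeG_sound parWF r2 pf44517 h44517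
  have h44519 := checkRangeG_sound parWF r2 pf44518 h44518
  have h44520 := checkRangeG_sound parWF r2 pf44519 h44519
  have h44521 := checkRangeG_sound parWF r2 pf44520 h44520
  have h44522 := checkRangeG_sound parWF r2 pf44521 h44521
  have h44523 := checkRangeG_sound parWF r2 pf44522 h44522
  have h44524 := checkRangeG_sound parWF r2 pf44523 h44523
  have h44525 := checkRangeG_sound parWF r2 pf44524 h44524
  have h44526 := checkRangeG_sound parWF r2 pf44525 h44525
  have h44527 := checkRangeG_sound parWF r2 pf44526 h44526
  have h44528 := checkRangeG_sound parWF r2 pf44527 h44527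
  have h44529 := checkRangeG_sound parWF r2 pf44528 h44528
  have h44530 := checkRangeG_sound parWF r2 pf44529 h44529
  have h44531 := checkRangeG_sound parWF r2 pf44530 h44530
  have h44532 := checkRangeG_sound parWF r2 pf44531 h44531
  have h44533 := checkRangeG_sound parWF r2 pf44532 h44532
  have h44534 := checkRangeG_sound parWF r2 pf44533 h44533
  have h44535 := checkRangeG_sound parWF r2 pf44534 h44534
  have h44536 := checkRangeG_sound parWF r2 pf44535 h44535
  have h44537 := checkRangeG_sound parWF r2 pf44536 h44536
  have h44538 := checkRangeG_sound parWF r2 pf44537 h44537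
  have h44539 := checkRangeG_sound parWF r2 pf44538 h44538
  have h44540 := checkRangeG_sound parWF r2 pf44539 h44539
  have h44541 := checkRangeG_sound parWF r2 pf44540 h44540
  have h44542 := checkRangeG_sound parWF r2 pf44541 h44541
  have h44543 := checkRangeG_sound parWF r2 pf44542 h44542
  have h44544 := checkRangeG_sound parWF r2 pf44543 h44543
  have h44545 := checkRangeG_sound parWF r2 pf44544 h44544
  have h44546 := checkRangeG_sound parWF r2 pf44545 h44545
  have h44547 := checkRangeG_sound parWF r2 pf44546 h44546
  have h44548 := checkRangeG_sound parWF r2 pf44547 h44547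
  have h44549 := checkRangeG_sound parWF r2 pf44548 h44548
  have h44550 := checkRangeG_sound parWF r2 pf44549 h44549
  exact h44550

theorem c891 (h44550 : ∀ j, j < 154713 → GoodG.{u} par (db j)) : ∀ j, j < 154911 → GoodG.{u} par (db j) := by
  have h44551 := checkRangeG_sound parWF r2 pf44550 h44550
  have h44552 := checkRangeG_sound parWF r2 pf44551 h44551
  have h44553 := checkRangeG_sound parWF r2 pf44552 h44552
  have h44554 := checkRangeG_sound parWF r2 pf44553 h44553
  have h44555 := checkRangeG_sound parWF r2 pf44554 h44554
  have h44556 := checkRangeG_sound parWF r2 pf44555 h44555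
  have h44557 := checkRangeG_sound parWF r2 pf44556 h44556
  have h44558 := checkRangeG_sound parWF r2 pf44557 h44557
  have h44559 := checkRangeG_sound parWF r2 pf44558 h44558
  have h44560 := checkRangeG_sound parWF r2 pf44559 h44559
  have h44561 := checkRangeG_sound parWF r2 pf44560 h44560
  have h44562 := checkRangeG_sound parWF r2 pf44561 h44561
  have h44563 := checkRangeG_sound parWF r2 pf44562 h44562
  have h44564 := checkRangeG_sound parWF r2 pf44563 h44563
  have h44565 := checkRangeG_sound parWF r2 pf44564 h44564
  have h44566 := checkRangeG_sound parWF r2 pf44565 h44565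
  have h44567 := checkRangeG_sound parWF r2 pf44566 h44566
  have h44568 := checkRangeG_sound parWF r2 pf44567 h44567
  have h44569 := checkRangeG_sound parWF r2 pf44568 h44568
  have h44570 := checkRangeG_sound parWF r2 pf44569 h44569
  have h44571 := checkRangeG_sound parWF r2 pf44570 h44570
  have h44572 := checkRangeG_sound parWF r2 pf44571 h44571
  have h44573 := checkRangeG_sound parWF r2 pf44572 h44572
  have h44574 := checkRangeG_sound parWF r2 pf44573 h44573
  have h44575 := checkRangeG_sound parWF r2 pf44574 h44574
  have h44576 := checkRangeG_sound parWF r2 pf44575 h44575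
  have h44577 := checkRangeG_sound parWF r2 pf44576 h44576
  have h44578 := checkRangeG_sound parWF r2 pf44577 h44577
  have h44579 := checkRangeG_sound parWF r2 pf44578 h44578
  have h44580 := checkRangeG_sound parWF r2 pf44579 h44579
  have h44581 := checkRangeG_sound parWF r2 pf44580 h44580
  have h44582 := checkRangeG_sound parWF r2 pf44581 h44581
  have h44583 := checkRangeG_sound parWF r2 pf44582 h44582
  have h44584 := checkRangeG_sound parWF r2 pf44583 h44583
  have h44585 := checkRangeG_sound parWF r2 pf44584 h44584
  have h44586 := checkRangeG_sound parWF r2 pf44585 h44585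
  have h44587 := checkRangeG_sound parWF r2 pf44586 h44586
  have h44588 := checkRangeG_sound parWF r2 pf44587 h44587
  have h44589 := checkRangeG_sound parWF r2 pf44588 h44588
  have h44590 := checkRangeG_sound parWF r2 pf44589 h44589
  have h44591 := checkRangeG_sound parWF r2 pf44590 h44590
  have h44592 := checkRangeG_sound parWF r2 pf44591 h44591
  have h44593 := checkRangeG_sound parWF r2 pf44592 h44592
  have h44594 := checkRangeG_sound parWF r2 pf44593 h44593
  have h44595 := checkRangeG_sound parWF r2 pf44594 h44594
  have h44596 := checkRangeG_sound parWF r2 pf44595 h44595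
  have h44597 := checkRangeG_sound parWF r2 pf44596 h44596
  have h44598 := checkRangeG_sound parWF r2 pf44597 h44597
  have h44599 := checkRangeG_sound parWF r2 pf44598 h44598
  have h44600 := checkRangeG_sound parWF r2 pf44599 h44599
  exact h44600

theorem c892 (h44600 : ∀ j, j < 154911 → GoodG.{u} par (db j)) : ∀ j, j < 155106 → GoodG.{u} par (db j) := by
  have h44601 := checkRangeG_sound parWF r2 pf44600 h44600
  have h44602 := checkRangeG_sound parWF r2 pf44601 h44601
  have h44603 := checkRangeG_sound parWF r2 pf44602 h44602
  have h44604 := checkRangeG_sound parWF r2 pf44603 h44603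
  have h44605 := checkRangeG_sound parWF r2 pf44604 h44604
  have h44606 := checkRangeG_sound parWF r2 pf44605 h44605
  have h44607 := checkRangeG_sound parWF r2 pf44606 h44606
  have h44608 := checkRangeG_sound parWF r2 pf44607 h44607
  have h44609 := checkRangeG_sound parWF r2 pf44608 h44608
  have h44610 := checkRangeG_sound parWF r2 pf44609 h44609
  have h44611 := checkRangeG_sound parWF r2 pf44610 h44610
  have h44612 := checkRangeG_sound parWF r2 pf44611 h44611
  have h44613 := checkRangeG_sound parWF r2 pf44612 h44612
  have h44614 := checkRangeG_sound parWF r2 pf44613 h44613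
  have h44615 := checkRangeG_sound parWF r2 pf44614 h44614
  have h44616 := checkRangeG_sound parWF r2 pf44615 h44615
  have h44617 := checkRangeG_sound parWF r2 pf44616 h44616
  have h44618 := checkRangeG_sound parWF r2 pf44617 h44617
  have h44619 := checkRangeG_sound parWF r2 pf44618 h44618
  have h44620 := checkRangeG_sound parWF r2 pf44619 h44619
  have h44621 := checkRangeG_sound parWF r2 pf44620 h44620
  have h44622 := checkRangeG_sound parWF r2 pf44621 h44621
  have h44623 := checkRangeG_sound parWF r2 pf44622 h44622
  have h44624 := checkRangeG_sound parWF r2 pf44623 h44623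
  have h44625 := checkRangeG_sound parWF r2 pf44624 h44624
  have h44626 := checkRangeG_sound parWF r2 pf44625 h44625
  have h44627 := checkRangeG_sound parWF r2 pf44626 h44626
  have h44628 := checkRangeG_sound parWF r2 pf44627 h44627
  have h44629 := checkRangeG_sound parWF r2 pf44628 h44628
  have h44630 := checkRangeG_sound parWF r2 pf44629 h44629
  have h44631 := checkRangeG_sound parWF r2 pf44630 h44630
  have h44632 := checkRangeG_sound parWF r2 pf44631 h44631
  have h44633 := checkRangeG_sound parWF r2 pf44632 h44632
  have h44634 := checkRangeG_sound parWF r2 pf44633 h44633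
  have h44635 := checkRangeG_sound parWF r2 pf44634 h44634
  have h44636 := checkRangeG_sound parWF r2 pf44635 h44635
  have h44637 := checkRangeG_sound parWF r2 pf44636 h44636
  have h44638 := checkRangeG_sound parWF r2 pf44637 h44637
  have h44639 := checkRangeG_sound parWF r2 pf44638 h44638
  have h44640 := checkRangeG_sound parWF r2 pf44639 h44639
  have h44641 := checkRangeG_sound parWF r2 pf44640 h44640
  have h44642 := checkRangeG_sound parWF r2 pf44641 h44641
  have h44643 := checkRangeG_sound parWF r2 pf44642 h44642
  have h44644 := checkRangeG_sound parWF r2 pf44643 h44643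
  have h44645 := checkRangeG_sound parWF r2 pf44644 h44644
  have h44646 := checkRangeG_sound parWF r2 pf44645 h44645
  have h44647 := checkRangeG_sound parWF r2 pf44646 h44646
  have h44648 := checkRangeG_sound parWF r2 pf44647 h44647
  have h44649 := checkRangeG_sound parWF r2 pf44648 h44648
  have h44650 := checkRangeG_sound parWF r2 pf44649 h44649
  exact h44650

theorem c893 (h44650 : ∀ j, j < 155106 → GoodG.{u} par (db j)) : ∀ j, j < 155308 → GoodG.{u} par (db j) := by
  have h44651 := checkRangeG_sound parWF r2 pf44650 h44650
  have h44652 := checkRangeG_sound parWF r2 pf44651 h44651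
  have h44653 := checkRangeG_sound parWF r2 pf44652 h44652
  have h44654 := checkRangeG_sound parWF r2 pf44653 h44653
  have h44655 := checkRangeG_sound parWF r2 pf44654 h44654
  have h44656 := checkRangeG_sound parWF r2 pf44655 h44655
  have h44657 := checkRangeG_sound parWF r2 pf44656 h44656
  have h44658 := checkRangeG_sound parWF r2 pf44657 h44657
  have h44659 := checkRangeG_sound parWF r2 pf44658 h44658
  have h44660 := checkRangeG_sound parWF r2 pf44659 h44659
  have h44661 := checkRangeG_sound parWF r2 pf44660 h44660
  have h44662 := checkRangeG_sound parWF r2 pf44661 h44661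
  have h44663 := checkRangeG_sound parWF r2 pf44662 h44662
  have h44664 := checkRangeG_sound parWF r2 pf44663 h44663
  have h44665 := checkRangeG_sound parWF r2 pf44664 h44664
  have h44666 := checkRangeG_sound parWF r2 pf44665 h44665
  have h44667 := checkRangeG_sound parWF r2 pf44666 h44666
  have h44668 := checkRangeG_sound parWF r2 pf44667 h44667
  have h44669 := checkRangeG_sound parWF r2 pf44668 h44668
  have h44670 := checkRangeG_sound parWF r2 pf44669 h44669
  have h44671 := checkRangeG_sound parWF r2 pf44670 h44670
  have h44672 := checkRangeG_sound parWF r2 pf44671 h44671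
  have h44673 := checkRangeG_sound parWF r2 pf44672 h44672
  have h44674 := checkRangeG_sound parWF r2 pf44673 h44673
  have h44675 := checkRangeG_sound parWF r2 pf44674 h44674
  have h44676 := checkRangeG_sound parWF r2 pf44675 h44675
  have h44677 := checkRangeG_sound parWF r2 pf44676 h44676
  have h44678 := checkRangeG_sound parWF r2 pf44677 h44677
  have h44679 := checkRangeG_sound parWF r2 pf44678 h44678
  have h44680 := checkRangeG_sound parWF r2 pf44679 h44679
  have h44681 := checkRangeG_sound parWF r2 pf44680 h44680
  have h44682 := checkRangeG_sound parWF r2 pf44681 h44681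
  have h44683 := checkRangeG_sound parWF r2 pf44682 h44682
  have h44684 := checkRangeG_sound parWF r2 pf44683 h44683
  have h44685 := checkRangeG_sound parWF r2 pf44684 h44684
  have h44686 := checkRangeG_sound parWF r2 pf44685 h44685
  have h44687 := checkRangeG_sound parWF r2 pf44686 h44686
  have h44688 := checkRangeG_sound parWF r2 pf44687 h44687
  have h44689 := checkRangeG_sound parWF r2 pf44688 h44688
  have h44690 := checkRangeG_sound parWF r2 pf44689 h44689
  have h44691 := checkRangeG_sound parWF r2 pf44690 h44690
  have h44692 := checkRangeG_sound parWF r2 pf44691 h44691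
  have h44693 := checkRangeG_sound parWF r2 pf44692 h44692
  have h44694 := checkRangeG_sound parWF r2 pf44693 h44693
  have h44695 := checkRangeG_sound parWF r2 pf44694 h44694
  have h44696 := checkRangeG_sound parWF r2 pf44695 h44695
  have h44697 := checkRangeG_sound parWF r2 pf44696 h44696
  have h44698 := checkRangeG_sound parWF r2 pf44697 h44697
  have h44699 := checkRangeG_sound parWF r2 pf44698 h44698
  have h44700 := checkRangeG_sound parWF r2 pf44699 h44699
  exact h44700

theorem c894 (h44700 : ∀ j, j < 155308 → GoodG.{u} par (db j)) : ∀ j, j < 155504 → GoodG.{u} par (db j) := by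
  have h44701 := checkRangeG_sound parWF r2 pf44700 h44700
  have h44702 := checkRangeG_sound parWF r2 pf44701 h44701
  have h44703 := checkRangeG_sound parWF r2 pf44702 h44702
  have h44704 := checkRangeG_sound parWF r2 pf44703 h44703
  have h44705 := checkRangeG_sound parWF r2 pf44704 h44704
  have h44706 := checkRangeG_sound parWF r2 pf44705 h44705
  have h44707 := checkRangeG_sound parWF r2 pf44706 h44706
  have h44708 := checkRangeG_sound parWF r2 pf44707 h44707
  have h44709 := checkRangeG_sound parWF r2 pf44708 h44708
  have h44710 := checkRangeG_sound parWF r2 pf44709 h44709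
  have h44711 := checkRangeG_sound parWF r2 pf44710 h44710
  have h44712 := checkRangeG_sound parWF r2 pf44711 h44711
  have h44713 := checkRangeG_sound parWF r2 pf44712 h44712
  have h44714 := checkRangeG_sound parWF r2 pf44713 h44713
  have h44715 := checkRangeG_sound parWF r2 pf44714 h44714
  have h44716 := checkRangeG_sound parWF r2 pf44715 h44715
  have h44717 := checkRangeG_sound parWF r2 pf44716 h44716
  have h44718 := checkRangeG_sound parWF r2 pf44717 h44717
  have h44719 := checkRangeG_sound parWF r2 pf44718 h44718
  have h44720 := checkRangeG_sound parWF r2 pf44719 h44719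
  have h44721 := checkRangeG_sound parWF r2 pf44720 h44720
  have h44722 := checkRangeG_sound parWF r2 pf44721 h44721
  have h44723 := checkRangeG_sound parWF r2 pf44722 h44722
  have h44724 := checkRangeG_sound parWF r2 pf44723 h44723
  have h44725 := checkRangeG_sound parWF r2 pf44724 h44724
  have h44726 := checkRangeG_sound parWF r2 pf44725 h44725
  have h44727 := checkRangeG_sound parWF r2 pf44726 h44726
  have h44728 := checkRangeG_sound parWF r2 pf44727 h44727
  have h44729 := checkRangeG_sound parWF r2 pf44728 h44728
  have h44730 := checkRangeG_sound parWF r2 pf44729 h44729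
  have h44731 := checkRangeG_sound parWF r2 pf44730 h44730
  have h44732 := checkRangeG_sound parWF r2 pf44731 h44731
  have h44733 := checkRangeG_sound parWF r2 pf44732 h44732
  have h44734 := checkRangeG_sound parWF r2 pf44733 h44733
  have h44735 := checkRangeG_sound parWF r2 pf44734 h44734
  have h44736 := checkRangeG_sound parWF r2 pf44735 h44735
  have h44737 := checkRangeG_sound parWF r2 pf44736 h44736
  have h44738 := checkRangeG_sound parWF r2 pf44737 h44737
  have h44739 := checkRangeG_sound parWF r2 pf44738 h44738
  have h44740 := checkRangeG_sound parWF r2 pf44739 h44739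
  have h44741 := checkRangeG_sound parWF r2 pf44740 h44740
  have h44742 := checkRangeG_sound parWF r2 pf44741 h44741
  have h44743 := checkRangeG_sound parWF r2 pf44742 h44742
  have h44744 := checkRangeG_sound parWF r2 pf44743 h44743
  have h44745 := checkRangeG_sound parWF r2 pf44744 h44744
  have h44746 := checkRangeG_sound parWF r2 pf44745 h44745
  have h44747 := checkRangeG_sound parWF r2 pf44746 h44746
  have h44748 := checkRangeG_sound parWF r2 pf44747 h44747
  have h44749 := checkRangeG_sound parWF r2 pf44748 h44748
  have h44750 := checkRangeG_sound parWF r2 pf44749 h44749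
  exact h44750

theorem c895 (h44750 : ∀ j, j < 155504 → GoodG.{u} par (db j)) : ∀ j, j < 155697 → GoodG.{u} par (db j) := by
  have h44751 := checkRangeG_sound parWF r2 pf44750 h44750
  have h44752 := checkRangeG_sound parWF r2 pf44751 h44751
  have h44753 := checkRangeG_sound parWF r2 pf44752 h44752
  have h44754 := checkRangeG_sound parWF r2 pf44753 h44753
  have h44755 := checkRangeG_sound parWF r2 pf44754 h44754
  have h44756 := checkRangeG_sound parWF r2 pf44755 h44755
  have h44757 := checkRangeG_sound parWF r2 pf44756 h44756
  have h44758 := checkRangeG_sound parWF r2 pf44757 h44757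
  have h44759 := checkRangeG_sound parWF r2 pf44758 h44758
  have h44760 := checkRangeG_sound parWF r2 pf44759 h44759
  have h44761 := checkRangeG_sound parWF r2 pf44760 h44760
  have h44762 := checkRangeG_sound parWF r2 pf44761 h44761
  have h44763 := checkRangeG_sound parWF r2 pf44762 h44762
  have h44764 := checkRangeG_sound parWF r2 pf44763 h44763
  have h44765 := checkRangeG_sound parWF r2 pf44764 h44764
  have h44766 := checkRangeG_sound parWF r2 pf44765 h44765
  have h44767 := checkRangeG_sound parWF r2 pf44766 h44766
  have h44768 := checkRangeG_sound parWF r2 pf44767 h44767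
  have h44769 := checkRangeG_sound parWF r2 pf44768 h44768
  have h44770 := checkRangeG_sound parWF r2 pf44769 h44769
  have h44771 := checkRangeG_sound parWF r2 pf44770 h44770
  have h44772 := checkRangeG_sound parWF r2 pf44771 h44771
  have h44773 := checkRangeG_sound parWF r2 pf44772 h44772
  have h44774 := checkRangeG_sound parWF r2 pf44773 h44773
  have h44775 := checkRangeG_sound parWF r2 pf44774 h44774
  have h44776 := checkRangeG_sound parWF r2 pf44775 h44775
  have h44777 := checkRangeG_sound parWF r2 pf44776 h44776
  have h44778 := checkRangeG_sound parWF r2 pf44777 h44777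
  have h44779 := checkRangeG_sound parWF r2 pf44778 h44778
  have h44780 := checkRangeG_sound parWF r2 pf44779 h44779
  have h44781 := checkRangeG_sound parWF r2 pf44780 h44780
  have h44782 := checkRangeG_sound parWF r2 pf44781 h44781
  have h44783 := checkRangeG_sound parWF r2 pf44782 h44782
  have h44784 := checkRangeG_sound parWF r2 pf44783 h44783
  have h44785 := checkRangeG_sound parWF r2 pf44784 h44784
  have h44786 := checkRangeG_sound parWF r2 pf44785 h44785
  have h44787 := checkRangeG_sound parWF r2 pf44786 h44786
  have h44788 := checkRangeG_sound parWF r2 pf44787 h44787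
  have h44789 := checkRangeG_sound parWF r2 pf44788 h44788
  have h44790 := checkRangeG_sound parWF r2 pf44789 h44789
  have h44791 := checkRangeG_sound parWF r2 pf44790 h44790
  have h44792 := checkRangeG_sound parWF r2 pf44791 h44791
  have h44793 := checkRangeG_sound parWF r2 pf44792 h44792
  have h44794 := checkRangeG_sound parWF r2 pf44793 h44793
  have h44795 := checkRangeG_sound parWF r2 pf44794 h44794
  have h44796 := checkRangeG_sound parWF r2 pf44795 h44795
  have h44797 := checkRangeG_sound parWF r2 pf44796 h44796
  have h44798 := checkRangeG_sound parWF r2 pf44797 h44797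
  have h44799 := checkRangeG_sound parWF r2 pf44798 h44798
  have h44800 := checkRangeG_sound parWF r2 pf44799 h44799
  exact h44800

theorem c896 (h44800 : ∀ j, j < 155697 → GoodG.{u} par (db j)) : ∀ j, j < 155922 → GoodG.{u} par (db j) := by
  have h44801 := checkRangeG_sound parWF r2 pf44800 h44800
  have h44802 := checkRangeG_sound parWF r2 pf44801 h44801
  have h44803 := checkRangeG_sound parWF r2 pf44802 h44802
  have h44804 := checkRangeG_sound parWF r2 pf44803 h44803
  have h44805 := checkRangeG_sound parWF r2 pf44804 h44804
  have h44806 := checkRangeG_sound parWF r2 pf44805 h44805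
  have h44807 := checkRangeG_sound parWF r2 pf44806 h44806
  have h44808 := checkRangeG_sound parWF r2 pf44807 h44807
  have h44809 := checkRangeG_sound parWF r2 pf44808 h44808
  have h44810 := checkRangeG_sound parWF r2 pf44809 h44809
  have h44811 := checkRangeG_sound parWF r2 pf44810 h44810
  have h44812 := checkRangeG_sound parWF r2 pf44811 h44811
  have h44813 := checkRangeG_sound parWF r2 pf44812 h44812
  have h44814 := checkRangeG_sound parWF r2 pf44813 h44813
  have h44815 := checkRangeG_sound parWF r2 pf44814 h44814
  have h44816 := checkRangeG_sound parWF r2 pf44815 h44815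
  have h44817 := checkRangeG_sound parWF r2 pf44816 h44816
  have h44818 := checkRangeG_sound parWF r2 pf44817 h44817
  have h44819 := checkRangeG_sound parWF r2 pf44818 h44818
  have h44820 := checkRangeG_sound parWF r2 pf44819 h44819
  have h44821 := checkRangeG_sound parWF r2 pf44820 h44820
  have h44822 := checkRangeG_sound parWF r2 pf44821 h44821
  have h44823 := checkRangeG_sound parWF r2 pf44822 h44822
  have h44824 := checkRangeG_sound parWF r2 pf44823 h44823
  have h44825 := checkRangeG_sound parWF r2 pf44824 h44824
  have h44826 := checkRangeG_sound parWF r2 pf44825 h44825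
  have h44827 := checkRangeG_sound parWF r2 pf44826 h44826
  have h44828 := checkRangeG_sound parWF r2 pf44827 h44827
  have h44829 := checkRangeG_sound parWF r2 pf44828 h44828
  have h44830 := checkRangeG_sound parWF r2 pf44829 h44829
  have h44831 := checkRangeG_sound parWF r2 pf44830 h44830
  have h44832 := checkRangeG_sound parWF r2 pf44831 h44831
  have h44833 := checkRangeG_sound parWF r2 pf44832 h44832
  have h44834 := checkRangeG_sound parWF r2 pf44833 h44833
  have h44835 := checkRangeG_sound parWF r2 pf44834 h44834
  have h44836 := checkRangeG_sound parWF r2 pf44835 h44835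
  have h44837 := checkRangeG_sound parWF r2 pf44836 h44836
  have h44838 := checkRangeG_sound parWF r2 pf44837 h44837
  have h44839 := checkRangeG_sound parWF r2 pf44838 h44838
  have h44840 := checkRangeG_sound parWF r2 pf44839 h44839
  have h44841 := checkRangeG_sound parWF r2 pf44840 h44840
  have h44842 := checkRangeG_sound parWF r2 pf44841 h44841
  have h44843 := checkRangeG_sound parWF r2 pf44842 h44842
  have h44844 := checkRangeG_sound parWF r2 pf44843 h44843
  have h44845 := checkRangeG_sound parWF r2 pf44844 h44844
  have h44846 := checkRangeG_sound parWF r2 pf44845 h44845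
  have h44847 := checkRangeG_sound parWF r2 pf44846 h44846
  have h44848 := checkRangeG_sound parWF r2 pf44847 h44847
  have h44849 := checkRangeG_sound parWF r2 pf44848 h44848
  have h44850 := checkRangeG_sound parWF r2 pf44849 h44849
  exact h44850

theorem c897 (h44850 : ∀ j, j < 155922 → GoodG.{u} par (db j)) : ∀ j, j < 156094 → GoodG.{u} par (db j) := by
  have h44851 := checkRangeG_sound parWF r2 pf44850 h44850
  have h44852 := checkRangeG_sound parWF r2 pf44851 h44851
  have h44853 := checkRangeG_sound parWF r2 pf44852 h44852
  have h44854 := checkRangeG_sound parWF r2 pf44853 h44853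
  have h44855 := checkRangeG_sound parWF r2 pf44854 h44854
  have h44856 := checkRangeG_sound parWF r2 pf44855 h44855
  have h44857 := checkRangeG_sound parWF r2 pf44856 h44856
  have h44858 := checkRangeG_sound parWF r2 pf44857 h44857
  have h44859 := checkRangeG_sound parWF r2 pf44858 h44858
  have h44860 := checkRangeG_sound parWF r2 pf44859 h44859
  have h44861 := checkRangeG_sound parWF r2 pf44860 h44860
  have h44862 := checkRangeG_sound parWF r2 pf44861 h44861
  have h44863 := checkRangeG_sound parWF r2 pf44862 h44862
  have h44864 := checkRangeG_sound parWF r2 pf44863 h44863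
  have h44865 := checkRangeG_sound parWF r2 pf44864 h44864
  have h44866 := checkRangeG_sound parWF r2 pf44865 h44865
  have h44867 := checkRangeG_sound parWF r2 pf44866 h44866
  have h44868 := checkRangeG_sound parWF r2 pf44867 h44867
  have h44869 := checkRangeG_sound parWF r2 pf44868 h44868
  have h44870 := checkRangeG_sound parWF r2 pf44869 h44869
  have h44871 := checkRangeG_sound parWF r2 pf44870 h44870
  have h44872 := checkRangeG_sound parWF r2 pf44871 h44871
  have h44873 := checkRangeG_sound parWF r2 pf44872 h44872
  have h44874 := checkRangeG_sound parWF r2 pf44873 h44873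
  have h44875 := checkRangeG_sound parWF r2 pf44874 h44874
  have h44876 := checkRangeG_sound parWF r2 pf44875 h44875
  have h44877 := checkRangeG_sound parWF r2 pf44876 h44876
  have h44878 := checkRangeG_sound parWF r2 pf44877 h44877
  have h44879 := checkRangeG_sound parWF r2 pf44878 h44878
  have h44880 := checkRangeG_sound parWF r2 pf44879 h44879
  have h44881 := checkRangeG_sound parWF r2 pf44880 h44880
  have h44882 := checkRangeG_sound parWF r2 pf44881 h44881
  have h44883 := checkRangeG_sound parWF r2 pf44882 h44882
  have h44884 := checkRangeG_sound parWF r2 pf44883 h44883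
  have h44885 := checkRangeG_sound parWF r2 pf44884 h44884
  have h44886 := checkRangeG_sound parWF r2 pf44885 h44885
  have h44887 := checkRangeG_sound parWF r2 pf44886 h44886
  have h44888 := checkRangeG_sound parWF r2 pf44887 h44887
  have h44889 := checkRangeG_sound parWF r2 pf44888 h44888
  have h44890 := checkRangeG_sound parWF r2 pf44889 h44889
  have h44891 := checkRangeG_sound parWF r2 pf44890 h44890
  have h44892 := checkRangeG_sound parWF r2 pf44891 h44891
  have h44893 := checkRangeG_sound parWF r2 pf44892 h44892
  have h44894 := checkRangeG_sound parWF r2 pf44893 h44893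
  have h44895 := checkRangeG_sound parWF r2 pf44894 h44894
  have h44896 := checkRangeG_sound parWF r2 pf44895 h44895
  have h44897 := checkRangeG_sound parWF r2 pf44896 h44896
  have h44898 := checkRangeG_sound parWF r2 pf44897 h44897
  have h44899 := checkRangeG_sound parWF r2 pf44898 h44898
  have h44900 := checkRangeG_sound parWF r2 pf44899 h44899
  exact h44900

theorem c898 (h44900 : ∀ j, j < 156094 → GoodG.{u} par (db j)) : ∀ j, j < 156278 → GoodG.{u} par (db j) := by
  have h44901 := checkRangeG_sound parWF r2 pf44900 h44900
  have h44902 := checkRangeG_sound parWF r2 pf44901 h44901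
  have h44903 := checkRangeG_sound parWF r2 pf44902 h44902
  have h44904 := checkRangeG_sound parWF r2 pf44903 h44903
  have h44905 := checkRangeG_sound parWF r2 pf44904 h44904
  have h44906 := checkRangeG_sound parWF r2 pf44905 h44905
  have h44907 := checkRangeG_sound parWF r2 pf44906 h44906
  have h44908 := checkRangeG_sound parWF r2 pf44907 h44907
  have h44909 := checkRangeG_sound parWF r2 pf44908 h44908
  have h44910 := checkRangeG_sound parWF r2 pf44909 h44909
  have h44911 := checkRangeG_sound parWF r2 pf44910 h44910
  have h44912 := checkRangeG_sound parWF r2 pf44911 h44911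
  have h44913 := checkRangeG_sound parWF r2 pf44912 h44912
  have h44914 := checkRangeG_sound parWF r2 pf44913 h44913
  have h44915 := checkRangeG_sound parWF r2 pf44914 h44914
  have h44916 := checkRangeG_sound parWF r2 pf44915 h44915
  have h44917 := checkRangeG_sound parWF r2 pf44916 h44916
  have h44918 := checkRangeG_sound parWF r2 pf44917 h44917
  have h44919 := checkRangeG_sound parWF r2 pf44918 h44918
  have h44920 := checkRangeG_sound parWF r2 pf44919 h44919
  have h44921 := checkRangeG_sound parWF r2 pf44920 h44920
  have h44922 := checkRangeG_sound parWF r2 pf44921 h44921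
  have h44923 := checkRangeG_sound parWF r2 pf44922 h44922
  have h44924 := checkRangeG_sound parWF r2 pf44923 h44923
  have h44925 := checkRangeG_sound parWF r2 pf44924 h44924
  have h44926 := checkRangeG_sound parWF r2 pf44925 h44925
  have h44927 := checkRangeG_sound parWF r2 pf44926 h44926
  have h44928 := checkRangeG_sound parWF r2 pf44927 h44927
  have h44929 := checkRangeG_sound parWF r2 pf44928 h44928
  have h44930 := checkRangeG_sound parWF r2 pf44929 h44929
  have h44931 := checkRangeG_sound parWF r2 pf44930 h44930
  have h44932 := checkRangeG_sound parWF r2 pf44931 h44931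
  have h44933 := checkRangeG_sound parWF r2 pf44932 h44932
  have h44934 := checkRangeG_sound parWF r2 pf44933 h44933
  have h44935 := checkRangeG_sound parWF r2 pf44934 h44934
  have h44936 := checkRangeG_sound parWF r2 pf44935 h44935
  have h44937 := checkRangeG_sound parWF r2 pf44936 h44936
  have h44938 := checkRangeG_sound parWF r2 pf44937 h44937
  have h44939 := checkRangeG_sound parWF r2 pf44938 h44938
  have h44940 := checkRangeG_sound parWF r2 pf44939 h44939
  have h44941 := checkRangeG_sound parWF r2 pf44940 h44940
  have h44942 := checkRangeG_sound parWF r2 pf44941 h44941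
  have h44943 := checkRangeG_sound parWF r2 pf44942 h44942
  have h44944 := checkRangeG_sound parWF r2 pf44943 h44943
  have h44945 := checkRangeG_sound parWF r2 pf44944 h44944
  have h44946 := checkRangeG_sound parWF r2 pf44945 h44945
  have h44947 := checkRangeG_sound parWF r2 pf44946 h44946
  have h44948 := checkRangeG_sound parWF r2 pf44947 h44947
  have h44949 := checkRangeG_sound parWF r2 pf44948 h44948
  have h44950 := checkRangeG_sound parWF r2 pf44949 h44949
  exact h44950

theorem c899 (h44950 : ∀ j, j < 156278 → GoodG.{u} par (db j)) : ∀ j, j < 156458 → GoodG.{u} par (db j) := by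
  have h44951 := checkRangeG_sound parWF r2 pf44950 h44950
  have h44952 := checkRangeG_sound parWF r2 pf44951 h44951
  have h44953 := checkRangeG_sound parWF r2 pf44952 h44952
  have h44954 := checkRangeG_sound parWF r2 pf44953 h44953
  have h44955 := checkRangeG_sound parWF r2 pf44954 h44954
  have h44956 := checkRangeG_sound parWF r2 pf44955 h44955
  have h44957 := checkRangeG_sound parWF r2 pf44956 h44956
  have h44958 := checkRangeG_sound parWF r2 pf44957 h44957
  have h44959 := checkRangeG_sound parWF r2 pf44958 h44958
  have h44960 := checkRangeG_sound parWF r2 pf44959 h44959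
  have h44961 := checkRangeG_sound parWF r2 pf44960 h44960
  have h44962 := checkRangeG_sound parWF r2 pf44961 h44961
  have h44963 := checkRangeG_sound parWF r2 pf44962 h44962
  have h44964 := checkRangeG_sound parWF r2 pf44963 h44963
  have h44965 := checkRangeG_sound parWF r2 pf44964 h44964
  have h44966 := checkRangeG_sound parWF r2 pf44965 h44965
  have h44967 := checkRangeG_sound parWF r2 pf44966 h44966
  have h44968 := checkRangeG_sound parWF r2 pf44967 h44967
  have h44969 := checkRangeG_sound parWF r2 pf44968 h44968
  have h44970 := checkRangeG_sound parWF r2 pf44969 h44969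
  have h44971 := checkRangeG_sound parWF r2 pf44970 h44970
  have h44972 := checkRangeG_sound parWF r2 pf44971 h44971
  have h44973 := checkRangeG_sound parWF r2 pf44972 h44972
  have h44974 := checkRangeG_sound parWF r2 pf44973 h44973
  have h44975 := checkRangeG_sound parWF r2 pf44974 h44974
  have h44976 := checkRangeG_sound parWF r2 pf44975 h44975
  have h44977 := checkRangeG_sound parWF r2 pf44976 h44976
  have h44978 := checkRangeG_sound parWF r2 pf44977 h44977
  have h44979 := checkRangeG_sound parWF r2 pf44978 h44978
  have h44980 := checkRangeG_sound parWF r2 pf44979 h44979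
  have h44981 := checkRangeG_sound parWF r2 pf44980 h44980
  have h44982 := checkRangeG_sound parWF r2 pf44981 h44981
  have h44983 := checkRangeG_sound parWF r2 pf44982 h44982
  have h44984 := checkRangeG_sound parWF r2 pf44983 h44983
  have h44985 := checkRangeG_sound parWF r2 pf44984 h44984
  have h44986 := checkRangeG_sound parWF r2 pf44985 h44985
  have h44987 := checkRangeG_sound parWF r2 pf44986 h44986
  have h44988 := checkRangeG_sound parWF r2 pf44987 h44987
  have h44989 := checkRangeG_sound parWF r2 pf44988 h44988
  have h44990 := checkRangeG_sound parWF r2 pf44989 h44989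
  have h44991 := checkRangeG_sound parWF r2 pf44990 h44990
  have h44992 := checkRangeG_sound parWF r2 pf44991 h44991
  have h44993 := checkRangeG_sound parWF r2 pf44992 h44992
  have h44994 := checkRangeG_sound parWF r2 pf44993 h44993
  have h44995 := checkRangeG_sound parWF r2 pf44994 h44994
  have h44996 := checkRangeG_sound parWF r2 pf44995 h44995
  have h44997 := checkRangeG_sound parWF r2 pf44996 h44996
  have h44998 := checkRangeG_sound parWF r2 pf44997 h44997
  have h44999 := checkRangeG_sound parWF r2 pf44998 h44998
  have h45000 := checkRangeG_sound parWF r2 pf44999 h44999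
  exact h45000


end Vale.Agent.P045g.C61
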