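import Vale.Agent.P045g.C61.WF
import Vale.Agent.P045g.C61.Pf750
import Vale.Agent.P045g.C61.Pf751
import Vale.Agent.P045g.C61.Pf752
import Vale.Agent.P045g.C61.Pf753
import Vale.Agent.P045g.C61.Pf754
import Vale.Agent.P045g.C61.Pf755
import Vale.Agent.P045g.C61.Pf756
import Vale.Agent.P045g.C61.Pf757
import Vale.Agent.P045g.C61.Pf758
import Vale.Agent.P045g.C61.Pf759

namespace Vale.Agent.P045g.C61

open Vale.Agent.P045b Vale.Agent.P045g

universe u

theorem c900 (h45000 : ∀ j, j < 156458 → GoodG.{u} par (db j)) : ∀ j, j < 156659 → GoodG.{u} par (db j) := by
  have h45001 := checkRangeG_sound parWF r2 pf45000 h45000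
  have h45002 := checkRangeG_sound parWF r2 pf45001 h45001
  have h45003 := checkRangeG_sound parWF r2 pf45002 h45002
  have h45004 := checkRangeG_sound parWF r2 pf45003 h45003
  have h45005 := checkRangeG_sound parWF r2 pf45004 h45004
  have h45006 := checkRangeG_sound parWF r2 pf45005 h45005
  have h45007 := checkRangeG_sound parWF r2 pf45006 h45006
  have h45008 := checkRangeG_sound parWF r2 pf45007 h45007
  have h45009 := checkRangeG_sound parWF r2 pf45008 h45008
  have h45010 := checkRangeG_sound parWF r2 pf45009 h45009
  have h45011 := checkRangeG_sound parWF r2 pf45010 h45010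
  have h45012 := checkRangeG_sound parWF r2 pf45011 h45011
  have h45013 := checkRangeG_sound parWF r2 pf45012 h45012
  have h45014 := checkRangeG_sound parWF r2 pf45013 h45013
  have h45015 := checkRangeG_sound parWF r2 pf45014 h45014
  have h45016 := checkRangeG_sound parWF r2 pf45015 h45015
  have h45017 := checkRangeG_sound parWF r2 pf45016 h45016
  have h45018 := checkRangeG_sound parWF r2 pf45017 h45017
  have h45019 := checkRangeG_sound parWF r2 pf45018 h45018
  have h45020 := checkRangeG_sound parWF r2 pf45019 h45019
  have h45021 := checkRangeG_sound parWF r2 pf45020 h45020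
  have h45022 := checkRangeG_sound parWF r2 pf45021 h45021
  have h45023 := checkRangeG_sound parWF r2 pf45022 h45022
  have h45024 := checkRangeG_sound parWF r2 pf45023 h45023
  have h45025 := checkRangeG_sound parWF r2 pf45024 h45024
  have h45026 := checkRangeG_sound parWF r2 pf45025 h45025
  have h45027 := checkRangeG_sound parWF r2 pf45026 h45026
  have h45028 := checkRangeG_sound parWF r2 pf45027 h45027
  have h45029 := checkRangeG_sound parWF r2 pf45028 h45028
  have h45030 := checkRangeG_sound parWF r2 pf45029 h45029
  have h45031 := checkRangeG_sound parWF r2 pf45030 h45030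
  have h45032 := checkRangeG_sound parWF r2 pf45031 h45031
  have h45033 := checkRangeG_sound parWF r2 pf45032 h45032
  have h45034 := checkRangeG_sound parWF r2 pf45033 h45033
  have h45035 := checkRangeG_sound parWF r2 pf45034 h45034
  have h45036 := checkRangeG_sound parWF r2 pf45035 h45035
  have h45037 := checkRangeG_sound parWF r2 pf45036 h45036
  have h45038 := checkRangeG_sound parWF r2 pf45037 h45037
  have h45039 := checkRangeG_sound parWF r2 pf45038 h45038
  have h45040 := checkRangeG_sound parWF r2 pf45039 h45039
  have h45041 := checkRangeG_sound parWF r2 pf45040 h45040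
  have h45042 := checkRangeG_sound parWF r2 pf45041 h45041
  have h45043 := checkRangeG_sound parWF r2 pf45042 h45042
  have h45044 := checkRangeG_sound parWF r2 pf45043 h45043
  have h45045 := checkRangeG_sound parWF r2 pf45044 h45044
  have h45046 := checkRangeG_sound parWF r2 pf45045 h45045
  have h45047 := checkRangeG_sound parWF r2 pf45046 h45046
  have h45048 := checkRangeG_sound parWF r2 pf45047 h45047
  have h45049 := checkRangeG_sound parWF r2 pf45048 h45048
  have h45050 := checkRangeG_sound parWF r2 pf45049 h45049
  exact h45050

theorem c901 (h45050 : ∀ j, j < 156659 → GoodG.{u} par (db j)) : ∀ j, j < 156858 → GoodG.{u} par (db j) := by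
  have h45051 := checkRangeG_sound parWF r2 pf45050 h45050
  have h45052 := checkRangeG_sound parWF r2 pf45051 h45051
  have h45053 := checkRangeG_sound parWF r2 pf45052 h45052
  have h45054 := checkRangeG_sound parWF r2 pf45053 h45053
  have h45055 := checkRangeG_sound parWF r2 pf45054 h45054
  have h45056 := checkRangeG_sound parWF r2 pf45055 h45055
  have h45057 := checkRangeG_sound parWF r2 pf45056 h45056
  have h45058 := checkRangeG_sound parWF r2 pf45057 h45057
  have h45059 := checkRangeG_sound parWF r2 pf45058 h45058
  have h45060 := checkRangeG_sound parWF r2 pf45059 h45059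
  have h45061 := checkRangeG_sound parWF r2 pf45060 h45060
  have h45062 := checkRangeG_sound parWF r2 pf45061 h45061
  have h45063 := checkRangeG_sound parWF r2 pf45062 h45062
  have h45064 := checkRangeG_sound parWF r2 pf45063 h45063
  have h45065 := checkRangeG_sound parWF r2 pf45064 h45064
  have h45066 := checkRangeG_sound parWF r2 pf45065 h45065
  have h45067 := checkRangeG_sound parWF r2 pf45066 h45066
  have h45068 := checkRangeG_sound parWF r2 pf45067 h45067
  have h45069 := checkRangeG_sound parWF r2 pf45068 h45068
  have h45070 := checkRangeG_sound parWF r2 pf45069 h45069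
  have h45071 := checkRangeG_sound parWF r2 pf45070 h45070
  have h45072 := checkRangeG_sound parWF r2 pf45071 h45071
  have h45073 := checkRangeG_sound parWF r2 pf45072 h45072
  have h45074 := checkRangeG_sound parWF r2 pf45073 h45073
  have h45075 := checkRangeG_sound parWF r2 pf45074 h45074
  have h45076 := checkRangeG_sound parWF r2 pf45075 h45075
  have h45077 := checkRangeG_sound parWF r2 pf45076 h45076
  have h45078 := checkRangeG_sound parWF r2 pf45077 h45077
  have h45079 := checkRangeG_sound parWF r2 pf45078 h45078
  have h45080 := checkRangeG_sound parWF r2 pf45079 h45079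
  have h45081 := checkRangeG_sound parWF r2 pf45080 h45080
  have h45082 := checkRangeG_sound parWF r2 pf45081 h45081
  have h45083 := checkRangeG_sound parWF r2 pf45082 h45082
  have h45084 := checkRangeG_sound parWF r2 pf45083 h45083
  have h45085 := checkRangeG_sound parWF r2 pf45084 h45084
  have h45086 := checkRangeG_sound parWF r2 pf45085 h45085
  have h45087 := checkRangeG_sound parWF r2 pf45086 h45086
  have h45088 := checkRangeG_sound parWF r2 pf45087 h45087
  have h45089 := checkRangeG_sound parWF r2 pf45088 h45088
  have h45090 := checkRangeG_sound parWF r2 pf45089 h45089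
  have h45091 := checkRangeG_sound parWF r2 pf45090 h45090
  have h45092 := checkRangeG_sound parWF r2 pf45091 h45091
  have h45093 := checkRangeG_sound parWF r2 pf45092 h45092
  have h45094 := checkRangeG_sound parWF r2 pf45093 h45093
  have h45095 := checkRangeG_sound parWF r2 pf45094 h45094
  have h45096 := checkRangeG_sound parWF r2 pf45095 h45095
  have h45097 := checkRangeG_sound parWF r2 pf45096 h45096
  have h45098 := checkRangeG_sound parWF r2 pf45097 h45097
  have h45099 := checkRangeG_sound parWF r2 pf45098 h45098
  have h45100 := checkRangeG_sound parWF r2 pf45099 h45099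
  exact h45100

theorem c902 (h45100 : ∀ j, j < 156858 → GoodG.{u} par (db j)) : ∀ j, j < 157063 → GoodG.{u} par (db j) := by
  have h45101 := checkRangeG_sound parWF r2 pf45100 h45100
  have h45102 := checkRangeG_sound parWF r2 pf45101 h45101
  have h45103 := checkRangeG_sound parWF r2 pf45102 h45102
  have h45104 := checkRangeG_sound parWF r2 pf45103 h45103
  have h45105 := checkRangeG_sound parWF r2 pf45104 h45104
  have h45106 := checkRangeG_sound parWF r2 pf45105 h45105
  have h45107 := checkRangeG_sound parWF r2 pf45106 h45106
  have h45108 := checkRangeG_sound parWF r2 pf45107 h45107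
  have h45109 := checkRangeG_sound parWF r2 pf45108 h45108
  have h45110 := checkRangeG_sound parWF r2 pf45109 h45109
  have h45111 := checkRangeG_sound parWF r2 pf45110 h45110
  have h45112 := checkRangeG_sound parWF r2 pf45111 h45111
  have h45113 := checkRangeG_sound parWF r2 pf45112 h45112
  have h45114 := checkRangeG_sound parWF r2 pf45113 h45113
  have h45115 := checkRangeG_sound parWF r2 pf45114 h45114
  have h45116 := checkRangeG_sound parWF r2 pf45115 h45115
  have h45117 := checkRangeG_sound parWF r2 pf45116 h45116
  have h45118 := checkRangeG_sound parWF r2 pf45117 h45117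
  have h45119 := checkRangeG_sound parWF r2 pf45118 h45118
  have h45120 := checkRangeG_sound parWF r2 pf45119 h45119
  have h45121 := checkRangeG_sound parWF r2 pf45120 h45120
  have h45122 := checkRangeG_sound parWF r2 pf45121 h45121
  have h45123 := checkRangeG_sound parWF r2 pf45122 h45122
  have h45124 := checkRangeG_sound parWF r2 pf45123 h45123
  have h45125 := checkRangeG_sound parWF r2 pf45124 h45124
  have h45126 := checkRangeG_sound parWF r2 pf45125 h45125
  have h45127 := checkRangeG_sound parWF r2 pf45126 h45126
  have h45128 := checkRangeG_sound parWF r2 pf45127 h45127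
  have h45129 := checkRangeG_sound parWF r2 pf45128 h45128
  have h45130 := checkRangeG_sound parWF r2 pf45129 h45129
  have h45131 := checkRangeG_sound parWF r2 pf45130 h45130
  have h45132 := checkRangeG_sound parWF r2 pf45131 h45131
  have h45133 := checkRangeG_sound parWF r2 pf45132 h45132
  have h45134 := checkRangeG_sound parWF r2 pf45133 h45133
  have h45135 := checkRangeG_sound parWF r2 pf45134 h45134
  have h45136 := checkRangeG_sound parWF r2 pf45135 h45135
  have h45137 := checkRangeG_sound parWF r2 pf45136 h45136
  have h45138 := checkRangeG_sound parWF r2 pf45137 h45137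
  have h45139 := checkRangeG_sound parWF r2 pf45138 h45138
  have h45140 := checkRangeG_sound parWF r2 pf45139 h45139
  have h45141 := checkRangeG_sound parWF r2 pf45140 h45140
  have h45142 := checkRangeG_sound parWF r2 pf45141 h45141
  have h45143 := checkRangeG_sound parWF r2 pf45142 h45142
  have h45144 := checkRangeG_sound parWF r2 pf45143 h45143
  have h45145 := checkRangeG_sound parWF r2 pf45144 h45144
  have h45146 := checkRangeG_sound parWF r2 pf45145 h45145
  have h45147 := checkRangeG_sound parWF r2 pf45146 h45146
  have h45148 := checkRangeG_sound parWF r2 pf45147 h45147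
  have h45149 := checkRangeG_sound parWF r2 pf45148 h45148
  have h45150 := checkRangeG_sound parWF r2 pf45149 h45149
  exact h45150

theorem c903 (h45150 : ∀ j, j < 157063 → GoodG.{u} par (db j)) : ∀ j, j < 157284 → GoodG.{u} par (db j) := by
  have h45151 := checkRangeG_sound parWF r2 pf45150 h45150
  have h45152 := checkRangeG_sound parWF r2 pf45151 h45151
  have h45153 := checkRangeG_sound parWF r2 pf45152 h45152
  have h45154 := checkRangeG_sound parWF r2 pf45153 h45153
  have h45155 := checkRangeG_sound parWF r2 pf45154 h45154
  have h45156 := checkRangeG_sound parWF r2 pf45155 h45155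
  have h45157 := checkRangeG_sound parWF r2 pf45156 h45156
  have h45158 := checkRangeG_sound parWF r2 pf45157 h45157
  have h45159 := checkRangeG_sound parWF r2 pf45158 h45158
  have h45160 := checkRangeG_sound parWF r2 pf45159 h45159
  have h45161 := checkRangeG_sound parWF r2 pf45160 h45160
  have h45162 := checkRangeG_sound parWF r2 pf45161 h45161
  have h45163 := checkRangeG_sound parWF r2 pf45162 h45162
  have h45164 := checkRangeG_sound parWF r2 pf45163 h45163
  have h45165 := checkRangeG_sound parWF r2 pf45164 h45164
  have h45166 := checkRangeG_sound parWF r2 pf45165 h45165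
  have h45167 := checkRangeG_sound parWF r2 pf45166 h45166
  have h45168 := checkRangeG_sound parWF r2 pf45167 h45167
  have h45169 := checkRangeG_sound parWF r2 pf45168 h45168
  have h45170 := checkRangeG_sound parWF r2 pf45169 h45169
  have h45171 := checkRangeG_sound parWF r2 pf45170 h45170
  have h45172 := checkRangeG_sound parWF r2 pf45171 h45171
  have h45173 := checkRangeG_sound parWF r2 pf45172 h45172
  have h45174 := checkRangeG_sound parWF r2 pf45173 h45173
  have h45175 := checkRangeG_sound parWF r2 pf45174 h45174
  have h45176 := checkRangeG_sound parWF r2 pf45175 h45175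
  have h45177 := checkRangeG_sound parWF r2 pf45176 h45176
  have h45178 := checkRangeG_sound parWF r2 pf45177 h45177
  have h45179 := checkRangeG_sound parWF r2 pf45178 h45178
  have h45180 := checkRangeG_sound parWF r2 pf45179 h45179
  have h45181 := checkRangeG_sound parWF r2 pf45180 h45180
  have h45182 := checkRangeG_sound parWF r2 pf45181 h45181
  have h45183 := checkRangeG_sound parWF r2 pf45182 h45182
  have h45184 := checkRangeG_sound parWF r2 pf45183 h45183
  have h45185 := checkRangeG_sound parWF r2 pf45184 h45184
  have h45186 := checkRangeG_sound parWF r2 pf45185 h45185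
  have h45187 := checkRangeG_sound parWF r2 pf45186 h45186
  have h45188 := checkRangeG_sound parWF r2 pf45187 h45187
  have h45189 := checkRangeG_sound parWF r2 pf45188 h45188
  have h45190 := checkRangeG_sound parWF r2 pf45189 h45189
  have h45191 := checkRangeG_sound parWF r2 pf45190 h45190
  have h45192 := checkRangeG_sound parWF r2 pf45191 h45191
  have h45193 := checkRangeG_sound parWF r2 pf45192 h45192
  have h45194 := checkRangeG_sound parWF r2 pf45193 h45193
  have h45195 := checkRangeG_sound parWF r2 pf45194 h45194
  have h45196 := checkRangeG_sound parWF r2 pf45195 h45195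
  have h45197 := checkRangeG_sound parWF r2 pf45196 h45196
  have h45198 := checkRangeG_sound parWF r2 pf45197 h45197
  have h45199 := checkRangeG_sound parWF r2 pf45198 h45198
  have h45200 := checkRangeG_sound parWF r2 pf45199 h45199
  exact h45200

theorem c904 (h45200 : ∀ j, j < 157284 → GoodG.{u} par (db j)) : ∀ j, j < 157533 → GoodG.{u} par (db j) := by
  have h45201 := checkRangeG_sound parWF r2 pf45200 h45200
  have h45202 := checkRangeG_sound parWF r2 pf45201 h45201
  have h45203 := checkRangeG_sound parWF r2 pf45202 h45202
  have h45204 := checkRangeG_sound parWF r2 pf45203 h45203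
  have h45205 := checkRangeG_sound parWF r2 pf45204 h45204
  have h45206 := checkRangeG_sound parWF r2 pf45205 h45205
  have h45207 := checkRangeG_sound parWF r2 pf45206 h45206
  have h45208 := checkRangeG_sound parWF r2 pf45207 h45207
  have h45209 := checkRangeG_sound parWF r2 pf45208 h45208
  have h45210 := checkRangeG_sound parWF r2 pf45209 h45209
  have h45211 := checkRangeG_sound parWF r2 pf45210 h45210
  have h45212 := checkRangeG_sound parWF r2 pf45211 h45211
  have h45213 := checkRangeG_sound parWF r2 pf45212 h45212
  have h45214 := checkRangeG_sound parWF r2 pf45213 h45213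
  have h45215 := checkRangeG_sound parWF r2 pf45214 h45214
  have h45216 := checkRangeG_sound parWF r2 pf45215 h45215
  have h45217 := checkRangeG_sound parWF r2 pf45216 h45216
  have h45218 := checkRangeG_sound parWF r2 pf45217 h45217
  have h45219 := checkRangeG_sound parWF r2 pf45218 h45218
  have h45220 := checkRangeG_sound parWF r2 pf45219 h45219
  have h45221 := checkRangeG_sound parWF r2 pf45220 h45220
  have h45222 := checkRangeG_sound parWF r2 pf45221 h45221
  have h45223 := checkRangeG_sound parWF r2 pf45222 h45222
  have h45224 := checkRangeG_sound parWF r2 pf45223 h45223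
  have h45225 := checkRangeG_sound parWF r2 pf45224 h45224
  have h45226 := checkRangeG_sound parWF r2 pf45225 h45225
  have h45227 := checkRangeG_sound parWF r2 pf45226 h45226
  have h45228 := checkRangeG_sound parWF r2 pf45227 h45227
  have h45229 := checkRangeG_sound parWF r2 pf45228 h45228
  have h45230 := checkRangeG_sound parWF r2 pf45229 h45229
  have h45231 := checkRangeG_sound parWF r2 pf45230 h45230
  have h45232 := checkRangeG_sound parWF r2 pf45231 h45231
  have h45233 := checkRangeG_sound parWF r2 pf45232 h45232
  have h45234 := checkRangeG_sound parWF r2 pf45233 h45233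
  have h45235 := checkRangeG_sound parWF r2 pf45234 h45234
  have h45236 := checkRangeG_sound parWF r2 pf45235 h45235
  have h45237 := checkRangeG_sound parWF r2 pf45236 h45236
  have h45238 := checkRangeG_sound parWF r2 pf45237 h45237
  have h45239 := checkRangeG_sound parWF r2 pf45238 h45238
  have h45240 := checkRangeG_sound parWF r2 pf45239 h45239
  have h45241 := checkRangeG_sound parWF r2 pf45240 h45240
  have h45242 := checkRangeG_sound parWF r2 pf45241 h45241
  have h45243 := checkRangeG_sound parWF r2 pf45242 h45242
  have h45244 := checkRangeG_sound parWF r2 pf45243 h45243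
  have h45245 := checkRangeG_sound parWF r2 pf45244 h45244
  have h45246 := checkRangeG_sound parWF r2 pf45245 h45245
  have h45247 := checkRangeG_sound parWF r2 pf45246 h45246
  have h45248 := checkRangeG_sound parWF r2 pf45247 h45247
  have h45249 := checkRangeG_sound parWF r2 pf45248 h45248
  have h45250 := checkRangeG_sound parWF r2 pf45249 h45249
  exact h45250

theorem c905 (h45250 : ∀ j, j < 157533 → GoodG.{u} par (db j)) : ∀ j, j < 157741 → GoodG.{u} par (db j) := by
  have h45251 := checkRangeG_sound parWF r2 pf45250 h45250
  have h45252 := checkRangeG_sound parWF r2 pf45251 h45251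
  have h45253 := checkRangeG_sound parWF r2 pf45252 h45252
  have h45254 := checkRangeG_sound parWF r2 pf45253 h45253
  have h45255 := checkRangeG_sound parWF r2 pf45254 h45254
  have h45256 := checkRangeG_sound parWF r2 pf45255 h45255
  have h45257 := checkRangeG_sound parWF r2 pf45256 h45256
  have h45258 := checkRangeG_sound parWF r2 pf45257 h45257
  have h45259 := checkRangeG_sound parWF r2 pf45258 h45258
  have h45260 := checkRangeG_sound parWF r2 pf45259 h45259
  have h45261 := checkRangeG_sound parWF r2 pf45260 h45260
  have h45262 := checkRangeG_sound parWF r2 pf45261 h45261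
  have h45263 := checkRangeG_sound parWF r2 pf45262 h45262
  have h45264 := checkRangeG_sound parWF r2 pf45263 h45263
  have h45265 := checkRangeG_sound parWF r2 pf45264 h45264
  have h45266 := checkRangeG_sound parWF r2 pf45265 h45265
  have h45267 := checkRangeG_sound parWF r2 pf45266 h45266
  have h45268 := checkRangeG_sound parWF r2 pf45267 h45267
  have h45269 := checkRangeG_sound parWF r2 pf45268 h45268
  have h45270 := checkRangeG_sound parWF r2 pf45269 h45269
  have h45271 := checkRangeG_sound parWF r2 pf45270 h45270
  have h45272 := checkRangeG_sound parWF r2 pf45271 h45271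
  have h45273 := checkRangeG_sound parWF r2 pf45272 h45272
  have h45274 := checkRangeG_sound parWF r2 pf45273 h45273
  have h45275 := checkRangeG_sound parWF r2 pf45274 h45274
  have h45276 := checkRangeG_sound parWF r2 pf45275 h45275
  have h45277 := checkRangeG_sound parWF r2 pf45276 h45276
  have h45278 := checkRangeG_sound parWF r2 pf45277 h45277
  have h45279 := checkRangeG_sound parWF r2 pf45278 h45278
  have h45280 := checkRangeG_sound parWF r2 pf45279 h45279
  have h45281 := checkRangeG_sound parWF r2 pf45280 h45280
  have h45282 := checkRangeG_sound parWF r2 pf45281 h45281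
  have h45283 := checkRangeG_sound parWF r2 pf45282 h45282
  have h45284 := checkRangeG_sound parWF r2 pf45283 h45283
  have h45285 := checkRangeG_sound parWF r2 pf45284 h45284
  have h45286 := checkRangeG_sound parWF r2 pf45285 h45285
  have h45287 := checkRangeG_sound parWF r2 pf45286 h45286
  have h45288 := checkRangeG_sound parWF r2 pf45287 h45287
  have h45289 := checkRangeG_sound parWF r2 pf45288 h45288
  have h45290 := checkRangeG_sound parWF r2 pf45289 h45289
  have h45291 := checkRangeG_sound parWF r2 pf45290 h45290
  have h45292 := checkRangeG_sound parWF r2 pf45291 h45291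
  have h45293 := checkRangeG_sound parWF r2 pf45292 h45292
  have h45294 := checkRangeG_sound parWF r2 pf45293 h45293
  have h45295 := checkRangeG_sound parWF r2 pf45294 h45294
  have h45296 := checkRangeG_sound parWF r2 pf45295 h45295
  have h45297 := checkRangeG_sound parWF r2 pf45296 h45296
  have h45298 := checkRangeG_sound parWF r2 pf45297 h45297
  have h45299 := checkRangeG_sound parWF r2 pf45298 h45298
  have h45300 := checkRangeG_sound parWF r2 pf45299 h45299
  exact h45300

theorem c906 (h45300 : ∀ j, j < 157741 → GoodG.{u} par (db j)) : ∀ j, j < 157971 → GoodG.{u} par (db j) := by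
  have h45301 := checkRangeG_sound parWF r2 pf45300 h45300
  have h45302 := checkRangeG_sound parWF r2 pf45301 h45301
  have h45303 := checkRangeG_sound parWF r2 pf45302 h45302
  have h45304 := checkRangeG_sound parWF r2 pf45303 h45303
  have h45305 := checkRangeG_sound parWF r2 pf45304 h45304
  have h45306 := checkRangeG_sound parWF r2 pf45305 h45305
  have h45307 := checkRangeG_sound parWF r2 pf45306 h45306
  have h45308 := checkRangeG_sound parWF r2 pf45307 h45307
  have h45309 := checkRangeG_sound parWF r2 pf45308 h45308
  have h45310 := checkRangeG_sound parWF r2 pf45309 h45309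
  have h45311 := checkRangeG_sound parWF r2 pf45310 h45310
  have h45312 := checkRangeG_sound parWF r2 pf45311 h45311
  have h45313 := checkRangeG_sound parWF r2 pf45312 h45312
  have h45314 := checkRangeG_sound parWF r2 pf45313 h45313
  have h45315 := checkRangeG_sound parWF r2 pf45314 h45314
  have h45316 := checkRangeG_sound parWF r2 pf45315 h45315
  have h45317 := checkRangeG_sound parWF r2 pf45316 h45316
  have h45318 := checkRangeG_sound parWF r2 pf45317 h45317
  have h45319 := checkRangeG_sound parWF r2 pf45318 h45318
  have h45320 := checkRangeG_sound parWF r2 pf45319 h45319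
  have h45321 := checkRangeG_sound parWF r2 pf45320 h45320
  have h45322 := checkRangeG_sound parWF r2 pf45321 h45321
  have h45323 := checkRangeG_sound parWF r2 pf45322 h45322
  have h45324 := checkRangeG_sound parWF r2 pf45323 h45323
  have h45325 := checkRangeG_sound parWF r2 pf45324 h45324
  have h45326 := checkRangeG_sound parWF r2 pf45325 h45325
  have h45327 := checkRangeG_sound parWF r2 pf45326 h45326
  have h45328 := checkRangeG_sound parWF r2 pf45327 h45327
  have h45329 := checkRangeG_sound parWF r2 pf45328 h45328
  have h45330 := checkRangeG_sound parWF r2 pf45329 h45329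
  have h45331 := checkRangeG_sound parWF r2 pf45330 h45330
  have h45332 := checkRangeG_sound parWF r2 pf45331 h45331
  have h45333 := checkRangeG_sound parWF r2 pf45332 h45332
  have h45334 := checkRangeG_sound parWF r2 pf45333 h45333
  have h45335 := checkRangeG_sound parWF r2 pf45334 h45334
  have h45336 := checkRangeG_sound parWF r2 pf45335 h45335
  have h45337 := checkRangeG_sound parWF r2 pf45336 h45336
  have h45338 := checkRangeG_sound parWF r2 pf45337 h45337
  have h45339 := checkRangeG_sound parWF r2 pf45338 h45338
  have h45340 := checkRangeG_sound parWF r2 pf45339 h45339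
  have h45341 := checkRangeG_sound parWF r2 pf45340 h45340
  have h45342 := checkRangeG_sound parWF r2 pf45341 h45341
  have h45343 := checkRangeG_sound parWF r2 pf45342 h45342
  have h45344 := checkRangeG_sound parWF r2 pf45343 h45343
  have h45345 := checkRangeG_sound parWF r2 pf45344 h45344
  have h45346 := checkRangeG_sound parWF r2 pf45345 h45345
  have h45347 := checkRangeG_sound parWF r2 pf45346 h45346
  have h45348 := checkRangeG_sound parWF r2 pf45347 h45347
  have h45349 := checkRangeG_sound parWF r2 pf45348 h45348
  have h45350 := checkRangeG_sound parWF r2 pf45349 h45349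
  exact h45350

theorem c907 (h45350 : ∀ j, j < 157971 → GoodG.{u} par (db j)) : ∀ j, j < 158213 → GoodG.{u} par (db j) := by
  have h45351 := checkRangeG_sound parWF r2 pf45350 h45350
  have h45352 := checkRangeG_sound parWF r2 pf45351 h45351
  have h45353 := checkRangeG_sound parWF r2 pf45352 h45352
  have h45354 := checkRangeG_sound parWF r2 pf45353 h45353
  have h45355 := checkRangeG_sound parWF r2 pf45354 h45354
  have h45356 := checkRangeG_sound parWF r2 pf45355 h45355
  have h45357 := checkRangeG_sound parWF r2 pf45356 h45356
  have h45358 := checkRangeG_sound parWF r2 pf45357 h45357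
  have h45359 := checkRangeG_sound parWF r2 pf45358 h45358
  have h45360 := checkRangeG_sound parWF r2 pf45359 h45359
  have h45361 := checkRangeG_sound parWF r2 pf45360 h45360
  have h45362 := checkRangeG_sound parWF r2 pf45361 h45361
  have h45363 := checkRangeG_sound parWF r2 pf45362 h45362
  have h45364 := checkRangeG_sound parWF r2 pf45363 h45363
  have h45365 := checkRangeG_sound parWF r2 pf45364 h45364
  have h45366 := checkRangeG_sound parWF r2 pf45365 h45365
  have h45367 := checkRangeG_sound parWF r2 pf45366 h45366
  have h45368 := checkRangeG_sound parWF r2 pf45367 h45367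
  have h45369 := checkRangeG_sound parWF r2 pf45368 h45368
  have h45370 := checkRangeG_sound parWF r2 pf45369 h45369
  have h45371 := checkRangeG_sound parWF r2 pf45370 h45370
  have h45372 := checkRangeG_sound parWF r2 pf45371 h45371
  have h45373 := checkRangeG_sound parWF r2 pf45372 h45372
  have h45374 := checkRangeG_sound parWF r2 pf45373 h45373
  have h45375 := checkRangeG_sound parWF r2 pf45374 h45374
  have h45376 := checkRangeG_sound parWF r2 pf45375 h45375
  have h45377 := checkRangeG_sound parWF r2 pf45376 h45376
  have h45378 := checkRangeG_sound parWF r2 pf45377 h45377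
  have h45379 := checkRangeG_sound parWF r2 pf45378 h45378
  have h45380 := checkRangeG_sound parWF r2 pf45379 h45379
  have h45381 := checkRangeG_sound parWF r2 pf45380 h45380
  have h45382 := checkRangeG_sound parWF r2 pf45381 h45381
  have h45383 := checkRangeG_sound parWF r2 pf45382 h45382
  have h45384 := checkRangeG_sound parWF r2 pf45383 h45383
  have h45385 := checkRangeG_sound parWF r2 pf45384 h45384
  have h45386 := checkRangeG_sound parWF r2 pf45385 h45385
  have h45387 := checkRangeG_sound parWF r2 pf45386 h45386
  have h45388 := checkRangeG_sound parWF r2 pf45387 h45387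
  have h45389 := checkRangeG_sound parWF r2 pf45388 h45388
  have h45390 := checkRangeG_sound parWF r2 pf45389 h45389
  have h45391 := checkRangeG_sound parWF r2 pf45390 h45390
  have h45392 := checkRangeG_sound parWF r2 pf45391 h45391
  have h45393 := checkRangeG_sound parWF r2 pf45392 h45392
  have h45394 := checkRangeG_sound parWF r2 pf45393 h45393
  have h45395 := checkRangeG_sound parWF r2 pf45394 h45394
  have h45396 := checkRangeG_sound parWF r2 pf45395 h45395
  have h45397 := checkRangeG_sound parWF r2 pf45396 h45396
  have h45398 := checkRangeG_sound parWF r2 pf45397 h45397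
  have h45399 := checkRangeG_sound parWF r2 pf45398 h45398
  have h45400 := checkRangeG_sound parWF r2 pf45399 h45399
  exact h45400

theorem c908 (h45400 : ∀ j, j < 158213 → GoodG.{u} par (db j)) : ∀ j, j < 158456 → GoodG.{u} par (db j) := by
  have h45401 := checkRangeG_sound parWF r2 pf45400 h45400
  have h45402 := checkRangeG_sound parWF r2 pf45401 h45401
  have h45403 := checkRangeG_sound parWF r2 pf45402 h45402
  have h45404 := checkRangeG_sound parWF r2 pf45403 h45403
  have h45405 := checkRangeG_sound parWF r2 pf45404 h45404
  have h45406 := checkRangeG_sound parWF r2 pf45405 h45405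
  have h45407 := checkRangeG_sound parWF r2 pf45406 h45406
  have h45408 := checkRangeG_sound parWF r2 pf45407 h45407
  have h45409 := checkRangeG_sound parWF r2 pf45408 h45408
  have h45410 := checkRangeG_sound parWF r2 pf45409 h45409
  have h45411 := checkRangeG_sound parWF r2 pf45410 h45410
  have h45412 := checkRangeG_sound parWF r2 pf45411 h45411
  have h45413 := checkRangeG_sound parWF r2 pf45412 h45412
  have h45414 := checkRangeG_sound parWF r2 pf45413 h45413
  have h45415 := checkRangeG_sound parWF r2 pf45414 h45414
  have h45416 := checkRangeG_sound parWF r2 pf45415 h45415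
  have h45417 := checkRangeG_sound parWF r2 pf45416 h45416
  have h45418 := checkRangeG_sound parWF r2 pf45417 h45417
  have h45419 := checkRangeG_sound parWF r2 pf45418 h45418
  have h45420 := checkRangeG_sound parWF r2 pf45419 h45419
  have h45421 := checkRangeG_sound parWF r2 pf45420 h45420
  have h45422 := checkRangeG_sound parWF r2 pf45421 h45421
  have h45423 := checkRangeG_sound parWF r2 pf45422 h45422
  have h45424 := checkRangeG_sound parWF r2 pf45423 h45423
  have h45425 := checkRangeG_sound parWF r2 pf45424 h45424
  have h45426 := checkRangeG_sound parWF r2 pf45425 h45425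
  have h45427 := checkRangeG_sound parWF r2 pf45426 h45426
  have h45428 := checkRangeG_sound parWF r2 pf45427 h45427
  have h45429 := checkRangeG_sound parWF r2 pf45428 h45428
  have h45430 := checkRangeG_sound parWF r2 pf45429 h45429
  have h45431 := checkRangeG_sound parWF r2 pf45430 h45430
  have h45432 := checkRangeG_sound parWF r2 pf45431 h45431
  have h45433 := checkRangeG_sound parWF r2 pf45432 h45432
  have h45434 := checkRangeG_sound parWF r2 pf45433 h45433
  have h45435 := checkRangeG_sound parWF r2 pf45434 h45434
  have h45436 := checkRangeG_sound parWF r2 pf45435 h45435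
  have h45437 := checkRangeG_sound parWF r2 pf45436 h45436
  have h45438 := checkRangeG_sound parWF r2 pf45437 h45437
  have h45439 := checkRangeG_sound parWF r2 pf45438 h45438
  have h45440 := checkRangeG_sound parWF r2 pf45439 h45439
  have h45441 := checkRangeG_sound parWF r2 pf45440 h45440
  have h45442 := checkRangeG_sound parWF r2 pf45441 h45441
  have h45443 := checkRangeG_sound parWF r2 pf45442 h45442
  have h45444 := checkRangeG_sound parWF r2 pf45443 h45443
  have h45445 := checkRangeG_sound parWF r2 pf45444 h45444
  have h45446 := checkRangeG_sound parWF r2 pf45445 h45445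
  have h45447 := checkRangeG_sound parWF r2 pf45446 h45446
  have h45448 := checkRangeG_sound parWF r2 pf45447 h45447
  have h45449 := checkRangeG_sound parWF r2 pf45448 h45448
  have h45450 := checkRangeG_sound parWF r2 pf45449 h45449
  exact h45450

theorem c909 (h45450 : ∀ j, j < 158456 → GoodG.{u} par (db j)) : ∀ j, j < 158678 → GoodG.{u} par (db j) := by
  have h45451 := checkRangeG_sound parWF r2 pf45450 h45450
  have h45452 := checkRangeG_sound parWF r2 pf45451 h45451
  have h45453 := checkRangeG_sound parWF r2 pf45452 h45452
  have h45454 := checkRangeG_sound parWF r2 pf45453 h45453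
  have h45455 := checkRangeG_sound parWF r2 pf45454 h45454
  have h45456 := checkRangeG_sound parWF r2 pf45455 h45455
  have h45457 := checkRangeG_sound parWF r2 pf45456 h45456
  have h45458 := checkRangeG_sound parWF r2 pf45457 h45457
  have h45459 := checkRangeG_sound parWF r2 pf45458 h45458
  have h45460 := checkRangeG_sound parWF r2 pf45459 h45459
  have h45461 := checkRangeG_sound parWF r2 pf45460 h45460
  have h45462 := checkRangeG_sound parWF r2 pf45461 h45461
  have h45463 := checkRangeG_sound parWF r2 pf45462 h45462
  have h45464 := checkRangeG_sound parWF r2 pf45463 h45463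
  have h45465 := checkRangeG_sound parWF r2 pf45464 h45464
  have h45466 := checkRangeG_sound parWF r2 pf45465 h45465
  have h45467 := checkRangeG_sound parWF r2 pf45466 h45466
  have h45468 := checkRangeG_sound parWF r2 pf45467 h45467
  have h45469 := checkRangeG_sound parWF r2 pf45468 h45468
  have h45470 := checkRangeG_sound parWF r2 pf45469 h45469
  have h45471 := checkRangeG_sound parWF r2 pf45470 h45470
  have h45472 := checkRangeG_sound parWF r2 pf45471 h45471
  have h45473 := checkRangeG_sound parWF r2 pf45472 h45472
  have h45474 := checkRangeG_sound parWF r2 pf45473 h45473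
  have h45475 := checkRangeG_sound parWF r2 pf45474 h45474
  have h45476 := checkRangeG_sound parWF r2 pf45475 h45475
  have h45477 := checkRangeG_sound parWF r2 pf45476 h45476
  have h45478 := checkRangeG_sound parWF r2 pf45477 h45477
  have h45479 := checkRangeG_sound parWF r2 pf45478 h45478
  have h45480 := checkRangeG_sound parWF r2 pf45479 h45479
  have h45481 := checkRangeG_sound parWF r2 pf45480 h45480
  have h45482 := checkRangeG_sound parWF r2 pf45481 h45481
  have h45483 := checkRangeG_sound parWF r2 pf45482 h45482
  have h45484 := checkRangeG_sound parWF r2 pf45483 h45483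
  have h45485 := checkRangeG_sound parWF r2 pf45484 h45484
  have h45486 := checkRangeG_sound parWF r2 pf45485 h45485
  have h45487 := checkRangeG_sound parWF r2 pf45486 h45486
  have h45488 := checkRangeG_sound parWF r2 pf45487 h45487
  have h45489 := checkRangeG_sound parWF r2 pf45488 h45488
  have h45490 := checkRangeG_sound parWF r2 pf45489 h45489
  have h45491 := checkRangeG_sound parWF r2 pf45490 h45490
  have h45492 := checkRangeG_sound parWF r2 pf45491 h45491
  have h45493 := checkRangeG_sound parWF r2 pf45492 h45492
  have h45494 := checkRangeG_sound parWF r2 pf45493 h45493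
  have h45495 := checkRangeG_sound parWF r2 pf45494 h45494
  have h45496 := checkRangeG_sound parWF r2 pf45495 h45495
  have h45497 := checkRangeG_sound parWF r2 pf45496 h45496
  have h45498 := checkRangeG_sound parWF r2 pf45497 h45497
  have h45499 := checkRangeG_sound parWF r2 pf45498 h45498
  have h45500 := checkRangeG_sound parWF r2 pf45499 h45499
  exact h45500

theorem c910 (h45500 : ∀ j, j < 158678 → GoodG.{u} par (db j)) : ∀ j, j < 158888 → GoodG.{u} par (db j) := by
  have h45501 := checkRangeG_sound parWF r2 pf45500 h45500
  have h45502 := checkRangeG_sound parWF r2 pf45501 h45501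
  have h45503 := checkRangeG_sound parWF r2 pf45502 h45502
  have h45504 := checkRangeG_sound parWF r2 pf45503 h45503
  have h45505 := checkRangeG_sound parWF r2 pf45504 h45504
  have h45506 := checkRangeG_sound parWF r2 pf45505 h45505
  have h45507 := checkRangeG_sound parWF r2 pf45506 h45506
  have h45508 := checkRangeG_sound parWF r2 pf45507 h45507
  have h45509 := checkRangeG_sound parWF r2 pf45508 h45508
  have h45510 := checkRangeG_sound parWF r2 pf45509 h45509
  have h45511 := checkRangeG_sound parWF r2 pf45510 h45510
  have h45512 := checkRangeG_sound parWF r2 pf45511 h45511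
  have h45513 := checkRangeG_sound parWF r2 pf45512 h45512
  have h45514 := checkRangeG_sound parWF r2 pf45513 h45513
  have h45515 := checkRangeG_sound parWF r2 pf45514 h45514
  have h45516 := checkRangeG_sound parWF r2 pf45515 h45515
  have h45517 := checkRangeG_sound parWF r2 pf45516 h45516
  have h45518 := checkRangeG_sound parWF r2 pf45517 h45517
  have h45519 := checkRangeG_sound parWF r2 pf45518 h45518
  have h45520 := checkRangeG_sound parWF r2 pf45519 h45519
  have h45521 := checkRangeG_sound parWF r2 pf45520 h45520
  have h45522 := checkRangeG_sound parWF r2 pf45521 h45521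
  have h45523 := checkRangeG_sound parWF r2 pf45522 h45522
  have h45524 := checkRangeG_sound parWF r2 pf45523 h45523
  have h45525 := checkRangeG_sound parWF r2 pf45524 h45524
  have h45526 := checkRangeG_sound parWF r2 pf45525 h45525
  have h45527 := checkRangeG_sound parWF r2 pf45526 h45526
  have h45528 := checkRangeG_sound parWF r2 pf45527 h45527
  have h45529 := checkRangeG_sound parWF r2 pf45528 h45528
  have h45530 := checkRangeG_sound parWF r2 pf45529 h45529
  have h45531 := checkRangeG_sound parWF r2 pf45530 h45530
  have h45532 := checkRangeG_sound parWF r2 pf45531 h45531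
  have h45533 := checkRangeG_sound parWF r2 pf45532 h45532
  have h45534 := checkRangeG_sound parWF r2 pf45533 h45533
  have h45535 := checkRangeG_sound parWF r2 pf45534 h45534
  have h45536 := checkRangeG_sound parWF r2 pf45535 h45535
  have h45537 := checkRangeG_sound parWF r2 pf45536 h45536
  have h45538 := checkRangeG_sound parWF r2 pf45537 h45537
  have h45539 := checkRangeG_sound parWF r2 pf45538 h45538
  have h45540 := checkRangeG_sound parWF r2 pf45539 h45539
  have h45541 := checkRangeG_sound parWF r2 pf45540 h45540
  have h45542 := checkRangeG_sound parWF r2 pf45541 h45541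
  have h45543 := checkRangeG_sound parWF r2 pf45542 h45542
  have h45544 := checkRangeG_sound parWF r2 pf45543 h45543
  have h45545 := checkRangeG_sound parWF r2 pf45544 h45544
  have h45546 := checkRangeG_sound parWF r2 pf45545 h45545
  have h45547 := checkRangeG_sound parWF r2 pf45546 h45546
  have h45548 := checkRangeG_sound parWF r2 pf45547 h45547
  have h45549 := checkRangeG_sound parWF r2 pf45548 h45548
  have h45550 := checkRangeG_sound parWF r2 pf45549 h45549
  exact h45550

theorem c911 (h45550 : ∀ j, j < 158888 → GoodG.{u} par (db j)) : ∀ j, j < 159059 → GoodG.{u} par (db j) := by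
  have h45551 := checkRangeG_sound parWF r2 pf45550 h45550
  have h45552 := checkRangeG_sound parWF r2 pf45551 h45551
  have h45553 := checkRangeG_sound parWF r2 pf45552 h45552
  have h45554 := checkRangeG_sound parWF r2 pf45553 h45553
  have h45555 := checkRangeG_sound parWF r2 pf45554 h45554
  have h45556 := checkRangeG_sound parWF r2 pf45555 h45555
  have h45557 := checkRangeG_sound parWF r2 pf45556 h45556
  have h45558 := checkRangeG_sound parWF r2 pf45557 h45557
  have h45559 := checkRangeG_sound parWF r2 pf45558 h45558
  have h45560 := checkRangeG_sound parWF r2 pf45559 h45559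
  have h45561 := checkRangeG_sound parWF r2 pf45560 h45560
  have h45562 := checkRangeG_sound parWF r2 pf45561 h45561
  have h45563 := checkRangeG_sound parWF r2 pf45562 h45562
  have h45564 := checkRangeG_sound parWF r2 pf45563 h45563
  have h45565 := checkRangeG_sound parWF r2 pf45564 h45564
  have h45566 := checkRangeG_sound parWF r2 pf45565 h45565
  have h45567 := checkRangeG_sound parWF r2 pf45566 h45566
  have h45568 := checkRangeG_sound parWF r2 pf45567 h45567
  have h45569 := checkRangeG_sound parWF r2 pf45568 h45568
  have h45570 := checkRangeG_sound parWF r2 pf45569 h45569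
  have h45571 := checkRangeG_sound parWF r2 pf45570 h45570
  have h45572 := checkRangeG_sound parWF r2 pf45571 h45571
  have h45573 := checkRangeG_sound parWF r2 pf45572 h45572
  have h45574 := checkRangeG_sound parWF r2 pf45573 h45573
  have h45575 := checkRangeG_sound parWF r2 pf45574 h45574
  have h45576 := checkRangeG_sound parWF r2 pf45575 h45575
  have h45577 := checkRangeG_sound parWF r2 pf45576 h45576
  have h45578 := checkRangeG_sound parWF r2 pf45577 h45577
  have h45579 := checkRangeG_sound parWF r2 pf45578 h45578
  have h45580 := checkRangeG_sound parWF r2 pf45579 h45579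
  have h45581 := checkRangeG_sound parWF r2 pf45580 h45580
  have h45582 := checkRangeG_sound parWF r2 pf45581 h45581
  have h45583 := checkRangeG_sound parWF r2 pf45582 h45582
  have h45584 := checkRangeG_sound parWF r2 pf45583 h45583
  have h45585 := checkRangeG_sound parWF r2 pf45584 h45584
  have h45586 := checkRangeG_sound parWF r2 pf45585 h45585
  have h45587 := checkRangeG_sound parWF r2 pf45586 h45586
  have h45588 := checkRangeG_sound parWF r2 pf45587 h45587
  have h45589 := checkRangeG_sound parWF r2 pf45588 h45588
  have h45590 := checkRangeG_sound parWF r2 pf45589 h45589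
  have h45591 := checkRangeG_sound parWF r2 pf45590 h45590
  have h45592 := checkRangeG_sound parWF r2 pf45591 h45591
  have h45593 := checkRangeG_sound parWF r2 pf45592 h45592
  have h45594 := checkRangeG_sound parWF r2 pf45593 h45593
  have h45595 := checkRangeG_sound parWF r2 pf45594 h45594
  have h45596 := checkRangeG_sound parWF r2 pf45595 h45595
  have h45597 := checkRangeG_sound parWF r2 pf45596 h45596
  have h45598 := checkRangeG_sound parWF r2 pf45597 h45597
  have h45599 := checkRangeG_sound parWF r2 pf45598 h45598
  have h45600 := checkRangeG_sound parWF r2 pf45599 h45599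
  exact h45600


end Vale.Agent.P045g.C61
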