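import Vale.Agent.P045g.C61.WF
import Vale.Agent.P045g.C61.Pf760
import Vale.Agent.P045g.C61.Pf761
import Vale.Agent.P045g.C61.Pf762
import Vale.Agent.P045g.C61.Pf763
import Vale.Agent.P045g.C61.Pf764
import Vale.Agent.P045g.C61.Pf765
import Vale.Agent.P045g.C61.Pf766
import Vale.Agent.P045g.C61.Pf767
import Vale.Agent.P045g.C61.Pf768
import Vale.Agent.P045g.C61.Pf769

namespace Vale.Agent.P045g.C61

open Vale.Agent.P045b Vale.Agent.P045g

universe u

theorem c912 (h45600 : ∀ j, j < 159059 → GoodG.{u} par (db j)) : ∀ j, j < 159201 → GoodG.{u} par (db j) := by
  have h45601 := checkRangeG_sound parWF r2 pf45600 h45600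
  have h45602 := checkRangeG_sound parWF r2 pf45601 h45601
  have h45603 := checkRangeG_sound parWF r2 pf45602 h45602
  have h45604 := checkRangeG_sound parWF r2 pf45603 h45603
  have h45605 := checkRangeG_sound parWF r2 pf45604 h45604
  have h45606 := checkRangeG_sound parWF r2 pf45605 h45605
  have h45607 := checkRangeG_sound parWF r2 pf45606 h45606
  have h45608 := checkRangeG_sound parWF r2 pf45607 h45607
  have h45609 := checkRangeG_sound parWF r2 pf45608 h45608
  have h45610 := checkRangeG_sound parWF r2 pf45609 h45609
  have h45611 := checkRangeG_sound parWF r2 pf45610 h45610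
  have h45612 := checkRangeG_sound parWF r2 pf45611 h45611
  have h45613 := checkRangeG_sound parWF r2 pf45612 h45612
  have h45614 := checkRangeG_sound parWF r2 pf45613 h45613
  have h45615 := checkRangeG_sound parWF r2 pf45614 h45614
  have h45616 := checkRangeG_sound parWF r2 pf45615 h45615
  have h45617 := checkRangeG_sound parWF r2 pf45616 h45616
  have h45618 := checkRangeG_sound parWF r2 pf45617 h45617
  have h45619 := checkRangeG_sound parWF r2 pf45618 h45618
  have h45620 := checkRangeG_sound parWF r2 pf45619 h45619
  have h45621 := checkRangeG_sound parWF r2 pf45620 h45620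
  have h45622 := checkRangeG_sound parWF r2 pf45621 h45621
  have h45623 := checkRangeG_sound parWF r2 pf45622 h45622
  have h45624 := checkRangeG_sound parWF r2 pf45623 h45623
  have h45625 := checkRangeG_sound parWF r2 pf45624 h45624
  have h45626 := checkRangeG_sound parWF r2 pf45625 h45625
  have h45627 := checkRangeG_sound parWF r2 pf45626 h45626
  have h45628 := checkRangeG_sound parWF r2 pf45627 h45627
  have h45629 := checkRangeG_sound parWF r2 pf45628 h45628
  have h45630 := checkRangeG_sound parWF r2 pf45629 h45629
  have h45631 := checkRangeG_sound parWF r2 pf45630 h45630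
  have h45632 := checkRangeG_sound parWF r2 pf45631 h45631
  have h45633 := checkRangeG_sound parWF r2 pf45632 h45632
  have h45634 := checkRangeG_sound parWF r2 pf45633 h45633
  have h45635 := checkRangeG_sound parWF r2 pf45634 h45634
  have h45636 := checkRangeG_sound parWF r2 pf45635 h45635
  have h45637 := checkRangeG_sound parWF r2 pf45636 h45636
  have h45638 := checkRangeG_sound parWF r2 pf45637 h45637
  have h45639 := checkRangeG_sound parWF r2 pf45638 h45638
  have h45640 := checkRangeG_sound parWF r2 pf45639 h45639
  have h45641 := checkRangeG_sound parWF r2 pf45640 h45640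
  have h45642 := checkRangeG_sound parWF r2 pf45641 h45641
  have h45643 := checkRangeG_sound parWF r2 pf45642 h45642
  have h45644 := checkRangeG_sound parWF r2 pf45643 h45643
  have h45645 := checkRangeG_sound parWF r2 pf45644 h45644
  have h45646 := checkRangeG_sound parWF r2 pf45645 h45645
  have h45647 := checkRangeG_sound parWF r2 pf45646 h45646
  have h45648 := checkRangeG_sound parWF r2 pf45647 h45647
  have h45649 := checkRangeG_sound parWF r2 pf45648 h45648
  have h45650 := checkRangeG_sound parWF r2 pf45649 h45649
  exact h45650

theorem c913 (h45650 : ∀ j, j < 159201 → GoodG.{u} par (db j)) : ∀ j, j < 159352 → GoodG.{u} par (db j) := by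
  have h45651 := checkRangeG_sound parWF r2 pf45650 h45650
  have h45652 := checkRangeG_sound parWF r2 pf45651 h45651
  have h45653 := checkRangeG_sound parWF r2 pf45652 h45652
  have h45654 := checkRangeG_sound parWF r2 pf45653 h45653
  have h45655 := checkRangeG_sound parWF r2 pf45654 h45654
  have h45656 := checkRangeG_sound parWF r2 pf45655 h45655
  have h45657 := checkRangeG_sound parWF r2 pf45656 h45656
  have h45658 := checkRangeG_sound parWF r2 pf45657 h45657
  have h45659 := checkRangeG_sound parWF r2 pf45658 h45658
  have h45660 := checkRangeG_sound parWF r2 pf45659 h45659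
  have h45661 := checkRangeG_sound parWF r2 pf45660 h45660
  have h45662 := checkRangeG_sound parWF r2 pf45661 h45661
  have h45663 := checkRangeG_sound parWF r2 pf45662 h45662
  have h45664 := checkRangeG_sound parWF r2 pf45663 h45663
  have h45665 := checkRangeG_sound parWF r2 pf45664 h45664
  have h45666 := checkRangeG_sound parWF r2 pf45665 h45665
  have h45667 := checkRangeG_sound parWF r2 pf45666 h45666
  have h45668 := checkRangeG_sound parWF r2 pf45667 h45667
  have h45669 := checkRangeG_sound parWF r2 pf45668 h45668
  have h45670 := checkRangeG_sound parWF r2 pf45669 h45669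
  have h45671 := checkRangeG_sound parWF r2 pf45670 h45670
  have h45672 := checkRangeG_sound parWF r2 pf45671 h45671
  have h45673 := checkRangeG_sound parWF r2 pf45672 h45672
  have h45674 := checkRangeG_sound parWF r2 pf45673 h45673
  have h45675 := checkRangeG_sound parWF r2 pf45674 h45674
  have h45676 := checkRangeG_sound parWF r2 pf45675 h45675
  have h45677 := checkRangeG_sound parWF r2 pf45676 h45676
  have h45678 := checkRangeG_sound parWF r2 pf45677 h45677
  have h45679 := checkRangeG_sound parWF r2 pf45678 h45678
  have h45680 := checkRangeG_sound parWF r2 pf45679 h45679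
  have h45681 := checkRangeG_sound parWF r2 pf45680 h45680
  have h45682 := checkRangeG_sound parWF r2 pf45681 h45681
  have h45683 := checkRangeG_sound parWF r2 pf45682 h45682
  have h45684 := checkRangeG_sound parWF r2 pf45683 h45683
  have h45685 := checkRangeG_sound parWF r2 pf45684 h45684
  have h45686 := checkRangeG_sound parWF r2 pf45685 h45685
  have h45687 := checkRangeG_sound parWF r2 pf45686 h45686
  have h45688 := checkRangeG_sound parWF r2 pf45687 h45687
  have h45689 := checkRangeG_sound parWF r2 pf45688 h45688
  have h45690 := checkRangeG_sound parWF r2 pf45689 h45689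
  have h45691 := checkRangeG_sound parWF r2 pf45690 h45690
  have h45692 := checkRangeG_sound parWF r2 pf45691 h45691
  have h45693 := checkRangeG_sound parWF r2 pf45692 h45692
  have h45694 := checkRangeG_sound parWF r2 pf45693 h45693
  have h45695 := checkRangeG_sound parWF r2 pf45694 h45694
  have h45696 := checkRangeG_sound parWF r2 pf45695 h45695
  have h45697 := checkRangeG_sound parWF r2 pf45696 h45696
  have h45698 := checkRangeG_sound parWF r2 pf45697 h45697
  have h45699 := checkRangeG_sound parWF r2 pf45698 h45698
  have h45700 := checkRangeG_sound parWF r2 pf45699 h45699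
  exact h45700

theorem c914 (h45700 : ∀ j, j < 159352 → GoodG.{u} par (db j)) : ∀ j, j < 159532 → GoodG.{u} par (db j) := by
  have h45701 := checkRangeG_sound parWF r2 pf45700 h45700
  have h45702 := checkRangeG_sound parWF r2 pf45701 h45701
  have h45703 := checkRangeG_sound parWF r2 pf45702 h45702
  have h45704 := checkRangeG_sound parWF r2 pf45703 h45703
  have h45705 := checkRangeG_sound parWF r2 pf45704 h45704
  have h45706 := checkRangeG_sound parWF r2 pf45705 h45705
  have h45707 := checkRangeG_sound parWF r2 pf45706 h45706
  have h45708 := checkRangeG_sound parWF r2 pf45707 h45707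
  have h45709 := checkRangeG_sound parWF r2 pf45708 h45708
  have h45710 := checkRangeG_sound parWF r2 pf45709 h45709
  have h45711 := checkRangeG_sound parWF r2 pf45710 h45710
  have h45712 := checkRangeG_sound parWF r2 pf45711 h45711
  have h45713 := checkRangeG_sound parWF r2 pf45712 h45712
  have h45714 := checkRangeG_sound parWF r2 pf45713 h45713
  have h45715 := checkRangeG_sound parWF r2 pf45714 h45714
  have h45716 := checkRangeG_sound parWF r2 pf45715 h45715
  have h45717 := checkRangeG_sound parWF r2 pf45716 h45716
  have h45718 := checkRangeG_sound parWF r2 pf45717 h45717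
  have h45719 := checkRangeG_sound parWF r2 pf45718 h45718
  have h45720 := checkRangeG_sound parWF r2 pf45719 h45719
  have h45721 := checkRangeG_sound parWF r2 pf45720 h45720
  have h45722 := checkRangeG_sound parWF r2 pf45721 h45721
  have h45723 := checkRangeG_sound parWF r2 pf45722 h45722
  have h45724 := checkRangeG_sound parWF r2 pf45723 h45723
  have h45725 := checkRangeG_sound parWF r2 pf45724 h45724
  have h45726 := checkRangeG_sound parWF r2 pf45725 h45725
  have h45727 := checkRangeG_sound parWF r2 pf45726 h45726
  have h45728 := checkRangeG_sound parWF r2 pf45727 h45727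
  have h45729 := checkRangeG_sound parWF r2 pf45728 h45728
  have h45730 := checkRangeG_sound parWF r2 pf45729 h45729
  have h45731 := checkRangeG_sound parWF r2 pf45730 h45730
  have h45732 := checkRangeG_sound parWF r2 pf45731 h45731
  have h45733 := checkRangeG_sound parWF r2 pf45732 h45732
  have h45734 := checkRangeG_sound parWF r2 pf45733 h45733
  have h45735 := checkRangeG_sound parWF r2 pf45734 h45734
  have h45736 := checkRangeG_sound parWF r2 pf45735 h45735
  have h45737 := checkRangeG_sound parWF r2 pf45736 h45736
  have h45738 := checkRangeG_sound parWF r2 pf45737 h45737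
  have h45739 := checkRangeG_sound parWF r2 pf45738 h45738
  have h45740 := checkRangeG_sound parWF r2 pf45739 h45739
  have h45741 := checkRangeG_sound parWF r2 pf45740 h45740
  have h45742 := checkRangeG_sound parWF r2 pf45741 h45741
  have h45743 := checkRangeG_sound parWF r2 pf45742 h45742
  have h45744 := checkRangeG_sound parWF r2 pf45743 h45743
  have h45745 := checkRangeG_sound parWF r2 pf45744 h45744
  have h45746 := checkRangeG_sound parWF r2 pf45745 h45745
  have h45747 := checkRangeG_sound parWF r2 pf45746 h45746
  have h45748 := checkRangeG_sound parWF r2 pf45747 h45747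
  have h45749 := checkRangeG_sound parWF r2 pf45748 h45748
  have h45750 := checkRangeG_sound parWF r2 pf45749 h45749
  exact h45750

theorem c915 (h45750 : ∀ j, j < 159532 → GoodG.{u} par (db j)) : ∀ j, j < 159711 → GoodG.{u} par (db j) := by
  have h45751 := checkRangeG_sound parWF r2 pf45750 h45750
  have h45752 := checkRangeG_sound parWF r2 pf45751 h45751
  have h45753 := checkRangeG_sound parWF r2 pf45752 h45752
  have h45754 := checkRangeG_sound parWF r2 pf45753 h45753
  have h45755 := checkRangeG_sound parWF r2 pf45754 h45754
  have h45756 := checkRangeG_sound parWF r2 pf45755 h45755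
  have h45757 := checkRangeG_sound parWF r2 pf45756 h45756
  have h45758 := checkRangeG_sound parWF r2 pf45757 h45757
  have h45759 := checkRangeG_sound parWF r2 pf45758 h45758
  have h45760 := checkRangeG_sound parWF r2 pf45759 h45759
  have h45761 := checkRangeG_sound parWF r2 pf45760 h45760
  have h45762 := checkRangeG_sound parWF r2 pf45761 h45761
  have h45763 := checkRangeG_sound parWF r2 pf45762 h45762
  have h45764 := checkRangeG_sound parWF r2 pf45763 h45763
  have h45765 := checkRangeG_sound parWF r2 pf45764 h45764
  have h45766 := checkRangeG_sound parWF r2 pf45765 h45765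
  have h45767 := checkRangeG_sound parWF r2 pf45766 h45766
  have h45768 := checkRangeG_sound parWF r2 pf45767 h45767
  have h45769 := checkRangeG_sound parWF r2 pf45768 h45768
  have h45770 := checkRangeG_sound parWF r2 pf45769 h45769
  have h45771 := checkRangeG_sound parWF r2 pf45770 h45770
  have h45772 := checkRangeG_sound parWF r2 pf45771 h45771
  have h45773 := checkRangeG_sound parWF r2 pf45772 h45772
  have h45774 := checkRangeG_sound parWF r2 pf45773 h45773
  have h45775 := checkRangeG_sound parWF r2 pf45774 h45774
  have h45776 := checkRangeG_sound parWF r2 pf45775 h45775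
  have h45777 := checkRangeG_sound parWF r2 pf45776 h45776
  have h45778 := checkRangeG_sound parWF r2 pf45777 h45777
  have h45779 := checkRangeG_sound parWF r2 pf45778 h45778
  have h45780 := checkRangeG_sound parWF r2 pf45779 h45779
  have h45781 := checkRangeG_sound parWF r2 pf45780 h45780
  have h45782 := checkRangeG_sound parWF r2 pf45781 h45781
  have h45783 := checkRangeG_sound parWF r2 pf45782 h45782
  have h45784 := checkRangeG_sound parWF r2 pf45783 h45783
  have h45785 := checkRangeG_sound parWF r2 pf45784 h45784
  have h45786 := checkRangeG_sound parWF r2 pf45785 h45785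
  have h45787 := checkRangeG_sound parWF r2 pf45786 h45786
  have h45788 := checkRangeG_sound parWF r2 pf45787 h45787
  have h45789 := checkRangeG_sound parWF r2 pf45788 h45788
  have h45790 := checkRangeG_sound parWF r2 pf45789 h45789
  have h45791 := checkRangeG_sound parWF r2 pf45790 h45790
  have h45792 := checkRangeG_sound parWF r2 pf45791 h45791
  have h45793 := checkRangeG_sound parWF r2 pf45792 h45792
  have h45794 := checkRangeG_sound parWF r2 pf45793 h45793
  have h45795 := checkRangeG_sound parWF r2 pf45794 h45794
  have h45796 := checkRangeG_sound parWF r2 pf45795 h45795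
  have h45797 := checkRangeG_sound parWF r2 pf45796 h45796
  have h45798 := checkRangeG_sound parWF r2 pf45797 h45797
  have h45799 := checkRangeG_sound parWF r2 pf45798 h45798
  have h45800 := checkRangeG_sound parWF r2 pf45799 h45799
  exact h45800

theorem c916 (h45800 : ∀ j, j < 159711 → GoodG.{u} par (db j)) : ∀ j, j < 159910 → GoodG.{u} par (db j) := by
  have h45801 := checkRangeG_sound parWF r2 pf45800 h45800
  have h45802 := checkRangeG_sound parWF r2 pf45801 h45801
  have h45803 := checkRangeG_sound parWF r2 pf45802 h45802
  have h45804 := checkRangeG_sound parWF r2 pf45803 h45803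
  have h45805 := checkRangeG_sound parWF r2 pf45804 h45804
  have h45806 := checkRangeG_sound parWF r2 pf45805 h45805
  have h45807 := checkRangeG_sound parWF r2 pf45806 h45806
  have h45808 := checkRangeG_sound parWF r2 pf45807 h45807
  have h45809 := checkRangeG_sound parWF r2 pf45808 h45808
  have h45810 := checkRangeG_sound parWF r2 pf45809 h45809
  have h45811 := checkRangeG_sound parWF r2 pf45810 h45810
  have h45812 := checkRangeG_sound parWF r2 pf45811 h45811
  have h45813 := checkRangeG_sound parWF r2 pf45812 h45812
  have h45814 := checkRangeG_sound parWF r2 pf45813 h45813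
  have h45815 := checkRangeG_sound parWF r2 pf45814 h45814
  have h45816 := checkRangeG_sound parWF r2 pf45815 h45815
  have h45817 := checkRangeG_sound parWF r2 pf45816 h45816
  have h45818 := checkRangeG_sound parWF r2 pf45817 h45817
  have h45819 := checkRangeG_sound parWF r2 pf45818 h45818
  have h45820 := checkRangeG_sound parWF r2 pf45819 h45819
  have h45821 := checkRangeG_sound parWF r2 pf45820 h45820
  have h45822 := checkRangeG_sound parWF r2 pf45821 h45821
  have h45823 := checkRangeG_sound parWF r2 pf45822 h45822
  have h45824 := checkRangeG_sound parWF r2 pf45823 h45823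
  have h45825 := checkRangeG_sound parWF r2 pf45824 h45824
  have h45826 := checkRangeG_sound parWF r2 pf45825 h45825
  have h45827 := checkRangeG_sound parWF r2 pf45826 h45826
  have h45828 := checkRangeG_sound parWF r2 pf45827 h45827
  have h45829 := checkRangeG_sound parWF r2 pf45828 h45828
  have h45830 := checkRangeG_sound parWF r2 pf45829 h45829
  have h45831 := checkRangeG_sound parWF r2 pf45830 h45830
  have h45832 := checkRangeG_sound parWF r2 pf45831 h45831
  have h45833 := checkRangeG_sound parWF r2 pf45832 h45832
  have h45834 := checkRangeG_sound parWF r2 pf45833 h45833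
  have h45835 := checkRangeG_sound parWF r2 pf45834 h45834
  have h45836 := checkRangeG_sound parWF r2 pf45835 h45835
  have h45837 := checkRangeG_sound parWF r2 pf45836 h45836
  have h45838 := checkRangeG_sound parWF r2 pf45837 h45837
  have h45839 := checkRangeG_sound parWF r2 pf45838 h45838
  have h45840 := checkRangeG_sound parWF r2 pf45839 h45839
  have h45841 := checkRangeG_sound parWF r2 pf45840 h45840
  have h45842 := checkRangeG_sound parWF r2 pf45841 h45841
  have h45843 := checkRangeG_sound parWF r2 pf45842 h45842
  have h45844 := checkRangeG_sound parWF r2 pf45843 h45843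
  have h45845 := checkRangeG_sound parWF r2 pf45844 h45844
  have h45846 := checkRangeG_sound parWF r2 pf45845 h45845
  have h45847 := checkRangeG_sound parWF r2 pf45846 h45846
  have h45848 := checkRangeG_sound parWF r2 pf45847 h45847
  have h45849 := checkRangeG_sound parWF r2 pf45848 h45848
  have h45850 := checkRangeG_sound parWF r2 pf45849 h45849
  exact h45850

theorem c917 (h45850 : ∀ j, j < 159910 → GoodG.{u} par (db j)) : ∀ j, j < 160141 → GoodG.{u} par (db j) := by
  have h45851 := checkRangeG_sound parWF r2 pf45850 h45850
  have h45852 := checkRangeG_sound parWF r2 pf45851 h45851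
  have h45853 := checkRangeG_sound parWF r2 pf45852 h45852
  have h45854 := checkRangeG_sound parWF r2 pf45853 h45853
  have h45855 := checkRangeG_sound parWF r2 pf45854 h45854
  have h45856 := checkRangeG_sound parWF r2 pf45855 h45855
  have h45857 := checkRangeG_sound parWF r2 pf45856 h45856
  have h45858 := checkRangeG_sound parWF r2 pf45857 h45857
  have h45859 := checkRangeG_sound parWF r2 pf45858 h45858
  have h45860 := checkRangeG_sound parWF r2 pf45859 h45859
  have h45861 := checkRangeG_sound parWF r2 pf45860 h45860
  have h45862 := checkRangeG_sound parWF r2 pf45861 h45861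
  have h45863 := checkRangeG_sound parWF r2 pf45862 h45862
  have h45864 := checkRangeG_sound parWF r2 pf45863 h45863
  have h45865 := checkRangeG_sound parWF r2 pf45864 h45864
  have h45866 := checkRangeG_sound parWF r2 pf45865 h45865
  have h45867 := checkRangeG_sound parWF r2 pf45866 h45866
  have h45868 := checkRangeG_sound parWF r2 pf45867 h45867
  have h45869 := checkRangeG_sound parWF r2 pf45868 h45868
  have h45870 := checkRangeG_sound parWF r2 pf45869 h45869
  have h45871 := checkRangeG_sound parWF r2 pf45870 h45870
  have h45872 := checkRangeG_sound parWF r2 pf45871 h45871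
  have h45873 := checkRangeG_sound parWF r2 pf45872 h45872
  have h45874 := checkRangeG_sound parWF r2 pf45873 h45873
  have h45875 := checkRangeG_sound parWF r2 pf45874 h45874
  have h45876 := checkRangeG_sound parWF r2 pf45875 h45875
  have h45877 := checkRangeG_sound parWF r2 pf45876 h45876
  have h45878 := checkRangeG_sound parWF r2 pf45877 h45877
  have h45879 := checkRangeG_sound parWF r2 pf45878 h45878
  have h45880 := checkRangeG_sound parWF r2 pf45879 h45879
  have h45881 := checkRangeG_sound parWF r2 pf45880 h45880
  have h45882 := checkRangeG_sound parWF r2 pf45881 h45881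
  have h45883 := checkRangeG_sound parWF r2 pf45882 h45882
  have h45884 := checkRangeG_sound parWF r2 pf45883 h45883
  have h45885 := checkRangeG_sound parWF r2 pf45884 h45884
  have h45886 := checkRangeG_sound parWF r2 pf45885 h45885
  have h45887 := checkRangeG_sound parWF r2 pf45886 h45886
  have h45888 := checkRangeG_sound parWF r2 pf45887 h45887
  have h45889 := checkRangeG_sound parWF r2 pf45888 h45888
  have h45890 := checkRangeG_sound parWF r2 pf45889 h45889
  have h45891 := checkRangeG_sound parWF r2 pf45890 h45890
  have h45892 := checkRangeG_sound parWF r2 pf45891 h45891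
  have h45893 := checkRangeG_sound parWF r2 pf45892 h45892
  have h45894 := checkRangeG_sound parWF r2 pf45893 h45893
  have h45895 := checkRangeG_sound parWF r2 pf45894 h45894
  have h45896 := checkRangeG_sound parWF r2 pf45895 h45895
  have h45897 := checkRangeG_sound parWF r2 pf45896 h45896
  have h45898 := checkRangeG_sound parWF r2 pf45897 h45897
  have h45899 := checkRangeG_sound parWF r2 pf45898 h45898
  have h45900 := checkRangeG_sound parWF r2 pf45899 h45899
  exact h45900

theorem c918 (h45900 : ∀ j, j < 160141 → GoodG.{u} par (db j)) : ∀ j, j < 160357 → GoodG.{u} par (db j) := by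
  have h45901 := checkRangeG_sound parWF r2 pf45900 h45900
  have h45902 := checkRangeG_sound parWF r2 pf45901 h45901
  have h45903 := checkRangeG_sound parWF r2 pf45902 h45902
  have h45904 := checkRangeG_sound parWF r2 pf45903 h45903
  have h45905 := checkRangeG_sound parWF r2 pf45904 h45904
  have h45906 := checkRangeG_sound parWF r2 pf45905 h45905
  have h45907 := checkRangeG_sound parWF r2 pf45906 h45906
  have h45908 := checkRangeG_sound parWF r2 pf45907 h45907
  have h45909 := checkRangeG_sound parWF r2 pf45908 h45908
  have h45910 := checkRangeG_sound parWF r2 pf45909 h45909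
  have h45911 := checkRangeG_sound parWF r2 pf45910 h45910
  have h45912 := checkRangeG_sound parWF r2 pf45911 h45911
  have h45913 := checkRangeG_sound parWF r2 pf45912 h45912
  have h45914 := checkRangeG_sound parWF r2 pf45913 h45913
  have h45915 := checkRangeG_sound parWF r2 pf45914 h45914
  have h45916 := checkRangeG_sound parWF r2 pf45915 h45915
  have h45917 := checkRangeG_sound parWF r2 pf45916 h45916
  have h45918 := checkRangeG_sound parWF r2 pf45917 h45917
  have h45919 := checkRangeG_sound parWF r2 pf45918 h45918
  have h45920 := checkRangeG_sound parWF r2 pf45919 h45919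
  have h45921 := checkRangeG_sound parWF r2 pf45920 h45920
  have h45922 := checkRangeG_sound parWF r2 pf45921 h45921
  have h45923 := checkRangeG_sound parWF r2 pf45922 h45922
  have h45924 := checkRangeG_sound parWF r2 pf45923 h45923
  have h45925 := checkRangeG_sound parWF r2 pf45924 h45924
  have h45926 := checkRangeG_sound parWF r2 pf45925 h45925
  have h45927 := checkRangeG_sound parWF r2 pf45926 h45926
  have h45928 := checkRangeG_sound parWF r2 pf45927 h45927
  have h45929 := checkRangeG_sound parWF r2 pf45928 h45928
  have h45930 := checkRangeG_sound parWF r2 pf45929 h45929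
  have h45931 := checkRangeG_sound parWF r2 pf45930 h45930
  have h45932 := checkRangeG_sound parWF r2 pf45931 h45931
  have h45933 := checkRangeG_sound parWF r2 pf45932 h45932
  have h45934 := checkRangeG_sound parWF r2 pf45933 h45933
  have h45935 := checkRangeG_sound parWF r2 pf45934 h45934
  have h45936 := checkRangeG_sound parWF r2 pf45935 h45935
  have h45937 := checkRangeG_sound parWF r2 pf45936 h45936
  have h45938 := checkRangeG_sound parWF r2 pf45937 h45937
  have h45939 := checkRangeG_sound parWF r2 pf45938 h45938
  have h45940 := checkRangeG_sound parWF r2 pf45939 h45939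
  have h45941 := checkRangeG_sound parWF r2 pf45940 h45940
  have h45942 := checkRangeG_sound parWF r2 pf45941 h45941
  have h45943 := checkRangeG_sound parWF r2 pf45942 h45942
  have h45944 := checkRangeG_sound parWF r2 pf45943 h45943
  have h45945 := checkRangeG_sound parWF r2 pf45944 h45944
  have h45946 := checkRangeG_sound parWF r2 pf45945 h45945
  have h45947 := checkRangeG_sound parWF r2 pf45946 h45946
  have h45948 := checkRangeG_sound parWF r2 pf45947 h45947
  have h45949 := checkRangeG_sound parWF r2 pf45948 h45948
  have h45950 := checkRangeG_sound parWF r2 pf45949 h45949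
  exact h45950

theorem c919 (h45950 : ∀ j, j < 160357 → GoodG.{u} par (db j)) : ∀ j, j < 160550 → GoodG.{u} par (db j) := by
  have h45951 := checkRangeG_sound parWF r2 pf45950 h45950
  have h45952 := checkRangeG_sound parWF r2 pf45951 h45951
  have h45953 := checkRangeG_sound parWF r2 pf45952 h45952
  have h45954 := checkRangeG_sound parWF r2 pf45953 h45953
  have h45955 := checkRangeG_sound parWF r2 pf45954 h45954
  have h45956 := checkRangeG_sound parWF r2 pf45955 h45955
  have h45957 := checkRangeG_sound parWF r2 pf45956 h45956
  have h45958 := checkRangeG_sound parWF r2 pf45957 h45957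
  have h45959 := checkRangeG_sound parWF r2 pf45958 h45958
  have h45960 := checkRangeG_sound parWF r2 pf45959 h45959
  have h45961 := checkRangeG_sound parWF r2 pf45960 h45960
  have h45962 := checkRangeG_sound parWF r2 pf45961 h45961
  have h45963 := checkRangeG_sound parWF r2 pf45962 h45962
  have h45964 := checkRangeG_sound parWF r2 pf45963 h45963
  have h45965 := checkRangeG_sound parWF r2 pf45964 h45964
  have h45966 := checkRangeG_sound parWF r2 pf45965 h45965
  have h45967 := checkRangeG_sound parWF r2 pf45966 h45966
  have h45968 := checkRangeG_sound parWF r2 pf45967 h45967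
  have h45969 := checkRangeG_sound parWF r2 pf45968 h45968
  have h45970 := checkRangeG_sound parWF r2 pf45969 h45969
  have h45971 := checkRangeG_sound parWF r2 pf45970 h45970
  have h45972 := checkRangeG_sound parWF r2 pf45971 h45971
  have h45973 := checkRangeG_sound parWF r2 pf45972 h45972
  have h45974 := checkRangeG_sound parWF r2 pf45973 h45973
  have h45975 := checkRangeG_sound parWF r2 pf45974 h45974
  have h45976 := checkRangeG_sound parWF r2 pf45975 h45975
  have h45977 := checkRangeG_sound parWF r2 pf45976 h45976
  have h45978 := checkRangeG_sound parWF r2 pf45977 h45977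
  have h45979 := checkRangeG_sound parWF r2 pf45978 h45978
  have h45980 := checkRangeG_sound parWF r2 pf45979 h45979
  have h45981 := checkRangeG_sound parWF r2 pf45980 h45980
  have h45982 := checkRangeG_sound parWF r2 pf45981 h45981
  have h45983 := checkRangeG_sound parWF r2 pf45982 h45982
  have h45984 := checkRangeG_sound parWF r2 pf45983 h45983
  have h45985 := checkRangeG_sound parWF r2 pf45984 h45984
  have h45986 := checkRangeG_sound parWF r2 pf45985 h45985
  have h45987 := checkRangeG_sound parWF r2 pf45986 h45986
  have h45988 := checkRangeG_sound parWF r2 pf45987 h45987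
  have h45989 := checkRangeG_sound parWF r2 pf45988 h45988
  have h45990 := checkRangeG_sound parWF r2 pf45989 h45989
  have h45991 := checkRangeG_sound parWF r2 pf45990 h45990
  have h45992 := checkRangeG_sound parWF r2 pf45991 h45991
  have h45993 := checkRangeG_sound parWF r2 pf45992 h45992
  have h45994 := checkRangeG_sound parWF r2 pf45993 h45993
  have h45995 := checkRangeG_sound parWF r2 pf45994 h45994
  have h45996 := checkRangeG_sound parWF r2 pf45995 h45995
  have h45997 := checkRangeG_sound parWF r2 pf45996 h45996
  have h45998 := checkRangeG_sound parWF r2 pf45997 h45997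
  have h45999 := checkRangeG_sound parWF r2 pf45998 h45998
  have h46000 := checkRangeG_sound parWF r2 pf45999 h45999
  exact h46000

theorem c920 (h46000 : ∀ j, j < 160550 → GoodG.{u} par (db j)) : ∀ j, j < 160729 → GoodG.{u} par (db j) := by
  have h46001 := checkRangeG_sound parWF r2 pf46000 h46000
  have h46002 := checkRangeG_sound parWF r2 pf46001 h46001
  have h46003 := checkRangeG_sound parWF r2 pf46002 h46002
  have h46004 := checkRangeG_sound parWF r2 pf46003 h46003
  have h46005 := checkRangeG_sound parWF r2 pf46004 h46004
  have h46006 := checkRangeG_sound parWF r2 pf46005 h46005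
  have h46007 := checkRangeG_sound parWF r2 pf46006 h46006
  have h46008 := checkRangeG_sound parWF r2 pf46007 h46007
  have h46009 := checkRangeG_sound parWF r2 pf46008 h46008
  have h46010 := checkRangeG_sound parWF r2 pf46009 h46009
  have h46011 := checkRangeG_sound parWF r2 pf46010 h46010
  have h46012 := checkRangeG_sound parWF r2 pf46011 h46011
  have h46013 := checkRangeG_sound parWF r2 pf46012 h46012
  have h46014 := checkRangeG_sound parWF r2 pf46013 h46013
  have h46015 := checkRangeG_sound parWF r2 pf46014 h46014
  have h46016 := checkRangeG_sound parWF r2 pf46015 h46015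
  have h46017 := checkRangeG_sound parWF r2 pf46016 h46016
  have h46018 := checkRangeG_sound parWF r2 pf46017 h46017
  have h46019 := checkRangeG_sound parWF r2 pf46018 h46018
  have h46020 := checkRangeG_sound parWF r2 pf46019 h46019
  have h46021 := checkRangeG_sound parWF r2 pf46020 h46020
  have h46022 := checkRangeG_sound parWF r2 pf46021 h46021
  have h46023 := checkRangeG_sound parWF r2 pf46022 h46022
  have h46024 := checkRangeG_sound parWF r2 pf46023 h46023
  have h46025 := checkRangeG_sound parWF r2 pf46024 h46024
  have h46026 := checkRangeG_sound parWF r2 pf46025 h46025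
  have h46027 := checkRangeG_sound parWF r2 pf46026 h46026
  have h46028 := checkRangeG_sound parWF r2 pf46027 h46027
  have h46029 := checkRangeG_sound parWF r2 pf46028 h46028
  have h46030 := checkRangeG_sound parWF r2 pf46029 h46029
  have h46031 := checkRangeG_sound parWF r2 pf46030 h46030
  have h46032 := checkRangeG_sound parWF r2 pf46031 h46031
  have h46033 := checkRangeG_sound parWF r2 pf46032 h46032
  have h46034 := checkRangeG_sound parWF r2 pf46033 h46033
  have h46035 := checkRangeG_sound parWF r2 pf46034 h46034
  have h46036 := checkRangeG_sound parWF r2 pf46035 h46035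
  have h46037 := checkRangeG_sound parWF r2 pf46036 h46036
  have h46038 := checkRangeG_sound parWF r2 pf46037 h46037
  have h46039 := checkRangeG_sound parWF r2 pf46038 h46038
  have h46040 := checkRangeG_sound parWF r2 pf46039 h46039
  have h46041 := checkRangeG_sound parWF r2 pf46040 h46040
  have h46042 := checkRangeG_sound parWF r2 pf46041 h46041
  have h46043 := checkRangeG_sound parWF r2 pf46042 h46042
  have h46044 := checkRangeG_sound parWF r2 pf46043 h46043
  have h46045 := checkRangeG_sound parWF r2 pf46044 h46044
  have h46046 := checkRangeG_sound parWF r2 pf46045 h46045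
  have h46047 := checkRangeG_sound parWF r2 pf46046 h46046
  have h46048 := checkRangeG_sound parWF r2 pf46047 h46047
  have h46049 := checkRangeG_sound parWF r2 pf46048 h46048
  have h46050 := checkRangeG_sound parWF r2 pf46049 h46049
  exact h46050

theorem c921 (h46050 : ∀ j, j < 160729 → GoodG.{u} par (db j)) : ∀ j, j < 160935 → GoodG.{u} par (db j) := by
  have h46051 := checkRangeG_sound parWF r2 pf46050 h46050
  have h46052 := checkRangeG_sound parWF r2 pf46051 h46051
  have h46053 := checkRangeG_sound parWF r2 pf46052 h46052
  have h46054 := checkRangeG_sound parWF r2 pf46053 h46053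
  have h46055 := checkRangeG_sound parWF r2 pf46054 h46054
  have h46056 := checkRangeG_sound parWF r2 pf46055 h46055
  have h46057 := checkRangeG_sound parWF r2 pf46056 h46056
  have h46058 := checkRangeG_sound parWF r2 pf46057 h46057
  have h46059 := checkRangeG_sound parWF r2 pf46058 h46058
  have h46060 := checkRangeG_sound parWF r2 pf46059 h46059
  have h46061 := checkRangeG_sound parWF r2 pf46060 h46060
  have h46062 := checkRangeG_sound parWF r2 pf46061 h46061
  have h46063 := checkRangeG_sound parWF r2 pf46062 h46062
  have h46064 := checkRangeG_sound parWF r2 pf46063 h46063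
  have h46065 := checkRangeG_sound parWF r2 pf46064 h46064
  have h46066 := checkRangeG_sound parWF r2 pf46065 h46065
  have h46067 := checkRangeG_sound parWF r2 pf46066 h46066
  have h46068 := checkRangeG_sound parWF r2 pf46067 h46067
  have h46069 := checkRangeG_sound parWF r2 pf46068 h46068
  have h46070 := checkRangeG_sound parWF r2 pf46069 h46069
  have h46071 := checkRangeG_sound parWF r2 pf46070 h46070
  have h46072 := checkRangeG_sound parWF r2 pf46071 h46071
  have h46073 := checkRangeG_sound parWF r2 pf46072 h46072
  have h46074 := checkRangeG_sound parWF r2 pf46073 h46073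
  have h46075 := checkRangeG_sound parWF r2 pf46074 h46074
  have h46076 := checkRangeG_sound parWF r2 pf46075 h46075
  have h46077 := checkRangeG_sound parWF r2 pf46076 h46076
  have h46078 := checkRangeG_sound parWF r2 pf46077 h46077
  have h46079 := checkRangeG_sound parWF r2 pf46078 h46078
  have h46080 := checkRangeG_sound parWF r2 pf46079 h46079
  have h46081 := checkRangeG_sound parWF r2 pf46080 h46080
  have h46082 := checkRangeG_sound parWF r2 pf46081 h46081
  have h46083 := checkRangeG_sound parWF r2 pf46082 h46082
  have h46084 := checkRangeG_sound parWF r2 pf46083 h46083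
  have h46085 := checkRangeG_sound parWF r2 pf46084 h46084
  have h46086 := checkRangeG_sound parWF r2 pf46085 h46085
  have h46087 := checkRangeG_sound parWF r2 pf46086 h46086
  have h46088 := checkRangeG_sound parWF r2 pf46087 h46087
  have h46089 := checkRangeG_sound parWF r2 pf46088 h46088
  have h46090 := checkRangeG_sound parWF r2 pf46089 h46089
  have h46091 := checkRangeG_sound parWF r2 pf46090 h46090
  have h46092 := checkRangeG_sound parWF r2 pf46091 h46091
  have h46093 := checkRangeG_sound parWF r2 pf46092 h46092
  have h46094 := checkRangeG_sound parWF r2 pf46093 h46093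
  have h46095 := checkRangeG_sound parWF r2 pf46094 h46094
  have h46096 := checkRangeG_sound parWF r2 pf46095 h46095
  have h46097 := checkRangeG_sound parWF r2 pf46096 h46096
  have h46098 := checkRangeG_sound parWF r2 pf46097 h46097
  have h46099 := checkRangeG_sound parWF r2 pf46098 h46098
  have h46100 := checkRangeG_sound parWF r2 pf46099 h46099
  exact h46100

theorem c922 (h46100 : ∀ j, j < 160935 → GoodG.{u} par (db j)) : ∀ j, j < 161131 → GoodG.{u} par (db j) := by
  have h46101 := checkRangeG_sound parWF r2 pf46100 h46100
  have h46102 := checkRangeG_sound parWF r2 pf46101 h46101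
  have h46103 := checkRangeG_sound parWF r2 pf46102 h46102
  have h46104 := checkRangeG_sound parWF r2 pf46103 h46103
  have h46105 := checkRangeG_sound parWF r2 pf46104 h46104
  have h46106 := checkRangeG_sound parWF r2 pf46105 h46105
  have h46107 := checkRangeG_sound parWF r2 pf46106 h46106
  have h46108 := checkRangeG_sound parWF r2 pf46107 h46107
  have h46109 := checkRangeG_sound parWF r2 pf46108 h46108
  have h46110 := checkRangeG_sound parWF r2 pf46109 h46109
  have h46111 := checkRangeG_sound parWF r2 pf46110 h46110
  have h46112 := checkRangeG_sound parWF r2 pf46111 h46111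
  have h46113 := checkRangeG_sound parWF r2 pf46112 h46112
  have h46114 := checkRangeG_sound parWF r2 pf46113 h46113
  have h46115 := checkRangeG_sound parWF r2 pf46114 h46114
  have h46116 := checkRangeG_sound parWF r2 pf46115 h46115
  have h46117 := checkRangeG_sound parWF r2 pf46116 h46116
  have h46118 := checkRangeG_sound parWF r2 pf46117 h46117
  have h46119 := checkRangeG_sound parWF r2 pf46118 h46118
  have h46120 := checkRangeG_sound parWF r2 pf46119 h46119
  have h46121 := checkRangeG_sound parWF r2 pf46120 h46120
  have h46122 := checkRangeG_sound parWF r2 pf46121 h46121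
  have h46123 := checkRangeG_sound parWF r2 pf46122 h46122
  have h46124 := checkRangeG_sound parWF r2 pf46123 h46123
  have h46125 := checkRangeG_sound parWF r2 pf46124 h46124
  have h46126 := checkRangeG_sound parWF r2 pf46125 h46125
  have h46127 := checkRangeG_sound parWF r2 pf46126 h46126
  have h46128 := checkRangeG_sound parWF r2 pf46127 h46127
  have h46129 := checkRangeG_sound parWF r2 pf46128 h46128
  have h46130 := checkRangeG_sound parWF r2 pf46129 h46129
  have h46131 := checkRangeG_sound parWF r2 pf46130 h46130
  have h46132 := checkRangeG_sound parWF r2 pf46131 h46131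
  have h46133 := checkRangeG_sound parWF r2 pf46132 h46132
  have h46134 := checkRangeG_sound parWF r2 pf46133 h46133
  have h46135 := checkRangeG_sound parWF r2 pf46134 h46134
  have h46136 := checkRangeG_sound parWF r2 pf46135 h46135
  have h46137 := checkRangeG_sound parWF r2 pf46136 h46136
  have h46138 := checkRangeG_sound parWF r2 pf46137 h46137
  have h46139 := checkRangeG_sound parWF r2 pf46138 h46138
  have h46140 := checkRangeG_sound parWF r2 pf46139 h46139
  have h46141 := checkRangeG_sound parWF r2 pf46140 h46140
  have h46142 := checkRangeG_sound parWF r2 pf46141 h46141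
  have h46143 := checkRangeG_sound parWF r2 pf46142 h46142
  have h46144 := checkRangeG_sound parWF r2 pf46143 h46143
  have h46145 := checkRangeG_sound parWF r2 pf46144 h46144
  have h46146 := checkRangeG_sound parWF r2 pf46145 h46145
  have h46147 := checkRangeG_sound parWF r2 pf46146 h46146
  have h46148 := checkRangeG_sound parWF r2 pf46147 h46147
  have h46149 := checkRangeG_sound parWF r2 pf46148 h46148
  have h46150 := checkRangeG_sound parWF r2 pf46149 h46149
  exact h46150

theorem c923 (h46150 : ∀ j, j < 161131 → GoodG.{u} par (db j)) : ∀ j, j < 161352 → GoodG.{u} par (db j) := by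
  have h46151 := checkRangeG_sound parWF r2 pf46150 h46150
  have h46152 := checkRangeG_sound parWF r2 pf46151 h46151
  have h46153 := checkRangeG_sound parWF r2 pf46152 h46152
  have h46154 := checkRangeG_sound parWF r2 pf46153 h46153
  have h46155 := checkRangeG_sound parWF r2 pf46154 h46154
  have h46156 := checkRangeG_sound parWF r2 pf46155 h46155
  have h46157 := checkRangeG_sound parWF r2 pf46156 h46156
  have h46158 := checkRangeG_sound parWF r2 pf46157 h46157
  have h46159 := checkRangeG_sound parWF r2 pf46158 h46158
  have h46160 := checkRangeG_sound parWF r2 pf46159 h46159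
  have h46161 := checkRangeG_sound parWF r2 pf46160 h46160
  have h46162 := checkRangeG_sound parWF r2 pf46161 h46161
  have h46163 := checkRangeG_sound parWF r2 pf46162 h46162
  have h46164 := checkRangeG_sound parWF r2 pf46163 h46163
  have h46165 := checkRangeG_sound parWF r2 pf46164 h46164
  have h46166 := checkRangeG_sound parWF r2 pf46165 h46165
  have h46167 := checkRangeG_sound parWF r2 pf46166 h46166
  have h46168 := checkRangeG_sound parWF r2 pf46167 h46167
  have h46169 := checkRangeG_sound parWF r2 pf46168 h46168
  have h46170 := checkRangeG_sound parWF r2 pf46169 h46169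
  have h46171 := checkRangeG_sound parWF r2 pf46170 h46170
  have h46172 := checkRangeG_sound parWF r2 pf46171 h46171
  have h46173 := checkRangeG_sound parWF r2 pf46172 h46172
  have h46174 := checkRangeG_sound parWF r2 pf46173 h46173
  have h46175 := checkRangeG_sound parWF r2 pf46174 h46174
  have h46176 := checkRangeG_sound parWF r2 pf46175 h46175
  have h46177 := checkRangeG_sound parWF r2 pf46176 h46176
  have h46178 := checkRangeG_sound parWF r2 pf46177 h46177
  have h46179 := checkRangeG_sound parWF r2 pf46178 h46178
  have h46180 := checkRangeG_sound parWF r2 pf46179 h46179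
  have h46181 := checkRangeG_sound parWF r2 pf46180 h46180
  have h46182 := checkRangeG_sound parWF r2 pf46181 h46181
  have h46183 := checkRangeG_sound parWF r2 pf46182 h46182
  have h46184 := checkRangeG_sound parWF r2 pf46183 h46183
  have h46185 := checkRangeG_sound parWF r2 pf46184 h46184
  have h46186 := checkRangeG_sound parWF r2 pf46185 h46185
  have h46187 := checkRangeG_sound parWF r2 pf46186 h46186
  have h46188 := checkRangeG_sound parWF r2 pf46187 h46187
  have h46189 := checkRangeG_sound parWF r2 pf46188 h46188
  have h46190 := checkRangeG_sound parWF r2 pf46189 h46189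
  have h46191 := checkRangeG_sound parWF r2 pf46190 h46190
  have h46192 := checkRangeG_sound parWF r2 pf46191 h46191
  have h46193 := checkRangeG_sound parWF r2 pf46192 h46192
  have h46194 := checkRangeG_sound parWF r2 pf46193 h46193
  have h46195 := checkRangeG_sound parWF r2 pf46194 h46194
  have h46196 := checkRangeG_sound parWF r2 pf46195 h46195
  have h46197 := checkRangeG_sound parWF r2 pf46196 h46196
  have h46198 := checkRangeG_sound parWF r2 pf46197 h46197
  have h46199 := checkRangeG_sound parWF r2 pf46198 h46198
  have h46200 := checkRangeG_sound parWF r2 pf46199 h46199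
  exact h46200


end Vale.Agent.P045g.C61
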