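import Vale.Agent.P045g.C61.WF
import Vale.Agent.P045g.C61.Pf770
import Vale.Agent.P045g.C61.Pf771
import Vale.Agent.P045g.C61.Pf772
import Vale.Agent.P045g.C61.Pf773
import Vale.Agent.P045g.C61.Pf774
import Vale.Agent.P045g.C61.Pf775
import Vale.Agent.P045g.C61.Pf776
import Vale.Agent.P045g.C61.Pf777
import Vale.Agent.P045g.C61.Pf778
import Vale.Agent.P045g.C61.Pf779

namespace Vale.Agent.P045g.C61

open Vale.Agent.P045b Vale.Agent.P045g

universe u

theorem c924 (h46200 : ∀ j, j < 161352 → GoodG.{u} par (db j)) : ∀ j, j < 161580 → GoodG.{u} par (db j) := by
  have h46201 := checkRangeG_sound parWF r2 pf46200 h46200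
  have h46202 := checkRangeG_sound parWF r2 pf46201 h46201
  have h46203 := checkRangeG_sound parWF r2 pf46202 h46202
  have h46204 := checkRangeG_sound parWF r2 pf46203 h46203
  have h46205 := checkRangeG_sound parWF r2 pf46204 h46204
  have h46206 := checkRangeG_sound parWF r2 pf46205 h46205
  have h46207 := checkRangeG_sound parWF r2 pf46206 h46206
  have h46208 := checkRangeG_sound parWF r2 pf46207 h46207
  have h46209 := checkRangeG_sound parWF r2 pf46208 h46208
  have h46210 := checkRangeG_sound parWF r2 pf46209 h46209
  have h46211 := checkRangeG_sound parWF r2 pf46210 h46210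
  have h46212 := checkRangeG_sound parWF r2 pf46211 h46211
  have h46213 := checkRangeG_sound parWF r2 pf46212 h46212
  have h46214 := checkRangeG_sound parWF r2 pf46213 h46213
  have h46215 := checkRangeG_sound parWF r2 pf46214 h46214
  have h46216 := checkRangeG_sound parWF r2 pf46215 h46215
  have h46217 := checkRangeG_sound parWF r2 pf46216 h46216
  have h46218 := checkRangeG_sound parWF r2 pf46217 h46217
  have h46219 := checkRangeG_sound parWF r2 pf46218 h46218
  have h46220 := checkRangeG_sound parWF r2 pf46219 h46219
  have h46221 := checkRangeG_sound parWF r2 pf46220 h46220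
  have h46222 := checkRangeG_sound parWF r2 pf46221 h46221
  have h46223 := checkRangeG_sound parWF r2 pf46222 h46222
  have h46224 := checkRangeG_sound parWF r2 pf46223 h46223
  have h46225 := checkRangeG_sound parWF r2 pf46224 h46224
  have h46226 := checkRangeG_sound parWF r2 pf46225 h46225
  have h46227 := checkRangeG_sound parWF r2 pf46226 h46226
  have h46228 := checkRangeG_sound parWF r2 pf46227 h46227
  have h46229 := checkRangeG_sound parWF r2 pf46228 h46228
  have h46230 := checkRangeG_sound parWF r2 pf46229 h46229
  have h46231 := checkRangeG_sound parWF r2 pf46230 h46230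
  have h46232 := checkRangeG_sound parWF r2 pf46231 h46231
  have h46233 := checkRangeG_sound parWF r2 pf46232 h46232
  have h46234 := checkRangeG_sound parWF r2 pf46233 h46233
  have h46235 := checkRangeG_sound parWF r2 pf46234 h46234
  have h46236 := checkRangeG_sound parWF r2 pf46235 h46235
  have h46237 := checkRangeG_sound parWF r2 pf46236 h46236
  have h46238 := checkRangeG_sound parWF r2 pf46237 h46237
  have h46239 := checkRangeG_sound parWF r2 pf46238 h46238
  have h46240 := checkRangeG_sound parWF r2 pf46239 h46239
  have h46241 := checkRangeG_sound parWF r2 pf46240 h46240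
  have h46242 := checkRangeG_sound parWF r2 pf46241 h46241
  have h46243 := checkRangeG_sound parWF r2 pf46242 h46242
  have h46244 := checkRangeG_sound parWF r2 pf46243 h46243
  have h46245 := checkRangeG_sound parWF r2 pf46244 h46244
  have h46246 := checkRangeG_sound parWF r2 pf46245 h46245
  have h46247 := checkRangeG_sound parWF r2 pf46246 h46246
  have h46248 := checkRangeG_sound parWF r2 pf46247 h46247
  have h46249 := checkRangeG_sound parWF r2 pf46248 h46248
  have h46250 := checkRangeG_sound parWF r2 pf46249 h46249
  exact h46250

theorem c925 (h46250 : ∀ j, j < 161580 → GoodG.{u} par (db j)) : ∀ j, j < 161850 → GoodG.{u} par (db j) := by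
  have h46251 := checkRangeG_sound parWF r2 pf46250 h46250
  have h46252 := checkRangeG_sound parWF r2 pf46251 h46251
  have h46253 := checkRangeG_sound parWF r2 pf46252 h46252
  have h46254 := checkRangeG_sound parWF r2 pf46253 h46253
  have h46255 := checkRangeG_sound parWF r2 pf46254 h46254
  have h46256 := checkRangeG_sound parWF r2 pf46255 h46255
  have h46257 := checkRangeG_sound parWF r2 pf46256 h46256
  have h46258 := checkRangeG_sound parWF r2 pf46257 h46257
  have h46259 := checkRangeG_sound parWF r2 pf46258 h46258
  have h46260 := checkRangeG_sound parWF r2 pf46259 h46259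
  have h46261 := checkRangeG_sound parWF r2 pf46260 h46260
  have h46262 := checkRangeG_sound parWF r2 pf46261 h46261
  have h46263 := checkRangeG_sound parWF r2 pf46262 h46262
  have h46264 := checkRangeG_sound parWF r2 pf46263 h46263
  have h46265 := checkRangeG_sound parWF r2 pf46264 h46264
  have h46266 := checkRangeG_sound parWF r2 pf46265 h46265
  have h46267 := checkRangeG_sound parWF r2 pf46266 h46266
  have h46268 := checkRangeG_sound parWF r2 pf46267 h46267
  have h46269 := checkRangeG_sound parWF r2 pf46268 h46268
  have h46270 := checkRangeG_sound parWF r2 pf46269 h46269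
  have h46271 := checkRangeG_sound parWF r2 pf46270 h46270
  have h46272 := checkRangeG_sound parWF r2 pf46271 h46271
  have h46273 := checkRangeG_sound parWF r2 pf46272 h46272
  have h46274 := checkRangeG_sound parWF r2 pf46273 h46273
  have h46275 := checkRangeG_sound parWF r2 pf46274 h46274
  have h46276 := checkRangeG_sound parWF r2 pf46275 h46275
  have h46277 := checkRangeG_sound parWF r2 pf46276 h46276
  have h46278 := checkRangeG_sound parWF r2 pf46277 h46277
  have h46279 := checkRangeG_sound parWF r2 pf46278 h46278
  have h46280 := checkRangeG_sound parWF r2 pf46279 h46279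
  have h46281 := checkRangeG_sound parWF r2 pf46280 h46280
  have h46282 := checkRangeG_sound parWF r2 pf46281 h46281
  have h46283 := checkRangeG_sound parWF r2 pf46282 h46282
  have h46284 := checkRangeG_sound parWF r2 pf46283 h46283
  have h46285 := checkRangeG_sound parWF r2 pf46284 h46284
  have h46286 := checkRangeG_sound parWF r2 pf46285 h46285
  have h46287 := checkRangeG_sound parWF r2 pf46286 h46286
  have h46288 := checkRangeG_sound parWF r2 pf46287 h46287
  have h46289 := checkRangeG_sound parWF r2 pf46288 h46288
  have h46290 := checkRangeG_sound parWF r2 pf46289 h46289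
  have h46291 := checkRangeG_sound parWF r2 pf46290 h46290
  have h46292 := checkRangeG_sound parWF r2 pf46291 h46291
  have h46293 := checkRangeG_sound parWF r2 pf46292 h46292
  have h46294 := checkRangeG_sound parWF r2 pf46293 h46293
  have h46295 := checkRangeG_sound parWF r2 pf46294 h46294
  have h46296 := checkRangeG_sound parWF r2 pf46295 h46295
  have h46297 := checkRangeG_sound parWF r2 pf46296 h46296
  have h46298 := checkRangeG_sound parWF r2 pf46297 h46297
  have h46299 := checkRangeG_sound parWF r2 pf46298 h46298
  have h46300 := checkRangeG_sound parWF r2 pf46299 h46299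
  exact h46300

theorem c926 (h46300 : ∀ j, j < 161850 → GoodG.{u} par (db j)) : ∀ j, j < 162094 → GoodG.{u} par (db j) := by
  have h46301 := checkRangeG_sound parWF r2 pf46300 h46300
  have h46302 := checkRangeG_sound parWF r2 pf46301 h46301
  have h46303 := checkRangeG_sound parWF r2 pf46302 h46302
  have h46304 := checkRangeG_sound parWF r2 pf46303 h46303
  have h46305 := checkRangeG_sound parWF r2 pf46304 h46304
  have h46306 := checkRangeG_sound parWF r2 pf46305 h46305
  have h46307 := checkRangeG_sound parWF r2 pf46306 h46306
  have h46308 := checkRangeG_sound parWF r2 pf46307 h46307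
  have h46309 := checkRangeG_sound parWF r2 pf46308 h46308
  have h46310 := checkRangeG_sound parWF r2 pf46309 h46309
  have h46311 := checkRangeG_sound parWF r2 pf46310 h46310
  have h46312 := checkRangeG_sound parWF r2 pf46311 h46311
  have h46313 := checkRangeG_sound parWF r2 pf46312 h46312
  have h46314 := checkRangeG_sound parWF r2 pf46313 h46313
  have h46315 := checkRangeG_sound parWF r2 pf46314 h46314
  have h46316 := checkRangeG_sound parWF r2 pf46315 h46315
  have h46317 := checkRangeG_sound parWF r2 pf46316 h46316
  have h46318 := checkRangeG_sound parWF r2 pf46317 h46317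
  have h46319 := checkRangeG_sound parWF r2 pf46318 h46318
  have h46320 := checkRangeG_sound parWF r2 pf46319 h46319
  have h46321 := checkRangeG_sound parWF r2 pf46320 h46320
  have h46322 := checkRangeG_sound parWF r2 pf46321 h46321
  have h46323 := checkRangeG_sound parWF r2 pf46322 h46322
  have h46324 := checkRangeG_sound parWF r2 pf46323 h46323
  have h46325 := checkRangeG_sound parWF r2 pf46324 h46324
  have h46326 := checkRangeG_sound parWF r2 pf46325 h46325
  have h46327 := checkRangeG_sound parWF r2 pf46326 h46326
  have h46328 := checkRangeG_sound parWF r2 pf46327 h46327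
  have h46329 := checkRangeG_sound parWF r2 pf46328 h46328
  have h46330 := checkRangeG_sound parWF r2 pf46329 h46329
  have h46331 := checkRangeG_sound parWF r2 pf46330 h46330
  have h46332 := checkRangeG_sound parWF r2 pf46331 h46331
  have h46333 := checkRangeG_sound parWF r2 pf46332 h46332
  have h46334 := checkRangeG_sound parWF r2 pf46333 h46333
  have h46335 := checkRangeG_sound parWF r2 pf46334 h46334
  have h46336 := checkRangeG_sound parWF r2 pf46335 h46335
  have h46337 := checkRangeG_sound parWF r2 pf46336 h46336
  have h46338 := checkRangeG_sound parWF r2 pf46337 h46337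
  have h46339 := checkRangeG_sound parWF r2 pf46338 h46338
  have h46340 := checkRangeG_sound parWF r2 pf46339 h46339
  have h46341 := checkRangeG_sound parWF r2 pf46340 h46340
  have h46342 := checkRangeG_sound parWF r2 pf46341 h46341
  have h46343 := checkRangeG_sound parWF r2 pf46342 h46342
  have h46344 := checkRangeG_sound parWF r2 pf46343 h46343
  have h46345 := checkRangeG_sound parWF r2 pf46344 h46344
  have h46346 := checkRangeG_sound parWF r2 pf46345 h46345
  have h46347 := checkRangeG_sound parWF r2 pf46346 h46346
  have h46348 := checkRangeG_sound parWF r2 pf46347 h46347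
  have h46349 := checkRangeG_sound parWF r2 pf46348 h46348
  have h46350 := checkRangeG_sound parWF r2 pf46349 h46349
  exact h46350

theorem c927 (h46350 : ∀ j, j < 162094 → GoodG.{u} par (db j)) : ∀ j, j < 162337 → GoodG.{u} par (db j) := by
  have h46351 := checkRangeG_sound parWF r2 pf46350 h46350
  have h46352 := checkRangeG_sound parWF r2 pf46351 h46351
  have h46353 := checkRangeG_sound parWF r2 pf46352 h46352
  have h46354 := checkRangeG_sound parWF r2 pf46353 h46353
  have h46355 := checkRangeG_sound parWF r2 pf46354 h46354
  have h46356 := checkRangeG_sound parWF r2 pf46355 h46355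
  have h46357 := checkRangeG_sound parWF r2 pf46356 h46356
  have h46358 := checkRangeG_sound parWF r2 pf46357 h46357
  have h46359 := checkRangeG_sound parWF r2 pf46358 h46358
  have h46360 := checkRangeG_sound parWF r2 pf46359 h46359
  have h46361 := checkRangeG_sound parWF r2 pf46360 h46360
  have h46362 := checkRangeG_sound parWF r2 pf46361 h46361
  have h46363 := checkRangeG_sound parWF r2 pf46362 h46362
  have h46364 := checkRangeG_sound parWF r2 pf46363 h46363
  have h46365 := checkRangeG_sound parWF r2 pf46364 h46364
  have h46366 := checkRangeG_sound parWF r2 pf46365 h46365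
  have h46367 := checkRangeG_sound parWF r2 pf46366 h46366
  have h46368 := checkRangeG_sound parWF r2 pf46367 h46367
  have h46369 := checkRangeG_sound parWF r2 pf46368 h46368
  have h46370 := checkRangeG_sound parWF r2 pf46369 h46369
  have h46371 := checkRangeG_sound parWF r2 pf46370 h46370
  have h46372 := checkRangeG_sound parWF r2 pf46371 h46371
  have h46373 := checkRangeG_sound parWF r2 pf46372 h46372
  have h46374 := checkRangeG_sound parWF r2 pf46373 h46373
  have h46375 := checkRangeG_sound parWF r2 pf46374 h46374
  have h46376 := checkRangeG_sound parWF r2 pf46375 h46375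
  have h46377 := checkRangeG_sound parWF r2 pf46376 h46376
  have h46378 := checkRangeG_sound parWF r2 pf46377 h46377
  have h46379 := checkRangeG_sound parWF r2 pf46378 h46378
  have h46380 := checkRangeG_sound parWF r2 pf46379 h46379
  have h46381 := checkRangeG_sound parWF r2 pf46380 h46380
  have h46382 := checkRangeG_sound parWF r2 pf46381 h46381
  have h46383 := checkRangeG_sound parWF r2 pf46382 h46382
  have h46384 := checkRangeG_sound parWF r2 pf46383 h46383
  have h46385 := checkRangeG_sound parWF r2 pf46384 h46384
  have h46386 := checkRangeG_sound parWF r2 pf46385 h46385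
  have h46387 := checkRangeG_sound parWF r2 pf46386 h46386
  have h46388 := checkRangeG_sound parWF r2 pf46387 h46387
  have h46389 := checkRangeG_sound parWF r2 pf46388 h46388
  have h46390 := checkRangeG_sound parWF r2 pf46389 h46389
  have h46391 := checkRangeG_sound parWF r2 pf46390 h46390
  have h46392 := checkRangeG_sound parWF r2 pf46391 h46391
  have h46393 := checkRangeG_sound parWF r2 pf46392 h46392
  have h46394 := checkRangeG_sound parWF r2 pf46393 h46393
  have h46395 := checkRangeG_sound parWF r2 pf46394 h46394
  have h46396 := checkRangeG_sound parWF r2 pf46395 h46395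
  have h46397 := checkRangeG_sound parWF r2 pf46396 h46396
  have h46398 := checkRangeG_sound parWF r2 pf46397 h46397
  have h46399 := checkRangeG_sound parWF r2 pf46398 h46398
  have h46400 := checkRangeG_sound parWF r2 pf46399 h46399
  exact h46400

theorem c928 (h46400 : ∀ j, j < 162337 → GoodG.{u} par (db j)) : ∀ j, j < 162577 → GoodG.{u} par (db j) := by
  have h46401 := checkRangeG_sound parWF r2 pf46400 h46400
  have h46402 := checkRangeG_sound parWF r2 pf46401 h46401
  have h46403 := checkRangeG_sound parWF r2 pf46402 h46402
  have h46404 := checkRangeG_sound parWF r2 pf46403 h46403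
  have h46405 := checkRangeG_sound parWF r2 pf46404 h46404
  have h46406 := checkRangeG_sound parWF r2 pf46405 h46405
  have h46407 := checkRangeG_sound parWF r2 pf46406 h46406
  have h46408 := checkRangeG_sound parWF r2 pf46407 h46407
  have h46409 := checkRangeG_sound parWF r2 pf46408 h46408
  have h46410 := checkRangeG_sound parWF r2 pf46409 h46409
  have h46411 := checkRangeG_sound parWF r2 pf46410 h46410
  have h46412 := checkRangeG_sound parWF r2 pf46411 h46411
  have h46413 := checkRangeG_sound parWF r2 pf46412 h46412
  have h46414 := checkRangeG_sound parWF r2 pf46413 h46413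
  have h46415 := checkRangeG_sound parWF r2 pf46414 h46414
  have h46416 := checkRangeG_sound parWF r2 pf46415 h46415
  have h46417 := checkRangeG_sound parWF r2 pf46416 h46416
  have h46418 := checkRangeG_sound parWF r2 pf46417 h46417
  have h46419 := checkRangeG_sound parWF r2 pf46418 h46418
  have h46420 := checkRangeG_sound parWF r2 pf46419 h46419
  have h46421 := checkRangeG_sound parWF r2 pf46420 h46420
  have h46422 := checkRangeG_sound parWF r2 pf46421 h46421
  have h46423 := checkRangeG_sound parWF r2 pf46422 h46422
  have h46424 := checkRangeG_sound parWF r2 pf46423 h46423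
  have h46425 := checkRangeG_sound parWF r2 pf46424 h46424
  have h46426 := checkRangeG_sound parWF r2 pf46425 h46425
  have h46427 := checkRangeG_sound parWF r2 pf46426 h46426
  have h46428 := checkRangeG_sound parWF r2 pf46427 h46427
  have h46429 := checkRangeG_sound parWF r2 pf46428 h46428
  have h46430 := checkRangeG_sound parWF r2 pf46429 h46429
  have h46431 := checkRangeG_sound parWF r2 pf46430 h46430
  have h46432 := checkRangeG_sound parWF r2 pf46431 h46431
  have h46433 := checkRangeG_sound parWF r2 pf46432 h46432
  have h46434 := checkRangeG_sound parWF r2 pf46433 h46433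
  have h46435 := checkRangeG_sound parWF r2 pf46434 h46434
  have h46436 := checkRangeG_sound parWF r2 pf46435 h46435
  have h46437 := checkRangeG_sound parWF r2 pf46436 h46436
  have h46438 := checkRangeG_sound parWF r2 pf46437 h46437
  have h46439 := checkRangeG_sound parWF r2 pf46438 h46438
  have h46440 := checkRangeG_sound parWF r2 pf46439 h46439
  have h46441 := checkRangeG_sound parWF r2 pf46440 h46440
  have h46442 := checkRangeG_sound parWF r2 pf46441 h46441
  have h46443 := checkRangeG_sound parWF r2 pf46442 h46442
  have h46444 := checkRangeG_sound parWF r2 pf46443 h46443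
  have h46445 := checkRangeG_sound parWF r2 pf46444 h46444
  have h46446 := checkRangeG_sound parWF r2 pf46445 h46445
  have h46447 := checkRangeG_sound parWF r2 pf46446 h46446
  have h46448 := checkRangeG_sound parWF r2 pf46447 h46447
  have h46449 := checkRangeG_sound parWF r2 pf46448 h46448
  have h46450 := checkRangeG_sound parWF r2 pf46449 h46449
  exact h46450

theorem c929 (h46450 : ∀ j, j < 162577 → GoodG.{u} par (db j)) : ∀ j, j < 162820 → GoodG.{u} par (db j) := by
  have h46451 := checkRangeG_sound parWF r2 pf46450 h46450
  have h46452 := checkRangeG_sound parWF r2 pf46451 h46451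
  have h46453 := checkRangeG_sound parWF r2 pf46452 h46452
  have h46454 := checkRangeG_sound parWF r2 pf46453 h46453
  have h46455 := checkRangeG_sound parWF r2 pf46454 h46454
  have h46456 := checkRangeG_sound parWF r2 pf46455 h46455
  have h46457 := checkRangeG_sound parWF r2 pf46456 h46456
  have h46458 := checkRangeG_sound parWF r2 pf46457 h46457
  have h46459 := checkRangeG_sound parWF r2 pf46458 h46458
  have h46460 := checkRangeG_sound parWF r2 pf46459 h46459
  have h46461 := checkRangeG_sound parWF r2 pf46460 h46460
  have h46462 := checkRangeG_sound parWF r2 pf46461 h46461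
  have h46463 := checkRangeG_sound parWF r2 pf46462 h46462
  have h46464 := checkRangeG_sound parWF r2 pf46463 h46463
  have h46465 := checkRangeG_sound parWF r2 pf46464 h46464
  have h46466 := checkRangeG_sound parWF r2 pf46465 h46465
  have h46467 := checkRangeG_sound parWF r2 pf46466 h46466
  have h46468 := checkRangeG_sound parWF r2 pf46467 h46467
  have h46469 := checkRangeG_sound parWF r2 pf46468 h46468
  have h46470 := checkRangeG_sound parWF r2 pf46469 h46469
  have h46471 := checkRangeG_sound parWF r2 pf46470 h46470
  have h46472 := checkRangeG_sound parWF r2 pf46471 h46471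
  have h46473 := checkRangeG_sound parWF r2 pf46472 h46472
  have h46474 := checkRangeG_sound parWF r2 pf46473 h46473
  have h46475 := checkRangeG_sound parWF r2 pf46474 h46474
  have h46476 := checkRangeG_sound parWF r2 pf46475 h46475
  have h46477 := checkRangeG_sound parWF r2 pf46476 h46476
  have h46478 := checkRangeG_sound parWF r2 pf46477 h46477
  have h46479 := checkRangeG_sound parWF r2 pf46478 h46478
  have h46480 := checkRangeG_sound parWF r2 pf46479 h46479
  have h46481 := checkRangeG_sound parWF r2 pf46480 h46480
  have h46482 := checkRangeG_sound parWF r2 pf46481 h46481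
  have h46483 := checkRangeG_sound parWF r2 pf46482 h46482
  have h46484 := checkRangeG_sound parWF r2 pf46483 h46483
  have h46485 := checkRangeG_sound parWF r2 pf46484 h46484
  have h46486 := checkRangeG_sound parWF r2 pf46485 h46485
  have h46487 := checkRangeG_sound parWF r2 pf46486 h46486
  have h46488 := checkRangeG_sound parWF r2 pf46487 h46487
  have h46489 := checkRangeG_sound parWF r2 pf46488 h46488
  have h46490 := checkRangeG_sound parWF r2 pf46489 h46489
  have h46491 := checkRangeG_sound parWF r2 pf46490 h46490
  have h46492 := checkRangeG_sound parWF r2 pf46491 h46491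
  have h46493 := checkRangeG_sound parWF r2 pf46492 h46492
  have h46494 := checkRangeG_sound parWF r2 pf46493 h46493
  have h46495 := checkRangeG_sound parWF r2 pf46494 h46494
  have h46496 := checkRangeG_sound parWF r2 pf46495 h46495
  have h46497 := checkRangeG_sound parWF r2 pf46496 h46496
  have h46498 := checkRangeG_sound parWF r2 pf46497 h46497
  have h46499 := checkRangeG_sound parWF r2 pf46498 h46498
  have h46500 := checkRangeG_sound parWF r2 pf46499 h46499
  exact h46500

theorem c930 (h46500 : ∀ j, j < 162820 → GoodG.{u} par (db j)) : ∀ j, j < 163061 → GoodG.{u} par (db j) := by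
  have h46501 := checkRangeG_sound parWF r2 pf46500 h46500
  have h46502 := checkRangeG_sound parWF r2 pf46501 h46501
  have h46503 := checkRangeG_sound parWF r2 pf46502 h46502
  have h46504 := checkRangeG_sound parWF r2 pf46503 h46503
  have h46505 := checkRangeG_sound parWF r2 pf46504 h46504
  have h46506 := checkRangeG_sound parWF r2 pf46505 h46505
  have h46507 := checkRangeG_sound parWF r2 pf46506 h46506
  have h46508 := checkRangeG_sound parWF r2 pf46507 h46507
  have h46509 := checkRangeG_sound parWF r2 pf46508 h46508
  have h46510 := checkRangeG_sound parWF r2 pf46509 h46509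
  have h46511 := checkRangeG_sound parWF r2 pf46510 h46510
  have h46512 := checkRangeG_sound parWF r2 pf46511 h46511
  have h46513 := checkRangeG_sound parWF r2 pf46512 h46512
  have h46514 := checkRangeG_sound parWF r2 pf46513 h46513
  have h46515 := checkRangeG_sound parWF r2 pf46514 h46514
  have h46516 := checkRangeG_sound parWF r2 pf46515 h46515
  have h46517 := checkRangeG_sound parWF r2 pf46516 h46516
  have h46518 := checkRangeG_sound parWF r2 pf46517 h46517
  have h46519 := checkRangeG_sound parWF r2 pf46518 h46518
  have h46520 := checkRangeG_sound parWF r2 pf46519 h46519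
  have h46521 := checkRangeG_sound parWF r2 pf46520 h46520
  have h46522 := checkRangeG_sound parWF r2 pf46521 h46521
  have h46523 := checkRangeG_sound parWF r2 pf46522 h46522
  have h46524 := checkRangeG_sound parWF r2 pf46523 h46523
  have h46525 := checkRangeG_sound parWF r2 pf46524 h46524
  have h46526 := checkRangeG_sound parWF r2 pf46525 h46525
  have h46527 := checkRangeG_sound parWF r2 pf46526 h46526
  have h46528 := checkRangeG_sound parWF r2 pf46527 h46527
  have h46529 := checkRangeG_sound parWF r2 pf46528 h46528
  have h46530 := checkRangeG_sound parWF r2 pf46529 h46529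
  have h46531 := checkRangeG_sound parWF r2 pf46530 h46530
  have h46532 := checkRangeG_sound parWF r2 pf46531 h46531
  have h46533 := checkRangeG_sound parWF r2 pf46532 h46532
  have h46534 := checkRangeG_sound parWF r2 pf46533 h46533
  have h46535 := checkRangeG_sound parWF r2 pf46534 h46534
  have h46536 := checkRangeG_sound parWF r2 pf46535 h46535
  have h46537 := checkRangeG_sound parWF r2 pf46536 h46536
  have h46538 := checkRangeG_sound parWF r2 pf46537 h46537
  have h46539 := checkRangeG_sound parWF r2 pf46538 h46538
  have h46540 := checkRangeG_sound parWF r2 pf46539 h46539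
  have h46541 := checkRangeG_sound parWF r2 pf46540 h46540
  have h46542 := checkRangeG_sound parWF r2 pf46541 h46541
  have h46543 := checkRangeG_sound parWF r2 pf46542 h46542
  have h46544 := checkRangeG_sound parWF r2 pf46543 h46543
  have h46545 := checkRangeG_sound parWF r2 pf46544 h46544
  have h46546 := checkRangeG_sound parWF r2 pf46545 h46545
  have h46547 := checkRangeG_sound parWF r2 pf46546 h46546
  have h46548 := checkRangeG_sound parWF r2 pf46547 h46547
  have h46549 := checkRangeG_sound parWF r2 pf46548 h46548
  have h46550 := checkRangeG_sound parWF r2 pf46549 h46549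
  exact h46550

theorem c931 (h46550 : ∀ j, j < 163061 → GoodG.{u} par (db j)) : ∀ j, j < 163292 → GoodG.{u} par (db j) := by
  have h46551 := checkRangeG_sound parWF r2 pf46550 h46550
  have h46552 := checkRangeG_sound parWF r2 pf46551 h46551
  have h46553 := checkRangeG_sound parWF r2 pf46552 h46552
  have h46554 := checkRangeG_sound parWF r2 pf46553 h46553
  have h46555 := checkRangeG_sound parWF r2 pf46554 h46554
  have h46556 := checkRangeG_sound parWF r2 pf46555 h46555
  have h46557 := checkRangeG_sound parWF r2 pf46556 h46556
  have h46558 := checkRangeG_sound parWF r2 pf46557 h46557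
  have h46559 := checkRangeG_sound parWF r2 pf46558 h46558
  have h46560 := checkRangeG_sound parWF r2 pf46559 h46559
  have h46561 := checkRangeG_sound parWF r2 pf46560 h46560
  have h46562 := checkRangeG_sound parWF r2 pf46561 h46561
  have h46563 := checkRangeG_sound parWF r2 pf46562 h46562
  have h46564 := checkRangeG_sound parWF r2 pf46563 h46563
  have h46565 := checkRangeG_sound parWF r2 pf46564 h46564
  have h46566 := checkRangeG_sound parWF r2 pf46565 h46565
  have h46567 := checkRangeG_sound parWF r2 pf46566 h46566
  have h46568 := checkRangeG_sound parWF r2 pf46567 h46567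
  have h46569 := checkRangeG_sound parWF r2 pf46568 h46568
  have h46570 := checkRangeG_sound parWF r2 pf46569 h46569
  have h46571 := checkRangeG_sound parWF r2 pf46570 h46570
  have h46572 := checkRangeG_sound parWF r2 pf46571 h46571
  have h46573 := checkRangeG_sound parWF r2 pf46572 h46572
  have h46574 := checkRangeG_sound parWF r2 pf46573 h46573
  have h46575 := checkRangeG_sound parWF r2 pf46574 h46574
  have h46576 := checkRangeG_sound parWF r2 pf46575 h46575
  have h46577 := checkRangeG_sound parWF r2 pf46576 h46576
  have h46578 := checkRangeG_sound parWF r2 pf46577 h46577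
  have h46579 := checkRangeG_sound parWF r2 pf46578 h46578
  have h46580 := checkRangeG_sound parWF r2 pf46579 h46579
  have h46581 := checkRangeG_sound parWF r2 pf46580 h46580
  have h46582 := checkRangeG_sound parWF r2 pf46581 h46581
  have h46583 := checkRangeG_sound parWF r2 pf46582 h46582
  have h46584 := checkRangeG_sound parWF r2 pf46583 h46583
  have h46585 := checkRangeG_sound parWF r2 pf46584 h46584
  have h46586 := checkRangeG_sound parWF r2 pf46585 h46585
  have h46587 := checkRangeG_sound parWF r2 pf46586 h46586
  have h46588 := checkRangeG_sound parWF r2 pf46587 h46587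
  have h46589 := checkRangeG_sound parWF r2 pf46588 h46588
  have h46590 := checkRangeG_sound parWF r2 pf46589 h46589
  have h46591 := checkRangeG_sound parWF r2 pf46590 h46590
  have h46592 := checkRangeG_sound parWF r2 pf46591 h46591
  have h46593 := checkRangeG_sound parWF r2 pf46592 h46592
  have h46594 := checkRangeG_sound parWF r2 pf46593 h46593
  have h46595 := checkRangeG_sound parWF r2 pf46594 h46594
  have h46596 := checkRangeG_sound parWF r2 pf46595 h46595
  have h46597 := checkRangeG_sound parWF r2 pf46596 h46596
  have h46598 := checkRangeG_sound parWF r2 pf46597 h46597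
  have h46599 := checkRangeG_sound parWF r2 pf46598 h46598
  have h46600 := checkRangeG_sound parWF r2 pf46599 h46599
  exact h46600

theorem c932 (h46600 : ∀ j, j < 163292 → GoodG.{u} par (db j)) : ∀ j, j < 163508 → GoodG.{u} par (db j) := by
  have h46601 := checkRangeG_sound parWF r2 pf46600 h46600
  have h46602 := checkRangeG_sound parWF r2 pf46601 h46601
  have h46603 := checkRangeG_sound parWF r2 pf46602 h46602
  have h46604 := checkRangeG_sound parWF r2 pf46603 h46603
  have h46605 := checkRangeG_sound parWF r2 pf46604 h46604
  have h46606 := checkRangeG_sound parWF r2 pf46605 h46605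
  have h46607 := checkRangeG_sound parWF r2 pf46606 h46606
  have h46608 := checkRangeG_sound parWF r2 pf46607 h46607
  have h46609 := checkRangeG_sound parWF r2 pf46608 h46608
  have h46610 := checkRangeG_sound parWF r2 pf46609 h46609
  have h46611 := checkRangeG_sound parWF r2 pf46610 h46610
  have h46612 := checkRangeG_sound parWF r2 pf46611 h46611
  have h46613 := checkRangeG_sound parWF r2 pf46612 h46612
  have h46614 := checkRangeG_sound parWF r2 pf46613 h46613
  have h46615 := checkRangeG_sound parWF r2 pf46614 h46614
  have h46616 := checkRangeG_sound parWF r2 pf46615 h46615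
  have h46617 := checkRangeG_sound parWF r2 pf46616 h46616
  have h46618 := checkRangeG_sound parWF r2 pf46617 h46617
  have h46619 := checkRangeG_sound parWF r2 pf46618 h46618
  have h46620 := checkRangeG_sound parWF r2 pf46619 h46619
  have h46621 := checkRangeG_sound parWF r2 pf46620 h46620
  have h46622 := checkRangeG_sound parWF r2 pf46621 h46621
  have h46623 := checkRangeG_sound parWF r2 pf46622 h46622
  have h46624 := checkRangeG_sound parWF r2 pf46623 h46623
  have h46625 := checkRangeG_sound parWF r2 pf46624 h46624
  have h46626 := checkRangeG_sound parWF r2 pf46625 h46625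
  have h46627 := checkRangeG_sound parWF r2 pf46626 h46626
  have h46628 := checkRangeG_sound parWF r2 pf46627 h46627
  have h46629 := checkRangeG_sound parWF r2 pf46628 h46628
  have h46630 := checkRangeG_sound parWF r2 pf46629 h46629
  have h46631 := checkRangeG_sound parWF r2 pf46630 h46630
  have h46632 := checkRangeG_sound parWF r2 pf46631 h46631
  have h46633 := checkRangeG_sound parWF r2 pf46632 h46632
  have h46634 := checkRangeG_sound parWF r2 pf46633 h46633
  have h46635 := checkRangeG_sound parWF r2 pf46634 h46634
  have h46636 := checkRangeG_sound parWF r2 pf46635 h46635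
  have h46637 := checkRangeG_sound parWF r2 pf46636 h46636
  have h46638 := checkRangeG_sound parWF r2 pf46637 h46637
  have h46639 := checkRangeG_sound parWF r2 pf46638 h46638
  have h46640 := checkRangeG_sound parWF r2 pf46639 h46639
  have h46641 := checkRangeG_sound parWF r2 pf46640 h46640
  have h46642 := checkRangeG_sound parWF r2 pf46641 h46641
  have h46643 := checkRangeG_sound parWF r2 pf46642 h46642
  have h46644 := checkRangeG_sound parWF r2 pf46643 h46643
  have h46645 := checkRangeG_sound parWF r2 pf46644 h46644
  have h46646 := checkRangeG_sound parWF r2 pf46645 h46645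
  have h46647 := checkRangeG_sound parWF r2 pf46646 h46646
  have h46648 := checkRangeG_sound parWF r2 pf46647 h46647
  have h46649 := checkRangeG_sound parWF r2 pf46648 h46648
  have h46650 := checkRangeG_sound parWF r2 pf46649 h46649
  exact h46650

theorem c933 (h46650 : ∀ j, j < 163508 → GoodG.{u} par (db j)) : ∀ j, j < 163732 → GoodG.{u} par (db j) := by
  have h46651 := checkRangeG_sound parWF r2 pf46650 h46650
  have h46652 := checkRangeG_sound parWF r2 pf46651 h46651
  have h46653 := checkRangeG_sound parWF r2 pf46652 h46652
  have h46654 := checkRangeG_sound parWF r2 pf46653 h46653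
  have h46655 := checkRangeG_sound parWF r2 pf46654 h46654
  have h46656 := checkRangeG_sound parWF r2 pf46655 h46655
  have h46657 := checkRangeG_sound parWF r2 pf46656 h46656
  have h46658 := checkRangeG_sound parWF r2 pf46657 h46657
  have h46659 := checkRangeG_sound parWF r2 pf46658 h46658
  have h46660 := checkRangeG_sound parWF r2 pf46659 h46659
  have h46661 := checkRangeG_sound parWF r2 pf46660 h46660
  have h46662 := checkRangeG_sound parWF r2 pf46661 h46661
  have h46663 := checkRangeG_sound parWF r2 pf46662 h46662
  have h46664 := checkRangeG_sound parWF r2 pf46663 h46663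
  have h46665 := checkRangeG_sound parWF r2 pf46664 h46664
  have h46666 := checkRangeG_sound parWF r2 pf46665 h46665
  have h46667 := checkRangeG_sound parWF r2 pf46666 h46666
  have h46668 := checkRangeG_sound parWF r2 pf46667 h46667
  have h46669 := checkRangeG_sound parWF r2 pf46668 h46668
  have h46670 := checkRangeG_sound parWF r2 pf46669 h46669
  have h46671 := checkRangeG_sound parWF r2 pf46670 h46670
  have h46672 := checkRangeG_sound parWF r2 pf46671 h46671
  have h46673 := checkRangeG_sound parWF r2 pf46672 h46672
  have h46674 := checkRangeG_sound parWF r2 pf46673 h46673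
  have h46675 := checkRangeG_sound parWF r2 pf46674 h46674
  have h46676 := checkRangeG_sound parWF r2 pf46675 h46675
  have h46677 := checkRangeG_sound parWF r2 pf46676 h46676
  have h46678 := checkRangeG_sound parWF r2 pf46677 h46677
  have h46679 := checkRangeG_sound parWF r2 pf46678 h46678
  have h46680 := checkRangeG_sound parWF r2 pf46679 h46679
  have h46681 := checkRangeG_sound parWF r2 pf46680 h46680
  have h46682 := checkRangeG_sound parWF r2 pf46681 h46681
  have h46683 := checkRangeG_sound parWF r2 pf46682 h46682
  have h46684 := checkRangeG_sound parWF r2 pf46683 h46683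
  have h46685 := checkRangeG_sound parWF r2 pf46684 h46684
  have h46686 := checkRangeG_sound parWF r2 pf46685 h46685
  have h46687 := checkRangeG_sound parWF r2 pf46686 h46686
  have h46688 := checkRangeG_sound parWF r2 pf46687 h46687
  have h46689 := checkRangeG_sound parWF r2 pf46688 h46688
  have h46690 := checkRangeG_sound parWF r2 pf46689 h46689
  have h46691 := checkRangeG_sound parWF r2 pf46690 h46690
  have h46692 := checkRangeG_sound parWF r2 pf46691 h46691
  have h46693 := checkRangeG_sound parWF r2 pf46692 h46692
  have h46694 := checkRangeG_sound parWF r2 pf46693 h46693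
  have h46695 := checkRangeG_sound parWF r2 pf46694 h46694
  have h46696 := checkRangeG_sound parWF r2 pf46695 h46695
  have h46697 := checkRangeG_sound parWF r2 pf46696 h46696
  have h46698 := checkRangeG_sound parWF r2 pf46697 h46697
  have h46699 := checkRangeG_sound parWF r2 pf46698 h46698
  have h46700 := checkRangeG_sound parWF r2 pf46699 h46699
  exact h46700

theorem c934 (h46700 : ∀ j, j < 163732 → GoodG.{u} par (db j)) : ∀ j, j < 163955 → GoodG.{u} par (db j) := by
  have h46701 := checkRangeG_sound parWF r2 pf46700 h46700
  have h46702 := checkRangeG_sound parWF r2 pf46701 h46701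
  have h46703 := checkRangeG_sound parWF r2 pf46702 h46702
  have h46704 := checkRangeG_sound parWF r2 pf46703 h46703
  have h46705 := checkRangeG_sound parWF r2 pf46704 h46704
  have h46706 := checkRangeG_sound parWF r2 pf46705 h46705
  have h46707 := checkRangeG_sound parWF r2 pf46706 h46706
  have h46708 := checkRangeG_sound parWF r2 pf46707 h46707
  have h46709 := checkRangeG_sound parWF r2 pf46708 h46708
  have h46710 := checkRangeG_sound parWF r2 pf46709 h46709
  have h46711 := checkRangeG_sound parWF r2 pf46710 h46710
  have h46712 := checkRangeG_sound parWF r2 pf46711 h46711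
  have h46713 := checkRangeG_sound parWF r2 pf46712 h46712
  have h46714 := checkRangeG_sound parWF r2 pf46713 h46713
  have h46715 := checkRangeG_sound parWF r2 pf46714 h46714
  have h46716 := checkRangeG_sound parWF r2 pf46715 h46715
  have h46717 := checkRangeG_sound parWF r2 pf46716 h46716
  have h46718 := checkRangeG_sound parWF r2 pf46717 h46717
  have h46719 := checkRangeG_sound parWF r2 pf46718 h46718
  have h46720 := checkRangeG_sound parWF r2 pf46719 h46719
  have h46721 := checkRangeG_sound parWF r2 pf46720 h46720
  have h46722 := checkRangeG_sound parWF r2 pf46721 h46721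
  have h46723 := checkRangeG_sound parWF r2 pf46722 h46722
  have h46724 := checkRangeG_sound parWF r2 pf46723 h46723
  have h46725 := checkRangeG_sound parWF r2 pf46724 h46724
  have h46726 := checkRangeG_sound parWF r2 pf46725 h46725
  have h46727 := checkRangeG_sound parWF r2 pf46726 h46726
  have h46728 := checkRangeG_sound parWF r2 pf46727 h46727
  have h46729 := checkRangeG_sound parWF r2 pf46728 h46728
  have h46730 := checkRangeG_sound parWF r2 pf46729 h46729
  have h46731 := checkRangeG_sound parWF r2 pf46730 h46730
  have h46732 := checkRangeG_sound parWF r2 pf46731 h46731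
  have h46733 := checkRangeG_sound parWF r2 pf46732 h46732
  have h46734 := checkRangeG_sound parWF r2 pf46733 h46733
  have h46735 := checkRangeG_sound parWF r2 pf46734 h46734
  have h46736 := checkRangeG_sound parWF r2 pf46735 h46735
  have h46737 := checkRangeG_sound parWF r2 pf46736 h46736
  have h46738 := checkRangeG_sound parWF r2 pf46737 h46737
  have h46739 := checkRangeG_sound parWF r2 pf46738 h46738
  have h46740 := checkRangeG_sound parWF r2 pf46739 h46739
  have h46741 := checkRangeG_sound parWF r2 pf46740 h46740
  have h46742 := checkRangeG_sound parWF r2 pf46741 h46741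
  have h46743 := checkRangeG_sound parWF r2 pf46742 h46742
  have h46744 := checkRangeG_sound parWF r2 pf46743 h46743
  have h46745 := checkRangeG_sound parWF r2 pf46744 h46744
  have h46746 := checkRangeG_sound parWF r2 pf46745 h46745
  have h46747 := checkRangeG_sound parWF r2 pf46746 h46746
  have h46748 := checkRangeG_sound parWF r2 pf46747 h46747
  have h46749 := checkRangeG_sound parWF r2 pf46748 h46748
  have h46750 := checkRangeG_sound parWF r2 pf46749 h46749
  exact h46750

theorem c935 (h46750 : ∀ j, j < 163955 → GoodG.{u} par (db j)) : ∀ j, j < 164203 → GoodG.{u} par (db j) := by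
  have h46751 := checkRangeG_sound parWF r2 pf46750 h46750
  have h46752 := checkRangeG_sound parWF r2 pf46751 h46751
  have h46753 := checkRangeG_sound parWF r2 pf46752 h46752
  have h46754 := checkRangeG_sound parWF r2 pf46753 h46753
  have h46755 := checkRangeG_sound parWF r2 pf46754 h46754
  have h46756 := checkRangeG_sound parWF r2 pf46755 h46755
  have h46757 := checkRangeG_sound parWF r2 pf46756 h46756
  have h46758 := checkRangeG_sound parWF r2 pf46757 h46757
  have h46759 := checkRangeG_sound parWF r2 pf46758 h46758
  have h46760 := checkRangeG_sound parWF r2 pf46759 h46759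
  have h46761 := checkRangeG_sound parWF r2 pf46760 h46760
  have h46762 := checkRangeG_sound parWF r2 pf46761 h46761
  have h46763 := checkRangeG_sound parWF r2 pf46762 h46762
  have h46764 := checkRangeG_sound parWF r2 pf46763 h46763
  have h46765 := checkRangeG_sound parWF r2 pf46764 h46764
  have h46766 := checkRangeG_sound parWF r2 pf46765 h46765
  have h46767 := checkRangeG_sound parWF r2 pf46766 h46766
  have h46768 := checkRangeG_sound parWF r2 pf46767 h46767
  have h46769 := checkRangeG_sound parWF r2 pf46768 h46768
  have h46770 := checkRangeG_sound parWF r2 pf46769 h46769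
  have h46771 := checkRangeG_sound parWF r2 pf46770 h46770
  have h46772 := checkRangeG_sound parWF r2 pf46771 h46771
  have h46773 := checkRangeG_sound parWF r2 pf46772 h46772
  have h46774 := checkRangeG_sound parWF r2 pf46773 h46773
  have h46775 := checkRangeG_sound parWF r2 pf46774 h46774
  have h46776 := checkRangeG_sound parWF r2 pf46775 h46775
  have h46777 := checkRangeG_sound parWF r2 pf46776 h46776
  have h46778 := checkRangeG_sound parWF r2 pf46777 h46777
  have h46779 := checkRangeG_sound parWF r2 pf46778 h46778
  have h46780 := checkRangeG_sound parWF r2 pf46779 h46779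
  have h46781 := checkRangeG_sound parWF r2 pf46780 h46780
  have h46782 := checkRangeG_sound parWF r2 pf46781 h46781
  have h46783 := checkRangeG_sound parWF r2 pf46782 h46782
  have h46784 := checkRangeG_sound parWF r2 pf46783 h46783
  have h46785 := checkRangeG_sound parWF r2 pf46784 h46784
  have h46786 := checkRangeG_sound parWF r2 pf46785 h46785
  have h46787 := checkRangeG_sound parWF r2 pf46786 h46786
  have h46788 := checkRangeG_sound parWF r2 pf46787 h46787
  have h46789 := checkRangeG_sound parWF r2 pf46788 h46788
  have h46790 := checkRangeG_sound parWF r2 pf46789 h46789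
  have h46791 := checkRangeG_sound parWF r2 pf46790 h46790
  have h46792 := checkRangeG_sound parWF r2 pf46791 h46791
  have h46793 := checkRangeG_sound parWF r2 pf46792 h46792
  have h46794 := checkRangeG_sound parWF r2 pf46793 h46793
  have h46795 := checkRangeG_sound parWF r2 pf46794 h46794
  have h46796 := checkRangeG_sound parWF r2 pf46795 h46795
  have h46797 := checkRangeG_sound parWF r2 pf46796 h46796
  have h46798 := checkRangeG_sound parWF r2 pf46797 h46797
  have h46799 := checkRangeG_sound parWF r2 pf46798 h46798
  have h46800 := checkRangeG_sound parWF r2 pf46799 h46799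
  exact h46800


end Vale.Agent.P045g.C61
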