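import Vale.Agent.P045g.C61.WF
import Vale.Agent.P045g.C61.Pf780
import Vale.Agent.P045g.C61.Pf781
import Vale.Agent.P045g.C61.Pf782
import Vale.Agent.P045g.C61.Pf783
import Vale.Agent.P045g.C61.Pf784
import Vale.Agent.P045g.C61.Pf785
import Vale.Agent.P045g.C61.Pf786
import Vale.Agent.P045g.C61.Pf787
import Vale.Agent.P045g.C61.Pf788
import Vale.Agent.P045g.C61.Pf789

namespace Vale.Agent.P045g.C61

open Vale.Agent.P045b Vale.Agent.P045g

universe u

theorem c936 (h46800 : ∀ j, j < 164203 → GoodG.{u} par (db j)) : ∀ j, j < 164432 → GoodG.{u} par (db j) := by
  have h46801 := checkRangeG_sound parWF r2 pf46800 h46800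
  have h46802 := checkRangeG_sound parWF r2 pf46801 h46801
  have h46803 := checkRangeG_sound parWF r2 pf46802 h46802
  have h46804 := checkRangeG_sound parWF r2 pf46803 h46803
  have h46805 := checkRangeG_sound parWF r2 pf46804 h46804
  have h46806 := checkRangeG_sound parWF r2 pf46805 h46805
  have h46807 := checkRangeG_sound parWF r2 pf46806 h46806
  have h46808 := checkRangeG_sound parWF r2 pf46807 h46807
  have h46809 := checkRangeG_sound parWF r2 pf46808 h46808
  have h46810 := checkRangeG_sound parWF r2 pf46809 h46809
  have h46811 := checkRangeG_sound parWF r2 pf46810 h46810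
  have h46812 := checkRangeG_sound parWF r2 pf46811 h46811
  have h46813 := checkRangeG_sound parWF r2 pf46812 h46812
  have h46814 := checkRangeG_sound parWF r2 pf46813 h46813
  have h46815 := checkRangeG_sound parWF r2 pf46814 h46814
  have h46816 := checkRangeG_sound parWF r2 pf46815 h46815
  have h46817 := checkRangeG_sound parWF r2 pf46816 h46816
  have h46818 := checkRangeG_sound parWF r2 pf46817 h46817
  have h46819 := checkRangeG_sound parWF r2 pf46818 h46818
  have h46820 := checkRangeG_sound parWF r2 pf46819 h46819
  have h46821 := checkRangeG_sound parWF r2 pf46820 h46820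
  have h46822 := checkRangeG_sound parWF r2 pf46821 h46821
  have h46823 := checkRangeG_sound parWF r2 pf46822 h46822
  have h46824 := checkRangeG_sound parWF r2 pf46823 h46823
  have h46825 := checkRangeG_sound parWF r2 pf46824 h46824
  have h46826 := checkRangeG_sound parWF r2 pf46825 h46825
  have h46827 := checkRangeG_sound parWF r2 pf46826 h46826
  have h46828 := checkRangeG_sound parWF r2 pf46827 h46827
  have h46829 := checkRangeG_sound parWF r2 pf46828 h46828
  have h46830 := checkRangeG_sound parWF r2 pf46829 h46829
  have h46831 := checkRangeG_sound parWF r2 pf46830 h46830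
  have h46832 := checkRangeG_sound parWF r2 pf46831 h46831
  have h46833 := checkRangeG_sound parWF r2 pf46832 h46832
  have h46834 := checkRangeG_sound parWF r2 pf46833 h46833
  have h46835 := checkRangeG_sound parWF r2 pf46834 h46834
  have h46836 := checkRangeG_sound parWF r2 pf46835 h46835
  have h46837 := checkRangeG_sound parWF r2 pf46836 h46836
  have h46838 := checkRangeG_sound parWF r2 pf46837 h46837
  have h46839 := checkRangeG_sound parWF r2 pf46838 h46838
  have h46840 := checkRangeG_sound parWF r2 pf46839 h46839
  have h46841 := checkRangeG_sound parWF r2 pf46840 h46840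
  have h46842 := checkRangeG_sound parWF r2 pf46841 h46841
  have h46843 := checkRangeG_sound parWF r2 pf46842 h46842
  have h46844 := checkRangeG_sound parWF r2 pf46843 h46843
  have h46845 := checkRangeG_sound parWF r2 pf46844 h46844
  have h46846 := checkRangeG_sound parWF r2 pf46845 h46845
  have h46847 := checkRangeG_sound parWF r2 pf46846 h46846
  have h46848 := checkRangeG_sound parWF r2 pf46847 h46847
  have h46849 := checkRangeG_sound parWF r2 pf46848 h46848
  have h46850 := checkRangeG_sound parWF r2 pf46849 h46849
  exact h46850

theorem c937 (h46850 : ∀ j, j < 164432 → GoodG.{u} par (db j)) : ∀ j, j < 164627 → GoodG.{u} par (db j) := by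
  have h46851 := checkRangeG_sound parWF r2 pf46850 h46850
  have h46852 := checkRangeG_sound parWF r2 pf46851 h46851
  have h46853 := checkRangeG_sound parWF r2 pf46852 h46852
  have h46854 := checkRangeG_sound parWF r2 pf46853 h46853
  have h46855 := checkRangeG_sound parWF r2 pf46854 h46854
  have h46856 := checkRangeG_sound parWF r2 pf46855 h46855
  have h46857 := checkRangeG_sound parWF r2 pf46856 h46856
  have h46858 := checkRangeG_sound parWF r2 pf46857 h46857
  have h46859 := checkRangeG_sound parWF r2 pf46858 h46858
  have h46860 := checkRangeG_sound parWF r2 pf46859 h46859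
  have h46861 := checkRangeG_sound parWF r2 pf46860 h46860
  have h46862 := checkRangeG_sound parWF r2 pf46861 h46861
  have h46863 := checkRangeG_sound parWF r2 pf46862 h46862
  have h46864 := checkRangeG_sound parWF r2 pf46863 h46863
  have h46865 := checkRangeG_sound parWF r2 pf46864 h46864
  have h46866 := checkRangeG_sound parWF r2 pf46865 h46865
  have h46867 := checkRangeG_sound parWF r2 pf46866 h46866
  have h46868 := checkRangeG_sound parWF r2 pf46867 h46867
  have h46869 := checkRangeG_sound parWF r2 pf46868 h46868
  have h46870 := checkRangeG_sound parWF r2 pf46869 h46869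
  have h46871 := checkRangeG_sound parWF r2 pf46870 h46870
  have h46872 := checkRangeG_sound parWF r2 pf46871 h46871
  have h46873 := checkRangeG_sound parWF r2 pf46872 h46872
  have h46874 := checkRangeG_sound parWF r2 pf46873 h46873
  have h46875 := checkRangeG_sound parWF r2 pf46874 h46874
  have h46876 := checkRangeG_sound parWF r2 pf46875 h46875
  have h46877 := checkRangeG_sound parWF r2 pf46876 h46876
  have h46878 := checkRangeG_sound parWF r2 pf46877 h46877
  have h46879 := checkRangeG_sound parWF r2 pf46878 h46878
  have h46880 := checkRangeG_sound parWF r2 pf46879 h46879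
  have h46881 := checkRangeG_sound parWF r2 pf46880 h46880
  have h46882 := checkRangeG_sound parWF r2 pf46881 h46881
  have h46883 := checkRangeG_sound parWF r2 pf46882 h46882
  have h46884 := checkRangeG_sound parWF r2 pf46883 h46883
  have h46885 := checkRangeG_sound parWF r2 pf46884 h46884
  have h46886 := checkRangeG_sound parWF r2 pf46885 h46885
  have h46887 := checkRangeG_sound parWF r2 pf46886 h46886
  have h46888 := checkRangeG_sound parWF r2 pf46887 h46887
  have h46889 := checkRangeG_sound parWF r2 pf46888 h46888
  have h46890 := checkRangeG_sound parWF r2 pf46889 h46889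
  have h46891 := checkRangeG_sound parWF r2 pf46890 h46890
  have h46892 := checkRangeG_sound parWF r2 pf46891 h46891
  have h46893 := checkRangeG_sound parWF r2 pf46892 h46892
  have h46894 := checkRangeG_sound parWF r2 pf46893 h46893
  have h46895 := checkRangeG_sound parWF r2 pf46894 h46894
  have h46896 := checkRangeG_sound parWF r2 pf46895 h46895
  have h46897 := checkRangeG_sound parWF r2 pf46896 h46896
  have h46898 := checkRangeG_sound parWF r2 pf46897 h46897
  have h46899 := checkRangeG_sound parWF r2 pf46898 h46898
  have h46900 := checkRangeG_sound parWF r2 pf46899 h46899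
  exact h46900

theorem c938 (h46900 : ∀ j, j < 164627 → GoodG.{u} par (db j)) : ∀ j, j < 164757 → GoodG.{u} par (db j) := by
  have h46901 := checkRangeG_sound parWF r2 pf46900 h46900
  have h46902 := checkRangeG_sound parWF r2 pf46901 h46901
  have h46903 := checkRangeG_sound parWF r2 pf46902 h46902
  have h46904 := checkRangeG_sound parWF r2 pf46903 h46903
  have h46905 := checkRangeG_sound parWF r2 pf46904 h46904
  have h46906 := checkRangeG_sound parWF r2 pf46905 h46905
  have h46907 := checkRangeG_sound parWF r2 pf46906 h46906
  have h46908 := checkRangeG_sound parWF r2 pf46907 h46907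
  have h46909 := checkRangeG_sound parWF r2 pf46908 h46908
  have h46910 := checkRangeG_sound parWF r2 pf46909 h46909
  have h46911 := checkRangeG_sound parWF r2 pf46910 h46910
  have h46912 := checkRangeG_sound parWF r2 pf46911 h46911
  have h46913 := checkRangeG_sound parWF r2 pf46912 h46912
  have h46914 := checkRangeG_sound parWF r2 pf46913 h46913
  have h46915 := checkRangeG_sound parWF r2 pf46914 h46914
  have h46916 := checkRangeG_sound parWF r2 pf46915 h46915
  have h46917 := checkRangeG_sound parWF r2 pf46916 h46916
  have h46918 := checkRangeG_sound parWF r2 pf46917 h46917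
  have h46919 := checkRangeG_sound parWF r2 pf46918 h46918
  have h46920 := checkRangeG_sound parWF r2 pf46919 h46919
  have h46921 := checkRangeG_sound parWF r2 pf46920 h46920
  have h46922 := checkRangeG_sound parWF r2 pf46921 h46921
  have h46923 := checkRangeG_sound parWF r2 pf46922 h46922
  have h46924 := checkRangeG_sound parWF r2 pf46923 h46923
  have h46925 := checkRangeG_sound parWF r2 pf46924 h46924
  have h46926 := checkRangeG_sound parWF r2 pf46925 h46925
  have h46927 := checkRangeG_sound parWF r2 pf46926 h46926
  have h46928 := checkRangeG_sound parWF r2 pf46927 h46927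
  have h46929 := checkRangeG_sound parWF r2 pf46928 h46928
  have h46930 := checkRangeG_sound parWF r2 pf46929 h46929
  have h46931 := checkRangeG_sound parWF r2 pf46930 h46930
  have h46932 := checkRangeG_sound parWF r2 pf46931 h46931
  have h46933 := checkRangeG_sound parWF r2 pf46932 h46932
  have h46934 := checkRangeG_sound parWF r2 pf46933 h46933
  have h46935 := checkRangeG_sound parWF r2 pf46934 h46934
  have h46936 := checkRangeG_sound parWF r2 pf46935 h46935
  have h46937 := checkRangeG_sound parWF r2 pf46936 h46936
  have h46938 := checkRangeG_sound parWF r2 pf46937 h46937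
  have h46939 := checkRangeG_sound parWF r2 pf46938 h46938
  have h46940 := checkRangeG_sound parWF r2 pf46939 h46939
  have h46941 := checkRangeG_sound parWF r2 pf46940 h46940
  have h46942 := checkRangeG_sound parWF r2 pf46941 h46941
  have h46943 := checkRangeG_sound parWF r2 pf46942 h46942
  have h46944 := checkRangeG_sound parWF r2 pf46943 h46943
  have h46945 := checkRangeG_sound parWF r2 pf46944 h46944
  have h46946 := checkRangeG_sound parWF r2 pf46945 h46945
  have h46947 := checkRangeG_sound parWF r2 pf46946 h46946
  have h46948 := checkRangeG_sound parWF r2 pf46947 h46947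
  have h46949 := checkRangeG_sound parWF r2 pf46948 h46948
  have h46950 := checkRangeG_sound parWF r2 pf46949 h46949
  exact h46950

theorem c939 (h46950 : ∀ j, j < 164757 → GoodG.{u} par (db j)) : ∀ j, j < 164807 → GoodG.{u} par (db j) := by
  have h46951 := checkRangeG_sound parWF r2 pf46950 h46950
  have h46952 := checkRangeG_sound parWF r2 pf46951 h46951
  have h46953 := checkRangeG_sound parWF r2 pf46952 h46952
  have h46954 := checkRangeG_sound parWF r2 pf46953 h46953
  have h46955 := checkRangeG_sound parWF r2 pf46954 h46954
  have h46956 := checkRangeG_sound parWF r2 pf46955 h46955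
  have h46957 := checkRangeG_sound parWF r2 pf46956 h46956
  have h46958 := checkRangeG_sound parWF r2 pf46957 h46957
  have h46959 := checkRangeG_sound parWF r2 pf46958 h46958
  have h46960 := checkRangeG_sound parWF r2 pf46959 h46959
  have h46961 := checkRangeG_sound parWF r2 pf46960 h46960
  have h46962 := checkRangeG_sound parWF r2 pf46961 h46961
  have h46963 := checkRangeG_sound parWF r2 pf46962 h46962
  have h46964 := checkRangeG_sound parWF r2 pf46963 h46963
  have h46965 := checkRangeG_sound parWF r2 pf46964 h46964
  have h46966 := checkRangeG_sound parWF r2 pf46965 h46965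
  have h46967 := checkRangeG_sound parWF r2 pf46966 h46966
  have h46968 := checkRangeG_sound parWF r2 pf46967 h46967
  have h46969 := checkRangeG_sound parWF r2 pf46968 h46968
  have h46970 := checkRangeG_sound parWF r2 pf46969 h46969
  have h46971 := checkRangeG_sound parWF r2 pf46970 h46970
  have h46972 := checkRangeG_sound parWF r2 pf46971 h46971
  have h46973 := checkRangeG_sound parWF r2 pf46972 h46972
  have h46974 := checkRangeG_sound parWF r2 pf46973 h46973
  have h46975 := checkRangeG_sound parWF r2 pf46974 h46974
  have h46976 := checkRangeG_sound parWF r2 pf46975 h46975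
  have h46977 := checkRangeG_sound parWF r2 pf46976 h46976
  have h46978 := checkRangeG_sound parWF r2 pf46977 h46977
  have h46979 := checkRangeG_sound parWF r2 pf46978 h46978
  have h46980 := checkRangeG_sound parWF r2 pf46979 h46979
  have h46981 := checkRangeG_sound parWF r2 pf46980 h46980
  have h46982 := checkRangeG_sound parWF r2 pf46981 h46981
  have h46983 := checkRangeG_sound parWF r2 pf46982 h46982
  have h46984 := checkRangeG_sound parWF r2 pf46983 h46983
  have h46985 := checkRangeG_sound parWF r2 pf46984 h46984
  have h46986 := checkRangeG_sound parWF r2 pf46985 h46985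
  have h46987 := checkRangeG_sound parWF r2 pf46986 h46986
  have h46988 := checkRangeG_sound parWF r2 pf46987 h46987
  have h46989 := checkRangeG_sound parWF r2 pf46988 h46988
  have h46990 := checkRangeG_sound parWF r2 pf46989 h46989
  have h46991 := checkRangeG_sound parWF r2 pf46990 h46990
  have h46992 := checkRangeG_sound parWF r2 pf46991 h46991
  have h46993 := checkRangeG_sound parWF r2 pf46992 h46992
  have h46994 := checkRangeG_sound parWF r2 pf46993 h46993
  have h46995 := checkRangeG_sound parWF r2 pf46994 h46994
  have h46996 := checkRangeG_sound parWF r2 pf46995 h46995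
  have h46997 := checkRangeG_sound parWF r2 pf46996 h46996
  have h46998 := checkRangeG_sound parWF r2 pf46997 h46997
  have h46999 := checkRangeG_sound parWF r2 pf46998 h46998
  have h47000 := checkRangeG_sound parWF r2 pf46999 h46999
  exact h47000

theorem c940 (h47000 : ∀ j, j < 164807 → GoodG.{u} par (db j)) : ∀ j, j < 164857 → GoodG.{u} par (db j) := by
  have h47001 := checkRangeG_sound parWF r2 pf47000 h47000
  have h47002 := checkRangeG_sound parWF r2 pf47001 h47001
  have h47003 := checkRangeG_sound parWF r2 pf47002 h47002
  have h47004 := checkRangeG_sound parWF r2 pf47003 h47003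
  have h47005 := checkRangeG_sound parWF r2 pf47004 h47004
  have h47006 := checkRangeG_sound parWF r2 pf47005 h47005
  have h47007 := checkRangeG_sound parWF r2 pf47006 h47006
  have h47008 := checkRangeG_sound parWF r2 pf47007 h47007
  have h47009 := checkRangeG_sound parWF r2 pf47008 h47008
  have h47010 := checkRangeG_sound parWF r2 pf47009 h47009
  have h47011 := checkRangeG_sound parWF r2 pf47010 h47010
  have h47012 := checkRangeG_sound parWF r2 pf47011 h47011
  have h47013 := checkRangeG_sound parWF r2 pf47012 h47012
  have h47014 := checkRangeG_sound parWF r2 pf47013 h47013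
  have h47015 := checkRangeG_sound parWF r2 pf47014 h47014
  have h47016 := checkRangeG_sound parWF r2 pf47015 h47015
  have h47017 := checkRangeG_sound parWF r2 pf47016 h47016
  have h47018 := checkRangeG_sound parWF r2 pf47017 h47017
  have h47019 := checkRangeG_sound parWF r2 pf47018 h47018
  have h47020 := checkRangeG_sound parWF r2 pf47019 h47019
  have h47021 := checkRangeG_sound parWF r2 pf47020 h47020
  have h47022 := checkRangeG_sound parWF r2 pf47021 h47021
  have h47023 := checkRangeG_sound parWF r2 pf47022 h47022
  have h47024 := checkRangeG_sound parWF r2 pf47023 h47023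
  have h47025 := checkRangeG_sound parWF r2 pf47024 h47024
  have h47026 := checkRangeG_sound parWF r2 pf47025 h47025
  have h47027 := checkRangeG_sound parWF r2 pf47026 h47026
  have h47028 := checkRangeG_sound parWF r2 pf47027 h47027
  have h47029 := checkRangeG_sound parWF r2 pf47028 h47028
  have h47030 := checkRangeG_sound parWF r2 pf47029 h47029
  have h47031 := checkRangeG_sound parWF r2 pf47030 h47030
  have h47032 := checkRangeG_sound parWF r2 pf47031 h47031
  have h47033 := checkRangeG_sound parWF r2 pf47032 h47032
  have h47034 := checkRangeG_sound parWF r2 pf47033 h47033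
  have h47035 := checkRangeG_sound parWF r2 pf47034 h47034
  have h47036 := checkRangeG_sound parWF r2 pf47035 h47035
  have h47037 := checkRangeG_sound parWF r2 pf47036 h47036
  have h47038 := checkRangeG_sound parWF r2 pf47037 h47037
  have h47039 := checkRangeG_sound parWF r2 pf47038 h47038
  have h47040 := checkRangeG_sound parWF r2 pf47039 h47039
  have h47041 := checkRangeG_sound parWF r2 pf47040 h47040
  have h47042 := checkRangeG_sound parWF r2 pf47041 h47041
  have h47043 := checkRangeG_sound parWF r2 pf47042 h47042
  have h47044 := checkRangeG_sound parWF r2 pf47043 h47043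
  have h47045 := checkRangeG_sound parWF r2 pf47044 h47044
  have h47046 := checkRangeG_sound parWF r2 pf47045 h47045
  have h47047 := checkRangeG_sound parWF r2 pf47046 h47046
  have h47048 := checkRangeG_sound parWF r2 pf47047 h47047
  have h47049 := checkRangeG_sound parWF r2 pf47048 h47048
  have h47050 := checkRangeG_sound parWF r2 pf47049 h47049
  exact h47050

theorem c941 (h47050 : ∀ j, j < 164857 → GoodG.{u} par (db j)) : ∀ j, j < 164907 → GoodG.{u} par (db j) := by
  have h47051 := checkRangeG_sound parWF r2 pf47050 h47050
  have h47052 := checkRangeG_sound parWF r2 pf47051 h47051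
  have h47053 := checkRangeG_sound parWF r2 pf47052 h47052
  have h47054 := checkRangeG_sound parWF r2 pf47053 h47053
  have h47055 := checkRangeG_sound parWF r2 pf47054 h47054
  have h47056 := checkRangeG_sound parWF r2 pf47055 h47055
  have h47057 := checkRangeG_sound parWF r2 pf47056 h47056
  have h47058 := checkRangeG_sound parWF r2 pf47057 h47057
  have h47059 := checkRangeG_sound parWF r2 pf47058 h47058
  have h47060 := checkRangeG_sound parWF r2 pf47059 h47059
  have h47061 := checkRangeG_sound parWF r2 pf47060 h47060
  have h47062 := checkRangeG_sound parWF r2 pf47061 h47061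
  have h47063 := checkRangeG_sound parWF r2 pf47062 h47062
  have h47064 := checkRangeG_sound parWF r2 pf47063 h47063
  have h47065 := checkRangeG_sound parWF r2 pf47064 h47064
  have h47066 := checkRangeG_sound parWF r2 pf47065 h47065
  have h47067 := checkRangeG_sound parWF r2 pf47066 h47066
  have h47068 := checkRangeG_sound parWF r2 pf47067 h47067
  have h47069 := checkRangeG_sound parWF r2 pf47068 h47068
  have h47070 := checkRangeG_sound parWF r2 pf47069 h47069
  have h47071 := checkRangeG_sound parWF r2 pf47070 h47070
  have h47072 := checkRangeG_sound parWF r2 pf47071 h47071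
  have h47073 := checkRangeG_sound parWF r2 pf47072 h47072
  have h47074 := checkRangeG_sound parWF r2 pf47073 h47073
  have h47075 := checkRangeG_sound parWF r2 pf47074 h47074
  have h47076 := checkRangeG_sound parWF r2 pf47075 h47075
  have h47077 := checkRangeG_sound parWF r2 pf47076 h47076
  have h47078 := checkRangeG_sound parWF r2 pf47077 h47077
  have h47079 := checkRangeG_sound parWF r2 pf47078 h47078
  have h47080 := checkRangeG_sound parWF r2 pf47079 h47079
  have h47081 := checkRangeG_sound parWF r2 pf47080 h47080
  have h47082 := checkRangeG_sound parWF r2 pf47081 h47081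
  have h47083 := checkRangeG_sound parWF r2 pf47082 h47082
  have h47084 := checkRangeG_sound parWF r2 pf47083 h47083
  have h47085 := checkRangeG_sound parWF r2 pf47084 h47084
  have h47086 := checkRangeG_sound parWF r2 pf47085 h47085
  have h47087 := checkRangeG_sound parWF r2 pf47086 h47086
  have h47088 := checkRangeG_sound parWF r2 pf47087 h47087
  have h47089 := checkRangeG_sound parWF r2 pf47088 h47088
  have h47090 := checkRangeG_sound parWF r2 pf47089 h47089
  have h47091 := checkRangeG_sound parWF r2 pf47090 h47090
  have h47092 := checkRangeG_sound parWF r2 pf47091 h47091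
  have h47093 := checkRangeG_sound parWF r2 pf47092 h47092
  have h47094 := checkRangeG_sound parWF r2 pf47093 h47093
  have h47095 := checkRangeG_sound parWF r2 pf47094 h47094
  have h47096 := checkRangeG_sound parWF r2 pf47095 h47095
  have h47097 := checkRangeG_sound parWF r2 pf47096 h47096
  have h47098 := checkRangeG_sound parWF r2 pf47097 h47097
  have h47099 := checkRangeG_sound parWF r2 pf47098 h47098
  have h47100 := checkRangeG_sound parWF r2 pf47099 h47099
  exact h47100

theorem c942 (h47100 : ∀ j, j < 164907 → GoodG.{u} par (db j)) : ∀ j, j < 164958 → GoodG.{u} par (db j) := by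
  have h47101 := checkRangeG_sound parWF r2 pf47100 h47100
  have h47102 := checkRangeG_sound parWF r2 pf47101 h47101
  have h47103 := checkRangeG_sound parWF r2 pf47102 h47102
  have h47104 := checkRangeG_sound parWF r2 pf47103 h47103
  have h47105 := checkRangeG_sound parWF r2 pf47104 h47104
  have h47106 := checkRangeG_sound parWF r2 pf47105 h47105
  have h47107 := checkRangeG_sound parWF r2 pf47106 h47106
  have h47108 := checkRangeG_sound parWF r2 pf47107 h47107
  have h47109 := checkRangeG_sound parWF r2 pf47108 h47108
  have h47110 := checkRangeG_sound parWF r2 pf47109 h47109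
  have h47111 := checkRangeG_sound parWF r2 pf47110 h47110
  have h47112 := checkRangeG_sound parWF r2 pf47111 h47111
  have h47113 := checkRangeG_sound parWF r2 pf47112 h47112
  have h47114 := checkRangeG_sound parWF r2 pf47113 h47113
  have h47115 := checkRangeG_sound parWF r2 pf47114 h47114
  have h47116 := checkRangeG_sound parWF r2 pf47115 h47115
  have h47117 := checkRangeG_sound parWF r2 pf47116 h47116
  have h47118 := checkRangeG_sound parWF r2 pf47117 h47117
  have h47119 := checkRangeG_sound parWF r2 pf47118 h47118
  have h47120 := checkRangeG_sound parWF r2 pf47119 h47119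
  have h47121 := checkRangeG_sound parWF r2 pf47120 h47120
  have h47122 := checkRangeG_sound parWF r2 pf47121 h47121
  have h47123 := checkRangeG_sound parWF r2 pf47122 h47122
  have h47124 := checkRangeG_sound parWF r2 pf47123 h47123
  have h47125 := checkRangeG_sound parWF r2 pf47124 h47124
  have h47126 := checkRangeG_sound parWF r2 pf47125 h47125
  have h47127 := checkRangeG_sound parWF r2 pf47126 h47126
  have h47128 := checkRangeG_sound parWF r2 pf47127 h47127
  have h47129 := checkRangeG_sound parWF r2 pf47128 h47128
  have h47130 := checkRangeG_sound parWF r2 pf47129 h47129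
  have h47131 := checkRangeG_sound parWF r2 pf47130 h47130
  have h47132 := checkRangeG_sound parWF r2 pf47131 h47131
  have h47133 := checkRangeG_sound parWF r2 pf47132 h47132
  have h47134 := checkRangeG_sound parWF r2 pf47133 h47133
  have h47135 := checkRangeG_sound parWF r2 pf47134 h47134
  have h47136 := checkRangeG_sound parWF r2 pf47135 h47135
  have h47137 := checkRangeG_sound parWF r2 pf47136 h47136
  have h47138 := checkRangeG_sound parWF r2 pf47137 h47137
  have h47139 := checkRangeG_sound parWF r2 pf47138 h47138
  have h47140 := checkRangeG_sound parWF r2 pf47139 h47139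
  have h47141 := checkRangeG_sound parWF r2 pf47140 h47140
  have h47142 := checkRangeG_sound parWF r2 pf47141 h47141
  have h47143 := checkRangeG_sound parWF r2 pf47142 h47142
  have h47144 := checkRangeG_sound parWF r2 pf47143 h47143
  have h47145 := checkRangeG_sound parWF r2 pf47144 h47144
  have h47146 := checkRangeG_sound parWF r2 pf47145 h47145
  have h47147 := checkRangeG_sound parWF r2 pf47146 h47146
  have h47148 := checkRangeG_sound parWF r2 pf47147 h47147
  have h47149 := checkRangeG_sound parWF r2 pf47148 h47148
  have h47150 := checkRangeG_sound parWF r2 pf47149 h47149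
  exact h47150

theorem c943 (h47150 : ∀ j, j < 164958 → GoodG.{u} par (db j)) : ∀ j, j < 165008 → GoodG.{u} par (db j) := by
  have h47151 := checkRangeG_sound parWF r2 pf47150 h47150
  have h47152 := checkRangeG_sound parWF r2 pf47151 h47151
  have h47153 := checkRangeG_sound parWF r2 pf47152 h47152
  have h47154 := checkRangeG_sound parWF r2 pf47153 h47153
  have h47155 := checkRangeG_sound parWF r2 pf47154 h47154
  have h47156 := checkRangeG_sound parWF r2 pf47155 h47155
  have h47157 := checkRangeG_sound parWF r2 pf47156 h47156
  have h47158 := checkRangeG_sound parWF r2 pf47157 h47157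
  have h47159 := checkRangeG_sound parWF r2 pf47158 h47158
  have h47160 := checkRangeG_sound parWF r2 pf47159 h47159
  have h47161 := checkRangeG_sound parWF r2 pf47160 h47160
  have h47162 := checkRangeG_sound parWF r2 pf47161 h47161
  have h47163 := checkRangeG_sound parWF r2 pf47162 h47162
  have h47164 := checkRangeG_sound parWF r2 pf47163 h47163
  have h47165 := checkRangeG_sound parWF r2 pf47164 h47164
  have h47166 := checkRangeG_sound parWF r2 pf47165 h47165
  have h47167 := checkRangeG_sound parWF r2 pf47166 h47166
  have h47168 := checkRangeG_sound parWF r2 pf47167 h47167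
  have h47169 := checkRangeG_sound parWF r2 pf47168 h47168
  have h47170 := checkRangeG_sound parWF r2 pf47169 h47169
  have h47171 := checkRangeG_sound parWF r2 pf47170 h47170
  have h47172 := checkRangeG_sound parWF r2 pf47171 h47171
  have h47173 := checkRangeG_sound parWF r2 pf47172 h47172
  have h47174 := checkRangeG_sound parWF r2 pf47173 h47173
  have h47175 := checkRangeG_sound parWF r2 pf47174 h47174
  have h47176 := checkRangeG_sound parWF r2 pf47175 h47175
  have h47177 := checkRangeG_sound parWF r2 pf47176 h47176
  have h47178 := checkRangeG_sound parWF r2 pf47177 h47177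
  have h47179 := checkRangeG_sound parWF r2 pf47178 h47178
  have h47180 := checkRangeG_sound parWF r2 pf47179 h47179
  have h47181 := checkRangeG_sound parWF r2 pf47180 h47180
  have h47182 := checkRangeG_sound parWF r2 pf47181 h47181
  have h47183 := checkRangeG_sound parWF r2 pf47182 h47182
  have h47184 := checkRangeG_sound parWF r2 pf47183 h47183
  have h47185 := checkRangeG_sound parWF r2 pf47184 h47184
  have h47186 := checkRangeG_sound parWF r2 pf47185 h47185
  have h47187 := checkRangeG_sound parWF r2 pf47186 h47186
  have h47188 := checkRangeG_sound parWF r2 pf47187 h47187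
  have h47189 := checkRangeG_sound parWF r2 pf47188 h47188
  have h47190 := checkRangeG_sound parWF r2 pf47189 h47189
  have h47191 := checkRangeG_sound parWF r2 pf47190 h47190
  have h47192 := checkRangeG_sound parWF r2 pf47191 h47191
  have h47193 := checkRangeG_sound parWF r2 pf47192 h47192
  have h47194 := checkRangeG_sound parWF r2 pf47193 h47193
  have h47195 := checkRangeG_sound parWF r2 pf47194 h47194
  have h47196 := checkRangeG_sound parWF r2 pf47195 h47195
  have h47197 := checkRangeG_sound parWF r2 pf47196 h47196
  have h47198 := checkRangeG_sound parWF r2 pf47197 h47197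
  have h47199 := checkRangeG_sound parWF r2 pf47198 h47198
  have h47200 := checkRangeG_sound parWF r2 pf47199 h47199
  exact h47200

theorem c944 (h47200 : ∀ j, j < 165008 → GoodG.{u} par (db j)) : ∀ j, j < 165062 → GoodG.{u} par (db j) := by
  have h47201 := checkRangeG_sound parWF r2 pf47200 h47200
  have h47202 := checkRangeG_sound parWF r2 pf47201 h47201
  have h47203 := checkRangeG_sound parWF r2 pf47202 h47202
  have h47204 := checkRangeG_sound parWF r2 pf47203 h47203
  have h47205 := checkRangeG_sound parWF r2 pf47204 h47204
  have h47206 := checkRangeG_sound parWF r2 pf47205 h47205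
  have h47207 := checkRangeG_sound parWF r2 pf47206 h47206
  have h47208 := checkRangeG_sound parWF r2 pf47207 h47207
  have h47209 := checkRangeG_sound parWF r2 pf47208 h47208
  have h47210 := checkRangeG_sound parWF r2 pf47209 h47209
  have h47211 := checkRangeG_sound parWF r2 pf47210 h47210
  have h47212 := checkRangeG_sound parWF r2 pf47211 h47211
  have h47213 := checkRangeG_sound parWF r2 pf47212 h47212
  have h47214 := checkRangeG_sound parWF r2 pf47213 h47213
  have h47215 := checkRangeG_sound parWF r2 pf47214 h47214
  have h47216 := checkRangeG_sound parWF r2 pf47215 h47215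
  have h47217 := checkRangeG_sound parWF r2 pf47216 h47216
  have h47218 := checkRangeG_sound parWF r2 pf47217 h47217
  have h47219 := checkRangeG_sound parWF r2 pf47218 h47218
  have h47220 := checkRangeG_sound parWF r2 pf47219 h47219
  have h47221 := checkRangeG_sound parWF r2 pf47220 h47220
  have h47222 := checkRangeG_sound parWF r2 pf47221 h47221
  have h47223 := checkRangeG_sound parWF r2 pf47222 h47222
  have h47224 := checkRangeG_sound parWF r2 pf47223 h47223
  have h47225 := checkRangeG_sound parWF r2 pf47224 h47224
  have h47226 := checkRangeG_sound parWF r2 pf47225 h47225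
  have h47227 := checkRangeG_sound parWF r2 pf47226 h47226
  have h47228 := checkRangeG_sound parWF r2 pf47227 h47227
  have h47229 := checkRangeG_sound parWF r2 pf47228 h47228
  have h47230 := checkRangeG_sound parWF r2 pf47229 h47229
  have h47231 := checkRangeG_sound parWF r2 pf47230 h47230
  have h47232 := checkRangeG_sound parWF r2 pf47231 h47231
  have h47233 := checkRangeG_sound parWF r2 pf47232 h47232
  have h47234 := checkRangeG_sound parWF r2 pf47233 h47233
  have h47235 := checkRangeG_sound parWF r2 pf47234 h47234
  have h47236 := checkRangeG_sound parWF r2 pf47235 h47235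
  have h47237 := checkRangeG_sound parWF r2 pf47236 h47236
  have h47238 := checkRangeG_sound parWF r2 pf47237 h47237
  have h47239 := checkRangeG_sound parWF r2 pf47238 h47238
  have h47240 := checkRangeG_sound parWF r2 pf47239 h47239
  have h47241 := checkRangeG_sound parWF r2 pf47240 h47240
  have h47242 := checkRangeG_sound parWF r2 pf47241 h47241
  have h47243 := checkRangeG_sound parWF r2 pf47242 h47242
  have h47244 := checkRangeG_sound parWF r2 pf47243 h47243
  have h47245 := checkRangeG_sound parWF r2 pf47244 h47244
  have h47246 := checkRangeG_sound parWF r2 pf47245 h47245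
  have h47247 := checkRangeG_sound parWF r2 pf47246 h47246
  have h47248 := checkRangeG_sound parWF r2 pf47247 h47247
  have h47249 := checkRangeG_sound parWF r2 pf47248 h47248
  have h47250 := checkRangeG_sound parWF r2 pf47249 h47249
  exact h47250

theorem c945 (h47250 : ∀ j, j < 165062 → GoodG.{u} par (db j)) : ∀ j, j < 165116 → GoodG.{u} par (db j) := by
  have h47251 := checkRangeG_sound parWF r2 pf47250 h47250
  have h47252 := checkRangeG_sound parWF r2 pf47251 h47251
  have h47253 := checkRangeG_sound parWF r2 pf47252 h47252
  have h47254 := checkRangeG_sound parWF r2 pf47253 h47253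
  have h47255 := checkRangeG_sound parWF r2 pf47254 h47254
  have h47256 := checkRangeG_sound parWF r2 pf47255 h47255
  have h47257 := checkRangeG_sound parWF r2 pf47256 h47256
  have h47258 := checkRangeG_sound parWF r2 pf47257 h47257
  have h47259 := checkRangeG_sound parWF r2 pf47258 h47258
  have h47260 := checkRangeG_sound parWF r2 pf47259 h47259
  have h47261 := checkRangeG_sound parWF r2 pf47260 h47260
  have h47262 := checkRangeG_sound parWF r2 pf47261 h47261
  have h47263 := checkRangeG_sound parWF r2 pf47262 h47262
  have h47264 := checkRangeG_sound parWF r2 pf47263 h47263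
  have h47265 := checkRangeG_sound parWF r2 pf47264 h47264
  have h47266 := checkRangeG_sound parWF r2 pf47265 h47265
  have h47267 := checkRangeG_sound parWF r2 pf47266 h47266
  have h47268 := checkRangeG_sound parWF r2 pf47267 h47267
  have h47269 := checkRangeG_sound parWF r2 pf47268 h47268
  have h47270 := checkRangeG_sound parWF r2 pf47269 h47269
  have h47271 := checkRangeG_sound parWF r2 pf47270 h47270
  have h47272 := checkRangeG_sound parWF r2 pf47271 h47271
  have h47273 := checkRangeG_sound parWF r2 pf47272 h47272
  have h47274 := checkRangeG_sound parWF r2 pf47273 h47273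
  have h47275 := checkRangeG_sound parWF r2 pf47274 h47274
  have h47276 := checkRangeG_sound parWF r2 pf47275 h47275
  have h47277 := checkRangeG_sound parWF r2 pf47276 h47276
  have h47278 := checkRangeG_sound parWF r2 pf47277 h47277
  have h47279 := checkRangeG_sound parWF r2 pf47278 h47278
  have h47280 := checkRangeG_sound parWF r2 pf47279 h47279
  have h47281 := checkRangeG_sound parWF r2 pf47280 h47280
  have h47282 := checkRangeG_sound parWF r2 pf47281 h47281
  have h47283 := checkRangeG_sound parWF r2 pf47282 h47282
  have h47284 := checkRangeG_sound parWF r2 pf47283 h47283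
  have h47285 := checkRangeG_sound parWF r2 pf47284 h47284
  have h47286 := checkRangeG_sound parWF r2 pf47285 h47285
  have h47287 := checkRangeG_sound parWF r2 pf47286 h47286
  have h47288 := checkRangeG_sound parWF r2 pf47287 h47287
  have h47289 := checkRangeG_sound parWF r2 pf47288 h47288
  have h47290 := checkRangeG_sound parWF r2 pf47289 h47289
  have h47291 := checkRangeG_sound parWF r2 pf47290 h47290
  have h47292 := checkRangeG_sound parWF r2 pf47291 h47291
  have h47293 := checkRangeG_sound parWF r2 pf47292 h47292
  have h47294 := checkRangeG_sound parWF r2 pf47293 h47293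
  have h47295 := checkRangeG_sound parWF r2 pf47294 h47294
  have h47296 := checkRangeG_sound parWF r2 pf47295 h47295
  have h47297 := checkRangeG_sound parWF r2 pf47296 h47296
  have h47298 := checkRangeG_sound parWF r2 pf47297 h47297
  have h47299 := checkRangeG_sound parWF r2 pf47298 h47298
  have h47300 := checkRangeG_sound parWF r2 pf47299 h47299
  exact h47300

theorem c946 (h47300 : ∀ j, j < 165116 → GoodG.{u} par (db j)) : ∀ j, j < 165181 → GoodG.{u} par (db j) := by
  have h47301 := checkRangeG_sound parWF r2 pf47300 h47300
  have h47302 := checkRangeG_sound parWF r2 pf47301 h47301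
  have h47303 := checkRangeG_sound parWF r2 pf47302 h47302
  have h47304 := checkRangeG_sound parWF r2 pf47303 h47303
  have h47305 := checkRangeG_sound parWF r2 pf47304 h47304
  have h47306 := checkRangeG_sound parWF r2 pf47305 h47305
  have h47307 := checkRangeG_sound parWF r2 pf47306 h47306
  have h47308 := checkRangeG_sound parWF r2 pf47307 h47307
  have h47309 := checkRangeG_sound parWF r2 pf47308 h47308
  have h47310 := checkRangeG_sound parWF r2 pf47309 h47309
  have h47311 := checkRangeG_sound parWF r2 pf47310 h47310
  have h47312 := checkRangeG_sound parWF r2 pf47311 h47311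
  have h47313 := checkRangeG_sound parWF r2 pf47312 h47312
  have h47314 := checkRangeG_sound parWF r2 pf47313 h47313
  have h47315 := checkRangeG_sound parWF r2 pf47314 h47314
  have h47316 := checkRangeG_sound parWF r2 pf47315 h47315
  have h47317 := checkRangeG_sound parWF r2 pf47316 h47316
  have h47318 := checkRangeG_sound parWF r2 pf47317 h47317
  have h47319 := checkRangeG_sound parWF r2 pf47318 h47318
  have h47320 := checkRangeG_sound parWF r2 pf47319 h47319
  have h47321 := checkRangeG_sound parWF r2 pf47320 h47320
  have h47322 := checkRangeG_sound parWF r2 pf47321 h47321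
  have h47323 := checkRangeG_sound parWF r2 pf47322 h47322
  have h47324 := checkRangeG_sound parWF r2 pf47323 h47323
  have h47325 := checkRangeG_sound parWF r2 pf47324 h47324
  have h47326 := checkRangeG_sound parWF r2 pf47325 h47325
  have h47327 := checkRangeG_sound parWF r2 pf47326 h47326
  have h47328 := checkRangeG_sound parWF r2 pf47327 h47327
  have h47329 := checkRangeG_sound parWF r2 pf47328 h47328
  have h47330 := checkRangeG_sound parWF r2 pf47329 h47329
  have h47331 := checkRangeG_sound parWF r2 pf47330 h47330
  have h47332 := checkRangeG_sound parWF r2 pf47331 h47331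
  have h47333 := checkRangeG_sound parWF r2 pf47332 h47332
  have h47334 := checkRangeG_sound parWF r2 pf47333 h47333
  have h47335 := checkRangeG_sound parWF r2 pf47334 h47334
  have h47336 := checkRangeG_sound parWF r2 pf47335 h47335
  have h47337 := checkRangeG_sound parWF r2 pf47336 h47336
  have h47338 := checkRangeG_sound parWF r2 pf47337 h47337
  have h47339 := checkRangeG_sound parWF r2 pf47338 h47338
  have h47340 := checkRangeG_sound parWF r2 pf47339 h47339
  have h47341 := checkRangeG_sound parWF r2 pf47340 h47340
  have h47342 := checkRangeG_sound parWF r2 pf47341 h47341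
  have h47343 := checkRangeG_sound parWF r2 pf47342 h47342
  have h47344 := checkRangeG_sound parWF r2 pf47343 h47343
  have h47345 := checkRangeG_sound parWF r2 pf47344 h47344
  have h47346 := checkRangeG_sound parWF r2 pf47345 h47345
  have h47347 := checkRangeG_sound parWF r2 pf47346 h47346
  have h47348 := checkRangeG_sound parWF r2 pf47347 h47347
  have h47349 := checkRangeG_sound parWF r2 pf47348 h47348
  have h47350 := checkRangeG_sound parWF r2 pf47349 h47349
  exact h47350

theorem c947 (h47350 : ∀ j, j < 165181 → GoodG.{u} par (db j)) : ∀ j, j < 165198 → GoodG.{u} par (db j) := by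
  have h47351 := checkRangeG_sound parWF r2 pf47350 h47350
  have h47352 := checkRangeG_sound parWF r2 pf47351 h47351
  have h47353 := checkRangeG_sound parWF r2 pf47352 h47352
  have h47354 := checkRangeG_sound parWF r2 pf47353 h47353
  have h47355 := checkRangeG_sound parWF r2 pf47354 h47354
  have h47356 := checkRangeG_sound parWF r2 pf47355 h47355
  have h47357 := checkRangeG_sound parWF r2 pf47356 h47356
  have h47358 := checkRangeG_sound parWF r2 pf47357 h47357
  exact h47358


end Vale.Agent.P045g.C61
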