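import Vale.Agent.P045g.C61.WF
import Vale.Agent.P045g.C61.Pf80
import Vale.Agent.P045g.C61.Pf81
import Vale.Agent.P045g.C61.Pf82
import Vale.Agent.P045g.C61.Pf83
import Vale.Agent.P045g.C61.Pf84
import Vale.Agent.P045g.C61.Pf85
import Vale.Agent.P045g.C61.Pf86
import Vale.Agent.P045g.C61.Pf87
import Vale.Agent.P045g.C61.Pf88
import Vale.Agent.P045g.C61.Pf89

namespace Vale.Agent.P045g.C61

open Vale.Agent.P045b Vale.Agent.P045g

universe u

theorem c96 (h4800 : ∀ j, j < 13828 → GoodG.{u} par (db j)) : ∀ j, j < 13946 → GoodG.{u} par (db j) := by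
  have h4801 := checkRangeG_sound parWF r2 pf4800 h4800
  have h4802 := checkRangeG_sound parWF r2 pf4801 h4801
  have h4803 := checkRangeG_sound parWF r2 pf4802 h4802
  have h4804 := checkRangeG_sound parWF r2 pf4803 h4803
  have h4805 := checkRangeG_sound parWF r2 pf4804 h4804
  have h4806 := checkRangeG_sound parWF r2 pf4805 h4805
  have h4807 := checkRangeG_sound parWF r2 pf4806 h4806
  have h4808 := checkRangeG_sound parWF r2 pf4807 h4807
  have h4809 := checkRangeG_sound parWF r2 pf4808 h4808
  have h4810 := checkRangeG_sound parWF r2 pf4809 h4809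
  have h4811 := checkRangeG_sound parWF r2 pf4810 h4810
  have h4812 := checkRangeG_sound parWF r2 pf4811 h4811
  have h4813 := checkRangeG_sound parWF r2 pf4812 h4812
  have h4814 := checkRangeG_sound parWF r2 pf4813 h4813
  have h4815 := checkRangeG_sound parWF r2 pf4814 h4814
  have h4816 := checkRangeG_sound parWF r2 pf4815 h4815
  have h4817 := checkRangeG_sound parWF r2 pf4816 h4816
  have h4818 := checkRangeG_sound parWF r2 pf4817 h4817
  have h4819 := checkRangeG_sound parWF r2 pf4818 h4818
  have h4820 := checkRangeG_sound parWF r2 pf4819 h4819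
  have h4821 := checkRangeG_sound parWF r2 pf4820 h4820
  have h4822 := checkRangeG_sound parWF r2 pf4821 h4821
  have h4823 := checkRangeG_sound parWF r2 pf4822 h4822
  have h4824 := checkRangeG_sound parWF r2 pf4823 h4823
  have h4825 := checkRangeG_sound parWF r2 pf4824 h4824
  have h4826 := checkRangeG_sound parWF r2 pf4825 h4825
  have h4827 := checkRangeG_sound parWF r2 pf4826 h4826
  have h4828 := checkRangeG_sound parWF r2 pf4827 h4827
  have h4829 := checkRangeG_sound parWF r2 pf4828 h4828
  have h4830 := checkRangeG_sound parWF r2 pf4829 h4829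
  have h4831 := checkRangeG_sound parWF r2 pf4830 h4830
  have h4832 := checkRangeG_sound parWF r2 pf4831 h4831
  have h4833 := checkRangeG_sound parWF r2 pf4832 h4832
  have h4834 := checkRangeG_sound parWF r2 pf4833 h4833
  have h4835 := checkRangeG_sound parWF r2 pf4834 h4834
  have h4836 := checkRangeG_sound parWF r2 pf4835 h4835
  have h4837 := checkRangeG_sound parWF r2 pf4836 h4836
  have h4838 := checkRangeG_sound parWF r2 pf4837 h4837
  have h4839 := checkRangeG_sound parWF r2 pf4838 h4838
  have h4840 := checkRangeG_sound parWF r2 pf4839 h4839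
  have h4841 := checkRangeG_sound parWF r2 pf4840 h4840
  have h4842 := checkRangeG_sound parWF r2 pf4841 h4841
  have h4843 := checkRangeG_sound parWF r2 pf4842 h4842
  have h4844 := checkRangeG_sound parWF r2 pf4843 h4843
  have h4845 := checkRangeG_sound parWF r2 pf4844 h4844
  have h4846 := checkRangeG_sound parWF r2 pf4845 h4845
  have h4847 := checkRangeG_sound parWF r2 pf4846 h4846
  have h4848 := checkRangeG_sound parWF r2 pf4847 h4847
  have h4849 := checkRangeG_sound parWF r2 pf4848 h4848
  have h4850 := checkRangeG_sound parWF r2 pf4849 h4849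
  exact h4850

theorem c97 (h4850 : ∀ j, j < 13946 → GoodG.{u} par (db j)) : ∀ j, j < 14054 → GoodG.{u} par (db j) := by
  have h4851 := checkRangeG_sound parWF r2 pf4850 h4850
  have h4852 := checkRangeG_sound parWF r2 pf4851 h4851
  have h4853 := checkRangeG_sound parWF r2 pf4852 h4852
  have h4854 := checkRangeG_sound parWF r2 pf4853 h4853
  have h4855 := checkRangeG_sound parWF r2 pf4854 h4854
  have h4856 := checkRangeG_sound parWF r2 pf4855 h4855
  have h4857 := checkRangeG_sound parWF r2 pf4856 h4856
  have h4858 := checkRangeG_sound parWF r2 pf4857 h4857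
  have h4859 := checkRangeG_sound parWF r2 pf4858 h4858
  have h4860 := checkRangeG_sound parWF r2 pf4859 h4859
  have h4861 := checkRangeG_sound parWF r2 pf4860 h4860
  have h4862 := checkRangeG_sound parWF r2 pf4861 h4861
  have h4863 := checkRangeG_sound parWF r2 pf4862 h4862
  have h4864 := checkRangeG_sound parWF r2 pf4863 h4863
  have h4865 := checkRangeG_sound parWF r2 pf4864 h4864
  have h4866 := checkRangeG_sound parWF r2 pf4865 h4865
  have h4867 := checkRangeG_sound parWF r2 pf4866 h4866
  have h4868 := checkRangeG_sound parWF r2 pf4867 h4867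
  have h4869 := checkRangeG_sound parWF r2 pf4868 h4868
  have h4870 := checkRangeG_sound parWF r2 pf4869 h4869
  have h4871 := checkRangeG_sound parWF r2 pf4870 h4870
  have h4872 := checkRangeG_sound parWF r2 pf4871 h4871
  have h4873 := checkRangeG_sound parWF r2 pf4872 h4872
  have h4874 := checkRangeG_sound parWF r2 pf4873 h4873
  have h4875 := checkRangeG_sound parWF r2 pf4874 h4874
  have h4876 := checkRangeG_sound parWF r2 pf4875 h4875
  have h4877 := checkRangeG_sound parWF r2 pf4876 h4876
  have h4878 := checkRangeG_sound parWF r2 pf4877 h4877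
  have h4879 := checkRangeG_sound parWF r2 pf4878 h4878
  have h4880 := checkRangeG_sound parWF r2 pf4879 h4879
  have h4881 := checkRangeG_sound parWF r2 pf4880 h4880
  have h4882 := checkRangeG_sound parWF r2 pf4881 h4881
  have h4883 := checkRangeG_sound parWF r2 pf4882 h4882
  have h4884 := checkRangeG_sound parWF r2 pf4883 h4883
  have h4885 := checkRangeG_sound parWF r2 pf4884 h4884
  have h4886 := checkRangeG_sound parWF r2 pf4885 h4885
  have h4887 := checkRangeG_sound parWF r2 pf4886 h4886
  have h4888 := checkRangeG_sound parWF r2 pf4887 h4887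
  have h4889 := checkRangeG_sound parWF r2 pf4888 h4888
  have h4890 := checkRangeG_sound parWF r2 pf4889 h4889
  have h4891 := checkRangeG_sound parWF r2 pf4890 h4890
  have h4892 := checkRangeG_sound parWF r2 pf4891 h4891
  have h4893 := checkRangeG_sound parWF r2 pf4892 h4892
  have h4894 := checkRangeG_sound parWF r2 pf4893 h4893
  have h4895 := checkRangeG_sound parWF r2 pf4894 h4894
  have h4896 := checkRangeG_sound parWF r2 pf4895 h4895
  have h4897 := checkRangeG_sound parWF r2 pf4896 h4896
  have h4898 := checkRangeG_sound parWF r2 pf4897 h4897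
  have h4899 := checkRangeG_sound parWF r2 pf4898 h4898
  have h4900 := checkRangeG_sound parWF r2 pf4899 h4899
  exact h4900

theorem c98 (h4900 : ∀ j, j < 14054 → GoodG.{u} par (db j)) : ∀ j, j < 14164 → GoodG.{u} par (db j) := by
  have h4901 := checkRangeG_sound parWF r2 pf4900 h4900
  have h4902 := checkRangeG_sound parWF r2 pf4901 h4901
  have h4903 := checkRangeG_sound parWF r2 pf4902 h4902
  have h4904 := checkRangeG_sound parWF r2 pf4903 h4903
  have h4905 := checkRangeG_sound parWF r2 pf4904 h4904
  have h4906 := checkRangeG_sound parWF r2 pf4905 h4905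
  have h4907 := checkRangeG_sound parWF r2 pf4906 h4906
  have h4908 := checkRangeG_sound parWF r2 pf4907 h4907
  have h4909 := checkRangeG_sound parWF r2 pf4908 h4908
  have h4910 := checkRangeG_sound parWF r2 pf4909 h4909
  have h4911 := checkRangeG_sound parWF r2 pf4910 h4910
  have h4912 := checkRangeG_sound parWF r2 pf4911 h4911
  have h4913 := checkRangeG_sound parWF r2 pf4912 h4912
  have h4914 := checkRangeG_sound parWF r2 pf4913 h4913
  have h4915 := checkRangeG_sound parWF r2 pf4914 h4914
  have h4916 := checkRangeG_sound parWF r2 pf4915 h4915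
  have h4917 := checkRangeG_sound parWF r2 pf4916 h4916
  have h4918 := checkRangeG_sound parWF r2 pf4917 h4917
  have h4919 := checkRangeG_sound parWF r2 pf4918 h4918
  have h4920 := checkRangeG_sound parWF r2 pf4919 h4919
  have h4921 := checkRangeG_sound parWF r2 pf4920 h4920
  have h4922 := checkRangeG_sound parWF r2 pf4921 h4921
  have h4923 := checkRangeG_sound parWF r2 pf4922 h4922
  have h4924 := checkRangeG_sound parWF r2 pf4923 h4923
  have h4925 := checkRangeG_sound parWF r2 pf4924 h4924
  have h4926 := checkRangeG_sound parWF r2 pf4925 h4925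
  have h4927 := checkRangeG_sound parWF r2 pf4926 h4926
  have h4928 := checkRangeG_sound parWF r2 pf4927 h4927
  have h4929 := checkRangeG_sound parWF r2 pf4928 h4928
  have h4930 := checkRangeG_sound parWF r2 pf4929 h4929
  have h4931 := checkRangeG_sound parWF r2 pf4930 h4930
  have h4932 := checkRangeG_sound parWF r2 pf4931 h4931
  have h4933 := checkRangeG_sound parWF r2 pf4932 h4932
  have h4934 := checkRangeG_sound parWF r2 pf4933 h4933
  have h4935 := checkRangeG_sound parWF r2 pf4934 h4934
  have h4936 := checkRangeG_sound parWF r2 pf4935 h4935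
  have h4937 := checkRangeG_sound parWF r2 pf4936 h4936
  have h4938 := checkRangeG_sound parWF r2 pf4937 h4937
  have h4939 := checkRangeG_sound parWF r2 pf4938 h4938
  have h4940 := checkRangeG_sound parWF r2 pf4939 h4939
  have h4941 := checkRangeG_sound parWF r2 pf4940 h4940
  have h4942 := checkRangeG_sound parWF r2 pf4941 h4941
  have h4943 := checkRangeG_sound parWF r2 pf4942 h4942
  have h4944 := checkRangeG_sound parWF r2 pf4943 h4943
  have h4945 := checkRangeG_sound parWF r2 pf4944 h4944
  have h4946 := checkRangeG_sound parWF r2 pf4945 h4945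
  have h4947 := checkRangeG_sound parWF r2 pf4946 h4946
  have h4948 := checkRangeG_sound parWF r2 pf4947 h4947
  have h4949 := checkRangeG_sound parWF r2 pf4948 h4948
  have h4950 := checkRangeG_sound parWF r2 pf4949 h4949
  exact h4950

theorem c99 (h4950 : ∀ j, j < 14164 → GoodG.{u} par (db j)) : ∀ j, j < 14274 → GoodG.{u} par (db j) := by
  have h4951 := checkRangeG_sound parWF r2 pf4950 h4950
  have h4952 := checkRangeG_sound parWF r2 pf4951 h4951
  have h4953 := checkRangeG_sound parWF r2 pf4952 h4952
  have h4954 := checkRangeG_sound parWF r2 pf4953 h4953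
  have h4955 := checkRangeG_sound parWF r2 pf4954 h4954
  have h4956 := checkRangeG_sound parWF r2 pf4955 h4955
  have h4957 := checkRangeG_sound parWF r2 pf4956 h4956
  have h4958 := checkRangeG_sound parWF r2 pf4957 h4957
  have h4959 := checkRangeG_sound parWF r2 pf4958 h4958
  have h4960 := checkRangeG_sound parWF r2 pf4959 h4959
  have h4961 := checkRangeG_sound parWF r2 pf4960 h4960
  have h4962 := checkRangeG_sound parWF r2 pf4961 h4961
  have h4963 := checkRangeG_sound parWF r2 pf4962 h4962
  have h4964 := checkRangeG_sound parWF r2 pf4963 h4963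
  have h4965 := checkRangeG_sound parWF r2 pf4964 h4964
  have h4966 := checkRangeG_sound parWF r2 pf4965 h4965
  have h4967 := checkRangeG_sound parWF r2 pf4966 h4966
  have h4968 := checkRangeG_sound parWF r2 pf4967 h4967
  have h4969 := checkRangeG_sound parWF r2 pf4968 h4968
  have h4970 := checkRangeG_sound parWF r2 pf4969 h4969
  have h4971 := checkRangeG_sound parWF r2 pf4970 h4970
  have h4972 := checkRangeG_sound parWF r2 pf4971 h4971
  have h4973 := checkRangeG_sound parWF r2 pf4972 h4972
  have h4974 := checkRangeG_sound parWF r2 pf4973 h4973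
  have h4975 := checkRangeG_sound parWF r2 pf4974 h4974
  have h4976 := checkRangeG_sound parWF r2 pf4975 h4975
  have h4977 := checkRangeG_sound parWF r2 pf4976 h4976
  have h4978 := checkRangeG_sound parWF r2 pf4977 h4977
  have h4979 := checkRangeG_sound parWF r2 pf4978 h4978
  have h4980 := checkRangeG_sound parWF r2 pf4979 h4979
  have h4981 := checkRangeG_sound parWF r2 pf4980 h4980
  have h4982 := checkRangeG_sound parWF r2 pf4981 h4981
  have h4983 := checkRangeG_sound parWF r2 pf4982 h4982
  have h4984 := checkRangeG_sound parWF r2 pf4983 h4983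
  have h4985 := checkRangeG_sound parWF r2 pf4984 h4984
  have h4986 := checkRangeG_sound parWF r2 pf4985 h4985
  have h4987 := checkRangeG_sound parWF r2 pf4986 h4986
  have h4988 := checkRangeG_sound parWF r2 pf4987 h4987
  have h4989 := checkRangeG_sound parWF r2 pf4988 h4988
  have h4990 := checkRangeG_sound parWF r2 pf4989 h4989
  have h4991 := checkRangeG_sound parWF r2 pf4990 h4990
  have h4992 := checkRangeG_sound parWF r2 pf4991 h4991
  have h4993 := checkRangeG_sound parWF r2 pf4992 h4992
  have h4994 := checkRangeG_sound parWF r2 pf4993 h4993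
  have h4995 := checkRangeG_sound parWF r2 pf4994 h4994
  have h4996 := checkRangeG_sound parWF r2 pf4995 h4995
  have h4997 := checkRangeG_sound parWF r2 pf4996 h4996
  have h4998 := checkRangeG_sound parWF r2 pf4997 h4997
  have h4999 := checkRangeG_sound parWF r2 pf4998 h4998
  have h5000 := checkRangeG_sound parWF r2 pf4999 h4999
  exact h5000

theorem c100 (h5000 : ∀ j, j < 14274 → GoodG.{u} par (db j)) : ∀ j, j < 14383 → GoodG.{u} par (db j) := by
  have h5001 := checkRangeG_sound parWF r2 pf5000 h5000
  have h5002 := checkRangeG_sound parWF r2 pf5001 h5001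
  have h5003 := checkRangeG_sound parWF r2 pf5002 h5002
  have h5004 := checkRangeG_sound parWF r2 pf5003 h5003
  have h5005 := checkRangeG_sound parWF r2 pf5004 h5004
  have h5006 := checkRangeG_sound parWF r2 pf5005 h5005
  have h5007 := checkRangeG_sound parWF r2 pf5006 h5006
  have h5008 := checkRangeG_sound parWF r2 pf5007 h5007
  have h5009 := checkRangeG_sound parWF r2 pf5008 h5008
  have h5010 := checkRangeG_sound parWF r2 pf5009 h5009
  have h5011 := checkRangeG_sound parWF r2 pf5010 h5010
  have h5012 := checkRangeG_sound parWF r2 pf5011 h5011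
  have h5013 := checkRangeG_sound parWF r2 pf5012 h5012
  have h5014 := checkRangeG_sound parWF r2 pf5013 h5013
  have h5015 := checkRangeG_sound parWF r2 pf5014 h5014
  have h5016 := checkRangeG_sound parWF r2 pf5015 h5015
  have h5017 := checkRangeG_sound parWF r2 pf5016 h5016
  have h5018 := checkRangeG_sound parWF r2 pf5017 h5017
  have h5019 := checkRangeG_sound parWF r2 pf5018 h5018
  have h5020 := checkRangeG_sound parWF r2 pf5019 h5019
  have h5021 := checkRangeG_sound parWF r2 pf5020 h5020
  have h5022 := checkRangeG_sound parWF r2 pf5021 h5021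
  have h5023 := checkRangeG_sound parWF r2 pf5022 h5022
  have h5024 := checkRangeG_sound parWF r2 pf5023 h5023
  have h5025 := checkRangeG_sound parWF r2 pf5024 h5024
  have h5026 := checkRangeG_sound parWF r2 pf5025 h5025
  have h5027 := checkRangeG_sound parWF r2 pf5026 h5026
  have h5028 := checkRangeG_sound parWF r2 pf5027 h5027
  have h5029 := checkRangeG_sound parWF r2 pf5028 h5028
  have h5030 := checkRangeG_sound parWF r2 pf5029 h5029
  have h5031 := checkRangeG_sound parWF r2 pf5030 h5030
  have h5032 := checkRangeG_sound parWF r2 pf5031 h5031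
  have h5033 := checkRangeG_sound parWF r2 pf5032 h5032
  have h5034 := checkRangeG_sound parWF r2 pf5033 h5033
  have h5035 := checkRangeG_sound parWF r2 pf5034 h5034
  have h5036 := checkRangeG_sound parWF r2 pf5035 h5035
  have h5037 := checkRangeG_sound parWF r2 pf5036 h5036
  have h5038 := checkRangeG_sound parWF r2 pf5037 h5037
  have h5039 := checkRangeG_sound parWF r2 pf5038 h5038
  have h5040 := checkRangeG_sound parWF r2 pf5039 h5039
  have h5041 := checkRangeG_sound parWF r2 pf5040 h5040
  have h5042 := checkRangeG_sound parWF r2 pf5041 h5041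
  have h5043 := checkRangeG_sound parWF r2 pf5042 h5042
  have h5044 := checkRangeG_sound parWF r2 pf5043 h5043
  have h5045 := checkRangeG_sound parWF r2 pf5044 h5044
  have h5046 := checkRangeG_sound parWF r2 pf5045 h5045
  have h5047 := checkRangeG_sound parWF r2 pf5046 h5046
  have h5048 := checkRangeG_sound parWF r2 pf5047 h5047
  have h5049 := checkRangeG_sound parWF r2 pf5048 h5048
  have h5050 := checkRangeG_sound parWF r2 pf5049 h5049
  exact h5050

theorem c101 (h5050 : ∀ j, j < 14383 → GoodG.{u} par (db j)) : ∀ j, j < 14499 → GoodG.{u} par (db j) := by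
  have h5051 := checkRangeG_sound parWF r2 pf5050 h5050
  have h5052 := checkRangeG_sound parWF r2 pf5051 h5051
  have h5053 := checkRangeG_sound parWF r2 pf5052 h5052
  have h5054 := checkRangeG_sound parWF r2 pf5053 h5053
  have h5055 := checkRangeG_sound parWF r2 pf5054 h5054
  have h5056 := checkRangeG_sound parWF r2 pf5055 h5055
  have h5057 := checkRangeG_sound parWF r2 pf5056 h5056
  have h5058 := checkRangeG_sound parWF r2 pf5057 h5057
  have h5059 := checkRangeG_sound parWF r2 pf5058 h5058
  have h5060 := checkRangeG_sound parWF r2 pf5059 h5059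
  have h5061 := checkRangeG_sound parWF r2 pf5060 h5060
  have h5062 := checkRangeG_sound parWF r2 pf5061 h5061
  have h5063 := checkRangeG_sound parWF r2 pf5062 h5062
  have h5064 := checkRangeG_sound parWF r2 pf5063 h5063
  have h5065 := checkRangeG_sound parWF r2 pf5064 h5064
  have h5066 := checkRangeG_sound parWF r2 pf5065 h5065
  have h5067 := checkRangeG_sound parWF r2 pf5066 h5066
  have h5068 := checkRangeG_sound parWF r2 pf5067 h5067
  have h5069 := checkRangeG_sound parWF r2 pf5068 h5068
  have h5070 := checkRangeG_sound parWF r2 pf5069 h5069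
  have h5071 := checkRangeG_sound parWF r2 pf5070 h5070
  have h5072 := checkRangeG_sound parWF r2 pf5071 h5071
  have h5073 := checkRangeG_sound parWF r2 pf5072 h5072
  have h5074 := checkRangeG_sound parWF r2 pf5073 h5073
  have h5075 := checkRangeG_sound parWF r2 pf5074 h5074
  have h5076 := checkRangeG_sound parWF r2 pf5075 h5075
  have h5077 := checkRangeG_sound parWF r2 pf5076 h5076
  have h5078 := checkRangeG_sound parWF r2 pf5077 h5077
  have h5079 := checkRangeG_sound parWF r2 pf5078 h5078
  have h5080 := checkRangeG_sound parWF r2 pf5079 h5079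
  have h5081 := checkRangeG_sound parWF r2 pf5080 h5080
  have h5082 := checkRangeG_sound parWF r2 pf5081 h5081
  have h5083 := checkRangeG_sound parWF r2 pf5082 h5082
  have h5084 := checkRangeG_sound parWF r2 pf5083 h5083
  have h5085 := checkRangeG_sound parWF r2 pf5084 h5084
  have h5086 := checkRangeG_sound parWF r2 pf5085 h5085
  have h5087 := checkRangeG_sound parWF r2 pf5086 h5086
  have h5088 := checkRangeG_sound parWF r2 pf5087 h5087
  have h5089 := checkRangeG_sound parWF r2 pf5088 h5088
  have h5090 := checkRangeG_sound parWF r2 pf5089 h5089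
  have h5091 := checkRangeG_sound parWF r2 pf5090 h5090
  have h5092 := checkRangeG_sound parWF r2 pf5091 h5091
  have h5093 := checkRangeG_sound parWF r2 pf5092 h5092
  have h5094 := checkRangeG_sound parWF r2 pf5093 h5093
  have h5095 := checkRangeG_sound parWF r2 pf5094 h5094
  have h5096 := checkRangeG_sound parWF r2 pf5095 h5095
  have h5097 := checkRangeG_sound parWF r2 pf5096 h5096
  have h5098 := checkRangeG_sound parWF r2 pf5097 h5097
  have h5099 := checkRangeG_sound parWF r2 pf5098 h5098
  have h5100 := checkRangeG_sound parWF r2 pf5099 h5099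
  exact h5100

theorem c102 (h5100 : ∀ j, j < 14499 → GoodG.{u} par (db j)) : ∀ j, j < 14617 → GoodG.{u} par (db j) := by
  have h5101 := checkRangeG_sound parWF r2 pf5100 h5100
  have h5102 := checkRangeG_sound parWF r2 pf5101 h5101
  have h5103 := checkRangeG_sound parWF r2 pf5102 h5102
  have h5104 := checkRangeG_sound parWF r2 pf5103 h5103
  have h5105 := checkRangeG_sound parWF r2 pf5104 h5104
  have h5106 := checkRangeG_sound parWF r2 pf5105 h5105
  have h5107 := checkRangeG_sound parWF r2 pf5106 h5106
  have h5108 := checkRangeG_sound parWF r2 pf5107 h5107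
  have h5109 := checkRangeG_sound parWF r2 pf5108 h5108
  have h5110 := checkRangeG_sound parWF r2 pf5109 h5109
  have h5111 := checkRangeG_sound parWF r2 pf5110 h5110
  have h5112 := checkRangeG_sound parWF r2 pf5111 h5111
  have h5113 := checkRangeG_sound parWF r2 pf5112 h5112
  have h5114 := checkRangeG_sound parWF r2 pf5113 h5113
  have h5115 := checkRangeG_sound parWF r2 pf5114 h5114
  have h5116 := checkRangeG_sound parWF r2 pf5115 h5115
  have h5117 := checkRangeG_sound parWF r2 pf5116 h5116
  have h5118 := checkRangeG_sound parWF r2 pf5117 h5117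
  have h5119 := checkRangeG_sound parWF r2 pf5118 h5118
  have h5120 := checkRangeG_sound parWF r2 pf5119 h5119
  have h5121 := checkRangeG_sound parWF r2 pf5120 h5120
  have h5122 := checkRangeG_sound parWF r2 pf5121 h5121
  have h5123 := checkRangeG_sound parWF r2 pf5122 h5122
  have h5124 := checkRangeG_sound parWF r2 pf5123 h5123
  have h5125 := checkRangeG_sound parWF r2 pf5124 h5124
  have h5126 := checkRangeG_sound parWF r2 pf5125 h5125
  have h5127 := checkRangeG_sound parWF r2 pf5126 h5126
  have h5128 := checkRangeG_sound parWF r2 pf5127 h5127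
  have h5129 := checkRangeG_sound parWF r2 pf5128 h5128
  have h5130 := checkRangeG_sound parWF r2 pf5129 h5129
  have h5131 := checkRangeG_sound parWF r2 pf5130 h5130
  have h5132 := checkRangeG_sound parWF r2 pf5131 h5131
  have h5133 := checkRangeG_sound parWF r2 pf5132 h5132
  have h5134 := checkRangeG_sound parWF r2 pf5133 h5133
  have h5135 := checkRangeG_sound parWF r2 pf5134 h5134
  have h5136 := checkRangeG_sound parWF r2 pf5135 h5135
  have h5137 := checkRangeG_sound parWF r2 pf5136 h5136
  have h5138 := checkRangeG_sound parWF r2 pf5137 h5137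
  have h5139 := checkRangeG_sound parWF r2 pf5138 h5138
  have h5140 := checkRangeG_sound parWF r2 pf5139 h5139
  have h5141 := checkRangeG_sound parWF r2 pf5140 h5140
  have h5142 := checkRangeG_sound parWF r2 pf5141 h5141
  have h5143 := checkRangeG_sound parWF r2 pf5142 h5142
  have h5144 := checkRangeG_sound parWF r2 pf5143 h5143
  have h5145 := checkRangeG_sound parWF r2 pf5144 h5144
  have h5146 := checkRangeG_sound parWF r2 pf5145 h5145
  have h5147 := checkRangeG_sound parWF r2 pf5146 h5146
  have h5148 := checkRangeG_sound parWF r2 pf5147 h5147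
  have h5149 := checkRangeG_sound parWF r2 pf5148 h5148
  have h5150 := checkRangeG_sound parWF r2 pf5149 h5149
  exact h5150

theorem c103 (h5150 : ∀ j, j < 14617 → GoodG.{u} par (db j)) : ∀ j, j < 14740 → GoodG.{u} par (db j) := by
  have h5151 := checkRangeG_sound parWF r2 pf5150 h5150
  have h5152 := checkRangeG_sound parWF r2 pf5151 h5151
  have h5153 := checkRangeG_sound parWF r2 pf5152 h5152
  have h5154 := checkRangeG_sound parWF r2 pf5153 h5153
  have h5155 := checkRangeG_sound parWF r2 pf5154 h5154
  have h5156 := checkRangeG_sound parWF r2 pf5155 h5155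
  have h5157 := checkRangeG_sound parWF r2 pf5156 h5156
  have h5158 := checkRangeG_sound parWF r2 pf5157 h5157
  have h5159 := checkRangeG_sound parWF r2 pf5158 h5158
  have h5160 := checkRangeG_sound parWF r2 pf5159 h5159
  have h5161 := checkRangeG_sound parWF r2 pf5160 h5160
  have h5162 := checkRangeG_sound parWF r2 pf5161 h5161
  have h5163 := checkRangeG_sound parWF r2 pf5162 h5162
  have h5164 := checkRangeG_sound parWF r2 pf5163 h5163
  have h5165 := checkRangeG_sound parWF r2 pf5164 h5164
  have h5166 := checkRangeG_sound parWF r2 pf5165 h5165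
  have h5167 := checkRangeG_sound parWF r2 pf5166 h5166
  have h5168 := checkRangeG_sound parWF r2 pf5167 h5167
  have h5169 := checkRangeG_sound parWF r2 pf5168 h5168
  have h5170 := checkRangeG_sound parWF r2 pf5169 h5169
  have h5171 := checkRangeG_sound parWF r2 pf5170 h5170
  have h5172 := checkRangeG_sound parWF r2 pf5171 h5171
  have h5173 := checkRangeG_sound parWF r2 pf5172 h5172
  have h5174 := checkRangeG_sound parWF r2 pf5173 h5173
  have h5175 := checkRangeG_sound parWF r2 pf5174 h5174
  have h5176 := checkRangeG_sound parWF r2 pf5175 h5175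
  have h5177 := checkRangeG_sound parWF r2 pf5176 h5176
  have h5178 := checkRangeG_sound parWF r2 pf5177 h5177
  have h5179 := checkRangeG_sound parWF r2 pf5178 h5178
  have h5180 := checkRangeG_sound parWF r2 pf5179 h5179
  have h5181 := checkRangeG_sound parWF r2 pf5180 h5180
  have h5182 := checkRangeG_sound parWF r2 pf5181 h5181
  have h5183 := checkRangeG_sound parWF r2 pf5182 h5182
  have h5184 := checkRangeG_sound parWF r2 pf5183 h5183
  have h5185 := checkRangeG_sound parWF r2 pf5184 h5184
  have h5186 := checkRangeG_sound parWF r2 pf5185 h5185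
  have h5187 := checkRangeG_sound parWF r2 pf5186 h5186
  have h5188 := checkRangeG_sound parWF r2 pf5187 h5187
  have h5189 := checkRangeG_sound parWF r2 pf5188 h5188
  have h5190 := checkRangeG_sound parWF r2 pf5189 h5189
  have h5191 := checkRangeG_sound parWF r2 pf5190 h5190
  have h5192 := checkRangeG_sound parWF r2 pf5191 h5191
  have h5193 := checkRangeG_sound parWF r2 pf5192 h5192
  have h5194 := checkRangeG_sound parWF r2 pf5193 h5193
  have h5195 := checkRangeG_sound parWF r2 pf5194 h5194
  have h5196 := checkRangeG_sound parWF r2 pf5195 h5195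
  have h5197 := checkRangeG_sound parWF r2 pf5196 h5196
  have h5198 := checkRangeG_sound parWF r2 pf5197 h5197
  have h5199 := checkRangeG_sound parWF r2 pf5198 h5198
  have h5200 := checkRangeG_sound parWF r2 pf5199 h5199
  exact h5200

theorem c104 (h5200 : ∀ j, j < 14740 → GoodG.{u} par (db j)) : ∀ j, j < 14883 → GoodG.{u} par (db j) := by
  have h5201 := checkRangeG_sound parWF r2 pf5200 h5200
  have h5202 := checkRangeG_sound parWF r2 pf5201 h5201
  have h5203 := checkRangeG_sound parWF r2 pf5202 h5202
  have h5204 := checkRangeG_sound parWF r2 pf5203 h5203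
  have h5205 := checkRangeG_sound parWF r2 pf5204 h5204
  have h5206 := checkRangeG_sound parWF r2 pf5205 h5205
  have h5207 := checkRangeG_sound parWF r2 pf5206 h5206
  have h5208 := checkRangeG_sound parWF r2 pf5207 h5207
  have h5209 := checkRangeG_sound parWF r2 pf5208 h5208
  have h5210 := checkRangeG_sound parWF r2 pf5209 h5209
  have h5211 := checkRangeG_sound parWF r2 pf5210 h5210
  have h5212 := checkRangeG_sound parWF r2 pf5211 h5211
  have h5213 := checkRangeG_sound parWF r2 pf5212 h5212
  have h5214 := checkRangeG_sound parWF r2 pf5213 h5213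
  have h5215 := checkRangeG_sound parWF r2 pf5214 h5214
  have h5216 := checkRangeG_sound parWF r2 pf5215 h5215
  have h5217 := checkRangeG_sound parWF r2 pf5216 h5216
  have h5218 := checkRangeG_sound parWF r2 pf5217 h5217
  have h5219 := checkRangeG_sound parWF r2 pf5218 h5218
  have h5220 := checkRangeG_sound parWF r2 pf5219 h5219
  have h5221 := checkRangeG_sound parWF r2 pf5220 h5220
  have h5222 := checkRangeG_sound parWF r2 pf5221 h5221
  have h5223 := checkRangeG_sound parWF r2 pf5222 h5222
  have h5224 := checkRangeG_sound parWF r2 pf5223 h5223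
  have h5225 := checkRangeG_sound parWF r2 pf5224 h5224
  have h5226 := checkRangeG_sound parWF r2 pf5225 h5225
  have h5227 := checkRangeG_sound parWF r2 pf5226 h5226
  have h5228 := checkRangeG_sound parWF r2 pf5227 h5227
  have h5229 := checkRangeG_sound parWF r2 pf5228 h5228
  have h5230 := checkRangeG_sound parWF r2 pf5229 h5229
  have h5231 := checkRangeG_sound parWF r2 pf5230 h5230
  have h5232 := checkRangeG_sound parWF r2 pf5231 h5231
  have h5233 := checkRangeG_sound parWF r2 pf5232 h5232
  have h5234 := checkRangeG_sound parWF r2 pf5233 h5233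
  have h5235 := checkRangeG_sound parWF r2 pf5234 h5234
  have h5236 := checkRangeG_sound parWF r2 pf5235 h5235
  have h5237 := checkRangeG_sound parWF r2 pf5236 h5236
  have h5238 := checkRangeG_sound parWF r2 pf5237 h5237
  have h5239 := checkRangeG_sound parWF r2 pf5238 h5238
  have h5240 := checkRangeG_sound parWF r2 pf5239 h5239
  have h5241 := checkRangeG_sound parWF r2 pf5240 h5240
  have h5242 := checkRangeG_sound parWF r2 pf5241 h5241
  have h5243 := checkRangeG_sound parWF r2 pf5242 h5242
  have h5244 := checkRangeG_sound parWF r2 pf5243 h5243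
  have h5245 := checkRangeG_sound parWF r2 pf5244 h5244
  have h5246 := checkRangeG_sound parWF r2 pf5245 h5245
  have h5247 := checkRangeG_sound parWF r2 pf5246 h5246
  have h5248 := checkRangeG_sound parWF r2 pf5247 h5247
  have h5249 := checkRangeG_sound parWF r2 pf5248 h5248
  have h5250 := checkRangeG_sound parWF r2 pf5249 h5249
  exact h5250

theorem c105 (h5250 : ∀ j, j < 14883 → GoodG.{u} par (db j)) : ∀ j, j < 15033 → GoodG.{u} par (db j) := by
  have h5251 := checkRangeG_sound parWF r2 pf5250 h5250
  have h5252 := checkRangeG_sound parWF r2 pf5251 h5251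
  have h5253 := checkRangeG_sound parWF r2 pf5252 h5252
  have h5254 := checkRangeG_sound parWF r2 pf5253 h5253
  have h5255 := checkRangeG_sound parWF r2 pf5254 h5254
  have h5256 := checkRangeG_sound parWF r2 pf5255 h5255
  have h5257 := checkRangeG_sound parWF r2 pf5256 h5256
  have h5258 := checkRangeG_sound parWF r2 pf5257 h5257
  have h5259 := checkRangeG_sound parWF r2 pf5258 h5258
  have h5260 := checkRangeG_sound parWF r2 pf5259 h5259
  have h5261 := checkRangeG_sound parWF r2 pf5260 h5260
  have h5262 := checkRangeG_sound parWF r2 pf5261 h5261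
  have h5263 := checkRangeG_sound parWF r2 pf5262 h5262
  have h5264 := checkRangeG_sound parWF r2 pf5263 h5263
  have h5265 := checkRangeG_sound parWF r2 pf5264 h5264
  have h5266 := checkRangeG_sound parWF r2 pf5265 h5265
  have h5267 := checkRangeG_sound parWF r2 pf5266 h5266
  have h5268 := checkRangeG_sound parWF r2 pf5267 h5267
  have h5269 := checkRangeG_sound parWF r2 pf5268 h5268
  have h5270 := checkRangeG_sound parWF r2 pf5269 h5269
  have h5271 := checkRangeG_sound parWF r2 pf5270 h5270
  have h5272 := checkRangeG_sound parWF r2 pf5271 h5271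
  have h5273 := checkRangeG_sound parWF r2 pf5272 h5272
  have h5274 := checkRangeG_sound parWF r2 pf5273 h5273
  have h5275 := checkRangeG_sound parWF r2 pf5274 h5274
  have h5276 := checkRangeG_sound parWF r2 pf5275 h5275
  have h5277 := checkRangeG_sound parWF r2 pf5276 h5276
  have h5278 := checkRangeG_sound parWF r2 pf5277 h5277
  have h5279 := checkRangeG_sound parWF r2 pf5278 h5278
  have h5280 := checkRangeG_sound parWF r2 pf5279 h5279
  have h5281 := checkRangeG_sound parWF r2 pf5280 h5280
  have h5282 := checkRangeG_sound parWF r2 pf5281 h5281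
  have h5283 := checkRangeG_sound parWF r2 pf5282 h5282
  have h5284 := checkRangeG_sound parWF r2 pf5283 h5283
  have h5285 := checkRangeG_sound parWF r2 pf5284 h5284
  have h5286 := checkRangeG_sound parWF r2 pf5285 h5285
  have h5287 := checkRangeG_sound parWF r2 pf5286 h5286
  have h5288 := checkRangeG_sound parWF r2 pf5287 h5287
  have h5289 := checkRangeG_sound parWF r2 pf5288 h5288
  have h5290 := checkRangeG_sound parWF r2 pf5289 h5289
  have h5291 := checkRangeG_sound parWF r2 pf5290 h5290
  have h5292 := checkRangeG_sound parWF r2 pf5291 h5291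
  have h5293 := checkRangeG_sound parWF r2 pf5292 h5292
  have h5294 := checkRangeG_sound parWF r2 pf5293 h5293
  have h5295 := checkRangeG_sound parWF r2 pf5294 h5294
  have h5296 := checkRangeG_sound parWF r2 pf5295 h5295
  have h5297 := checkRangeG_sound parWF r2 pf5296 h5296
  have h5298 := checkRangeG_sound parWF r2 pf5297 h5297
  have h5299 := checkRangeG_sound parWF r2 pf5298 h5298
  have h5300 := checkRangeG_sound parWF r2 pf5299 h5299
  exact h5300

theorem c106 (h5300 : ∀ j, j < 15033 → GoodG.{u} par (db j)) : ∀ j, j < 15172 → GoodG.{u} par (db j) := by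
  have h5301 := checkRangeG_sound parWF r2 pf5300 h5300
  have h5302 := checkRangeG_sound parWF r2 pf5301 h5301
  have h5303 := checkRangeG_sound parWF r2 pf5302 h5302
  have h5304 := checkRangeG_sound parWF r2 pf5303 h5303
  have h5305 := checkRangeG_sound parWF r2 pf5304 h5304
  have h5306 := checkRangeG_sound parWF r2 pf5305 h5305
  have h5307 := checkRangeG_sound parWF r2 pf5306 h5306
  have h5308 := checkRangeG_sound parWF r2 pf5307 h5307
  have h5309 := checkRangeG_sound parWF r2 pf5308 h5308
  have h5310 := checkRangeG_sound parWF r2 pf5309 h5309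
  have h5311 := checkRangeG_sound parWF r2 pf5310 h5310
  have h5312 := checkRangeG_sound parWF r2 pf5311 h5311
  have h5313 := checkRangeG_sound parWF r2 pf5312 h5312
  have h5314 := checkRangeG_sound parWF r2 pf5313 h5313
  have h5315 := checkRangeG_sound parWF r2 pf5314 h5314
  have h5316 := checkRangeG_sound parWF r2 pf5315 h5315
  have h5317 := checkRangeG_sound parWF r2 pf5316 h5316
  have h5318 := checkRangeG_sound parWF r2 pf5317 h5317
  have h5319 := checkRangeG_sound parWF r2 pf5318 h5318
  have h5320 := checkRangeG_sound parWF r2 pf5319 h5319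
  have h5321 := checkRangeG_sound parWF r2 pf5320 h5320
  have h5322 := checkRangeG_sound parWF r2 pf5321 h5321
  have h5323 := checkRangeG_sound parWF r2 pf5322 h5322
  have h5324 := checkRangeG_sound parWF r2 pf5323 h5323
  have h5325 := checkRangeG_sound parWF r2 pf5324 h5324
  have h5326 := checkRangeG_sound parWF r2 pf5325 h5325
  have h5327 := checkRangeG_sound parWF r2 pf5326 h5326
  have h5328 := checkRangeG_sound parWF r2 pf5327 h5327
  have h5329 := checkRangeG_sound parWF r2 pf5328 h5328
  have h5330 := checkRangeG_sound parWF r2 pf5329 h5329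
  have h5331 := checkRangeG_sound parWF r2 pf5330 h5330
  have h5332 := checkRangeG_sound parWF r2 pf5331 h5331
  have h5333 := checkRangeG_sound parWF r2 pf5332 h5332
  have h5334 := checkRangeG_sound parWF r2 pf5333 h5333
  have h5335 := checkRangeG_sound parWF r2 pf5334 h5334
  have h5336 := checkRangeG_sound parWF r2 pf5335 h5335
  have h5337 := checkRangeG_sound parWF r2 pf5336 h5336
  have h5338 := checkRangeG_sound parWF r2 pf5337 h5337
  have h5339 := checkRangeG_sound parWF r2 pf5338 h5338
  have h5340 := checkRangeG_sound parWF r2 pf5339 h5339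
  have h5341 := checkRangeG_sound parWF r2 pf5340 h5340
  have h5342 := checkRangeG_sound parWF r2 pf5341 h5341
  have h5343 := checkRangeG_sound parWF r2 pf5342 h5342
  have h5344 := checkRangeG_sound parWF r2 pf5343 h5343
  have h5345 := checkRangeG_sound parWF r2 pf5344 h5344
  have h5346 := checkRangeG_sound parWF r2 pf5345 h5345
  have h5347 := checkRangeG_sound parWF r2 pf5346 h5346
  have h5348 := checkRangeG_sound parWF r2 pf5347 h5347
  have h5349 := checkRangeG_sound parWF r2 pf5348 h5348
  have h5350 := checkRangeG_sound parWF r2 pf5349 h5349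
  exact h5350

theorem c107 (h5350 : ∀ j, j < 15172 → GoodG.{u} par (db j)) : ∀ j, j < 15315 → GoodG.{u} par (db j) := by
  have h5351 := checkRangeG_sound parWF r2 pf5350 h5350
  have h5352 := checkRangeG_sound parWF r2 pf5351 h5351
  have h5353 := checkRangeG_sound parWF r2 pf5352 h5352
  have h5354 := checkRangeG_sound parWF r2 pf5353 h5353
  have h5355 := checkRangeG_sound parWF r2 pf5354 h5354
  have h5356 := checkRangeG_sound parWF r2 pf5355 h5355
  have h5357 := checkRangeG_sound parWF r2 pf5356 h5356
  have h5358 := checkRangeG_sound parWF r2 pf5357 h5357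
  have h5359 := checkRangeG_sound parWF r2 pf5358 h5358
  have h5360 := checkRangeG_sound parWF r2 pf5359 h5359
  have h5361 := checkRangeG_sound parWF r2 pf5360 h5360
  have h5362 := checkRangeG_sound parWF r2 pf5361 h5361
  have h5363 := checkRangeG_sound parWF r2 pf5362 h5362
  have h5364 := checkRangeG_sound parWF r2 pf5363 h5363
  have h5365 := checkRangeG_sound parWF r2 pf5364 h5364
  have h5366 := checkRangeG_sound parWF r2 pf5365 h5365
  have h5367 := checkRangeG_sound parWF r2 pf5366 h5366
  have h5368 := checkRangeG_sound parWF r2 pf5367 h5367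
  have h5369 := checkRangeG_sound parWF r2 pf5368 h5368
  have h5370 := checkRangeG_sound parWF r2 pf5369 h5369
  have h5371 := checkRangeG_sound parWF r2 pf5370 h5370
  have h5372 := checkRangeG_sound parWF r2 pf5371 h5371
  have h5373 := checkRangeG_sound parWF r2 pf5372 h5372
  have h5374 := checkRangeG_sound parWF r2 pf5373 h5373
  have h5375 := checkRangeG_sound parWF r2 pf5374 h5374
  have h5376 := checkRangeG_sound parWF r2 pf5375 h5375
  have h5377 := checkRangeG_sound parWF r2 pf5376 h5376
  have h5378 := checkRangeG_sound parWF r2 pf5377 h5377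
  have h5379 := checkRangeG_sound parWF r2 pf5378 h5378
  have h5380 := checkRangeG_sound parWF r2 pf5379 h5379
  have h5381 := checkRangeG_sound parWF r2 pf5380 h5380
  have h5382 := checkRangeG_sound parWF r2 pf5381 h5381
  have h5383 := checkRangeG_sound parWF r2 pf5382 h5382
  have h5384 := checkRangeG_sound parWF r2 pf5383 h5383
  have h5385 := checkRangeG_sound parWF r2 pf5384 h5384
  have h5386 := checkRangeG_sound parWF r2 pf5385 h5385
  have h5387 := checkRangeG_sound parWF r2 pf5386 h5386
  have h5388 := checkRangeG_sound parWF r2 pf5387 h5387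
  have h5389 := checkRangeG_sound parWF r2 pf5388 h5388
  have h5390 := checkRangeG_sound parWF r2 pf5389 h5389
  have h5391 := checkRangeG_sound parWF r2 pf5390 h5390
  have h5392 := checkRangeG_sound parWF r2 pf5391 h5391
  have h5393 := checkRangeG_sound parWF r2 pf5392 h5392
  have h5394 := checkRangeG_sound parWF r2 pf5393 h5393
  have h5395 := checkRangeG_sound parWF r2 pf5394 h5394
  have h5396 := checkRangeG_sound parWF r2 pf5395 h5395
  have h5397 := checkRangeG_sound parWF r2 pf5396 h5396
  have h5398 := checkRangeG_sound parWF r2 pf5397 h5397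
  have h5399 := checkRangeG_sound parWF r2 pf5398 h5398
  have h5400 := checkRangeG_sound parWF r2 pf5399 h5399
  exact h5400


end Vale.Agent.P045g.C61
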