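import Vale.Agent.P045g.C61.WF
import Vale.Agent.P045g.C61.Pf90
import Vale.Agent.P045g.C61.Pf91
import Vale.Agent.P045g.C61.Pf92
import Vale.Agent.P045g.C61.Pf93
import Vale.Agent.P045g.C61.Pf94
import Vale.Agent.P045g.C61.Pf95
import Vale.Agent.P045g.C61.Pf96
import Vale.Agent.P045g.C61.Pf97
import Vale.Agent.P045g.C61.Pf98
import Vale.Agent.P045g.C61.Pf99

namespace Vale.Agent.P045g.C61

open Vale.Agent.P045b Vale.Agent.P045g

universe u

theorem c108 (h5400 : ∀ j, j < 15315 → GoodG.{u} par (db j)) : ∀ j, j < 15465 → GoodG.{u} par (db j) := by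
  have h5401 := checkRangeG_sound parWF r2 pf5400 h5400
  have h5402 := checkRangeG_sound parWF r2 pf5401 h5401
  have h5403 := checkRangeG_sound parWF r2 pf5402 h5402
  have h5404 := checkRangeG_sound parWF r2 pf5403 h5403
  have h5405 := checkRangeG_sound parWF r2 pf5404 h5404
  have h5406 := checkRangeG_sound parWF r2 pf5405 h5405
  have h5407 := checkRangeG_sound parWF r2 pf5406 h5406
  have h5408 := checkRangeG_sound parWF r2 pf5407 h5407
  have h5409 := checkRangeG_sound parWF r2 pf5408 h5408
  have h5410 := checkRangeG_sound parWF r2 pf5409 h5409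
  have h5411 := checkRangeG_sound parWF r2 pf5410 h5410
  have h5412 := checkRangeG_sound parWF r2 pf5411 h5411
  have h5413 := checkRangeG_sound parWF r2 pf5412 h5412
  have h5414 := checkRangeG_sound parWF r2 pf5413 h5413
  have h5415 := checkRangeG_sound parWF r2 pf5414 h5414
  have h5416 := checkRangeG_sound parWF r2 pf5415 h5415
  have h5417 := checkRangeG_sound parWF r2 pf5416 h5416
  have h5418 := checkRangeG_sound parWF r2 pf5417 h5417
  have h5419 := checkRangeG_sound parWF r2 pf5418 h5418
  have h5420 := checkRangeG_sound parWF r2 pf5419 h5419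
  have h5421 := checkRangeG_sound parWF r2 pf5420 h5420
  have h5422 := checkRangeG_sound parWF r2 pf5421 h5421
  have h5423 := checkRangeG_sound parWF r2 pf5422 h5422
  have h5424 := checkRangeG_sound parWF r2 pf5423 h5423
  have h5425 := checkRangeG_sound parWF r2 pf5424 h5424
  have h5426 := checkRangeG_sound parWF r2 pf5425 h5425
  have h5427 := checkRangeG_sound parWF r2 pf5426 h5426
  have h5428 := checkRangeG_sound parWF r2 pf5427 h5427
  have h5429 := checkRangeG_sound parWF r2 pf5428 h5428
  have h5430 := checkRangeG_sound parWF r2 pf5429 h5429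
  have h5431 := checkRangeG_sound parWF r2 pf5430 h5430
  have h5432 := checkRangeG_sound parWF r2 pf5431 h5431
  have h5433 := checkRangeG_sound parWF r2 pf5432 h5432
  have h5434 := checkRangeG_sound parWF r2 pf5433 h5433
  have h5435 := checkRangeG_sound parWF r2 pf5434 h5434
  have h5436 := checkRangeG_sound parWF r2 pf5435 h5435
  have h5437 := checkRangeG_sound parWF r2 pf5436 h5436
  have h5438 := checkRangeG_sound parWF r2 pf5437 h5437
  have h5439 := checkRangeG_sound parWF r2 pf5438 h5438
  have h5440 := checkRangeG_sound parWF r2 pf5439 h5439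
  have h5441 := checkRangeG_sound parWF r2 pf5440 h5440
  have h5442 := checkRangeG_sound parWF r2 pf5441 h5441
  have h5443 := checkRangeG_sound parWF r2 pf5442 h5442
  have h5444 := checkRangeG_sound parWF r2 pf5443 h5443
  have h5445 := checkRangeG_sound parWF r2 pf5444 h5444
  have h5446 := checkRangeG_sound parWF r2 pf5445 h5445
  have h5447 := checkRangeG_sound parWF r2 pf5446 h5446
  have h5448 := checkRangeG_sound parWF r2 pf5447 h5447
  have h5449 := checkRangeG_sound parWF r2 pf5448 h5448
  have h5450 := checkRangeG_sound parWF r2 pf5449 h5449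
  exact h5450

theorem c109 (h5450 : ∀ j, j < 15465 → GoodG.{u} par (db j)) : ∀ j, j < 15628 → GoodG.{u} par (db j) := by
  have h5451 := checkRangeG_sound parWF r2 pf5450 h5450
  have h5452 := checkRangeG_sound parWF r2 pf5451 h5451
  have h5453 := checkRangeG_sound parWF r2 pf5452 h5452
  have h5454 := checkRangeG_sound parWF r2 pf5453 h5453
  have h5455 := checkRangeG_sound parWF r2 pf5454 h5454
  have h5456 := checkRangeG_sound parWF r2 pf5455 h5455
  have h5457 := checkRangeG_sound parWF r2 pf5456 h5456
  have h5458 := checkRangeG_sound parWF r2 pf5457 h5457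
  have h5459 := checkRangeG_sound parWF r2 pf5458 h5458
  have h5460 := checkRangeG_sound parWF r2 pf5459 h5459
  have h5461 := checkRangeG_sound parWF r2 pf5460 h5460
  have h5462 := checkRangeG_sound parWF r2 pf5461 h5461
  have h5463 := checkRangeG_sound parWF r2 pf5462 h5462
  have h5464 := checkRangeG_sound parWF r2 pf5463 h5463
  have h5465 := checkRangeG_sound parWF r2 pf5464 h5464
  have h5466 := checkRangeG_sound parWF r2 pf5465 h5465
  have h5467 := checkRangeG_sound parWF r2 pf5466 h5466
  have h5468 := checkRangeG_sound parWF r2 pf5467 h5467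
  have h5469 := checkRangeG_sound parWF r2 pf5468 h5468
  have h5470 := checkRangeG_sound parWF r2 pf5469 h5469
  have h5471 := checkRangeG_sound parWF r2 pf5470 h5470
  have h5472 := checkRangeG_sound parWF r2 pf5471 h5471
  have h5473 := checkRangeG_sound parWF r2 pf5472 h5472
  have h5474 := checkRangeG_sound parWF r2 pf5473 h5473
  have h5475 := checkRangeG_sound parWF r2 pf5474 h5474
  have h5476 := checkRangeG_sound parWF r2 pf5475 h5475
  have h5477 := checkRangeG_sound parWF r2 pf5476 h5476
  have h5478 := checkRangeG_sound parWF r2 pf5477 h5477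
  have h5479 := checkRangeG_sound parWF r2 pf5478 h5478
  have h5480 := checkRangeG_sound parWF r2 pf5479 h5479
  have h5481 := checkRangeG_sound parWF r2 pf5480 h5480
  have h5482 := checkRangeG_sound parWF r2 pf5481 h5481
  have h5483 := checkRangeG_sound parWF r2 pf5482 h5482
  have h5484 := checkRangeG_sound parWF r2 pf5483 h5483
  have h5485 := checkRangeG_sound parWF r2 pf5484 h5484
  have h5486 := checkRangeG_sound parWF r2 pf5485 h5485
  have h5487 := checkRangeG_sound parWF r2 pf5486 h5486
  have h5488 := checkRangeG_sound parWF r2 pf5487 h5487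
  have h5489 := checkRangeG_sound parWF r2 pf5488 h5488
  have h5490 := checkRangeG_sound parWF r2 pf5489 h5489
  have h5491 := checkRangeG_sound parWF r2 pf5490 h5490
  have h5492 := checkRangeG_sound parWF r2 pf5491 h5491
  have h5493 := checkRangeG_sound parWF r2 pf5492 h5492
  have h5494 := checkRangeG_sound parWF r2 pf5493 h5493
  have h5495 := checkRangeG_sound parWF r2 pf5494 h5494
  have h5496 := checkRangeG_sound parWF r2 pf5495 h5495
  have h5497 := checkRangeG_sound parWF r2 pf5496 h5496
  have h5498 := checkRangeG_sound parWF r2 pf5497 h5497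
  have h5499 := checkRangeG_sound parWF r2 pf5498 h5498
  have h5500 := checkRangeG_sound parWF r2 pf5499 h5499
  exact h5500

theorem c110 (h5500 : ∀ j, j < 15628 → GoodG.{u} par (db j)) : ∀ j, j < 15787 → GoodG.{u} par (db j) := by
  have h5501 := checkRangeG_sound parWF r2 pf5500 h5500
  have h5502 := checkRangeG_sound parWF r2 pf5501 h5501
  have h5503 := checkRangeG_sound parWF r2 pf5502 h5502
  have h5504 := checkRangeG_sound parWF r2 pf5503 h5503
  have h5505 := checkRangeG_sound parWF r2 pf5504 h5504
  have h5506 := checkRangeG_sound parWF r2 pf5505 h5505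
  have h5507 := checkRangeG_sound parWF r2 pf5506 h5506
  have h5508 := checkRangeG_sound parWF r2 pf5507 h5507
  have h5509 := checkRangeG_sound parWF r2 pf5508 h5508
  have h5510 := checkRangeG_sound parWF r2 pf5509 h5509
  have h5511 := checkRangeG_sound parWF r2 pf5510 h5510
  have h5512 := checkRangeG_sound parWF r2 pf5511 h5511
  have h5513 := checkRangeG_sound parWF r2 pf5512 h5512
  have h5514 := checkRangeG_sound parWF r2 pf5513 h5513
  have h5515 := checkRangeG_sound parWF r2 pf5514 h5514
  have h5516 := checkRangeG_sound parWF r2 pf5515 h5515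
  have h5517 := checkRangeG_sound parWF r2 pf5516 h5516
  have h5518 := checkRangeG_sound parWF r2 pf5517 h5517
  have h5519 := checkRangeG_sound parWF r2 pf5518 h5518
  have h5520 := checkRangeG_sound parWF r2 pf5519 h5519
  have h5521 := checkRangeG_sound parWF r2 pf5520 h5520
  have h5522 := checkRangeG_sound parWF r2 pf5521 h5521
  have h5523 := checkRangeG_sound parWF r2 pf5522 h5522
  have h5524 := checkRangeG_sound parWF r2 pf5523 h5523
  have h5525 := checkRangeG_sound parWF r2 pf5524 h5524
  have h5526 := checkRangeG_sound parWF r2 pf5525 h5525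
  have h5527 := checkRangeG_sound parWF r2 pf5526 h5526
  have h5528 := checkRangeG_sound parWF r2 pf5527 h5527
  have h5529 := checkRangeG_sound parWF r2 pf5528 h5528
  have h5530 := checkRangeG_sound parWF r2 pf5529 h5529
  have h5531 := checkRangeG_sound parWF r2 pf5530 h5530
  have h5532 := checkRangeG_sound parWF r2 pf5531 h5531
  have h5533 := checkRangeG_sound parWF r2 pf5532 h5532
  have h5534 := checkRangeG_sound parWF r2 pf5533 h5533
  have h5535 := checkRangeG_sound parWF r2 pf5534 h5534
  have h5536 := checkRangeG_sound parWF r2 pf5535 h5535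
  have h5537 := checkRangeG_sound parWF r2 pf5536 h5536
  have h5538 := checkRangeG_sound parWF r2 pf5537 h5537
  have h5539 := checkRangeG_sound parWF r2 pf5538 h5538
  have h5540 := checkRangeG_sound parWF r2 pf5539 h5539
  have h5541 := checkRangeG_sound parWF r2 pf5540 h5540
  have h5542 := checkRangeG_sound parWF r2 pf5541 h5541
  have h5543 := checkRangeG_sound parWF r2 pf5542 h5542
  have h5544 := checkRangeG_sound parWF r2 pf5543 h5543
  have h5545 := checkRangeG_sound parWF r2 pf5544 h5544
  have h5546 := checkRangeG_sound parWF r2 pf5545 h5545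
  have h5547 := checkRangeG_sound parWF r2 pf5546 h5546
  have h5548 := checkRangeG_sound parWF r2 pf5547 h5547
  have h5549 := checkRangeG_sound parWF r2 pf5548 h5548
  have h5550 := checkRangeG_sound parWF r2 pf5549 h5549
  exact h5550

theorem c111 (h5550 : ∀ j, j < 15787 → GoodG.{u} par (db j)) : ∀ j, j < 15924 → GoodG.{u} par (db j) := by
  have h5551 := checkRangeG_sound parWF r2 pf5550 h5550
  have h5552 := checkRangeG_sound parWF r2 pf5551 h5551
  have h5553 := checkRangeG_sound parWF r2 pf5552 h5552
  have h5554 := checkRangeG_sound parWF r2 pf5553 h5553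
  have h5555 := checkRangeG_sound parWF r2 pf5554 h5554
  have h5556 := checkRangeG_sound parWF r2 pf5555 h5555
  have h5557 := checkRangeG_sound parWF r2 pf5556 h5556
  have h5558 := checkRangeG_sound parWF r2 pf5557 h5557
  have h5559 := checkRangeG_sound parWF r2 pf5558 h5558
  have h5560 := checkRangeG_sound parWF r2 pf5559 h5559
  have h5561 := checkRangeG_sound parWF r2 pf5560 h5560
  have h5562 := checkRangeG_sound parWF r2 pf5561 h5561
  have h5563 := checkRangeG_sound parWF r2 pf5562 h5562
  have h5564 := checkRangeG_sound parWF r2 pf5563 h5563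
  have h5565 := checkRangeG_sound parWF r2 pf5564 h5564
  have h5566 := checkRangeG_sound parWF r2 pf5565 h5565
  have h5567 := checkRangeG_sound parWF r2 pf5566 h5566
  have h5568 := checkRangeG_sound parWF r2 pf5567 h5567
  have h5569 := checkRangeG_sound parWF r2 pf5568 h5568
  have h5570 := checkRangeG_sound parWF r2 pf5569 h5569
  have h5571 := checkRangeG_sound parWF r2 pf5570 h5570
  have h5572 := checkRangeG_sound parWF r2 pf5571 h5571
  have h5573 := checkRangeG_sound parWF r2 pf5572 h5572
  have h5574 := checkRangeG_sound parWF r2 pf5573 h5573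
  have h5575 := checkRangeG_sound parWF r2 pf5574 h5574
  have h5576 := checkRangeG_sound parWF r2 pf5575 h5575
  have h5577 := checkRangeG_sound parWF r2 pf5576 h5576
  have h5578 := checkRangeG_sound parWF r2 pf5577 h5577
  have h5579 := checkRangeG_sound parWF r2 pf5578 h5578
  have h5580 := checkRangeG_sound parWF r2 pf5579 h5579
  have h5581 := checkRangeG_sound parWF r2 pf5580 h5580
  have h5582 := checkRangeG_sound parWF r2 pf5581 h5581
  have h5583 := checkRangeG_sound parWF r2 pf5582 h5582
  have h5584 := checkRangeG_sound parWF r2 pf5583 h5583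
  have h5585 := checkRangeG_sound parWF r2 pf5584 h5584
  have h5586 := checkRangeG_sound parWF r2 pf5585 h5585
  have h5587 := checkRangeG_sound parWF r2 pf5586 h5586
  have h5588 := checkRangeG_sound parWF r2 pf5587 h5587
  have h5589 := checkRangeG_sound parWF r2 pf5588 h5588
  have h5590 := checkRangeG_sound parWF r2 pf5589 h5589
  have h5591 := checkRangeG_sound parWF r2 pf5590 h5590
  have h5592 := checkRangeG_sound parWF r2 pf5591 h5591
  have h5593 := checkRangeG_sound parWF r2 pf5592 h5592
  have h5594 := checkRangeG_sound parWF r2 pf5593 h5593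
  have h5595 := checkRangeG_sound parWF r2 pf5594 h5594
  have h5596 := checkRangeG_sound parWF r2 pf5595 h5595
  have h5597 := checkRangeG_sound parWF r2 pf5596 h5596
  have h5598 := checkRangeG_sound parWF r2 pf5597 h5597
  have h5599 := checkRangeG_sound parWF r2 pf5598 h5598
  have h5600 := checkRangeG_sound parWF r2 pf5599 h5599
  exact h5600

theorem c112 (h5600 : ∀ j, j < 15924 → GoodG.{u} par (db j)) : ∀ j, j < 16063 → GoodG.{u} par (db j) := by
  have h5601 := checkRangeG_sound parWF r2 pf5600 h5600
  have h5602 := checkRangeG_sound parWF r2 pf5601 h5601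
  have h5603 := checkRangeG_sound parWF r2 pf5602 h5602
  have h5604 := checkRangeG_sound parWF r2 pf5603 h5603
  have h5605 := checkRangeG_sound parWF r2 pf5604 h5604
  have h5606 := checkRangeG_sound parWF r2 pf5605 h5605
  have h5607 := checkRangeG_sound parWF r2 pf5606 h5606
  have h5608 := checkRangeG_sound parWF r2 pf5607 h5607
  have h5609 := checkRangeG_sound parWF r2 pf5608 h5608
  have h5610 := checkRangeG_sound parWF r2 pf5609 h5609
  have h5611 := checkRangeG_sound parWF r2 pf5610 h5610
  have h5612 := checkRangeG_sound parWF r2 pf5611 h5611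
  have h5613 := checkRangeG_sound parWF r2 pf5612 h5612
  have h5614 := checkRangeG_sound parWF r2 pf5613 h5613
  have h5615 := checkRangeG_sound parWF r2 pf5614 h5614
  have h5616 := checkRangeG_sound parWF r2 pf5615 h5615
  have h5617 := checkRangeG_sound parWF r2 pf5616 h5616
  have h5618 := checkRangeG_sound parWF r2 pf5617 h5617
  have h5619 := checkRangeG_sound parWF r2 pf5618 h5618
  have h5620 := checkRangeG_sound parWF r2 pf5619 h5619
  have h5621 := checkRangeG_sound parWF r2 pf5620 h5620
  have h5622 := checkRangeG_sound parWF r2 pf5621 h5621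
  have h5623 := checkRangeG_sound parWF r2 pf5622 h5622
  have h5624 := checkRangeG_sound parWF r2 pf5623 h5623
  have h5625 := checkRangeG_sound parWF r2 pf5624 h5624
  have h5626 := checkRangeG_sound parWF r2 pf5625 h5625
  have h5627 := checkRangeG_sound parWF r2 pf5626 h5626
  have h5628 := checkRangeG_sound parWF r2 pf5627 h5627
  have h5629 := checkRangeG_sound parWF r2 pf5628 h5628
  have h5630 := checkRangeG_sound parWF r2 pf5629 h5629
  have h5631 := checkRangeG_sound parWF r2 pf5630 h5630
  have h5632 := checkRangeG_sound parWF r2 pf5631 h5631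
  have h5633 := checkRangeG_sound parWF r2 pf5632 h5632
  have h5634 := checkRangeG_sound parWF r2 pf5633 h5633
  have h5635 := checkRangeG_sound parWF r2 pf5634 h5634
  have h5636 := checkRangeG_sound parWF r2 pf5635 h5635
  have h5637 := checkRangeG_sound parWF r2 pf5636 h5636
  have h5638 := checkRangeG_sound parWF r2 pf5637 h5637
  have h5639 := checkRangeG_sound parWF r2 pf5638 h5638
  have h5640 := checkRangeG_sound parWF r2 pf5639 h5639
  have h5641 := checkRangeG_sound parWF r2 pf5640 h5640
  have h5642 := checkRangeG_sound parWF r2 pf5641 h5641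
  have h5643 := checkRangeG_sound parWF r2 pf5642 h5642
  have h5644 := checkRangeG_sound parWF r2 pf5643 h5643
  have h5645 := checkRangeG_sound parWF r2 pf5644 h5644
  have h5646 := checkRangeG_sound parWF r2 pf5645 h5645
  have h5647 := checkRangeG_sound parWF r2 pf5646 h5646
  have h5648 := checkRangeG_sound parWF r2 pf5647 h5647
  have h5649 := checkRangeG_sound parWF r2 pf5648 h5648
  have h5650 := checkRangeG_sound parWF r2 pf5649 h5649
  exact h5650

theorem c113 (h5650 : ∀ j, j < 16063 → GoodG.{u} par (db j)) : ∀ j, j < 16203 → GoodG.{u} par (db j) := by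
  have h5651 := checkRangeG_sound parWF r2 pf5650 h5650
  have h5652 := checkRangeG_sound parWF r2 pf5651 h5651
  have h5653 := checkRangeG_sound parWF r2 pf5652 h5652
  have h5654 := checkRangeG_sound parWF r2 pf5653 h5653
  have h5655 := checkRangeG_sound parWF r2 pf5654 h5654
  have h5656 := checkRangeG_sound parWF r2 pf5655 h5655
  have h5657 := checkRangeG_sound parWF r2 pf5656 h5656
  have h5658 := checkRangeG_sound parWF r2 pf5657 h5657
  have h5659 := checkRangeG_sound parWF r2 pf5658 h5658
  have h5660 := checkRangeG_sound parWF r2 pf5659 h5659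
  have h5661 := checkRangeG_sound parWF r2 pf5660 h5660
  have h5662 := checkRangeG_sound parWF r2 pf5661 h5661
  have h5663 := checkRangeG_sound parWF r2 pf5662 h5662
  have h5664 := checkRangeG_sound parWF r2 pf5663 h5663
  have h5665 := checkRangeG_sound parWF r2 pf5664 h5664
  have h5666 := checkRangeG_sound parWF r2 pf5665 h5665
  have h5667 := checkRangeG_sound parWF r2 pf5666 h5666
  have h5668 := checkRangeG_sound parWF r2 pf5667 h5667
  have h5669 := checkRangeG_sound parWF r2 pf5668 h5668
  have h5670 := checkRangeG_sound parWF r2 pf5669 h5669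
  have h5671 := checkRangeG_sound parWF r2 pf5670 h5670
  have h5672 := checkRangeG_sound parWF r2 pf5671 h5671
  have h5673 := checkRangeG_sound parWF r2 pf5672 h5672
  have h5674 := checkRangeG_sound parWF r2 pf5673 h5673
  have h5675 := checkRangeG_sound parWF r2 pf5674 h5674
  have h5676 := checkRangeG_sound parWF r2 pf5675 h5675
  have h5677 := checkRangeG_sound parWF r2 pf5676 h5676
  have h5678 := checkRangeG_sound parWF r2 pf5677 h5677
  have h5679 := checkRangeG_sound parWF r2 pf5678 h5678
  have h5680 := checkRangeG_sound parWF r2 pf5679 h5679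
  have h5681 := checkRangeG_sound parWF r2 pf5680 h5680
  have h5682 := checkRangeG_sound parWF r2 pf5681 h5681
  have h5683 := checkRangeG_sound parWF r2 pf5682 h5682
  have h5684 := checkRangeG_sound parWF r2 pf5683 h5683
  have h5685 := checkRangeG_sound parWF r2 pf5684 h5684
  have h5686 := checkRangeG_sound parWF r2 pf5685 h5685
  have h5687 := checkRangeG_sound parWF r2 pf5686 h5686
  have h5688 := checkRangeG_sound parWF r2 pf5687 h5687
  have h5689 := checkRangeG_sound parWF r2 pf5688 h5688
  have h5690 := checkRangeG_sound parWF r2 pf5689 h5689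
  have h5691 := checkRangeG_sound parWF r2 pf5690 h5690
  have h5692 := checkRangeG_sound parWF r2 pf5691 h5691
  have h5693 := checkRangeG_sound parWF r2 pf5692 h5692
  have h5694 := checkRangeG_sound parWF r2 pf5693 h5693
  have h5695 := checkRangeG_sound parWF r2 pf5694 h5694
  have h5696 := checkRangeG_sound parWF r2 pf5695 h5695
  have h5697 := checkRangeG_sound parWF r2 pf5696 h5696
  have h5698 := checkRangeG_sound parWF r2 pf5697 h5697
  have h5699 := checkRangeG_sound parWF r2 pf5698 h5698
  have h5700 := checkRangeG_sound parWF r2 pf5699 h5699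
  exact h5700

theorem c114 (h5700 : ∀ j, j < 16203 → GoodG.{u} par (db j)) : ∀ j, j < 16354 → GoodG.{u} par (db j) := by
  have h5701 := checkRangeG_sound parWF r2 pf5700 h5700
  have h5702 := checkRangeG_sound parWF r2 pf5701 h5701
  have h5703 := checkRangeG_sound parWF r2 pf5702 h5702
  have h5704 := checkRangeG_sound parWF r2 pf5703 h5703
  have h5705 := checkRangeG_sound parWF r2 pf5704 h5704
  have h5706 := checkRangeG_sound parWF r2 pf5705 h5705
  have h5707 := checkRangeG_sound parWF r2 pf5706 h5706
  have h5708 := checkRangeG_sound parWF r2 pf5707 h5707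
  have h5709 := checkRangeG_sound parWF r2 pf5708 h5708
  have h5710 := checkRangeG_sound parWF r2 pf5709 h5709
  have h5711 := checkRangeG_sound parWF r2 pf5710 h5710
  have h5712 := checkRangeG_sound parWF r2 pf5711 h5711
  have h5713 := checkRangeG_sound parWF r2 pf5712 h5712
  have h5714 := checkRangeG_sound parWF r2 pf5713 h5713
  have h5715 := checkRangeG_sound parWF r2 pf5714 h5714
  have h5716 := checkRangeG_sound parWF r2 pf5715 h5715
  have h5717 := checkRangeG_sound parWF r2 pf5716 h5716
  have h5718 := checkRangeG_sound parWF r2 pf5717 h5717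
  have h5719 := checkRangeG_sound parWF r2 pf5718 h5718
  have h5720 := checkRangeG_sound parWF r2 pf5719 h5719
  have h5721 := checkRangeG_sound parWF r2 pf5720 h5720
  have h5722 := checkRangeG_sound parWF r2 pf5721 h5721
  have h5723 := checkRangeG_sound parWF r2 pf5722 h5722
  have h5724 := checkRangeG_sound parWF r2 pf5723 h5723
  have h5725 := checkRangeG_sound parWF r2 pf5724 h5724
  have h5726 := checkRangeG_sound parWF r2 pf5725 h5725
  have h5727 := checkRangeG_sound parWF r2 pf5726 h5726
  have h5728 := checkRangeG_sound parWF r2 pf5727 h5727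
  have h5729 := checkRangeG_sound parWF r2 pf5728 h5728
  have h5730 := checkRangeG_sound parWF r2 pf5729 h5729
  have h5731 := checkRangeG_sound parWF r2 pf5730 h5730
  have h5732 := checkRangeG_sound parWF r2 pf5731 h5731
  have h5733 := checkRangeG_sound parWF r2 pf5732 h5732
  have h5734 := checkRangeG_sound parWF r2 pf5733 h5733
  have h5735 := checkRangeG_sound parWF r2 pf5734 h5734
  have h5736 := checkRangeG_sound parWF r2 pf5735 h5735
  have h5737 := checkRangeG_sound parWF r2 pf5736 h5736
  have h5738 := checkRangeG_sound parWF r2 pf5737 h5737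
  have h5739 := checkRangeG_sound parWF r2 pf5738 h5738
  have h5740 := checkRangeG_sound parWF r2 pf5739 h5739
  have h5741 := checkRangeG_sound parWF r2 pf5740 h5740
  have h5742 := checkRangeG_sound parWF r2 pf5741 h5741
  have h5743 := checkRangeG_sound parWF r2 pf5742 h5742
  have h5744 := checkRangeG_sound parWF r2 pf5743 h5743
  have h5745 := checkRangeG_sound parWF r2 pf5744 h5744
  have h5746 := checkRangeG_sound parWF r2 pf5745 h5745
  have h5747 := checkRangeG_sound parWF r2 pf5746 h5746
  have h5748 := checkRangeG_sound parWF r2 pf5747 h5747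
  have h5749 := checkRangeG_sound parWF r2 pf5748 h5748
  have h5750 := checkRangeG_sound parWF r2 pf5749 h5749
  exact h5750

theorem c115 (h5750 : ∀ j, j < 16354 → GoodG.{u} par (db j)) : ∀ j, j < 16513 → GoodG.{u} par (db j) := by
  have h5751 := checkRangeG_sound parWF r2 pf5750 h5750
  have h5752 := checkRangeG_sound parWF r2 pf5751 h5751
  have h5753 := checkRangeG_sound parWF r2 pf5752 h5752
  have h5754 := checkRangeG_sound parWF r2 pf5753 h5753
  have h5755 := checkRangeG_sound parWF r2 pf5754 h5754
  have h5756 := checkRangeG_sound parWF r2 pf5755 h5755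
  have h5757 := checkRangeG_sound parWF r2 pf5756 h5756
  have h5758 := checkRangeG_sound parWF r2 pf5757 h5757
  have h5759 := checkRangeG_sound parWF r2 pf5758 h5758
  have h5760 := checkRangeG_sound parWF r2 pf5759 h5759
  have h5761 := checkRangeG_sound parWF r2 pf5760 h5760
  have h5762 := checkRangeG_sound parWF r2 pf5761 h5761
  have h5763 := checkRangeG_sound parWF r2 pf5762 h5762
  have h5764 := checkRangeG_sound parWF r2 pf5763 h5763
  have h5765 := checkRangeG_sound parWF r2 pf5764 h5764
  have h5766 := checkRangeG_sound parWF r2 pf5765 h5765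
  have h5767 := checkRangeG_sound parWF r2 pf5766 h5766
  have h5768 := checkRangeG_sound parWF r2 pf5767 h5767
  have h5769 := checkRangeG_sound parWF r2 pf5768 h5768
  have h5770 := checkRangeG_sound parWF r2 pf5769 h5769
  have h5771 := checkRangeG_sound parWF r2 pf5770 h5770
  have h5772 := checkRangeG_sound parWF r2 pf5771 h5771
  have h5773 := checkRangeG_sound parWF r2 pf5772 h5772
  have h5774 := checkRangeG_sound parWF r2 pf5773 h5773
  have h5775 := checkRangeG_sound parWF r2 pf5774 h5774
  have h5776 := checkRangeG_sound parWF r2 pf5775 h5775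
  have h5777 := checkRangeG_sound parWF r2 pf5776 h5776
  have h5778 := checkRangeG_sound parWF r2 pf5777 h5777
  have h5779 := checkRangeG_sound parWF r2 pf5778 h5778
  have h5780 := checkRangeG_sound parWF r2 pf5779 h5779
  have h5781 := checkRangeG_sound parWF r2 pf5780 h5780
  have h5782 := checkRangeG_sound parWF r2 pf5781 h5781
  have h5783 := checkRangeG_sound parWF r2 pf5782 h5782
  have h5784 := checkRangeG_sound parWF r2 pf5783 h5783
  have h5785 := checkRangeG_sound parWF r2 pf5784 h5784
  have h5786 := checkRangeG_sound parWF r2 pf5785 h5785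
  have h5787 := checkRangeG_sound parWF r2 pf5786 h5786
  have h5788 := checkRangeG_sound parWF r2 pf5787 h5787
  have h5789 := checkRangeG_sound parWF r2 pf5788 h5788
  have h5790 := checkRangeG_sound parWF r2 pf5789 h5789
  have h5791 := checkRangeG_sound parWF r2 pf5790 h5790
  have h5792 := checkRangeG_sound parWF r2 pf5791 h5791
  have h5793 := checkRangeG_sound parWF r2 pf5792 h5792
  have h5794 := checkRangeG_sound parWF r2 pf5793 h5793
  have h5795 := checkRangeG_sound parWF r2 pf5794 h5794
  have h5796 := checkRangeG_sound parWF r2 pf5795 h5795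
  have h5797 := checkRangeG_sound parWF r2 pf5796 h5796
  have h5798 := checkRangeG_sound parWF r2 pf5797 h5797
  have h5799 := checkRangeG_sound parWF r2 pf5798 h5798
  have h5800 := checkRangeG_sound parWF r2 pf5799 h5799
  exact h5800

theorem c116 (h5800 : ∀ j, j < 16513 → GoodG.{u} par (db j)) : ∀ j, j < 16704 → GoodG.{u} par (db j) := by
  have h5801 := checkRangeG_sound parWF r2 pf5800 h5800
  have h5802 := checkRangeG_sound parWF r2 pf5801 h5801
  have h5803 := checkRangeG_sound parWF r2 pf5802 h5802
  have h5804 := checkRangeG_sound parWF r2 pf5803 h5803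
  have h5805 := checkRangeG_sound parWF r2 pf5804 h5804
  have h5806 := checkRangeG_sound parWF r2 pf5805 h5805
  have h5807 := checkRangeG_sound parWF r2 pf5806 h5806
  have h5808 := checkRangeG_sound parWF r2 pf5807 h5807
  have h5809 := checkRangeG_sound parWF r2 pf5808 h5808
  have h5810 := checkRangeG_sound parWF r2 pf5809 h5809
  have h5811 := checkRangeG_sound parWF r2 pf5810 h5810
  have h5812 := checkRangeG_sound parWF r2 pf5811 h5811
  have h5813 := checkRangeG_sound parWF r2 pf5812 h5812
  have h5814 := checkRangeG_sound parWF r2 pf5813 h5813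
  have h5815 := checkRangeG_sound parWF r2 pf5814 h5814
  have h5816 := checkRangeG_sound parWF r2 pf5815 h5815
  have h5817 := checkRangeG_sound parWF r2 pf5816 h5816
  have h5818 := checkRangeG_sound parWF r2 pf5817 h5817
  have h5819 := checkRangeG_sound parWF r2 pf5818 h5818
  have h5820 := checkRangeG_sound parWF r2 pf5819 h5819
  have h5821 := checkRangeG_sound parWF r2 pf5820 h5820
  have h5822 := checkRangeG_sound parWF r2 pf5821 h5821
  have h5823 := checkRangeG_sound parWF r2 pf5822 h5822
  have h5824 := checkRangeG_sound parWF r2 pf5823 h5823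
  have h5825 := checkRangeG_sound parWF r2 pf5824 h5824
  have h5826 := checkRangeG_sound parWF r2 pf5825 h5825
  have h5827 := checkRangeG_sound parWF r2 pf5826 h5826
  have h5828 := checkRangeG_sound parWF r2 pf5827 h5827
  have h5829 := checkRangeG_sound parWF r2 pf5828 h5828
  have h5830 := checkRangeG_sound parWF r2 pf5829 h5829
  have h5831 := checkRangeG_sound parWF r2 pf5830 h5830
  have h5832 := checkRangeG_sound parWF r2 pf5831 h5831
  have h5833 := checkRangeG_sound parWF r2 pf5832 h5832
  have h5834 := checkRangeG_sound parWF r2 pf5833 h5833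
  have h5835 := checkRangeG_sound parWF r2 pf5834 h5834
  have h5836 := checkRangeG_sound parWF r2 pf5835 h5835
  have h5837 := checkRangeG_sound parWF r2 pf5836 h5836
  have h5838 := checkRangeG_sound parWF r2 pf5837 h5837
  have h5839 := checkRangeG_sound parWF r2 pf5838 h5838
  have h5840 := checkRangeG_sound parWF r2 pf5839 h5839
  have h5841 := checkRangeG_sound parWF r2 pf5840 h5840
  have h5842 := checkRangeG_sound parWF r2 pf5841 h5841
  have h5843 := checkRangeG_sound parWF r2 pf5842 h5842
  have h5844 := checkRangeG_sound parWF r2 pf5843 h5843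
  have h5845 := checkRangeG_sound parWF r2 pf5844 h5844
  have h5846 := checkRangeG_sound parWF r2 pf5845 h5845
  have h5847 := checkRangeG_sound parWF r2 pf5846 h5846
  have h5848 := checkRangeG_sound parWF r2 pf5847 h5847
  have h5849 := checkRangeG_sound parWF r2 pf5848 h5848
  have h5850 := checkRangeG_sound parWF r2 pf5849 h5849
  exact h5850

theorem c117 (h5850 : ∀ j, j < 16704 → GoodG.{u} par (db j)) : ∀ j, j < 16892 → GoodG.{u} par (db j) := by
  have h5851 := checkRangeG_sound parWF r2 pf5850 h5850
  have h5852 := checkRangeG_sound parWF r2 pf5851 h5851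
  have h5853 := checkRangeG_sound parWF r2 pf5852 h5852
  have h5854 := checkRangeG_sound parWF r2 pf5853 h5853
  have h5855 := checkRangeG_sound parWF r2 pf5854 h5854
  have h5856 := checkRangeG_sound parWF r2 pf5855 h5855
  have h5857 := checkRangeG_sound parWF r2 pf5856 h5856
  have h5858 := checkRangeG_sound parWF r2 pf5857 h5857
  have h5859 := checkRangeG_sound parWF r2 pf5858 h5858
  have h5860 := checkRangeG_sound parWF r2 pf5859 h5859
  have h5861 := checkRangeG_sound parWF r2 pf5860 h5860
  have h5862 := checkRangeG_sound parWF r2 pf5861 h5861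
  have h5863 := checkRangeG_sound parWF r2 pf5862 h5862
  have h5864 := checkRangeG_sound parWF r2 pf5863 h5863
  have h5865 := checkRangeG_sound parWF r2 pf5864 h5864
  have h5866 := checkRangeG_sound parWF r2 pf5865 h5865
  have h5867 := checkRangeG_sound parWF r2 pf5866 h5866
  have h5868 := checkRangeG_sound parWF r2 pf5867 h5867
  have h5869 := checkRangeG_sound parWF r2 pf5868 h5868
  have h5870 := checkRangeG_sound parWF r2 pf5869 h5869
  have h5871 := checkRangeG_sound parWF r2 pf5870 h5870
  have h5872 := checkRangeG_sound parWF r2 pf5871 h5871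
  have h5873 := checkRangeG_sound parWF r2 pf5872 h5872
  have h5874 := checkRangeG_sound parWF r2 pf5873 h5873
  have h5875 := checkRangeG_sound parWF r2 pf5874 h5874
  have h5876 := checkRangeG_sound parWF r2 pf5875 h5875
  have h5877 := checkRangeG_sound parWF r2 pf5876 h5876
  have h5878 := checkRangeG_sound parWF r2 pf5877 h5877
  have h5879 := checkRangeG_sound parWF r2 pf5878 h5878
  have h5880 := checkRangeG_sound parWF r2 pf5879 h5879
  have h5881 := checkRangeG_sound parWF r2 pf5880 h5880
  have h5882 := checkRangeG_sound parWF r2 pf5881 h5881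
  have h5883 := checkRangeG_sound parWF r2 pf5882 h5882
  have h5884 := checkRangeG_sound parWF r2 pf5883 h5883
  have h5885 := checkRangeG_sound parWF r2 pf5884 h5884
  have h5886 := checkRangeG_sound parWF r2 pf5885 h5885
  have h5887 := checkRangeG_sound parWF r2 pf5886 h5886
  have h5888 := checkRangeG_sound parWF r2 pf5887 h5887
  have h5889 := checkRangeG_sound parWF r2 pf5888 h5888
  have h5890 := checkRangeG_sound parWF r2 pf5889 h5889
  have h5891 := checkRangeG_sound parWF r2 pf5890 h5890
  have h5892 := checkRangeG_sound parWF r2 pf5891 h5891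
  have h5893 := checkRangeG_sound parWF r2 pf5892 h5892
  have h5894 := checkRangeG_sound parWF r2 pf5893 h5893
  have h5895 := checkRangeG_sound parWF r2 pf5894 h5894
  have h5896 := checkRangeG_sound parWF r2 pf5895 h5895
  have h5897 := checkRangeG_sound parWF r2 pf5896 h5896
  have h5898 := checkRangeG_sound parWF r2 pf5897 h5897
  have h5899 := checkRangeG_sound parWF r2 pf5898 h5898
  have h5900 := checkRangeG_sound parWF r2 pf5899 h5899
  exact h5900

theorem c118 (h5900 : ∀ j, j < 16892 → GoodG.{u} par (db j)) : ∀ j, j < 17076 → GoodG.{u} par (db j) := by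
  have h5901 := checkRangeG_sound parWF r2 pf5900 h5900
  have h5902 := checkRangeG_sound parWF r2 pf5901 h5901
  have h5903 := checkRangeG_sound parWF r2 pf5902 h5902
  have h5904 := checkRangeG_sound parWF r2 pf5903 h5903
  have h5905 := checkRangeG_sound parWF r2 pf5904 h5904
  have h5906 := checkRangeG_sound parWF r2 pf5905 h5905
  have h5907 := checkRangeG_sound parWF r2 pf5906 h5906
  have h5908 := checkRangeG_sound parWF r2 pf5907 h5907
  have h5909 := checkRangeG_sound parWF r2 pf5908 h5908
  have h5910 := checkRangeG_sound parWF r2 pf5909 h5909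
  have h5911 := checkRangeG_sound parWF r2 pf5910 h5910
  have h5912 := checkRangeG_sound parWF r2 pf5911 h5911
  have h5913 := checkRangeG_sound parWF r2 pf5912 h5912
  have h5914 := checkRangeG_sound parWF r2 pf5913 h5913
  have h5915 := checkRangeG_sound parWF r2 pf5914 h5914
  have h5916 := checkRangeG_sound parWF r2 pf5915 h5915
  have h5917 := checkRangeG_sound parWF r2 pf5916 h5916
  have h5918 := checkRangeG_sound parWF r2 pf5917 h5917
  have h5919 := checkRangeG_sound parWF r2 pf5918 h5918
  have h5920 := checkRangeG_sound parWF r2 pf5919 h5919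
  have h5921 := checkRangeG_sound parWF r2 pf5920 h5920
  have h5922 := checkRangeG_sound parWF r2 pf5921 h5921
  have h5923 := checkRangeG_sound parWF r2 pf5922 h5922
  have h5924 := checkRangeG_sound parWF r2 pf5923 h5923
  have h5925 := checkRangeG_sound parWF r2 pf5924 h5924
  have h5926 := checkRangeG_sound parWF r2 pf5925 h5925
  have h5927 := checkRangeG_sound parWF r2 pf5926 h5926
  have h5928 := checkRangeG_sound parWF r2 pf5927 h5927
  have h5929 := checkRangeG_sound parWF r2 pf5928 h5928
  have h5930 := checkRangeG_sound parWF r2 pf5929 h5929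
  have h5931 := checkRangeG_sound parWF r2 pf5930 h5930
  have h5932 := checkRangeG_sound parWF r2 pf5931 h5931
  have h5933 := checkRangeG_sound parWF r2 pf5932 h5932
  have h5934 := checkRangeG_sound parWF r2 pf5933 h5933
  have h5935 := checkRangeG_sound parWF r2 pf5934 h5934
  have h5936 := checkRangeG_sound parWF r2 pf5935 h5935
  have h5937 := checkRangeG_sound parWF r2 pf5936 h5936
  have h5938 := checkRangeG_sound parWF r2 pf5937 h5937
  have h5939 := checkRangeG_sound parWF r2 pf5938 h5938
  have h5940 := checkRangeG_sound parWF r2 pf5939 h5939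
  have h5941 := checkRangeG_sound parWF r2 pf5940 h5940
  have h5942 := checkRangeG_sound parWF r2 pf5941 h5941
  have h5943 := checkRangeG_sound parWF r2 pf5942 h5942
  have h5944 := checkRangeG_sound parWF r2 pf5943 h5943
  have h5945 := checkRangeG_sound parWF r2 pf5944 h5944
  have h5946 := checkRangeG_sound parWF r2 pf5945 h5945
  have h5947 := checkRangeG_sound parWF r2 pf5946 h5946
  have h5948 := checkRangeG_sound parWF r2 pf5947 h5947
  have h5949 := checkRangeG_sound parWF r2 pf5948 h5948
  have h5950 := checkRangeG_sound parWF r2 pf5949 h5949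
  exact h5950

theorem c119 (h5950 : ∀ j, j < 17076 → GoodG.{u} par (db j)) : ∀ j, j < 17237 → GoodG.{u} par (db j) := by
  have h5951 := checkRangeG_sound parWF r2 pf5950 h5950
  have h5952 := checkRangeG_sound parWF r2 pf5951 h5951
  have h5953 := checkRangeG_sound parWF r2 pf5952 h5952
  have h5954 := checkRangeG_sound parWF r2 pf5953 h5953
  have h5955 := checkRangeG_sound parWF r2 pf5954 h5954
  have h5956 := checkRangeG_sound parWF r2 pf5955 h5955
  have h5957 := checkRangeG_sound parWF r2 pf5956 h5956
  have h5958 := checkRangeG_sound parWF r2 pf5957 h5957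
  have h5959 := checkRangeG_sound parWF r2 pf5958 h5958
  have h5960 := checkRangeG_sound parWF r2 pf5959 h5959
  have h5961 := checkRangeG_sound parWF r2 pf5960 h5960
  have h5962 := checkRangeG_sound parWF r2 pf5961 h5961
  have h5963 := checkRangeG_sound parWF r2 pf5962 h5962
  have h5964 := checkRangeG_sound parWF r2 pf5963 h5963
  have h5965 := checkRangeG_sound parWF r2 pf5964 h5964
  have h5966 := checkRangeG_sound parWF r2 pf5965 h5965
  have h5967 := checkRangeG_sound parWF r2 pf5966 h5966
  have h5968 := checkRangeG_sound parWF r2 pf5967 h5967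
  have h5969 := checkRangeG_sound parWF r2 pf5968 h5968
  have h5970 := checkRangeG_sound parWF r2 pf5969 h5969
  have h5971 := checkRangeG_sound parWF r2 pf5970 h5970
  have h5972 := checkRangeG_sound parWF r2 pf5971 h5971
  have h5973 := checkRangeG_sound parWF r2 pf5972 h5972
  have h5974 := checkRangeG_sound parWF r2 pf5973 h5973
  have h5975 := checkRangeG_sound parWF r2 pf5974 h5974
  have h5976 := checkRangeG_sound parWF r2 pf5975 h5975
  have h5977 := checkRangeG_sound parWF r2 pf5976 h5976
  have h5978 := checkRangeG_sound parWF r2 pf5977 h5977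
  have h5979 := checkRangeG_sound parWF r2 pf5978 h5978
  have h5980 := checkRangeG_sound parWF r2 pf5979 h5979
  have h5981 := checkRangeG_sound parWF r2 pf5980 h5980
  have h5982 := checkRangeG_sound parWF r2 pf5981 h5981
  have h5983 := checkRangeG_sound parWF r2 pf5982 h5982
  have h5984 := checkRangeG_sound parWF r2 pf5983 h5983
  have h5985 := checkRangeG_sound parWF r2 pf5984 h5984
  have h5986 := checkRangeG_sound parWF r2 pf5985 h5985
  have h5987 := checkRangeG_sound parWF r2 pf5986 h5986
  have h5988 := checkRangeG_sound parWF r2 pf5987 h5987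
  have h5989 := checkRangeG_sound parWF r2 pf5988 h5988
  have h5990 := checkRangeG_sound parWF r2 pf5989 h5989
  have h5991 := checkRangeG_sound parWF r2 pf5990 h5990
  have h5992 := checkRangeG_sound parWF r2 pf5991 h5991
  have h5993 := checkRangeG_sound parWF r2 pf5992 h5992
  have h5994 := checkRangeG_sound parWF r2 pf5993 h5993
  have h5995 := checkRangeG_sound parWF r2 pf5994 h5994
  have h5996 := checkRangeG_sound parWF r2 pf5995 h5995
  have h5997 := checkRangeG_sound parWF r2 pf5996 h5996
  have h5998 := checkRangeG_sound parWF r2 pf5997 h5997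
  have h5999 := checkRangeG_sound parWF r2 pf5998 h5998
  have h6000 := checkRangeG_sound parWF r2 pf5999 h5999
  exact h6000


end Vale.Agent.P045g.C61
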