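import Vale.Agent.P045g.C61.Db0
import Vale.Agent.P045g.C61.Db1
import Vale.Agent.P045g.C61.Db2
import Vale.Agent.P045g.C61.Db3
import Vale.Agent.P045g.C61.Db4
import Vale.Agent.P045g.C61.Db5
import Vale.Agent.P045g.C61.Db6
import Vale.Agent.P045g.C61.Db7
import Vale.Agent.P045g.C61.Db8
import Vale.Agent.P045g.C61.Db9
import Vale.Agent.P045g.C61.Db10
import Vale.Agent.P045g.C61.Db11
import Vale.Agent.P045g.C61.Db12
import Vale.Agent.P045g.C61.Db13
import Vale.Agent.P045g.C61.Db14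
import Vale.Agent.P045g.C61.Db15
import Vale.Agent.P045g.C61.Db16
import Vale.Agent.P045g.C61.Db17
import Vale.Agent.P045g.C61.Db18
import Vale.Agent.P045g.C61.Db19
import Vale.Agent.P045g.C61.Db20
import Vale.Agent.P045g.C61.Db21
import Vale.Agent.P045g.C61.Db22
import Vale.Agent.P045g.C61.Db23
import Vale.Agent.P045g.C61.Db24
import Vale.Agent.P045g.C61.Db25
import Vale.Agent.P045g.C61.Db26
import Vale.Agent.P045g.C61.Db27
import Vale.Agent.P045g.C61.Db28
import Vale.Agent.P045g.C61.Db29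
import Vale.Agent.P045g.C61.Db30
import Vale.Agent.P045g.C61.Db31

namespace Vale.Agent.P045g.C61

open Vale.Agent.P045b Vale.Agent.P045g

noncomputable def s0_2 (i sh : Nat) : Nat := Bool.rec (Nat.shiftRight leaf0 sh) (Nat.shiftRight leaf1 sh) (Nat.ble 1 i)
noncomputable def s3_5 (i sh : Nat) : Nat := Bool.rec (Nat.shiftRight leaf3 sh) (Nat.shiftRight leaf4 sh) (Nat.ble 4 i)
noncomputable def s2_5 (i sh : Nat) : Nat := Bool.rec (Nat.shiftRight leaf2 sh) (s3_5 i sh) (Nat.ble 3 i)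
noncomputable def s0_5 (i sh : Nat) : Nat := Bool.rec (s0_2 i sh) (s2_5 i sh) (Nat.ble 2 i)
noncomputable def s5_7 (i sh : Nat) : Nat := Bool.rec (Nat.shiftRight leaf5 sh) (Nat.shiftRight leaf6 sh) (Nat.ble 6 i)
noncomputable def s8_10 (i sh : Nat) : Nat := Bool.rec (Nat.shiftRight leaf8 sh) (Nat.shiftRight leaf9 sh) (Nat.ble 9 i)
noncomputable def s7_10 (i sh : Nat) : Nat := Bool.rec (Nat.shiftRight leaf7 sh) (s8_10 i sh) (Nat.ble 8 i)
noncomputable def s5_10 (i sh : Nat) : Nat := Bool.rec (s5_7 i sh) (s7_10 i sh) (Nat.ble 7 i)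
noncomputable def s0_10 (i sh : Nat) : Nat := Bool.rec (s0_5 i sh) (s5_10 i sh) (Nat.ble 5 i)
noncomputable def s10_12 (i sh : Nat) : Nat := Bool.rec (Nat.shiftRight leaf10 sh) (Nat.shiftRight leaf11 sh) (Nat.ble 11 i)
noncomputable def s13_15 (i sh : Nat) : Nat := Bool.rec (Nat.shiftRight leaf13 sh) (Nat.shiftRight leaf14 sh) (Nat.ble 14 i)
noncomputable def s12_15 (i sh : Nat) : Nat := Bool.rec (Nat.shiftRight leaf12 sh) (s13_15 i sh) (Nat.ble 13 i)
noncomputable def s10_15 (i sh : Nat) : Nat := Bool.rec (s10_12 i sh) (s12_15 i sh) (Nat.ble 12 i)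
noncomputable def s15_17 (i sh : Nat) : Nat := Bool.rec (Nat.shiftRight leaf15 sh) (Nat.shiftRight leaf16 sh) (Nat.ble 16 i)
noncomputable def s18_20 (i sh : Nat) : Nat := Bool.rec (Nat.shiftRight leaf18 sh) (Nat.shiftRight leaf19 sh) (Nat.ble 19 i)
noncomputable def s17_20 (i sh : Nat) : Nat := Bool.rec (Nat.shiftRight leaf17 sh) (s18_20 i sh) (Nat.ble 18 i)
noncomputable def s15_20 (i sh : Nat) : Nat := Bool.rec (s15_17 i sh) (s17_20 i sh) (Nat.ble 17 i)
noncomputable def s10_20 (i sh : Nat) : Nat := Bool.rec (s10_15 i sh) (s15_20 i sh) (Nat.ble 15 i)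
noncomputable def s0_20 (i sh : Nat) : Nat := Bool.rec (s0_10 i sh) (s10_20 i sh) (Nat.ble 10 i)
noncomputable def s20_22 (i sh : Nat) : Nat := Bool.rec (Nat.shiftRight leaf20 sh) (Nat.shiftRight leaf21 sh) (Nat.ble 21 i)
noncomputable def s23_25 (i sh : Nat) : Nat := Bool.rec (Nat.shiftRight leaf23 sh) (Nat.shiftRight leaf24 sh) (Nat.ble 24 i)
noncomputable def s22_25 (i sh : Nat) : Nat := Bool.rec (Nat.shiftRight leaf22 sh) (s23_25 i sh) (Nat.ble 23 i)
noncomputable def s20_25 (i sh : Nat) : Nat := Bool.rec (s20_22 i sh) (s22_25 i sh) (Nat.ble 22 i)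
noncomputable def s25_27 (i sh : Nat) : Nat := Bool.rec (Nat.shiftRight leaf25 sh) (Nat.shiftRight leaf26 sh) (Nat.ble 26 i)
noncomputable def s28_30 (i sh : Nat) : Nat := Bool.rec (Nat.shiftRight leaf28 sh) (Nat.shiftRight leaf29 sh) (Nat.ble 29 i)
noncomputable def s27_30 (i sh : Nat) : Nat := Bool.rec (Nat.shiftRight leaf27 sh) (s28_30 i sh) (Nat.ble 28 i)
noncomputable def s25_30 (i sh : Nat) : Nat := Bool.rec (s25_27 i sh) (s27_30 i sh) (Nat.ble 27 i)
noncomputable def s20_30 (i sh : Nat) : Nat := Bool.rec (s20_25 i sh) (s25_30 i sh) (Nat.ble 25 i)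
noncomputable def s30_32 (i sh : Nat) : Nat := Bool.rec (Nat.shiftRight leaf30 sh) (Nat.shiftRight leaf31 sh) (Nat.ble 31 i)
noncomputable def s33_35 (i sh : Nat) : Nat := Bool.rec (Nat.shiftRight leaf33 sh) (Nat.shiftRight leaf34 sh) (Nat.ble 34 i)
noncomputable def s32_35 (i sh : Nat) : Nat := Bool.rec (Nat.shiftRight leaf32 sh) (s33_35 i sh) (Nat.ble 33 i)
noncomputable def s30_35 (i sh : Nat) : Nat := Bool.rec (s30_32 i sh) (s32_35 i sh) (Nat.ble 32 i)
noncomputable def s35_37 (i sh : Nat) : Nat := Bool.rec (Nat.shiftRight leaf35 sh) (Nat.shiftRight leaf36 sh) (Nat.ble 36 i)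
noncomputable def s38_40 (i sh : Nat) : Nat := Bool.rec (Nat.shiftRight leaf38 sh) (Nat.shiftRight leaf39 sh) (Nat.ble 39 i)
noncomputable def s37_40 (i sh : Nat) : Nat := Bool.rec (Nat.shiftRight leaf37 sh) (s38_40 i sh) (Nat.ble 38 i)
noncomputable def s35_40 (i sh : Nat) : Nat := Bool.rec (s35_37 i sh) (s37_40 i sh) (Nat.ble 37 i)
noncomputable def s30_40 (i sh : Nat) : Nat := Bool.rec (s30_35 i sh) (s35_40 i sh) (Nat.ble 35 i)
noncomputable def s20_40 (i sh : Nat) : Nat := Bool.rec (s20_30 i sh) (s30_40 i sh) (Nat.ble 30 i)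
noncomputable def s0_40 (i sh : Nat) : Nat := Bool.rec (s0_20 i sh) (s20_40 i sh) (Nat.ble 20 i)
noncomputable def s40_42 (i sh : Nat) : Nat := Bool.rec (Nat.shiftRight leaf40 sh) (Nat.shiftRight leaf41 sh) (Nat.ble 41 i)
noncomputable def s43_45 (i sh : Nat) : Nat := Bool.rec (Nat.shiftRight leaf43 sh) (Nat.shiftRight leaf44 sh) (Nat.ble 44 i)
noncomputable def s42_45 (i sh : Nat) : Nat := Bool.rec (Nat.shiftRight leaf42 sh) (s43_45 i sh) (Nat.ble 43 i)
noncomputable def s40_45 (i sh : Nat) : Nat := Bool.rec (s40_42 i sh) (s42_45 i sh) (Nat.ble 42 i)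
noncomputable def s45_47 (i sh : Nat) : Nat := Bool.rec (Nat.shiftRight leaf45 sh) (Nat.shiftRight leaf46 sh) (Nat.ble 46 i)
noncomputable def s48_50 (i sh : Nat) : Nat := Bool.rec (Nat.shiftRight leaf48 sh) (Nat.shiftRight leaf49 sh) (Nat.ble 49 i)
noncomputable def s47_50 (i sh : Nat) : Nat := Bool.rec (Nat.shiftRight leaf47 sh) (s48_50 i sh) (Nat.ble 48 i)
noncomputable def s45_50 (i sh : Nat) : Nat := Bool.rec (s45_47 i sh) (s47_50 i sh) (Nat.ble 47 i)
noncomputable def s40_50 (i sh : Nat) : Nat := Bool.rec (s40_45 i sh) (s45_50 i sh) (Nat.ble 45 i)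
noncomputable def s50_52 (i sh : Nat) : Nat := Bool.rec (Nat.shiftRight leaf50 sh) (Nat.shiftRight leaf51 sh) (Nat.ble 51 i)
noncomputable def s53_55 (i sh : Nat) : Nat := Bool.rec (Nat.shiftRight leaf53 sh) (Nat.shiftRight leaf54 sh) (Nat.ble 54 i)
noncomputable def s52_55 (i sh : Nat) : Nat := Bool.rec (Nat.shiftRight leaf52 sh) (s53_55 i sh) (Nat.ble 53 i)
noncomputable def s50_55 (i sh : Nat) : Nat := Bool.rec (s50_52 i sh) (s52_55 i sh) (Nat.ble 52 i)
noncomputable def s55_57 (i sh : Nat) : Nat := Bool.rec (Nat.shiftRight leaf55 sh) (Nat.shiftRight leaf56 sh) (Nat.ble 56 i)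
noncomputable def s58_60 (i sh : Nat) : Nat := Bool.rec (Nat.shiftRight leaf58 sh) (Nat.shiftRight leaf59 sh) (Nat.ble 59 i)
noncomputable def s57_60 (i sh : Nat) : Nat := Bool.rec (Nat.shiftRight leaf57 sh) (s58_60 i sh) (Nat.ble 58 i)
noncomputable def s55_60 (i sh : Nat) : Nat := Bool.rec (s55_57 i sh) (s57_60 i sh) (Nat.ble 57 i)
noncomputable def s50_60 (i sh : Nat) : Nat := Bool.rec (s50_55 i sh) (s55_60 i sh) (Nat.ble 55 i)
noncomputable def s40_60 (i sh : Nat) : Nat := Bool.rec (s40_50 i sh) (s50_60 i sh) (Nat.ble 50 i)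
noncomputable def s60_62 (i sh : Nat) : Nat := Bool.rec (Nat.shiftRight leaf60 sh) (Nat.shiftRight leaf61 sh) (Nat.ble 61 i)
noncomputable def s63_65 (i sh : Nat) : Nat := Bool.rec (Nat.shiftRight leaf63 sh) (Nat.shiftRight leaf64 sh) (Nat.ble 64 i)
noncomputable def s62_65 (i sh : Nat) : Nat := Bool.rec (Nat.shiftRight leaf62 sh) (s63_65 i sh) (Nat.ble 63 i)
noncomputable def s60_65 (i sh : Nat) : Nat := Bool.rec (s60_62 i sh) (s62_65 i sh) (Nat.ble 62 i)
noncomputable def s65_67 (i sh : Nat) : Nat := Bool.rec (Nat.shiftRight leaf65 sh) (Nat.shiftRight leaf66 sh) (Nat.ble 66 i)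
noncomputable def s68_70 (i sh : Nat) : Nat := Bool.rec (Nat.shiftRight leaf68 sh) (Nat.shiftRight leaf69 sh) (Nat.ble 69 i)
noncomputable def s67_70 (i sh : Nat) : Nat := Bool.rec (Nat.shiftRight leaf67 sh) (s68_70 i sh) (Nat.ble 68 i)
noncomputable def s65_70 (i sh : Nat) : Nat := Bool.rec (s65_67 i sh) (s67_70 i sh) (Nat.ble 67 i)
noncomputable def s60_70 (i sh : Nat) : Nat := Bool.rec (s60_65 i sh) (s65_70 i sh) (Nat.ble 65 i)
noncomputable def s70_72 (i sh : Nat) : Nat := Bool.rec (Nat.shiftRight leaf70 sh) (Nat.shiftRight leaf71 sh) (Nat.ble 71 i)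
noncomputable def s73_75 (i sh : Nat) : Nat := Bool.rec (Nat.shiftRight leaf73 sh) (Nat.shiftRight leaf74 sh) (Nat.ble 74 i)
noncomputable def s72_75 (i sh : Nat) : Nat := Bool.rec (Nat.shiftRight leaf72 sh) (s73_75 i sh) (Nat.ble 73 i)
noncomputable def s70_75 (i sh : Nat) : Nat := Bool.rec (s70_72 i sh) (s72_75 i sh) (Nat.ble 72 i)
noncomputable def s75_77 (i sh : Nat) : Nat := Bool.rec (Nat.shiftRight leaf75 sh) (Nat.shiftRight leaf76 sh) (Nat.ble 76 i)
noncomputable def s78_80 (i sh : Nat) : Nat := Bool.rec (Nat.shiftRight leaf78 sh) (Nat.shiftRight leaf79 sh) (Nat.ble 79 i)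
noncomputable def s77_80 (i sh : Nat) : Nat := Bool.rec (Nat.shiftRight leaf77 sh) (s78_80 i sh) (Nat.ble 78 i)
noncomputable def s75_80 (i sh : Nat) : Nat := Bool.rec (s75_77 i sh) (s77_80 i sh) (Nat.ble 77 i)
noncomputable def s70_80 (i sh : Nat) : Nat := Bool.rec (s70_75 i sh) (s75_80 i sh) (Nat.ble 75 i)
noncomputable def s60_80 (i sh : Nat) : Nat := Bool.rec (s60_70 i sh) (s70_80 i sh) (Nat.ble 70 i)
noncomputable def s40_80 (i sh : Nat) : Nat := Bool.rec (s40_60 i sh) (s60_80 i sh) (Nat.ble 60 i)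
noncomputable def s0_80 (i sh : Nat) : Nat := Bool.rec (s0_40 i sh) (s40_80 i sh) (Nat.ble 40 i)
noncomputable def s80_82 (i sh : Nat) : Nat := Bool.rec (Nat.shiftRight leaf80 sh) (Nat.shiftRight leaf81 sh) (Nat.ble 81 i)
noncomputable def s83_85 (i sh : Nat) : Nat := Bool.rec (Nat.shiftRight leaf83 sh) (Nat.shiftRight leaf84 sh) (Nat.ble 84 i)
noncomputable def s82_85 (i sh : Nat) : Nat := Bool.rec (Nat.shiftRight leaf82 sh) (s83_85 i sh) (Nat.ble 83 i)
noncomputable def s80_85 (i sh : Nat) : Nat := Bool.rec (s80_82 i sh) (s82_85 i sh) (Nat.ble 82 i)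
noncomputable def s85_87 (i sh : Nat) : Nat := Bool.rec (Nat.shiftRight leaf85 sh) (Nat.shiftRight leaf86 sh) (Nat.ble 86 i)
noncomputable def s88_90 (i sh : Nat) : Nat := Bool.rec (Nat.shiftRight leaf88 sh) (Nat.shiftRight leaf89 sh) (Nat.ble 89 i)
noncomputable def s87_90 (i sh : Nat) : Nat := Bool.rec (Nat.shiftRight leaf87 sh) (s88_90 i sh) (Nat.ble 88 i)
noncomputable def s85_90 (i sh : Nat) : Nat := Bool.rec (s85_87 i sh) (s87_90 i sh) (Nat.ble 87 i)
noncomputable def s80_90 (i sh : Nat) : Nat := Bool.rec (s80_85 i sh) (s85_90 i sh) (Nat.ble 85 i)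
noncomputable def s90_92 (i sh : Nat) : Nat := Bool.rec (Nat.shiftRight leaf90 sh) (Nat.shiftRight leaf91 sh) (Nat.ble 91 i)
noncomputable def s93_95 (i sh : Nat) : Nat := Bool.rec (Nat.shiftRight leaf93 sh) (Nat.shiftRight leaf94 sh) (Nat.ble 94 i)
noncomputable def s92_95 (i sh : Nat) : Nat := Bool.rec (Nat.shiftRight leaf92 sh) (s93_95 i sh) (Nat.ble 93 i)
noncomputable def s90_95 (i sh : Nat) : Nat := Bool.rec (s90_92 i sh) (s92_95 i sh) (Nat.ble 92 i)
noncomputable def s95_97 (i sh : Nat) : Nat := Bool.rec (Nat.shiftRight leaf95 sh) (Nat.shiftRight leaf96 sh) (Nat.ble 96 i)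
noncomputable def s98_100 (i sh : Nat) : Nat := Bool.rec (Nat.shiftRight leaf98 sh) (Nat.shiftRight leaf99 sh) (Nat.ble 99 i)
noncomputable def s97_100 (i sh : Nat) : Nat := Bool.rec (Nat.shiftRight leaf97 sh) (s98_100 i sh) (Nat.ble 98 i)
noncomputable def s95_100 (i sh : Nat) : Nat := Bool.rec (s95_97 i sh) (s97_100 i sh) (Nat.ble 97 i)
noncomputable def s90_100 (i sh : Nat) : Nat := Bool.rec (s90_95 i sh) (s95_100 i sh) (Nat.ble 95 i)
noncomputable def s80_100 (i sh : Nat) : Nat := Bool.rec (s80_90 i sh) (s90_100 i sh) (Nat.ble 90 i)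
noncomputable def s100_102 (i sh : Nat) : Nat := Bool.rec (Nat.shiftRight leaf100 sh) (Nat.shiftRight leaf101 sh) (Nat.ble 101 i)
noncomputable def s103_105 (i sh : Nat) : Nat := Bool.rec (Nat.shiftRight leaf103 sh) (Nat.shiftRight leaf104 sh) (Nat.ble 104 i)
noncomputable def s102_105 (i sh : Nat) : Nat := Bool.rec (Nat.shiftRight leaf102 sh) (s103_105 i sh) (Nat.ble 103 i)
noncomputable def s100_105 (i sh : Nat) : Nat := Bool.rec (s100_102 i sh) (s102_105 i sh) (Nat.ble 102 i)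
noncomputable def s105_107 (i sh : Nat) : Nat := Bool.rec (Nat.shiftRight leaf105 sh) (Nat.shiftRight leaf106 sh) (Nat.ble 106 i)
noncomputable def s108_110 (i sh : Nat) : Nat := Bool.rec (Nat.shiftRight leaf108 sh) (Nat.shiftRight leaf109 sh) (Nat.ble 109 i)
noncomputable def s107_110 (i sh : Nat) : Nat := Bool.rec (Nat.shiftRight leaf107 sh) (s108_110 i sh) (Nat.ble 108 i)
noncomputable def s105_110 (i sh : Nat) : Nat := Bool.rec (s105_107 i sh) (s107_110 i sh) (Nat.ble 107 i)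
noncomputable def s100_110 (i sh : Nat) : Nat := Bool.rec (s100_105 i sh) (s105_110 i sh) (Nat.ble 105 i)
noncomputable def s110_112 (i sh : Nat) : Nat := Bool.rec (Nat.shiftRight leaf110 sh) (Nat.shiftRight leaf111 sh) (Nat.ble 111 i)
noncomputable def s113_115 (i sh : Nat) : Nat := Bool.rec (Nat.shiftRight leaf113 sh) (Nat.shiftRight leaf114 sh) (Nat.ble 114 i)
noncomputable def s112_115 (i sh : Nat) : Nat := Bool.rec (Nat.shiftRight leaf112 sh) (s113_115 i sh) (Nat.ble 113 i)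
noncomputable def s110_115 (i sh : Nat) : Nat := Bool.rec (s110_112 i sh) (s112_115 i sh) (Nat.ble 112 i)
noncomputable def s115_117 (i sh : Nat) : Nat := Bool.rec (Nat.shiftRight leaf115 sh) (Nat.shiftRight leaf116 sh) (Nat.ble 116 i)
noncomputable def s118_120 (i sh : Nat) : Nat := Bool.rec (Nat.shiftRight leaf118 sh) (Nat.shiftRight leaf119 sh) (Nat.ble 119 i)
noncomputable def s117_120 (i sh : Nat) : Nat := Bool.rec (Nat.shiftRight leaf117 sh) (s118_120 i sh) (Nat.ble 118 i)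
noncomputable def s115_120 (i sh : Nat) : Nat := Bool.rec (s115_117 i sh) (s117_120 i sh) (Nat.ble 117 i)
noncomputable def s110_120 (i sh : Nat) : Nat := Bool.rec (s110_115 i sh) (s115_120 i sh) (Nat.ble 115 i)
noncomputable def s100_120 (i sh : Nat) : Nat := Bool.rec (s100_110 i sh) (s110_120 i sh) (Nat.ble 110 i)
noncomputable def s80_120 (i sh : Nat) : Nat := Bool.rec (s80_100 i sh) (s100_120 i sh) (Nat.ble 100 i)
noncomputable def s120_122 (i sh : Nat) : Nat := Bool.rec (Nat.shiftRight leaf120 sh) (Nat.shiftRight leaf121 sh) (Nat.ble 121 i)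
noncomputable def s123_125 (i sh : Nat) : Nat := Bool.rec (Nat.shiftRight leaf123 sh) (Nat.shiftRight leaf124 sh) (Nat.ble 124 i)
noncomputable def s122_125 (i sh : Nat) : Nat := Bool.rec (Nat.shiftRight leaf122 sh) (s123_125 i sh) (Nat.ble 123 i)
noncomputable def s120_125 (i sh : Nat) : Nat := Bool.rec (s120_122 i sh) (s122_125 i sh) (Nat.ble 122 i)
noncomputable def s125_127 (i sh : Nat) : Nat := Bool.rec (Nat.shiftRight leaf125 sh) (Nat.shiftRight leaf126 sh) (Nat.ble 126 i)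
noncomputable def s128_130 (i sh : Nat) : Nat := Bool.rec (Nat.shiftRight leaf128 sh) (Nat.shiftRight leaf129 sh) (Nat.ble 129 i)
noncomputable def s127_130 (i sh : Nat) : Nat := Bool.rec (Nat.shiftRight leaf127 sh) (s128_130 i sh) (Nat.ble 128 i)
noncomputable def s125_130 (i sh : Nat) : Nat := Bool.rec (s125_127 i sh) (s127_130 i sh) (Nat.ble 127 i)
noncomputable def s120_130 (i sh : Nat) : Nat := Bool.rec (s120_125 i sh) (s125_130 i sh) (Nat.ble 125 i)
noncomputable def s130_132 (i sh : Nat) : Nat := Bool.rec (Nat.shiftRight leaf130 sh) (Nat.shiftRight leaf131 sh) (Nat.ble 131 i)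
noncomputable def s133_135 (i sh : Nat) : Nat := Bool.rec (Nat.shiftRight leaf133 sh) (Nat.shiftRight leaf134 sh) (Nat.ble 134 i)
noncomputable def s132_135 (i sh : Nat) : Nat := Bool.rec (Nat.shiftRight leaf132 sh) (s133_135 i sh) (Nat.ble 133 i)
noncomputable def s130_135 (i sh : Nat) : Nat := Bool.rec (s130_132 i sh) (s132_135 i sh) (Nat.ble 132 i)
noncomputable def s135_137 (i sh : Nat) : Nat := Bool.rec (Nat.shiftRight leaf135 sh) (Nat.shiftRight leaf136 sh) (Nat.ble 136 i)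
noncomputable def s138_140 (i sh : Nat) : Nat := Bool.rec (Nat.shiftRight leaf138 sh) (Nat.shiftRight leaf139 sh) (Nat.ble 139 i)
noncomputable def s137_140 (i sh : Nat) : Nat := Bool.rec (Nat.shiftRight leaf137 sh) (s138_140 i sh) (Nat.ble 138 i)
noncomputable def s135_140 (i sh : Nat) : Nat := Bool.rec (s135_137 i sh) (s137_140 i sh) (Nat.ble 137 i)
noncomputable def s130_140 (i sh : Nat) : Nat := Bool.rec (s130_135 i sh) (s135_140 i sh) (Nat.ble 135 i)
noncomputable def s120_140 (i sh : Nat) : Nat := Bool.rec (s120_130 i sh) (s130_140 i sh) (Nat.ble 130 i)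
noncomputable def s140_142 (i sh : Nat) : Nat := Bool.rec (Nat.shiftRight leaf140 sh) (Nat.shiftRight leaf141 sh) (Nat.ble 141 i)
noncomputable def s143_145 (i sh : Nat) : Nat := Bool.rec (Nat.shiftRight leaf143 sh) (Nat.shiftRight leaf144 sh) (Nat.ble 144 i)
noncomputable def s142_145 (i sh : Nat) : Nat := Bool.rec (Nat.shiftRight leaf142 sh) (s143_145 i sh) (Nat.ble 143 i)
noncomputable def s140_145 (i sh : Nat) : Nat := Bool.rec (s140_142 i sh) (s142_145 i sh) (Nat.ble 142 i)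
noncomputable def s145_147 (i sh : Nat) : Nat := Bool.rec (Nat.shiftRight leaf145 sh) (Nat.shiftRight leaf146 sh) (Nat.ble 146 i)
noncomputable def s148_150 (i sh : Nat) : Nat := Bool.rec (Nat.shiftRight leaf148 sh) (Nat.shiftRight leaf149 sh) (Nat.ble 149 i)
noncomputable def s147_150 (i sh : Nat) : Nat := Bool.rec (Nat.shiftRight leaf147 sh) (s148_150 i sh) (Nat.ble 148 i)
noncomputable def s145_150 (i sh : Nat) : Nat := Bool.rec (s145_147 i sh) (s147_150 i sh) (Nat.ble 147 i)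
noncomputable def s140_150 (i sh : Nat) : Nat := Bool.rec (s140_145 i sh) (s145_150 i sh) (Nat.ble 145 i)
noncomputable def s150_152 (i sh : Nat) : Nat := Bool.rec (Nat.shiftRight leaf150 sh) (Nat.shiftRight leaf151 sh) (Nat.ble 151 i)
noncomputable def s153_155 (i sh : Nat) : Nat := Bool.rec (Nat.shiftRight leaf153 sh) (Nat.shiftRight leaf154 sh) (Nat.ble 154 i)
noncomputable def s152_155 (i sh : Nat) : Nat := Bool.rec (Nat.shiftRight leaf152 sh) (s153_155 i sh) (Nat.ble 153 i)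
noncomputable def s150_155 (i sh : Nat) : Nat := Bool.rec (s150_152 i sh) (s152_155 i sh) (Nat.ble 152 i)
noncomputable def s156_158 (i sh : Nat) : Nat := Bool.rec (Nat.shiftRight leaf156 sh) (Nat.shiftRight leaf157 sh) (Nat.ble 157 i)
noncomputable def s155_158 (i sh : Nat) : Nat := Bool.rec (Nat.shiftRight leaf155 sh) (s156_158 i sh) (Nat.ble 156 i)
noncomputable def s159_161 (i sh : Nat) : Nat := Bool.rec (Nat.shiftRight leaf159 sh) (Nat.shiftRight leaf160 sh) (Nat.ble 160 i)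
noncomputable def s158_161 (i sh : Nat) : Nat := Bool.rec (Nat.shiftRight leaf158 sh) (s159_161 i sh) (Nat.ble 159 i)
noncomputable def s155_161 (i sh : Nat) : Nat := Bool.rec (s155_158 i sh) (s158_161 i sh) (Nat.ble 158 i)
noncomputable def s150_161 (i sh : Nat) : Nat := Bool.rec (s150_155 i sh) (s155_161 i sh) (Nat.ble 155 i)
noncomputable def s140_161 (i sh : Nat) : Nat := Bool.rec (s140_150 i sh) (s150_161 i sh) (Nat.ble 150 i)
noncomputable def s120_161 (i sh : Nat) : Nat := Bool.rec (s120_140 i sh) (s140_161 i sh) (Nat.ble 140 i)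
noncomputable def s80_161 (i sh : Nat) : Nat := Bool.rec (s80_120 i sh) (s120_161 i sh) (Nat.ble 120 i)
noncomputable def s0_161 (i sh : Nat) : Nat := Bool.rec (s0_80 i sh) (s80_161 i sh) (Nat.ble 80 i)
noncomputable def s161_163 (i sh : Nat) : Nat := Bool.rec (Nat.shiftRight leaf161 sh) (Nat.shiftRight leaf162 sh) (Nat.ble 162 i)
noncomputable def s164_166 (i sh : Nat) : Nat := Bool.rec (Nat.shiftRight leaf164 sh) (Nat.shiftRight leaf165 sh) (Nat.ble 165 i)
noncomputable def s163_166 (i sh : Nat) : Nat := Bool.rec (Nat.shiftRight leaf163 sh) (s164_166 i sh) (Nat.ble 164 i)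
noncomputable def s161_166 (i sh : Nat) : Nat := Bool.rec (s161_163 i sh) (s163_166 i sh) (Nat.ble 163 i)
noncomputable def s166_168 (i sh : Nat) : Nat := Bool.rec (Nat.shiftRight leaf166 sh) (Nat.shiftRight leaf167 sh) (Nat.ble 167 i)
noncomputable def s169_171 (i sh : Nat) : Nat := Bool.rec (Nat.shiftRight leaf169 sh) (Nat.shiftRight leaf170 sh) (Nat.ble 170 i)
noncomputable def s168_171 (i sh : Nat) : Nat := Bool.rec (Nat.shiftRight leaf168 sh) (s169_171 i sh) (Nat.ble 169 i)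
noncomputable def s166_171 (i sh : Nat) : Nat := Bool.rec (s166_168 i sh) (s168_171 i sh) (Nat.ble 168 i)
noncomputable def s161_171 (i sh : Nat) : Nat := Bool.rec (s161_166 i sh) (s166_171 i sh) (Nat.ble 166 i)
noncomputable def s171_173 (i sh : Nat) : Nat := Bool.rec (Nat.shiftRight leaf171 sh) (Nat.shiftRight leaf172 sh) (Nat.ble 172 i)
noncomputable def s174_176 (i sh : Nat) : Nat := Bool.rec (Nat.shiftRight leaf174 sh) (Nat.shiftRight leaf175 sh) (Nat.ble 175 i)
noncomputable def s173_176 (i sh : Nat) : Nat := Bool.rec (Nat.shiftRight leaf173 sh) (s174_176 i sh) (Nat.ble 174 i)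
noncomputable def s171_176 (i sh : Nat) : Nat := Bool.rec (s171_173 i sh) (s173_176 i sh) (Nat.ble 173 i)
noncomputable def s176_178 (i sh : Nat) : Nat := Bool.rec (Nat.shiftRight leaf176 sh) (Nat.shiftRight leaf177 sh) (Nat.ble 177 i)
noncomputable def s179_181 (i sh : Nat) : Nat := Bool.rec (Nat.shiftRight leaf179 sh) (Nat.shiftRight leaf180 sh) (Nat.ble 180 i)
noncomputable def s178_181 (i sh : Nat) : Nat := Bool.rec (Nat.shiftRight leaf178 sh) (s179_181 i sh) (Nat.ble 179 i)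
noncomputable def s176_181 (i sh : Nat) : Nat := Bool.rec (s176_178 i sh) (s178_181 i sh) (Nat.ble 178 i)
noncomputable def s171_181 (i sh : Nat) : Nat := Bool.rec (s171_176 i sh) (s176_181 i sh) (Nat.ble 176 i)
noncomputable def s161_181 (i sh : Nat) : Nat := Bool.rec (s161_171 i sh) (s171_181 i sh) (Nat.ble 171 i)
noncomputable def s181_183 (i sh : Nat) : Nat := Bool.rec (Nat.shiftRight leaf181 sh) (Nat.shiftRight leaf182 sh) (Nat.ble 182 i)
noncomputable def s184_186 (i sh : Nat) : Nat := Bool.rec (Nat.shiftRight leaf184 sh) (Nat.shiftRight leaf185 sh) (Nat.ble 185 i)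
noncomputable def s183_186 (i sh : Nat) : Nat := Bool.rec (Nat.shiftRight leaf183 sh) (s184_186 i sh) (Nat.ble 184 i)
noncomputable def s181_186 (i sh : Nat) : Nat := Bool.rec (s181_183 i sh) (s183_186 i sh) (Nat.ble 183 i)
noncomputable def s186_188 (i sh : Nat) : Nat := Bool.rec (Nat.shiftRight leaf186 sh) (Nat.shiftRight leaf187 sh) (Nat.ble 187 i)
noncomputable def s189_191 (i sh : Nat) : Nat := Bool.rec (Nat.shiftRight leaf189 sh) (Nat.shiftRight leaf190 sh) (Nat.ble 190 i)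
noncomputable def s188_191 (i sh : Nat) : Nat := Bool.rec (Nat.shiftRight leaf188 sh) (s189_191 i sh) (Nat.ble 189 i)
noncomputable def s186_191 (i sh : Nat) : Nat := Bool.rec (s186_188 i sh) (s188_191 i sh) (Nat.ble 188 i)
noncomputable def s181_191 (i sh : Nat) : Nat := Bool.rec (s181_186 i sh) (s186_191 i sh) (Nat.ble 186 i)
noncomputable def s191_193 (i sh : Nat) : Nat := Bool.rec (Nat.shiftRight leaf191 sh) (Nat.shiftRight leaf192 sh) (Nat.ble 192 i)
noncomputable def s194_196 (i sh : Nat) : Nat := Bool.rec (Nat.shiftRight leaf194 sh) (Nat.shiftRight leaf195 sh) (Nat.ble 195 i)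
noncomputable def s193_196 (i sh : Nat) : Nat := Bool.rec (Nat.shiftRight leaf193 sh) (s194_196 i sh) (Nat.ble 194 i)
noncomputable def s191_196 (i sh : Nat) : Nat := Bool.rec (s191_193 i sh) (s193_196 i sh) (Nat.ble 193 i)
noncomputable def s196_198 (i sh : Nat) : Nat := Bool.rec (Nat.shiftRight leaf196 sh) (Nat.shiftRight leaf197 sh) (Nat.ble 197 i)
noncomputable def s199_201 (i sh : Nat) : Nat := Bool.rec (Nat.shiftRight leaf199 sh) (Nat.shiftRight leaf200 sh) (Nat.ble 200 i)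
noncomputable def s198_201 (i sh : Nat) : Nat := Bool.rec (Nat.shiftRight leaf198 sh) (s199_201 i sh) (Nat.ble 199 i)
noncomputable def s196_201 (i sh : Nat) : Nat := Bool.rec (s196_198 i sh) (s198_201 i sh) (Nat.ble 198 i)
noncomputable def s191_201 (i sh : Nat) : Nat := Bool.rec (s191_196 i sh) (s196_201 i sh) (Nat.ble 196 i)
noncomputable def s181_201 (i sh : Nat) : Nat := Bool.rec (s181_191 i sh) (s191_201 i sh) (Nat.ble 191 i)
noncomputable def s161_201 (i sh : Nat) : Nat := Bool.rec (s161_181 i sh) (s181_201 i sh) (Nat.ble 181 i)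
noncomputable def s201_203 (i sh : Nat) : Nat := Bool.rec (Nat.shiftRight leaf201 sh) (Nat.shiftRight leaf202 sh) (Nat.ble 202 i)
noncomputable def s204_206 (i sh : Nat) : Nat := Bool.rec (Nat.shiftRight leaf204 sh) (Nat.shiftRight leaf205 sh) (Nat.ble 205 i)
noncomputable def s203_206 (i sh : Nat) : Nat := Bool.rec (Nat.shiftRight leaf203 sh) (s204_206 i sh) (Nat.ble 204 i)
noncomputable def s201_206 (i sh : Nat) : Nat := Bool.rec (s201_203 i sh) (s203_206 i sh) (Nat.ble 203 i)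
noncomputable def s206_208 (i sh : Nat) : Nat := Bool.rec (Nat.shiftRight leaf206 sh) (Nat.shiftRight leaf207 sh) (Nat.ble 207 i)
noncomputable def s209_211 (i sh : Nat) : Nat := Bool.rec (Nat.shiftRight leaf209 sh) (Nat.shiftRight leaf210 sh) (Nat.ble 210 i)
noncomputable def s208_211 (i sh : Nat) : Nat := Bool.rec (Nat.shiftRight leaf208 sh) (s209_211 i sh) (Nat.ble 209 i)
noncomputable def s206_211 (i sh : Nat) : Nat := Bool.rec (s206_208 i sh) (s208_211 i sh) (Nat.ble 208 i)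
noncomputable def s201_211 (i sh : Nat) : Nat := Bool.rec (s201_206 i sh) (s206_211 i sh) (Nat.ble 206 i)
noncomputable def s211_213 (i sh : Nat) : Nat := Bool.rec (Nat.shiftRight leaf211 sh) (Nat.shiftRight leaf212 sh) (Nat.ble 212 i)
noncomputable def s214_216 (i sh : Nat) : Nat := Bool.rec (Nat.shiftRight leaf214 sh) (Nat.shiftRight leaf215 sh) (Nat.ble 215 i)
noncomputable def s213_216 (i sh : Nat) : Nat := Bool.rec (Nat.shiftRight leaf213 sh) (s214_216 i sh) (Nat.ble 214 i)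
noncomputable def s211_216 (i sh : Nat) : Nat := Bool.rec (s211_213 i sh) (s213_216 i sh) (Nat.ble 213 i)
noncomputable def s216_218 (i sh : Nat) : Nat := Bool.rec (Nat.shiftRight leaf216 sh) (Nat.shiftRight leaf217 sh) (Nat.ble 217 i)
noncomputable def s219_221 (i sh : Nat) : Nat := Bool.rec (Nat.shiftRight leaf219 sh) (Nat.shiftRight leaf220 sh) (Nat.ble 220 i)
noncomputable def s218_221 (i sh : Nat) : Nat := Bool.rec (Nat.shiftRight leaf218 sh) (s219_221 i sh) (Nat.ble 219 i)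
noncomputable def s216_221 (i sh : Nat) : Nat := Bool.rec (s216_218 i sh) (s218_221 i sh) (Nat.ble 218 i)
noncomputable def s211_221 (i sh : Nat) : Nat := Bool.rec (s211_216 i sh) (s216_221 i sh) (Nat.ble 216 i)
noncomputable def s201_221 (i sh : Nat) : Nat := Bool.rec (s201_211 i sh) (s211_221 i sh) (Nat.ble 211 i)
noncomputable def s221_223 (i sh : Nat) : Nat := Bool.rec (Nat.shiftRight leaf221 sh) (Nat.shiftRight leaf222 sh) (Nat.ble 222 i)
noncomputable def s224_226 (i sh : Nat) : Nat := Bool.rec (Nat.shiftRight leaf224 sh) (Nat.shiftRight leaf225 sh) (Nat.ble 225 i)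
noncomputable def s223_226 (i sh : Nat) : Nat := Bool.rec (Nat.shiftRight leaf223 sh) (s224_226 i sh) (Nat.ble 224 i)
noncomputable def s221_226 (i sh : Nat) : Nat := Bool.rec (s221_223 i sh) (s223_226 i sh) (Nat.ble 223 i)
noncomputable def s226_228 (i sh : Nat) : Nat := Bool.rec (Nat.shiftRight leaf226 sh) (Nat.shiftRight leaf227 sh) (Nat.ble 227 i)
noncomputable def s229_231 (i sh : Nat) : Nat := Bool.rec (Nat.shiftRight leaf229 sh) (Nat.shiftRight leaf230 sh) (Nat.ble 230 i)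
noncomputable def s228_231 (i sh : Nat) : Nat := Bool.rec (Nat.shiftRight leaf228 sh) (s229_231 i sh) (Nat.ble 229 i)
noncomputable def s226_231 (i sh : Nat) : Nat := Bool.rec (s226_228 i sh) (s228_231 i sh) (Nat.ble 228 i)
noncomputable def s221_231 (i sh : Nat) : Nat := Bool.rec (s221_226 i sh) (s226_231 i sh) (Nat.ble 226 i)
noncomputable def s231_233 (i sh : Nat) : Nat := Bool.rec (Nat.shiftRight leaf231 sh) (Nat.shiftRight leaf232 sh) (Nat.ble 232 i)
noncomputable def s234_236 (i sh : Nat) : Nat := Bool.rec (Nat.shiftRight leaf234 sh) (Nat.shiftRight leaf235 sh) (Nat.ble 235 i)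
noncomputable def s233_236 (i sh : Nat) : Nat := Bool.rec (Nat.shiftRight leaf233 sh) (s234_236 i sh) (Nat.ble 234 i)
noncomputable def s231_236 (i sh : Nat) : Nat := Bool.rec (s231_233 i sh) (s233_236 i sh) (Nat.ble 233 i)
noncomputable def s236_238 (i sh : Nat) : Nat := Bool.rec (Nat.shiftRight leaf236 sh) (Nat.shiftRight leaf237 sh) (Nat.ble 237 i)
noncomputable def s239_241 (i sh : Nat) : Nat := Bool.rec (Nat.shiftRight leaf239 sh) (Nat.shiftRight leaf240 sh) (Nat.ble 240 i)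
noncomputable def s238_241 (i sh : Nat) : Nat := Bool.rec (Nat.shiftRight leaf238 sh) (s239_241 i sh) (Nat.ble 239 i)
noncomputable def s236_241 (i sh : Nat) : Nat := Bool.rec (s236_238 i sh) (s238_241 i sh) (Nat.ble 238 i)
noncomputable def s231_241 (i sh : Nat) : Nat := Bool.rec (s231_236 i sh) (s236_241 i sh) (Nat.ble 236 i)
noncomputable def s221_241 (i sh : Nat) : Nat := Bool.rec (s221_231 i sh) (s231_241 i sh) (Nat.ble 231 i)
noncomputable def s201_241 (i sh : Nat) : Nat := Bool.rec (s201_221 i sh) (s221_241 i sh) (Nat.ble 221 i)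
noncomputable def s161_241 (i sh : Nat) : Nat := Bool.rec (s161_201 i sh) (s201_241 i sh) (Nat.ble 201 i)
noncomputable def s241_243 (i sh : Nat) : Nat := Bool.rec (Nat.shiftRight leaf241 sh) (Nat.shiftRight leaf242 sh) (Nat.ble 242 i)
noncomputable def s244_246 (i sh : Nat) : Nat := Bool.rec (Nat.shiftRight leaf244 sh) (Nat.shiftRight leaf245 sh) (Nat.ble 245 i)
noncomputable def s243_246 (i sh : Nat) : Nat := Bool.rec (Nat.shiftRight leaf243 sh) (s244_246 i sh) (Nat.ble 244 i)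
noncomputable def s241_246 (i sh : Nat) : Nat := Bool.rec (s241_243 i sh) (s243_246 i sh) (Nat.ble 243 i)
noncomputable def s246_248 (i sh : Nat) : Nat := Bool.rec (Nat.shiftRight leaf246 sh) (Nat.shiftRight leaf247 sh) (Nat.ble 247 i)
noncomputable def s249_251 (i sh : Nat) : Nat := Bool.rec (Nat.shiftRight leaf249 sh) (Nat.shiftRight leaf250 sh) (Nat.ble 250 i)
noncomputable def s248_251 (i sh : Nat) : Nat := Bool.rec (Nat.shiftRight leaf248 sh) (s249_251 i sh) (Nat.ble 249 i)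
noncomputable def s246_251 (i sh : Nat) : Nat := Bool.rec (s246_248 i sh) (s248_251 i sh) (Nat.ble 248 i)
noncomputable def s241_251 (i sh : Nat) : Nat := Bool.rec (s241_246 i sh) (s246_251 i sh) (Nat.ble 246 i)
noncomputable def s251_253 (i sh : Nat) : Nat := Bool.rec (Nat.shiftRight leaf251 sh) (Nat.shiftRight leaf252 sh) (Nat.ble 252 i)
noncomputable def s254_256 (i sh : Nat) : Nat := Bool.rec (Nat.shiftRight leaf254 sh) (Nat.shiftRight leaf255 sh) (Nat.ble 255 i)
noncomputable def s253_256 (i sh : Nat) : Nat := Bool.rec (Nat.shiftRight leaf253 sh) (s254_256 i sh) (Nat.ble 254 i)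
noncomputable def s251_256 (i sh : Nat) : Nat := Bool.rec (s251_253 i sh) (s253_256 i sh) (Nat.ble 253 i)
noncomputable def s256_258 (i sh : Nat) : Nat := Bool.rec (Nat.shiftRight leaf256 sh) (Nat.shiftRight leaf257 sh) (Nat.ble 257 i)
noncomputable def s259_261 (i sh : Nat) : Nat := Bool.rec (Nat.shiftRight leaf259 sh) (Nat.shiftRight leaf260 sh) (Nat.ble 260 i)
noncomputable def s258_261 (i sh : Nat) : Nat := Bool.rec (Nat.shiftRight leaf258 sh) (s259_261 i sh) (Nat.ble 259 i)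
noncomputable def s256_261 (i sh : Nat) : Nat := Bool.rec (s256_258 i sh) (s258_261 i sh) (Nat.ble 258 i)
noncomputable def s251_261 (i sh : Nat) : Nat := Bool.rec (s251_256 i sh) (s256_261 i sh) (Nat.ble 256 i)
noncomputable def s241_261 (i sh : Nat) : Nat := Bool.rec (s241_251 i sh) (s251_261 i sh) (Nat.ble 251 i)
noncomputable def s261_263 (i sh : Nat) : Nat := Bool.rec (Nat.shiftRight leaf261 sh) (Nat.shiftRight leaf262 sh) (Nat.ble 262 i)
noncomputable def s264_266 (i sh : Nat) : Nat := Bool.rec (Nat.shiftRight leaf264 sh) (Nat.shiftRight leaf265 sh) (Nat.ble 265 i)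
noncomputable def s263_266 (i sh : Nat) : Nat := Bool.rec (Nat.shiftRight leaf263 sh) (s264_266 i sh) (Nat.ble 264 i)
noncomputable def s261_266 (i sh : Nat) : Nat := Bool.rec (s261_263 i sh) (s263_266 i sh) (Nat.ble 263 i)
noncomputable def s266_268 (i sh : Nat) : Nat := Bool.rec (Nat.shiftRight leaf266 sh) (Nat.shiftRight leaf267 sh) (Nat.ble 267 i)
noncomputable def s269_271 (i sh : Nat) : Nat := Bool.rec (Nat.shiftRight leaf269 sh) (Nat.shiftRight leaf270 sh) (Nat.ble 270 i)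
noncomputable def s268_271 (i sh : Nat) : Nat := Bool.rec (Nat.shiftRight leaf268 sh) (s269_271 i sh) (Nat.ble 269 i)
noncomputable def s266_271 (i sh : Nat) : Nat := Bool.rec (s266_268 i sh) (s268_271 i sh) (Nat.ble 268 i)
noncomputable def s261_271 (i sh : Nat) : Nat := Bool.rec (s261_266 i sh) (s266_271 i sh) (Nat.ble 266 i)
noncomputable def s271_273 (i sh : Nat) : Nat := Bool.rec (Nat.shiftRight leaf271 sh) (Nat.shiftRight leaf272 sh) (Nat.ble 272 i)
noncomputable def s274_276 (i sh : Nat) : Nat := Bool.rec (Nat.shiftRight leaf274 sh) (Nat.shiftRight leaf275 sh) (Nat.ble 275 i)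
noncomputable def s273_276 (i sh : Nat) : Nat := Bool.rec (Nat.shiftRight leaf273 sh) (s274_276 i sh) (Nat.ble 274 i)
noncomputable def s271_276 (i sh : Nat) : Nat := Bool.rec (s271_273 i sh) (s273_276 i sh) (Nat.ble 273 i)
noncomputable def s276_278 (i sh : Nat) : Nat := Bool.rec (Nat.shiftRight leaf276 sh) (Nat.shiftRight leaf277 sh) (Nat.ble 277 i)
noncomputable def s279_281 (i sh : Nat) : Nat := Bool.rec (Nat.shiftRight leaf279 sh) (Nat.shiftRight leaf280 sh) (Nat.ble 280 i)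
noncomputable def s278_281 (i sh : Nat) : Nat := Bool.rec (Nat.shiftRight leaf278 sh) (s279_281 i sh) (Nat.ble 279 i)
noncomputable def s276_281 (i sh : Nat) : Nat := Bool.rec (s276_278 i sh) (s278_281 i sh) (Nat.ble 278 i)
noncomputable def s271_281 (i sh : Nat) : Nat := Bool.rec (s271_276 i sh) (s276_281 i sh) (Nat.ble 276 i)
noncomputable def s261_281 (i sh : Nat) : Nat := Bool.rec (s261_271 i sh) (s271_281 i sh) (Nat.ble 271 i)
noncomputable def s241_281 (i sh : Nat) : Nat := Bool.rec (s241_261 i sh) (s261_281 i sh) (Nat.ble 261 i)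
noncomputable def s281_283 (i sh : Nat) : Nat := Bool.rec (Nat.shiftRight leaf281 sh) (Nat.shiftRight leaf282 sh) (Nat.ble 282 i)
noncomputable def s284_286 (i sh : Nat) : Nat := Bool.rec (Nat.shiftRight leaf284 sh) (Nat.shiftRight leaf285 sh) (Nat.ble 285 i)
noncomputable def s283_286 (i sh : Nat) : Nat := Bool.rec (Nat.shiftRight leaf283 sh) (s284_286 i sh) (Nat.ble 284 i)
noncomputable def s281_286 (i sh : Nat) : Nat := Bool.rec (s281_283 i sh) (s283_286 i sh) (Nat.ble 283 i)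
noncomputable def s286_288 (i sh : Nat) : Nat := Bool.rec (Nat.shiftRight leaf286 sh) (Nat.shiftRight leaf287 sh) (Nat.ble 287 i)
noncomputable def s289_291 (i sh : Nat) : Nat := Bool.rec (Nat.shiftRight leaf289 sh) (Nat.shiftRight leaf290 sh) (Nat.ble 290 i)
noncomputable def s288_291 (i sh : Nat) : Nat := Bool.rec (Nat.shiftRight leaf288 sh) (s289_291 i sh) (Nat.ble 289 i)
noncomputable def s286_291 (i sh : Nat) : Nat := Bool.rec (s286_288 i sh) (s288_291 i sh) (Nat.ble 288 i)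
noncomputable def s281_291 (i sh : Nat) : Nat := Bool.rec (s281_286 i sh) (s286_291 i sh) (Nat.ble 286 i)
noncomputable def s291_293 (i sh : Nat) : Nat := Bool.rec (Nat.shiftRight leaf291 sh) (Nat.shiftRight leaf292 sh) (Nat.ble 292 i)
noncomputable def s294_296 (i sh : Nat) : Nat := Bool.rec (Nat.shiftRight leaf294 sh) (Nat.shiftRight leaf295 sh) (Nat.ble 295 i)
noncomputable def s293_296 (i sh : Nat) : Nat := Bool.rec (Nat.shiftRight leaf293 sh) (s294_296 i sh) (Nat.ble 294 i)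
noncomputable def s291_296 (i sh : Nat) : Nat := Bool.rec (s291_293 i sh) (s293_296 i sh) (Nat.ble 293 i)
noncomputable def s296_298 (i sh : Nat) : Nat := Bool.rec (Nat.shiftRight leaf296 sh) (Nat.shiftRight leaf297 sh) (Nat.ble 297 i)
noncomputable def s299_301 (i sh : Nat) : Nat := Bool.rec (Nat.shiftRight leaf299 sh) (Nat.shiftRight leaf300 sh) (Nat.ble 300 i)
noncomputable def s298_301 (i sh : Nat) : Nat := Bool.rec (Nat.shiftRight leaf298 sh) (s299_301 i sh) (Nat.ble 299 i)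
noncomputable def s296_301 (i sh : Nat) : Nat := Bool.rec (s296_298 i sh) (s298_301 i sh) (Nat.ble 298 i)
noncomputable def s291_301 (i sh : Nat) : Nat := Bool.rec (s291_296 i sh) (s296_301 i sh) (Nat.ble 296 i)
noncomputable def s281_301 (i sh : Nat) : Nat := Bool.rec (s281_291 i sh) (s291_301 i sh) (Nat.ble 291 i)
noncomputable def s301_303 (i sh : Nat) : Nat := Bool.rec (Nat.shiftRight leaf301 sh) (Nat.shiftRight leaf302 sh) (Nat.ble 302 i)
noncomputable def s304_306 (i sh : Nat) : Nat := Bool.rec (Nat.shiftRight leaf304 sh) (Nat.shiftRight leaf305 sh) (Nat.ble 305 i)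
noncomputable def s303_306 (i sh : Nat) : Nat := Bool.rec (Nat.shiftRight leaf303 sh) (s304_306 i sh) (Nat.ble 304 i)
noncomputable def s301_306 (i sh : Nat) : Nat := Bool.rec (s301_303 i sh) (s303_306 i sh) (Nat.ble 303 i)
noncomputable def s306_308 (i sh : Nat) : Nat := Bool.rec (Nat.shiftRight leaf306 sh) (Nat.shiftRight leaf307 sh) (Nat.ble 307 i)
noncomputable def s309_311 (i sh : Nat) : Nat := Bool.rec (Nat.shiftRight leaf309 sh) (Nat.shiftRight leaf310 sh) (Nat.ble 310 i)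
noncomputable def s308_311 (i sh : Nat) : Nat := Bool.rec (Nat.shiftRight leaf308 sh) (s309_311 i sh) (Nat.ble 309 i)
noncomputable def s306_311 (i sh : Nat) : Nat := Bool.rec (s306_308 i sh) (s308_311 i sh) (Nat.ble 308 i)
noncomputable def s301_311 (i sh : Nat) : Nat := Bool.rec (s301_306 i sh) (s306_311 i sh) (Nat.ble 306 i)
noncomputable def s311_313 (i sh : Nat) : Nat := Bool.rec (Nat.shiftRight leaf311 sh) (Nat.shiftRight leaf312 sh) (Nat.ble 312 i)
noncomputable def s314_316 (i sh : Nat) : Nat := Bool.rec (Nat.shiftRight leaf314 sh) (Nat.shiftRight leaf315 sh) (Nat.ble 315 i)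
noncomputable def s313_316 (i sh : Nat) : Nat := Bool.rec (Nat.shiftRight leaf313 sh) (s314_316 i sh) (Nat.ble 314 i)
noncomputable def s311_316 (i sh : Nat) : Nat := Bool.rec (s311_313 i sh) (s313_316 i sh) (Nat.ble 313 i)
noncomputable def s317_319 (i sh : Nat) : Nat := Bool.rec (Nat.shiftRight leaf317 sh) (Nat.shiftRight leaf318 sh) (Nat.ble 318 i)
noncomputable def s316_319 (i sh : Nat) : Nat := Bool.rec (Nat.shiftRight leaf316 sh) (s317_319 i sh) (Nat.ble 317 i)
noncomputable def s320_322 (i sh : Nat) : Nat := Bool.rec (Nat.shiftRight leaf320 sh) (Nat.shiftRight leaf321 sh) (Nat.ble 321 i)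
noncomputable def s319_322 (i sh : Nat) : Nat := Bool.rec (Nat.shiftRight leaf319 sh) (s320_322 i sh) (Nat.ble 320 i)
noncomputable def s316_322 (i sh : Nat) : Nat := Bool.rec (s316_319 i sh) (s319_322 i sh) (Nat.ble 319 i)
noncomputable def s311_322 (i sh : Nat) : Nat := Bool.rec (s311_316 i sh) (s316_322 i sh) (Nat.ble 316 i)
noncomputable def s301_322 (i sh : Nat) : Nat := Bool.rec (s301_311 i sh) (s311_322 i sh) (Nat.ble 311 i)
noncomputable def s281_322 (i sh : Nat) : Nat := Bool.rec (s281_301 i sh) (s301_322 i sh) (Nat.ble 301 i)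
noncomputable def s241_322 (i sh : Nat) : Nat := Bool.rec (s241_281 i sh) (s281_322 i sh) (Nat.ble 281 i)
noncomputable def s161_322 (i sh : Nat) : Nat := Bool.rec (s161_241 i sh) (s241_322 i sh) (Nat.ble 241 i)
noncomputable def s0_322 (i sh : Nat) : Nat := Bool.rec (s0_161 i sh) (s161_322 i sh) (Nat.ble 161 i)
noncomputable def s322_324 (i sh : Nat) : Nat := Bool.rec (Nat.shiftRight leaf322 sh) (Nat.shiftRight leaf323 sh) (Nat.ble 323 i)
noncomputable def s325_327 (i sh : Nat) : Nat := Bool.rec (Nat.shiftRight leaf325 sh) (Nat.shiftRight leaf326 sh) (Nat.ble 326 i)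
noncomputable def s324_327 (i sh : Nat) : Nat := Bool.rec (Nat.shiftRight leaf324 sh) (s325_327 i sh) (Nat.ble 325 i)
noncomputable def s322_327 (i sh : Nat) : Nat := Bool.rec (s322_324 i sh) (s324_327 i sh) (Nat.ble 324 i)
noncomputable def s327_329 (i sh : Nat) : Nat := Bool.rec (Nat.shiftRight leaf327 sh) (Nat.shiftRight leaf328 sh) (Nat.ble 328 i)
noncomputable def s330_332 (i sh : Nat) : Nat := Bool.rec (Nat.shiftRight leaf330 sh) (Nat.shiftRight leaf331 sh) (Nat.ble 331 i)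
noncomputable def s329_332 (i sh : Nat) : Nat := Bool.rec (Nat.shiftRight leaf329 sh) (s330_332 i sh) (Nat.ble 330 i)
noncomputable def s327_332 (i sh : Nat) : Nat := Bool.rec (s327_329 i sh) (s329_332 i sh) (Nat.ble 329 i)
noncomputable def s322_332 (i sh : Nat) : Nat := Bool.rec (s322_327 i sh) (s327_332 i sh) (Nat.ble 327 i)
noncomputable def s332_334 (i sh : Nat) : Nat := Bool.rec (Nat.shiftRight leaf332 sh) (Nat.shiftRight leaf333 sh) (Nat.ble 333 i)
noncomputable def s335_337 (i sh : Nat) : Nat := Bool.rec (Nat.shiftRight leaf335 sh) (Nat.shiftRight leaf336 sh) (Nat.ble 336 i)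
noncomputable def s334_337 (i sh : Nat) : Nat := Bool.rec (Nat.shiftRight leaf334 sh) (s335_337 i sh) (Nat.ble 335 i)
noncomputable def s332_337 (i sh : Nat) : Nat := Bool.rec (s332_334 i sh) (s334_337 i sh) (Nat.ble 334 i)
noncomputable def s337_339 (i sh : Nat) : Nat := Bool.rec (Nat.shiftRight leaf337 sh) (Nat.shiftRight leaf338 sh) (Nat.ble 338 i)
noncomputable def s340_342 (i sh : Nat) : Nat := Bool.rec (Nat.shiftRight leaf340 sh) (Nat.shiftRight leaf341 sh) (Nat.ble 341 i)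
noncomputable def s339_342 (i sh : Nat) : Nat := Bool.rec (Nat.shiftRight leaf339 sh) (s340_342 i sh) (Nat.ble 340 i)
noncomputable def s337_342 (i sh : Nat) : Nat := Bool.rec (s337_339 i sh) (s339_342 i sh) (Nat.ble 339 i)
noncomputable def s332_342 (i sh : Nat) : Nat := Bool.rec (s332_337 i sh) (s337_342 i sh) (Nat.ble 337 i)
noncomputable def s322_342 (i sh : Nat) : Nat := Bool.rec (s322_332 i sh) (s332_342 i sh) (Nat.ble 332 i)
noncomputable def s342_344 (i sh : Nat) : Nat := Bool.rec (Nat.shiftRight leaf342 sh) (Nat.shiftRight leaf343 sh) (Nat.ble 343 i)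
noncomputable def s345_347 (i sh : Nat) : Nat := Bool.rec (Nat.shiftRight leaf345 sh) (Nat.shiftRight leaf346 sh) (Nat.ble 346 i)
noncomputable def s344_347 (i sh : Nat) : Nat := Bool.rec (Nat.shiftRight leaf344 sh) (s345_347 i sh) (Nat.ble 345 i)
noncomputable def s342_347 (i sh : Nat) : Nat := Bool.rec (s342_344 i sh) (s344_347 i sh) (Nat.ble 344 i)
noncomputable def s347_349 (i sh : Nat) : Nat := Bool.rec (Nat.shiftRight leaf347 sh) (Nat.shiftRight leaf348 sh) (Nat.ble 348 i)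
noncomputable def s350_352 (i sh : Nat) : Nat := Bool.rec (Nat.shiftRight leaf350 sh) (Nat.shiftRight leaf351 sh) (Nat.ble 351 i)
noncomputable def s349_352 (i sh : Nat) : Nat := Bool.rec (Nat.shiftRight leaf349 sh) (s350_352 i sh) (Nat.ble 350 i)
noncomputable def s347_352 (i sh : Nat) : Nat := Bool.rec (s347_349 i sh) (s349_352 i sh) (Nat.ble 349 i)
noncomputable def s342_352 (i sh : Nat) : Nat := Bool.rec (s342_347 i sh) (s347_352 i sh) (Nat.ble 347 i)
noncomputable def s352_354 (i sh : Nat) : Nat := Bool.rec (Nat.shiftRight leaf352 sh) (Nat.shiftRight leaf353 sh) (Nat.ble 353 i)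
noncomputable def s355_357 (i sh : Nat) : Nat := Bool.rec (Nat.shiftRight leaf355 sh) (Nat.shiftRight leaf356 sh) (Nat.ble 356 i)
noncomputable def s354_357 (i sh : Nat) : Nat := Bool.rec (Nat.shiftRight leaf354 sh) (s355_357 i sh) (Nat.ble 355 i)
noncomputable def s352_357 (i sh : Nat) : Nat := Bool.rec (s352_354 i sh) (s354_357 i sh) (Nat.ble 354 i)
noncomputable def s357_359 (i sh : Nat) : Nat := Bool.rec (Nat.shiftRight leaf357 sh) (Nat.shiftRight leaf358 sh) (Nat.ble 358 i)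
noncomputable def s360_362 (i sh : Nat) : Nat := Bool.rec (Nat.shiftRight leaf360 sh) (Nat.shiftRight leaf361 sh) (Nat.ble 361 i)
noncomputable def s359_362 (i sh : Nat) : Nat := Bool.rec (Nat.shiftRight leaf359 sh) (s360_362 i sh) (Nat.ble 360 i)
noncomputable def s357_362 (i sh : Nat) : Nat := Bool.rec (s357_359 i sh) (s359_362 i sh) (Nat.ble 359 i)
noncomputable def s352_362 (i sh : Nat) : Nat := Bool.rec (s352_357 i sh) (s357_362 i sh) (Nat.ble 357 i)
noncomputable def s342_362 (i sh : Nat) : Nat := Bool.rec (s342_352 i sh) (s352_362 i sh) (Nat.ble 352 i)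
noncomputable def s322_362 (i sh : Nat) : Nat := Bool.rec (s322_342 i sh) (s342_362 i sh) (Nat.ble 342 i)
noncomputable def s362_364 (i sh : Nat) : Nat := Bool.rec (Nat.shiftRight leaf362 sh) (Nat.shiftRight leaf363 sh) (Nat.ble 363 i)
noncomputable def s365_367 (i sh : Nat) : Nat := Bool.rec (Nat.shiftRight leaf365 sh) (Nat.shiftRight leaf366 sh) (Nat.ble 366 i)
noncomputable def s364_367 (i sh : Nat) : Nat := Bool.rec (Nat.shiftRight leaf364 sh) (s365_367 i sh) (Nat.ble 365 i)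
noncomputable def s362_367 (i sh : Nat) : Nat := Bool.rec (s362_364 i sh) (s364_367 i sh) (Nat.ble 364 i)
noncomputable def s367_369 (i sh : Nat) : Nat := Bool.rec (Nat.shiftRight leaf367 sh) (Nat.shiftRight leaf368 sh) (Nat.ble 368 i)
noncomputable def s370_372 (i sh : Nat) : Nat := Bool.rec (Nat.shiftRight leaf370 sh) (Nat.shiftRight leaf371 sh) (Nat.ble 371 i)
noncomputable def s369_372 (i sh : Nat) : Nat := Bool.rec (Nat.shiftRight leaf369 sh) (s370_372 i sh) (Nat.ble 370 i)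
noncomputable def s367_372 (i sh : Nat) : Nat := Bool.rec (s367_369 i sh) (s369_372 i sh) (Nat.ble 369 i)
noncomputable def s362_372 (i sh : Nat) : Nat := Bool.rec (s362_367 i sh) (s367_372 i sh) (Nat.ble 367 i)
noncomputable def s372_374 (i sh : Nat) : Nat := Bool.rec (Nat.shiftRight leaf372 sh) (Nat.shiftRight leaf373 sh) (Nat.ble 373 i)
noncomputable def s375_377 (i sh : Nat) : Nat := Bool.rec (Nat.shiftRight leaf375 sh) (Nat.shiftRight leaf376 sh) (Nat.ble 376 i)
noncomputable def s374_377 (i sh : Nat) : Nat := Bool.rec (Nat.shiftRight leaf374 sh) (s375_377 i sh) (Nat.ble 375 i)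
noncomputable def s372_377 (i sh : Nat) : Nat := Bool.rec (s372_374 i sh) (s374_377 i sh) (Nat.ble 374 i)
noncomputable def s377_379 (i sh : Nat) : Nat := Bool.rec (Nat.shiftRight leaf377 sh) (Nat.shiftRight leaf378 sh) (Nat.ble 378 i)
noncomputable def s380_382 (i sh : Nat) : Nat := Bool.rec (Nat.shiftRight leaf380 sh) (Nat.shiftRight leaf381 sh) (Nat.ble 381 i)
noncomputable def s379_382 (i sh : Nat) : Nat := Bool.rec (Nat.shiftRight leaf379 sh) (s380_382 i sh) (Nat.ble 380 i)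
noncomputable def s377_382 (i sh : Nat) : Nat := Bool.rec (s377_379 i sh) (s379_382 i sh) (Nat.ble 379 i)
noncomputable def s372_382 (i sh : Nat) : Nat := Bool.rec (s372_377 i sh) (s377_382 i sh) (Nat.ble 377 i)
noncomputable def s362_382 (i sh : Nat) : Nat := Bool.rec (s362_372 i sh) (s372_382 i sh) (Nat.ble 372 i)
noncomputable def s382_384 (i sh : Nat) : Nat := Bool.rec (Nat.shiftRight leaf382 sh) (Nat.shiftRight leaf383 sh) (Nat.ble 383 i)
noncomputable def s385_387 (i sh : Nat) : Nat := Bool.rec (Nat.shiftRight leaf385 sh) (Nat.shiftRight leaf386 sh) (Nat.ble 386 i)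
noncomputable def s384_387 (i sh : Nat) : Nat := Bool.rec (Nat.shiftRight leaf384 sh) (s385_387 i sh) (Nat.ble 385 i)
noncomputable def s382_387 (i sh : Nat) : Nat := Bool.rec (s382_384 i sh) (s384_387 i sh) (Nat.ble 384 i)
noncomputable def s387_389 (i sh : Nat) : Nat := Bool.rec (Nat.shiftRight leaf387 sh) (Nat.shiftRight leaf388 sh) (Nat.ble 388 i)
noncomputable def s390_392 (i sh : Nat) : Nat := Bool.rec (Nat.shiftRight leaf390 sh) (Nat.shiftRight leaf391 sh) (Nat.ble 391 i)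
noncomputable def s389_392 (i sh : Nat) : Nat := Bool.rec (Nat.shiftRight leaf389 sh) (s390_392 i sh) (Nat.ble 390 i)
noncomputable def s387_392 (i sh : Nat) : Nat := Bool.rec (s387_389 i sh) (s389_392 i sh) (Nat.ble 389 i)
noncomputable def s382_392 (i sh : Nat) : Nat := Bool.rec (s382_387 i sh) (s387_392 i sh) (Nat.ble 387 i)
noncomputable def s392_394 (i sh : Nat) : Nat := Bool.rec (Nat.shiftRight leaf392 sh) (Nat.shiftRight leaf393 sh) (Nat.ble 393 i)
noncomputable def s395_397 (i sh : Nat) : Nat := Bool.rec (Nat.shiftRight leaf395 sh) (Nat.shiftRight leaf396 sh) (Nat.ble 396 i)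
noncomputable def s394_397 (i sh : Nat) : Nat := Bool.rec (Nat.shiftRight leaf394 sh) (s395_397 i sh) (Nat.ble 395 i)
noncomputable def s392_397 (i sh : Nat) : Nat := Bool.rec (s392_394 i sh) (s394_397 i sh) (Nat.ble 394 i)
noncomputable def s397_399 (i sh : Nat) : Nat := Bool.rec (Nat.shiftRight leaf397 sh) (Nat.shiftRight leaf398 sh) (Nat.ble 398 i)
noncomputable def s400_402 (i sh : Nat) : Nat := Bool.rec (Nat.shiftRight leaf400 sh) (Nat.shiftRight leaf401 sh) (Nat.ble 401 i)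
noncomputable def s399_402 (i sh : Nat) : Nat := Bool.rec (Nat.shiftRight leaf399 sh) (s400_402 i sh) (Nat.ble 400 i)
noncomputable def s397_402 (i sh : Nat) : Nat := Bool.rec (s397_399 i sh) (s399_402 i sh) (Nat.ble 399 i)
noncomputable def s392_402 (i sh : Nat) : Nat := Bool.rec (s392_397 i sh) (s397_402 i sh) (Nat.ble 397 i)
noncomputable def s382_402 (i sh : Nat) : Nat := Bool.rec (s382_392 i sh) (s392_402 i sh) (Nat.ble 392 i)
noncomputable def s362_402 (i sh : Nat) : Nat := Bool.rec (s362_382 i sh) (s382_402 i sh) (Nat.ble 382 i)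
noncomputable def s322_402 (i sh : Nat) : Nat := Bool.rec (s322_362 i sh) (s362_402 i sh) (Nat.ble 362 i)
noncomputable def s402_404 (i sh : Nat) : Nat := Bool.rec (Nat.shiftRight leaf402 sh) (Nat.shiftRight leaf403 sh) (Nat.ble 403 i)
noncomputable def s405_407 (i sh : Nat) : Nat := Bool.rec (Nat.shiftRight leaf405 sh) (Nat.shiftRight leaf406 sh) (Nat.ble 406 i)
noncomputable def s404_407 (i sh : Nat) : Nat := Bool.rec (Nat.shiftRight leaf404 sh) (s405_407 i sh) (Nat.ble 405 i)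
noncomputable def s402_407 (i sh : Nat) : Nat := Bool.rec (s402_404 i sh) (s404_407 i sh) (Nat.ble 404 i)
noncomputable def s407_409 (i sh : Nat) : Nat := Bool.rec (Nat.shiftRight leaf407 sh) (Nat.shiftRight leaf408 sh) (Nat.ble 408 i)
noncomputable def s410_412 (i sh : Nat) : Nat := Bool.rec (Nat.shiftRight leaf410 sh) (Nat.shiftRight leaf411 sh) (Nat.ble 411 i)
noncomputable def s409_412 (i sh : Nat) : Nat := Bool.rec (Nat.shiftRight leaf409 sh) (s410_412 i sh) (Nat.ble 410 i)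
noncomputable def s407_412 (i sh : Nat) : Nat := Bool.rec (s407_409 i sh) (s409_412 i sh) (Nat.ble 409 i)
noncomputable def s402_412 (i sh : Nat) : Nat := Bool.rec (s402_407 i sh) (s407_412 i sh) (Nat.ble 407 i)
noncomputable def s412_414 (i sh : Nat) : Nat := Bool.rec (Nat.shiftRight leaf412 sh) (Nat.shiftRight leaf413 sh) (Nat.ble 413 i)
noncomputable def s415_417 (i sh : Nat) : Nat := Bool.rec (Nat.shiftRight leaf415 sh) (Nat.shiftRight leaf416 sh) (Nat.ble 416 i)
noncomputable def s414_417 (i sh : Nat) : Nat := Bool.rec (Nat.shiftRight leaf414 sh) (s415_417 i sh) (Nat.ble 415 i)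
noncomputable def s412_417 (i sh : Nat) : Nat := Bool.rec (s412_414 i sh) (s414_417 i sh) (Nat.ble 414 i)
noncomputable def s417_419 (i sh : Nat) : Nat := Bool.rec (Nat.shiftRight leaf417 sh) (Nat.shiftRight leaf418 sh) (Nat.ble 418 i)
noncomputable def s420_422 (i sh : Nat) : Nat := Bool.rec (Nat.shiftRight leaf420 sh) (Nat.shiftRight leaf421 sh) (Nat.ble 421 i)
noncomputable def s419_422 (i sh : Nat) : Nat := Bool.rec (Nat.shiftRight leaf419 sh) (s420_422 i sh) (Nat.ble 420 i)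
noncomputable def s417_422 (i sh : Nat) : Nat := Bool.rec (s417_419 i sh) (s419_422 i sh) (Nat.ble 419 i)
noncomputable def s412_422 (i sh : Nat) : Nat := Bool.rec (s412_417 i sh) (s417_422 i sh) (Nat.ble 417 i)
noncomputable def s402_422 (i sh : Nat) : Nat := Bool.rec (s402_412 i sh) (s412_422 i sh) (Nat.ble 412 i)
noncomputable def s422_424 (i sh : Nat) : Nat := Bool.rec (Nat.shiftRight leaf422 sh) (Nat.shiftRight leaf423 sh) (Nat.ble 423 i)
noncomputable def s425_427 (i sh : Nat) : Nat := Bool.rec (Nat.shiftRight leaf425 sh) (Nat.shiftRight leaf426 sh) (Nat.ble 426 i)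
noncomputable def s424_427 (i sh : Nat) : Nat := Bool.rec (Nat.shiftRight leaf424 sh) (s425_427 i sh) (Nat.ble 425 i)
noncomputable def s422_427 (i sh : Nat) : Nat := Bool.rec (s422_424 i sh) (s424_427 i sh) (Nat.ble 424 i)
noncomputable def s427_429 (i sh : Nat) : Nat := Bool.rec (Nat.shiftRight leaf427 sh) (Nat.shiftRight leaf428 sh) (Nat.ble 428 i)
noncomputable def s430_432 (i sh : Nat) : Nat := Bool.rec (Nat.shiftRight leaf430 sh) (Nat.shiftRight leaf431 sh) (Nat.ble 431 i)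
noncomputable def s429_432 (i sh : Nat) : Nat := Bool.rec (Nat.shiftRight leaf429 sh) (s430_432 i sh) (Nat.ble 430 i)
noncomputable def s427_432 (i sh : Nat) : Nat := Bool.rec (s427_429 i sh) (s429_432 i sh) (Nat.ble 429 i)
noncomputable def s422_432 (i sh : Nat) : Nat := Bool.rec (s422_427 i sh) (s427_432 i sh) (Nat.ble 427 i)
noncomputable def s432_434 (i sh : Nat) : Nat := Bool.rec (Nat.shiftRight leaf432 sh) (Nat.shiftRight leaf433 sh) (Nat.ble 433 i)
noncomputable def s435_437 (i sh : Nat) : Nat := Bool.rec (Nat.shiftRight leaf435 sh) (Nat.shiftRight leaf436 sh) (Nat.ble 436 i)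
noncomputable def s434_437 (i sh : Nat) : Nat := Bool.rec (Nat.shiftRight leaf434 sh) (s435_437 i sh) (Nat.ble 435 i)
noncomputable def s432_437 (i sh : Nat) : Nat := Bool.rec (s432_434 i sh) (s434_437 i sh) (Nat.ble 434 i)
noncomputable def s437_439 (i sh : Nat) : Nat := Bool.rec (Nat.shiftRight leaf437 sh) (Nat.shiftRight leaf438 sh) (Nat.ble 438 i)
noncomputable def s440_442 (i sh : Nat) : Nat := Bool.rec (Nat.shiftRight leaf440 sh) (Nat.shiftRight leaf441 sh) (Nat.ble 441 i)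
noncomputable def s439_442 (i sh : Nat) : Nat := Bool.rec (Nat.shiftRight leaf439 sh) (s440_442 i sh) (Nat.ble 440 i)
noncomputable def s437_442 (i sh : Nat) : Nat := Bool.rec (s437_439 i sh) (s439_442 i sh) (Nat.ble 439 i)
noncomputable def s432_442 (i sh : Nat) : Nat := Bool.rec (s432_437 i sh) (s437_442 i sh) (Nat.ble 437 i)
noncomputable def s422_442 (i sh : Nat) : Nat := Bool.rec (s422_432 i sh) (s432_442 i sh) (Nat.ble 432 i)
noncomputable def s402_442 (i sh : Nat) : Nat := Bool.rec (s402_422 i sh) (s422_442 i sh) (Nat.ble 422 i)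
noncomputable def s442_444 (i sh : Nat) : Nat := Bool.rec (Nat.shiftRight leaf442 sh) (Nat.shiftRight leaf443 sh) (Nat.ble 443 i)
noncomputable def s445_447 (i sh : Nat) : Nat := Bool.rec (Nat.shiftRight leaf445 sh) (Nat.shiftRight leaf446 sh) (Nat.ble 446 i)
noncomputable def s444_447 (i sh : Nat) : Nat := Bool.rec (Nat.shiftRight leaf444 sh) (s445_447 i sh) (Nat.ble 445 i)
noncomputable def s442_447 (i sh : Nat) : Nat := Bool.rec (s442_444 i sh) (s444_447 i sh) (Nat.ble 444 i)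
noncomputable def s447_449 (i sh : Nat) : Nat := Bool.rec (Nat.shiftRight leaf447 sh) (Nat.shiftRight leaf448 sh) (Nat.ble 448 i)
noncomputable def s450_452 (i sh : Nat) : Nat := Bool.rec (Nat.shiftRight leaf450 sh) (Nat.shiftRight leaf451 sh) (Nat.ble 451 i)
noncomputable def s449_452 (i sh : Nat) : Nat := Bool.rec (Nat.shiftRight leaf449 sh) (s450_452 i sh) (Nat.ble 450 i)
noncomputable def s447_452 (i sh : Nat) : Nat := Bool.rec (s447_449 i sh) (s449_452 i sh) (Nat.ble 449 i)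
noncomputable def s442_452 (i sh : Nat) : Nat := Bool.rec (s442_447 i sh) (s447_452 i sh) (Nat.ble 447 i)
noncomputable def s452_454 (i sh : Nat) : Nat := Bool.rec (Nat.shiftRight leaf452 sh) (Nat.shiftRight leaf453 sh) (Nat.ble 453 i)
noncomputable def s455_457 (i sh : Nat) : Nat := Bool.rec (Nat.shiftRight leaf455 sh) (Nat.shiftRight leaf456 sh) (Nat.ble 456 i)
noncomputable def s454_457 (i sh : Nat) : Nat := Bool.rec (Nat.shiftRight leaf454 sh) (s455_457 i sh) (Nat.ble 455 i)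
noncomputable def s452_457 (i sh : Nat) : Nat := Bool.rec (s452_454 i sh) (s454_457 i sh) (Nat.ble 454 i)
noncomputable def s457_459 (i sh : Nat) : Nat := Bool.rec (Nat.shiftRight leaf457 sh) (Nat.shiftRight leaf458 sh) (Nat.ble 458 i)
noncomputable def s460_462 (i sh : Nat) : Nat := Bool.rec (Nat.shiftRight leaf460 sh) (Nat.shiftRight leaf461 sh) (Nat.ble 461 i)
noncomputable def s459_462 (i sh : Nat) : Nat := Bool.rec (Nat.shiftRight leaf459 sh) (s460_462 i sh) (Nat.ble 460 i)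
noncomputable def s457_462 (i sh : Nat) : Nat := Bool.rec (s457_459 i sh) (s459_462 i sh) (Nat.ble 459 i)
noncomputable def s452_462 (i sh : Nat) : Nat := Bool.rec (s452_457 i sh) (s457_462 i sh) (Nat.ble 457 i)
noncomputable def s442_462 (i sh : Nat) : Nat := Bool.rec (s442_452 i sh) (s452_462 i sh) (Nat.ble 452 i)
noncomputable def s462_464 (i sh : Nat) : Nat := Bool.rec (Nat.shiftRight leaf462 sh) (Nat.shiftRight leaf463 sh) (Nat.ble 463 i)
noncomputable def s465_467 (i sh : Nat) : Nat := Bool.rec (Nat.shiftRight leaf465 sh) (Nat.shiftRight leaf466 sh) (Nat.ble 466 i)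
noncomputable def s464_467 (i sh : Nat) : Nat := Bool.rec (Nat.shiftRight leaf464 sh) (s465_467 i sh) (Nat.ble 465 i)
noncomputable def s462_467 (i sh : Nat) : Nat := Bool.rec (s462_464 i sh) (s464_467 i sh) (Nat.ble 464 i)
noncomputable def s467_469 (i sh : Nat) : Nat := Bool.rec (Nat.shiftRight leaf467 sh) (Nat.shiftRight leaf468 sh) (Nat.ble 468 i)
noncomputable def s470_472 (i sh : Nat) : Nat := Bool.rec (Nat.shiftRight leaf470 sh) (Nat.shiftRight leaf471 sh) (Nat.ble 471 i)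
noncomputable def s469_472 (i sh : Nat) : Nat := Bool.rec (Nat.shiftRight leaf469 sh) (s470_472 i sh) (Nat.ble 470 i)
noncomputable def s467_472 (i sh : Nat) : Nat := Bool.rec (s467_469 i sh) (s469_472 i sh) (Nat.ble 469 i)
noncomputable def s462_472 (i sh : Nat) : Nat := Bool.rec (s462_467 i sh) (s467_472 i sh) (Nat.ble 467 i)
noncomputable def s472_474 (i sh : Nat) : Nat := Bool.rec (Nat.shiftRight leaf472 sh) (Nat.shiftRight leaf473 sh) (Nat.ble 473 i)
noncomputable def s475_477 (i sh : Nat) : Nat := Bool.rec (Nat.shiftRight leaf475 sh) (Nat.shiftRight leaf476 sh) (Nat.ble 476 i)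
noncomputable def s474_477 (i sh : Nat) : Nat := Bool.rec (Nat.shiftRight leaf474 sh) (s475_477 i sh) (Nat.ble 475 i)
noncomputable def s472_477 (i sh : Nat) : Nat := Bool.rec (s472_474 i sh) (s474_477 i sh) (Nat.ble 474 i)
noncomputable def s478_480 (i sh : Nat) : Nat := Bool.rec (Nat.shiftRight leaf478 sh) (Nat.shiftRight leaf479 sh) (Nat.ble 479 i)
noncomputable def s477_480 (i sh : Nat) : Nat := Bool.rec (Nat.shiftRight leaf477 sh) (s478_480 i sh) (Nat.ble 478 i)
noncomputable def s481_483 (i sh : Nat) : Nat := Bool.rec (Nat.shiftRight leaf481 sh) (Nat.shiftRight leaf482 sh) (Nat.ble 482 i)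
noncomputable def s480_483 (i sh : Nat) : Nat := Bool.rec (Nat.shiftRight leaf480 sh) (s481_483 i sh) (Nat.ble 481 i)
noncomputable def s477_483 (i sh : Nat) : Nat := Bool.rec (s477_480 i sh) (s480_483 i sh) (Nat.ble 480 i)
noncomputable def s472_483 (i sh : Nat) : Nat := Bool.rec (s472_477 i sh) (s477_483 i sh) (Nat.ble 477 i)
noncomputable def s462_483 (i sh : Nat) : Nat := Bool.rec (s462_472 i sh) (s472_483 i sh) (Nat.ble 472 i)
noncomputable def s442_483 (i sh : Nat) : Nat := Bool.rec (s442_462 i sh) (s462_483 i sh) (Nat.ble 462 i)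
noncomputable def s402_483 (i sh : Nat) : Nat := Bool.rec (s402_442 i sh) (s442_483 i sh) (Nat.ble 442 i)
noncomputable def s322_483 (i sh : Nat) : Nat := Bool.rec (s322_402 i sh) (s402_483 i sh) (Nat.ble 402 i)
noncomputable def s483_485 (i sh : Nat) : Nat := Bool.rec (Nat.shiftRight leaf483 sh) (Nat.shiftRight leaf484 sh) (Nat.ble 484 i)
noncomputable def s486_488 (i sh : Nat) : Nat := Bool.rec (Nat.shiftRight leaf486 sh) (Nat.shiftRight leaf487 sh) (Nat.ble 487 i)
noncomputable def s485_488 (i sh : Nat) : Nat := Bool.rec (Nat.shiftRight leaf485 sh) (s486_488 i sh) (Nat.ble 486 i)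
noncomputable def s483_488 (i sh : Nat) : Nat := Bool.rec (s483_485 i sh) (s485_488 i sh) (Nat.ble 485 i)
noncomputable def s488_490 (i sh : Nat) : Nat := Bool.rec (Nat.shiftRight leaf488 sh) (Nat.shiftRight leaf489 sh) (Nat.ble 489 i)
noncomputable def s491_493 (i sh : Nat) : Nat := Bool.rec (Nat.shiftRight leaf491 sh) (Nat.shiftRight leaf492 sh) (Nat.ble 492 i)
noncomputable def s490_493 (i sh : Nat) : Nat := Bool.rec (Nat.shiftRight leaf490 sh) (s491_493 i sh) (Nat.ble 491 i)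
noncomputable def s488_493 (i sh : Nat) : Nat := Bool.rec (s488_490 i sh) (s490_493 i sh) (Nat.ble 490 i)
noncomputable def s483_493 (i sh : Nat) : Nat := Bool.rec (s483_488 i sh) (s488_493 i sh) (Nat.ble 488 i)
noncomputable def s493_495 (i sh : Nat) : Nat := Bool.rec (Nat.shiftRight leaf493 sh) (Nat.shiftRight leaf494 sh) (Nat.ble 494 i)
noncomputable def s496_498 (i sh : Nat) : Nat := Bool.rec (Nat.shiftRight leaf496 sh) (Nat.shiftRight leaf497 sh) (Nat.ble 497 i)
noncomputable def s495_498 (i sh : Nat) : Nat := Bool.rec (Nat.shiftRight leaf495 sh) (s496_498 i sh) (Nat.ble 496 i)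
noncomputable def s493_498 (i sh : Nat) : Nat := Bool.rec (s493_495 i sh) (s495_498 i sh) (Nat.ble 495 i)
noncomputable def s498_500 (i sh : Nat) : Nat := Bool.rec (Nat.shiftRight leaf498 sh) (Nat.shiftRight leaf499 sh) (Nat.ble 499 i)
noncomputable def s501_503 (i sh : Nat) : Nat := Bool.rec (Nat.shiftRight leaf501 sh) (Nat.shiftRight leaf502 sh) (Nat.ble 502 i)
noncomputable def s500_503 (i sh : Nat) : Nat := Bool.rec (Nat.shiftRight leaf500 sh) (s501_503 i sh) (Nat.ble 501 i)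
noncomputable def s498_503 (i sh : Nat) : Nat := Bool.rec (s498_500 i sh) (s500_503 i sh) (Nat.ble 500 i)
noncomputable def s493_503 (i sh : Nat) : Nat := Bool.rec (s493_498 i sh) (s498_503 i sh) (Nat.ble 498 i)
noncomputable def s483_503 (i sh : Nat) : Nat := Bool.rec (s483_493 i sh) (s493_503 i sh) (Nat.ble 493 i)
noncomputable def s503_505 (i sh : Nat) : Nat := Bool.rec (Nat.shiftRight leaf503 sh) (Nat.shiftRight leaf504 sh) (Nat.ble 504 i)
noncomputable def s506_508 (i sh : Nat) : Nat := Bool.rec (Nat.shiftRight leaf506 sh) (Nat.shiftRight leaf507 sh) (Nat.ble 507 i)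
noncomputable def s505_508 (i sh : Nat) : Nat := Bool.rec (Nat.shiftRight leaf505 sh) (s506_508 i sh) (Nat.ble 506 i)
noncomputable def s503_508 (i sh : Nat) : Nat := Bool.rec (s503_505 i sh) (s505_508 i sh) (Nat.ble 505 i)
noncomputable def s508_510 (i sh : Nat) : Nat := Bool.rec (Nat.shiftRight leaf508 sh) (Nat.shiftRight leaf509 sh) (Nat.ble 509 i)
noncomputable def s511_513 (i sh : Nat) : Nat := Bool.rec (Nat.shiftRight leaf511 sh) (Nat.shiftRight leaf512 sh) (Nat.ble 512 i)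
noncomputable def s510_513 (i sh : Nat) : Nat := Bool.rec (Nat.shiftRight leaf510 sh) (s511_513 i sh) (Nat.ble 511 i)
noncomputable def s508_513 (i sh : Nat) : Nat := Bool.rec (s508_510 i sh) (s510_513 i sh) (Nat.ble 510 i)
noncomputable def s503_513 (i sh : Nat) : Nat := Bool.rec (s503_508 i sh) (s508_513 i sh) (Nat.ble 508 i)
noncomputable def s513_515 (i sh : Nat) : Nat := Bool.rec (Nat.shiftRight leaf513 sh) (Nat.shiftRight leaf514 sh) (Nat.ble 514 i)
noncomputable def s516_518 (i sh : Nat) : Nat := Bool.rec (Nat.shiftRight leaf516 sh) (Nat.shiftRight leaf517 sh) (Nat.ble 517 i)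
noncomputable def s515_518 (i sh : Nat) : Nat := Bool.rec (Nat.shiftRight leaf515 sh) (s516_518 i sh) (Nat.ble 516 i)
noncomputable def s513_518 (i sh : Nat) : Nat := Bool.rec (s513_515 i sh) (s515_518 i sh) (Nat.ble 515 i)
noncomputable def s518_520 (i sh : Nat) : Nat := Bool.rec (Nat.shiftRight leaf518 sh) (Nat.shiftRight leaf519 sh) (Nat.ble 519 i)
noncomputable def s521_523 (i sh : Nat) : Nat := Bool.rec (Nat.shiftRight leaf521 sh) (Nat.shiftRight leaf522 sh) (Nat.ble 522 i)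
noncomputable def s520_523 (i sh : Nat) : Nat := Bool.rec (Nat.shiftRight leaf520 sh) (s521_523 i sh) (Nat.ble 521 i)
noncomputable def s518_523 (i sh : Nat) : Nat := Bool.rec (s518_520 i sh) (s520_523 i sh) (Nat.ble 520 i)
noncomputable def s513_523 (i sh : Nat) : Nat := Bool.rec (s513_518 i sh) (s518_523 i sh) (Nat.ble 518 i)
noncomputable def s503_523 (i sh : Nat) : Nat := Bool.rec (s503_513 i sh) (s513_523 i sh) (Nat.ble 513 i)
noncomputable def s483_523 (i sh : Nat) : Nat := Bool.rec (s483_503 i sh) (s503_523 i sh) (Nat.ble 503 i)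
noncomputable def s523_525 (i sh : Nat) : Nat := Bool.rec (Nat.shiftRight leaf523 sh) (Nat.shiftRight leaf524 sh) (Nat.ble 524 i)
noncomputable def s526_528 (i sh : Nat) : Nat := Bool.rec (Nat.shiftRight leaf526 sh) (Nat.shiftRight leaf527 sh) (Nat.ble 527 i)
noncomputable def s525_528 (i sh : Nat) : Nat := Bool.rec (Nat.shiftRight leaf525 sh) (s526_528 i sh) (Nat.ble 526 i)
noncomputable def s523_528 (i sh : Nat) : Nat := Bool.rec (s523_525 i sh) (s525_528 i sh) (Nat.ble 525 i)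
noncomputable def s528_530 (i sh : Nat) : Nat := Bool.rec (Nat.shiftRight leaf528 sh) (Nat.shiftRight leaf529 sh) (Nat.ble 529 i)
noncomputable def s531_533 (i sh : Nat) : Nat := Bool.rec (Nat.shiftRight leaf531 sh) (Nat.shiftRight leaf532 sh) (Nat.ble 532 i)
noncomputable def s530_533 (i sh : Nat) : Nat := Bool.rec (Nat.shiftRight leaf530 sh) (s531_533 i sh) (Nat.ble 531 i)
noncomputable def s528_533 (i sh : Nat) : Nat := Bool.rec (s528_530 i sh) (s530_533 i sh) (Nat.ble 530 i)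
noncomputable def s523_533 (i sh : Nat) : Nat := Bool.rec (s523_528 i sh) (s528_533 i sh) (Nat.ble 528 i)
noncomputable def s533_535 (i sh : Nat) : Nat := Bool.rec (Nat.shiftRight leaf533 sh) (Nat.shiftRight leaf534 sh) (Nat.ble 534 i)
noncomputable def s536_538 (i sh : Nat) : Nat := Bool.rec (Nat.shiftRight leaf536 sh) (Nat.shiftRight leaf537 sh) (Nat.ble 537 i)
noncomputable def s535_538 (i sh : Nat) : Nat := Bool.rec (Nat.shiftRight leaf535 sh) (s536_538 i sh) (Nat.ble 536 i)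
noncomputable def s533_538 (i sh : Nat) : Nat := Bool.rec (s533_535 i sh) (s535_538 i sh) (Nat.ble 535 i)
noncomputable def s538_540 (i sh : Nat) : Nat := Bool.rec (Nat.shiftRight leaf538 sh) (Nat.shiftRight leaf539 sh) (Nat.ble 539 i)
noncomputable def s541_543 (i sh : Nat) : Nat := Bool.rec (Nat.shiftRight leaf541 sh) (Nat.shiftRight leaf542 sh) (Nat.ble 542 i)
noncomputable def s540_543 (i sh : Nat) : Nat := Bool.rec (Nat.shiftRight leaf540 sh) (s541_543 i sh) (Nat.ble 541 i)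
noncomputable def s538_543 (i sh : Nat) : Nat := Bool.rec (s538_540 i sh) (s540_543 i sh) (Nat.ble 540 i)
noncomputable def s533_543 (i sh : Nat) : Nat := Bool.rec (s533_538 i sh) (s538_543 i sh) (Nat.ble 538 i)
noncomputable def s523_543 (i sh : Nat) : Nat := Bool.rec (s523_533 i sh) (s533_543 i sh) (Nat.ble 533 i)
noncomputable def s543_545 (i sh : Nat) : Nat := Bool.rec (Nat.shiftRight leaf543 sh) (Nat.shiftRight leaf544 sh) (Nat.ble 544 i)
noncomputable def s546_548 (i sh : Nat) : Nat := Bool.rec (Nat.shiftRight leaf546 sh) (Nat.shiftRight leaf547 sh) (Nat.ble 547 i)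
noncomputable def s545_548 (i sh : Nat) : Nat := Bool.rec (Nat.shiftRight leaf545 sh) (s546_548 i sh) (Nat.ble 546 i)
noncomputable def s543_548 (i sh : Nat) : Nat := Bool.rec (s543_545 i sh) (s545_548 i sh) (Nat.ble 545 i)
noncomputable def s548_550 (i sh : Nat) : Nat := Bool.rec (Nat.shiftRight leaf548 sh) (Nat.shiftRight leaf549 sh) (Nat.ble 549 i)
noncomputable def s551_553 (i sh : Nat) : Nat := Bool.rec (Nat.shiftRight leaf551 sh) (Nat.shiftRight leaf552 sh) (Nat.ble 552 i)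
noncomputable def s550_553 (i sh : Nat) : Nat := Bool.rec (Nat.shiftRight leaf550 sh) (s551_553 i sh) (Nat.ble 551 i)
noncomputable def s548_553 (i sh : Nat) : Nat := Bool.rec (s548_550 i sh) (s550_553 i sh) (Nat.ble 550 i)
noncomputable def s543_553 (i sh : Nat) : Nat := Bool.rec (s543_548 i sh) (s548_553 i sh) (Nat.ble 548 i)
noncomputable def s553_555 (i sh : Nat) : Nat := Bool.rec (Nat.shiftRight leaf553 sh) (Nat.shiftRight leaf554 sh) (Nat.ble 554 i)
noncomputable def s556_558 (i sh : Nat) : Nat := Bool.rec (Nat.shiftRight leaf556 sh) (Nat.shiftRight leaf557 sh) (Nat.ble 557 i)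
noncomputable def s555_558 (i sh : Nat) : Nat := Bool.rec (Nat.shiftRight leaf555 sh) (s556_558 i sh) (Nat.ble 556 i)
noncomputable def s553_558 (i sh : Nat) : Nat := Bool.rec (s553_555 i sh) (s555_558 i sh) (Nat.ble 555 i)
noncomputable def s559_561 (i sh : Nat) : Nat := Bool.rec (Nat.shiftRight leaf559 sh) (Nat.shiftRight leaf560 sh) (Nat.ble 560 i)
noncomputable def s558_561 (i sh : Nat) : Nat := Bool.rec (Nat.shiftRight leaf558 sh) (s559_561 i sh) (Nat.ble 559 i)
noncomputable def s562_564 (i sh : Nat) : Nat := Bool.rec (Nat.shiftRight leaf562 sh) (Nat.shiftRight leaf563 sh) (Nat.ble 563 i)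
noncomputable def s561_564 (i sh : Nat) : Nat := Bool.rec (Nat.shiftRight leaf561 sh) (s562_564 i sh) (Nat.ble 562 i)
noncomputable def s558_564 (i sh : Nat) : Nat := Bool.rec (s558_561 i sh) (s561_564 i sh) (Nat.ble 561 i)
noncomputable def s553_564 (i sh : Nat) : Nat := Bool.rec (s553_558 i sh) (s558_564 i sh) (Nat.ble 558 i)
noncomputable def s543_564 (i sh : Nat) : Nat := Bool.rec (s543_553 i sh) (s553_564 i sh) (Nat.ble 553 i)
noncomputable def s523_564 (i sh : Nat) : Nat := Bool.rec (s523_543 i sh) (s543_564 i sh) (Nat.ble 543 i)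
noncomputable def s483_564 (i sh : Nat) : Nat := Bool.rec (s483_523 i sh) (s523_564 i sh) (Nat.ble 523 i)
noncomputable def s564_566 (i sh : Nat) : Nat := Bool.rec (Nat.shiftRight leaf564 sh) (Nat.shiftRight leaf565 sh) (Nat.ble 565 i)
noncomputable def s567_569 (i sh : Nat) : Nat := Bool.rec (Nat.shiftRight leaf567 sh) (Nat.shiftRight leaf568 sh) (Nat.ble 568 i)
noncomputable def s566_569 (i sh : Nat) : Nat := Bool.rec (Nat.shiftRight leaf566 sh) (s567_569 i sh) (Nat.ble 567 i)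
noncomputable def s564_569 (i sh : Nat) : Nat := Bool.rec (s564_566 i sh) (s566_569 i sh) (Nat.ble 566 i)
noncomputable def s569_571 (i sh : Nat) : Nat := Bool.rec (Nat.shiftRight leaf569 sh) (Nat.shiftRight leaf570 sh) (Nat.ble 570 i)
noncomputable def s572_574 (i sh : Nat) : Nat := Bool.rec (Nat.shiftRight leaf572 sh) (Nat.shiftRight leaf573 sh) (Nat.ble 573 i)
noncomputable def s571_574 (i sh : Nat) : Nat := Bool.rec (Nat.shiftRight leaf571 sh) (s572_574 i sh) (Nat.ble 572 i)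
noncomputable def s569_574 (i sh : Nat) : Nat := Bool.rec (s569_571 i sh) (s571_574 i sh) (Nat.ble 571 i)
noncomputable def s564_574 (i sh : Nat) : Nat := Bool.rec (s564_569 i sh) (s569_574 i sh) (Nat.ble 569 i)
noncomputable def s574_576 (i sh : Nat) : Nat := Bool.rec (Nat.shiftRight leaf574 sh) (Nat.shiftRight leaf575 sh) (Nat.ble 575 i)
noncomputable def s577_579 (i sh : Nat) : Nat := Bool.rec (Nat.shiftRight leaf577 sh) (Nat.shiftRight leaf578 sh) (Nat.ble 578 i)
noncomputable def s576_579 (i sh : Nat) : Nat := Bool.rec (Nat.shiftRight leaf576 sh) (s577_579 i sh) (Nat.ble 577 i)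
noncomputable def s574_579 (i sh : Nat) : Nat := Bool.rec (s574_576 i sh) (s576_579 i sh) (Nat.ble 576 i)
noncomputable def s579_581 (i sh : Nat) : Nat := Bool.rec (Nat.shiftRight leaf579 sh) (Nat.shiftRight leaf580 sh) (Nat.ble 580 i)
noncomputable def s582_584 (i sh : Nat) : Nat := Bool.rec (Nat.shiftRight leaf582 sh) (Nat.shiftRight leaf583 sh) (Nat.ble 583 i)
noncomputable def s581_584 (i sh : Nat) : Nat := Bool.rec (Nat.shiftRight leaf581 sh) (s582_584 i sh) (Nat.ble 582 i)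
noncomputable def s579_584 (i sh : Nat) : Nat := Bool.rec (s579_581 i sh) (s581_584 i sh) (Nat.ble 581 i)
noncomputable def s574_584 (i sh : Nat) : Nat := Bool.rec (s574_579 i sh) (s579_584 i sh) (Nat.ble 579 i)
noncomputable def s564_584 (i sh : Nat) : Nat := Bool.rec (s564_574 i sh) (s574_584 i sh) (Nat.ble 574 i)
noncomputable def s584_586 (i sh : Nat) : Nat := Bool.rec (Nat.shiftRight leaf584 sh) (Nat.shiftRight leaf585 sh) (Nat.ble 585 i)
noncomputable def s587_589 (i sh : Nat) : Nat := Bool.rec (Nat.shiftRight leaf587 sh) (Nat.shiftRight leaf588 sh) (Nat.ble 588 i)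
noncomputable def s586_589 (i sh : Nat) : Nat := Bool.rec (Nat.shiftRight leaf586 sh) (s587_589 i sh) (Nat.ble 587 i)
noncomputable def s584_589 (i sh : Nat) : Nat := Bool.rec (s584_586 i sh) (s586_589 i sh) (Nat.ble 586 i)
noncomputable def s589_591 (i sh : Nat) : Nat := Bool.rec (Nat.shiftRight leaf589 sh) (Nat.shiftRight leaf590 sh) (Nat.ble 590 i)
noncomputable def s592_594 (i sh : Nat) : Nat := Bool.rec (Nat.shiftRight leaf592 sh) (Nat.shiftRight leaf593 sh) (Nat.ble 593 i)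
noncomputable def s591_594 (i sh : Nat) : Nat := Bool.rec (Nat.shiftRight leaf591 sh) (s592_594 i sh) (Nat.ble 592 i)
noncomputable def s589_594 (i sh : Nat) : Nat := Bool.rec (s589_591 i sh) (s591_594 i sh) (Nat.ble 591 i)
noncomputable def s584_594 (i sh : Nat) : Nat := Bool.rec (s584_589 i sh) (s589_594 i sh) (Nat.ble 589 i)
noncomputable def s594_596 (i sh : Nat) : Nat := Bool.rec (Nat.shiftRight leaf594 sh) (Nat.shiftRight leaf595 sh) (Nat.ble 595 i)
noncomputable def s597_599 (i sh : Nat) : Nat := Bool.rec (Nat.shiftRight leaf597 sh) (Nat.shiftRight leaf598 sh) (Nat.ble 598 i)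
noncomputable def s596_599 (i sh : Nat) : Nat := Bool.rec (Nat.shiftRight leaf596 sh) (s597_599 i sh) (Nat.ble 597 i)
noncomputable def s594_599 (i sh : Nat) : Nat := Bool.rec (s594_596 i sh) (s596_599 i sh) (Nat.ble 596 i)
noncomputable def s599_601 (i sh : Nat) : Nat := Bool.rec (Nat.shiftRight leaf599 sh) (Nat.shiftRight leaf600 sh) (Nat.ble 600 i)
noncomputable def s602_604 (i sh : Nat) : Nat := Bool.rec (Nat.shiftRight leaf602 sh) (Nat.shiftRight leaf603 sh) (Nat.ble 603 i)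
noncomputable def s601_604 (i sh : Nat) : Nat := Bool.rec (Nat.shiftRight leaf601 sh) (s602_604 i sh) (Nat.ble 602 i)
noncomputable def s599_604 (i sh : Nat) : Nat := Bool.rec (s599_601 i sh) (s601_604 i sh) (Nat.ble 601 i)
noncomputable def s594_604 (i sh : Nat) : Nat := Bool.rec (s594_599 i sh) (s599_604 i sh) (Nat.ble 599 i)
noncomputable def s584_604 (i sh : Nat) : Nat := Bool.rec (s584_594 i sh) (s594_604 i sh) (Nat.ble 594 i)
noncomputable def s564_604 (i sh : Nat) : Nat := Bool.rec (s564_584 i sh) (s584_604 i sh) (Nat.ble 584 i)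
noncomputable def s604_606 (i sh : Nat) : Nat := Bool.rec (Nat.shiftRight leaf604 sh) (Nat.shiftRight leaf605 sh) (Nat.ble 605 i)
noncomputable def s607_609 (i sh : Nat) : Nat := Bool.rec (Nat.shiftRight leaf607 sh) (Nat.shiftRight leaf608 sh) (Nat.ble 608 i)
noncomputable def s606_609 (i sh : Nat) : Nat := Bool.rec (Nat.shiftRight leaf606 sh) (s607_609 i sh) (Nat.ble 607 i)
noncomputable def s604_609 (i sh : Nat) : Nat := Bool.rec (s604_606 i sh) (s606_609 i sh) (Nat.ble 606 i)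
noncomputable def s609_611 (i sh : Nat) : Nat := Bool.rec (Nat.shiftRight leaf609 sh) (Nat.shiftRight leaf610 sh) (Nat.ble 610 i)
noncomputable def s612_614 (i sh : Nat) : Nat := Bool.rec (Nat.shiftRight leaf612 sh) (Nat.shiftRight leaf613 sh) (Nat.ble 613 i)
noncomputable def s611_614 (i sh : Nat) : Nat := Bool.rec (Nat.shiftRight leaf611 sh) (s612_614 i sh) (Nat.ble 612 i)
noncomputable def s609_614 (i sh : Nat) : Nat := Bool.rec (s609_611 i sh) (s611_614 i sh) (Nat.ble 611 i)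
noncomputable def s604_614 (i sh : Nat) : Nat := Bool.rec (s604_609 i sh) (s609_614 i sh) (Nat.ble 609 i)
noncomputable def s614_616 (i sh : Nat) : Nat := Bool.rec (Nat.shiftRight leaf614 sh) (Nat.shiftRight leaf615 sh) (Nat.ble 615 i)
noncomputable def s617_619 (i sh : Nat) : Nat := Bool.rec (Nat.shiftRight leaf617 sh) (Nat.shiftRight leaf618 sh) (Nat.ble 618 i)
noncomputable def s616_619 (i sh : Nat) : Nat := Bool.rec (Nat.shiftRight leaf616 sh) (s617_619 i sh) (Nat.ble 617 i)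
noncomputable def s614_619 (i sh : Nat) : Nat := Bool.rec (s614_616 i sh) (s616_619 i sh) (Nat.ble 616 i)
noncomputable def s619_621 (i sh : Nat) : Nat := Bool.rec (Nat.shiftRight leaf619 sh) (Nat.shiftRight leaf620 sh) (Nat.ble 620 i)
noncomputable def s622_624 (i sh : Nat) : Nat := Bool.rec (Nat.shiftRight leaf622 sh) (Nat.shiftRight leaf623 sh) (Nat.ble 623 i)
noncomputable def s621_624 (i sh : Nat) : Nat := Bool.rec (Nat.shiftRight leaf621 sh) (s622_624 i sh) (Nat.ble 622 i)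
noncomputable def s619_624 (i sh : Nat) : Nat := Bool.rec (s619_621 i sh) (s621_624 i sh) (Nat.ble 621 i)
noncomputable def s614_624 (i sh : Nat) : Nat := Bool.rec (s614_619 i sh) (s619_624 i sh) (Nat.ble 619 i)
noncomputable def s604_624 (i sh : Nat) : Nat := Bool.rec (s604_614 i sh) (s614_624 i sh) (Nat.ble 614 i)
noncomputable def s624_626 (i sh : Nat) : Nat := Bool.rec (Nat.shiftRight leaf624 sh) (Nat.shiftRight leaf625 sh) (Nat.ble 625 i)
noncomputable def s627_629 (i sh : Nat) : Nat := Bool.rec (Nat.shiftRight leaf627 sh) (Nat.shiftRight leaf628 sh) (Nat.ble 628 i)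
noncomputable def s626_629 (i sh : Nat) : Nat := Bool.rec (Nat.shiftRight leaf626 sh) (s627_629 i sh) (Nat.ble 627 i)
noncomputable def s624_629 (i sh : Nat) : Nat := Bool.rec (s624_626 i sh) (s626_629 i sh) (Nat.ble 626 i)
noncomputable def s629_631 (i sh : Nat) : Nat := Bool.rec (Nat.shiftRight leaf629 sh) (Nat.shiftRight leaf630 sh) (Nat.ble 630 i)
noncomputable def s632_634 (i sh : Nat) : Nat := Bool.rec (Nat.shiftRight leaf632 sh) (Nat.shiftRight leaf633 sh) (Nat.ble 633 i)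
noncomputable def s631_634 (i sh : Nat) : Nat := Bool.rec (Nat.shiftRight leaf631 sh) (s632_634 i sh) (Nat.ble 632 i)
noncomputable def s629_634 (i sh : Nat) : Nat := Bool.rec (s629_631 i sh) (s631_634 i sh) (Nat.ble 631 i)
noncomputable def s624_634 (i sh : Nat) : Nat := Bool.rec (s624_629 i sh) (s629_634 i sh) (Nat.ble 629 i)
noncomputable def s634_636 (i sh : Nat) : Nat := Bool.rec (Nat.shiftRight leaf634 sh) (Nat.shiftRight leaf635 sh) (Nat.ble 635 i)
noncomputable def s637_639 (i sh : Nat) : Nat := Bool.rec (Nat.shiftRight leaf637 sh) (Nat.shiftRight leaf638 sh) (Nat.ble 638 i)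
noncomputable def s636_639 (i sh : Nat) : Nat := Bool.rec (Nat.shiftRight leaf636 sh) (s637_639 i sh) (Nat.ble 637 i)
noncomputable def s634_639 (i sh : Nat) : Nat := Bool.rec (s634_636 i sh) (s636_639 i sh) (Nat.ble 636 i)
noncomputable def s640_642 (i sh : Nat) : Nat := Bool.rec (Nat.shiftRight leaf640 sh) (Nat.shiftRight leaf641 sh) (Nat.ble 641 i)
noncomputable def s639_642 (i sh : Nat) : Nat := Bool.rec (Nat.shiftRight leaf639 sh) (s640_642 i sh) (Nat.ble 640 i)
noncomputable def s643_645 (i sh : Nat) : Nat := Bool.rec (Nat.shiftRight leaf643 sh) (Nat.shiftRight leaf644 sh) (Nat.ble 644 i)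
noncomputable def s642_645 (i sh : Nat) : Nat := Bool.rec (Nat.shiftRight leaf642 sh) (s643_645 i sh) (Nat.ble 643 i)
noncomputable def s639_645 (i sh : Nat) : Nat := Bool.rec (s639_642 i sh) (s642_645 i sh) (Nat.ble 642 i)
noncomputable def s634_645 (i sh : Nat) : Nat := Bool.rec (s634_639 i sh) (s639_645 i sh) (Nat.ble 639 i)
noncomputable def s624_645 (i sh : Nat) : Nat := Bool.rec (s624_634 i sh) (s634_645 i sh) (Nat.ble 634 i)
noncomputable def s604_645 (i sh : Nat) : Nat := Bool.rec (s604_624 i sh) (s624_645 i sh) (Nat.ble 624 i)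
noncomputable def s564_645 (i sh : Nat) : Nat := Bool.rec (s564_604 i sh) (s604_645 i sh) (Nat.ble 604 i)
noncomputable def s483_645 (i sh : Nat) : Nat := Bool.rec (s483_564 i sh) (s564_645 i sh) (Nat.ble 564 i)
noncomputable def s322_645 (i sh : Nat) : Nat := Bool.rec (s322_483 i sh) (s483_645 i sh) (Nat.ble 483 i)
noncomputable def s0_645 (i sh : Nat) : Nat := Bool.rec (s0_322 i sh) (s322_645 i sh) (Nat.ble 322 i)
noncomputable def s645_647 (i sh : Nat) : Nat := Bool.rec (Nat.shiftRight leaf645 sh) (Nat.shiftRight leaf646 sh) (Nat.ble 646 i)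
noncomputable def s648_650 (i sh : Nat) : Nat := Bool.rec (Nat.shiftRight leaf648 sh) (Nat.shiftRight leaf649 sh) (Nat.ble 649 i)
noncomputable def s647_650 (i sh : Nat) : Nat := Bool.rec (Nat.shiftRight leaf647 sh) (s648_650 i sh) (Nat.ble 648 i)
noncomputable def s645_650 (i sh : Nat) : Nat := Bool.rec (s645_647 i sh) (s647_650 i sh) (Nat.ble 647 i)
noncomputable def s650_652 (i sh : Nat) : Nat := Bool.rec (Nat.shiftRight leaf650 sh) (Nat.shiftRight leaf651 sh) (Nat.ble 651 i)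
noncomputable def s653_655 (i sh : Nat) : Nat := Bool.rec (Nat.shiftRight leaf653 sh) (Nat.shiftRight leaf654 sh) (Nat.ble 654 i)
noncomputable def s652_655 (i sh : Nat) : Nat := Bool.rec (Nat.shiftRight leaf652 sh) (s653_655 i sh) (Nat.ble 653 i)
noncomputable def s650_655 (i sh : Nat) : Nat := Bool.rec (s650_652 i sh) (s652_655 i sh) (Nat.ble 652 i)
noncomputable def s645_655 (i sh : Nat) : Nat := Bool.rec (s645_650 i sh) (s650_655 i sh) (Nat.ble 650 i)
noncomputable def s655_657 (i sh : Nat) : Nat := Bool.rec (Nat.shiftRight leaf655 sh) (Nat.shiftRight leaf656 sh) (Nat.ble 656 i)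
noncomputable def s658_660 (i sh : Nat) : Nat := Bool.rec (Nat.shiftRight leaf658 sh) (Nat.shiftRight leaf659 sh) (Nat.ble 659 i)
noncomputable def s657_660 (i sh : Nat) : Nat := Bool.rec (Nat.shiftRight leaf657 sh) (s658_660 i sh) (Nat.ble 658 i)
noncomputable def s655_660 (i sh : Nat) : Nat := Bool.rec (s655_657 i sh) (s657_660 i sh) (Nat.ble 657 i)
noncomputable def s660_662 (i sh : Nat) : Nat := Bool.rec (Nat.shiftRight leaf660 sh) (Nat.shiftRight leaf661 sh) (Nat.ble 661 i)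
noncomputable def s663_665 (i sh : Nat) : Nat := Bool.rec (Nat.shiftRight leaf663 sh) (Nat.shiftRight leaf664 sh) (Nat.ble 664 i)
noncomputable def s662_665 (i sh : Nat) : Nat := Bool.rec (Nat.shiftRight leaf662 sh) (s663_665 i sh) (Nat.ble 663 i)
noncomputable def s660_665 (i sh : Nat) : Nat := Bool.rec (s660_662 i sh) (s662_665 i sh) (Nat.ble 662 i)
noncomputable def s655_665 (i sh : Nat) : Nat := Bool.rec (s655_660 i sh) (s660_665 i sh) (Nat.ble 660 i)
noncomputable def s645_665 (i sh : Nat) : Nat := Bool.rec (s645_655 i sh) (s655_665 i sh) (Nat.ble 655 i)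
noncomputable def s665_667 (i sh : Nat) : Nat := Bool.rec (Nat.shiftRight leaf665 sh) (Nat.shiftRight leaf666 sh) (Nat.ble 666 i)
noncomputable def s668_670 (i sh : Nat) : Nat := Bool.rec (Nat.shiftRight leaf668 sh) (Nat.shiftRight leaf669 sh) (Nat.ble 669 i)
noncomputable def s667_670 (i sh : Nat) : Nat := Bool.rec (Nat.shiftRight leaf667 sh) (s668_670 i sh) (Nat.ble 668 i)
noncomputable def s665_670 (i sh : Nat) : Nat := Bool.rec (s665_667 i sh) (s667_670 i sh) (Nat.ble 667 i)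
noncomputable def s670_672 (i sh : Nat) : Nat := Bool.rec (Nat.shiftRight leaf670 sh) (Nat.shiftRight leaf671 sh) (Nat.ble 671 i)
noncomputable def s673_675 (i sh : Nat) : Nat := Bool.rec (Nat.shiftRight leaf673 sh) (Nat.shiftRight leaf674 sh) (Nat.ble 674 i)
noncomputable def s672_675 (i sh : Nat) : Nat := Bool.rec (Nat.shiftRight leaf672 sh) (s673_675 i sh) (Nat.ble 673 i)
noncomputable def s670_675 (i sh : Nat) : Nat := Bool.rec (s670_672 i sh) (s672_675 i sh) (Nat.ble 672 i)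
noncomputable def s665_675 (i sh : Nat) : Nat := Bool.rec (s665_670 i sh) (s670_675 i sh) (Nat.ble 670 i)
noncomputable def s675_677 (i sh : Nat) : Nat := Bool.rec (Nat.shiftRight leaf675 sh) (Nat.shiftRight leaf676 sh) (Nat.ble 676 i)
noncomputable def s678_680 (i sh : Nat) : Nat := Bool.rec (Nat.shiftRight leaf678 sh) (Nat.shiftRight leaf679 sh) (Nat.ble 679 i)
noncomputable def s677_680 (i sh : Nat) : Nat := Bool.rec (Nat.shiftRight leaf677 sh) (s678_680 i sh) (Nat.ble 678 i)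
noncomputable def s675_680 (i sh : Nat) : Nat := Bool.rec (s675_677 i sh) (s677_680 i sh) (Nat.ble 677 i)
noncomputable def s680_682 (i sh : Nat) : Nat := Bool.rec (Nat.shiftRight leaf680 sh) (Nat.shiftRight leaf681 sh) (Nat.ble 681 i)
noncomputable def s683_685 (i sh : Nat) : Nat := Bool.rec (Nat.shiftRight leaf683 sh) (Nat.shiftRight leaf684 sh) (Nat.ble 684 i)
noncomputable def s682_685 (i sh : Nat) : Nat := Bool.rec (Nat.shiftRight leaf682 sh) (s683_685 i sh) (Nat.ble 683 i)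
noncomputable def s680_685 (i sh : Nat) : Nat := Bool.rec (s680_682 i sh) (s682_685 i sh) (Nat.ble 682 i)
noncomputable def s675_685 (i sh : Nat) : Nat := Bool.rec (s675_680 i sh) (s680_685 i sh) (Nat.ble 680 i)
noncomputable def s665_685 (i sh : Nat) : Nat := Bool.rec (s665_675 i sh) (s675_685 i sh) (Nat.ble 675 i)
noncomputable def s645_685 (i sh : Nat) : Nat := Bool.rec (s645_665 i sh) (s665_685 i sh) (Nat.ble 665 i)
noncomputable def s685_687 (i sh : Nat) : Nat := Bool.rec (Nat.shiftRight leaf685 sh) (Nat.shiftRight leaf686 sh) (Nat.ble 686 i)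
noncomputable def s688_690 (i sh : Nat) : Nat := Bool.rec (Nat.shiftRight leaf688 sh) (Nat.shiftRight leaf689 sh) (Nat.ble 689 i)
noncomputable def s687_690 (i sh : Nat) : Nat := Bool.rec (Nat.shiftRight leaf687 sh) (s688_690 i sh) (Nat.ble 688 i)
noncomputable def s685_690 (i sh : Nat) : Nat := Bool.rec (s685_687 i sh) (s687_690 i sh) (Nat.ble 687 i)
noncomputable def s690_692 (i sh : Nat) : Nat := Bool.rec (Nat.shiftRight leaf690 sh) (Nat.shiftRight leaf691 sh) (Nat.ble 691 i)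
noncomputable def s693_695 (i sh : Nat) : Nat := Bool.rec (Nat.shiftRight leaf693 sh) (Nat.shiftRight leaf694 sh) (Nat.ble 694 i)
noncomputable def s692_695 (i sh : Nat) : Nat := Bool.rec (Nat.shiftRight leaf692 sh) (s693_695 i sh) (Nat.ble 693 i)
noncomputable def s690_695 (i sh : Nat) : Nat := Bool.rec (s690_692 i sh) (s692_695 i sh) (Nat.ble 692 i)
noncomputable def s685_695 (i sh : Nat) : Nat := Bool.rec (s685_690 i sh) (s690_695 i sh) (Nat.ble 690 i)
noncomputable def s695_697 (i sh : Nat) : Nat := Bool.rec (Nat.shiftRight leaf695 sh) (Nat.shiftRight leaf696 sh) (Nat.ble 696 i)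
noncomputable def s698_700 (i sh : Nat) : Nat := Bool.rec (Nat.shiftRight leaf698 sh) (Nat.shiftRight leaf699 sh) (Nat.ble 699 i)
noncomputable def s697_700 (i sh : Nat) : Nat := Bool.rec (Nat.shiftRight leaf697 sh) (s698_700 i sh) (Nat.ble 698 i)
noncomputable def s695_700 (i sh : Nat) : Nat := Bool.rec (s695_697 i sh) (s697_700 i sh) (Nat.ble 697 i)
noncomputable def s700_702 (i sh : Nat) : Nat := Bool.rec (Nat.shiftRight leaf700 sh) (Nat.shiftRight leaf701 sh) (Nat.ble 701 i)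
noncomputable def s703_705 (i sh : Nat) : Nat := Bool.rec (Nat.shiftRight leaf703 sh) (Nat.shiftRight leaf704 sh) (Nat.ble 704 i)
noncomputable def s702_705 (i sh : Nat) : Nat := Bool.rec (Nat.shiftRight leaf702 sh) (s703_705 i sh) (Nat.ble 703 i)
noncomputable def s700_705 (i sh : Nat) : Nat := Bool.rec (s700_702 i sh) (s702_705 i sh) (Nat.ble 702 i)
noncomputable def s695_705 (i sh : Nat) : Nat := Bool.rec (s695_700 i sh) (s700_705 i sh) (Nat.ble 700 i)
noncomputable def s685_705 (i sh : Nat) : Nat := Bool.rec (s685_695 i sh) (s695_705 i sh) (Nat.ble 695 i)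
noncomputable def s705_707 (i sh : Nat) : Nat := Bool.rec (Nat.shiftRight leaf705 sh) (Nat.shiftRight leaf706 sh) (Nat.ble 706 i)
noncomputable def s708_710 (i sh : Nat) : Nat := Bool.rec (Nat.shiftRight leaf708 sh) (Nat.shiftRight leaf709 sh) (Nat.ble 709 i)
noncomputable def s707_710 (i sh : Nat) : Nat := Bool.rec (Nat.shiftRight leaf707 sh) (s708_710 i sh) (Nat.ble 708 i)
noncomputable def s705_710 (i sh : Nat) : Nat := Bool.rec (s705_707 i sh) (s707_710 i sh) (Nat.ble 707 i)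
noncomputable def s710_712 (i sh : Nat) : Nat := Bool.rec (Nat.shiftRight leaf710 sh) (Nat.shiftRight leaf711 sh) (Nat.ble 711 i)
noncomputable def s713_715 (i sh : Nat) : Nat := Bool.rec (Nat.shiftRight leaf713 sh) (Nat.shiftRight leaf714 sh) (Nat.ble 714 i)
noncomputable def s712_715 (i sh : Nat) : Nat := Bool.rec (Nat.shiftRight leaf712 sh) (s713_715 i sh) (Nat.ble 713 i)
noncomputable def s710_715 (i sh : Nat) : Nat := Bool.rec (s710_712 i sh) (s712_715 i sh) (Nat.ble 712 i)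
noncomputable def s705_715 (i sh : Nat) : Nat := Bool.rec (s705_710 i sh) (s710_715 i sh) (Nat.ble 710 i)
noncomputable def s715_717 (i sh : Nat) : Nat := Bool.rec (Nat.shiftRight leaf715 sh) (Nat.shiftRight leaf716 sh) (Nat.ble 716 i)
noncomputable def s718_720 (i sh : Nat) : Nat := Bool.rec (Nat.shiftRight leaf718 sh) (Nat.shiftRight leaf719 sh) (Nat.ble 719 i)
noncomputable def s717_720 (i sh : Nat) : Nat := Bool.rec (Nat.shiftRight leaf717 sh) (s718_720 i sh) (Nat.ble 718 i)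
noncomputable def s715_720 (i sh : Nat) : Nat := Bool.rec (s715_717 i sh) (s717_720 i sh) (Nat.ble 717 i)
noncomputable def s720_722 (i sh : Nat) : Nat := Bool.rec (Nat.shiftRight leaf720 sh) (Nat.shiftRight leaf721 sh) (Nat.ble 721 i)
noncomputable def s723_725 (i sh : Nat) : Nat := Bool.rec (Nat.shiftRight leaf723 sh) (Nat.shiftRight leaf724 sh) (Nat.ble 724 i)
noncomputable def s722_725 (i sh : Nat) : Nat := Bool.rec (Nat.shiftRight leaf722 sh) (s723_725 i sh) (Nat.ble 723 i)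
noncomputable def s720_725 (i sh : Nat) : Nat := Bool.rec (s720_722 i sh) (s722_725 i sh) (Nat.ble 722 i)
noncomputable def s715_725 (i sh : Nat) : Nat := Bool.rec (s715_720 i sh) (s720_725 i sh) (Nat.ble 720 i)
noncomputable def s705_725 (i sh : Nat) : Nat := Bool.rec (s705_715 i sh) (s715_725 i sh) (Nat.ble 715 i)
noncomputable def s685_725 (i sh : Nat) : Nat := Bool.rec (s685_705 i sh) (s705_725 i sh) (Nat.ble 705 i)
noncomputable def s645_725 (i sh : Nat) : Nat := Bool.rec (s645_685 i sh) (s685_725 i sh) (Nat.ble 685 i)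
noncomputable def s725_727 (i sh : Nat) : Nat := Bool.rec (Nat.shiftRight leaf725 sh) (Nat.shiftRight leaf726 sh) (Nat.ble 726 i)
noncomputable def s728_730 (i sh : Nat) : Nat := Bool.rec (Nat.shiftRight leaf728 sh) (Nat.shiftRight leaf729 sh) (Nat.ble 729 i)
noncomputable def s727_730 (i sh : Nat) : Nat := Bool.rec (Nat.shiftRight leaf727 sh) (s728_730 i sh) (Nat.ble 728 i)
noncomputable def s725_730 (i sh : Nat) : Nat := Bool.rec (s725_727 i sh) (s727_730 i sh) (Nat.ble 727 i)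
noncomputable def s730_732 (i sh : Nat) : Nat := Bool.rec (Nat.shiftRight leaf730 sh) (Nat.shiftRight leaf731 sh) (Nat.ble 731 i)
noncomputable def s733_735 (i sh : Nat) : Nat := Bool.rec (Nat.shiftRight leaf733 sh) (Nat.shiftRight leaf734 sh) (Nat.ble 734 i)
noncomputable def s732_735 (i sh : Nat) : Nat := Bool.rec (Nat.shiftRight leaf732 sh) (s733_735 i sh) (Nat.ble 733 i)
noncomputable def s730_735 (i sh : Nat) : Nat := Bool.rec (s730_732 i sh) (s732_735 i sh) (Nat.ble 732 i)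
noncomputable def s725_735 (i sh : Nat) : Nat := Bool.rec (s725_730 i sh) (s730_735 i sh) (Nat.ble 730 i)
noncomputable def s735_737 (i sh : Nat) : Nat := Bool.rec (Nat.shiftRight leaf735 sh) (Nat.shiftRight leaf736 sh) (Nat.ble 736 i)
noncomputable def s738_740 (i sh : Nat) : Nat := Bool.rec (Nat.shiftRight leaf738 sh) (Nat.shiftRight leaf739 sh) (Nat.ble 739 i)
noncomputable def s737_740 (i sh : Nat) : Nat := Bool.rec (Nat.shiftRight leaf737 sh) (s738_740 i sh) (Nat.ble 738 i)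
noncomputable def s735_740 (i sh : Nat) : Nat := Bool.rec (s735_737 i sh) (s737_740 i sh) (Nat.ble 737 i)
noncomputable def s740_742 (i sh : Nat) : Nat := Bool.rec (Nat.shiftRight leaf740 sh) (Nat.shiftRight leaf741 sh) (Nat.ble 741 i)
noncomputable def s743_745 (i sh : Nat) : Nat := Bool.rec (Nat.shiftRight leaf743 sh) (Nat.shiftRight leaf744 sh) (Nat.ble 744 i)
noncomputable def s742_745 (i sh : Nat) : Nat := Bool.rec (Nat.shiftRight leaf742 sh) (s743_745 i sh) (Nat.ble 743 i)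
noncomputable def s740_745 (i sh : Nat) : Nat := Bool.rec (s740_742 i sh) (s742_745 i sh) (Nat.ble 742 i)
noncomputable def s735_745 (i sh : Nat) : Nat := Bool.rec (s735_740 i sh) (s740_745 i sh) (Nat.ble 740 i)
noncomputable def s725_745 (i sh : Nat) : Nat := Bool.rec (s725_735 i sh) (s735_745 i sh) (Nat.ble 735 i)
noncomputable def s745_747 (i sh : Nat) : Nat := Bool.rec (Nat.shiftRight leaf745 sh) (Nat.shiftRight leaf746 sh) (Nat.ble 746 i)
noncomputable def s748_750 (i sh : Nat) : Nat := Bool.rec (Nat.shiftRight leaf748 sh) (Nat.shiftRight leaf749 sh) (Nat.ble 749 i)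
noncomputable def s747_750 (i sh : Nat) : Nat := Bool.rec (Nat.shiftRight leaf747 sh) (s748_750 i sh) (Nat.ble 748 i)
noncomputable def s745_750 (i sh : Nat) : Nat := Bool.rec (s745_747 i sh) (s747_750 i sh) (Nat.ble 747 i)
noncomputable def s750_752 (i sh : Nat) : Nat := Bool.rec (Nat.shiftRight leaf750 sh) (Nat.shiftRight leaf751 sh) (Nat.ble 751 i)
noncomputable def s753_755 (i sh : Nat) : Nat := Bool.rec (Nat.shiftRight leaf753 sh) (Nat.shiftRight leaf754 sh) (Nat.ble 754 i)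
noncomputable def s752_755 (i sh : Nat) : Nat := Bool.rec (Nat.shiftRight leaf752 sh) (s753_755 i sh) (Nat.ble 753 i)
noncomputable def s750_755 (i sh : Nat) : Nat := Bool.rec (s750_752 i sh) (s752_755 i sh) (Nat.ble 752 i)
noncomputable def s745_755 (i sh : Nat) : Nat := Bool.rec (s745_750 i sh) (s750_755 i sh) (Nat.ble 750 i)
noncomputable def s755_757 (i sh : Nat) : Nat := Bool.rec (Nat.shiftRight leaf755 sh) (Nat.shiftRight leaf756 sh) (Nat.ble 756 i)
noncomputable def s758_760 (i sh : Nat) : Nat := Bool.rec (Nat.shiftRight leaf758 sh) (Nat.shiftRight leaf759 sh) (Nat.ble 759 i)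
noncomputable def s757_760 (i sh : Nat) : Nat := Bool.rec (Nat.shiftRight leaf757 sh) (s758_760 i sh) (Nat.ble 758 i)
noncomputable def s755_760 (i sh : Nat) : Nat := Bool.rec (s755_757 i sh) (s757_760 i sh) (Nat.ble 757 i)
noncomputable def s760_762 (i sh : Nat) : Nat := Bool.rec (Nat.shiftRight leaf760 sh) (Nat.shiftRight leaf761 sh) (Nat.ble 761 i)
noncomputable def s763_765 (i sh : Nat) : Nat := Bool.rec (Nat.shiftRight leaf763 sh) (Nat.shiftRight leaf764 sh) (Nat.ble 764 i)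
noncomputable def s762_765 (i sh : Nat) : Nat := Bool.rec (Nat.shiftRight leaf762 sh) (s763_765 i sh) (Nat.ble 763 i)
noncomputable def s760_765 (i sh : Nat) : Nat := Bool.rec (s760_762 i sh) (s762_765 i sh) (Nat.ble 762 i)
noncomputable def s755_765 (i sh : Nat) : Nat := Bool.rec (s755_760 i sh) (s760_765 i sh) (Nat.ble 760 i)
noncomputable def s745_765 (i sh : Nat) : Nat := Bool.rec (s745_755 i sh) (s755_765 i sh) (Nat.ble 755 i)
noncomputable def s725_765 (i sh : Nat) : Nat := Bool.rec (s725_745 i sh) (s745_765 i sh) (Nat.ble 745 i)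
noncomputable def s765_767 (i sh : Nat) : Nat := Bool.rec (Nat.shiftRight leaf765 sh) (Nat.shiftRight leaf766 sh) (Nat.ble 766 i)
noncomputable def s768_770 (i sh : Nat) : Nat := Bool.rec (Nat.shiftRight leaf768 sh) (Nat.shiftRight leaf769 sh) (Nat.ble 769 i)
noncomputable def s767_770 (i sh : Nat) : Nat := Bool.rec (Nat.shiftRight leaf767 sh) (s768_770 i sh) (Nat.ble 768 i)
noncomputable def s765_770 (i sh : Nat) : Nat := Bool.rec (s765_767 i sh) (s767_770 i sh) (Nat.ble 767 i)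
noncomputable def s770_772 (i sh : Nat) : Nat := Bool.rec (Nat.shiftRight leaf770 sh) (Nat.shiftRight leaf771 sh) (Nat.ble 771 i)
noncomputable def s773_775 (i sh : Nat) : Nat := Bool.rec (Nat.shiftRight leaf773 sh) (Nat.shiftRight leaf774 sh) (Nat.ble 774 i)
noncomputable def s772_775 (i sh : Nat) : Nat := Bool.rec (Nat.shiftRight leaf772 sh) (s773_775 i sh) (Nat.ble 773 i)
noncomputable def s770_775 (i sh : Nat) : Nat := Bool.rec (s770_772 i sh) (s772_775 i sh) (Nat.ble 772 i)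
noncomputable def s765_775 (i sh : Nat) : Nat := Bool.rec (s765_770 i sh) (s770_775 i sh) (Nat.ble 770 i)
noncomputable def s775_777 (i sh : Nat) : Nat := Bool.rec (Nat.shiftRight leaf775 sh) (Nat.shiftRight leaf776 sh) (Nat.ble 776 i)
noncomputable def s778_780 (i sh : Nat) : Nat := Bool.rec (Nat.shiftRight leaf778 sh) (Nat.shiftRight leaf779 sh) (Nat.ble 779 i)
noncomputable def s777_780 (i sh : Nat) : Nat := Bool.rec (Nat.shiftRight leaf777 sh) (s778_780 i sh) (Nat.ble 778 i)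
noncomputable def s775_780 (i sh : Nat) : Nat := Bool.rec (s775_777 i sh) (s777_780 i sh) (Nat.ble 777 i)
noncomputable def s780_782 (i sh : Nat) : Nat := Bool.rec (Nat.shiftRight leaf780 sh) (Nat.shiftRight leaf781 sh) (Nat.ble 781 i)
noncomputable def s783_785 (i sh : Nat) : Nat := Bool.rec (Nat.shiftRight leaf783 sh) (Nat.shiftRight leaf784 sh) (Nat.ble 784 i)
noncomputable def s782_785 (i sh : Nat) : Nat := Bool.rec (Nat.shiftRight leaf782 sh) (s783_785 i sh) (Nat.ble 783 i)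
noncomputable def s780_785 (i sh : Nat) : Nat := Bool.rec (s780_782 i sh) (s782_785 i sh) (Nat.ble 782 i)
noncomputable def s775_785 (i sh : Nat) : Nat := Bool.rec (s775_780 i sh) (s780_785 i sh) (Nat.ble 780 i)
noncomputable def s765_785 (i sh : Nat) : Nat := Bool.rec (s765_775 i sh) (s775_785 i sh) (Nat.ble 775 i)
noncomputable def s785_787 (i sh : Nat) : Nat := Bool.rec (Nat.shiftRight leaf785 sh) (Nat.shiftRight leaf786 sh) (Nat.ble 786 i)
noncomputable def s788_790 (i sh : Nat) : Nat := Bool.rec (Nat.shiftRight leaf788 sh) (Nat.shiftRight leaf789 sh) (Nat.ble 789 i)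
noncomputable def s787_790 (i sh : Nat) : Nat := Bool.rec (Nat.shiftRight leaf787 sh) (s788_790 i sh) (Nat.ble 788 i)
noncomputable def s785_790 (i sh : Nat) : Nat := Bool.rec (s785_787 i sh) (s787_790 i sh) (Nat.ble 787 i)
noncomputable def s790_792 (i sh : Nat) : Nat := Bool.rec (Nat.shiftRight leaf790 sh) (Nat.shiftRight leaf791 sh) (Nat.ble 791 i)
noncomputable def s793_795 (i sh : Nat) : Nat := Bool.rec (Nat.shiftRight leaf793 sh) (Nat.shiftRight leaf794 sh) (Nat.ble 794 i)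
noncomputable def s792_795 (i sh : Nat) : Nat := Bool.rec (Nat.shiftRight leaf792 sh) (s793_795 i sh) (Nat.ble 793 i)
noncomputable def s790_795 (i sh : Nat) : Nat := Bool.rec (s790_792 i sh) (s792_795 i sh) (Nat.ble 792 i)
noncomputable def s785_795 (i sh : Nat) : Nat := Bool.rec (s785_790 i sh) (s790_795 i sh) (Nat.ble 790 i)
noncomputable def s795_797 (i sh : Nat) : Nat := Bool.rec (Nat.shiftRight leaf795 sh) (Nat.shiftRight leaf796 sh) (Nat.ble 796 i)
noncomputable def s798_800 (i sh : Nat) : Nat := Bool.rec (Nat.shiftRight leaf798 sh) (Nat.shiftRight leaf799 sh) (Nat.ble 799 i)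
noncomputable def s797_800 (i sh : Nat) : Nat := Bool.rec (Nat.shiftRight leaf797 sh) (s798_800 i sh) (Nat.ble 798 i)
noncomputable def s795_800 (i sh : Nat) : Nat := Bool.rec (s795_797 i sh) (s797_800 i sh) (Nat.ble 797 i)
noncomputable def s801_803 (i sh : Nat) : Nat := Bool.rec (Nat.shiftRight leaf801 sh) (Nat.shiftRight leaf802 sh) (Nat.ble 802 i)
noncomputable def s800_803 (i sh : Nat) : Nat := Bool.rec (Nat.shiftRight leaf800 sh) (s801_803 i sh) (Nat.ble 801 i)
noncomputable def s804_806 (i sh : Nat) : Nat := Bool.rec (Nat.shiftRight leaf804 sh) (Nat.shiftRight leaf805 sh) (Nat.ble 805 i)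
noncomputable def s803_806 (i sh : Nat) : Nat := Bool.rec (Nat.shiftRight leaf803 sh) (s804_806 i sh) (Nat.ble 804 i)
noncomputable def s800_806 (i sh : Nat) : Nat := Bool.rec (s800_803 i sh) (s803_806 i sh) (Nat.ble 803 i)
noncomputable def s795_806 (i sh : Nat) : Nat := Bool.rec (s795_800 i sh) (s800_806 i sh) (Nat.ble 800 i)
noncomputable def s785_806 (i sh : Nat) : Nat := Bool.rec (s785_795 i sh) (s795_806 i sh) (Nat.ble 795 i)
noncomputable def s765_806 (i sh : Nat) : Nat := Bool.rec (s765_785 i sh) (s785_806 i sh) (Nat.ble 785 i)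
noncomputable def s725_806 (i sh : Nat) : Nat := Bool.rec (s725_765 i sh) (s765_806 i sh) (Nat.ble 765 i)
noncomputable def s645_806 (i sh : Nat) : Nat := Bool.rec (s645_725 i sh) (s725_806 i sh) (Nat.ble 725 i)
noncomputable def s806_808 (i sh : Nat) : Nat := Bool.rec (Nat.shiftRight leaf806 sh) (Nat.shiftRight leaf807 sh) (Nat.ble 807 i)
noncomputable def s809_811 (i sh : Nat) : Nat := Bool.rec (Nat.shiftRight leaf809 sh) (Nat.shiftRight leaf810 sh) (Nat.ble 810 i)
noncomputable def s808_811 (i sh : Nat) : Nat := Bool.rec (Nat.shiftRight leaf808 sh) (s809_811 i sh) (Nat.ble 809 i)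
noncomputable def s806_811 (i sh : Nat) : Nat := Bool.rec (s806_808 i sh) (s808_811 i sh) (Nat.ble 808 i)
noncomputable def s811_813 (i sh : Nat) : Nat := Bool.rec (Nat.shiftRight leaf811 sh) (Nat.shiftRight leaf812 sh) (Nat.ble 812 i)
noncomputable def s814_816 (i sh : Nat) : Nat := Bool.rec (Nat.shiftRight leaf814 sh) (Nat.shiftRight leaf815 sh) (Nat.ble 815 i)
noncomputable def s813_816 (i sh : Nat) : Nat := Bool.rec (Nat.shiftRight leaf813 sh) (s814_816 i sh) (Nat.ble 814 i)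
noncomputable def s811_816 (i sh : Nat) : Nat := Bool.rec (s811_813 i sh) (s813_816 i sh) (Nat.ble 813 i)
noncomputable def s806_816 (i sh : Nat) : Nat := Bool.rec (s806_811 i sh) (s811_816 i sh) (Nat.ble 811 i)
noncomputable def s816_818 (i sh : Nat) : Nat := Bool.rec (Nat.shiftRight leaf816 sh) (Nat.shiftRight leaf817 sh) (Nat.ble 817 i)
noncomputable def s819_821 (i sh : Nat) : Nat := Bool.rec (Nat.shiftRight leaf819 sh) (Nat.shiftRight leaf820 sh) (Nat.ble 820 i)
noncomputable def s818_821 (i sh : Nat) : Nat := Bool.rec (Nat.shiftRight leaf818 sh) (s819_821 i sh) (Nat.ble 819 i)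
noncomputable def s816_821 (i sh : Nat) : Nat := Bool.rec (s816_818 i sh) (s818_821 i sh) (Nat.ble 818 i)
noncomputable def s821_823 (i sh : Nat) : Nat := Bool.rec (Nat.shiftRight leaf821 sh) (Nat.shiftRight leaf822 sh) (Nat.ble 822 i)
noncomputable def s824_826 (i sh : Nat) : Nat := Bool.rec (Nat.shiftRight leaf824 sh) (Nat.shiftRight leaf825 sh) (Nat.ble 825 i)
noncomputable def s823_826 (i sh : Nat) : Nat := Bool.rec (Nat.shiftRight leaf823 sh) (s824_826 i sh) (Nat.ble 824 i)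
noncomputable def s821_826 (i sh : Nat) : Nat := Bool.rec (s821_823 i sh) (s823_826 i sh) (Nat.ble 823 i)
noncomputable def s816_826 (i sh : Nat) : Nat := Bool.rec (s816_821 i sh) (s821_826 i sh) (Nat.ble 821 i)
noncomputable def s806_826 (i sh : Nat) : Nat := Bool.rec (s806_816 i sh) (s816_826 i sh) (Nat.ble 816 i)
noncomputable def s826_828 (i sh : Nat) : Nat := Bool.rec (Nat.shiftRight leaf826 sh) (Nat.shiftRight leaf827 sh) (Nat.ble 827 i)
noncomputable def s829_831 (i sh : Nat) : Nat := Bool.rec (Nat.shiftRight leaf829 sh) (Nat.shiftRight leaf830 sh) (Nat.ble 830 i)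
noncomputable def s828_831 (i sh : Nat) : Nat := Bool.rec (Nat.shiftRight leaf828 sh) (s829_831 i sh) (Nat.ble 829 i)
noncomputable def s826_831 (i sh : Nat) : Nat := Bool.rec (s826_828 i sh) (s828_831 i sh) (Nat.ble 828 i)
noncomputable def s831_833 (i sh : Nat) : Nat := Bool.rec (Nat.shiftRight leaf831 sh) (Nat.shiftRight leaf832 sh) (Nat.ble 832 i)
noncomputable def s834_836 (i sh : Nat) : Nat := Bool.rec (Nat.shiftRight leaf834 sh) (Nat.shiftRight leaf835 sh) (Nat.ble 835 i)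
noncomputable def s833_836 (i sh : Nat) : Nat := Bool.rec (Nat.shiftRight leaf833 sh) (s834_836 i sh) (Nat.ble 834 i)
noncomputable def s831_836 (i sh : Nat) : Nat := Bool.rec (s831_833 i sh) (s833_836 i sh) (Nat.ble 833 i)
noncomputable def s826_836 (i sh : Nat) : Nat := Bool.rec (s826_831 i sh) (s831_836 i sh) (Nat.ble 831 i)
noncomputable def s836_838 (i sh : Nat) : Nat := Bool.rec (Nat.shiftRight leaf836 sh) (Nat.shiftRight leaf837 sh) (Nat.ble 837 i)
noncomputable def s839_841 (i sh : Nat) : Nat := Bool.rec (Nat.shiftRight leaf839 sh) (Nat.shiftRight leaf840 sh) (Nat.ble 840 i)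
noncomputable def s838_841 (i sh : Nat) : Nat := Bool.rec (Nat.shiftRight leaf838 sh) (s839_841 i sh) (Nat.ble 839 i)
noncomputable def s836_841 (i sh : Nat) : Nat := Bool.rec (s836_838 i sh) (s838_841 i sh) (Nat.ble 838 i)
noncomputable def s841_843 (i sh : Nat) : Nat := Bool.rec (Nat.shiftRight leaf841 sh) (Nat.shiftRight leaf842 sh) (Nat.ble 842 i)
noncomputable def s844_846 (i sh : Nat) : Nat := Bool.rec (Nat.shiftRight leaf844 sh) (Nat.shiftRight leaf845 sh) (Nat.ble 845 i)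
noncomputable def s843_846 (i sh : Nat) : Nat := Bool.rec (Nat.shiftRight leaf843 sh) (s844_846 i sh) (Nat.ble 844 i)
noncomputable def s841_846 (i sh : Nat) : Nat := Bool.rec (s841_843 i sh) (s843_846 i sh) (Nat.ble 843 i)
noncomputable def s836_846 (i sh : Nat) : Nat := Bool.rec (s836_841 i sh) (s841_846 i sh) (Nat.ble 841 i)
noncomputable def s826_846 (i sh : Nat) : Nat := Bool.rec (s826_836 i sh) (s836_846 i sh) (Nat.ble 836 i)
noncomputable def s806_846 (i sh : Nat) : Nat := Bool.rec (s806_826 i sh) (s826_846 i sh) (Nat.ble 826 i)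
noncomputable def s846_848 (i sh : Nat) : Nat := Bool.rec (Nat.shiftRight leaf846 sh) (Nat.shiftRight leaf847 sh) (Nat.ble 847 i)
noncomputable def s849_851 (i sh : Nat) : Nat := Bool.rec (Nat.shiftRight leaf849 sh) (Nat.shiftRight leaf850 sh) (Nat.ble 850 i)
noncomputable def s848_851 (i sh : Nat) : Nat := Bool.rec (Nat.shiftRight leaf848 sh) (s849_851 i sh) (Nat.ble 849 i)
noncomputable def s846_851 (i sh : Nat) : Nat := Bool.rec (s846_848 i sh) (s848_851 i sh) (Nat.ble 848 i)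
noncomputable def s851_853 (i sh : Nat) : Nat := Bool.rec (Nat.shiftRight leaf851 sh) (Nat.shiftRight leaf852 sh) (Nat.ble 852 i)
noncomputable def s854_856 (i sh : Nat) : Nat := Bool.rec (Nat.shiftRight leaf854 sh) (Nat.shiftRight leaf855 sh) (Nat.ble 855 i)
noncomputable def s853_856 (i sh : Nat) : Nat := Bool.rec (Nat.shiftRight leaf853 sh) (s854_856 i sh) (Nat.ble 854 i)
noncomputable def s851_856 (i sh : Nat) : Nat := Bool.rec (s851_853 i sh) (s853_856 i sh) (Nat.ble 853 i)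
noncomputable def s846_856 (i sh : Nat) : Nat := Bool.rec (s846_851 i sh) (s851_856 i sh) (Nat.ble 851 i)
noncomputable def s856_858 (i sh : Nat) : Nat := Bool.rec (Nat.shiftRight leaf856 sh) (Nat.shiftRight leaf857 sh) (Nat.ble 857 i)
noncomputable def s859_861 (i sh : Nat) : Nat := Bool.rec (Nat.shiftRight leaf859 sh) (Nat.shiftRight leaf860 sh) (Nat.ble 860 i)
noncomputable def s858_861 (i sh : Nat) : Nat := Bool.rec (Nat.shiftRight leaf858 sh) (s859_861 i sh) (Nat.ble 859 i)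
noncomputable def s856_861 (i sh : Nat) : Nat := Bool.rec (s856_858 i sh) (s858_861 i sh) (Nat.ble 858 i)
noncomputable def s861_863 (i sh : Nat) : Nat := Bool.rec (Nat.shiftRight leaf861 sh) (Nat.shiftRight leaf862 sh) (Nat.ble 862 i)
noncomputable def s864_866 (i sh : Nat) : Nat := Bool.rec (Nat.shiftRight leaf864 sh) (Nat.shiftRight leaf865 sh) (Nat.ble 865 i)
noncomputable def s863_866 (i sh : Nat) : Nat := Bool.rec (Nat.shiftRight leaf863 sh) (s864_866 i sh) (Nat.ble 864 i)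
noncomputable def s861_866 (i sh : Nat) : Nat := Bool.rec (s861_863 i sh) (s863_866 i sh) (Nat.ble 863 i)
noncomputable def s856_866 (i sh : Nat) : Nat := Bool.rec (s856_861 i sh) (s861_866 i sh) (Nat.ble 861 i)
noncomputable def s846_866 (i sh : Nat) : Nat := Bool.rec (s846_856 i sh) (s856_866 i sh) (Nat.ble 856 i)
noncomputable def s866_868 (i sh : Nat) : Nat := Bool.rec (Nat.shiftRight leaf866 sh) (Nat.shiftRight leaf867 sh) (Nat.ble 867 i)
noncomputable def s869_871 (i sh : Nat) : Nat := Bool.rec (Nat.shiftRight leaf869 sh) (Nat.shiftRight leaf870 sh) (Nat.ble 870 i)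
noncomputable def s868_871 (i sh : Nat) : Nat := Bool.rec (Nat.shiftRight leaf868 sh) (s869_871 i sh) (Nat.ble 869 i)
noncomputable def s866_871 (i sh : Nat) : Nat := Bool.rec (s866_868 i sh) (s868_871 i sh) (Nat.ble 868 i)
noncomputable def s871_873 (i sh : Nat) : Nat := Bool.rec (Nat.shiftRight leaf871 sh) (Nat.shiftRight leaf872 sh) (Nat.ble 872 i)
noncomputable def s874_876 (i sh : Nat) : Nat := Bool.rec (Nat.shiftRight leaf874 sh) (Nat.shiftRight leaf875 sh) (Nat.ble 875 i)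
noncomputable def s873_876 (i sh : Nat) : Nat := Bool.rec (Nat.shiftRight leaf873 sh) (s874_876 i sh) (Nat.ble 874 i)
noncomputable def s871_876 (i sh : Nat) : Nat := Bool.rec (s871_873 i sh) (s873_876 i sh) (Nat.ble 873 i)
noncomputable def s866_876 (i sh : Nat) : Nat := Bool.rec (s866_871 i sh) (s871_876 i sh) (Nat.ble 871 i)
noncomputable def s876_878 (i sh : Nat) : Nat := Bool.rec (Nat.shiftRight leaf876 sh) (Nat.shiftRight leaf877 sh) (Nat.ble 877 i)
noncomputable def s879_881 (i sh : Nat) : Nat := Bool.rec (Nat.shiftRight leaf879 sh) (Nat.shiftRight leaf880 sh) (Nat.ble 880 i)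
noncomputable def s878_881 (i sh : Nat) : Nat := Bool.rec (Nat.shiftRight leaf878 sh) (s879_881 i sh) (Nat.ble 879 i)
noncomputable def s876_881 (i sh : Nat) : Nat := Bool.rec (s876_878 i sh) (s878_881 i sh) (Nat.ble 878 i)
noncomputable def s881_883 (i sh : Nat) : Nat := Bool.rec (Nat.shiftRight leaf881 sh) (Nat.shiftRight leaf882 sh) (Nat.ble 882 i)
noncomputable def s884_886 (i sh : Nat) : Nat := Bool.rec (Nat.shiftRight leaf884 sh) (Nat.shiftRight leaf885 sh) (Nat.ble 885 i)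
noncomputable def s883_886 (i sh : Nat) : Nat := Bool.rec (Nat.shiftRight leaf883 sh) (s884_886 i sh) (Nat.ble 884 i)
noncomputable def s881_886 (i sh : Nat) : Nat := Bool.rec (s881_883 i sh) (s883_886 i sh) (Nat.ble 883 i)
noncomputable def s876_886 (i sh : Nat) : Nat := Bool.rec (s876_881 i sh) (s881_886 i sh) (Nat.ble 881 i)
noncomputable def s866_886 (i sh : Nat) : Nat := Bool.rec (s866_876 i sh) (s876_886 i sh) (Nat.ble 876 i)
noncomputable def s846_886 (i sh : Nat) : Nat := Bool.rec (s846_866 i sh) (s866_886 i sh) (Nat.ble 866 i)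
noncomputable def s806_886 (i sh : Nat) : Nat := Bool.rec (s806_846 i sh) (s846_886 i sh) (Nat.ble 846 i)
noncomputable def s886_888 (i sh : Nat) : Nat := Bool.rec (Nat.shiftRight leaf886 sh) (Nat.shiftRight leaf887 sh) (Nat.ble 887 i)
noncomputable def s889_891 (i sh : Nat) : Nat := Bool.rec (Nat.shiftRight leaf889 sh) (Nat.shiftRight leaf890 sh) (Nat.ble 890 i)
noncomputable def s888_891 (i sh : Nat) : Nat := Bool.rec (Nat.shiftRight leaf888 sh) (s889_891 i sh) (Nat.ble 889 i)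
noncomputable def s886_891 (i sh : Nat) : Nat := Bool.rec (s886_888 i sh) (s888_891 i sh) (Nat.ble 888 i)
noncomputable def s891_893 (i sh : Nat) : Nat := Bool.rec (Nat.shiftRight leaf891 sh) (Nat.shiftRight leaf892 sh) (Nat.ble 892 i)
noncomputable def s894_896 (i sh : Nat) : Nat := Bool.rec (Nat.shiftRight leaf894 sh) (Nat.shiftRight leaf895 sh) (Nat.ble 895 i)
noncomputable def s893_896 (i sh : Nat) : Nat := Bool.rec (Nat.shiftRight leaf893 sh) (s894_896 i sh) (Nat.ble 894 i)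
noncomputable def s891_896 (i sh : Nat) : Nat := Bool.rec (s891_893 i sh) (s893_896 i sh) (Nat.ble 893 i)
noncomputable def s886_896 (i sh : Nat) : Nat := Bool.rec (s886_891 i sh) (s891_896 i sh) (Nat.ble 891 i)
noncomputable def s896_898 (i sh : Nat) : Nat := Bool.rec (Nat.shiftRight leaf896 sh) (Nat.shiftRight leaf897 sh) (Nat.ble 897 i)
noncomputable def s899_901 (i sh : Nat) : Nat := Bool.rec (Nat.shiftRight leaf899 sh) (Nat.shiftRight leaf900 sh) (Nat.ble 900 i)
noncomputable def s898_901 (i sh : Nat) : Nat := Bool.rec (Nat.shiftRight leaf898 sh) (s899_901 i sh) (Nat.ble 899 i)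
noncomputable def s896_901 (i sh : Nat) : Nat := Bool.rec (s896_898 i sh) (s898_901 i sh) (Nat.ble 898 i)
noncomputable def s901_903 (i sh : Nat) : Nat := Bool.rec (Nat.shiftRight leaf901 sh) (Nat.shiftRight leaf902 sh) (Nat.ble 902 i)
noncomputable def s904_906 (i sh : Nat) : Nat := Bool.rec (Nat.shiftRight leaf904 sh) (Nat.shiftRight leaf905 sh) (Nat.ble 905 i)
noncomputable def s903_906 (i sh : Nat) : Nat := Bool.rec (Nat.shiftRight leaf903 sh) (s904_906 i sh) (Nat.ble 904 i)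
noncomputable def s901_906 (i sh : Nat) : Nat := Bool.rec (s901_903 i sh) (s903_906 i sh) (Nat.ble 903 i)
noncomputable def s896_906 (i sh : Nat) : Nat := Bool.rec (s896_901 i sh) (s901_906 i sh) (Nat.ble 901 i)
noncomputable def s886_906 (i sh : Nat) : Nat := Bool.rec (s886_896 i sh) (s896_906 i sh) (Nat.ble 896 i)
noncomputable def s906_908 (i sh : Nat) : Nat := Bool.rec (Nat.shiftRight leaf906 sh) (Nat.shiftRight leaf907 sh) (Nat.ble 907 i)
noncomputable def s909_911 (i sh : Nat) : Nat := Bool.rec (Nat.shiftRight leaf909 sh) (Nat.shiftRight leaf910 sh) (Nat.ble 910 i)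
noncomputable def s908_911 (i sh : Nat) : Nat := Bool.rec (Nat.shiftRight leaf908 sh) (s909_911 i sh) (Nat.ble 909 i)
noncomputable def s906_911 (i sh : Nat) : Nat := Bool.rec (s906_908 i sh) (s908_911 i sh) (Nat.ble 908 i)
noncomputable def s911_913 (i sh : Nat) : Nat := Bool.rec (Nat.shiftRight leaf911 sh) (Nat.shiftRight leaf912 sh) (Nat.ble 912 i)
noncomputable def s914_916 (i sh : Nat) : Nat := Bool.rec (Nat.shiftRight leaf914 sh) (Nat.shiftRight leaf915 sh) (Nat.ble 915 i)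
noncomputable def s913_916 (i sh : Nat) : Nat := Bool.rec (Nat.shiftRight leaf913 sh) (s914_916 i sh) (Nat.ble 914 i)
noncomputable def s911_916 (i sh : Nat) : Nat := Bool.rec (s911_913 i sh) (s913_916 i sh) (Nat.ble 913 i)
noncomputable def s906_916 (i sh : Nat) : Nat := Bool.rec (s906_911 i sh) (s911_916 i sh) (Nat.ble 911 i)
noncomputable def s916_918 (i sh : Nat) : Nat := Bool.rec (Nat.shiftRight leaf916 sh) (Nat.shiftRight leaf917 sh) (Nat.ble 917 i)
noncomputable def s919_921 (i sh : Nat) : Nat := Bool.rec (Nat.shiftRight leaf919 sh) (Nat.shiftRight leaf920 sh) (Nat.ble 920 i)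
noncomputable def s918_921 (i sh : Nat) : Nat := Bool.rec (Nat.shiftRight leaf918 sh) (s919_921 i sh) (Nat.ble 919 i)
noncomputable def s916_921 (i sh : Nat) : Nat := Bool.rec (s916_918 i sh) (s918_921 i sh) (Nat.ble 918 i)
noncomputable def s921_923 (i sh : Nat) : Nat := Bool.rec (Nat.shiftRight leaf921 sh) (Nat.shiftRight leaf922 sh) (Nat.ble 922 i)
noncomputable def s924_926 (i sh : Nat) : Nat := Bool.rec (Nat.shiftRight leaf924 sh) (Nat.shiftRight leaf925 sh) (Nat.ble 925 i)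
noncomputable def s923_926 (i sh : Nat) : Nat := Bool.rec (Nat.shiftRight leaf923 sh) (s924_926 i sh) (Nat.ble 924 i)
noncomputable def s921_926 (i sh : Nat) : Nat := Bool.rec (s921_923 i sh) (s923_926 i sh) (Nat.ble 923 i)
noncomputable def s916_926 (i sh : Nat) : Nat := Bool.rec (s916_921 i sh) (s921_926 i sh) (Nat.ble 921 i)
noncomputable def s906_926 (i sh : Nat) : Nat := Bool.rec (s906_916 i sh) (s916_926 i sh) (Nat.ble 916 i)
noncomputable def s886_926 (i sh : Nat) : Nat := Bool.rec (s886_906 i sh) (s906_926 i sh) (Nat.ble 906 i)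
noncomputable def s926_928 (i sh : Nat) : Nat := Bool.rec (Nat.shiftRight leaf926 sh) (Nat.shiftRight leaf927 sh) (Nat.ble 927 i)
noncomputable def s929_931 (i sh : Nat) : Nat := Bool.rec (Nat.shiftRight leaf929 sh) (Nat.shiftRight leaf930 sh) (Nat.ble 930 i)
noncomputable def s928_931 (i sh : Nat) : Nat := Bool.rec (Nat.shiftRight leaf928 sh) (s929_931 i sh) (Nat.ble 929 i)
noncomputable def s926_931 (i sh : Nat) : Nat := Bool.rec (s926_928 i sh) (s928_931 i sh) (Nat.ble 928 i)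
noncomputable def s931_933 (i sh : Nat) : Nat := Bool.rec (Nat.shiftRight leaf931 sh) (Nat.shiftRight leaf932 sh) (Nat.ble 932 i)
noncomputable def s934_936 (i sh : Nat) : Nat := Bool.rec (Nat.shiftRight leaf934 sh) (Nat.shiftRight leaf935 sh) (Nat.ble 935 i)
noncomputable def s933_936 (i sh : Nat) : Nat := Bool.rec (Nat.shiftRight leaf933 sh) (s934_936 i sh) (Nat.ble 934 i)
noncomputable def s931_936 (i sh : Nat) : Nat := Bool.rec (s931_933 i sh) (s933_936 i sh) (Nat.ble 933 i)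
noncomputable def s926_936 (i sh : Nat) : Nat := Bool.rec (s926_931 i sh) (s931_936 i sh) (Nat.ble 931 i)
noncomputable def s936_938 (i sh : Nat) : Nat := Bool.rec (Nat.shiftRight leaf936 sh) (Nat.shiftRight leaf937 sh) (Nat.ble 937 i)
noncomputable def s939_941 (i sh : Nat) : Nat := Bool.rec (Nat.shiftRight leaf939 sh) (Nat.shiftRight leaf940 sh) (Nat.ble 940 i)
noncomputable def s938_941 (i sh : Nat) : Nat := Bool.rec (Nat.shiftRight leaf938 sh) (s939_941 i sh) (Nat.ble 939 i)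
noncomputable def s936_941 (i sh : Nat) : Nat := Bool.rec (s936_938 i sh) (s938_941 i sh) (Nat.ble 938 i)
noncomputable def s941_943 (i sh : Nat) : Nat := Bool.rec (Nat.shiftRight leaf941 sh) (Nat.shiftRight leaf942 sh) (Nat.ble 942 i)
noncomputable def s944_946 (i sh : Nat) : Nat := Bool.rec (Nat.shiftRight leaf944 sh) (Nat.shiftRight leaf945 sh) (Nat.ble 945 i)
noncomputable def s943_946 (i sh : Nat) : Nat := Bool.rec (Nat.shiftRight leaf943 sh) (s944_946 i sh) (Nat.ble 944 i)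
noncomputable def s941_946 (i sh : Nat) : Nat := Bool.rec (s941_943 i sh) (s943_946 i sh) (Nat.ble 943 i)
noncomputable def s936_946 (i sh : Nat) : Nat := Bool.rec (s936_941 i sh) (s941_946 i sh) (Nat.ble 941 i)
noncomputable def s926_946 (i sh : Nat) : Nat := Bool.rec (s926_936 i sh) (s936_946 i sh) (Nat.ble 936 i)
noncomputable def s946_948 (i sh : Nat) : Nat := Bool.rec (Nat.shiftRight leaf946 sh) (Nat.shiftRight leaf947 sh) (Nat.ble 947 i)
noncomputable def s949_951 (i sh : Nat) : Nat := Bool.rec (Nat.shiftRight leaf949 sh) (Nat.shiftRight leaf950 sh) (Nat.ble 950 i)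
noncomputable def s948_951 (i sh : Nat) : Nat := Bool.rec (Nat.shiftRight leaf948 sh) (s949_951 i sh) (Nat.ble 949 i)
noncomputable def s946_951 (i sh : Nat) : Nat := Bool.rec (s946_948 i sh) (s948_951 i sh) (Nat.ble 948 i)
noncomputable def s951_953 (i sh : Nat) : Nat := Bool.rec (Nat.shiftRight leaf951 sh) (Nat.shiftRight leaf952 sh) (Nat.ble 952 i)
noncomputable def s954_956 (i sh : Nat) : Nat := Bool.rec (Nat.shiftRight leaf954 sh) (Nat.shiftRight leaf955 sh) (Nat.ble 955 i)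
noncomputable def s953_956 (i sh : Nat) : Nat := Bool.rec (Nat.shiftRight leaf953 sh) (s954_956 i sh) (Nat.ble 954 i)
noncomputable def s951_956 (i sh : Nat) : Nat := Bool.rec (s951_953 i sh) (s953_956 i sh) (Nat.ble 953 i)
noncomputable def s946_956 (i sh : Nat) : Nat := Bool.rec (s946_951 i sh) (s951_956 i sh) (Nat.ble 951 i)
noncomputable def s956_958 (i sh : Nat) : Nat := Bool.rec (Nat.shiftRight leaf956 sh) (Nat.shiftRight leaf957 sh) (Nat.ble 957 i)
noncomputable def s959_961 (i sh : Nat) : Nat := Bool.rec (Nat.shiftRight leaf959 sh) (Nat.shiftRight leaf960 sh) (Nat.ble 960 i)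
noncomputable def s958_961 (i sh : Nat) : Nat := Bool.rec (Nat.shiftRight leaf958 sh) (s959_961 i sh) (Nat.ble 959 i)
noncomputable def s956_961 (i sh : Nat) : Nat := Bool.rec (s956_958 i sh) (s958_961 i sh) (Nat.ble 958 i)
noncomputable def s962_964 (i sh : Nat) : Nat := Bool.rec (Nat.shiftRight leaf962 sh) (Nat.shiftRight leaf963 sh) (Nat.ble 963 i)
noncomputable def s961_964 (i sh : Nat) : Nat := Bool.rec (Nat.shiftRight leaf961 sh) (s962_964 i sh) (Nat.ble 962 i)
noncomputable def s965_967 (i sh : Nat) : Nat := Bool.rec (Nat.shiftRight leaf965 sh) (Nat.shiftRight leaf966 sh) (Nat.ble 966 i)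
noncomputable def s964_967 (i sh : Nat) : Nat := Bool.rec (Nat.shiftRight leaf964 sh) (s965_967 i sh) (Nat.ble 965 i)
noncomputable def s961_967 (i sh : Nat) : Nat := Bool.rec (s961_964 i sh) (s964_967 i sh) (Nat.ble 964 i)
noncomputable def s956_967 (i sh : Nat) : Nat := Bool.rec (s956_961 i sh) (s961_967 i sh) (Nat.ble 961 i)
noncomputable def s946_967 (i sh : Nat) : Nat := Bool.rec (s946_956 i sh) (s956_967 i sh) (Nat.ble 956 i)
noncomputable def s926_967 (i sh : Nat) : Nat := Bool.rec (s926_946 i sh) (s946_967 i sh) (Nat.ble 946 i)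
noncomputable def s886_967 (i sh : Nat) : Nat := Bool.rec (s886_926 i sh) (s926_967 i sh) (Nat.ble 926 i)
noncomputable def s806_967 (i sh : Nat) : Nat := Bool.rec (s806_886 i sh) (s886_967 i sh) (Nat.ble 886 i)
noncomputable def s645_967 (i sh : Nat) : Nat := Bool.rec (s645_806 i sh) (s806_967 i sh) (Nat.ble 806 i)
noncomputable def s967_969 (i sh : Nat) : Nat := Bool.rec (Nat.shiftRight leaf967 sh) (Nat.shiftRight leaf968 sh) (Nat.ble 968 i)
noncomputable def s970_972 (i sh : Nat) : Nat := Bool.rec (Nat.shiftRight leaf970 sh) (Nat.shiftRight leaf971 sh) (Nat.ble 971 i)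
noncomputable def s969_972 (i sh : Nat) : Nat := Bool.rec (Nat.shiftRight leaf969 sh) (s970_972 i sh) (Nat.ble 970 i)
noncomputable def s967_972 (i sh : Nat) : Nat := Bool.rec (s967_969 i sh) (s969_972 i sh) (Nat.ble 969 i)
noncomputable def s972_974 (i sh : Nat) : Nat := Bool.rec (Nat.shiftRight leaf972 sh) (Nat.shiftRight leaf973 sh) (Nat.ble 973 i)
noncomputable def s975_977 (i sh : Nat) : Nat := Bool.rec (Nat.shiftRight leaf975 sh) (Nat.shiftRight leaf976 sh) (Nat.ble 976 i)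
noncomputable def s974_977 (i sh : Nat) : Nat := Bool.rec (Nat.shiftRight leaf974 sh) (s975_977 i sh) (Nat.ble 975 i)
noncomputable def s972_977 (i sh : Nat) : Nat := Bool.rec (s972_974 i sh) (s974_977 i sh) (Nat.ble 974 i)
noncomputable def s967_977 (i sh : Nat) : Nat := Bool.rec (s967_972 i sh) (s972_977 i sh) (Nat.ble 972 i)
noncomputable def s977_979 (i sh : Nat) : Nat := Bool.rec (Nat.shiftRight leaf977 sh) (Nat.shiftRight leaf978 sh) (Nat.ble 978 i)
noncomputable def s980_982 (i sh : Nat) : Nat := Bool.rec (Nat.shiftRight leaf980 sh) (Nat.shiftRight leaf981 sh) (Nat.ble 981 i)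
noncomputable def s979_982 (i sh : Nat) : Nat := Bool.rec (Nat.shiftRight leaf979 sh) (s980_982 i sh) (Nat.ble 980 i)
noncomputable def s977_982 (i sh : Nat) : Nat := Bool.rec (s977_979 i sh) (s979_982 i sh) (Nat.ble 979 i)
noncomputable def s982_984 (i sh : Nat) : Nat := Bool.rec (Nat.shiftRight leaf982 sh) (Nat.shiftRight leaf983 sh) (Nat.ble 983 i)
noncomputable def s985_987 (i sh : Nat) : Nat := Bool.rec (Nat.shiftRight leaf985 sh) (Nat.shiftRight leaf986 sh) (Nat.ble 986 i)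
noncomputable def s984_987 (i sh : Nat) : Nat := Bool.rec (Nat.shiftRight leaf984 sh) (s985_987 i sh) (Nat.ble 985 i)
noncomputable def s982_987 (i sh : Nat) : Nat := Bool.rec (s982_984 i sh) (s984_987 i sh) (Nat.ble 984 i)
noncomputable def s977_987 (i sh : Nat) : Nat := Bool.rec (s977_982 i sh) (s982_987 i sh) (Nat.ble 982 i)
noncomputable def s967_987 (i sh : Nat) : Nat := Bool.rec (s967_977 i sh) (s977_987 i sh) (Nat.ble 977 i)
noncomputable def s987_989 (i sh : Nat) : Nat := Bool.rec (Nat.shiftRight leaf987 sh) (Nat.shiftRight leaf988 sh) (Nat.ble 988 i)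
noncomputable def s990_992 (i sh : Nat) : Nat := Bool.rec (Nat.shiftRight leaf990 sh) (Nat.shiftRight leaf991 sh) (Nat.ble 991 i)
noncomputable def s989_992 (i sh : Nat) : Nat := Bool.rec (Nat.shiftRight leaf989 sh) (s990_992 i sh) (Nat.ble 990 i)
noncomputable def s987_992 (i sh : Nat) : Nat := Bool.rec (s987_989 i sh) (s989_992 i sh) (Nat.ble 989 i)
noncomputable def s992_994 (i sh : Nat) : Nat := Bool.rec (Nat.shiftRight leaf992 sh) (Nat.shiftRight leaf993 sh) (Nat.ble 993 i)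
noncomputable def s995_997 (i sh : Nat) : Nat := Bool.rec (Nat.shiftRight leaf995 sh) (Nat.shiftRight leaf996 sh) (Nat.ble 996 i)
noncomputable def s994_997 (i sh : Nat) : Nat := Bool.rec (Nat.shiftRight leaf994 sh) (s995_997 i sh) (Nat.ble 995 i)
noncomputable def s992_997 (i sh : Nat) : Nat := Bool.rec (s992_994 i sh) (s994_997 i sh) (Nat.ble 994 i)
noncomputable def s987_997 (i sh : Nat) : Nat := Bool.rec (s987_992 i sh) (s992_997 i sh) (Nat.ble 992 i)
noncomputable def s997_999 (i sh : Nat) : Nat := Bool.rec (Nat.shiftRight leaf997 sh) (Nat.shiftRight leaf998 sh) (Nat.ble 998 i)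
noncomputable def s1000_1002 (i sh : Nat) : Nat := Bool.rec (Nat.shiftRight leaf1000 sh) (Nat.shiftRight leaf1001 sh) (Nat.ble 1001 i)
noncomputable def s999_1002 (i sh : Nat) : Nat := Bool.rec (Nat.shiftRight leaf999 sh) (s1000_1002 i sh) (Nat.ble 1000 i)
noncomputable def s997_1002 (i sh : Nat) : Nat := Bool.rec (s997_999 i sh) (s999_1002 i sh) (Nat.ble 999 i)
noncomputable def s1002_1004 (i sh : Nat) : Nat := Bool.rec (Nat.shiftRight leaf1002 sh) (Nat.shiftRight leaf1003 sh) (Nat.ble 1003 i)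
noncomputable def s1005_1007 (i sh : Nat) : Nat := Bool.rec (Nat.shiftRight leaf1005 sh) (Nat.shiftRight leaf1006 sh) (Nat.ble 1006 i)
noncomputable def s1004_1007 (i sh : Nat) : Nat := Bool.rec (Nat.shiftRight leaf1004 sh) (s1005_1007 i sh) (Nat.ble 1005 i)
noncomputable def s1002_1007 (i sh : Nat) : Nat := Bool.rec (s1002_1004 i sh) (s1004_1007 i sh) (Nat.ble 1004 i)
noncomputable def s997_1007 (i sh : Nat) : Nat := Bool.rec (s997_1002 i sh) (s1002_1007 i sh) (Nat.ble 1002 i)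
noncomputable def s987_1007 (i sh : Nat) : Nat := Bool.rec (s987_997 i sh) (s997_1007 i sh) (Nat.ble 997 i)
noncomputable def s967_1007 (i sh : Nat) : Nat := Bool.rec (s967_987 i sh) (s987_1007 i sh) (Nat.ble 987 i)
noncomputable def s1007_1009 (i sh : Nat) : Nat := Bool.rec (Nat.shiftRight leaf1007 sh) (Nat.shiftRight leaf1008 sh) (Nat.ble 1008 i)
noncomputable def s1010_1012 (i sh : Nat) : Nat := Bool.rec (Nat.shiftRight leaf1010 sh) (Nat.shiftRight leaf1011 sh) (Nat.ble 1011 i)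
noncomputable def s1009_1012 (i sh : Nat) : Nat := Bool.rec (Nat.shiftRight leaf1009 sh) (s1010_1012 i sh) (Nat.ble 1010 i)
noncomputable def s1007_1012 (i sh : Nat) : Nat := Bool.rec (s1007_1009 i sh) (s1009_1012 i sh) (Nat.ble 1009 i)
noncomputable def s1012_1014 (i sh : Nat) : Nat := Bool.rec (Nat.shiftRight leaf1012 sh) (Nat.shiftRight leaf1013 sh) (Nat.ble 1013 i)
noncomputable def s1015_1017 (i sh : Nat) : Nat := Bool.rec (Nat.shiftRight leaf1015 sh) (Nat.shiftRight leaf1016 sh) (Nat.ble 1016 i)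
noncomputable def s1014_1017 (i sh : Nat) : Nat := Bool.rec (Nat.shiftRight leaf1014 sh) (s1015_1017 i sh) (Nat.ble 1015 i)
noncomputable def s1012_1017 (i sh : Nat) : Nat := Bool.rec (s1012_1014 i sh) (s1014_1017 i sh) (Nat.ble 1014 i)
noncomputable def s1007_1017 (i sh : Nat) : Nat := Bool.rec (s1007_1012 i sh) (s1012_1017 i sh) (Nat.ble 1012 i)
noncomputable def s1017_1019 (i sh : Nat) : Nat := Bool.rec (Nat.shiftRight leaf1017 sh) (Nat.shiftRight leaf1018 sh) (Nat.ble 1018 i)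
noncomputable def s1020_1022 (i sh : Nat) : Nat := Bool.rec (Nat.shiftRight leaf1020 sh) (Nat.shiftRight leaf1021 sh) (Nat.ble 1021 i)
noncomputable def s1019_1022 (i sh : Nat) : Nat := Bool.rec (Nat.shiftRight leaf1019 sh) (s1020_1022 i sh) (Nat.ble 1020 i)
noncomputable def s1017_1022 (i sh : Nat) : Nat := Bool.rec (s1017_1019 i sh) (s1019_1022 i sh) (Nat.ble 1019 i)
noncomputable def s1022_1024 (i sh : Nat) : Nat := Bool.rec (Nat.shiftRight leaf1022 sh) (Nat.shiftRight leaf1023 sh) (Nat.ble 1023 i)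
noncomputable def s1025_1027 (i sh : Nat) : Nat := Bool.rec (Nat.shiftRight leaf1025 sh) (Nat.shiftRight leaf1026 sh) (Nat.ble 1026 i)
noncomputable def s1024_1027 (i sh : Nat) : Nat := Bool.rec (Nat.shiftRight leaf1024 sh) (s1025_1027 i sh) (Nat.ble 1025 i)
noncomputable def s1022_1027 (i sh : Nat) : Nat := Bool.rec (s1022_1024 i sh) (s1024_1027 i sh) (Nat.ble 1024 i)
noncomputable def s1017_1027 (i sh : Nat) : Nat := Bool.rec (s1017_1022 i sh) (s1022_1027 i sh) (Nat.ble 1022 i)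
noncomputable def s1007_1027 (i sh : Nat) : Nat := Bool.rec (s1007_1017 i sh) (s1017_1027 i sh) (Nat.ble 1017 i)
noncomputable def s1027_1029 (i sh : Nat) : Nat := Bool.rec (Nat.shiftRight leaf1027 sh) (Nat.shiftRight leaf1028 sh) (Nat.ble 1028 i)
noncomputable def s1030_1032 (i sh : Nat) : Nat := Bool.rec (Nat.shiftRight leaf1030 sh) (Nat.shiftRight leaf1031 sh) (Nat.ble 1031 i)
noncomputable def s1029_1032 (i sh : Nat) : Nat := Bool.rec (Nat.shiftRight leaf1029 sh) (s1030_1032 i sh) (Nat.ble 1030 i)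
noncomputable def s1027_1032 (i sh : Nat) : Nat := Bool.rec (s1027_1029 i sh) (s1029_1032 i sh) (Nat.ble 1029 i)
noncomputable def s1032_1034 (i sh : Nat) : Nat := Bool.rec (Nat.shiftRight leaf1032 sh) (Nat.shiftRight leaf1033 sh) (Nat.ble 1033 i)
noncomputable def s1035_1037 (i sh : Nat) : Nat := Bool.rec (Nat.shiftRight leaf1035 sh) (Nat.shiftRight leaf1036 sh) (Nat.ble 1036 i)
noncomputable def s1034_1037 (i sh : Nat) : Nat := Bool.rec (Nat.shiftRight leaf1034 sh) (s1035_1037 i sh) (Nat.ble 1035 i)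
noncomputable def s1032_1037 (i sh : Nat) : Nat := Bool.rec (s1032_1034 i sh) (s1034_1037 i sh) (Nat.ble 1034 i)
noncomputable def s1027_1037 (i sh : Nat) : Nat := Bool.rec (s1027_1032 i sh) (s1032_1037 i sh) (Nat.ble 1032 i)
noncomputable def s1037_1039 (i sh : Nat) : Nat := Bool.rec (Nat.shiftRight leaf1037 sh) (Nat.shiftRight leaf1038 sh) (Nat.ble 1038 i)
noncomputable def s1040_1042 (i sh : Nat) : Nat := Bool.rec (Nat.shiftRight leaf1040 sh) (Nat.shiftRight leaf1041 sh) (Nat.ble 1041 i)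
noncomputable def s1039_1042 (i sh : Nat) : Nat := Bool.rec (Nat.shiftRight leaf1039 sh) (s1040_1042 i sh) (Nat.ble 1040 i)
noncomputable def s1037_1042 (i sh : Nat) : Nat := Bool.rec (s1037_1039 i sh) (s1039_1042 i sh) (Nat.ble 1039 i)
noncomputable def s1042_1044 (i sh : Nat) : Nat := Bool.rec (Nat.shiftRight leaf1042 sh) (Nat.shiftRight leaf1043 sh) (Nat.ble 1043 i)
noncomputable def s1045_1047 (i sh : Nat) : Nat := Bool.rec (Nat.shiftRight leaf1045 sh) (Nat.shiftRight leaf1046 sh) (Nat.ble 1046 i)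
noncomputable def s1044_1047 (i sh : Nat) : Nat := Bool.rec (Nat.shiftRight leaf1044 sh) (s1045_1047 i sh) (Nat.ble 1045 i)
noncomputable def s1042_1047 (i sh : Nat) : Nat := Bool.rec (s1042_1044 i sh) (s1044_1047 i sh) (Nat.ble 1044 i)
noncomputable def s1037_1047 (i sh : Nat) : Nat := Bool.rec (s1037_1042 i sh) (s1042_1047 i sh) (Nat.ble 1042 i)
noncomputable def s1027_1047 (i sh : Nat) : Nat := Bool.rec (s1027_1037 i sh) (s1037_1047 i sh) (Nat.ble 1037 i)
noncomputable def s1007_1047 (i sh : Nat) : Nat := Bool.rec (s1007_1027 i sh) (s1027_1047 i sh) (Nat.ble 1027 i)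
noncomputable def s967_1047 (i sh : Nat) : Nat := Bool.rec (s967_1007 i sh) (s1007_1047 i sh) (Nat.ble 1007 i)
noncomputable def s1047_1049 (i sh : Nat) : Nat := Bool.rec (Nat.shiftRight leaf1047 sh) (Nat.shiftRight leaf1048 sh) (Nat.ble 1048 i)
noncomputable def s1050_1052 (i sh : Nat) : Nat := Bool.rec (Nat.shiftRight leaf1050 sh) (Nat.shiftRight leaf1051 sh) (Nat.ble 1051 i)
noncomputable def s1049_1052 (i sh : Nat) : Nat := Bool.rec (Nat.shiftRight leaf1049 sh) (s1050_1052 i sh) (Nat.ble 1050 i)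
noncomputable def s1047_1052 (i sh : Nat) : Nat := Bool.rec (s1047_1049 i sh) (s1049_1052 i sh) (Nat.ble 1049 i)
noncomputable def s1052_1054 (i sh : Nat) : Nat := Bool.rec (Nat.shiftRight leaf1052 sh) (Nat.shiftRight leaf1053 sh) (Nat.ble 1053 i)
noncomputable def s1055_1057 (i sh : Nat) : Nat := Bool.rec (Nat.shiftRight leaf1055 sh) (Nat.shiftRight leaf1056 sh) (Nat.ble 1056 i)
noncomputable def s1054_1057 (i sh : Nat) : Nat := Bool.rec (Nat.shiftRight leaf1054 sh) (s1055_1057 i sh) (Nat.ble 1055 i)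
noncomputable def s1052_1057 (i sh : Nat) : Nat := Bool.rec (s1052_1054 i sh) (s1054_1057 i sh) (Nat.ble 1054 i)
noncomputable def s1047_1057 (i sh : Nat) : Nat := Bool.rec (s1047_1052 i sh) (s1052_1057 i sh) (Nat.ble 1052 i)
noncomputable def s1057_1059 (i sh : Nat) : Nat := Bool.rec (Nat.shiftRight leaf1057 sh) (Nat.shiftRight leaf1058 sh) (Nat.ble 1058 i)
noncomputable def s1060_1062 (i sh : Nat) : Nat := Bool.rec (Nat.shiftRight leaf1060 sh) (Nat.shiftRight leaf1061 sh) (Nat.ble 1061 i)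
noncomputable def s1059_1062 (i sh : Nat) : Nat := Bool.rec (Nat.shiftRight leaf1059 sh) (s1060_1062 i sh) (Nat.ble 1060 i)
noncomputable def s1057_1062 (i sh : Nat) : Nat := Bool.rec (s1057_1059 i sh) (s1059_1062 i sh) (Nat.ble 1059 i)
noncomputable def s1062_1064 (i sh : Nat) : Nat := Bool.rec (Nat.shiftRight leaf1062 sh) (Nat.shiftRight leaf1063 sh) (Nat.ble 1063 i)
noncomputable def s1065_1067 (i sh : Nat) : Nat := Bool.rec (Nat.shiftRight leaf1065 sh) (Nat.shiftRight leaf1066 sh) (Nat.ble 1066 i)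
noncomputable def s1064_1067 (i sh : Nat) : Nat := Bool.rec (Nat.shiftRight leaf1064 sh) (s1065_1067 i sh) (Nat.ble 1065 i)
noncomputable def s1062_1067 (i sh : Nat) : Nat := Bool.rec (s1062_1064 i sh) (s1064_1067 i sh) (Nat.ble 1064 i)
noncomputable def s1057_1067 (i sh : Nat) : Nat := Bool.rec (s1057_1062 i sh) (s1062_1067 i sh) (Nat.ble 1062 i)
noncomputable def s1047_1067 (i sh : Nat) : Nat := Bool.rec (s1047_1057 i sh) (s1057_1067 i sh) (Nat.ble 1057 i)
noncomputable def s1067_1069 (i sh : Nat) : Nat := Bool.rec (Nat.shiftRight leaf1067 sh) (Nat.shiftRight leaf1068 sh) (Nat.ble 1068 i)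
noncomputable def s1070_1072 (i sh : Nat) : Nat := Bool.rec (Nat.shiftRight leaf1070 sh) (Nat.shiftRight leaf1071 sh) (Nat.ble 1071 i)
noncomputable def s1069_1072 (i sh : Nat) : Nat := Bool.rec (Nat.shiftRight leaf1069 sh) (s1070_1072 i sh) (Nat.ble 1070 i)
noncomputable def s1067_1072 (i sh : Nat) : Nat := Bool.rec (s1067_1069 i sh) (s1069_1072 i sh) (Nat.ble 1069 i)
noncomputable def s1072_1074 (i sh : Nat) : Nat := Bool.rec (Nat.shiftRight leaf1072 sh) (Nat.shiftRight leaf1073 sh) (Nat.ble 1073 i)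
noncomputable def s1075_1077 (i sh : Nat) : Nat := Bool.rec (Nat.shiftRight leaf1075 sh) (Nat.shiftRight leaf1076 sh) (Nat.ble 1076 i)
noncomputable def s1074_1077 (i sh : Nat) : Nat := Bool.rec (Nat.shiftRight leaf1074 sh) (s1075_1077 i sh) (Nat.ble 1075 i)
noncomputable def s1072_1077 (i sh : Nat) : Nat := Bool.rec (s1072_1074 i sh) (s1074_1077 i sh) (Nat.ble 1074 i)
noncomputable def s1067_1077 (i sh : Nat) : Nat := Bool.rec (s1067_1072 i sh) (s1072_1077 i sh) (Nat.ble 1072 i)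
noncomputable def s1077_1079 (i sh : Nat) : Nat := Bool.rec (Nat.shiftRight leaf1077 sh) (Nat.shiftRight leaf1078 sh) (Nat.ble 1078 i)
noncomputable def s1080_1082 (i sh : Nat) : Nat := Bool.rec (Nat.shiftRight leaf1080 sh) (Nat.shiftRight leaf1081 sh) (Nat.ble 1081 i)
noncomputable def s1079_1082 (i sh : Nat) : Nat := Bool.rec (Nat.shiftRight leaf1079 sh) (s1080_1082 i sh) (Nat.ble 1080 i)
noncomputable def s1077_1082 (i sh : Nat) : Nat := Bool.rec (s1077_1079 i sh) (s1079_1082 i sh) (Nat.ble 1079 i)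
noncomputable def s1082_1084 (i sh : Nat) : Nat := Bool.rec (Nat.shiftRight leaf1082 sh) (Nat.shiftRight leaf1083 sh) (Nat.ble 1083 i)
noncomputable def s1085_1087 (i sh : Nat) : Nat := Bool.rec (Nat.shiftRight leaf1085 sh) (Nat.shiftRight leaf1086 sh) (Nat.ble 1086 i)
noncomputable def s1084_1087 (i sh : Nat) : Nat := Bool.rec (Nat.shiftRight leaf1084 sh) (s1085_1087 i sh) (Nat.ble 1085 i)
noncomputable def s1082_1087 (i sh : Nat) : Nat := Bool.rec (s1082_1084 i sh) (s1084_1087 i sh) (Nat.ble 1084 i)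
noncomputable def s1077_1087 (i sh : Nat) : Nat := Bool.rec (s1077_1082 i sh) (s1082_1087 i sh) (Nat.ble 1082 i)
noncomputable def s1067_1087 (i sh : Nat) : Nat := Bool.rec (s1067_1077 i sh) (s1077_1087 i sh) (Nat.ble 1077 i)
noncomputable def s1047_1087 (i sh : Nat) : Nat := Bool.rec (s1047_1067 i sh) (s1067_1087 i sh) (Nat.ble 1067 i)
noncomputable def s1087_1089 (i sh : Nat) : Nat := Bool.rec (Nat.shiftRight leaf1087 sh) (Nat.shiftRight leaf1088 sh) (Nat.ble 1088 i)
noncomputable def s1090_1092 (i sh : Nat) : Nat := Bool.rec (Nat.shiftRight leaf1090 sh) (Nat.shiftRight leaf1091 sh) (Nat.ble 1091 i)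
noncomputable def s1089_1092 (i sh : Nat) : Nat := Bool.rec (Nat.shiftRight leaf1089 sh) (s1090_1092 i sh) (Nat.ble 1090 i)
noncomputable def s1087_1092 (i sh : Nat) : Nat := Bool.rec (s1087_1089 i sh) (s1089_1092 i sh) (Nat.ble 1089 i)
noncomputable def s1092_1094 (i sh : Nat) : Nat := Bool.rec (Nat.shiftRight leaf1092 sh) (Nat.shiftRight leaf1093 sh) (Nat.ble 1093 i)
noncomputable def s1095_1097 (i sh : Nat) : Nat := Bool.rec (Nat.shiftRight leaf1095 sh) (Nat.shiftRight leaf1096 sh) (Nat.ble 1096 i)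
noncomputable def s1094_1097 (i sh : Nat) : Nat := Bool.rec (Nat.shiftRight leaf1094 sh) (s1095_1097 i sh) (Nat.ble 1095 i)
noncomputable def s1092_1097 (i sh : Nat) : Nat := Bool.rec (s1092_1094 i sh) (s1094_1097 i sh) (Nat.ble 1094 i)
noncomputable def s1087_1097 (i sh : Nat) : Nat := Bool.rec (s1087_1092 i sh) (s1092_1097 i sh) (Nat.ble 1092 i)
noncomputable def s1097_1099 (i sh : Nat) : Nat := Bool.rec (Nat.shiftRight leaf1097 sh) (Nat.shiftRight leaf1098 sh) (Nat.ble 1098 i)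
noncomputable def s1100_1102 (i sh : Nat) : Nat := Bool.rec (Nat.shiftRight leaf1100 sh) (Nat.shiftRight leaf1101 sh) (Nat.ble 1101 i)
noncomputable def s1099_1102 (i sh : Nat) : Nat := Bool.rec (Nat.shiftRight leaf1099 sh) (s1100_1102 i sh) (Nat.ble 1100 i)
noncomputable def s1097_1102 (i sh : Nat) : Nat := Bool.rec (s1097_1099 i sh) (s1099_1102 i sh) (Nat.ble 1099 i)
noncomputable def s1102_1104 (i sh : Nat) : Nat := Bool.rec (Nat.shiftRight leaf1102 sh) (Nat.shiftRight leaf1103 sh) (Nat.ble 1103 i)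
noncomputable def s1105_1107 (i sh : Nat) : Nat := Bool.rec (Nat.shiftRight leaf1105 sh) (Nat.shiftRight leaf1106 sh) (Nat.ble 1106 i)
noncomputable def s1104_1107 (i sh : Nat) : Nat := Bool.rec (Nat.shiftRight leaf1104 sh) (s1105_1107 i sh) (Nat.ble 1105 i)
noncomputable def s1102_1107 (i sh : Nat) : Nat := Bool.rec (s1102_1104 i sh) (s1104_1107 i sh) (Nat.ble 1104 i)
noncomputable def s1097_1107 (i sh : Nat) : Nat := Bool.rec (s1097_1102 i sh) (s1102_1107 i sh) (Nat.ble 1102 i)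
noncomputable def s1087_1107 (i sh : Nat) : Nat := Bool.rec (s1087_1097 i sh) (s1097_1107 i sh) (Nat.ble 1097 i)
noncomputable def s1107_1109 (i sh : Nat) : Nat := Bool.rec (Nat.shiftRight leaf1107 sh) (Nat.shiftRight leaf1108 sh) (Nat.ble 1108 i)
noncomputable def s1110_1112 (i sh : Nat) : Nat := Bool.rec (Nat.shiftRight leaf1110 sh) (Nat.shiftRight leaf1111 sh) (Nat.ble 1111 i)
noncomputable def s1109_1112 (i sh : Nat) : Nat := Bool.rec (Nat.shiftRight leaf1109 sh) (s1110_1112 i sh) (Nat.ble 1110 i)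
noncomputable def s1107_1112 (i sh : Nat) : Nat := Bool.rec (s1107_1109 i sh) (s1109_1112 i sh) (Nat.ble 1109 i)
noncomputable def s1112_1114 (i sh : Nat) : Nat := Bool.rec (Nat.shiftRight leaf1112 sh) (Nat.shiftRight leaf1113 sh) (Nat.ble 1113 i)
noncomputable def s1115_1117 (i sh : Nat) : Nat := Bool.rec (Nat.shiftRight leaf1115 sh) (Nat.shiftRight leaf1116 sh) (Nat.ble 1116 i)
noncomputable def s1114_1117 (i sh : Nat) : Nat := Bool.rec (Nat.shiftRight leaf1114 sh) (s1115_1117 i sh) (Nat.ble 1115 i)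
noncomputable def s1112_1117 (i sh : Nat) : Nat := Bool.rec (s1112_1114 i sh) (s1114_1117 i sh) (Nat.ble 1114 i)
noncomputable def s1107_1117 (i sh : Nat) : Nat := Bool.rec (s1107_1112 i sh) (s1112_1117 i sh) (Nat.ble 1112 i)
noncomputable def s1117_1119 (i sh : Nat) : Nat := Bool.rec (Nat.shiftRight leaf1117 sh) (Nat.shiftRight leaf1118 sh) (Nat.ble 1118 i)
noncomputable def s1120_1122 (i sh : Nat) : Nat := Bool.rec (Nat.shiftRight leaf1120 sh) (Nat.shiftRight leaf1121 sh) (Nat.ble 1121 i)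
noncomputable def s1119_1122 (i sh : Nat) : Nat := Bool.rec (Nat.shiftRight leaf1119 sh) (s1120_1122 i sh) (Nat.ble 1120 i)
noncomputable def s1117_1122 (i sh : Nat) : Nat := Bool.rec (s1117_1119 i sh) (s1119_1122 i sh) (Nat.ble 1119 i)
noncomputable def s1123_1125 (i sh : Nat) : Nat := Bool.rec (Nat.shiftRight leaf1123 sh) (Nat.shiftRight leaf1124 sh) (Nat.ble 1124 i)
noncomputable def s1122_1125 (i sh : Nat) : Nat := Bool.rec (Nat.shiftRight leaf1122 sh) (s1123_1125 i sh) (Nat.ble 1123 i)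
noncomputable def s1126_1128 (i sh : Nat) : Nat := Bool.rec (Nat.shiftRight leaf1126 sh) (Nat.shiftRight leaf1127 sh) (Nat.ble 1127 i)
noncomputable def s1125_1128 (i sh : Nat) : Nat := Bool.rec (Nat.shiftRight leaf1125 sh) (s1126_1128 i sh) (Nat.ble 1126 i)
noncomputable def s1122_1128 (i sh : Nat) : Nat := Bool.rec (s1122_1125 i sh) (s1125_1128 i sh) (Nat.ble 1125 i)
noncomputable def s1117_1128 (i sh : Nat) : Nat := Bool.rec (s1117_1122 i sh) (s1122_1128 i sh) (Nat.ble 1122 i)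
noncomputable def s1107_1128 (i sh : Nat) : Nat := Bool.rec (s1107_1117 i sh) (s1117_1128 i sh) (Nat.ble 1117 i)
noncomputable def s1087_1128 (i sh : Nat) : Nat := Bool.rec (s1087_1107 i sh) (s1107_1128 i sh) (Nat.ble 1107 i)
noncomputable def s1047_1128 (i sh : Nat) : Nat := Bool.rec (s1047_1087 i sh) (s1087_1128 i sh) (Nat.ble 1087 i)
noncomputable def s967_1128 (i sh : Nat) : Nat := Bool.rec (s967_1047 i sh) (s1047_1128 i sh) (Nat.ble 1047 i)
noncomputable def s1128_1130 (i sh : Nat) : Nat := Bool.rec (Nat.shiftRight leaf1128 sh) (Nat.shiftRight leaf1129 sh) (Nat.ble 1129 i)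
noncomputable def s1131_1133 (i sh : Nat) : Nat := Bool.rec (Nat.shiftRight leaf1131 sh) (Nat.shiftRight leaf1132 sh) (Nat.ble 1132 i)
noncomputable def s1130_1133 (i sh : Nat) : Nat := Bool.rec (Nat.shiftRight leaf1130 sh) (s1131_1133 i sh) (Nat.ble 1131 i)
noncomputable def s1128_1133 (i sh : Nat) : Nat := Bool.rec (s1128_1130 i sh) (s1130_1133 i sh) (Nat.ble 1130 i)
noncomputable def s1133_1135 (i sh : Nat) : Nat := Bool.rec (Nat.shiftRight leaf1133 sh) (Nat.shiftRight leaf1134 sh) (Nat.ble 1134 i)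
noncomputable def s1136_1138 (i sh : Nat) : Nat := Bool.rec (Nat.shiftRight leaf1136 sh) (Nat.shiftRight leaf1137 sh) (Nat.ble 1137 i)
noncomputable def s1135_1138 (i sh : Nat) : Nat := Bool.rec (Nat.shiftRight leaf1135 sh) (s1136_1138 i sh) (Nat.ble 1136 i)
noncomputable def s1133_1138 (i sh : Nat) : Nat := Bool.rec (s1133_1135 i sh) (s1135_1138 i sh) (Nat.ble 1135 i)
noncomputable def s1128_1138 (i sh : Nat) : Nat := Bool.rec (s1128_1133 i sh) (s1133_1138 i sh) (Nat.ble 1133 i)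
noncomputable def s1138_1140 (i sh : Nat) : Nat := Bool.rec (Nat.shiftRight leaf1138 sh) (Nat.shiftRight leaf1139 sh) (Nat.ble 1139 i)
noncomputable def s1141_1143 (i sh : Nat) : Nat := Bool.rec (Nat.shiftRight leaf1141 sh) (Nat.shiftRight leaf1142 sh) (Nat.ble 1142 i)
noncomputable def s1140_1143 (i sh : Nat) : Nat := Bool.rec (Nat.shiftRight leaf1140 sh) (s1141_1143 i sh) (Nat.ble 1141 i)
noncomputable def s1138_1143 (i sh : Nat) : Nat := Bool.rec (s1138_1140 i sh) (s1140_1143 i sh) (Nat.ble 1140 i)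
noncomputable def s1143_1145 (i sh : Nat) : Nat := Bool.rec (Nat.shiftRight leaf1143 sh) (Nat.shiftRight leaf1144 sh) (Nat.ble 1144 i)
noncomputable def s1146_1148 (i sh : Nat) : Nat := Bool.rec (Nat.shiftRight leaf1146 sh) (Nat.shiftRight leaf1147 sh) (Nat.ble 1147 i)
noncomputable def s1145_1148 (i sh : Nat) : Nat := Bool.rec (Nat.shiftRight leaf1145 sh) (s1146_1148 i sh) (Nat.ble 1146 i)
noncomputable def s1143_1148 (i sh : Nat) : Nat := Bool.rec (s1143_1145 i sh) (s1145_1148 i sh) (Nat.ble 1145 i)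
noncomputable def s1138_1148 (i sh : Nat) : Nat := Bool.rec (s1138_1143 i sh) (s1143_1148 i sh) (Nat.ble 1143 i)
noncomputable def s1128_1148 (i sh : Nat) : Nat := Bool.rec (s1128_1138 i sh) (s1138_1148 i sh) (Nat.ble 1138 i)
noncomputable def s1148_1150 (i sh : Nat) : Nat := Bool.rec (Nat.shiftRight leaf1148 sh) (Nat.shiftRight leaf1149 sh) (Nat.ble 1149 i)
noncomputable def s1151_1153 (i sh : Nat) : Nat := Bool.rec (Nat.shiftRight leaf1151 sh) (Nat.shiftRight leaf1152 sh) (Nat.ble 1152 i)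
noncomputable def s1150_1153 (i sh : Nat) : Nat := Bool.rec (Nat.shiftRight leaf1150 sh) (s1151_1153 i sh) (Nat.ble 1151 i)
noncomputable def s1148_1153 (i sh : Nat) : Nat := Bool.rec (s1148_1150 i sh) (s1150_1153 i sh) (Nat.ble 1150 i)
noncomputable def s1153_1155 (i sh : Nat) : Nat := Bool.rec (Nat.shiftRight leaf1153 sh) (Nat.shiftRight leaf1154 sh) (Nat.ble 1154 i)
noncomputable def s1156_1158 (i sh : Nat) : Nat := Bool.rec (Nat.shiftRight leaf1156 sh) (Nat.shiftRight leaf1157 sh) (Nat.ble 1157 i)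
noncomputable def s1155_1158 (i sh : Nat) : Nat := Bool.rec (Nat.shiftRight leaf1155 sh) (s1156_1158 i sh) (Nat.ble 1156 i)
noncomputable def s1153_1158 (i sh : Nat) : Nat := Bool.rec (s1153_1155 i sh) (s1155_1158 i sh) (Nat.ble 1155 i)
noncomputable def s1148_1158 (i sh : Nat) : Nat := Bool.rec (s1148_1153 i sh) (s1153_1158 i sh) (Nat.ble 1153 i)
noncomputable def s1158_1160 (i sh : Nat) : Nat := Bool.rec (Nat.shiftRight leaf1158 sh) (Nat.shiftRight leaf1159 sh) (Nat.ble 1159 i)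
noncomputable def s1161_1163 (i sh : Nat) : Nat := Bool.rec (Nat.shiftRight leaf1161 sh) (Nat.shiftRight leaf1162 sh) (Nat.ble 1162 i)
noncomputable def s1160_1163 (i sh : Nat) : Nat := Bool.rec (Nat.shiftRight leaf1160 sh) (s1161_1163 i sh) (Nat.ble 1161 i)
noncomputable def s1158_1163 (i sh : Nat) : Nat := Bool.rec (s1158_1160 i sh) (s1160_1163 i sh) (Nat.ble 1160 i)
noncomputable def s1163_1165 (i sh : Nat) : Nat := Bool.rec (Nat.shiftRight leaf1163 sh) (Nat.shiftRight leaf1164 sh) (Nat.ble 1164 i)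
noncomputable def s1166_1168 (i sh : Nat) : Nat := Bool.rec (Nat.shiftRight leaf1166 sh) (Nat.shiftRight leaf1167 sh) (Nat.ble 1167 i)
noncomputable def s1165_1168 (i sh : Nat) : Nat := Bool.rec (Nat.shiftRight leaf1165 sh) (s1166_1168 i sh) (Nat.ble 1166 i)
noncomputable def s1163_1168 (i sh : Nat) : Nat := Bool.rec (s1163_1165 i sh) (s1165_1168 i sh) (Nat.ble 1165 i)
noncomputable def s1158_1168 (i sh : Nat) : Nat := Bool.rec (s1158_1163 i sh) (s1163_1168 i sh) (Nat.ble 1163 i)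
noncomputable def s1148_1168 (i sh : Nat) : Nat := Bool.rec (s1148_1158 i sh) (s1158_1168 i sh) (Nat.ble 1158 i)
noncomputable def s1128_1168 (i sh : Nat) : Nat := Bool.rec (s1128_1148 i sh) (s1148_1168 i sh) (Nat.ble 1148 i)
noncomputable def s1168_1170 (i sh : Nat) : Nat := Bool.rec (Nat.shiftRight leaf1168 sh) (Nat.shiftRight leaf1169 sh) (Nat.ble 1169 i)
noncomputable def s1171_1173 (i sh : Nat) : Nat := Bool.rec (Nat.shiftRight leaf1171 sh) (Nat.shiftRight leaf1172 sh) (Nat.ble 1172 i)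
noncomputable def s1170_1173 (i sh : Nat) : Nat := Bool.rec (Nat.shiftRight leaf1170 sh) (s1171_1173 i sh) (Nat.ble 1171 i)
noncomputable def s1168_1173 (i sh : Nat) : Nat := Bool.rec (s1168_1170 i sh) (s1170_1173 i sh) (Nat.ble 1170 i)
noncomputable def s1173_1175 (i sh : Nat) : Nat := Bool.rec (Nat.shiftRight leaf1173 sh) (Nat.shiftRight leaf1174 sh) (Nat.ble 1174 i)
noncomputable def s1176_1178 (i sh : Nat) : Nat := Bool.rec (Nat.shiftRight leaf1176 sh) (Nat.shiftRight leaf1177 sh) (Nat.ble 1177 i)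
noncomputable def s1175_1178 (i sh : Nat) : Nat := Bool.rec (Nat.shiftRight leaf1175 sh) (s1176_1178 i sh) (Nat.ble 1176 i)
noncomputable def s1173_1178 (i sh : Nat) : Nat := Bool.rec (s1173_1175 i sh) (s1175_1178 i sh) (Nat.ble 1175 i)
noncomputable def s1168_1178 (i sh : Nat) : Nat := Bool.rec (s1168_1173 i sh) (s1173_1178 i sh) (Nat.ble 1173 i)
noncomputable def s1178_1180 (i sh : Nat) : Nat := Bool.rec (Nat.shiftRight leaf1178 sh) (Nat.shiftRight leaf1179 sh) (Nat.ble 1179 i)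
noncomputable def s1181_1183 (i sh : Nat) : Nat := Bool.rec (Nat.shiftRight leaf1181 sh) (Nat.shiftRight leaf1182 sh) (Nat.ble 1182 i)
noncomputable def s1180_1183 (i sh : Nat) : Nat := Bool.rec (Nat.shiftRight leaf1180 sh) (s1181_1183 i sh) (Nat.ble 1181 i)
noncomputable def s1178_1183 (i sh : Nat) : Nat := Bool.rec (s1178_1180 i sh) (s1180_1183 i sh) (Nat.ble 1180 i)
noncomputable def s1183_1185 (i sh : Nat) : Nat := Bool.rec (Nat.shiftRight leaf1183 sh) (Nat.shiftRight leaf1184 sh) (Nat.ble 1184 i)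
noncomputable def s1186_1188 (i sh : Nat) : Nat := Bool.rec (Nat.shiftRight leaf1186 sh) (Nat.shiftRight leaf1187 sh) (Nat.ble 1187 i)
noncomputable def s1185_1188 (i sh : Nat) : Nat := Bool.rec (Nat.shiftRight leaf1185 sh) (s1186_1188 i sh) (Nat.ble 1186 i)
noncomputable def s1183_1188 (i sh : Nat) : Nat := Bool.rec (s1183_1185 i sh) (s1185_1188 i sh) (Nat.ble 1185 i)
noncomputable def s1178_1188 (i sh : Nat) : Nat := Bool.rec (s1178_1183 i sh) (s1183_1188 i sh) (Nat.ble 1183 i)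
noncomputable def s1168_1188 (i sh : Nat) : Nat := Bool.rec (s1168_1178 i sh) (s1178_1188 i sh) (Nat.ble 1178 i)
noncomputable def s1188_1190 (i sh : Nat) : Nat := Bool.rec (Nat.shiftRight leaf1188 sh) (Nat.shiftRight leaf1189 sh) (Nat.ble 1189 i)
noncomputable def s1191_1193 (i sh : Nat) : Nat := Bool.rec (Nat.shiftRight leaf1191 sh) (Nat.shiftRight leaf1192 sh) (Nat.ble 1192 i)
noncomputable def s1190_1193 (i sh : Nat) : Nat := Bool.rec (Nat.shiftRight leaf1190 sh) (s1191_1193 i sh) (Nat.ble 1191 i)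
noncomputable def s1188_1193 (i sh : Nat) : Nat := Bool.rec (s1188_1190 i sh) (s1190_1193 i sh) (Nat.ble 1190 i)
noncomputable def s1193_1195 (i sh : Nat) : Nat := Bool.rec (Nat.shiftRight leaf1193 sh) (Nat.shiftRight leaf1194 sh) (Nat.ble 1194 i)
noncomputable def s1196_1198 (i sh : Nat) : Nat := Bool.rec (Nat.shiftRight leaf1196 sh) (Nat.shiftRight leaf1197 sh) (Nat.ble 1197 i)
noncomputable def s1195_1198 (i sh : Nat) : Nat := Bool.rec (Nat.shiftRight leaf1195 sh) (s1196_1198 i sh) (Nat.ble 1196 i)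
noncomputable def s1193_1198 (i sh : Nat) : Nat := Bool.rec (s1193_1195 i sh) (s1195_1198 i sh) (Nat.ble 1195 i)
noncomputable def s1188_1198 (i sh : Nat) : Nat := Bool.rec (s1188_1193 i sh) (s1193_1198 i sh) (Nat.ble 1193 i)
noncomputable def s1198_1200 (i sh : Nat) : Nat := Bool.rec (Nat.shiftRight leaf1198 sh) (Nat.shiftRight leaf1199 sh) (Nat.ble 1199 i)
noncomputable def s1201_1203 (i sh : Nat) : Nat := Bool.rec (Nat.shiftRight leaf1201 sh) (Nat.shiftRight leaf1202 sh) (Nat.ble 1202 i)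
noncomputable def s1200_1203 (i sh : Nat) : Nat := Bool.rec (Nat.shiftRight leaf1200 sh) (s1201_1203 i sh) (Nat.ble 1201 i)
noncomputable def s1198_1203 (i sh : Nat) : Nat := Bool.rec (s1198_1200 i sh) (s1200_1203 i sh) (Nat.ble 1200 i)
noncomputable def s1204_1206 (i sh : Nat) : Nat := Bool.rec (Nat.shiftRight leaf1204 sh) (Nat.shiftRight leaf1205 sh) (Nat.ble 1205 i)
noncomputable def s1203_1206 (i sh : Nat) : Nat := Bool.rec (Nat.shiftRight leaf1203 sh) (s1204_1206 i sh) (Nat.ble 1204 i)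
noncomputable def s1207_1209 (i sh : Nat) : Nat := Bool.rec (Nat.shiftRight leaf1207 sh) (Nat.shiftRight leaf1208 sh) (Nat.ble 1208 i)
noncomputable def s1206_1209 (i sh : Nat) : Nat := Bool.rec (Nat.shiftRight leaf1206 sh) (s1207_1209 i sh) (Nat.ble 1207 i)
noncomputable def s1203_1209 (i sh : Nat) : Nat := Bool.rec (s1203_1206 i sh) (s1206_1209 i sh) (Nat.ble 1206 i)
noncomputable def s1198_1209 (i sh : Nat) : Nat := Bool.rec (s1198_1203 i sh) (s1203_1209 i sh) (Nat.ble 1203 i)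
noncomputable def s1188_1209 (i sh : Nat) : Nat := Bool.rec (s1188_1198 i sh) (s1198_1209 i sh) (Nat.ble 1198 i)
noncomputable def s1168_1209 (i sh : Nat) : Nat := Bool.rec (s1168_1188 i sh) (s1188_1209 i sh) (Nat.ble 1188 i)
noncomputable def s1128_1209 (i sh : Nat) : Nat := Bool.rec (s1128_1168 i sh) (s1168_1209 i sh) (Nat.ble 1168 i)
noncomputable def s1209_1211 (i sh : Nat) : Nat := Bool.rec (Nat.shiftRight leaf1209 sh) (Nat.shiftRight leaf1210 sh) (Nat.ble 1210 i)
noncomputable def s1212_1214 (i sh : Nat) : Nat := Bool.rec (Nat.shiftRight leaf1212 sh) (Nat.shiftRight leaf1213 sh) (Nat.ble 1213 i)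
noncomputable def s1211_1214 (i sh : Nat) : Nat := Bool.rec (Nat.shiftRight leaf1211 sh) (s1212_1214 i sh) (Nat.ble 1212 i)
noncomputable def s1209_1214 (i sh : Nat) : Nat := Bool.rec (s1209_1211 i sh) (s1211_1214 i sh) (Nat.ble 1211 i)
noncomputable def s1214_1216 (i sh : Nat) : Nat := Bool.rec (Nat.shiftRight leaf1214 sh) (Nat.shiftRight leaf1215 sh) (Nat.ble 1215 i)
noncomputable def s1217_1219 (i sh : Nat) : Nat := Bool.rec (Nat.shiftRight leaf1217 sh) (Nat.shiftRight leaf1218 sh) (Nat.ble 1218 i)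
noncomputable def s1216_1219 (i sh : Nat) : Nat := Bool.rec (Nat.shiftRight leaf1216 sh) (s1217_1219 i sh) (Nat.ble 1217 i)
noncomputable def s1214_1219 (i sh : Nat) : Nat := Bool.rec (s1214_1216 i sh) (s1216_1219 i sh) (Nat.ble 1216 i)
noncomputable def s1209_1219 (i sh : Nat) : Nat := Bool.rec (s1209_1214 i sh) (s1214_1219 i sh) (Nat.ble 1214 i)
noncomputable def s1219_1221 (i sh : Nat) : Nat := Bool.rec (Nat.shiftRight leaf1219 sh) (Nat.shiftRight leaf1220 sh) (Nat.ble 1220 i)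
noncomputable def s1222_1224 (i sh : Nat) : Nat := Bool.rec (Nat.shiftRight leaf1222 sh) (Nat.shiftRight leaf1223 sh) (Nat.ble 1223 i)
noncomputable def s1221_1224 (i sh : Nat) : Nat := Bool.rec (Nat.shiftRight leaf1221 sh) (s1222_1224 i sh) (Nat.ble 1222 i)
noncomputable def s1219_1224 (i sh : Nat) : Nat := Bool.rec (s1219_1221 i sh) (s1221_1224 i sh) (Nat.ble 1221 i)
noncomputable def s1224_1226 (i sh : Nat) : Nat := Bool.rec (Nat.shiftRight leaf1224 sh) (Nat.shiftRight leaf1225 sh) (Nat.ble 1225 i)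
noncomputable def s1227_1229 (i sh : Nat) : Nat := Bool.rec (Nat.shiftRight leaf1227 sh) (Nat.shiftRight leaf1228 sh) (Nat.ble 1228 i)
noncomputable def s1226_1229 (i sh : Nat) : Nat := Bool.rec (Nat.shiftRight leaf1226 sh) (s1227_1229 i sh) (Nat.ble 1227 i)
noncomputable def s1224_1229 (i sh : Nat) : Nat := Bool.rec (s1224_1226 i sh) (s1226_1229 i sh) (Nat.ble 1226 i)
noncomputable def s1219_1229 (i sh : Nat) : Nat := Bool.rec (s1219_1224 i sh) (s1224_1229 i sh) (Nat.ble 1224 i)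
noncomputable def s1209_1229 (i sh : Nat) : Nat := Bool.rec (s1209_1219 i sh) (s1219_1229 i sh) (Nat.ble 1219 i)
noncomputable def s1229_1231 (i sh : Nat) : Nat := Bool.rec (Nat.shiftRight leaf1229 sh) (Nat.shiftRight leaf1230 sh) (Nat.ble 1230 i)
noncomputable def s1232_1234 (i sh : Nat) : Nat := Bool.rec (Nat.shiftRight leaf1232 sh) (Nat.shiftRight leaf1233 sh) (Nat.ble 1233 i)
noncomputable def s1231_1234 (i sh : Nat) : Nat := Bool.rec (Nat.shiftRight leaf1231 sh) (s1232_1234 i sh) (Nat.ble 1232 i)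
noncomputable def s1229_1234 (i sh : Nat) : Nat := Bool.rec (s1229_1231 i sh) (s1231_1234 i sh) (Nat.ble 1231 i)
noncomputable def s1234_1236 (i sh : Nat) : Nat := Bool.rec (Nat.shiftRight leaf1234 sh) (Nat.shiftRight leaf1235 sh) (Nat.ble 1235 i)
noncomputable def s1237_1239 (i sh : Nat) : Nat := Bool.rec (Nat.shiftRight leaf1237 sh) (Nat.shiftRight leaf1238 sh) (Nat.ble 1238 i)
noncomputable def s1236_1239 (i sh : Nat) : Nat := Bool.rec (Nat.shiftRight leaf1236 sh) (s1237_1239 i sh) (Nat.ble 1237 i)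
noncomputable def s1234_1239 (i sh : Nat) : Nat := Bool.rec (s1234_1236 i sh) (s1236_1239 i sh) (Nat.ble 1236 i)
noncomputable def s1229_1239 (i sh : Nat) : Nat := Bool.rec (s1229_1234 i sh) (s1234_1239 i sh) (Nat.ble 1234 i)
noncomputable def s1239_1241 (i sh : Nat) : Nat := Bool.rec (Nat.shiftRight leaf1239 sh) (Nat.shiftRight leaf1240 sh) (Nat.ble 1240 i)
noncomputable def s1242_1244 (i sh : Nat) : Nat := Bool.rec (Nat.shiftRight leaf1242 sh) (Nat.shiftRight leaf1243 sh) (Nat.ble 1243 i)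
noncomputable def s1241_1244 (i sh : Nat) : Nat := Bool.rec (Nat.shiftRight leaf1241 sh) (s1242_1244 i sh) (Nat.ble 1242 i)
noncomputable def s1239_1244 (i sh : Nat) : Nat := Bool.rec (s1239_1241 i sh) (s1241_1244 i sh) (Nat.ble 1241 i)
noncomputable def s1244_1246 (i sh : Nat) : Nat := Bool.rec (Nat.shiftRight leaf1244 sh) (Nat.shiftRight leaf1245 sh) (Nat.ble 1245 i)
noncomputable def s1247_1249 (i sh : Nat) : Nat := Bool.rec (Nat.shiftRight leaf1247 sh) (Nat.shiftRight leaf1248 sh) (Nat.ble 1248 i)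
noncomputable def s1246_1249 (i sh : Nat) : Nat := Bool.rec (Nat.shiftRight leaf1246 sh) (s1247_1249 i sh) (Nat.ble 1247 i)
noncomputable def s1244_1249 (i sh : Nat) : Nat := Bool.rec (s1244_1246 i sh) (s1246_1249 i sh) (Nat.ble 1246 i)
noncomputable def s1239_1249 (i sh : Nat) : Nat := Bool.rec (s1239_1244 i sh) (s1244_1249 i sh) (Nat.ble 1244 i)
noncomputable def s1229_1249 (i sh : Nat) : Nat := Bool.rec (s1229_1239 i sh) (s1239_1249 i sh) (Nat.ble 1239 i)
noncomputable def s1209_1249 (i sh : Nat) : Nat := Bool.rec (s1209_1229 i sh) (s1229_1249 i sh) (Nat.ble 1229 i)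
noncomputable def s1249_1251 (i sh : Nat) : Nat := Bool.rec (Nat.shiftRight leaf1249 sh) (Nat.shiftRight leaf1250 sh) (Nat.ble 1250 i)
noncomputable def s1252_1254 (i sh : Nat) : Nat := Bool.rec (Nat.shiftRight leaf1252 sh) (Nat.shiftRight leaf1253 sh) (Nat.ble 1253 i)
noncomputable def s1251_1254 (i sh : Nat) : Nat := Bool.rec (Nat.shiftRight leaf1251 sh) (s1252_1254 i sh) (Nat.ble 1252 i)
noncomputable def s1249_1254 (i sh : Nat) : Nat := Bool.rec (s1249_1251 i sh) (s1251_1254 i sh) (Nat.ble 1251 i)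
noncomputable def s1254_1256 (i sh : Nat) : Nat := Bool.rec (Nat.shiftRight leaf1254 sh) (Nat.shiftRight leaf1255 sh) (Nat.ble 1255 i)
noncomputable def s1257_1259 (i sh : Nat) : Nat := Bool.rec (Nat.shiftRight leaf1257 sh) (Nat.shiftRight leaf1258 sh) (Nat.ble 1258 i)
noncomputable def s1256_1259 (i sh : Nat) : Nat := Bool.rec (Nat.shiftRight leaf1256 sh) (s1257_1259 i sh) (Nat.ble 1257 i)
noncomputable def s1254_1259 (i sh : Nat) : Nat := Bool.rec (s1254_1256 i sh) (s1256_1259 i sh) (Nat.ble 1256 i)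
noncomputable def s1249_1259 (i sh : Nat) : Nat := Bool.rec (s1249_1254 i sh) (s1254_1259 i sh) (Nat.ble 1254 i)
noncomputable def s1259_1261 (i sh : Nat) : Nat := Bool.rec (Nat.shiftRight leaf1259 sh) (Nat.shiftRight leaf1260 sh) (Nat.ble 1260 i)
noncomputable def s1262_1264 (i sh : Nat) : Nat := Bool.rec (Nat.shiftRight leaf1262 sh) (Nat.shiftRight leaf1263 sh) (Nat.ble 1263 i)
noncomputable def s1261_1264 (i sh : Nat) : Nat := Bool.rec (Nat.shiftRight leaf1261 sh) (s1262_1264 i sh) (Nat.ble 1262 i)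
noncomputable def s1259_1264 (i sh : Nat) : Nat := Bool.rec (s1259_1261 i sh) (s1261_1264 i sh) (Nat.ble 1261 i)
noncomputable def s1264_1266 (i sh : Nat) : Nat := Bool.rec (Nat.shiftRight leaf1264 sh) (Nat.shiftRight leaf1265 sh) (Nat.ble 1265 i)
noncomputable def s1267_1269 (i sh : Nat) : Nat := Bool.rec (Nat.shiftRight leaf1267 sh) (Nat.shiftRight leaf1268 sh) (Nat.ble 1268 i)
noncomputable def s1266_1269 (i sh : Nat) : Nat := Bool.rec (Nat.shiftRight leaf1266 sh) (s1267_1269 i sh) (Nat.ble 1267 i)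
noncomputable def s1264_1269 (i sh : Nat) : Nat := Bool.rec (s1264_1266 i sh) (s1266_1269 i sh) (Nat.ble 1266 i)
noncomputable def s1259_1269 (i sh : Nat) : Nat := Bool.rec (s1259_1264 i sh) (s1264_1269 i sh) (Nat.ble 1264 i)
noncomputable def s1249_1269 (i sh : Nat) : Nat := Bool.rec (s1249_1259 i sh) (s1259_1269 i sh) (Nat.ble 1259 i)
noncomputable def s1269_1271 (i sh : Nat) : Nat := Bool.rec (Nat.shiftRight leaf1269 sh) (Nat.shiftRight leaf1270 sh) (Nat.ble 1270 i)
noncomputable def s1272_1274 (i sh : Nat) : Nat := Bool.rec (Nat.shiftRight leaf1272 sh) (Nat.shiftRight leaf1273 sh) (Nat.ble 1273 i)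
noncomputable def s1271_1274 (i sh : Nat) : Nat := Bool.rec (Nat.shiftRight leaf1271 sh) (s1272_1274 i sh) (Nat.ble 1272 i)
noncomputable def s1269_1274 (i sh : Nat) : Nat := Bool.rec (s1269_1271 i sh) (s1271_1274 i sh) (Nat.ble 1271 i)
noncomputable def s1274_1276 (i sh : Nat) : Nat := Bool.rec (Nat.shiftRight leaf1274 sh) (Nat.shiftRight leaf1275 sh) (Nat.ble 1275 i)
noncomputable def s1277_1279 (i sh : Nat) : Nat := Bool.rec (Nat.shiftRight leaf1277 sh) (Nat.shiftRight leaf1278 sh) (Nat.ble 1278 i)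
noncomputable def s1276_1279 (i sh : Nat) : Nat := Bool.rec (Nat.shiftRight leaf1276 sh) (s1277_1279 i sh) (Nat.ble 1277 i)
noncomputable def s1274_1279 (i sh : Nat) : Nat := Bool.rec (s1274_1276 i sh) (s1276_1279 i sh) (Nat.ble 1276 i)
noncomputable def s1269_1279 (i sh : Nat) : Nat := Bool.rec (s1269_1274 i sh) (s1274_1279 i sh) (Nat.ble 1274 i)
noncomputable def s1279_1281 (i sh : Nat) : Nat := Bool.rec (Nat.shiftRight leaf1279 sh) (Nat.shiftRight leaf1280 sh) (Nat.ble 1280 i)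
noncomputable def s1282_1284 (i sh : Nat) : Nat := Bool.rec (Nat.shiftRight leaf1282 sh) (Nat.shiftRight leaf1283 sh) (Nat.ble 1283 i)
noncomputable def s1281_1284 (i sh : Nat) : Nat := Bool.rec (Nat.shiftRight leaf1281 sh) (s1282_1284 i sh) (Nat.ble 1282 i)
noncomputable def s1279_1284 (i sh : Nat) : Nat := Bool.rec (s1279_1281 i sh) (s1281_1284 i sh) (Nat.ble 1281 i)
noncomputable def s1285_1287 (i sh : Nat) : Nat := Bool.rec (Nat.shiftRight leaf1285 sh) (Nat.shiftRight leaf1286 sh) (Nat.ble 1286 i)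
noncomputable def s1284_1287 (i sh : Nat) : Nat := Bool.rec (Nat.shiftRight leaf1284 sh) (s1285_1287 i sh) (Nat.ble 1285 i)
noncomputable def s1288_1290 (i sh : Nat) : Nat := Bool.rec (Nat.shiftRight leaf1288 sh) (Nat.shiftRight leaf1289 sh) (Nat.ble 1289 i)
noncomputable def s1287_1290 (i sh : Nat) : Nat := Bool.rec (Nat.shiftRight leaf1287 sh) (s1288_1290 i sh) (Nat.ble 1288 i)
noncomputable def s1284_1290 (i sh : Nat) : Nat := Bool.rec (s1284_1287 i sh) (s1287_1290 i sh) (Nat.ble 1287 i)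
noncomputable def s1279_1290 (i sh : Nat) : Nat := Bool.rec (s1279_1284 i sh) (s1284_1290 i sh) (Nat.ble 1284 i)
noncomputable def s1269_1290 (i sh : Nat) : Nat := Bool.rec (s1269_1279 i sh) (s1279_1290 i sh) (Nat.ble 1279 i)
noncomputable def s1249_1290 (i sh : Nat) : Nat := Bool.rec (s1249_1269 i sh) (s1269_1290 i sh) (Nat.ble 1269 i)
noncomputable def s1209_1290 (i sh : Nat) : Nat := Bool.rec (s1209_1249 i sh) (s1249_1290 i sh) (Nat.ble 1249 i)
noncomputable def s1128_1290 (i sh : Nat) : Nat := Bool.rec (s1128_1209 i sh) (s1209_1290 i sh) (Nat.ble 1209 i)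
noncomputable def s967_1290 (i sh : Nat) : Nat := Bool.rec (s967_1128 i sh) (s1128_1290 i sh) (Nat.ble 1128 i)
noncomputable def s645_1290 (i sh : Nat) : Nat := Bool.rec (s645_967 i sh) (s967_1290 i sh) (Nat.ble 967 i)
noncomputable def s0_1290 (i sh : Nat) : Nat := Bool.rec (s0_645 i sh) (s645_1290 i sh) (Nat.ble 645 i)
noncomputable def s1290_1292 (i sh : Nat) : Nat := Bool.rec (Nat.shiftRight leaf1290 sh) (Nat.shiftRight leaf1291 sh) (Nat.ble 1291 i)
noncomputable def s1293_1295 (i sh : Nat) : Nat := Bool.rec (Nat.shiftRight leaf1293 sh) (Nat.shiftRight leaf1294 sh) (Nat.ble 1294 i)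
noncomputable def s1292_1295 (i sh : Nat) : Nat := Bool.rec (Nat.shiftRight leaf1292 sh) (s1293_1295 i sh) (Nat.ble 1293 i)
noncomputable def s1290_1295 (i sh : Nat) : Nat := Bool.rec (s1290_1292 i sh) (s1292_1295 i sh) (Nat.ble 1292 i)
noncomputable def s1295_1297 (i sh : Nat) : Nat := Bool.rec (Nat.shiftRight leaf1295 sh) (Nat.shiftRight leaf1296 sh) (Nat.ble 1296 i)
noncomputable def s1298_1300 (i sh : Nat) : Nat := Bool.rec (Nat.shiftRight leaf1298 sh) (Nat.shiftRight leaf1299 sh) (Nat.ble 1299 i)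
noncomputable def s1297_1300 (i sh : Nat) : Nat := Bool.rec (Nat.shiftRight leaf1297 sh) (s1298_1300 i sh) (Nat.ble 1298 i)
noncomputable def s1295_1300 (i sh : Nat) : Nat := Bool.rec (s1295_1297 i sh) (s1297_1300 i sh) (Nat.ble 1297 i)
noncomputable def s1290_1300 (i sh : Nat) : Nat := Bool.rec (s1290_1295 i sh) (s1295_1300 i sh) (Nat.ble 1295 i)
noncomputable def s1300_1302 (i sh : Nat) : Nat := Bool.rec (Nat.shiftRight leaf1300 sh) (Nat.shiftRight leaf1301 sh) (Nat.ble 1301 i)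
noncomputable def s1303_1305 (i sh : Nat) : Nat := Bool.rec (Nat.shiftRight leaf1303 sh) (Nat.shiftRight leaf1304 sh) (Nat.ble 1304 i)
noncomputable def s1302_1305 (i sh : Nat) : Nat := Bool.rec (Nat.shiftRight leaf1302 sh) (s1303_1305 i sh) (Nat.ble 1303 i)
noncomputable def s1300_1305 (i sh : Nat) : Nat := Bool.rec (s1300_1302 i sh) (s1302_1305 i sh) (Nat.ble 1302 i)
noncomputable def s1305_1307 (i sh : Nat) : Nat := Bool.rec (Nat.shiftRight leaf1305 sh) (Nat.shiftRight leaf1306 sh) (Nat.ble 1306 i)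
noncomputable def s1308_1310 (i sh : Nat) : Nat := Bool.rec (Nat.shiftRight leaf1308 sh) (Nat.shiftRight leaf1309 sh) (Nat.ble 1309 i)
noncomputable def s1307_1310 (i sh : Nat) : Nat := Bool.rec (Nat.shiftRight leaf1307 sh) (s1308_1310 i sh) (Nat.ble 1308 i)
noncomputable def s1305_1310 (i sh : Nat) : Nat := Bool.rec (s1305_1307 i sh) (s1307_1310 i sh) (Nat.ble 1307 i)
noncomputable def s1300_1310 (i sh : Nat) : Nat := Bool.rec (s1300_1305 i sh) (s1305_1310 i sh) (Nat.ble 1305 i)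
noncomputable def s1290_1310 (i sh : Nat) : Nat := Bool.rec (s1290_1300 i sh) (s1300_1310 i sh) (Nat.ble 1300 i)
noncomputable def s1310_1312 (i sh : Nat) : Nat := Bool.rec (Nat.shiftRight leaf1310 sh) (Nat.shiftRight leaf1311 sh) (Nat.ble 1311 i)
noncomputable def s1313_1315 (i sh : Nat) : Nat := Bool.rec (Nat.shiftRight leaf1313 sh) (Nat.shiftRight leaf1314 sh) (Nat.ble 1314 i)
noncomputable def s1312_1315 (i sh : Nat) : Nat := Bool.rec (Nat.shiftRight leaf1312 sh) (s1313_1315 i sh) (Nat.ble 1313 i)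
noncomputable def s1310_1315 (i sh : Nat) : Nat := Bool.rec (s1310_1312 i sh) (s1312_1315 i sh) (Nat.ble 1312 i)
noncomputable def s1315_1317 (i sh : Nat) : Nat := Bool.rec (Nat.shiftRight leaf1315 sh) (Nat.shiftRight leaf1316 sh) (Nat.ble 1316 i)
noncomputable def s1318_1320 (i sh : Nat) : Nat := Bool.rec (Nat.shiftRight leaf1318 sh) (Nat.shiftRight leaf1319 sh) (Nat.ble 1319 i)
noncomputable def s1317_1320 (i sh : Nat) : Nat := Bool.rec (Nat.shiftRight leaf1317 sh) (s1318_1320 i sh) (Nat.ble 1318 i)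
noncomputable def s1315_1320 (i sh : Nat) : Nat := Bool.rec (s1315_1317 i sh) (s1317_1320 i sh) (Nat.ble 1317 i)
noncomputable def s1310_1320 (i sh : Nat) : Nat := Bool.rec (s1310_1315 i sh) (s1315_1320 i sh) (Nat.ble 1315 i)
noncomputable def s1320_1322 (i sh : Nat) : Nat := Bool.rec (Nat.shiftRight leaf1320 sh) (Nat.shiftRight leaf1321 sh) (Nat.ble 1321 i)
noncomputable def s1323_1325 (i sh : Nat) : Nat := Bool.rec (Nat.shiftRight leaf1323 sh) (Nat.shiftRight leaf1324 sh) (Nat.ble 1324 i)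
noncomputable def s1322_1325 (i sh : Nat) : Nat := Bool.rec (Nat.shiftRight leaf1322 sh) (s1323_1325 i sh) (Nat.ble 1323 i)
noncomputable def s1320_1325 (i sh : Nat) : Nat := Bool.rec (s1320_1322 i sh) (s1322_1325 i sh) (Nat.ble 1322 i)
noncomputable def s1325_1327 (i sh : Nat) : Nat := Bool.rec (Nat.shiftRight leaf1325 sh) (Nat.shiftRight leaf1326 sh) (Nat.ble 1326 i)
noncomputable def s1328_1330 (i sh : Nat) : Nat := Bool.rec (Nat.shiftRight leaf1328 sh) (Nat.shiftRight leaf1329 sh) (Nat.ble 1329 i)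
noncomputable def s1327_1330 (i sh : Nat) : Nat := Bool.rec (Nat.shiftRight leaf1327 sh) (s1328_1330 i sh) (Nat.ble 1328 i)
noncomputable def s1325_1330 (i sh : Nat) : Nat := Bool.rec (s1325_1327 i sh) (s1327_1330 i sh) (Nat.ble 1327 i)
noncomputable def s1320_1330 (i sh : Nat) : Nat := Bool.rec (s1320_1325 i sh) (s1325_1330 i sh) (Nat.ble 1325 i)
noncomputable def s1310_1330 (i sh : Nat) : Nat := Bool.rec (s1310_1320 i sh) (s1320_1330 i sh) (Nat.ble 1320 i)
noncomputable def s1290_1330 (i sh : Nat) : Nat := Bool.rec (s1290_1310 i sh) (s1310_1330 i sh) (Nat.ble 1310 i)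
noncomputable def s1330_1332 (i sh : Nat) : Nat := Bool.rec (Nat.shiftRight leaf1330 sh) (Nat.shiftRight leaf1331 sh) (Nat.ble 1331 i)
noncomputable def s1333_1335 (i sh : Nat) : Nat := Bool.rec (Nat.shiftRight leaf1333 sh) (Nat.shiftRight leaf1334 sh) (Nat.ble 1334 i)
noncomputable def s1332_1335 (i sh : Nat) : Nat := Bool.rec (Nat.shiftRight leaf1332 sh) (s1333_1335 i sh) (Nat.ble 1333 i)
noncomputable def s1330_1335 (i sh : Nat) : Nat := Bool.rec (s1330_1332 i sh) (s1332_1335 i sh) (Nat.ble 1332 i)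
noncomputable def s1335_1337 (i sh : Nat) : Nat := Bool.rec (Nat.shiftRight leaf1335 sh) (Nat.shiftRight leaf1336 sh) (Nat.ble 1336 i)
noncomputable def s1338_1340 (i sh : Nat) : Nat := Bool.rec (Nat.shiftRight leaf1338 sh) (Nat.shiftRight leaf1339 sh) (Nat.ble 1339 i)
noncomputable def s1337_1340 (i sh : Nat) : Nat := Bool.rec (Nat.shiftRight leaf1337 sh) (s1338_1340 i sh) (Nat.ble 1338 i)
noncomputable def s1335_1340 (i sh : Nat) : Nat := Bool.rec (s1335_1337 i sh) (s1337_1340 i sh) (Nat.ble 1337 i)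
noncomputable def s1330_1340 (i sh : Nat) : Nat := Bool.rec (s1330_1335 i sh) (s1335_1340 i sh) (Nat.ble 1335 i)
noncomputable def s1340_1342 (i sh : Nat) : Nat := Bool.rec (Nat.shiftRight leaf1340 sh) (Nat.shiftRight leaf1341 sh) (Nat.ble 1341 i)
noncomputable def s1343_1345 (i sh : Nat) : Nat := Bool.rec (Nat.shiftRight leaf1343 sh) (Nat.shiftRight leaf1344 sh) (Nat.ble 1344 i)
noncomputable def s1342_1345 (i sh : Nat) : Nat := Bool.rec (Nat.shiftRight leaf1342 sh) (s1343_1345 i sh) (Nat.ble 1343 i)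
noncomputable def s1340_1345 (i sh : Nat) : Nat := Bool.rec (s1340_1342 i sh) (s1342_1345 i sh) (Nat.ble 1342 i)
noncomputable def s1345_1347 (i sh : Nat) : Nat := Bool.rec (Nat.shiftRight leaf1345 sh) (Nat.shiftRight leaf1346 sh) (Nat.ble 1346 i)
noncomputable def s1348_1350 (i sh : Nat) : Nat := Bool.rec (Nat.shiftRight leaf1348 sh) (Nat.shiftRight leaf1349 sh) (Nat.ble 1349 i)
noncomputable def s1347_1350 (i sh : Nat) : Nat := Bool.rec (Nat.shiftRight leaf1347 sh) (s1348_1350 i sh) (Nat.ble 1348 i)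
noncomputable def s1345_1350 (i sh : Nat) : Nat := Bool.rec (s1345_1347 i sh) (s1347_1350 i sh) (Nat.ble 1347 i)
noncomputable def s1340_1350 (i sh : Nat) : Nat := Bool.rec (s1340_1345 i sh) (s1345_1350 i sh) (Nat.ble 1345 i)
noncomputable def s1330_1350 (i sh : Nat) : Nat := Bool.rec (s1330_1340 i sh) (s1340_1350 i sh) (Nat.ble 1340 i)
noncomputable def s1350_1352 (i sh : Nat) : Nat := Bool.rec (Nat.shiftRight leaf1350 sh) (Nat.shiftRight leaf1351 sh) (Nat.ble 1351 i)
noncomputable def s1353_1355 (i sh : Nat) : Nat := Bool.rec (Nat.shiftRight leaf1353 sh) (Nat.shiftRight leaf1354 sh) (Nat.ble 1354 i)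
noncomputable def s1352_1355 (i sh : Nat) : Nat := Bool.rec (Nat.shiftRight leaf1352 sh) (s1353_1355 i sh) (Nat.ble 1353 i)
noncomputable def s1350_1355 (i sh : Nat) : Nat := Bool.rec (s1350_1352 i sh) (s1352_1355 i sh) (Nat.ble 1352 i)
noncomputable def s1355_1357 (i sh : Nat) : Nat := Bool.rec (Nat.shiftRight leaf1355 sh) (Nat.shiftRight leaf1356 sh) (Nat.ble 1356 i)
noncomputable def s1358_1360 (i sh : Nat) : Nat := Bool.rec (Nat.shiftRight leaf1358 sh) (Nat.shiftRight leaf1359 sh) (Nat.ble 1359 i)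
noncomputable def s1357_1360 (i sh : Nat) : Nat := Bool.rec (Nat.shiftRight leaf1357 sh) (s1358_1360 i sh) (Nat.ble 1358 i)
noncomputable def s1355_1360 (i sh : Nat) : Nat := Bool.rec (s1355_1357 i sh) (s1357_1360 i sh) (Nat.ble 1357 i)
noncomputable def s1350_1360 (i sh : Nat) : Nat := Bool.rec (s1350_1355 i sh) (s1355_1360 i sh) (Nat.ble 1355 i)
noncomputable def s1360_1362 (i sh : Nat) : Nat := Bool.rec (Nat.shiftRight leaf1360 sh) (Nat.shiftRight leaf1361 sh) (Nat.ble 1361 i)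
noncomputable def s1363_1365 (i sh : Nat) : Nat := Bool.rec (Nat.shiftRight leaf1363 sh) (Nat.shiftRight leaf1364 sh) (Nat.ble 1364 i)
noncomputable def s1362_1365 (i sh : Nat) : Nat := Bool.rec (Nat.shiftRight leaf1362 sh) (s1363_1365 i sh) (Nat.ble 1363 i)
noncomputable def s1360_1365 (i sh : Nat) : Nat := Bool.rec (s1360_1362 i sh) (s1362_1365 i sh) (Nat.ble 1362 i)
noncomputable def s1365_1367 (i sh : Nat) : Nat := Bool.rec (Nat.shiftRight leaf1365 sh) (Nat.shiftRight leaf1366 sh) (Nat.ble 1366 i)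
noncomputable def s1368_1370 (i sh : Nat) : Nat := Bool.rec (Nat.shiftRight leaf1368 sh) (Nat.shiftRight leaf1369 sh) (Nat.ble 1369 i)
noncomputable def s1367_1370 (i sh : Nat) : Nat := Bool.rec (Nat.shiftRight leaf1367 sh) (s1368_1370 i sh) (Nat.ble 1368 i)
noncomputable def s1365_1370 (i sh : Nat) : Nat := Bool.rec (s1365_1367 i sh) (s1367_1370 i sh) (Nat.ble 1367 i)
noncomputable def s1360_1370 (i sh : Nat) : Nat := Bool.rec (s1360_1365 i sh) (s1365_1370 i sh) (Nat.ble 1365 i)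
noncomputable def s1350_1370 (i sh : Nat) : Nat := Bool.rec (s1350_1360 i sh) (s1360_1370 i sh) (Nat.ble 1360 i)
noncomputable def s1330_1370 (i sh : Nat) : Nat := Bool.rec (s1330_1350 i sh) (s1350_1370 i sh) (Nat.ble 1350 i)
noncomputable def s1290_1370 (i sh : Nat) : Nat := Bool.rec (s1290_1330 i sh) (s1330_1370 i sh) (Nat.ble 1330 i)
noncomputable def s1370_1372 (i sh : Nat) : Nat := Bool.rec (Nat.shiftRight leaf1370 sh) (Nat.shiftRight leaf1371 sh) (Nat.ble 1371 i)
noncomputable def s1373_1375 (i sh : Nat) : Nat := Bool.rec (Nat.shiftRight leaf1373 sh) (Nat.shiftRight leaf1374 sh) (Nat.ble 1374 i)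
noncomputable def s1372_1375 (i sh : Nat) : Nat := Bool.rec (Nat.shiftRight leaf1372 sh) (s1373_1375 i sh) (Nat.ble 1373 i)
noncomputable def s1370_1375 (i sh : Nat) : Nat := Bool.rec (s1370_1372 i sh) (s1372_1375 i sh) (Nat.ble 1372 i)
noncomputable def s1375_1377 (i sh : Nat) : Nat := Bool.rec (Nat.shiftRight leaf1375 sh) (Nat.shiftRight leaf1376 sh) (Nat.ble 1376 i)
noncomputable def s1378_1380 (i sh : Nat) : Nat := Bool.rec (Nat.shiftRight leaf1378 sh) (Nat.shiftRight leaf1379 sh) (Nat.ble 1379 i)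
noncomputable def s1377_1380 (i sh : Nat) : Nat := Bool.rec (Nat.shiftRight leaf1377 sh) (s1378_1380 i sh) (Nat.ble 1378 i)
noncomputable def s1375_1380 (i sh : Nat) : Nat := Bool.rec (s1375_1377 i sh) (s1377_1380 i sh) (Nat.ble 1377 i)
noncomputable def s1370_1380 (i sh : Nat) : Nat := Bool.rec (s1370_1375 i sh) (s1375_1380 i sh) (Nat.ble 1375 i)
noncomputable def s1380_1382 (i sh : Nat) : Nat := Bool.rec (Nat.shiftRight leaf1380 sh) (Nat.shiftRight leaf1381 sh) (Nat.ble 1381 i)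
noncomputable def s1383_1385 (i sh : Nat) : Nat := Bool.rec (Nat.shiftRight leaf1383 sh) (Nat.shiftRight leaf1384 sh) (Nat.ble 1384 i)
noncomputable def s1382_1385 (i sh : Nat) : Nat := Bool.rec (Nat.shiftRight leaf1382 sh) (s1383_1385 i sh) (Nat.ble 1383 i)
noncomputable def s1380_1385 (i sh : Nat) : Nat := Bool.rec (s1380_1382 i sh) (s1382_1385 i sh) (Nat.ble 1382 i)
noncomputable def s1385_1387 (i sh : Nat) : Nat := Bool.rec (Nat.shiftRight leaf1385 sh) (Nat.shiftRight leaf1386 sh) (Nat.ble 1386 i)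
noncomputable def s1388_1390 (i sh : Nat) : Nat := Bool.rec (Nat.shiftRight leaf1388 sh) (Nat.shiftRight leaf1389 sh) (Nat.ble 1389 i)
noncomputable def s1387_1390 (i sh : Nat) : Nat := Bool.rec (Nat.shiftRight leaf1387 sh) (s1388_1390 i sh) (Nat.ble 1388 i)
noncomputable def s1385_1390 (i sh : Nat) : Nat := Bool.rec (s1385_1387 i sh) (s1387_1390 i sh) (Nat.ble 1387 i)
noncomputable def s1380_1390 (i sh : Nat) : Nat := Bool.rec (s1380_1385 i sh) (s1385_1390 i sh) (Nat.ble 1385 i)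
noncomputable def s1370_1390 (i sh : Nat) : Nat := Bool.rec (s1370_1380 i sh) (s1380_1390 i sh) (Nat.ble 1380 i)
noncomputable def s1390_1392 (i sh : Nat) : Nat := Bool.rec (Nat.shiftRight leaf1390 sh) (Nat.shiftRight leaf1391 sh) (Nat.ble 1391 i)
noncomputable def s1393_1395 (i sh : Nat) : Nat := Bool.rec (Nat.shiftRight leaf1393 sh) (Nat.shiftRight leaf1394 sh) (Nat.ble 1394 i)
noncomputable def s1392_1395 (i sh : Nat) : Nat := Bool.rec (Nat.shiftRight leaf1392 sh) (s1393_1395 i sh) (Nat.ble 1393 i)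
noncomputable def s1390_1395 (i sh : Nat) : Nat := Bool.rec (s1390_1392 i sh) (s1392_1395 i sh) (Nat.ble 1392 i)
noncomputable def s1395_1397 (i sh : Nat) : Nat := Bool.rec (Nat.shiftRight leaf1395 sh) (Nat.shiftRight leaf1396 sh) (Nat.ble 1396 i)
noncomputable def s1398_1400 (i sh : Nat) : Nat := Bool.rec (Nat.shiftRight leaf1398 sh) (Nat.shiftRight leaf1399 sh) (Nat.ble 1399 i)
noncomputable def s1397_1400 (i sh : Nat) : Nat := Bool.rec (Nat.shiftRight leaf1397 sh) (s1398_1400 i sh) (Nat.ble 1398 i)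
noncomputable def s1395_1400 (i sh : Nat) : Nat := Bool.rec (s1395_1397 i sh) (s1397_1400 i sh) (Nat.ble 1397 i)
noncomputable def s1390_1400 (i sh : Nat) : Nat := Bool.rec (s1390_1395 i sh) (s1395_1400 i sh) (Nat.ble 1395 i)
noncomputable def s1400_1402 (i sh : Nat) : Nat := Bool.rec (Nat.shiftRight leaf1400 sh) (Nat.shiftRight leaf1401 sh) (Nat.ble 1401 i)
noncomputable def s1403_1405 (i sh : Nat) : Nat := Bool.rec (Nat.shiftRight leaf1403 sh) (Nat.shiftRight leaf1404 sh) (Nat.ble 1404 i)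
noncomputable def s1402_1405 (i sh : Nat) : Nat := Bool.rec (Nat.shiftRight leaf1402 sh) (s1403_1405 i sh) (Nat.ble 1403 i)
noncomputable def s1400_1405 (i sh : Nat) : Nat := Bool.rec (s1400_1402 i sh) (s1402_1405 i sh) (Nat.ble 1402 i)
noncomputable def s1405_1407 (i sh : Nat) : Nat := Bool.rec (Nat.shiftRight leaf1405 sh) (Nat.shiftRight leaf1406 sh) (Nat.ble 1406 i)
noncomputable def s1408_1410 (i sh : Nat) : Nat := Bool.rec (Nat.shiftRight leaf1408 sh) (Nat.shiftRight leaf1409 sh) (Nat.ble 1409 i)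
noncomputable def s1407_1410 (i sh : Nat) : Nat := Bool.rec (Nat.shiftRight leaf1407 sh) (s1408_1410 i sh) (Nat.ble 1408 i)
noncomputable def s1405_1410 (i sh : Nat) : Nat := Bool.rec (s1405_1407 i sh) (s1407_1410 i sh) (Nat.ble 1407 i)
noncomputable def s1400_1410 (i sh : Nat) : Nat := Bool.rec (s1400_1405 i sh) (s1405_1410 i sh) (Nat.ble 1405 i)
noncomputable def s1390_1410 (i sh : Nat) : Nat := Bool.rec (s1390_1400 i sh) (s1400_1410 i sh) (Nat.ble 1400 i)
noncomputable def s1370_1410 (i sh : Nat) : Nat := Bool.rec (s1370_1390 i sh) (s1390_1410 i sh) (Nat.ble 1390 i)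
noncomputable def s1410_1412 (i sh : Nat) : Nat := Bool.rec (Nat.shiftRight leaf1410 sh) (Nat.shiftRight leaf1411 sh) (Nat.ble 1411 i)
noncomputable def s1413_1415 (i sh : Nat) : Nat := Bool.rec (Nat.shiftRight leaf1413 sh) (Nat.shiftRight leaf1414 sh) (Nat.ble 1414 i)
noncomputable def s1412_1415 (i sh : Nat) : Nat := Bool.rec (Nat.shiftRight leaf1412 sh) (s1413_1415 i sh) (Nat.ble 1413 i)
noncomputable def s1410_1415 (i sh : Nat) : Nat := Bool.rec (s1410_1412 i sh) (s1412_1415 i sh) (Nat.ble 1412 i)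
noncomputable def s1415_1417 (i sh : Nat) : Nat := Bool.rec (Nat.shiftRight leaf1415 sh) (Nat.shiftRight leaf1416 sh) (Nat.ble 1416 i)
noncomputable def s1418_1420 (i sh : Nat) : Nat := Bool.rec (Nat.shiftRight leaf1418 sh) (Nat.shiftRight leaf1419 sh) (Nat.ble 1419 i)
noncomputable def s1417_1420 (i sh : Nat) : Nat := Bool.rec (Nat.shiftRight leaf1417 sh) (s1418_1420 i sh) (Nat.ble 1418 i)
noncomputable def s1415_1420 (i sh : Nat) : Nat := Bool.rec (s1415_1417 i sh) (s1417_1420 i sh) (Nat.ble 1417 i)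
noncomputable def s1410_1420 (i sh : Nat) : Nat := Bool.rec (s1410_1415 i sh) (s1415_1420 i sh) (Nat.ble 1415 i)
noncomputable def s1420_1422 (i sh : Nat) : Nat := Bool.rec (Nat.shiftRight leaf1420 sh) (Nat.shiftRight leaf1421 sh) (Nat.ble 1421 i)
noncomputable def s1423_1425 (i sh : Nat) : Nat := Bool.rec (Nat.shiftRight leaf1423 sh) (Nat.shiftRight leaf1424 sh) (Nat.ble 1424 i)
noncomputable def s1422_1425 (i sh : Nat) : Nat := Bool.rec (Nat.shiftRight leaf1422 sh) (s1423_1425 i sh) (Nat.ble 1423 i)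
noncomputable def s1420_1425 (i sh : Nat) : Nat := Bool.rec (s1420_1422 i sh) (s1422_1425 i sh) (Nat.ble 1422 i)
noncomputable def s1425_1427 (i sh : Nat) : Nat := Bool.rec (Nat.shiftRight leaf1425 sh) (Nat.shiftRight leaf1426 sh) (Nat.ble 1426 i)
noncomputable def s1428_1430 (i sh : Nat) : Nat := Bool.rec (Nat.shiftRight leaf1428 sh) (Nat.shiftRight leaf1429 sh) (Nat.ble 1429 i)
noncomputable def s1427_1430 (i sh : Nat) : Nat := Bool.rec (Nat.shiftRight leaf1427 sh) (s1428_1430 i sh) (Nat.ble 1428 i)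
noncomputable def s1425_1430 (i sh : Nat) : Nat := Bool.rec (s1425_1427 i sh) (s1427_1430 i sh) (Nat.ble 1427 i)
noncomputable def s1420_1430 (i sh : Nat) : Nat := Bool.rec (s1420_1425 i sh) (s1425_1430 i sh) (Nat.ble 1425 i)
noncomputable def s1410_1430 (i sh : Nat) : Nat := Bool.rec (s1410_1420 i sh) (s1420_1430 i sh) (Nat.ble 1420 i)
noncomputable def s1430_1432 (i sh : Nat) : Nat := Bool.rec (Nat.shiftRight leaf1430 sh) (Nat.shiftRight leaf1431 sh) (Nat.ble 1431 i)
noncomputable def s1433_1435 (i sh : Nat) : Nat := Bool.rec (Nat.shiftRight leaf1433 sh) (Nat.shiftRight leaf1434 sh) (Nat.ble 1434 i)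
noncomputable def s1432_1435 (i sh : Nat) : Nat := Bool.rec (Nat.shiftRight leaf1432 sh) (s1433_1435 i sh) (Nat.ble 1433 i)
noncomputable def s1430_1435 (i sh : Nat) : Nat := Bool.rec (s1430_1432 i sh) (s1432_1435 i sh) (Nat.ble 1432 i)
noncomputable def s1435_1437 (i sh : Nat) : Nat := Bool.rec (Nat.shiftRight leaf1435 sh) (Nat.shiftRight leaf1436 sh) (Nat.ble 1436 i)
noncomputable def s1438_1440 (i sh : Nat) : Nat := Bool.rec (Nat.shiftRight leaf1438 sh) (Nat.shiftRight leaf1439 sh) (Nat.ble 1439 i)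
noncomputable def s1437_1440 (i sh : Nat) : Nat := Bool.rec (Nat.shiftRight leaf1437 sh) (s1438_1440 i sh) (Nat.ble 1438 i)
noncomputable def s1435_1440 (i sh : Nat) : Nat := Bool.rec (s1435_1437 i sh) (s1437_1440 i sh) (Nat.ble 1437 i)
noncomputable def s1430_1440 (i sh : Nat) : Nat := Bool.rec (s1430_1435 i sh) (s1435_1440 i sh) (Nat.ble 1435 i)
noncomputable def s1440_1442 (i sh : Nat) : Nat := Bool.rec (Nat.shiftRight leaf1440 sh) (Nat.shiftRight leaf1441 sh) (Nat.ble 1441 i)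
noncomputable def s1443_1445 (i sh : Nat) : Nat := Bool.rec (Nat.shiftRight leaf1443 sh) (Nat.shiftRight leaf1444 sh) (Nat.ble 1444 i)
noncomputable def s1442_1445 (i sh : Nat) : Nat := Bool.rec (Nat.shiftRight leaf1442 sh) (s1443_1445 i sh) (Nat.ble 1443 i)
noncomputable def s1440_1445 (i sh : Nat) : Nat := Bool.rec (s1440_1442 i sh) (s1442_1445 i sh) (Nat.ble 1442 i)
noncomputable def s1446_1448 (i sh : Nat) : Nat := Bool.rec (Nat.shiftRight leaf1446 sh) (Nat.shiftRight leaf1447 sh) (Nat.ble 1447 i)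
noncomputable def s1445_1448 (i sh : Nat) : Nat := Bool.rec (Nat.shiftRight leaf1445 sh) (s1446_1448 i sh) (Nat.ble 1446 i)
noncomputable def s1449_1451 (i sh : Nat) : Nat := Bool.rec (Nat.shiftRight leaf1449 sh) (Nat.shiftRight leaf1450 sh) (Nat.ble 1450 i)
noncomputable def s1448_1451 (i sh : Nat) : Nat := Bool.rec (Nat.shiftRight leaf1448 sh) (s1449_1451 i sh) (Nat.ble 1449 i)
noncomputable def s1445_1451 (i sh : Nat) : Nat := Bool.rec (s1445_1448 i sh) (s1448_1451 i sh) (Nat.ble 1448 i)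
noncomputable def s1440_1451 (i sh : Nat) : Nat := Bool.rec (s1440_1445 i sh) (s1445_1451 i sh) (Nat.ble 1445 i)
noncomputable def s1430_1451 (i sh : Nat) : Nat := Bool.rec (s1430_1440 i sh) (s1440_1451 i sh) (Nat.ble 1440 i)
noncomputable def s1410_1451 (i sh : Nat) : Nat := Bool.rec (s1410_1430 i sh) (s1430_1451 i sh) (Nat.ble 1430 i)
noncomputable def s1370_1451 (i sh : Nat) : Nat := Bool.rec (s1370_1410 i sh) (s1410_1451 i sh) (Nat.ble 1410 i)
noncomputable def s1290_1451 (i sh : Nat) : Nat := Bool.rec (s1290_1370 i sh) (s1370_1451 i sh) (Nat.ble 1370 i)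
noncomputable def s1451_1453 (i sh : Nat) : Nat := Bool.rec (Nat.shiftRight leaf1451 sh) (Nat.shiftRight leaf1452 sh) (Nat.ble 1452 i)
noncomputable def s1454_1456 (i sh : Nat) : Nat := Bool.rec (Nat.shiftRight leaf1454 sh) (Nat.shiftRight leaf1455 sh) (Nat.ble 1455 i)
noncomputable def s1453_1456 (i sh : Nat) : Nat := Bool.rec (Nat.shiftRight leaf1453 sh) (s1454_1456 i sh) (Nat.ble 1454 i)
noncomputable def s1451_1456 (i sh : Nat) : Nat := Bool.rec (s1451_1453 i sh) (s1453_1456 i sh) (Nat.ble 1453 i)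
noncomputable def s1456_1458 (i sh : Nat) : Nat := Bool.rec (Nat.shiftRight leaf1456 sh) (Nat.shiftRight leaf1457 sh) (Nat.ble 1457 i)
noncomputable def s1459_1461 (i sh : Nat) : Nat := Bool.rec (Nat.shiftRight leaf1459 sh) (Nat.shiftRight leaf1460 sh) (Nat.ble 1460 i)
noncomputable def s1458_1461 (i sh : Nat) : Nat := Bool.rec (Nat.shiftRight leaf1458 sh) (s1459_1461 i sh) (Nat.ble 1459 i)
noncomputable def s1456_1461 (i sh : Nat) : Nat := Bool.rec (s1456_1458 i sh) (s1458_1461 i sh) (Nat.ble 1458 i)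
noncomputable def s1451_1461 (i sh : Nat) : Nat := Bool.rec (s1451_1456 i sh) (s1456_1461 i sh) (Nat.ble 1456 i)
noncomputable def s1461_1463 (i sh : Nat) : Nat := Bool.rec (Nat.shiftRight leaf1461 sh) (Nat.shiftRight leaf1462 sh) (Nat.ble 1462 i)
noncomputable def s1464_1466 (i sh : Nat) : Nat := Bool.rec (Nat.shiftRight leaf1464 sh) (Nat.shiftRight leaf1465 sh) (Nat.ble 1465 i)
noncomputable def s1463_1466 (i sh : Nat) : Nat := Bool.rec (Nat.shiftRight leaf1463 sh) (s1464_1466 i sh) (Nat.ble 1464 i)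
noncomputable def s1461_1466 (i sh : Nat) : Nat := Bool.rec (s1461_1463 i sh) (s1463_1466 i sh) (Nat.ble 1463 i)
noncomputable def s1466_1468 (i sh : Nat) : Nat := Bool.rec (Nat.shiftRight leaf1466 sh) (Nat.shiftRight leaf1467 sh) (Nat.ble 1467 i)
noncomputable def s1469_1471 (i sh : Nat) : Nat := Bool.rec (Nat.shiftRight leaf1469 sh) (Nat.shiftRight leaf1470 sh) (Nat.ble 1470 i)
noncomputable def s1468_1471 (i sh : Nat) : Nat := Bool.rec (Nat.shiftRight leaf1468 sh) (s1469_1471 i sh) (Nat.ble 1469 i)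
noncomputable def s1466_1471 (i sh : Nat) : Nat := Bool.rec (s1466_1468 i sh) (s1468_1471 i sh) (Nat.ble 1468 i)
noncomputable def s1461_1471 (i sh : Nat) : Nat := Bool.rec (s1461_1466 i sh) (s1466_1471 i sh) (Nat.ble 1466 i)
noncomputable def s1451_1471 (i sh : Nat) : Nat := Bool.rec (s1451_1461 i sh) (s1461_1471 i sh) (Nat.ble 1461 i)
noncomputable def s1471_1473 (i sh : Nat) : Nat := Bool.rec (Nat.shiftRight leaf1471 sh) (Nat.shiftRight leaf1472 sh) (Nat.ble 1472 i)
noncomputable def s1474_1476 (i sh : Nat) : Nat := Bool.rec (Nat.shiftRight leaf1474 sh) (Nat.shiftRight leaf1475 sh) (Nat.ble 1475 i)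
noncomputable def s1473_1476 (i sh : Nat) : Nat := Bool.rec (Nat.shiftRight leaf1473 sh) (s1474_1476 i sh) (Nat.ble 1474 i)
noncomputable def s1471_1476 (i sh : Nat) : Nat := Bool.rec (s1471_1473 i sh) (s1473_1476 i sh) (Nat.ble 1473 i)
noncomputable def s1476_1478 (i sh : Nat) : Nat := Bool.rec (Nat.shiftRight leaf1476 sh) (Nat.shiftRight leaf1477 sh) (Nat.ble 1477 i)
noncomputable def s1479_1481 (i sh : Nat) : Nat := Bool.rec (Nat.shiftRight leaf1479 sh) (Nat.shiftRight leaf1480 sh) (Nat.ble 1480 i)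
noncomputable def s1478_1481 (i sh : Nat) : Nat := Bool.rec (Nat.shiftRight leaf1478 sh) (s1479_1481 i sh) (Nat.ble 1479 i)
noncomputable def s1476_1481 (i sh : Nat) : Nat := Bool.rec (s1476_1478 i sh) (s1478_1481 i sh) (Nat.ble 1478 i)
noncomputable def s1471_1481 (i sh : Nat) : Nat := Bool.rec (s1471_1476 i sh) (s1476_1481 i sh) (Nat.ble 1476 i)
noncomputable def s1481_1483 (i sh : Nat) : Nat := Bool.rec (Nat.shiftRight leaf1481 sh) (Nat.shiftRight leaf1482 sh) (Nat.ble 1482 i)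
noncomputable def s1484_1486 (i sh : Nat) : Nat := Bool.rec (Nat.shiftRight leaf1484 sh) (Nat.shiftRight leaf1485 sh) (Nat.ble 1485 i)
noncomputable def s1483_1486 (i sh : Nat) : Nat := Bool.rec (Nat.shiftRight leaf1483 sh) (s1484_1486 i sh) (Nat.ble 1484 i)
noncomputable def s1481_1486 (i sh : Nat) : Nat := Bool.rec (s1481_1483 i sh) (s1483_1486 i sh) (Nat.ble 1483 i)
noncomputable def s1486_1488 (i sh : Nat) : Nat := Bool.rec (Nat.shiftRight leaf1486 sh) (Nat.shiftRight leaf1487 sh) (Nat.ble 1487 i)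
noncomputable def s1489_1491 (i sh : Nat) : Nat := Bool.rec (Nat.shiftRight leaf1489 sh) (Nat.shiftRight leaf1490 sh) (Nat.ble 1490 i)
noncomputable def s1488_1491 (i sh : Nat) : Nat := Bool.rec (Nat.shiftRight leaf1488 sh) (s1489_1491 i sh) (Nat.ble 1489 i)
noncomputable def s1486_1491 (i sh : Nat) : Nat := Bool.rec (s1486_1488 i sh) (s1488_1491 i sh) (Nat.ble 1488 i)
noncomputable def s1481_1491 (i sh : Nat) : Nat := Bool.rec (s1481_1486 i sh) (s1486_1491 i sh) (Nat.ble 1486 i)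
noncomputable def s1471_1491 (i sh : Nat) : Nat := Bool.rec (s1471_1481 i sh) (s1481_1491 i sh) (Nat.ble 1481 i)
noncomputable def s1451_1491 (i sh : Nat) : Nat := Bool.rec (s1451_1471 i sh) (s1471_1491 i sh) (Nat.ble 1471 i)
noncomputable def s1491_1493 (i sh : Nat) : Nat := Bool.rec (Nat.shiftRight leaf1491 sh) (Nat.shiftRight leaf1492 sh) (Nat.ble 1492 i)
noncomputable def s1494_1496 (i sh : Nat) : Nat := Bool.rec (Nat.shiftRight leaf1494 sh) (Nat.shiftRight leaf1495 sh) (Nat.ble 1495 i)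
noncomputable def s1493_1496 (i sh : Nat) : Nat := Bool.rec (Nat.shiftRight leaf1493 sh) (s1494_1496 i sh) (Nat.ble 1494 i)
noncomputable def s1491_1496 (i sh : Nat) : Nat := Bool.rec (s1491_1493 i sh) (s1493_1496 i sh) (Nat.ble 1493 i)
noncomputable def s1496_1498 (i sh : Nat) : Nat := Bool.rec (Nat.shiftRight leaf1496 sh) (Nat.shiftRight leaf1497 sh) (Nat.ble 1497 i)
noncomputable def s1499_1501 (i sh : Nat) : Nat := Bool.rec (Nat.shiftRight leaf1499 sh) (Nat.shiftRight leaf1500 sh) (Nat.ble 1500 i)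
noncomputable def s1498_1501 (i sh : Nat) : Nat := Bool.rec (Nat.shiftRight leaf1498 sh) (s1499_1501 i sh) (Nat.ble 1499 i)
noncomputable def s1496_1501 (i sh : Nat) : Nat := Bool.rec (s1496_1498 i sh) (s1498_1501 i sh) (Nat.ble 1498 i)
noncomputable def s1491_1501 (i sh : Nat) : Nat := Bool.rec (s1491_1496 i sh) (s1496_1501 i sh) (Nat.ble 1496 i)
noncomputable def s1501_1503 (i sh : Nat) : Nat := Bool.rec (Nat.shiftRight leaf1501 sh) (Nat.shiftRight leaf1502 sh) (Nat.ble 1502 i)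
noncomputable def s1504_1506 (i sh : Nat) : Nat := Bool.rec (Nat.shiftRight leaf1504 sh) (Nat.shiftRight leaf1505 sh) (Nat.ble 1505 i)
noncomputable def s1503_1506 (i sh : Nat) : Nat := Bool.rec (Nat.shiftRight leaf1503 sh) (s1504_1506 i sh) (Nat.ble 1504 i)
noncomputable def s1501_1506 (i sh : Nat) : Nat := Bool.rec (s1501_1503 i sh) (s1503_1506 i sh) (Nat.ble 1503 i)
noncomputable def s1506_1508 (i sh : Nat) : Nat := Bool.rec (Nat.shiftRight leaf1506 sh) (Nat.shiftRight leaf1507 sh) (Nat.ble 1507 i)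
noncomputable def s1509_1511 (i sh : Nat) : Nat := Bool.rec (Nat.shiftRight leaf1509 sh) (Nat.shiftRight leaf1510 sh) (Nat.ble 1510 i)
noncomputable def s1508_1511 (i sh : Nat) : Nat := Bool.rec (Nat.shiftRight leaf1508 sh) (s1509_1511 i sh) (Nat.ble 1509 i)
noncomputable def s1506_1511 (i sh : Nat) : Nat := Bool.rec (s1506_1508 i sh) (s1508_1511 i sh) (Nat.ble 1508 i)
noncomputable def s1501_1511 (i sh : Nat) : Nat := Bool.rec (s1501_1506 i sh) (s1506_1511 i sh) (Nat.ble 1506 i)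
noncomputable def s1491_1511 (i sh : Nat) : Nat := Bool.rec (s1491_1501 i sh) (s1501_1511 i sh) (Nat.ble 1501 i)
noncomputable def s1511_1513 (i sh : Nat) : Nat := Bool.rec (Nat.shiftRight leaf1511 sh) (Nat.shiftRight leaf1512 sh) (Nat.ble 1512 i)
noncomputable def s1514_1516 (i sh : Nat) : Nat := Bool.rec (Nat.shiftRight leaf1514 sh) (Nat.shiftRight leaf1515 sh) (Nat.ble 1515 i)
noncomputable def s1513_1516 (i sh : Nat) : Nat := Bool.rec (Nat.shiftRight leaf1513 sh) (s1514_1516 i sh) (Nat.ble 1514 i)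
noncomputable def s1511_1516 (i sh : Nat) : Nat := Bool.rec (s1511_1513 i sh) (s1513_1516 i sh) (Nat.ble 1513 i)
noncomputable def s1516_1518 (i sh : Nat) : Nat := Bool.rec (Nat.shiftRight leaf1516 sh) (Nat.shiftRight leaf1517 sh) (Nat.ble 1517 i)
noncomputable def s1519_1521 (i sh : Nat) : Nat := Bool.rec (Nat.shiftRight leaf1519 sh) (Nat.shiftRight leaf1520 sh) (Nat.ble 1520 i)
noncomputable def s1518_1521 (i sh : Nat) : Nat := Bool.rec (Nat.shiftRight leaf1518 sh) (s1519_1521 i sh) (Nat.ble 1519 i)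
noncomputable def s1516_1521 (i sh : Nat) : Nat := Bool.rec (s1516_1518 i sh) (s1518_1521 i sh) (Nat.ble 1518 i)
noncomputable def s1511_1521 (i sh : Nat) : Nat := Bool.rec (s1511_1516 i sh) (s1516_1521 i sh) (Nat.ble 1516 i)
noncomputable def s1521_1523 (i sh : Nat) : Nat := Bool.rec (Nat.shiftRight leaf1521 sh) (Nat.shiftRight leaf1522 sh) (Nat.ble 1522 i)
noncomputable def s1524_1526 (i sh : Nat) : Nat := Bool.rec (Nat.shiftRight leaf1524 sh) (Nat.shiftRight leaf1525 sh) (Nat.ble 1525 i)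
noncomputable def s1523_1526 (i sh : Nat) : Nat := Bool.rec (Nat.shiftRight leaf1523 sh) (s1524_1526 i sh) (Nat.ble 1524 i)
noncomputable def s1521_1526 (i sh : Nat) : Nat := Bool.rec (s1521_1523 i sh) (s1523_1526 i sh) (Nat.ble 1523 i)
noncomputable def s1526_1528 (i sh : Nat) : Nat := Bool.rec (Nat.shiftRight leaf1526 sh) (Nat.shiftRight leaf1527 sh) (Nat.ble 1527 i)
noncomputable def s1529_1531 (i sh : Nat) : Nat := Bool.rec (Nat.shiftRight leaf1529 sh) (Nat.shiftRight leaf1530 sh) (Nat.ble 1530 i)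
noncomputable def s1528_1531 (i sh : Nat) : Nat := Bool.rec (Nat.shiftRight leaf1528 sh) (s1529_1531 i sh) (Nat.ble 1529 i)
noncomputable def s1526_1531 (i sh : Nat) : Nat := Bool.rec (s1526_1528 i sh) (s1528_1531 i sh) (Nat.ble 1528 i)
noncomputable def s1521_1531 (i sh : Nat) : Nat := Bool.rec (s1521_1526 i sh) (s1526_1531 i sh) (Nat.ble 1526 i)
noncomputable def s1511_1531 (i sh : Nat) : Nat := Bool.rec (s1511_1521 i sh) (s1521_1531 i sh) (Nat.ble 1521 i)
noncomputable def s1491_1531 (i sh : Nat) : Nat := Bool.rec (s1491_1511 i sh) (s1511_1531 i sh) (Nat.ble 1511 i)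
noncomputable def s1451_1531 (i sh : Nat) : Nat := Bool.rec (s1451_1491 i sh) (s1491_1531 i sh) (Nat.ble 1491 i)
noncomputable def s1531_1533 (i sh : Nat) : Nat := Bool.rec (Nat.shiftRight leaf1531 sh) (Nat.shiftRight leaf1532 sh) (Nat.ble 1532 i)
noncomputable def s1534_1536 (i sh : Nat) : Nat := Bool.rec (Nat.shiftRight leaf1534 sh) (Nat.shiftRight leaf1535 sh) (Nat.ble 1535 i)
noncomputable def s1533_1536 (i sh : Nat) : Nat := Bool.rec (Nat.shiftRight leaf1533 sh) (s1534_1536 i sh) (Nat.ble 1534 i)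
noncomputable def s1531_1536 (i sh : Nat) : Nat := Bool.rec (s1531_1533 i sh) (s1533_1536 i sh) (Nat.ble 1533 i)
noncomputable def s1536_1538 (i sh : Nat) : Nat := Bool.rec (Nat.shiftRight leaf1536 sh) (Nat.shiftRight leaf1537 sh) (Nat.ble 1537 i)
noncomputable def s1539_1541 (i sh : Nat) : Nat := Bool.rec (Nat.shiftRight leaf1539 sh) (Nat.shiftRight leaf1540 sh) (Nat.ble 1540 i)
noncomputable def s1538_1541 (i sh : Nat) : Nat := Bool.rec (Nat.shiftRight leaf1538 sh) (s1539_1541 i sh) (Nat.ble 1539 i)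
noncomputable def s1536_1541 (i sh : Nat) : Nat := Bool.rec (s1536_1538 i sh) (s1538_1541 i sh) (Nat.ble 1538 i)
noncomputable def s1531_1541 (i sh : Nat) : Nat := Bool.rec (s1531_1536 i sh) (s1536_1541 i sh) (Nat.ble 1536 i)
noncomputable def s1541_1543 (i sh : Nat) : Nat := Bool.rec (Nat.shiftRight leaf1541 sh) (Nat.shiftRight leaf1542 sh) (Nat.ble 1542 i)
noncomputable def s1544_1546 (i sh : Nat) : Nat := Bool.rec (Nat.shiftRight leaf1544 sh) (Nat.shiftRight leaf1545 sh) (Nat.ble 1545 i)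
noncomputable def s1543_1546 (i sh : Nat) : Nat := Bool.rec (Nat.shiftRight leaf1543 sh) (s1544_1546 i sh) (Nat.ble 1544 i)
noncomputable def s1541_1546 (i sh : Nat) : Nat := Bool.rec (s1541_1543 i sh) (s1543_1546 i sh) (Nat.ble 1543 i)
noncomputable def s1546_1548 (i sh : Nat) : Nat := Bool.rec (Nat.shiftRight leaf1546 sh) (Nat.shiftRight leaf1547 sh) (Nat.ble 1547 i)
noncomputable def s1549_1551 (i sh : Nat) : Nat := Bool.rec (Nat.shiftRight leaf1549 sh) (Nat.shiftRight leaf1550 sh) (Nat.ble 1550 i)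
noncomputable def s1548_1551 (i sh : Nat) : Nat := Bool.rec (Nat.shiftRight leaf1548 sh) (s1549_1551 i sh) (Nat.ble 1549 i)
noncomputable def s1546_1551 (i sh : Nat) : Nat := Bool.rec (s1546_1548 i sh) (s1548_1551 i sh) (Nat.ble 1548 i)
noncomputable def s1541_1551 (i sh : Nat) : Nat := Bool.rec (s1541_1546 i sh) (s1546_1551 i sh) (Nat.ble 1546 i)
noncomputable def s1531_1551 (i sh : Nat) : Nat := Bool.rec (s1531_1541 i sh) (s1541_1551 i sh) (Nat.ble 1541 i)
noncomputable def s1551_1553 (i sh : Nat) : Nat := Bool.rec (Nat.shiftRight leaf1551 sh) (Nat.shiftRight leaf1552 sh) (Nat.ble 1552 i)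
noncomputable def s1554_1556 (i sh : Nat) : Nat := Bool.rec (Nat.shiftRight leaf1554 sh) (Nat.shiftRight leaf1555 sh) (Nat.ble 1555 i)
noncomputable def s1553_1556 (i sh : Nat) : Nat := Bool.rec (Nat.shiftRight leaf1553 sh) (s1554_1556 i sh) (Nat.ble 1554 i)
noncomputable def s1551_1556 (i sh : Nat) : Nat := Bool.rec (s1551_1553 i sh) (s1553_1556 i sh) (Nat.ble 1553 i)
noncomputable def s1556_1558 (i sh : Nat) : Nat := Bool.rec (Nat.shiftRight leaf1556 sh) (Nat.shiftRight leaf1557 sh) (Nat.ble 1557 i)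
noncomputable def s1559_1561 (i sh : Nat) : Nat := Bool.rec (Nat.shiftRight leaf1559 sh) (Nat.shiftRight leaf1560 sh) (Nat.ble 1560 i)
noncomputable def s1558_1561 (i sh : Nat) : Nat := Bool.rec (Nat.shiftRight leaf1558 sh) (s1559_1561 i sh) (Nat.ble 1559 i)
noncomputable def s1556_1561 (i sh : Nat) : Nat := Bool.rec (s1556_1558 i sh) (s1558_1561 i sh) (Nat.ble 1558 i)
noncomputable def s1551_1561 (i sh : Nat) : Nat := Bool.rec (s1551_1556 i sh) (s1556_1561 i sh) (Nat.ble 1556 i)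
noncomputable def s1561_1563 (i sh : Nat) : Nat := Bool.rec (Nat.shiftRight leaf1561 sh) (Nat.shiftRight leaf1562 sh) (Nat.ble 1562 i)
noncomputable def s1564_1566 (i sh : Nat) : Nat := Bool.rec (Nat.shiftRight leaf1564 sh) (Nat.shiftRight leaf1565 sh) (Nat.ble 1565 i)
noncomputable def s1563_1566 (i sh : Nat) : Nat := Bool.rec (Nat.shiftRight leaf1563 sh) (s1564_1566 i sh) (Nat.ble 1564 i)
noncomputable def s1561_1566 (i sh : Nat) : Nat := Bool.rec (s1561_1563 i sh) (s1563_1566 i sh) (Nat.ble 1563 i)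
noncomputable def s1566_1568 (i sh : Nat) : Nat := Bool.rec (Nat.shiftRight leaf1566 sh) (Nat.shiftRight leaf1567 sh) (Nat.ble 1567 i)
noncomputable def s1569_1571 (i sh : Nat) : Nat := Bool.rec (Nat.shiftRight leaf1569 sh) (Nat.shiftRight leaf1570 sh) (Nat.ble 1570 i)
noncomputable def s1568_1571 (i sh : Nat) : Nat := Bool.rec (Nat.shiftRight leaf1568 sh) (s1569_1571 i sh) (Nat.ble 1569 i)
noncomputable def s1566_1571 (i sh : Nat) : Nat := Bool.rec (s1566_1568 i sh) (s1568_1571 i sh) (Nat.ble 1568 i)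
noncomputable def s1561_1571 (i sh : Nat) : Nat := Bool.rec (s1561_1566 i sh) (s1566_1571 i sh) (Nat.ble 1566 i)
noncomputable def s1551_1571 (i sh : Nat) : Nat := Bool.rec (s1551_1561 i sh) (s1561_1571 i sh) (Nat.ble 1561 i)
noncomputable def s1531_1571 (i sh : Nat) : Nat := Bool.rec (s1531_1551 i sh) (s1551_1571 i sh) (Nat.ble 1551 i)
noncomputable def s1571_1573 (i sh : Nat) : Nat := Bool.rec (Nat.shiftRight leaf1571 sh) (Nat.shiftRight leaf1572 sh) (Nat.ble 1572 i)
noncomputable def s1574_1576 (i sh : Nat) : Nat := Bool.rec (Nat.shiftRight leaf1574 sh) (Nat.shiftRight leaf1575 sh) (Nat.ble 1575 i)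
noncomputable def s1573_1576 (i sh : Nat) : Nat := Bool.rec (Nat.shiftRight leaf1573 sh) (s1574_1576 i sh) (Nat.ble 1574 i)
noncomputable def s1571_1576 (i sh : Nat) : Nat := Bool.rec (s1571_1573 i sh) (s1573_1576 i sh) (Nat.ble 1573 i)
noncomputable def s1576_1578 (i sh : Nat) : Nat := Bool.rec (Nat.shiftRight leaf1576 sh) (Nat.shiftRight leaf1577 sh) (Nat.ble 1577 i)
noncomputable def s1579_1581 (i sh : Nat) : Nat := Bool.rec (Nat.shiftRight leaf1579 sh) (Nat.shiftRight leaf1580 sh) (Nat.ble 1580 i)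
noncomputable def s1578_1581 (i sh : Nat) : Nat := Bool.rec (Nat.shiftRight leaf1578 sh) (s1579_1581 i sh) (Nat.ble 1579 i)
noncomputable def s1576_1581 (i sh : Nat) : Nat := Bool.rec (s1576_1578 i sh) (s1578_1581 i sh) (Nat.ble 1578 i)
noncomputable def s1571_1581 (i sh : Nat) : Nat := Bool.rec (s1571_1576 i sh) (s1576_1581 i sh) (Nat.ble 1576 i)
noncomputable def s1581_1583 (i sh : Nat) : Nat := Bool.rec (Nat.shiftRight leaf1581 sh) (Nat.shiftRight leaf1582 sh) (Nat.ble 1582 i)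
noncomputable def s1584_1586 (i sh : Nat) : Nat := Bool.rec (Nat.shiftRight leaf1584 sh) (Nat.shiftRight leaf1585 sh) (Nat.ble 1585 i)
noncomputable def s1583_1586 (i sh : Nat) : Nat := Bool.rec (Nat.shiftRight leaf1583 sh) (s1584_1586 i sh) (Nat.ble 1584 i)
noncomputable def s1581_1586 (i sh : Nat) : Nat := Bool.rec (s1581_1583 i sh) (s1583_1586 i sh) (Nat.ble 1583 i)
noncomputable def s1586_1588 (i sh : Nat) : Nat := Bool.rec (Nat.shiftRight leaf1586 sh) (Nat.shiftRight leaf1587 sh) (Nat.ble 1587 i)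
noncomputable def s1589_1591 (i sh : Nat) : Nat := Bool.rec (Nat.shiftRight leaf1589 sh) (Nat.shiftRight leaf1590 sh) (Nat.ble 1590 i)
noncomputable def s1588_1591 (i sh : Nat) : Nat := Bool.rec (Nat.shiftRight leaf1588 sh) (s1589_1591 i sh) (Nat.ble 1589 i)
noncomputable def s1586_1591 (i sh : Nat) : Nat := Bool.rec (s1586_1588 i sh) (s1588_1591 i sh) (Nat.ble 1588 i)
noncomputable def s1581_1591 (i sh : Nat) : Nat := Bool.rec (s1581_1586 i sh) (s1586_1591 i sh) (Nat.ble 1586 i)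
noncomputable def s1571_1591 (i sh : Nat) : Nat := Bool.rec (s1571_1581 i sh) (s1581_1591 i sh) (Nat.ble 1581 i)
noncomputable def s1591_1593 (i sh : Nat) : Nat := Bool.rec (Nat.shiftRight leaf1591 sh) (Nat.shiftRight leaf1592 sh) (Nat.ble 1592 i)
noncomputable def s1594_1596 (i sh : Nat) : Nat := Bool.rec (Nat.shiftRight leaf1594 sh) (Nat.shiftRight leaf1595 sh) (Nat.ble 1595 i)
noncomputable def s1593_1596 (i sh : Nat) : Nat := Bool.rec (Nat.shiftRight leaf1593 sh) (s1594_1596 i sh) (Nat.ble 1594 i)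
noncomputable def s1591_1596 (i sh : Nat) : Nat := Bool.rec (s1591_1593 i sh) (s1593_1596 i sh) (Nat.ble 1593 i)
noncomputable def s1596_1598 (i sh : Nat) : Nat := Bool.rec (Nat.shiftRight leaf1596 sh) (Nat.shiftRight leaf1597 sh) (Nat.ble 1597 i)
noncomputable def s1599_1601 (i sh : Nat) : Nat := Bool.rec (Nat.shiftRight leaf1599 sh) (Nat.shiftRight leaf1600 sh) (Nat.ble 1600 i)
noncomputable def s1598_1601 (i sh : Nat) : Nat := Bool.rec (Nat.shiftRight leaf1598 sh) (s1599_1601 i sh) (Nat.ble 1599 i)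
noncomputable def s1596_1601 (i sh : Nat) : Nat := Bool.rec (s1596_1598 i sh) (s1598_1601 i sh) (Nat.ble 1598 i)
noncomputable def s1591_1601 (i sh : Nat) : Nat := Bool.rec (s1591_1596 i sh) (s1596_1601 i sh) (Nat.ble 1596 i)
noncomputable def s1601_1603 (i sh : Nat) : Nat := Bool.rec (Nat.shiftRight leaf1601 sh) (Nat.shiftRight leaf1602 sh) (Nat.ble 1602 i)
noncomputable def s1604_1606 (i sh : Nat) : Nat := Bool.rec (Nat.shiftRight leaf1604 sh) (Nat.shiftRight leaf1605 sh) (Nat.ble 1605 i)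
noncomputable def s1603_1606 (i sh : Nat) : Nat := Bool.rec (Nat.shiftRight leaf1603 sh) (s1604_1606 i sh) (Nat.ble 1604 i)
noncomputable def s1601_1606 (i sh : Nat) : Nat := Bool.rec (s1601_1603 i sh) (s1603_1606 i sh) (Nat.ble 1603 i)
noncomputable def s1607_1609 (i sh : Nat) : Nat := Bool.rec (Nat.shiftRight leaf1607 sh) (Nat.shiftRight leaf1608 sh) (Nat.ble 1608 i)
noncomputable def s1606_1609 (i sh : Nat) : Nat := Bool.rec (Nat.shiftRight leaf1606 sh) (s1607_1609 i sh) (Nat.ble 1607 i)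
noncomputable def s1610_1612 (i sh : Nat) : Nat := Bool.rec (Nat.shiftRight leaf1610 sh) (Nat.shiftRight leaf1611 sh) (Nat.ble 1611 i)
noncomputable def s1609_1612 (i sh : Nat) : Nat := Bool.rec (Nat.shiftRight leaf1609 sh) (s1610_1612 i sh) (Nat.ble 1610 i)
noncomputable def s1606_1612 (i sh : Nat) : Nat := Bool.rec (s1606_1609 i sh) (s1609_1612 i sh) (Nat.ble 1609 i)
noncomputable def s1601_1612 (i sh : Nat) : Nat := Bool.rec (s1601_1606 i sh) (s1606_1612 i sh) (Nat.ble 1606 i)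
noncomputable def s1591_1612 (i sh : Nat) : Nat := Bool.rec (s1591_1601 i sh) (s1601_1612 i sh) (Nat.ble 1601 i)
noncomputable def s1571_1612 (i sh : Nat) : Nat := Bool.rec (s1571_1591 i sh) (s1591_1612 i sh) (Nat.ble 1591 i)
noncomputable def s1531_1612 (i sh : Nat) : Nat := Bool.rec (s1531_1571 i sh) (s1571_1612 i sh) (Nat.ble 1571 i)
noncomputable def s1451_1612 (i sh : Nat) : Nat := Bool.rec (s1451_1531 i sh) (s1531_1612 i sh) (Nat.ble 1531 i)
noncomputable def s1290_1612 (i sh : Nat) : Nat := Bool.rec (s1290_1451 i sh) (s1451_1612 i sh) (Nat.ble 1451 i)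
noncomputable def s1612_1614 (i sh : Nat) : Nat := Bool.rec (Nat.shiftRight leaf1612 sh) (Nat.shiftRight leaf1613 sh) (Nat.ble 1613 i)
noncomputable def s1615_1617 (i sh : Nat) : Nat := Bool.rec (Nat.shiftRight leaf1615 sh) (Nat.shiftRight leaf1616 sh) (Nat.ble 1616 i)
noncomputable def s1614_1617 (i sh : Nat) : Nat := Bool.rec (Nat.shiftRight leaf1614 sh) (s1615_1617 i sh) (Nat.ble 1615 i)
noncomputable def s1612_1617 (i sh : Nat) : Nat := Bool.rec (s1612_1614 i sh) (s1614_1617 i sh) (Nat.ble 1614 i)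
noncomputable def s1617_1619 (i sh : Nat) : Nat := Bool.rec (Nat.shiftRight leaf1617 sh) (Nat.shiftRight leaf1618 sh) (Nat.ble 1618 i)
noncomputable def s1620_1622 (i sh : Nat) : Nat := Bool.rec (Nat.shiftRight leaf1620 sh) (Nat.shiftRight leaf1621 sh) (Nat.ble 1621 i)
noncomputable def s1619_1622 (i sh : Nat) : Nat := Bool.rec (Nat.shiftRight leaf1619 sh) (s1620_1622 i sh) (Nat.ble 1620 i)
noncomputable def s1617_1622 (i sh : Nat) : Nat := Bool.rec (s1617_1619 i sh) (s1619_1622 i sh) (Nat.ble 1619 i)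
noncomputable def s1612_1622 (i sh : Nat) : Nat := Bool.rec (s1612_1617 i sh) (s1617_1622 i sh) (Nat.ble 1617 i)
noncomputable def s1622_1624 (i sh : Nat) : Nat := Bool.rec (Nat.shiftRight leaf1622 sh) (Nat.shiftRight leaf1623 sh) (Nat.ble 1623 i)
noncomputable def s1625_1627 (i sh : Nat) : Nat := Bool.rec (Nat.shiftRight leaf1625 sh) (Nat.shiftRight leaf1626 sh) (Nat.ble 1626 i)
noncomputable def s1624_1627 (i sh : Nat) : Nat := Bool.rec (Nat.shiftRight leaf1624 sh) (s1625_1627 i sh) (Nat.ble 1625 i)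
noncomputable def s1622_1627 (i sh : Nat) : Nat := Bool.rec (s1622_1624 i sh) (s1624_1627 i sh) (Nat.ble 1624 i)
noncomputable def s1627_1629 (i sh : Nat) : Nat := Bool.rec (Nat.shiftRight leaf1627 sh) (Nat.shiftRight leaf1628 sh) (Nat.ble 1628 i)
noncomputable def s1630_1632 (i sh : Nat) : Nat := Bool.rec (Nat.shiftRight leaf1630 sh) (Nat.shiftRight leaf1631 sh) (Nat.ble 1631 i)
noncomputable def s1629_1632 (i sh : Nat) : Nat := Bool.rec (Nat.shiftRight leaf1629 sh) (s1630_1632 i sh) (Nat.ble 1630 i)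
noncomputable def s1627_1632 (i sh : Nat) : Nat := Bool.rec (s1627_1629 i sh) (s1629_1632 i sh) (Nat.ble 1629 i)
noncomputable def s1622_1632 (i sh : Nat) : Nat := Bool.rec (s1622_1627 i sh) (s1627_1632 i sh) (Nat.ble 1627 i)
noncomputable def s1612_1632 (i sh : Nat) : Nat := Bool.rec (s1612_1622 i sh) (s1622_1632 i sh) (Nat.ble 1622 i)
noncomputable def s1632_1634 (i sh : Nat) : Nat := Bool.rec (Nat.shiftRight leaf1632 sh) (Nat.shiftRight leaf1633 sh) (Nat.ble 1633 i)
noncomputable def s1635_1637 (i sh : Nat) : Nat := Bool.rec (Nat.shiftRight leaf1635 sh) (Nat.shiftRight leaf1636 sh) (Nat.ble 1636 i)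
noncomputable def s1634_1637 (i sh : Nat) : Nat := Bool.rec (Nat.shiftRight leaf1634 sh) (s1635_1637 i sh) (Nat.ble 1635 i)
noncomputable def s1632_1637 (i sh : Nat) : Nat := Bool.rec (s1632_1634 i sh) (s1634_1637 i sh) (Nat.ble 1634 i)
noncomputable def s1637_1639 (i sh : Nat) : Nat := Bool.rec (Nat.shiftRight leaf1637 sh) (Nat.shiftRight leaf1638 sh) (Nat.ble 1638 i)
noncomputable def s1640_1642 (i sh : Nat) : Nat := Bool.rec (Nat.shiftRight leaf1640 sh) (Nat.shiftRight leaf1641 sh) (Nat.ble 1641 i)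
noncomputable def s1639_1642 (i sh : Nat) : Nat := Bool.rec (Nat.shiftRight leaf1639 sh) (s1640_1642 i sh) (Nat.ble 1640 i)
noncomputable def s1637_1642 (i sh : Nat) : Nat := Bool.rec (s1637_1639 i sh) (s1639_1642 i sh) (Nat.ble 1639 i)
noncomputable def s1632_1642 (i sh : Nat) : Nat := Bool.rec (s1632_1637 i sh) (s1637_1642 i sh) (Nat.ble 1637 i)
noncomputable def s1642_1644 (i sh : Nat) : Nat := Bool.rec (Nat.shiftRight leaf1642 sh) (Nat.shiftRight leaf1643 sh) (Nat.ble 1643 i)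
noncomputable def s1645_1647 (i sh : Nat) : Nat := Bool.rec (Nat.shiftRight leaf1645 sh) (Nat.shiftRight leaf1646 sh) (Nat.ble 1646 i)
noncomputable def s1644_1647 (i sh : Nat) : Nat := Bool.rec (Nat.shiftRight leaf1644 sh) (s1645_1647 i sh) (Nat.ble 1645 i)
noncomputable def s1642_1647 (i sh : Nat) : Nat := Bool.rec (s1642_1644 i sh) (s1644_1647 i sh) (Nat.ble 1644 i)
noncomputable def s1647_1649 (i sh : Nat) : Nat := Bool.rec (Nat.shiftRight leaf1647 sh) (Nat.shiftRight leaf1648 sh) (Nat.ble 1648 i)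
noncomputable def s1650_1652 (i sh : Nat) : Nat := Bool.rec (Nat.shiftRight leaf1650 sh) (Nat.shiftRight leaf1651 sh) (Nat.ble 1651 i)
noncomputable def s1649_1652 (i sh : Nat) : Nat := Bool.rec (Nat.shiftRight leaf1649 sh) (s1650_1652 i sh) (Nat.ble 1650 i)
noncomputable def s1647_1652 (i sh : Nat) : Nat := Bool.rec (s1647_1649 i sh) (s1649_1652 i sh) (Nat.ble 1649 i)
noncomputable def s1642_1652 (i sh : Nat) : Nat := Bool.rec (s1642_1647 i sh) (s1647_1652 i sh) (Nat.ble 1647 i)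
noncomputable def s1632_1652 (i sh : Nat) : Nat := Bool.rec (s1632_1642 i sh) (s1642_1652 i sh) (Nat.ble 1642 i)
noncomputable def s1612_1652 (i sh : Nat) : Nat := Bool.rec (s1612_1632 i sh) (s1632_1652 i sh) (Nat.ble 1632 i)
noncomputable def s1652_1654 (i sh : Nat) : Nat := Bool.rec (Nat.shiftRight leaf1652 sh) (Nat.shiftRight leaf1653 sh) (Nat.ble 1653 i)
noncomputable def s1655_1657 (i sh : Nat) : Nat := Bool.rec (Nat.shiftRight leaf1655 sh) (Nat.shiftRight leaf1656 sh) (Nat.ble 1656 i)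
noncomputable def s1654_1657 (i sh : Nat) : Nat := Bool.rec (Nat.shiftRight leaf1654 sh) (s1655_1657 i sh) (Nat.ble 1655 i)
noncomputable def s1652_1657 (i sh : Nat) : Nat := Bool.rec (s1652_1654 i sh) (s1654_1657 i sh) (Nat.ble 1654 i)
noncomputable def s1657_1659 (i sh : Nat) : Nat := Bool.rec (Nat.shiftRight leaf1657 sh) (Nat.shiftRight leaf1658 sh) (Nat.ble 1658 i)
noncomputable def s1660_1662 (i sh : Nat) : Nat := Bool.rec (Nat.shiftRight leaf1660 sh) (Nat.shiftRight leaf1661 sh) (Nat.ble 1661 i)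
noncomputable def s1659_1662 (i sh : Nat) : Nat := Bool.rec (Nat.shiftRight leaf1659 sh) (s1660_1662 i sh) (Nat.ble 1660 i)
noncomputable def s1657_1662 (i sh : Nat) : Nat := Bool.rec (s1657_1659 i sh) (s1659_1662 i sh) (Nat.ble 1659 i)
noncomputable def s1652_1662 (i sh : Nat) : Nat := Bool.rec (s1652_1657 i sh) (s1657_1662 i sh) (Nat.ble 1657 i)
noncomputable def s1662_1664 (i sh : Nat) : Nat := Bool.rec (Nat.shiftRight leaf1662 sh) (Nat.shiftRight leaf1663 sh) (Nat.ble 1663 i)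
noncomputable def s1665_1667 (i sh : Nat) : Nat := Bool.rec (Nat.shiftRight leaf1665 sh) (Nat.shiftRight leaf1666 sh) (Nat.ble 1666 i)
noncomputable def s1664_1667 (i sh : Nat) : Nat := Bool.rec (Nat.shiftRight leaf1664 sh) (s1665_1667 i sh) (Nat.ble 1665 i)
noncomputable def s1662_1667 (i sh : Nat) : Nat := Bool.rec (s1662_1664 i sh) (s1664_1667 i sh) (Nat.ble 1664 i)
noncomputable def s1667_1669 (i sh : Nat) : Nat := Bool.rec (Nat.shiftRight leaf1667 sh) (Nat.shiftRight leaf1668 sh) (Nat.ble 1668 i)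
noncomputable def s1670_1672 (i sh : Nat) : Nat := Bool.rec (Nat.shiftRight leaf1670 sh) (Nat.shiftRight leaf1671 sh) (Nat.ble 1671 i)
noncomputable def s1669_1672 (i sh : Nat) : Nat := Bool.rec (Nat.shiftRight leaf1669 sh) (s1670_1672 i sh) (Nat.ble 1670 i)
noncomputable def s1667_1672 (i sh : Nat) : Nat := Bool.rec (s1667_1669 i sh) (s1669_1672 i sh) (Nat.ble 1669 i)
noncomputable def s1662_1672 (i sh : Nat) : Nat := Bool.rec (s1662_1667 i sh) (s1667_1672 i sh) (Nat.ble 1667 i)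
noncomputable def s1652_1672 (i sh : Nat) : Nat := Bool.rec (s1652_1662 i sh) (s1662_1672 i sh) (Nat.ble 1662 i)
noncomputable def s1672_1674 (i sh : Nat) : Nat := Bool.rec (Nat.shiftRight leaf1672 sh) (Nat.shiftRight leaf1673 sh) (Nat.ble 1673 i)
noncomputable def s1675_1677 (i sh : Nat) : Nat := Bool.rec (Nat.shiftRight leaf1675 sh) (Nat.shiftRight leaf1676 sh) (Nat.ble 1676 i)
noncomputable def s1674_1677 (i sh : Nat) : Nat := Bool.rec (Nat.shiftRight leaf1674 sh) (s1675_1677 i sh) (Nat.ble 1675 i)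
noncomputable def s1672_1677 (i sh : Nat) : Nat := Bool.rec (s1672_1674 i sh) (s1674_1677 i sh) (Nat.ble 1674 i)
noncomputable def s1677_1679 (i sh : Nat) : Nat := Bool.rec (Nat.shiftRight leaf1677 sh) (Nat.shiftRight leaf1678 sh) (Nat.ble 1678 i)
noncomputable def s1680_1682 (i sh : Nat) : Nat := Bool.rec (Nat.shiftRight leaf1680 sh) (Nat.shiftRight leaf1681 sh) (Nat.ble 1681 i)
noncomputable def s1679_1682 (i sh : Nat) : Nat := Bool.rec (Nat.shiftRight leaf1679 sh) (s1680_1682 i sh) (Nat.ble 1680 i)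
noncomputable def s1677_1682 (i sh : Nat) : Nat := Bool.rec (s1677_1679 i sh) (s1679_1682 i sh) (Nat.ble 1679 i)
noncomputable def s1672_1682 (i sh : Nat) : Nat := Bool.rec (s1672_1677 i sh) (s1677_1682 i sh) (Nat.ble 1677 i)
noncomputable def s1682_1684 (i sh : Nat) : Nat := Bool.rec (Nat.shiftRight leaf1682 sh) (Nat.shiftRight leaf1683 sh) (Nat.ble 1683 i)
noncomputable def s1685_1687 (i sh : Nat) : Nat := Bool.rec (Nat.shiftRight leaf1685 sh) (Nat.shiftRight leaf1686 sh) (Nat.ble 1686 i)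
noncomputable def s1684_1687 (i sh : Nat) : Nat := Bool.rec (Nat.shiftRight leaf1684 sh) (s1685_1687 i sh) (Nat.ble 1685 i)
noncomputable def s1682_1687 (i sh : Nat) : Nat := Bool.rec (s1682_1684 i sh) (s1684_1687 i sh) (Nat.ble 1684 i)
noncomputable def s1687_1689 (i sh : Nat) : Nat := Bool.rec (Nat.shiftRight leaf1687 sh) (Nat.shiftRight leaf1688 sh) (Nat.ble 1688 i)
noncomputable def s1690_1692 (i sh : Nat) : Nat := Bool.rec (Nat.shiftRight leaf1690 sh) (Nat.shiftRight leaf1691 sh) (Nat.ble 1691 i)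
noncomputable def s1689_1692 (i sh : Nat) : Nat := Bool.rec (Nat.shiftRight leaf1689 sh) (s1690_1692 i sh) (Nat.ble 1690 i)
noncomputable def s1687_1692 (i sh : Nat) : Nat := Bool.rec (s1687_1689 i sh) (s1689_1692 i sh) (Nat.ble 1689 i)
noncomputable def s1682_1692 (i sh : Nat) : Nat := Bool.rec (s1682_1687 i sh) (s1687_1692 i sh) (Nat.ble 1687 i)
noncomputable def s1672_1692 (i sh : Nat) : Nat := Bool.rec (s1672_1682 i sh) (s1682_1692 i sh) (Nat.ble 1682 i)
noncomputable def s1652_1692 (i sh : Nat) : Nat := Bool.rec (s1652_1672 i sh) (s1672_1692 i sh) (Nat.ble 1672 i)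
noncomputable def s1612_1692 (i sh : Nat) : Nat := Bool.rec (s1612_1652 i sh) (s1652_1692 i sh) (Nat.ble 1652 i)
noncomputable def s1692_1694 (i sh : Nat) : Nat := Bool.rec (Nat.shiftRight leaf1692 sh) (Nat.shiftRight leaf1693 sh) (Nat.ble 1693 i)
noncomputable def s1695_1697 (i sh : Nat) : Nat := Bool.rec (Nat.shiftRight leaf1695 sh) (Nat.shiftRight leaf1696 sh) (Nat.ble 1696 i)
noncomputable def s1694_1697 (i sh : Nat) : Nat := Bool.rec (Nat.shiftRight leaf1694 sh) (s1695_1697 i sh) (Nat.ble 1695 i)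
noncomputable def s1692_1697 (i sh : Nat) : Nat := Bool.rec (s1692_1694 i sh) (s1694_1697 i sh) (Nat.ble 1694 i)
noncomputable def s1697_1699 (i sh : Nat) : Nat := Bool.rec (Nat.shiftRight leaf1697 sh) (Nat.shiftRight leaf1698 sh) (Nat.ble 1698 i)
noncomputable def s1700_1702 (i sh : Nat) : Nat := Bool.rec (Nat.shiftRight leaf1700 sh) (Nat.shiftRight leaf1701 sh) (Nat.ble 1701 i)
noncomputable def s1699_1702 (i sh : Nat) : Nat := Bool.rec (Nat.shiftRight leaf1699 sh) (s1700_1702 i sh) (Nat.ble 1700 i)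
noncomputable def s1697_1702 (i sh : Nat) : Nat := Bool.rec (s1697_1699 i sh) (s1699_1702 i sh) (Nat.ble 1699 i)
noncomputable def s1692_1702 (i sh : Nat) : Nat := Bool.rec (s1692_1697 i sh) (s1697_1702 i sh) (Nat.ble 1697 i)
noncomputable def s1702_1704 (i sh : Nat) : Nat := Bool.rec (Nat.shiftRight leaf1702 sh) (Nat.shiftRight leaf1703 sh) (Nat.ble 1703 i)
noncomputable def s1705_1707 (i sh : Nat) : Nat := Bool.rec (Nat.shiftRight leaf1705 sh) (Nat.shiftRight leaf1706 sh) (Nat.ble 1706 i)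
noncomputable def s1704_1707 (i sh : Nat) : Nat := Bool.rec (Nat.shiftRight leaf1704 sh) (s1705_1707 i sh) (Nat.ble 1705 i)
noncomputable def s1702_1707 (i sh : Nat) : Nat := Bool.rec (s1702_1704 i sh) (s1704_1707 i sh) (Nat.ble 1704 i)
noncomputable def s1707_1709 (i sh : Nat) : Nat := Bool.rec (Nat.shiftRight leaf1707 sh) (Nat.shiftRight leaf1708 sh) (Nat.ble 1708 i)
noncomputable def s1710_1712 (i sh : Nat) : Nat := Bool.rec (Nat.shiftRight leaf1710 sh) (Nat.shiftRight leaf1711 sh) (Nat.ble 1711 i)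
noncomputable def s1709_1712 (i sh : Nat) : Nat := Bool.rec (Nat.shiftRight leaf1709 sh) (s1710_1712 i sh) (Nat.ble 1710 i)
noncomputable def s1707_1712 (i sh : Nat) : Nat := Bool.rec (s1707_1709 i sh) (s1709_1712 i sh) (Nat.ble 1709 i)
noncomputable def s1702_1712 (i sh : Nat) : Nat := Bool.rec (s1702_1707 i sh) (s1707_1712 i sh) (Nat.ble 1707 i)
noncomputable def s1692_1712 (i sh : Nat) : Nat := Bool.rec (s1692_1702 i sh) (s1702_1712 i sh) (Nat.ble 1702 i)
noncomputable def s1712_1714 (i sh : Nat) : Nat := Bool.rec (Nat.shiftRight leaf1712 sh) (Nat.shiftRight leaf1713 sh) (Nat.ble 1713 i)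
noncomputable def s1715_1717 (i sh : Nat) : Nat := Bool.rec (Nat.shiftRight leaf1715 sh) (Nat.shiftRight leaf1716 sh) (Nat.ble 1716 i)
noncomputable def s1714_1717 (i sh : Nat) : Nat := Bool.rec (Nat.shiftRight leaf1714 sh) (s1715_1717 i sh) (Nat.ble 1715 i)
noncomputable def s1712_1717 (i sh : Nat) : Nat := Bool.rec (s1712_1714 i sh) (s1714_1717 i sh) (Nat.ble 1714 i)
noncomputable def s1717_1719 (i sh : Nat) : Nat := Bool.rec (Nat.shiftRight leaf1717 sh) (Nat.shiftRight leaf1718 sh) (Nat.ble 1718 i)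
noncomputable def s1720_1722 (i sh : Nat) : Nat := Bool.rec (Nat.shiftRight leaf1720 sh) (Nat.shiftRight leaf1721 sh) (Nat.ble 1721 i)
noncomputable def s1719_1722 (i sh : Nat) : Nat := Bool.rec (Nat.shiftRight leaf1719 sh) (s1720_1722 i sh) (Nat.ble 1720 i)
noncomputable def s1717_1722 (i sh : Nat) : Nat := Bool.rec (s1717_1719 i sh) (s1719_1722 i sh) (Nat.ble 1719 i)
noncomputable def s1712_1722 (i sh : Nat) : Nat := Bool.rec (s1712_1717 i sh) (s1717_1722 i sh) (Nat.ble 1717 i)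
noncomputable def s1722_1724 (i sh : Nat) : Nat := Bool.rec (Nat.shiftRight leaf1722 sh) (Nat.shiftRight leaf1723 sh) (Nat.ble 1723 i)
noncomputable def s1725_1727 (i sh : Nat) : Nat := Bool.rec (Nat.shiftRight leaf1725 sh) (Nat.shiftRight leaf1726 sh) (Nat.ble 1726 i)
noncomputable def s1724_1727 (i sh : Nat) : Nat := Bool.rec (Nat.shiftRight leaf1724 sh) (s1725_1727 i sh) (Nat.ble 1725 i)
noncomputable def s1722_1727 (i sh : Nat) : Nat := Bool.rec (s1722_1724 i sh) (s1724_1727 i sh) (Nat.ble 1724 i)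
noncomputable def s1727_1729 (i sh : Nat) : Nat := Bool.rec (Nat.shiftRight leaf1727 sh) (Nat.shiftRight leaf1728 sh) (Nat.ble 1728 i)
noncomputable def s1730_1732 (i sh : Nat) : Nat := Bool.rec (Nat.shiftRight leaf1730 sh) (Nat.shiftRight leaf1731 sh) (Nat.ble 1731 i)
noncomputable def s1729_1732 (i sh : Nat) : Nat := Bool.rec (Nat.shiftRight leaf1729 sh) (s1730_1732 i sh) (Nat.ble 1730 i)
noncomputable def s1727_1732 (i sh : Nat) : Nat := Bool.rec (s1727_1729 i sh) (s1729_1732 i sh) (Nat.ble 1729 i)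
noncomputable def s1722_1732 (i sh : Nat) : Nat := Bool.rec (s1722_1727 i sh) (s1727_1732 i sh) (Nat.ble 1727 i)
noncomputable def s1712_1732 (i sh : Nat) : Nat := Bool.rec (s1712_1722 i sh) (s1722_1732 i sh) (Nat.ble 1722 i)
noncomputable def s1692_1732 (i sh : Nat) : Nat := Bool.rec (s1692_1712 i sh) (s1712_1732 i sh) (Nat.ble 1712 i)
noncomputable def s1732_1734 (i sh : Nat) : Nat := Bool.rec (Nat.shiftRight leaf1732 sh) (Nat.shiftRight leaf1733 sh) (Nat.ble 1733 i)
noncomputable def s1735_1737 (i sh : Nat) : Nat := Bool.rec (Nat.shiftRight leaf1735 sh) (Nat.shiftRight leaf1736 sh) (Nat.ble 1736 i)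
noncomputable def s1734_1737 (i sh : Nat) : Nat := Bool.rec (Nat.shiftRight leaf1734 sh) (s1735_1737 i sh) (Nat.ble 1735 i)
noncomputable def s1732_1737 (i sh : Nat) : Nat := Bool.rec (s1732_1734 i sh) (s1734_1737 i sh) (Nat.ble 1734 i)
noncomputable def s1737_1739 (i sh : Nat) : Nat := Bool.rec (Nat.shiftRight leaf1737 sh) (Nat.shiftRight leaf1738 sh) (Nat.ble 1738 i)
noncomputable def s1740_1742 (i sh : Nat) : Nat := Bool.rec (Nat.shiftRight leaf1740 sh) (Nat.shiftRight leaf1741 sh) (Nat.ble 1741 i)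
noncomputable def s1739_1742 (i sh : Nat) : Nat := Bool.rec (Nat.shiftRight leaf1739 sh) (s1740_1742 i sh) (Nat.ble 1740 i)
noncomputable def s1737_1742 (i sh : Nat) : Nat := Bool.rec (s1737_1739 i sh) (s1739_1742 i sh) (Nat.ble 1739 i)
noncomputable def s1732_1742 (i sh : Nat) : Nat := Bool.rec (s1732_1737 i sh) (s1737_1742 i sh) (Nat.ble 1737 i)
noncomputable def s1742_1744 (i sh : Nat) : Nat := Bool.rec (Nat.shiftRight leaf1742 sh) (Nat.shiftRight leaf1743 sh) (Nat.ble 1743 i)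
noncomputable def s1745_1747 (i sh : Nat) : Nat := Bool.rec (Nat.shiftRight leaf1745 sh) (Nat.shiftRight leaf1746 sh) (Nat.ble 1746 i)
noncomputable def s1744_1747 (i sh : Nat) : Nat := Bool.rec (Nat.shiftRight leaf1744 sh) (s1745_1747 i sh) (Nat.ble 1745 i)
noncomputable def s1742_1747 (i sh : Nat) : Nat := Bool.rec (s1742_1744 i sh) (s1744_1747 i sh) (Nat.ble 1744 i)
noncomputable def s1747_1749 (i sh : Nat) : Nat := Bool.rec (Nat.shiftRight leaf1747 sh) (Nat.shiftRight leaf1748 sh) (Nat.ble 1748 i)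
noncomputable def s1750_1752 (i sh : Nat) : Nat := Bool.rec (Nat.shiftRight leaf1750 sh) (Nat.shiftRight leaf1751 sh) (Nat.ble 1751 i)
noncomputable def s1749_1752 (i sh : Nat) : Nat := Bool.rec (Nat.shiftRight leaf1749 sh) (s1750_1752 i sh) (Nat.ble 1750 i)
noncomputable def s1747_1752 (i sh : Nat) : Nat := Bool.rec (s1747_1749 i sh) (s1749_1752 i sh) (Nat.ble 1749 i)
noncomputable def s1742_1752 (i sh : Nat) : Nat := Bool.rec (s1742_1747 i sh) (s1747_1752 i sh) (Nat.ble 1747 i)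
noncomputable def s1732_1752 (i sh : Nat) : Nat := Bool.rec (s1732_1742 i sh) (s1742_1752 i sh) (Nat.ble 1742 i)
noncomputable def s1752_1754 (i sh : Nat) : Nat := Bool.rec (Nat.shiftRight leaf1752 sh) (Nat.shiftRight leaf1753 sh) (Nat.ble 1753 i)
noncomputable def s1755_1757 (i sh : Nat) : Nat := Bool.rec (Nat.shiftRight leaf1755 sh) (Nat.shiftRight leaf1756 sh) (Nat.ble 1756 i)
noncomputable def s1754_1757 (i sh : Nat) : Nat := Bool.rec (Nat.shiftRight leaf1754 sh) (s1755_1757 i sh) (Nat.ble 1755 i)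
noncomputable def s1752_1757 (i sh : Nat) : Nat := Bool.rec (s1752_1754 i sh) (s1754_1757 i sh) (Nat.ble 1754 i)
noncomputable def s1757_1759 (i sh : Nat) : Nat := Bool.rec (Nat.shiftRight leaf1757 sh) (Nat.shiftRight leaf1758 sh) (Nat.ble 1758 i)
noncomputable def s1760_1762 (i sh : Nat) : Nat := Bool.rec (Nat.shiftRight leaf1760 sh) (Nat.shiftRight leaf1761 sh) (Nat.ble 1761 i)
noncomputable def s1759_1762 (i sh : Nat) : Nat := Bool.rec (Nat.shiftRight leaf1759 sh) (s1760_1762 i sh) (Nat.ble 1760 i)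
noncomputable def s1757_1762 (i sh : Nat) : Nat := Bool.rec (s1757_1759 i sh) (s1759_1762 i sh) (Nat.ble 1759 i)
noncomputable def s1752_1762 (i sh : Nat) : Nat := Bool.rec (s1752_1757 i sh) (s1757_1762 i sh) (Nat.ble 1757 i)
noncomputable def s1762_1764 (i sh : Nat) : Nat := Bool.rec (Nat.shiftRight leaf1762 sh) (Nat.shiftRight leaf1763 sh) (Nat.ble 1763 i)
noncomputable def s1765_1767 (i sh : Nat) : Nat := Bool.rec (Nat.shiftRight leaf1765 sh) (Nat.shiftRight leaf1766 sh) (Nat.ble 1766 i)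
noncomputable def s1764_1767 (i sh : Nat) : Nat := Bool.rec (Nat.shiftRight leaf1764 sh) (s1765_1767 i sh) (Nat.ble 1765 i)
noncomputable def s1762_1767 (i sh : Nat) : Nat := Bool.rec (s1762_1764 i sh) (s1764_1767 i sh) (Nat.ble 1764 i)
noncomputable def s1768_1770 (i sh : Nat) : Nat := Bool.rec (Nat.shiftRight leaf1768 sh) (Nat.shiftRight leaf1769 sh) (Nat.ble 1769 i)
noncomputable def s1767_1770 (i sh : Nat) : Nat := Bool.rec (Nat.shiftRight leaf1767 sh) (s1768_1770 i sh) (Nat.ble 1768 i)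
noncomputable def s1771_1773 (i sh : Nat) : Nat := Bool.rec (Nat.shiftRight leaf1771 sh) (Nat.shiftRight leaf1772 sh) (Nat.ble 1772 i)
noncomputable def s1770_1773 (i sh : Nat) : Nat := Bool.rec (Nat.shiftRight leaf1770 sh) (s1771_1773 i sh) (Nat.ble 1771 i)
noncomputable def s1767_1773 (i sh : Nat) : Nat := Bool.rec (s1767_1770 i sh) (s1770_1773 i sh) (Nat.ble 1770 i)
noncomputable def s1762_1773 (i sh : Nat) : Nat := Bool.rec (s1762_1767 i sh) (s1767_1773 i sh) (Nat.ble 1767 i)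
noncomputable def s1752_1773 (i sh : Nat) : Nat := Bool.rec (s1752_1762 i sh) (s1762_1773 i sh) (Nat.ble 1762 i)
noncomputable def s1732_1773 (i sh : Nat) : Nat := Bool.rec (s1732_1752 i sh) (s1752_1773 i sh) (Nat.ble 1752 i)
noncomputable def s1692_1773 (i sh : Nat) : Nat := Bool.rec (s1692_1732 i sh) (s1732_1773 i sh) (Nat.ble 1732 i)
noncomputable def s1612_1773 (i sh : Nat) : Nat := Bool.rec (s1612_1692 i sh) (s1692_1773 i sh) (Nat.ble 1692 i)
noncomputable def s1773_1775 (i sh : Nat) : Nat := Bool.rec (Nat.shiftRight leaf1773 sh) (Nat.shiftRight leaf1774 sh) (Nat.ble 1774 i)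
noncomputable def s1776_1778 (i sh : Nat) : Nat := Bool.rec (Nat.shiftRight leaf1776 sh) (Nat.shiftRight leaf1777 sh) (Nat.ble 1777 i)
noncomputable def s1775_1778 (i sh : Nat) : Nat := Bool.rec (Nat.shiftRight leaf1775 sh) (s1776_1778 i sh) (Nat.ble 1776 i)
noncomputable def s1773_1778 (i sh : Nat) : Nat := Bool.rec (s1773_1775 i sh) (s1775_1778 i sh) (Nat.ble 1775 i)
noncomputable def s1778_1780 (i sh : Nat) : Nat := Bool.rec (Nat.shiftRight leaf1778 sh) (Nat.shiftRight leaf1779 sh) (Nat.ble 1779 i)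
noncomputable def s1781_1783 (i sh : Nat) : Nat := Bool.rec (Nat.shiftRight leaf1781 sh) (Nat.shiftRight leaf1782 sh) (Nat.ble 1782 i)
noncomputable def s1780_1783 (i sh : Nat) : Nat := Bool.rec (Nat.shiftRight leaf1780 sh) (s1781_1783 i sh) (Nat.ble 1781 i)
noncomputable def s1778_1783 (i sh : Nat) : Nat := Bool.rec (s1778_1780 i sh) (s1780_1783 i sh) (Nat.ble 1780 i)
noncomputable def s1773_1783 (i sh : Nat) : Nat := Bool.rec (s1773_1778 i sh) (s1778_1783 i sh) (Nat.ble 1778 i)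
noncomputable def s1783_1785 (i sh : Nat) : Nat := Bool.rec (Nat.shiftRight leaf1783 sh) (Nat.shiftRight leaf1784 sh) (Nat.ble 1784 i)
noncomputable def s1786_1788 (i sh : Nat) : Nat := Bool.rec (Nat.shiftRight leaf1786 sh) (Nat.shiftRight leaf1787 sh) (Nat.ble 1787 i)
noncomputable def s1785_1788 (i sh : Nat) : Nat := Bool.rec (Nat.shiftRight leaf1785 sh) (s1786_1788 i sh) (Nat.ble 1786 i)
noncomputable def s1783_1788 (i sh : Nat) : Nat := Bool.rec (s1783_1785 i sh) (s1785_1788 i sh) (Nat.ble 1785 i)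
noncomputable def s1788_1790 (i sh : Nat) : Nat := Bool.rec (Nat.shiftRight leaf1788 sh) (Nat.shiftRight leaf1789 sh) (Nat.ble 1789 i)
noncomputable def s1791_1793 (i sh : Nat) : Nat := Bool.rec (Nat.shiftRight leaf1791 sh) (Nat.shiftRight leaf1792 sh) (Nat.ble 1792 i)
noncomputable def s1790_1793 (i sh : Nat) : Nat := Bool.rec (Nat.shiftRight leaf1790 sh) (s1791_1793 i sh) (Nat.ble 1791 i)
noncomputable def s1788_1793 (i sh : Nat) : Nat := Bool.rec (s1788_1790 i sh) (s1790_1793 i sh) (Nat.ble 1790 i)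
noncomputable def s1783_1793 (i sh : Nat) : Nat := Bool.rec (s1783_1788 i sh) (s1788_1793 i sh) (Nat.ble 1788 i)
noncomputable def s1773_1793 (i sh : Nat) : Nat := Bool.rec (s1773_1783 i sh) (s1783_1793 i sh) (Nat.ble 1783 i)
noncomputable def s1793_1795 (i sh : Nat) : Nat := Bool.rec (Nat.shiftRight leaf1793 sh) (Nat.shiftRight leaf1794 sh) (Nat.ble 1794 i)
noncomputable def s1796_1798 (i sh : Nat) : Nat := Bool.rec (Nat.shiftRight leaf1796 sh) (Nat.shiftRight leaf1797 sh) (Nat.ble 1797 i)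
noncomputable def s1795_1798 (i sh : Nat) : Nat := Bool.rec (Nat.shiftRight leaf1795 sh) (s1796_1798 i sh) (Nat.ble 1796 i)
noncomputable def s1793_1798 (i sh : Nat) : Nat := Bool.rec (s1793_1795 i sh) (s1795_1798 i sh) (Nat.ble 1795 i)
noncomputable def s1798_1800 (i sh : Nat) : Nat := Bool.rec (Nat.shiftRight leaf1798 sh) (Nat.shiftRight leaf1799 sh) (Nat.ble 1799 i)
noncomputable def s1801_1803 (i sh : Nat) : Nat := Bool.rec (Nat.shiftRight leaf1801 sh) (Nat.shiftRight leaf1802 sh) (Nat.ble 1802 i)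
noncomputable def s1800_1803 (i sh : Nat) : Nat := Bool.rec (Nat.shiftRight leaf1800 sh) (s1801_1803 i sh) (Nat.ble 1801 i)
noncomputable def s1798_1803 (i sh : Nat) : Nat := Bool.rec (s1798_1800 i sh) (s1800_1803 i sh) (Nat.ble 1800 i)
noncomputable def s1793_1803 (i sh : Nat) : Nat := Bool.rec (s1793_1798 i sh) (s1798_1803 i sh) (Nat.ble 1798 i)
noncomputable def s1803_1805 (i sh : Nat) : Nat := Bool.rec (Nat.shiftRight leaf1803 sh) (Nat.shiftRight leaf1804 sh) (Nat.ble 1804 i)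
noncomputable def s1806_1808 (i sh : Nat) : Nat := Bool.rec (Nat.shiftRight leaf1806 sh) (Nat.shiftRight leaf1807 sh) (Nat.ble 1807 i)
noncomputable def s1805_1808 (i sh : Nat) : Nat := Bool.rec (Nat.shiftRight leaf1805 sh) (s1806_1808 i sh) (Nat.ble 1806 i)
noncomputable def s1803_1808 (i sh : Nat) : Nat := Bool.rec (s1803_1805 i sh) (s1805_1808 i sh) (Nat.ble 1805 i)
noncomputable def s1808_1810 (i sh : Nat) : Nat := Bool.rec (Nat.shiftRight leaf1808 sh) (Nat.shiftRight leaf1809 sh) (Nat.ble 1809 i)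
noncomputable def s1811_1813 (i sh : Nat) : Nat := Bool.rec (Nat.shiftRight leaf1811 sh) (Nat.shiftRight leaf1812 sh) (Nat.ble 1812 i)
noncomputable def s1810_1813 (i sh : Nat) : Nat := Bool.rec (Nat.shiftRight leaf1810 sh) (s1811_1813 i sh) (Nat.ble 1811 i)
noncomputable def s1808_1813 (i sh : Nat) : Nat := Bool.rec (s1808_1810 i sh) (s1810_1813 i sh) (Nat.ble 1810 i)
noncomputable def s1803_1813 (i sh : Nat) : Nat := Bool.rec (s1803_1808 i sh) (s1808_1813 i sh) (Nat.ble 1808 i)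
noncomputable def s1793_1813 (i sh : Nat) : Nat := Bool.rec (s1793_1803 i sh) (s1803_1813 i sh) (Nat.ble 1803 i)
noncomputable def s1773_1813 (i sh : Nat) : Nat := Bool.rec (s1773_1793 i sh) (s1793_1813 i sh) (Nat.ble 1793 i)
noncomputable def s1813_1815 (i sh : Nat) : Nat := Bool.rec (Nat.shiftRight leaf1813 sh) (Nat.shiftRight leaf1814 sh) (Nat.ble 1814 i)
noncomputable def s1816_1818 (i sh : Nat) : Nat := Bool.rec (Nat.shiftRight leaf1816 sh) (Nat.shiftRight leaf1817 sh) (Nat.ble 1817 i)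
noncomputable def s1815_1818 (i sh : Nat) : Nat := Bool.rec (Nat.shiftRight leaf1815 sh) (s1816_1818 i sh) (Nat.ble 1816 i)
noncomputable def s1813_1818 (i sh : Nat) : Nat := Bool.rec (s1813_1815 i sh) (s1815_1818 i sh) (Nat.ble 1815 i)
noncomputable def s1818_1820 (i sh : Nat) : Nat := Bool.rec (Nat.shiftRight leaf1818 sh) (Nat.shiftRight leaf1819 sh) (Nat.ble 1819 i)
noncomputable def s1821_1823 (i sh : Nat) : Nat := Bool.rec (Nat.shiftRight leaf1821 sh) (Nat.shiftRight leaf1822 sh) (Nat.ble 1822 i)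
noncomputable def s1820_1823 (i sh : Nat) : Nat := Bool.rec (Nat.shiftRight leaf1820 sh) (s1821_1823 i sh) (Nat.ble 1821 i)
noncomputable def s1818_1823 (i sh : Nat) : Nat := Bool.rec (s1818_1820 i sh) (s1820_1823 i sh) (Nat.ble 1820 i)
noncomputable def s1813_1823 (i sh : Nat) : Nat := Bool.rec (s1813_1818 i sh) (s1818_1823 i sh) (Nat.ble 1818 i)
noncomputable def s1823_1825 (i sh : Nat) : Nat := Bool.rec (Nat.shiftRight leaf1823 sh) (Nat.shiftRight leaf1824 sh) (Nat.ble 1824 i)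
noncomputable def s1826_1828 (i sh : Nat) : Nat := Bool.rec (Nat.shiftRight leaf1826 sh) (Nat.shiftRight leaf1827 sh) (Nat.ble 1827 i)
noncomputable def s1825_1828 (i sh : Nat) : Nat := Bool.rec (Nat.shiftRight leaf1825 sh) (s1826_1828 i sh) (Nat.ble 1826 i)
noncomputable def s1823_1828 (i sh : Nat) : Nat := Bool.rec (s1823_1825 i sh) (s1825_1828 i sh) (Nat.ble 1825 i)
noncomputable def s1828_1830 (i sh : Nat) : Nat := Bool.rec (Nat.shiftRight leaf1828 sh) (Nat.shiftRight leaf1829 sh) (Nat.ble 1829 i)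
noncomputable def s1831_1833 (i sh : Nat) : Nat := Bool.rec (Nat.shiftRight leaf1831 sh) (Nat.shiftRight leaf1832 sh) (Nat.ble 1832 i)
noncomputable def s1830_1833 (i sh : Nat) : Nat := Bool.rec (Nat.shiftRight leaf1830 sh) (s1831_1833 i sh) (Nat.ble 1831 i)
noncomputable def s1828_1833 (i sh : Nat) : Nat := Bool.rec (s1828_1830 i sh) (s1830_1833 i sh) (Nat.ble 1830 i)
noncomputable def s1823_1833 (i sh : Nat) : Nat := Bool.rec (s1823_1828 i sh) (s1828_1833 i sh) (Nat.ble 1828 i)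
noncomputable def s1813_1833 (i sh : Nat) : Nat := Bool.rec (s1813_1823 i sh) (s1823_1833 i sh) (Nat.ble 1823 i)
noncomputable def s1833_1835 (i sh : Nat) : Nat := Bool.rec (Nat.shiftRight leaf1833 sh) (Nat.shiftRight leaf1834 sh) (Nat.ble 1834 i)
noncomputable def s1836_1838 (i sh : Nat) : Nat := Bool.rec (Nat.shiftRight leaf1836 sh) (Nat.shiftRight leaf1837 sh) (Nat.ble 1837 i)
noncomputable def s1835_1838 (i sh : Nat) : Nat := Bool.rec (Nat.shiftRight leaf1835 sh) (s1836_1838 i sh) (Nat.ble 1836 i)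
noncomputable def s1833_1838 (i sh : Nat) : Nat := Bool.rec (s1833_1835 i sh) (s1835_1838 i sh) (Nat.ble 1835 i)
noncomputable def s1838_1840 (i sh : Nat) : Nat := Bool.rec (Nat.shiftRight leaf1838 sh) (Nat.shiftRight leaf1839 sh) (Nat.ble 1839 i)
noncomputable def s1841_1843 (i sh : Nat) : Nat := Bool.rec (Nat.shiftRight leaf1841 sh) (Nat.shiftRight leaf1842 sh) (Nat.ble 1842 i)
noncomputable def s1840_1843 (i sh : Nat) : Nat := Bool.rec (Nat.shiftRight leaf1840 sh) (s1841_1843 i sh) (Nat.ble 1841 i)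
noncomputable def s1838_1843 (i sh : Nat) : Nat := Bool.rec (s1838_1840 i sh) (s1840_1843 i sh) (Nat.ble 1840 i)
noncomputable def s1833_1843 (i sh : Nat) : Nat := Bool.rec (s1833_1838 i sh) (s1838_1843 i sh) (Nat.ble 1838 i)
noncomputable def s1843_1845 (i sh : Nat) : Nat := Bool.rec (Nat.shiftRight leaf1843 sh) (Nat.shiftRight leaf1844 sh) (Nat.ble 1844 i)
noncomputable def s1846_1848 (i sh : Nat) : Nat := Bool.rec (Nat.shiftRight leaf1846 sh) (Nat.shiftRight leaf1847 sh) (Nat.ble 1847 i)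
noncomputable def s1845_1848 (i sh : Nat) : Nat := Bool.rec (Nat.shiftRight leaf1845 sh) (s1846_1848 i sh) (Nat.ble 1846 i)
noncomputable def s1843_1848 (i sh : Nat) : Nat := Bool.rec (s1843_1845 i sh) (s1845_1848 i sh) (Nat.ble 1845 i)
noncomputable def s1849_1851 (i sh : Nat) : Nat := Bool.rec (Nat.shiftRight leaf1849 sh) (Nat.shiftRight leaf1850 sh) (Nat.ble 1850 i)
noncomputable def s1848_1851 (i sh : Nat) : Nat := Bool.rec (Nat.shiftRight leaf1848 sh) (s1849_1851 i sh) (Nat.ble 1849 i)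
noncomputable def s1852_1854 (i sh : Nat) : Nat := Bool.rec (Nat.shiftRight leaf1852 sh) (Nat.shiftRight leaf1853 sh) (Nat.ble 1853 i)
noncomputable def s1851_1854 (i sh : Nat) : Nat := Bool.rec (Nat.shiftRight leaf1851 sh) (s1852_1854 i sh) (Nat.ble 1852 i)
noncomputable def s1848_1854 (i sh : Nat) : Nat := Bool.rec (s1848_1851 i sh) (s1851_1854 i sh) (Nat.ble 1851 i)
noncomputable def s1843_1854 (i sh : Nat) : Nat := Bool.rec (s1843_1848 i sh) (s1848_1854 i sh) (Nat.ble 1848 i)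
noncomputable def s1833_1854 (i sh : Nat) : Nat := Bool.rec (s1833_1843 i sh) (s1843_1854 i sh) (Nat.ble 1843 i)
noncomputable def s1813_1854 (i sh : Nat) : Nat := Bool.rec (s1813_1833 i sh) (s1833_1854 i sh) (Nat.ble 1833 i)
noncomputable def s1773_1854 (i sh : Nat) : Nat := Bool.rec (s1773_1813 i sh) (s1813_1854 i sh) (Nat.ble 1813 i)
noncomputable def s1854_1856 (i sh : Nat) : Nat := Bool.rec (Nat.shiftRight leaf1854 sh) (Nat.shiftRight leaf1855 sh) (Nat.ble 1855 i)
noncomputable def s1857_1859 (i sh : Nat) : Nat := Bool.rec (Nat.shiftRight leaf1857 sh) (Nat.shiftRight leaf1858 sh) (Nat.ble 1858 i)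
noncomputable def s1856_1859 (i sh : Nat) : Nat := Bool.rec (Nat.shiftRight leaf1856 sh) (s1857_1859 i sh) (Nat.ble 1857 i)
noncomputable def s1854_1859 (i sh : Nat) : Nat := Bool.rec (s1854_1856 i sh) (s1856_1859 i sh) (Nat.ble 1856 i)
noncomputable def s1859_1861 (i sh : Nat) : Nat := Bool.rec (Nat.shiftRight leaf1859 sh) (Nat.shiftRight leaf1860 sh) (Nat.ble 1860 i)
noncomputable def s1862_1864 (i sh : Nat) : Nat := Bool.rec (Nat.shiftRight leaf1862 sh) (Nat.shiftRight leaf1863 sh) (Nat.ble 1863 i)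
noncomputable def s1861_1864 (i sh : Nat) : Nat := Bool.rec (Nat.shiftRight leaf1861 sh) (s1862_1864 i sh) (Nat.ble 1862 i)
noncomputable def s1859_1864 (i sh : Nat) : Nat := Bool.rec (s1859_1861 i sh) (s1861_1864 i sh) (Nat.ble 1861 i)
noncomputable def s1854_1864 (i sh : Nat) : Nat := Bool.rec (s1854_1859 i sh) (s1859_1864 i sh) (Nat.ble 1859 i)
noncomputable def s1864_1866 (i sh : Nat) : Nat := Bool.rec (Nat.shiftRight leaf1864 sh) (Nat.shiftRight leaf1865 sh) (Nat.ble 1865 i)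
noncomputable def s1867_1869 (i sh : Nat) : Nat := Bool.rec (Nat.shiftRight leaf1867 sh) (Nat.shiftRight leaf1868 sh) (Nat.ble 1868 i)
noncomputable def s1866_1869 (i sh : Nat) : Nat := Bool.rec (Nat.shiftRight leaf1866 sh) (s1867_1869 i sh) (Nat.ble 1867 i)
noncomputable def s1864_1869 (i sh : Nat) : Nat := Bool.rec (s1864_1866 i sh) (s1866_1869 i sh) (Nat.ble 1866 i)
noncomputable def s1869_1871 (i sh : Nat) : Nat := Bool.rec (Nat.shiftRight leaf1869 sh) (Nat.shiftRight leaf1870 sh) (Nat.ble 1870 i)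
noncomputable def s1872_1874 (i sh : Nat) : Nat := Bool.rec (Nat.shiftRight leaf1872 sh) (Nat.shiftRight leaf1873 sh) (Nat.ble 1873 i)
noncomputable def s1871_1874 (i sh : Nat) : Nat := Bool.rec (Nat.shiftRight leaf1871 sh) (s1872_1874 i sh) (Nat.ble 1872 i)
noncomputable def s1869_1874 (i sh : Nat) : Nat := Bool.rec (s1869_1871 i sh) (s1871_1874 i sh) (Nat.ble 1871 i)
noncomputable def s1864_1874 (i sh : Nat) : Nat := Bool.rec (s1864_1869 i sh) (s1869_1874 i sh) (Nat.ble 1869 i)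
noncomputable def s1854_1874 (i sh : Nat) : Nat := Bool.rec (s1854_1864 i sh) (s1864_1874 i sh) (Nat.ble 1864 i)
noncomputable def s1874_1876 (i sh : Nat) : Nat := Bool.rec (Nat.shiftRight leaf1874 sh) (Nat.shiftRight leaf1875 sh) (Nat.ble 1875 i)
noncomputable def s1877_1879 (i sh : Nat) : Nat := Bool.rec (Nat.shiftRight leaf1877 sh) (Nat.shiftRight leaf1878 sh) (Nat.ble 1878 i)
noncomputable def s1876_1879 (i sh : Nat) : Nat := Bool.rec (Nat.shiftRight leaf1876 sh) (s1877_1879 i sh) (Nat.ble 1877 i)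
noncomputable def s1874_1879 (i sh : Nat) : Nat := Bool.rec (s1874_1876 i sh) (s1876_1879 i sh) (Nat.ble 1876 i)
noncomputable def s1879_1881 (i sh : Nat) : Nat := Bool.rec (Nat.shiftRight leaf1879 sh) (Nat.shiftRight leaf1880 sh) (Nat.ble 1880 i)
noncomputable def s1882_1884 (i sh : Nat) : Nat := Bool.rec (Nat.shiftRight leaf1882 sh) (Nat.shiftRight leaf1883 sh) (Nat.ble 1883 i)
noncomputable def s1881_1884 (i sh : Nat) : Nat := Bool.rec (Nat.shiftRight leaf1881 sh) (s1882_1884 i sh) (Nat.ble 1882 i)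
noncomputable def s1879_1884 (i sh : Nat) : Nat := Bool.rec (s1879_1881 i sh) (s1881_1884 i sh) (Nat.ble 1881 i)
noncomputable def s1874_1884 (i sh : Nat) : Nat := Bool.rec (s1874_1879 i sh) (s1879_1884 i sh) (Nat.ble 1879 i)
noncomputable def s1884_1886 (i sh : Nat) : Nat := Bool.rec (Nat.shiftRight leaf1884 sh) (Nat.shiftRight leaf1885 sh) (Nat.ble 1885 i)
noncomputable def s1887_1889 (i sh : Nat) : Nat := Bool.rec (Nat.shiftRight leaf1887 sh) (Nat.shiftRight leaf1888 sh) (Nat.ble 1888 i)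
noncomputable def s1886_1889 (i sh : Nat) : Nat := Bool.rec (Nat.shiftRight leaf1886 sh) (s1887_1889 i sh) (Nat.ble 1887 i)
noncomputable def s1884_1889 (i sh : Nat) : Nat := Bool.rec (s1884_1886 i sh) (s1886_1889 i sh) (Nat.ble 1886 i)
noncomputable def s1889_1891 (i sh : Nat) : Nat := Bool.rec (Nat.shiftRight leaf1889 sh) (Nat.shiftRight leaf1890 sh) (Nat.ble 1890 i)
noncomputable def s1892_1894 (i sh : Nat) : Nat := Bool.rec (Nat.shiftRight leaf1892 sh) (Nat.shiftRight leaf1893 sh) (Nat.ble 1893 i)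
noncomputable def s1891_1894 (i sh : Nat) : Nat := Bool.rec (Nat.shiftRight leaf1891 sh) (s1892_1894 i sh) (Nat.ble 1892 i)
noncomputable def s1889_1894 (i sh : Nat) : Nat := Bool.rec (s1889_1891 i sh) (s1891_1894 i sh) (Nat.ble 1891 i)
noncomputable def s1884_1894 (i sh : Nat) : Nat := Bool.rec (s1884_1889 i sh) (s1889_1894 i sh) (Nat.ble 1889 i)
noncomputable def s1874_1894 (i sh : Nat) : Nat := Bool.rec (s1874_1884 i sh) (s1884_1894 i sh) (Nat.ble 1884 i)
noncomputable def s1854_1894 (i sh : Nat) : Nat := Bool.rec (s1854_1874 i sh) (s1874_1894 i sh) (Nat.ble 1874 i)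
noncomputable def s1894_1896 (i sh : Nat) : Nat := Bool.rec (Nat.shiftRight leaf1894 sh) (Nat.shiftRight leaf1895 sh) (Nat.ble 1895 i)
noncomputable def s1897_1899 (i sh : Nat) : Nat := Bool.rec (Nat.shiftRight leaf1897 sh) (Nat.shiftRight leaf1898 sh) (Nat.ble 1898 i)
noncomputable def s1896_1899 (i sh : Nat) : Nat := Bool.rec (Nat.shiftRight leaf1896 sh) (s1897_1899 i sh) (Nat.ble 1897 i)
noncomputable def s1894_1899 (i sh : Nat) : Nat := Bool.rec (s1894_1896 i sh) (s1896_1899 i sh) (Nat.ble 1896 i)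
noncomputable def s1899_1901 (i sh : Nat) : Nat := Bool.rec (Nat.shiftRight leaf1899 sh) (Nat.shiftRight leaf1900 sh) (Nat.ble 1900 i)
noncomputable def s1902_1904 (i sh : Nat) : Nat := Bool.rec (Nat.shiftRight leaf1902 sh) (Nat.shiftRight leaf1903 sh) (Nat.ble 1903 i)
noncomputable def s1901_1904 (i sh : Nat) : Nat := Bool.rec (Nat.shiftRight leaf1901 sh) (s1902_1904 i sh) (Nat.ble 1902 i)
noncomputable def s1899_1904 (i sh : Nat) : Nat := Bool.rec (s1899_1901 i sh) (s1901_1904 i sh) (Nat.ble 1901 i)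
noncomputable def s1894_1904 (i sh : Nat) : Nat := Bool.rec (s1894_1899 i sh) (s1899_1904 i sh) (Nat.ble 1899 i)
noncomputable def s1904_1906 (i sh : Nat) : Nat := Bool.rec (Nat.shiftRight leaf1904 sh) (Nat.shiftRight leaf1905 sh) (Nat.ble 1905 i)
noncomputable def s1907_1909 (i sh : Nat) : Nat := Bool.rec (Nat.shiftRight leaf1907 sh) (Nat.shiftRight leaf1908 sh) (Nat.ble 1908 i)
noncomputable def s1906_1909 (i sh : Nat) : Nat := Bool.rec (Nat.shiftRight leaf1906 sh) (s1907_1909 i sh) (Nat.ble 1907 i)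
noncomputable def s1904_1909 (i sh : Nat) : Nat := Bool.rec (s1904_1906 i sh) (s1906_1909 i sh) (Nat.ble 1906 i)
noncomputable def s1909_1911 (i sh : Nat) : Nat := Bool.rec (Nat.shiftRight leaf1909 sh) (Nat.shiftRight leaf1910 sh) (Nat.ble 1910 i)
noncomputable def s1912_1914 (i sh : Nat) : Nat := Bool.rec (Nat.shiftRight leaf1912 sh) (Nat.shiftRight leaf1913 sh) (Nat.ble 1913 i)
noncomputable def s1911_1914 (i sh : Nat) : Nat := Bool.rec (Nat.shiftRight leaf1911 sh) (s1912_1914 i sh) (Nat.ble 1912 i)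
noncomputable def s1909_1914 (i sh : Nat) : Nat := Bool.rec (s1909_1911 i sh) (s1911_1914 i sh) (Nat.ble 1911 i)
noncomputable def s1904_1914 (i sh : Nat) : Nat := Bool.rec (s1904_1909 i sh) (s1909_1914 i sh) (Nat.ble 1909 i)
noncomputable def s1894_1914 (i sh : Nat) : Nat := Bool.rec (s1894_1904 i sh) (s1904_1914 i sh) (Nat.ble 1904 i)
noncomputable def s1914_1916 (i sh : Nat) : Nat := Bool.rec (Nat.shiftRight leaf1914 sh) (Nat.shiftRight leaf1915 sh) (Nat.ble 1915 i)
noncomputable def s1917_1919 (i sh : Nat) : Nat := Bool.rec (Nat.shiftRight leaf1917 sh) (Nat.shiftRight leaf1918 sh) (Nat.ble 1918 i)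
noncomputable def s1916_1919 (i sh : Nat) : Nat := Bool.rec (Nat.shiftRight leaf1916 sh) (s1917_1919 i sh) (Nat.ble 1917 i)
noncomputable def s1914_1919 (i sh : Nat) : Nat := Bool.rec (s1914_1916 i sh) (s1916_1919 i sh) (Nat.ble 1916 i)
noncomputable def s1919_1921 (i sh : Nat) : Nat := Bool.rec (Nat.shiftRight leaf1919 sh) (Nat.shiftRight leaf1920 sh) (Nat.ble 1920 i)
noncomputable def s1922_1924 (i sh : Nat) : Nat := Bool.rec (Nat.shiftRight leaf1922 sh) (Nat.shiftRight leaf1923 sh) (Nat.ble 1923 i)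
noncomputable def s1921_1924 (i sh : Nat) : Nat := Bool.rec (Nat.shiftRight leaf1921 sh) (s1922_1924 i sh) (Nat.ble 1922 i)
noncomputable def s1919_1924 (i sh : Nat) : Nat := Bool.rec (s1919_1921 i sh) (s1921_1924 i sh) (Nat.ble 1921 i)
noncomputable def s1914_1924 (i sh : Nat) : Nat := Bool.rec (s1914_1919 i sh) (s1919_1924 i sh) (Nat.ble 1919 i)
noncomputable def s1924_1926 (i sh : Nat) : Nat := Bool.rec (Nat.shiftRight leaf1924 sh) (Nat.shiftRight leaf1925 sh) (Nat.ble 1925 i)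
noncomputable def s1927_1929 (i sh : Nat) : Nat := Bool.rec (Nat.shiftRight leaf1927 sh) (Nat.shiftRight leaf1928 sh) (Nat.ble 1928 i)
noncomputable def s1926_1929 (i sh : Nat) : Nat := Bool.rec (Nat.shiftRight leaf1926 sh) (s1927_1929 i sh) (Nat.ble 1927 i)
noncomputable def s1924_1929 (i sh : Nat) : Nat := Bool.rec (s1924_1926 i sh) (s1926_1929 i sh) (Nat.ble 1926 i)
noncomputable def s1930_1932 (i sh : Nat) : Nat := Bool.rec (Nat.shiftRight leaf1930 sh) (Nat.shiftRight leaf1931 sh) (Nat.ble 1931 i)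
noncomputable def s1929_1932 (i sh : Nat) : Nat := Bool.rec (Nat.shiftRight leaf1929 sh) (s1930_1932 i sh) (Nat.ble 1930 i)
noncomputable def s1933_1935 (i sh : Nat) : Nat := Bool.rec (Nat.shiftRight leaf1933 sh) (Nat.shiftRight leaf1934 sh) (Nat.ble 1934 i)
noncomputable def s1932_1935 (i sh : Nat) : Nat := Bool.rec (Nat.shiftRight leaf1932 sh) (s1933_1935 i sh) (Nat.ble 1933 i)
noncomputable def s1929_1935 (i sh : Nat) : Nat := Bool.rec (s1929_1932 i sh) (s1932_1935 i sh) (Nat.ble 1932 i)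
noncomputable def s1924_1935 (i sh : Nat) : Nat := Bool.rec (s1924_1929 i sh) (s1929_1935 i sh) (Nat.ble 1929 i)
noncomputable def s1914_1935 (i sh : Nat) : Nat := Bool.rec (s1914_1924 i sh) (s1924_1935 i sh) (Nat.ble 1924 i)
noncomputable def s1894_1935 (i sh : Nat) : Nat := Bool.rec (s1894_1914 i sh) (s1914_1935 i sh) (Nat.ble 1914 i)
noncomputable def s1854_1935 (i sh : Nat) : Nat := Bool.rec (s1854_1894 i sh) (s1894_1935 i sh) (Nat.ble 1894 i)
noncomputable def s1773_1935 (i sh : Nat) : Nat := Bool.rec (s1773_1854 i sh) (s1854_1935 i sh) (Nat.ble 1854 i)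
noncomputable def s1612_1935 (i sh : Nat) : Nat := Bool.rec (s1612_1773 i sh) (s1773_1935 i sh) (Nat.ble 1773 i)
noncomputable def s1290_1935 (i sh : Nat) : Nat := Bool.rec (s1290_1612 i sh) (s1612_1935 i sh) (Nat.ble 1612 i)
noncomputable def s1935_1937 (i sh : Nat) : Nat := Bool.rec (Nat.shiftRight leaf1935 sh) (Nat.shiftRight leaf1936 sh) (Nat.ble 1936 i)
noncomputable def s1938_1940 (i sh : Nat) : Nat := Bool.rec (Nat.shiftRight leaf1938 sh) (Nat.shiftRight leaf1939 sh) (Nat.ble 1939 i)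
noncomputable def s1937_1940 (i sh : Nat) : Nat := Bool.rec (Nat.shiftRight leaf1937 sh) (s1938_1940 i sh) (Nat.ble 1938 i)
noncomputable def s1935_1940 (i sh : Nat) : Nat := Bool.rec (s1935_1937 i sh) (s1937_1940 i sh) (Nat.ble 1937 i)
noncomputable def s1940_1942 (i sh : Nat) : Nat := Bool.rec (Nat.shiftRight leaf1940 sh) (Nat.shiftRight leaf1941 sh) (Nat.ble 1941 i)
noncomputable def s1943_1945 (i sh : Nat) : Nat := Bool.rec (Nat.shiftRight leaf1943 sh) (Nat.shiftRight leaf1944 sh) (Nat.ble 1944 i)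
noncomputable def s1942_1945 (i sh : Nat) : Nat := Bool.rec (Nat.shiftRight leaf1942 sh) (s1943_1945 i sh) (Nat.ble 1943 i)
noncomputable def s1940_1945 (i sh : Nat) : Nat := Bool.rec (s1940_1942 i sh) (s1942_1945 i sh) (Nat.ble 1942 i)
noncomputable def s1935_1945 (i sh : Nat) : Nat := Bool.rec (s1935_1940 i sh) (s1940_1945 i sh) (Nat.ble 1940 i)
noncomputable def s1945_1947 (i sh : Nat) : Nat := Bool.rec (Nat.shiftRight leaf1945 sh) (Nat.shiftRight leaf1946 sh) (Nat.ble 1946 i)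
noncomputable def s1948_1950 (i sh : Nat) : Nat := Bool.rec (Nat.shiftRight leaf1948 sh) (Nat.shiftRight leaf1949 sh) (Nat.ble 1949 i)
noncomputable def s1947_1950 (i sh : Nat) : Nat := Bool.rec (Nat.shiftRight leaf1947 sh) (s1948_1950 i sh) (Nat.ble 1948 i)
noncomputable def s1945_1950 (i sh : Nat) : Nat := Bool.rec (s1945_1947 i sh) (s1947_1950 i sh) (Nat.ble 1947 i)
noncomputable def s1950_1952 (i sh : Nat) : Nat := Bool.rec (Nat.shiftRight leaf1950 sh) (Nat.shiftRight leaf1951 sh) (Nat.ble 1951 i)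
noncomputable def s1953_1955 (i sh : Nat) : Nat := Bool.rec (Nat.shiftRight leaf1953 sh) (Nat.shiftRight leaf1954 sh) (Nat.ble 1954 i)
noncomputable def s1952_1955 (i sh : Nat) : Nat := Bool.rec (Nat.shiftRight leaf1952 sh) (s1953_1955 i sh) (Nat.ble 1953 i)
noncomputable def s1950_1955 (i sh : Nat) : Nat := Bool.rec (s1950_1952 i sh) (s1952_1955 i sh) (Nat.ble 1952 i)
noncomputable def s1945_1955 (i sh : Nat) : Nat := Bool.rec (s1945_1950 i sh) (s1950_1955 i sh) (Nat.ble 1950 i)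
noncomputable def s1935_1955 (i sh : Nat) : Nat := Bool.rec (s1935_1945 i sh) (s1945_1955 i sh) (Nat.ble 1945 i)
noncomputable def s1955_1957 (i sh : Nat) : Nat := Bool.rec (Nat.shiftRight leaf1955 sh) (Nat.shiftRight leaf1956 sh) (Nat.ble 1956 i)
noncomputable def s1958_1960 (i sh : Nat) : Nat := Bool.rec (Nat.shiftRight leaf1958 sh) (Nat.shiftRight leaf1959 sh) (Nat.ble 1959 i)
noncomputable def s1957_1960 (i sh : Nat) : Nat := Bool.rec (Nat.shiftRight leaf1957 sh) (s1958_1960 i sh) (Nat.ble 1958 i)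
noncomputable def s1955_1960 (i sh : Nat) : Nat := Bool.rec (s1955_1957 i sh) (s1957_1960 i sh) (Nat.ble 1957 i)
noncomputable def s1960_1962 (i sh : Nat) : Nat := Bool.rec (Nat.shiftRight leaf1960 sh) (Nat.shiftRight leaf1961 sh) (Nat.ble 1961 i)
noncomputable def s1963_1965 (i sh : Nat) : Nat := Bool.rec (Nat.shiftRight leaf1963 sh) (Nat.shiftRight leaf1964 sh) (Nat.ble 1964 i)
noncomputable def s1962_1965 (i sh : Nat) : Nat := Bool.rec (Nat.shiftRight leaf1962 sh) (s1963_1965 i sh) (Nat.ble 1963 i)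
noncomputable def s1960_1965 (i sh : Nat) : Nat := Bool.rec (s1960_1962 i sh) (s1962_1965 i sh) (Nat.ble 1962 i)
noncomputable def s1955_1965 (i sh : Nat) : Nat := Bool.rec (s1955_1960 i sh) (s1960_1965 i sh) (Nat.ble 1960 i)
noncomputable def s1965_1967 (i sh : Nat) : Nat := Bool.rec (Nat.shiftRight leaf1965 sh) (Nat.shiftRight leaf1966 sh) (Nat.ble 1966 i)
noncomputable def s1968_1970 (i sh : Nat) : Nat := Bool.rec (Nat.shiftRight leaf1968 sh) (Nat.shiftRight leaf1969 sh) (Nat.ble 1969 i)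
noncomputable def s1967_1970 (i sh : Nat) : Nat := Bool.rec (Nat.shiftRight leaf1967 sh) (s1968_1970 i sh) (Nat.ble 1968 i)
noncomputable def s1965_1970 (i sh : Nat) : Nat := Bool.rec (s1965_1967 i sh) (s1967_1970 i sh) (Nat.ble 1967 i)
noncomputable def s1970_1972 (i sh : Nat) : Nat := Bool.rec (Nat.shiftRight leaf1970 sh) (Nat.shiftRight leaf1971 sh) (Nat.ble 1971 i)
noncomputable def s1973_1975 (i sh : Nat) : Nat := Bool.rec (Nat.shiftRight leaf1973 sh) (Nat.shiftRight leaf1974 sh) (Nat.ble 1974 i)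
noncomputable def s1972_1975 (i sh : Nat) : Nat := Bool.rec (Nat.shiftRight leaf1972 sh) (s1973_1975 i sh) (Nat.ble 1973 i)
noncomputable def s1970_1975 (i sh : Nat) : Nat := Bool.rec (s1970_1972 i sh) (s1972_1975 i sh) (Nat.ble 1972 i)
noncomputable def s1965_1975 (i sh : Nat) : Nat := Bool.rec (s1965_1970 i sh) (s1970_1975 i sh) (Nat.ble 1970 i)
noncomputable def s1955_1975 (i sh : Nat) : Nat := Bool.rec (s1955_1965 i sh) (s1965_1975 i sh) (Nat.ble 1965 i)
noncomputable def s1935_1975 (i sh : Nat) : Nat := Bool.rec (s1935_1955 i sh) (s1955_1975 i sh) (Nat.ble 1955 i)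
noncomputable def s1975_1977 (i sh : Nat) : Nat := Bool.rec (Nat.shiftRight leaf1975 sh) (Nat.shiftRight leaf1976 sh) (Nat.ble 1976 i)
noncomputable def s1978_1980 (i sh : Nat) : Nat := Bool.rec (Nat.shiftRight leaf1978 sh) (Nat.shiftRight leaf1979 sh) (Nat.ble 1979 i)
noncomputable def s1977_1980 (i sh : Nat) : Nat := Bool.rec (Nat.shiftRight leaf1977 sh) (s1978_1980 i sh) (Nat.ble 1978 i)
noncomputable def s1975_1980 (i sh : Nat) : Nat := Bool.rec (s1975_1977 i sh) (s1977_1980 i sh) (Nat.ble 1977 i)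
noncomputable def s1980_1982 (i sh : Nat) : Nat := Bool.rec (Nat.shiftRight leaf1980 sh) (Nat.shiftRight leaf1981 sh) (Nat.ble 1981 i)
noncomputable def s1983_1985 (i sh : Nat) : Nat := Bool.rec (Nat.shiftRight leaf1983 sh) (Nat.shiftRight leaf1984 sh) (Nat.ble 1984 i)
noncomputable def s1982_1985 (i sh : Nat) : Nat := Bool.rec (Nat.shiftRight leaf1982 sh) (s1983_1985 i sh) (Nat.ble 1983 i)
noncomputable def s1980_1985 (i sh : Nat) : Nat := Bool.rec (s1980_1982 i sh) (s1982_1985 i sh) (Nat.ble 1982 i)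
noncomputable def s1975_1985 (i sh : Nat) : Nat := Bool.rec (s1975_1980 i sh) (s1980_1985 i sh) (Nat.ble 1980 i)
noncomputable def s1985_1987 (i sh : Nat) : Nat := Bool.rec (Nat.shiftRight leaf1985 sh) (Nat.shiftRight leaf1986 sh) (Nat.ble 1986 i)
noncomputable def s1988_1990 (i sh : Nat) : Nat := Bool.rec (Nat.shiftRight leaf1988 sh) (Nat.shiftRight leaf1989 sh) (Nat.ble 1989 i)
noncomputable def s1987_1990 (i sh : Nat) : Nat := Bool.rec (Nat.shiftRight leaf1987 sh) (s1988_1990 i sh) (Nat.ble 1988 i)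
noncomputable def s1985_1990 (i sh : Nat) : Nat := Bool.rec (s1985_1987 i sh) (s1987_1990 i sh) (Nat.ble 1987 i)
noncomputable def s1990_1992 (i sh : Nat) : Nat := Bool.rec (Nat.shiftRight leaf1990 sh) (Nat.shiftRight leaf1991 sh) (Nat.ble 1991 i)
noncomputable def s1993_1995 (i sh : Nat) : Nat := Bool.rec (Nat.shiftRight leaf1993 sh) (Nat.shiftRight leaf1994 sh) (Nat.ble 1994 i)
noncomputable def s1992_1995 (i sh : Nat) : Nat := Bool.rec (Nat.shiftRight leaf1992 sh) (s1993_1995 i sh) (Nat.ble 1993 i)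
noncomputable def s1990_1995 (i sh : Nat) : Nat := Bool.rec (s1990_1992 i sh) (s1992_1995 i sh) (Nat.ble 1992 i)
noncomputable def s1985_1995 (i sh : Nat) : Nat := Bool.rec (s1985_1990 i sh) (s1990_1995 i sh) (Nat.ble 1990 i)
noncomputable def s1975_1995 (i sh : Nat) : Nat := Bool.rec (s1975_1985 i sh) (s1985_1995 i sh) (Nat.ble 1985 i)
noncomputable def s1995_1997 (i sh : Nat) : Nat := Bool.rec (Nat.shiftRight leaf1995 sh) (Nat.shiftRight leaf1996 sh) (Nat.ble 1996 i)
noncomputable def s1998_2000 (i sh : Nat) : Nat := Bool.rec (Nat.shiftRight leaf1998 sh) (Nat.shiftRight leaf1999 sh) (Nat.ble 1999 i)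
noncomputable def s1997_2000 (i sh : Nat) : Nat := Bool.rec (Nat.shiftRight leaf1997 sh) (s1998_2000 i sh) (Nat.ble 1998 i)
noncomputable def s1995_2000 (i sh : Nat) : Nat := Bool.rec (s1995_1997 i sh) (s1997_2000 i sh) (Nat.ble 1997 i)
noncomputable def s2000_2002 (i sh : Nat) : Nat := Bool.rec (Nat.shiftRight leaf2000 sh) (Nat.shiftRight leaf2001 sh) (Nat.ble 2001 i)
noncomputable def s2003_2005 (i sh : Nat) : Nat := Bool.rec (Nat.shiftRight leaf2003 sh) (Nat.shiftRight leaf2004 sh) (Nat.ble 2004 i)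
noncomputable def s2002_2005 (i sh : Nat) : Nat := Bool.rec (Nat.shiftRight leaf2002 sh) (s2003_2005 i sh) (Nat.ble 2003 i)
noncomputable def s2000_2005 (i sh : Nat) : Nat := Bool.rec (s2000_2002 i sh) (s2002_2005 i sh) (Nat.ble 2002 i)
noncomputable def s1995_2005 (i sh : Nat) : Nat := Bool.rec (s1995_2000 i sh) (s2000_2005 i sh) (Nat.ble 2000 i)
noncomputable def s2005_2007 (i sh : Nat) : Nat := Bool.rec (Nat.shiftRight leaf2005 sh) (Nat.shiftRight leaf2006 sh) (Nat.ble 2006 i)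
noncomputable def s2008_2010 (i sh : Nat) : Nat := Bool.rec (Nat.shiftRight leaf2008 sh) (Nat.shiftRight leaf2009 sh) (Nat.ble 2009 i)
noncomputable def s2007_2010 (i sh : Nat) : Nat := Bool.rec (Nat.shiftRight leaf2007 sh) (s2008_2010 i sh) (Nat.ble 2008 i)
noncomputable def s2005_2010 (i sh : Nat) : Nat := Bool.rec (s2005_2007 i sh) (s2007_2010 i sh) (Nat.ble 2007 i)
noncomputable def s2010_2012 (i sh : Nat) : Nat := Bool.rec (Nat.shiftRight leaf2010 sh) (Nat.shiftRight leaf2011 sh) (Nat.ble 2011 i)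
noncomputable def s2013_2015 (i sh : Nat) : Nat := Bool.rec (Nat.shiftRight leaf2013 sh) (Nat.shiftRight leaf2014 sh) (Nat.ble 2014 i)
noncomputable def s2012_2015 (i sh : Nat) : Nat := Bool.rec (Nat.shiftRight leaf2012 sh) (s2013_2015 i sh) (Nat.ble 2013 i)
noncomputable def s2010_2015 (i sh : Nat) : Nat := Bool.rec (s2010_2012 i sh) (s2012_2015 i sh) (Nat.ble 2012 i)
noncomputable def s2005_2015 (i sh : Nat) : Nat := Bool.rec (s2005_2010 i sh) (s2010_2015 i sh) (Nat.ble 2010 i)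
noncomputable def s1995_2015 (i sh : Nat) : Nat := Bool.rec (s1995_2005 i sh) (s2005_2015 i sh) (Nat.ble 2005 i)
noncomputable def s1975_2015 (i sh : Nat) : Nat := Bool.rec (s1975_1995 i sh) (s1995_2015 i sh) (Nat.ble 1995 i)
noncomputable def s1935_2015 (i sh : Nat) : Nat := Bool.rec (s1935_1975 i sh) (s1975_2015 i sh) (Nat.ble 1975 i)
noncomputable def s2015_2017 (i sh : Nat) : Nat := Bool.rec (Nat.shiftRight leaf2015 sh) (Nat.shiftRight leaf2016 sh) (Nat.ble 2016 i)
noncomputable def s2018_2020 (i sh : Nat) : Nat := Bool.rec (Nat.shiftRight leaf2018 sh) (Nat.shiftRight leaf2019 sh) (Nat.ble 2019 i)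
noncomputable def s2017_2020 (i sh : Nat) : Nat := Bool.rec (Nat.shiftRight leaf2017 sh) (s2018_2020 i sh) (Nat.ble 2018 i)
noncomputable def s2015_2020 (i sh : Nat) : Nat := Bool.rec (s2015_2017 i sh) (s2017_2020 i sh) (Nat.ble 2017 i)
noncomputable def s2020_2022 (i sh : Nat) : Nat := Bool.rec (Nat.shiftRight leaf2020 sh) (Nat.shiftRight leaf2021 sh) (Nat.ble 2021 i)
noncomputable def s2023_2025 (i sh : Nat) : Nat := Bool.rec (Nat.shiftRight leaf2023 sh) (Nat.shiftRight leaf2024 sh) (Nat.ble 2024 i)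
noncomputable def s2022_2025 (i sh : Nat) : Nat := Bool.rec (Nat.shiftRight leaf2022 sh) (s2023_2025 i sh) (Nat.ble 2023 i)
noncomputable def s2020_2025 (i sh : Nat) : Nat := Bool.rec (s2020_2022 i sh) (s2022_2025 i sh) (Nat.ble 2022 i)
noncomputable def s2015_2025 (i sh : Nat) : Nat := Bool.rec (s2015_2020 i sh) (s2020_2025 i sh) (Nat.ble 2020 i)
noncomputable def s2025_2027 (i sh : Nat) : Nat := Bool.rec (Nat.shiftRight leaf2025 sh) (Nat.shiftRight leaf2026 sh) (Nat.ble 2026 i)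
noncomputable def s2028_2030 (i sh : Nat) : Nat := Bool.rec (Nat.shiftRight leaf2028 sh) (Nat.shiftRight leaf2029 sh) (Nat.ble 2029 i)
noncomputable def s2027_2030 (i sh : Nat) : Nat := Bool.rec (Nat.shiftRight leaf2027 sh) (s2028_2030 i sh) (Nat.ble 2028 i)
noncomputable def s2025_2030 (i sh : Nat) : Nat := Bool.rec (s2025_2027 i sh) (s2027_2030 i sh) (Nat.ble 2027 i)
noncomputable def s2030_2032 (i sh : Nat) : Nat := Bool.rec (Nat.shiftRight leaf2030 sh) (Nat.shiftRight leaf2031 sh) (Nat.ble 2031 i)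
noncomputable def s2033_2035 (i sh : Nat) : Nat := Bool.rec (Nat.shiftRight leaf2033 sh) (Nat.shiftRight leaf2034 sh) (Nat.ble 2034 i)
noncomputable def s2032_2035 (i sh : Nat) : Nat := Bool.rec (Nat.shiftRight leaf2032 sh) (s2033_2035 i sh) (Nat.ble 2033 i)
noncomputable def s2030_2035 (i sh : Nat) : Nat := Bool.rec (s2030_2032 i sh) (s2032_2035 i sh) (Nat.ble 2032 i)
noncomputable def s2025_2035 (i sh : Nat) : Nat := Bool.rec (s2025_2030 i sh) (s2030_2035 i sh) (Nat.ble 2030 i)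
noncomputable def s2015_2035 (i sh : Nat) : Nat := Bool.rec (s2015_2025 i sh) (s2025_2035 i sh) (Nat.ble 2025 i)
noncomputable def s2035_2037 (i sh : Nat) : Nat := Bool.rec (Nat.shiftRight leaf2035 sh) (Nat.shiftRight leaf2036 sh) (Nat.ble 2036 i)
noncomputable def s2038_2040 (i sh : Nat) : Nat := Bool.rec (Nat.shiftRight leaf2038 sh) (Nat.shiftRight leaf2039 sh) (Nat.ble 2039 i)
noncomputable def s2037_2040 (i sh : Nat) : Nat := Bool.rec (Nat.shiftRight leaf2037 sh) (s2038_2040 i sh) (Nat.ble 2038 i)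
noncomputable def s2035_2040 (i sh : Nat) : Nat := Bool.rec (s2035_2037 i sh) (s2037_2040 i sh) (Nat.ble 2037 i)
noncomputable def s2040_2042 (i sh : Nat) : Nat := Bool.rec (Nat.shiftRight leaf2040 sh) (Nat.shiftRight leaf2041 sh) (Nat.ble 2041 i)
noncomputable def s2043_2045 (i sh : Nat) : Nat := Bool.rec (Nat.shiftRight leaf2043 sh) (Nat.shiftRight leaf2044 sh) (Nat.ble 2044 i)
noncomputable def s2042_2045 (i sh : Nat) : Nat := Bool.rec (Nat.shiftRight leaf2042 sh) (s2043_2045 i sh) (Nat.ble 2043 i)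
noncomputable def s2040_2045 (i sh : Nat) : Nat := Bool.rec (s2040_2042 i sh) (s2042_2045 i sh) (Nat.ble 2042 i)
noncomputable def s2035_2045 (i sh : Nat) : Nat := Bool.rec (s2035_2040 i sh) (s2040_2045 i sh) (Nat.ble 2040 i)
noncomputable def s2045_2047 (i sh : Nat) : Nat := Bool.rec (Nat.shiftRight leaf2045 sh) (Nat.shiftRight leaf2046 sh) (Nat.ble 2046 i)
noncomputable def s2048_2050 (i sh : Nat) : Nat := Bool.rec (Nat.shiftRight leaf2048 sh) (Nat.shiftRight leaf2049 sh) (Nat.ble 2049 i)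
noncomputable def s2047_2050 (i sh : Nat) : Nat := Bool.rec (Nat.shiftRight leaf2047 sh) (s2048_2050 i sh) (Nat.ble 2048 i)
noncomputable def s2045_2050 (i sh : Nat) : Nat := Bool.rec (s2045_2047 i sh) (s2047_2050 i sh) (Nat.ble 2047 i)
noncomputable def s2050_2052 (i sh : Nat) : Nat := Bool.rec (Nat.shiftRight leaf2050 sh) (Nat.shiftRight leaf2051 sh) (Nat.ble 2051 i)
noncomputable def s2053_2055 (i sh : Nat) : Nat := Bool.rec (Nat.shiftRight leaf2053 sh) (Nat.shiftRight leaf2054 sh) (Nat.ble 2054 i)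
noncomputable def s2052_2055 (i sh : Nat) : Nat := Bool.rec (Nat.shiftRight leaf2052 sh) (s2053_2055 i sh) (Nat.ble 2053 i)
noncomputable def s2050_2055 (i sh : Nat) : Nat := Bool.rec (s2050_2052 i sh) (s2052_2055 i sh) (Nat.ble 2052 i)
noncomputable def s2045_2055 (i sh : Nat) : Nat := Bool.rec (s2045_2050 i sh) (s2050_2055 i sh) (Nat.ble 2050 i)
noncomputable def s2035_2055 (i sh : Nat) : Nat := Bool.rec (s2035_2045 i sh) (s2045_2055 i sh) (Nat.ble 2045 i)
noncomputable def s2015_2055 (i sh : Nat) : Nat := Bool.rec (s2015_2035 i sh) (s2035_2055 i sh) (Nat.ble 2035 i)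
noncomputable def s2055_2057 (i sh : Nat) : Nat := Bool.rec (Nat.shiftRight leaf2055 sh) (Nat.shiftRight leaf2056 sh) (Nat.ble 2056 i)
noncomputable def s2058_2060 (i sh : Nat) : Nat := Bool.rec (Nat.shiftRight leaf2058 sh) (Nat.shiftRight leaf2059 sh) (Nat.ble 2059 i)
noncomputable def s2057_2060 (i sh : Nat) : Nat := Bool.rec (Nat.shiftRight leaf2057 sh) (s2058_2060 i sh) (Nat.ble 2058 i)
noncomputable def s2055_2060 (i sh : Nat) : Nat := Bool.rec (s2055_2057 i sh) (s2057_2060 i sh) (Nat.ble 2057 i)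
noncomputable def s2060_2062 (i sh : Nat) : Nat := Bool.rec (Nat.shiftRight leaf2060 sh) (Nat.shiftRight leaf2061 sh) (Nat.ble 2061 i)
noncomputable def s2063_2065 (i sh : Nat) : Nat := Bool.rec (Nat.shiftRight leaf2063 sh) (Nat.shiftRight leaf2064 sh) (Nat.ble 2064 i)
noncomputable def s2062_2065 (i sh : Nat) : Nat := Bool.rec (Nat.shiftRight leaf2062 sh) (s2063_2065 i sh) (Nat.ble 2063 i)
noncomputable def s2060_2065 (i sh : Nat) : Nat := Bool.rec (s2060_2062 i sh) (s2062_2065 i sh) (Nat.ble 2062 i)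
noncomputable def s2055_2065 (i sh : Nat) : Nat := Bool.rec (s2055_2060 i sh) (s2060_2065 i sh) (Nat.ble 2060 i)
noncomputable def s2065_2067 (i sh : Nat) : Nat := Bool.rec (Nat.shiftRight leaf2065 sh) (Nat.shiftRight leaf2066 sh) (Nat.ble 2066 i)
noncomputable def s2068_2070 (i sh : Nat) : Nat := Bool.rec (Nat.shiftRight leaf2068 sh) (Nat.shiftRight leaf2069 sh) (Nat.ble 2069 i)
noncomputable def s2067_2070 (i sh : Nat) : Nat := Bool.rec (Nat.shiftRight leaf2067 sh) (s2068_2070 i sh) (Nat.ble 2068 i)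
noncomputable def s2065_2070 (i sh : Nat) : Nat := Bool.rec (s2065_2067 i sh) (s2067_2070 i sh) (Nat.ble 2067 i)
noncomputable def s2070_2072 (i sh : Nat) : Nat := Bool.rec (Nat.shiftRight leaf2070 sh) (Nat.shiftRight leaf2071 sh) (Nat.ble 2071 i)
noncomputable def s2073_2075 (i sh : Nat) : Nat := Bool.rec (Nat.shiftRight leaf2073 sh) (Nat.shiftRight leaf2074 sh) (Nat.ble 2074 i)
noncomputable def s2072_2075 (i sh : Nat) : Nat := Bool.rec (Nat.shiftRight leaf2072 sh) (s2073_2075 i sh) (Nat.ble 2073 i)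
noncomputable def s2070_2075 (i sh : Nat) : Nat := Bool.rec (s2070_2072 i sh) (s2072_2075 i sh) (Nat.ble 2072 i)
noncomputable def s2065_2075 (i sh : Nat) : Nat := Bool.rec (s2065_2070 i sh) (s2070_2075 i sh) (Nat.ble 2070 i)
noncomputable def s2055_2075 (i sh : Nat) : Nat := Bool.rec (s2055_2065 i sh) (s2065_2075 i sh) (Nat.ble 2065 i)
noncomputable def s2075_2077 (i sh : Nat) : Nat := Bool.rec (Nat.shiftRight leaf2075 sh) (Nat.shiftRight leaf2076 sh) (Nat.ble 2076 i)
noncomputable def s2078_2080 (i sh : Nat) : Nat := Bool.rec (Nat.shiftRight leaf2078 sh) (Nat.shiftRight leaf2079 sh) (Nat.ble 2079 i)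
noncomputable def s2077_2080 (i sh : Nat) : Nat := Bool.rec (Nat.shiftRight leaf2077 sh) (s2078_2080 i sh) (Nat.ble 2078 i)
noncomputable def s2075_2080 (i sh : Nat) : Nat := Bool.rec (s2075_2077 i sh) (s2077_2080 i sh) (Nat.ble 2077 i)
noncomputable def s2080_2082 (i sh : Nat) : Nat := Bool.rec (Nat.shiftRight leaf2080 sh) (Nat.shiftRight leaf2081 sh) (Nat.ble 2081 i)
noncomputable def s2083_2085 (i sh : Nat) : Nat := Bool.rec (Nat.shiftRight leaf2083 sh) (Nat.shiftRight leaf2084 sh) (Nat.ble 2084 i)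
noncomputable def s2082_2085 (i sh : Nat) : Nat := Bool.rec (Nat.shiftRight leaf2082 sh) (s2083_2085 i sh) (Nat.ble 2083 i)
noncomputable def s2080_2085 (i sh : Nat) : Nat := Bool.rec (s2080_2082 i sh) (s2082_2085 i sh) (Nat.ble 2082 i)
noncomputable def s2075_2085 (i sh : Nat) : Nat := Bool.rec (s2075_2080 i sh) (s2080_2085 i sh) (Nat.ble 2080 i)
noncomputable def s2085_2087 (i sh : Nat) : Nat := Bool.rec (Nat.shiftRight leaf2085 sh) (Nat.shiftRight leaf2086 sh) (Nat.ble 2086 i)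
noncomputable def s2088_2090 (i sh : Nat) : Nat := Bool.rec (Nat.shiftRight leaf2088 sh) (Nat.shiftRight leaf2089 sh) (Nat.ble 2089 i)
noncomputable def s2087_2090 (i sh : Nat) : Nat := Bool.rec (Nat.shiftRight leaf2087 sh) (s2088_2090 i sh) (Nat.ble 2088 i)
noncomputable def s2085_2090 (i sh : Nat) : Nat := Bool.rec (s2085_2087 i sh) (s2087_2090 i sh) (Nat.ble 2087 i)
noncomputable def s2091_2093 (i sh : Nat) : Nat := Bool.rec (Nat.shiftRight leaf2091 sh) (Nat.shiftRight leaf2092 sh) (Nat.ble 2092 i)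
noncomputable def s2090_2093 (i sh : Nat) : Nat := Bool.rec (Nat.shiftRight leaf2090 sh) (s2091_2093 i sh) (Nat.ble 2091 i)
noncomputable def s2094_2096 (i sh : Nat) : Nat := Bool.rec (Nat.shiftRight leaf2094 sh) (Nat.shiftRight leaf2095 sh) (Nat.ble 2095 i)
noncomputable def s2093_2096 (i sh : Nat) : Nat := Bool.rec (Nat.shiftRight leaf2093 sh) (s2094_2096 i sh) (Nat.ble 2094 i)
noncomputable def s2090_2096 (i sh : Nat) : Nat := Bool.rec (s2090_2093 i sh) (s2093_2096 i sh) (Nat.ble 2093 i)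
noncomputable def s2085_2096 (i sh : Nat) : Nat := Bool.rec (s2085_2090 i sh) (s2090_2096 i sh) (Nat.ble 2090 i)
noncomputable def s2075_2096 (i sh : Nat) : Nat := Bool.rec (s2075_2085 i sh) (s2085_2096 i sh) (Nat.ble 2085 i)
noncomputable def s2055_2096 (i sh : Nat) : Nat := Bool.rec (s2055_2075 i sh) (s2075_2096 i sh) (Nat.ble 2075 i)
noncomputable def s2015_2096 (i sh : Nat) : Nat := Bool.rec (s2015_2055 i sh) (s2055_2096 i sh) (Nat.ble 2055 i)
noncomputable def s1935_2096 (i sh : Nat) : Nat := Bool.rec (s1935_2015 i sh) (s2015_2096 i sh) (Nat.ble 2015 i)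
noncomputable def s2096_2098 (i sh : Nat) : Nat := Bool.rec (Nat.shiftRight leaf2096 sh) (Nat.shiftRight leaf2097 sh) (Nat.ble 2097 i)
noncomputable def s2099_2101 (i sh : Nat) : Nat := Bool.rec (Nat.shiftRight leaf2099 sh) (Nat.shiftRight leaf2100 sh) (Nat.ble 2100 i)
noncomputable def s2098_2101 (i sh : Nat) : Nat := Bool.rec (Nat.shiftRight leaf2098 sh) (s2099_2101 i sh) (Nat.ble 2099 i)
noncomputable def s2096_2101 (i sh : Nat) : Nat := Bool.rec (s2096_2098 i sh) (s2098_2101 i sh) (Nat.ble 2098 i)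
noncomputable def s2101_2103 (i sh : Nat) : Nat := Bool.rec (Nat.shiftRight leaf2101 sh) (Nat.shiftRight leaf2102 sh) (Nat.ble 2102 i)
noncomputable def s2104_2106 (i sh : Nat) : Nat := Bool.rec (Nat.shiftRight leaf2104 sh) (Nat.shiftRight leaf2105 sh) (Nat.ble 2105 i)
noncomputable def s2103_2106 (i sh : Nat) : Nat := Bool.rec (Nat.shiftRight leaf2103 sh) (s2104_2106 i sh) (Nat.ble 2104 i)
noncomputable def s2101_2106 (i sh : Nat) : Nat := Bool.rec (s2101_2103 i sh) (s2103_2106 i sh) (Nat.ble 2103 i)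
noncomputable def s2096_2106 (i sh : Nat) : Nat := Bool.rec (s2096_2101 i sh) (s2101_2106 i sh) (Nat.ble 2101 i)
noncomputable def s2106_2108 (i sh : Nat) : Nat := Bool.rec (Nat.shiftRight leaf2106 sh) (Nat.shiftRight leaf2107 sh) (Nat.ble 2107 i)
noncomputable def s2109_2111 (i sh : Nat) : Nat := Bool.rec (Nat.shiftRight leaf2109 sh) (Nat.shiftRight leaf2110 sh) (Nat.ble 2110 i)
noncomputable def s2108_2111 (i sh : Nat) : Nat := Bool.rec (Nat.shiftRight leaf2108 sh) (s2109_2111 i sh) (Nat.ble 2109 i)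
noncomputable def s2106_2111 (i sh : Nat) : Nat := Bool.rec (s2106_2108 i sh) (s2108_2111 i sh) (Nat.ble 2108 i)
noncomputable def s2111_2113 (i sh : Nat) : Nat := Bool.rec (Nat.shiftRight leaf2111 sh) (Nat.shiftRight leaf2112 sh) (Nat.ble 2112 i)
noncomputable def s2114_2116 (i sh : Nat) : Nat := Bool.rec (Nat.shiftRight leaf2114 sh) (Nat.shiftRight leaf2115 sh) (Nat.ble 2115 i)
noncomputable def s2113_2116 (i sh : Nat) : Nat := Bool.rec (Nat.shiftRight leaf2113 sh) (s2114_2116 i sh) (Nat.ble 2114 i)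
noncomputable def s2111_2116 (i sh : Nat) : Nat := Bool.rec (s2111_2113 i sh) (s2113_2116 i sh) (Nat.ble 2113 i)
noncomputable def s2106_2116 (i sh : Nat) : Nat := Bool.rec (s2106_2111 i sh) (s2111_2116 i sh) (Nat.ble 2111 i)
noncomputable def s2096_2116 (i sh : Nat) : Nat := Bool.rec (s2096_2106 i sh) (s2106_2116 i sh) (Nat.ble 2106 i)
noncomputable def s2116_2118 (i sh : Nat) : Nat := Bool.rec (Nat.shiftRight leaf2116 sh) (Nat.shiftRight leaf2117 sh) (Nat.ble 2117 i)
noncomputable def s2119_2121 (i sh : Nat) : Nat := Bool.rec (Nat.shiftRight leaf2119 sh) (Nat.shiftRight leaf2120 sh) (Nat.ble 2120 i)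
noncomputable def s2118_2121 (i sh : Nat) : Nat := Bool.rec (Nat.shiftRight leaf2118 sh) (s2119_2121 i sh) (Nat.ble 2119 i)
noncomputable def s2116_2121 (i sh : Nat) : Nat := Bool.rec (s2116_2118 i sh) (s2118_2121 i sh) (Nat.ble 2118 i)
noncomputable def s2121_2123 (i sh : Nat) : Nat := Bool.rec (Nat.shiftRight leaf2121 sh) (Nat.shiftRight leaf2122 sh) (Nat.ble 2122 i)
noncomputable def s2124_2126 (i sh : Nat) : Nat := Bool.rec (Nat.shiftRight leaf2124 sh) (Nat.shiftRight leaf2125 sh) (Nat.ble 2125 i)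
noncomputable def s2123_2126 (i sh : Nat) : Nat := Bool.rec (Nat.shiftRight leaf2123 sh) (s2124_2126 i sh) (Nat.ble 2124 i)
noncomputable def s2121_2126 (i sh : Nat) : Nat := Bool.rec (s2121_2123 i sh) (s2123_2126 i sh) (Nat.ble 2123 i)
noncomputable def s2116_2126 (i sh : Nat) : Nat := Bool.rec (s2116_2121 i sh) (s2121_2126 i sh) (Nat.ble 2121 i)
noncomputable def s2126_2128 (i sh : Nat) : Nat := Bool.rec (Nat.shiftRight leaf2126 sh) (Nat.shiftRight leaf2127 sh) (Nat.ble 2127 i)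
noncomputable def s2129_2131 (i sh : Nat) : Nat := Bool.rec (Nat.shiftRight leaf2129 sh) (Nat.shiftRight leaf2130 sh) (Nat.ble 2130 i)
noncomputable def s2128_2131 (i sh : Nat) : Nat := Bool.rec (Nat.shiftRight leaf2128 sh) (s2129_2131 i sh) (Nat.ble 2129 i)
noncomputable def s2126_2131 (i sh : Nat) : Nat := Bool.rec (s2126_2128 i sh) (s2128_2131 i sh) (Nat.ble 2128 i)
noncomputable def s2131_2133 (i sh : Nat) : Nat := Bool.rec (Nat.shiftRight leaf2131 sh) (Nat.shiftRight leaf2132 sh) (Nat.ble 2132 i)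
noncomputable def s2134_2136 (i sh : Nat) : Nat := Bool.rec (Nat.shiftRight leaf2134 sh) (Nat.shiftRight leaf2135 sh) (Nat.ble 2135 i)
noncomputable def s2133_2136 (i sh : Nat) : Nat := Bool.rec (Nat.shiftRight leaf2133 sh) (s2134_2136 i sh) (Nat.ble 2134 i)
noncomputable def s2131_2136 (i sh : Nat) : Nat := Bool.rec (s2131_2133 i sh) (s2133_2136 i sh) (Nat.ble 2133 i)
noncomputable def s2126_2136 (i sh : Nat) : Nat := Bool.rec (s2126_2131 i sh) (s2131_2136 i sh) (Nat.ble 2131 i)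
noncomputable def s2116_2136 (i sh : Nat) : Nat := Bool.rec (s2116_2126 i sh) (s2126_2136 i sh) (Nat.ble 2126 i)
noncomputable def s2096_2136 (i sh : Nat) : Nat := Bool.rec (s2096_2116 i sh) (s2116_2136 i sh) (Nat.ble 2116 i)
noncomputable def s2136_2138 (i sh : Nat) : Nat := Bool.rec (Nat.shiftRight leaf2136 sh) (Nat.shiftRight leaf2137 sh) (Nat.ble 2137 i)
noncomputable def s2139_2141 (i sh : Nat) : Nat := Bool.rec (Nat.shiftRight leaf2139 sh) (Nat.shiftRight leaf2140 sh) (Nat.ble 2140 i)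
noncomputable def s2138_2141 (i sh : Nat) : Nat := Bool.rec (Nat.shiftRight leaf2138 sh) (s2139_2141 i sh) (Nat.ble 2139 i)
noncomputable def s2136_2141 (i sh : Nat) : Nat := Bool.rec (s2136_2138 i sh) (s2138_2141 i sh) (Nat.ble 2138 i)
noncomputable def s2141_2143 (i sh : Nat) : Nat := Bool.rec (Nat.shiftRight leaf2141 sh) (Nat.shiftRight leaf2142 sh) (Nat.ble 2142 i)
noncomputable def s2144_2146 (i sh : Nat) : Nat := Bool.rec (Nat.shiftRight leaf2144 sh) (Nat.shiftRight leaf2145 sh) (Nat.ble 2145 i)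
noncomputable def s2143_2146 (i sh : Nat) : Nat := Bool.rec (Nat.shiftRight leaf2143 sh) (s2144_2146 i sh) (Nat.ble 2144 i)
noncomputable def s2141_2146 (i sh : Nat) : Nat := Bool.rec (s2141_2143 i sh) (s2143_2146 i sh) (Nat.ble 2143 i)
noncomputable def s2136_2146 (i sh : Nat) : Nat := Bool.rec (s2136_2141 i sh) (s2141_2146 i sh) (Nat.ble 2141 i)
noncomputable def s2146_2148 (i sh : Nat) : Nat := Bool.rec (Nat.shiftRight leaf2146 sh) (Nat.shiftRight leaf2147 sh) (Nat.ble 2147 i)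
noncomputable def s2149_2151 (i sh : Nat) : Nat := Bool.rec (Nat.shiftRight leaf2149 sh) (Nat.shiftRight leaf2150 sh) (Nat.ble 2150 i)
noncomputable def s2148_2151 (i sh : Nat) : Nat := Bool.rec (Nat.shiftRight leaf2148 sh) (s2149_2151 i sh) (Nat.ble 2149 i)
noncomputable def s2146_2151 (i sh : Nat) : Nat := Bool.rec (s2146_2148 i sh) (s2148_2151 i sh) (Nat.ble 2148 i)
noncomputable def s2151_2153 (i sh : Nat) : Nat := Bool.rec (Nat.shiftRight leaf2151 sh) (Nat.shiftRight leaf2152 sh) (Nat.ble 2152 i)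
noncomputable def s2154_2156 (i sh : Nat) : Nat := Bool.rec (Nat.shiftRight leaf2154 sh) (Nat.shiftRight leaf2155 sh) (Nat.ble 2155 i)
noncomputable def s2153_2156 (i sh : Nat) : Nat := Bool.rec (Nat.shiftRight leaf2153 sh) (s2154_2156 i sh) (Nat.ble 2154 i)
noncomputable def s2151_2156 (i sh : Nat) : Nat := Bool.rec (s2151_2153 i sh) (s2153_2156 i sh) (Nat.ble 2153 i)
noncomputable def s2146_2156 (i sh : Nat) : Nat := Bool.rec (s2146_2151 i sh) (s2151_2156 i sh) (Nat.ble 2151 i)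
noncomputable def s2136_2156 (i sh : Nat) : Nat := Bool.rec (s2136_2146 i sh) (s2146_2156 i sh) (Nat.ble 2146 i)
noncomputable def s2156_2158 (i sh : Nat) : Nat := Bool.rec (Nat.shiftRight leaf2156 sh) (Nat.shiftRight leaf2157 sh) (Nat.ble 2157 i)
noncomputable def s2159_2161 (i sh : Nat) : Nat := Bool.rec (Nat.shiftRight leaf2159 sh) (Nat.shiftRight leaf2160 sh) (Nat.ble 2160 i)
noncomputable def s2158_2161 (i sh : Nat) : Nat := Bool.rec (Nat.shiftRight leaf2158 sh) (s2159_2161 i sh) (Nat.ble 2159 i)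
noncomputable def s2156_2161 (i sh : Nat) : Nat := Bool.rec (s2156_2158 i sh) (s2158_2161 i sh) (Nat.ble 2158 i)
noncomputable def s2161_2163 (i sh : Nat) : Nat := Bool.rec (Nat.shiftRight leaf2161 sh) (Nat.shiftRight leaf2162 sh) (Nat.ble 2162 i)
noncomputable def s2164_2166 (i sh : Nat) : Nat := Bool.rec (Nat.shiftRight leaf2164 sh) (Nat.shiftRight leaf2165 sh) (Nat.ble 2165 i)
noncomputable def s2163_2166 (i sh : Nat) : Nat := Bool.rec (Nat.shiftRight leaf2163 sh) (s2164_2166 i sh) (Nat.ble 2164 i)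
noncomputable def s2161_2166 (i sh : Nat) : Nat := Bool.rec (s2161_2163 i sh) (s2163_2166 i sh) (Nat.ble 2163 i)
noncomputable def s2156_2166 (i sh : Nat) : Nat := Bool.rec (s2156_2161 i sh) (s2161_2166 i sh) (Nat.ble 2161 i)
noncomputable def s2166_2168 (i sh : Nat) : Nat := Bool.rec (Nat.shiftRight leaf2166 sh) (Nat.shiftRight leaf2167 sh) (Nat.ble 2167 i)
noncomputable def s2169_2171 (i sh : Nat) : Nat := Bool.rec (Nat.shiftRight leaf2169 sh) (Nat.shiftRight leaf2170 sh) (Nat.ble 2170 i)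
noncomputable def s2168_2171 (i sh : Nat) : Nat := Bool.rec (Nat.shiftRight leaf2168 sh) (s2169_2171 i sh) (Nat.ble 2169 i)
noncomputable def s2166_2171 (i sh : Nat) : Nat := Bool.rec (s2166_2168 i sh) (s2168_2171 i sh) (Nat.ble 2168 i)
noncomputable def s2172_2174 (i sh : Nat) : Nat := Bool.rec (Nat.shiftRight leaf2172 sh) (Nat.shiftRight leaf2173 sh) (Nat.ble 2173 i)
noncomputable def s2171_2174 (i sh : Nat) : Nat := Bool.rec (Nat.shiftRight leaf2171 sh) (s2172_2174 i sh) (Nat.ble 2172 i)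
noncomputable def s2175_2177 (i sh : Nat) : Nat := Bool.rec (Nat.shiftRight leaf2175 sh) (Nat.shiftRight leaf2176 sh) (Nat.ble 2176 i)
noncomputable def s2174_2177 (i sh : Nat) : Nat := Bool.rec (Nat.shiftRight leaf2174 sh) (s2175_2177 i sh) (Nat.ble 2175 i)
noncomputable def s2171_2177 (i sh : Nat) : Nat := Bool.rec (s2171_2174 i sh) (s2174_2177 i sh) (Nat.ble 2174 i)
noncomputable def s2166_2177 (i sh : Nat) : Nat := Bool.rec (s2166_2171 i sh) (s2171_2177 i sh) (Nat.ble 2171 i)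
noncomputable def s2156_2177 (i sh : Nat) : Nat := Bool.rec (s2156_2166 i sh) (s2166_2177 i sh) (Nat.ble 2166 i)
noncomputable def s2136_2177 (i sh : Nat) : Nat := Bool.rec (s2136_2156 i sh) (s2156_2177 i sh) (Nat.ble 2156 i)
noncomputable def s2096_2177 (i sh : Nat) : Nat := Bool.rec (s2096_2136 i sh) (s2136_2177 i sh) (Nat.ble 2136 i)
noncomputable def s2177_2179 (i sh : Nat) : Nat := Bool.rec (Nat.shiftRight leaf2177 sh) (Nat.shiftRight leaf2178 sh) (Nat.ble 2178 i)
noncomputable def s2180_2182 (i sh : Nat) : Nat := Bool.rec (Nat.shiftRight leaf2180 sh) (Nat.shiftRight leaf2181 sh) (Nat.ble 2181 i)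
noncomputable def s2179_2182 (i sh : Nat) : Nat := Bool.rec (Nat.shiftRight leaf2179 sh) (s2180_2182 i sh) (Nat.ble 2180 i)
noncomputable def s2177_2182 (i sh : Nat) : Nat := Bool.rec (s2177_2179 i sh) (s2179_2182 i sh) (Nat.ble 2179 i)
noncomputable def s2182_2184 (i sh : Nat) : Nat := Bool.rec (Nat.shiftRight leaf2182 sh) (Nat.shiftRight leaf2183 sh) (Nat.ble 2183 i)
noncomputable def s2185_2187 (i sh : Nat) : Nat := Bool.rec (Nat.shiftRight leaf2185 sh) (Nat.shiftRight leaf2186 sh) (Nat.ble 2186 i)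
noncomputable def s2184_2187 (i sh : Nat) : Nat := Bool.rec (Nat.shiftRight leaf2184 sh) (s2185_2187 i sh) (Nat.ble 2185 i)
noncomputable def s2182_2187 (i sh : Nat) : Nat := Bool.rec (s2182_2184 i sh) (s2184_2187 i sh) (Nat.ble 2184 i)
noncomputable def s2177_2187 (i sh : Nat) : Nat := Bool.rec (s2177_2182 i sh) (s2182_2187 i sh) (Nat.ble 2182 i)
noncomputable def s2187_2189 (i sh : Nat) : Nat := Bool.rec (Nat.shiftRight leaf2187 sh) (Nat.shiftRight leaf2188 sh) (Nat.ble 2188 i)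
noncomputable def s2190_2192 (i sh : Nat) : Nat := Bool.rec (Nat.shiftRight leaf2190 sh) (Nat.shiftRight leaf2191 sh) (Nat.ble 2191 i)
noncomputable def s2189_2192 (i sh : Nat) : Nat := Bool.rec (Nat.shiftRight leaf2189 sh) (s2190_2192 i sh) (Nat.ble 2190 i)
noncomputable def s2187_2192 (i sh : Nat) : Nat := Bool.rec (s2187_2189 i sh) (s2189_2192 i sh) (Nat.ble 2189 i)
noncomputable def s2192_2194 (i sh : Nat) : Nat := Bool.rec (Nat.shiftRight leaf2192 sh) (Nat.shiftRight leaf2193 sh) (Nat.ble 2193 i)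
noncomputable def s2195_2197 (i sh : Nat) : Nat := Bool.rec (Nat.shiftRight leaf2195 sh) (Nat.shiftRight leaf2196 sh) (Nat.ble 2196 i)
noncomputable def s2194_2197 (i sh : Nat) : Nat := Bool.rec (Nat.shiftRight leaf2194 sh) (s2195_2197 i sh) (Nat.ble 2195 i)
noncomputable def s2192_2197 (i sh : Nat) : Nat := Bool.rec (s2192_2194 i sh) (s2194_2197 i sh) (Nat.ble 2194 i)
noncomputable def s2187_2197 (i sh : Nat) : Nat := Bool.rec (s2187_2192 i sh) (s2192_2197 i sh) (Nat.ble 2192 i)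
noncomputable def s2177_2197 (i sh : Nat) : Nat := Bool.rec (s2177_2187 i sh) (s2187_2197 i sh) (Nat.ble 2187 i)
noncomputable def s2197_2199 (i sh : Nat) : Nat := Bool.rec (Nat.shiftRight leaf2197 sh) (Nat.shiftRight leaf2198 sh) (Nat.ble 2198 i)
noncomputable def s2200_2202 (i sh : Nat) : Nat := Bool.rec (Nat.shiftRight leaf2200 sh) (Nat.shiftRight leaf2201 sh) (Nat.ble 2201 i)
noncomputable def s2199_2202 (i sh : Nat) : Nat := Bool.rec (Nat.shiftRight leaf2199 sh) (s2200_2202 i sh) (Nat.ble 2200 i)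
noncomputable def s2197_2202 (i sh : Nat) : Nat := Bool.rec (s2197_2199 i sh) (s2199_2202 i sh) (Nat.ble 2199 i)
noncomputable def s2202_2204 (i sh : Nat) : Nat := Bool.rec (Nat.shiftRight leaf2202 sh) (Nat.shiftRight leaf2203 sh) (Nat.ble 2203 i)
noncomputable def s2205_2207 (i sh : Nat) : Nat := Bool.rec (Nat.shiftRight leaf2205 sh) (Nat.shiftRight leaf2206 sh) (Nat.ble 2206 i)
noncomputable def s2204_2207 (i sh : Nat) : Nat := Bool.rec (Nat.shiftRight leaf2204 sh) (s2205_2207 i sh) (Nat.ble 2205 i)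
noncomputable def s2202_2207 (i sh : Nat) : Nat := Bool.rec (s2202_2204 i sh) (s2204_2207 i sh) (Nat.ble 2204 i)
noncomputable def s2197_2207 (i sh : Nat) : Nat := Bool.rec (s2197_2202 i sh) (s2202_2207 i sh) (Nat.ble 2202 i)
noncomputable def s2207_2209 (i sh : Nat) : Nat := Bool.rec (Nat.shiftRight leaf2207 sh) (Nat.shiftRight leaf2208 sh) (Nat.ble 2208 i)
noncomputable def s2210_2212 (i sh : Nat) : Nat := Bool.rec (Nat.shiftRight leaf2210 sh) (Nat.shiftRight leaf2211 sh) (Nat.ble 2211 i)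
noncomputable def s2209_2212 (i sh : Nat) : Nat := Bool.rec (Nat.shiftRight leaf2209 sh) (s2210_2212 i sh) (Nat.ble 2210 i)
noncomputable def s2207_2212 (i sh : Nat) : Nat := Bool.rec (s2207_2209 i sh) (s2209_2212 i sh) (Nat.ble 2209 i)
noncomputable def s2212_2214 (i sh : Nat) : Nat := Bool.rec (Nat.shiftRight leaf2212 sh) (Nat.shiftRight leaf2213 sh) (Nat.ble 2213 i)
noncomputable def s2215_2217 (i sh : Nat) : Nat := Bool.rec (Nat.shiftRight leaf2215 sh) (Nat.shiftRight leaf2216 sh) (Nat.ble 2216 i)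
noncomputable def s2214_2217 (i sh : Nat) : Nat := Bool.rec (Nat.shiftRight leaf2214 sh) (s2215_2217 i sh) (Nat.ble 2215 i)
noncomputable def s2212_2217 (i sh : Nat) : Nat := Bool.rec (s2212_2214 i sh) (s2214_2217 i sh) (Nat.ble 2214 i)
noncomputable def s2207_2217 (i sh : Nat) : Nat := Bool.rec (s2207_2212 i sh) (s2212_2217 i sh) (Nat.ble 2212 i)
noncomputable def s2197_2217 (i sh : Nat) : Nat := Bool.rec (s2197_2207 i sh) (s2207_2217 i sh) (Nat.ble 2207 i)
noncomputable def s2177_2217 (i sh : Nat) : Nat := Bool.rec (s2177_2197 i sh) (s2197_2217 i sh) (Nat.ble 2197 i)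
noncomputable def s2217_2219 (i sh : Nat) : Nat := Bool.rec (Nat.shiftRight leaf2217 sh) (Nat.shiftRight leaf2218 sh) (Nat.ble 2218 i)
noncomputable def s2220_2222 (i sh : Nat) : Nat := Bool.rec (Nat.shiftRight leaf2220 sh) (Nat.shiftRight leaf2221 sh) (Nat.ble 2221 i)
noncomputable def s2219_2222 (i sh : Nat) : Nat := Bool.rec (Nat.shiftRight leaf2219 sh) (s2220_2222 i sh) (Nat.ble 2220 i)
noncomputable def s2217_2222 (i sh : Nat) : Nat := Bool.rec (s2217_2219 i sh) (s2219_2222 i sh) (Nat.ble 2219 i)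
noncomputable def s2222_2224 (i sh : Nat) : Nat := Bool.rec (Nat.shiftRight leaf2222 sh) (Nat.shiftRight leaf2223 sh) (Nat.ble 2223 i)
noncomputable def s2225_2227 (i sh : Nat) : Nat := Bool.rec (Nat.shiftRight leaf2225 sh) (Nat.shiftRight leaf2226 sh) (Nat.ble 2226 i)
noncomputable def s2224_2227 (i sh : Nat) : Nat := Bool.rec (Nat.shiftRight leaf2224 sh) (s2225_2227 i sh) (Nat.ble 2225 i)
noncomputable def s2222_2227 (i sh : Nat) : Nat := Bool.rec (s2222_2224 i sh) (s2224_2227 i sh) (Nat.ble 2224 i)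
noncomputable def s2217_2227 (i sh : Nat) : Nat := Bool.rec (s2217_2222 i sh) (s2222_2227 i sh) (Nat.ble 2222 i)
noncomputable def s2227_2229 (i sh : Nat) : Nat := Bool.rec (Nat.shiftRight leaf2227 sh) (Nat.shiftRight leaf2228 sh) (Nat.ble 2228 i)
noncomputable def s2230_2232 (i sh : Nat) : Nat := Bool.rec (Nat.shiftRight leaf2230 sh) (Nat.shiftRight leaf2231 sh) (Nat.ble 2231 i)
noncomputable def s2229_2232 (i sh : Nat) : Nat := Bool.rec (Nat.shiftRight leaf2229 sh) (s2230_2232 i sh) (Nat.ble 2230 i)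
noncomputable def s2227_2232 (i sh : Nat) : Nat := Bool.rec (s2227_2229 i sh) (s2229_2232 i sh) (Nat.ble 2229 i)
noncomputable def s2232_2234 (i sh : Nat) : Nat := Bool.rec (Nat.shiftRight leaf2232 sh) (Nat.shiftRight leaf2233 sh) (Nat.ble 2233 i)
noncomputable def s2235_2237 (i sh : Nat) : Nat := Bool.rec (Nat.shiftRight leaf2235 sh) (Nat.shiftRight leaf2236 sh) (Nat.ble 2236 i)
noncomputable def s2234_2237 (i sh : Nat) : Nat := Bool.rec (Nat.shiftRight leaf2234 sh) (s2235_2237 i sh) (Nat.ble 2235 i)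
noncomputable def s2232_2237 (i sh : Nat) : Nat := Bool.rec (s2232_2234 i sh) (s2234_2237 i sh) (Nat.ble 2234 i)
noncomputable def s2227_2237 (i sh : Nat) : Nat := Bool.rec (s2227_2232 i sh) (s2232_2237 i sh) (Nat.ble 2232 i)
noncomputable def s2217_2237 (i sh : Nat) : Nat := Bool.rec (s2217_2227 i sh) (s2227_2237 i sh) (Nat.ble 2227 i)
noncomputable def s2237_2239 (i sh : Nat) : Nat := Bool.rec (Nat.shiftRight leaf2237 sh) (Nat.shiftRight leaf2238 sh) (Nat.ble 2238 i)
noncomputable def s2240_2242 (i sh : Nat) : Nat := Bool.rec (Nat.shiftRight leaf2240 sh) (Nat.shiftRight leaf2241 sh) (Nat.ble 2241 i)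
noncomputable def s2239_2242 (i sh : Nat) : Nat := Bool.rec (Nat.shiftRight leaf2239 sh) (s2240_2242 i sh) (Nat.ble 2240 i)
noncomputable def s2237_2242 (i sh : Nat) : Nat := Bool.rec (s2237_2239 i sh) (s2239_2242 i sh) (Nat.ble 2239 i)
noncomputable def s2242_2244 (i sh : Nat) : Nat := Bool.rec (Nat.shiftRight leaf2242 sh) (Nat.shiftRight leaf2243 sh) (Nat.ble 2243 i)
noncomputable def s2245_2247 (i sh : Nat) : Nat := Bool.rec (Nat.shiftRight leaf2245 sh) (Nat.shiftRight leaf2246 sh) (Nat.ble 2246 i)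
noncomputable def s2244_2247 (i sh : Nat) : Nat := Bool.rec (Nat.shiftRight leaf2244 sh) (s2245_2247 i sh) (Nat.ble 2245 i)
noncomputable def s2242_2247 (i sh : Nat) : Nat := Bool.rec (s2242_2244 i sh) (s2244_2247 i sh) (Nat.ble 2244 i)
noncomputable def s2237_2247 (i sh : Nat) : Nat := Bool.rec (s2237_2242 i sh) (s2242_2247 i sh) (Nat.ble 2242 i)
noncomputable def s2247_2249 (i sh : Nat) : Nat := Bool.rec (Nat.shiftRight leaf2247 sh) (Nat.shiftRight leaf2248 sh) (Nat.ble 2248 i)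
noncomputable def s2250_2252 (i sh : Nat) : Nat := Bool.rec (Nat.shiftRight leaf2250 sh) (Nat.shiftRight leaf2251 sh) (Nat.ble 2251 i)
noncomputable def s2249_2252 (i sh : Nat) : Nat := Bool.rec (Nat.shiftRight leaf2249 sh) (s2250_2252 i sh) (Nat.ble 2250 i)
noncomputable def s2247_2252 (i sh : Nat) : Nat := Bool.rec (s2247_2249 i sh) (s2249_2252 i sh) (Nat.ble 2249 i)
noncomputable def s2253_2255 (i sh : Nat) : Nat := Bool.rec (Nat.shiftRight leaf2253 sh) (Nat.shiftRight leaf2254 sh) (Nat.ble 2254 i)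
noncomputable def s2252_2255 (i sh : Nat) : Nat := Bool.rec (Nat.shiftRight leaf2252 sh) (s2253_2255 i sh) (Nat.ble 2253 i)
noncomputable def s2256_2258 (i sh : Nat) : Nat := Bool.rec (Nat.shiftRight leaf2256 sh) (Nat.shiftRight leaf2257 sh) (Nat.ble 2257 i)
noncomputable def s2255_2258 (i sh : Nat) : Nat := Bool.rec (Nat.shiftRight leaf2255 sh) (s2256_2258 i sh) (Nat.ble 2256 i)
noncomputable def s2252_2258 (i sh : Nat) : Nat := Bool.rec (s2252_2255 i sh) (s2255_2258 i sh) (Nat.ble 2255 i)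
noncomputable def s2247_2258 (i sh : Nat) : Nat := Bool.rec (s2247_2252 i sh) (s2252_2258 i sh) (Nat.ble 2252 i)
noncomputable def s2237_2258 (i sh : Nat) : Nat := Bool.rec (s2237_2247 i sh) (s2247_2258 i sh) (Nat.ble 2247 i)
noncomputable def s2217_2258 (i sh : Nat) : Nat := Bool.rec (s2217_2237 i sh) (s2237_2258 i sh) (Nat.ble 2237 i)
noncomputable def s2177_2258 (i sh : Nat) : Nat := Bool.rec (s2177_2217 i sh) (s2217_2258 i sh) (Nat.ble 2217 i)
noncomputable def s2096_2258 (i sh : Nat) : Nat := Bool.rec (s2096_2177 i sh) (s2177_2258 i sh) (Nat.ble 2177 i)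
noncomputable def s1935_2258 (i sh : Nat) : Nat := Bool.rec (s1935_2096 i sh) (s2096_2258 i sh) (Nat.ble 2096 i)
noncomputable def s2258_2260 (i sh : Nat) : Nat := Bool.rec (Nat.shiftRight leaf2258 sh) (Nat.shiftRight leaf2259 sh) (Nat.ble 2259 i)
noncomputable def s2261_2263 (i sh : Nat) : Nat := Bool.rec (Nat.shiftRight leaf2261 sh) (Nat.shiftRight leaf2262 sh) (Nat.ble 2262 i)
noncomputable def s2260_2263 (i sh : Nat) : Nat := Bool.rec (Nat.shiftRight leaf2260 sh) (s2261_2263 i sh) (Nat.ble 2261 i)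
noncomputable def s2258_2263 (i sh : Nat) : Nat := Bool.rec (s2258_2260 i sh) (s2260_2263 i sh) (Nat.ble 2260 i)
noncomputable def s2263_2265 (i sh : Nat) : Nat := Bool.rec (Nat.shiftRight leaf2263 sh) (Nat.shiftRight leaf2264 sh) (Nat.ble 2264 i)
noncomputable def s2266_2268 (i sh : Nat) : Nat := Bool.rec (Nat.shiftRight leaf2266 sh) (Nat.shiftRight leaf2267 sh) (Nat.ble 2267 i)
noncomputable def s2265_2268 (i sh : Nat) : Nat := Bool.rec (Nat.shiftRight leaf2265 sh) (s2266_2268 i sh) (Nat.ble 2266 i)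
noncomputable def s2263_2268 (i sh : Nat) : Nat := Bool.rec (s2263_2265 i sh) (s2265_2268 i sh) (Nat.ble 2265 i)
noncomputable def s2258_2268 (i sh : Nat) : Nat := Bool.rec (s2258_2263 i sh) (s2263_2268 i sh) (Nat.ble 2263 i)
noncomputable def s2268_2270 (i sh : Nat) : Nat := Bool.rec (Nat.shiftRight leaf2268 sh) (Nat.shiftRight leaf2269 sh) (Nat.ble 2269 i)
noncomputable def s2271_2273 (i sh : Nat) : Nat := Bool.rec (Nat.shiftRight leaf2271 sh) (Nat.shiftRight leaf2272 sh) (Nat.ble 2272 i)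
noncomputable def s2270_2273 (i sh : Nat) : Nat := Bool.rec (Nat.shiftRight leaf2270 sh) (s2271_2273 i sh) (Nat.ble 2271 i)
noncomputable def s2268_2273 (i sh : Nat) : Nat := Bool.rec (s2268_2270 i sh) (s2270_2273 i sh) (Nat.ble 2270 i)
noncomputable def s2273_2275 (i sh : Nat) : Nat := Bool.rec (Nat.shiftRight leaf2273 sh) (Nat.shiftRight leaf2274 sh) (Nat.ble 2274 i)
noncomputable def s2276_2278 (i sh : Nat) : Nat := Bool.rec (Nat.shiftRight leaf2276 sh) (Nat.shiftRight leaf2277 sh) (Nat.ble 2277 i)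
noncomputable def s2275_2278 (i sh : Nat) : Nat := Bool.rec (Nat.shiftRight leaf2275 sh) (s2276_2278 i sh) (Nat.ble 2276 i)
noncomputable def s2273_2278 (i sh : Nat) : Nat := Bool.rec (s2273_2275 i sh) (s2275_2278 i sh) (Nat.ble 2275 i)
noncomputable def s2268_2278 (i sh : Nat) : Nat := Bool.rec (s2268_2273 i sh) (s2273_2278 i sh) (Nat.ble 2273 i)
noncomputable def s2258_2278 (i sh : Nat) : Nat := Bool.rec (s2258_2268 i sh) (s2268_2278 i sh) (Nat.ble 2268 i)
noncomputable def s2278_2280 (i sh : Nat) : Nat := Bool.rec (Nat.shiftRight leaf2278 sh) (Nat.shiftRight leaf2279 sh) (Nat.ble 2279 i)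
noncomputable def s2281_2283 (i sh : Nat) : Nat := Bool.rec (Nat.shiftRight leaf2281 sh) (Nat.shiftRight leaf2282 sh) (Nat.ble 2282 i)
noncomputable def s2280_2283 (i sh : Nat) : Nat := Bool.rec (Nat.shiftRight leaf2280 sh) (s2281_2283 i sh) (Nat.ble 2281 i)
noncomputable def s2278_2283 (i sh : Nat) : Nat := Bool.rec (s2278_2280 i sh) (s2280_2283 i sh) (Nat.ble 2280 i)
noncomputable def s2283_2285 (i sh : Nat) : Nat := Bool.rec (Nat.shiftRight leaf2283 sh) (Nat.shiftRight leaf2284 sh) (Nat.ble 2284 i)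
noncomputable def s2286_2288 (i sh : Nat) : Nat := Bool.rec (Nat.shiftRight leaf2286 sh) (Nat.shiftRight leaf2287 sh) (Nat.ble 2287 i)
noncomputable def s2285_2288 (i sh : Nat) : Nat := Bool.rec (Nat.shiftRight leaf2285 sh) (s2286_2288 i sh) (Nat.ble 2286 i)
noncomputable def s2283_2288 (i sh : Nat) : Nat := Bool.rec (s2283_2285 i sh) (s2285_2288 i sh) (Nat.ble 2285 i)
noncomputable def s2278_2288 (i sh : Nat) : Nat := Bool.rec (s2278_2283 i sh) (s2283_2288 i sh) (Nat.ble 2283 i)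
noncomputable def s2288_2290 (i sh : Nat) : Nat := Bool.rec (Nat.shiftRight leaf2288 sh) (Nat.shiftRight leaf2289 sh) (Nat.ble 2289 i)
noncomputable def s2291_2293 (i sh : Nat) : Nat := Bool.rec (Nat.shiftRight leaf2291 sh) (Nat.shiftRight leaf2292 sh) (Nat.ble 2292 i)
noncomputable def s2290_2293 (i sh : Nat) : Nat := Bool.rec (Nat.shiftRight leaf2290 sh) (s2291_2293 i sh) (Nat.ble 2291 i)
noncomputable def s2288_2293 (i sh : Nat) : Nat := Bool.rec (s2288_2290 i sh) (s2290_2293 i sh) (Nat.ble 2290 i)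
noncomputable def s2293_2295 (i sh : Nat) : Nat := Bool.rec (Nat.shiftRight leaf2293 sh) (Nat.shiftRight leaf2294 sh) (Nat.ble 2294 i)
noncomputable def s2296_2298 (i sh : Nat) : Nat := Bool.rec (Nat.shiftRight leaf2296 sh) (Nat.shiftRight leaf2297 sh) (Nat.ble 2297 i)
noncomputable def s2295_2298 (i sh : Nat) : Nat := Bool.rec (Nat.shiftRight leaf2295 sh) (s2296_2298 i sh) (Nat.ble 2296 i)
noncomputable def s2293_2298 (i sh : Nat) : Nat := Bool.rec (s2293_2295 i sh) (s2295_2298 i sh) (Nat.ble 2295 i)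
noncomputable def s2288_2298 (i sh : Nat) : Nat := Bool.rec (s2288_2293 i sh) (s2293_2298 i sh) (Nat.ble 2293 i)
noncomputable def s2278_2298 (i sh : Nat) : Nat := Bool.rec (s2278_2288 i sh) (s2288_2298 i sh) (Nat.ble 2288 i)
noncomputable def s2258_2298 (i sh : Nat) : Nat := Bool.rec (s2258_2278 i sh) (s2278_2298 i sh) (Nat.ble 2278 i)
noncomputable def s2298_2300 (i sh : Nat) : Nat := Bool.rec (Nat.shiftRight leaf2298 sh) (Nat.shiftRight leaf2299 sh) (Nat.ble 2299 i)
noncomputable def s2301_2303 (i sh : Nat) : Nat := Bool.rec (Nat.shiftRight leaf2301 sh) (Nat.shiftRight leaf2302 sh) (Nat.ble 2302 i)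
noncomputable def s2300_2303 (i sh : Nat) : Nat := Bool.rec (Nat.shiftRight leaf2300 sh) (s2301_2303 i sh) (Nat.ble 2301 i)
noncomputable def s2298_2303 (i sh : Nat) : Nat := Bool.rec (s2298_2300 i sh) (s2300_2303 i sh) (Nat.ble 2300 i)
noncomputable def s2303_2305 (i sh : Nat) : Nat := Bool.rec (Nat.shiftRight leaf2303 sh) (Nat.shiftRight leaf2304 sh) (Nat.ble 2304 i)
noncomputable def s2306_2308 (i sh : Nat) : Nat := Bool.rec (Nat.shiftRight leaf2306 sh) (Nat.shiftRight leaf2307 sh) (Nat.ble 2307 i)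
noncomputable def s2305_2308 (i sh : Nat) : Nat := Bool.rec (Nat.shiftRight leaf2305 sh) (s2306_2308 i sh) (Nat.ble 2306 i)
noncomputable def s2303_2308 (i sh : Nat) : Nat := Bool.rec (s2303_2305 i sh) (s2305_2308 i sh) (Nat.ble 2305 i)
noncomputable def s2298_2308 (i sh : Nat) : Nat := Bool.rec (s2298_2303 i sh) (s2303_2308 i sh) (Nat.ble 2303 i)
noncomputable def s2308_2310 (i sh : Nat) : Nat := Bool.rec (Nat.shiftRight leaf2308 sh) (Nat.shiftRight leaf2309 sh) (Nat.ble 2309 i)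
noncomputable def s2311_2313 (i sh : Nat) : Nat := Bool.rec (Nat.shiftRight leaf2311 sh) (Nat.shiftRight leaf2312 sh) (Nat.ble 2312 i)
noncomputable def s2310_2313 (i sh : Nat) : Nat := Bool.rec (Nat.shiftRight leaf2310 sh) (s2311_2313 i sh) (Nat.ble 2311 i)
noncomputable def s2308_2313 (i sh : Nat) : Nat := Bool.rec (s2308_2310 i sh) (s2310_2313 i sh) (Nat.ble 2310 i)
noncomputable def s2313_2315 (i sh : Nat) : Nat := Bool.rec (Nat.shiftRight leaf2313 sh) (Nat.shiftRight leaf2314 sh) (Nat.ble 2314 i)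
noncomputable def s2316_2318 (i sh : Nat) : Nat := Bool.rec (Nat.shiftRight leaf2316 sh) (Nat.shiftRight leaf2317 sh) (Nat.ble 2317 i)
noncomputable def s2315_2318 (i sh : Nat) : Nat := Bool.rec (Nat.shiftRight leaf2315 sh) (s2316_2318 i sh) (Nat.ble 2316 i)
noncomputable def s2313_2318 (i sh : Nat) : Nat := Bool.rec (s2313_2315 i sh) (s2315_2318 i sh) (Nat.ble 2315 i)
noncomputable def s2308_2318 (i sh : Nat) : Nat := Bool.rec (s2308_2313 i sh) (s2313_2318 i sh) (Nat.ble 2313 i)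
noncomputable def s2298_2318 (i sh : Nat) : Nat := Bool.rec (s2298_2308 i sh) (s2308_2318 i sh) (Nat.ble 2308 i)
noncomputable def s2318_2320 (i sh : Nat) : Nat := Bool.rec (Nat.shiftRight leaf2318 sh) (Nat.shiftRight leaf2319 sh) (Nat.ble 2319 i)
noncomputable def s2321_2323 (i sh : Nat) : Nat := Bool.rec (Nat.shiftRight leaf2321 sh) (Nat.shiftRight leaf2322 sh) (Nat.ble 2322 i)
noncomputable def s2320_2323 (i sh : Nat) : Nat := Bool.rec (Nat.shiftRight leaf2320 sh) (s2321_2323 i sh) (Nat.ble 2321 i)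
noncomputable def s2318_2323 (i sh : Nat) : Nat := Bool.rec (s2318_2320 i sh) (s2320_2323 i sh) (Nat.ble 2320 i)
noncomputable def s2323_2325 (i sh : Nat) : Nat := Bool.rec (Nat.shiftRight leaf2323 sh) (Nat.shiftRight leaf2324 sh) (Nat.ble 2324 i)
noncomputable def s2326_2328 (i sh : Nat) : Nat := Bool.rec (Nat.shiftRight leaf2326 sh) (Nat.shiftRight leaf2327 sh) (Nat.ble 2327 i)
noncomputable def s2325_2328 (i sh : Nat) : Nat := Bool.rec (Nat.shiftRight leaf2325 sh) (s2326_2328 i sh) (Nat.ble 2326 i)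
noncomputable def s2323_2328 (i sh : Nat) : Nat := Bool.rec (s2323_2325 i sh) (s2325_2328 i sh) (Nat.ble 2325 i)
noncomputable def s2318_2328 (i sh : Nat) : Nat := Bool.rec (s2318_2323 i sh) (s2323_2328 i sh) (Nat.ble 2323 i)
noncomputable def s2328_2330 (i sh : Nat) : Nat := Bool.rec (Nat.shiftRight leaf2328 sh) (Nat.shiftRight leaf2329 sh) (Nat.ble 2329 i)
noncomputable def s2331_2333 (i sh : Nat) : Nat := Bool.rec (Nat.shiftRight leaf2331 sh) (Nat.shiftRight leaf2332 sh) (Nat.ble 2332 i)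
noncomputable def s2330_2333 (i sh : Nat) : Nat := Bool.rec (Nat.shiftRight leaf2330 sh) (s2331_2333 i sh) (Nat.ble 2331 i)
noncomputable def s2328_2333 (i sh : Nat) : Nat := Bool.rec (s2328_2330 i sh) (s2330_2333 i sh) (Nat.ble 2330 i)
noncomputable def s2333_2335 (i sh : Nat) : Nat := Bool.rec (Nat.shiftRight leaf2333 sh) (Nat.shiftRight leaf2334 sh) (Nat.ble 2334 i)
noncomputable def s2336_2338 (i sh : Nat) : Nat := Bool.rec (Nat.shiftRight leaf2336 sh) (Nat.shiftRight leaf2337 sh) (Nat.ble 2337 i)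
noncomputable def s2335_2338 (i sh : Nat) : Nat := Bool.rec (Nat.shiftRight leaf2335 sh) (s2336_2338 i sh) (Nat.ble 2336 i)
noncomputable def s2333_2338 (i sh : Nat) : Nat := Bool.rec (s2333_2335 i sh) (s2335_2338 i sh) (Nat.ble 2335 i)
noncomputable def s2328_2338 (i sh : Nat) : Nat := Bool.rec (s2328_2333 i sh) (s2333_2338 i sh) (Nat.ble 2333 i)
noncomputable def s2318_2338 (i sh : Nat) : Nat := Bool.rec (s2318_2328 i sh) (s2328_2338 i sh) (Nat.ble 2328 i)
noncomputable def s2298_2338 (i sh : Nat) : Nat := Bool.rec (s2298_2318 i sh) (s2318_2338 i sh) (Nat.ble 2318 i)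
noncomputable def s2258_2338 (i sh : Nat) : Nat := Bool.rec (s2258_2298 i sh) (s2298_2338 i sh) (Nat.ble 2298 i)
noncomputable def s2338_2340 (i sh : Nat) : Nat := Bool.rec (Nat.shiftRight leaf2338 sh) (Nat.shiftRight leaf2339 sh) (Nat.ble 2339 i)
noncomputable def s2341_2343 (i sh : Nat) : Nat := Bool.rec (Nat.shiftRight leaf2341 sh) (Nat.shiftRight leaf2342 sh) (Nat.ble 2342 i)
noncomputable def s2340_2343 (i sh : Nat) : Nat := Bool.rec (Nat.shiftRight leaf2340 sh) (s2341_2343 i sh) (Nat.ble 2341 i)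
noncomputable def s2338_2343 (i sh : Nat) : Nat := Bool.rec (s2338_2340 i sh) (s2340_2343 i sh) (Nat.ble 2340 i)
noncomputable def s2343_2345 (i sh : Nat) : Nat := Bool.rec (Nat.shiftRight leaf2343 sh) (Nat.shiftRight leaf2344 sh) (Nat.ble 2344 i)
noncomputable def s2346_2348 (i sh : Nat) : Nat := Bool.rec (Nat.shiftRight leaf2346 sh) (Nat.shiftRight leaf2347 sh) (Nat.ble 2347 i)
noncomputable def s2345_2348 (i sh : Nat) : Nat := Bool.rec (Nat.shiftRight leaf2345 sh) (s2346_2348 i sh) (Nat.ble 2346 i)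
noncomputable def s2343_2348 (i sh : Nat) : Nat := Bool.rec (s2343_2345 i sh) (s2345_2348 i sh) (Nat.ble 2345 i)
noncomputable def s2338_2348 (i sh : Nat) : Nat := Bool.rec (s2338_2343 i sh) (s2343_2348 i sh) (Nat.ble 2343 i)
noncomputable def s2348_2350 (i sh : Nat) : Nat := Bool.rec (Nat.shiftRight leaf2348 sh) (Nat.shiftRight leaf2349 sh) (Nat.ble 2349 i)
noncomputable def s2351_2353 (i sh : Nat) : Nat := Bool.rec (Nat.shiftRight leaf2351 sh) (Nat.shiftRight leaf2352 sh) (Nat.ble 2352 i)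
noncomputable def s2350_2353 (i sh : Nat) : Nat := Bool.rec (Nat.shiftRight leaf2350 sh) (s2351_2353 i sh) (Nat.ble 2351 i)
noncomputable def s2348_2353 (i sh : Nat) : Nat := Bool.rec (s2348_2350 i sh) (s2350_2353 i sh) (Nat.ble 2350 i)
noncomputable def s2353_2355 (i sh : Nat) : Nat := Bool.rec (Nat.shiftRight leaf2353 sh) (Nat.shiftRight leaf2354 sh) (Nat.ble 2354 i)
noncomputable def s2356_2358 (i sh : Nat) : Nat := Bool.rec (Nat.shiftRight leaf2356 sh) (Nat.shiftRight leaf2357 sh) (Nat.ble 2357 i)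
noncomputable def s2355_2358 (i sh : Nat) : Nat := Bool.rec (Nat.shiftRight leaf2355 sh) (s2356_2358 i sh) (Nat.ble 2356 i)
noncomputable def s2353_2358 (i sh : Nat) : Nat := Bool.rec (s2353_2355 i sh) (s2355_2358 i sh) (Nat.ble 2355 i)
noncomputable def s2348_2358 (i sh : Nat) : Nat := Bool.rec (s2348_2353 i sh) (s2353_2358 i sh) (Nat.ble 2353 i)
noncomputable def s2338_2358 (i sh : Nat) : Nat := Bool.rec (s2338_2348 i sh) (s2348_2358 i sh) (Nat.ble 2348 i)
noncomputable def s2358_2360 (i sh : Nat) : Nat := Bool.rec (Nat.shiftRight leaf2358 sh) (Nat.shiftRight leaf2359 sh) (Nat.ble 2359 i)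
noncomputable def s2361_2363 (i sh : Nat) : Nat := Bool.rec (Nat.shiftRight leaf2361 sh) (Nat.shiftRight leaf2362 sh) (Nat.ble 2362 i)
noncomputable def s2360_2363 (i sh : Nat) : Nat := Bool.rec (Nat.shiftRight leaf2360 sh) (s2361_2363 i sh) (Nat.ble 2361 i)
noncomputable def s2358_2363 (i sh : Nat) : Nat := Bool.rec (s2358_2360 i sh) (s2360_2363 i sh) (Nat.ble 2360 i)
noncomputable def s2363_2365 (i sh : Nat) : Nat := Bool.rec (Nat.shiftRight leaf2363 sh) (Nat.shiftRight leaf2364 sh) (Nat.ble 2364 i)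
noncomputable def s2366_2368 (i sh : Nat) : Nat := Bool.rec (Nat.shiftRight leaf2366 sh) (Nat.shiftRight leaf2367 sh) (Nat.ble 2367 i)
noncomputable def s2365_2368 (i sh : Nat) : Nat := Bool.rec (Nat.shiftRight leaf2365 sh) (s2366_2368 i sh) (Nat.ble 2366 i)
noncomputable def s2363_2368 (i sh : Nat) : Nat := Bool.rec (s2363_2365 i sh) (s2365_2368 i sh) (Nat.ble 2365 i)
noncomputable def s2358_2368 (i sh : Nat) : Nat := Bool.rec (s2358_2363 i sh) (s2363_2368 i sh) (Nat.ble 2363 i)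
noncomputable def s2368_2370 (i sh : Nat) : Nat := Bool.rec (Nat.shiftRight leaf2368 sh) (Nat.shiftRight leaf2369 sh) (Nat.ble 2369 i)
noncomputable def s2371_2373 (i sh : Nat) : Nat := Bool.rec (Nat.shiftRight leaf2371 sh) (Nat.shiftRight leaf2372 sh) (Nat.ble 2372 i)
noncomputable def s2370_2373 (i sh : Nat) : Nat := Bool.rec (Nat.shiftRight leaf2370 sh) (s2371_2373 i sh) (Nat.ble 2371 i)
noncomputable def s2368_2373 (i sh : Nat) : Nat := Bool.rec (s2368_2370 i sh) (s2370_2373 i sh) (Nat.ble 2370 i)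
noncomputable def s2373_2375 (i sh : Nat) : Nat := Bool.rec (Nat.shiftRight leaf2373 sh) (Nat.shiftRight leaf2374 sh) (Nat.ble 2374 i)
noncomputable def s2376_2378 (i sh : Nat) : Nat := Bool.rec (Nat.shiftRight leaf2376 sh) (Nat.shiftRight leaf2377 sh) (Nat.ble 2377 i)
noncomputable def s2375_2378 (i sh : Nat) : Nat := Bool.rec (Nat.shiftRight leaf2375 sh) (s2376_2378 i sh) (Nat.ble 2376 i)
noncomputable def s2373_2378 (i sh : Nat) : Nat := Bool.rec (s2373_2375 i sh) (s2375_2378 i sh) (Nat.ble 2375 i)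
noncomputable def s2368_2378 (i sh : Nat) : Nat := Bool.rec (s2368_2373 i sh) (s2373_2378 i sh) (Nat.ble 2373 i)
noncomputable def s2358_2378 (i sh : Nat) : Nat := Bool.rec (s2358_2368 i sh) (s2368_2378 i sh) (Nat.ble 2368 i)
noncomputable def s2338_2378 (i sh : Nat) : Nat := Bool.rec (s2338_2358 i sh) (s2358_2378 i sh) (Nat.ble 2358 i)
noncomputable def s2378_2380 (i sh : Nat) : Nat := Bool.rec (Nat.shiftRight leaf2378 sh) (Nat.shiftRight leaf2379 sh) (Nat.ble 2379 i)
noncomputable def s2381_2383 (i sh : Nat) : Nat := Bool.rec (Nat.shiftRight leaf2381 sh) (Nat.shiftRight leaf2382 sh) (Nat.ble 2382 i)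
noncomputable def s2380_2383 (i sh : Nat) : Nat := Bool.rec (Nat.shiftRight leaf2380 sh) (s2381_2383 i sh) (Nat.ble 2381 i)
noncomputable def s2378_2383 (i sh : Nat) : Nat := Bool.rec (s2378_2380 i sh) (s2380_2383 i sh) (Nat.ble 2380 i)
noncomputable def s2383_2385 (i sh : Nat) : Nat := Bool.rec (Nat.shiftRight leaf2383 sh) (Nat.shiftRight leaf2384 sh) (Nat.ble 2384 i)
noncomputable def s2386_2388 (i sh : Nat) : Nat := Bool.rec (Nat.shiftRight leaf2386 sh) (Nat.shiftRight leaf2387 sh) (Nat.ble 2387 i)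
noncomputable def s2385_2388 (i sh : Nat) : Nat := Bool.rec (Nat.shiftRight leaf2385 sh) (s2386_2388 i sh) (Nat.ble 2386 i)
noncomputable def s2383_2388 (i sh : Nat) : Nat := Bool.rec (s2383_2385 i sh) (s2385_2388 i sh) (Nat.ble 2385 i)
noncomputable def s2378_2388 (i sh : Nat) : Nat := Bool.rec (s2378_2383 i sh) (s2383_2388 i sh) (Nat.ble 2383 i)
noncomputable def s2388_2390 (i sh : Nat) : Nat := Bool.rec (Nat.shiftRight leaf2388 sh) (Nat.shiftRight leaf2389 sh) (Nat.ble 2389 i)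
noncomputable def s2391_2393 (i sh : Nat) : Nat := Bool.rec (Nat.shiftRight leaf2391 sh) (Nat.shiftRight leaf2392 sh) (Nat.ble 2392 i)
noncomputable def s2390_2393 (i sh : Nat) : Nat := Bool.rec (Nat.shiftRight leaf2390 sh) (s2391_2393 i sh) (Nat.ble 2391 i)
noncomputable def s2388_2393 (i sh : Nat) : Nat := Bool.rec (s2388_2390 i sh) (s2390_2393 i sh) (Nat.ble 2390 i)
noncomputable def s2393_2395 (i sh : Nat) : Nat := Bool.rec (Nat.shiftRight leaf2393 sh) (Nat.shiftRight leaf2394 sh) (Nat.ble 2394 i)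
noncomputable def s2396_2398 (i sh : Nat) : Nat := Bool.rec (Nat.shiftRight leaf2396 sh) (Nat.shiftRight leaf2397 sh) (Nat.ble 2397 i)
noncomputable def s2395_2398 (i sh : Nat) : Nat := Bool.rec (Nat.shiftRight leaf2395 sh) (s2396_2398 i sh) (Nat.ble 2396 i)
noncomputable def s2393_2398 (i sh : Nat) : Nat := Bool.rec (s2393_2395 i sh) (s2395_2398 i sh) (Nat.ble 2395 i)
noncomputable def s2388_2398 (i sh : Nat) : Nat := Bool.rec (s2388_2393 i sh) (s2393_2398 i sh) (Nat.ble 2393 i)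
noncomputable def s2378_2398 (i sh : Nat) : Nat := Bool.rec (s2378_2388 i sh) (s2388_2398 i sh) (Nat.ble 2388 i)
noncomputable def s2398_2400 (i sh : Nat) : Nat := Bool.rec (Nat.shiftRight leaf2398 sh) (Nat.shiftRight leaf2399 sh) (Nat.ble 2399 i)
noncomputable def s2401_2403 (i sh : Nat) : Nat := Bool.rec (Nat.shiftRight leaf2401 sh) (Nat.shiftRight leaf2402 sh) (Nat.ble 2402 i)
noncomputable def s2400_2403 (i sh : Nat) : Nat := Bool.rec (Nat.shiftRight leaf2400 sh) (s2401_2403 i sh) (Nat.ble 2401 i)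
noncomputable def s2398_2403 (i sh : Nat) : Nat := Bool.rec (s2398_2400 i sh) (s2400_2403 i sh) (Nat.ble 2400 i)
noncomputable def s2403_2405 (i sh : Nat) : Nat := Bool.rec (Nat.shiftRight leaf2403 sh) (Nat.shiftRight leaf2404 sh) (Nat.ble 2404 i)
noncomputable def s2406_2408 (i sh : Nat) : Nat := Bool.rec (Nat.shiftRight leaf2406 sh) (Nat.shiftRight leaf2407 sh) (Nat.ble 2407 i)
noncomputable def s2405_2408 (i sh : Nat) : Nat := Bool.rec (Nat.shiftRight leaf2405 sh) (s2406_2408 i sh) (Nat.ble 2406 i)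
noncomputable def s2403_2408 (i sh : Nat) : Nat := Bool.rec (s2403_2405 i sh) (s2405_2408 i sh) (Nat.ble 2405 i)
noncomputable def s2398_2408 (i sh : Nat) : Nat := Bool.rec (s2398_2403 i sh) (s2403_2408 i sh) (Nat.ble 2403 i)
noncomputable def s2408_2410 (i sh : Nat) : Nat := Bool.rec (Nat.shiftRight leaf2408 sh) (Nat.shiftRight leaf2409 sh) (Nat.ble 2409 i)
noncomputable def s2411_2413 (i sh : Nat) : Nat := Bool.rec (Nat.shiftRight leaf2411 sh) (Nat.shiftRight leaf2412 sh) (Nat.ble 2412 i)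
noncomputable def s2410_2413 (i sh : Nat) : Nat := Bool.rec (Nat.shiftRight leaf2410 sh) (s2411_2413 i sh) (Nat.ble 2411 i)
noncomputable def s2408_2413 (i sh : Nat) : Nat := Bool.rec (s2408_2410 i sh) (s2410_2413 i sh) (Nat.ble 2410 i)
noncomputable def s2414_2416 (i sh : Nat) : Nat := Bool.rec (Nat.shiftRight leaf2414 sh) (Nat.shiftRight leaf2415 sh) (Nat.ble 2415 i)
noncomputable def s2413_2416 (i sh : Nat) : Nat := Bool.rec (Nat.shiftRight leaf2413 sh) (s2414_2416 i sh) (Nat.ble 2414 i)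
noncomputable def s2417_2419 (i sh : Nat) : Nat := Bool.rec (Nat.shiftRight leaf2417 sh) (Nat.shiftRight leaf2418 sh) (Nat.ble 2418 i)
noncomputable def s2416_2419 (i sh : Nat) : Nat := Bool.rec (Nat.shiftRight leaf2416 sh) (s2417_2419 i sh) (Nat.ble 2417 i)
noncomputable def s2413_2419 (i sh : Nat) : Nat := Bool.rec (s2413_2416 i sh) (s2416_2419 i sh) (Nat.ble 2416 i)
noncomputable def s2408_2419 (i sh : Nat) : Nat := Bool.rec (s2408_2413 i sh) (s2413_2419 i sh) (Nat.ble 2413 i)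
noncomputable def s2398_2419 (i sh : Nat) : Nat := Bool.rec (s2398_2408 i sh) (s2408_2419 i sh) (Nat.ble 2408 i)
noncomputable def s2378_2419 (i sh : Nat) : Nat := Bool.rec (s2378_2398 i sh) (s2398_2419 i sh) (Nat.ble 2398 i)
noncomputable def s2338_2419 (i sh : Nat) : Nat := Bool.rec (s2338_2378 i sh) (s2378_2419 i sh) (Nat.ble 2378 i)
noncomputable def s2258_2419 (i sh : Nat) : Nat := Bool.rec (s2258_2338 i sh) (s2338_2419 i sh) (Nat.ble 2338 i)
noncomputable def s2419_2421 (i sh : Nat) : Nat := Bool.rec (Nat.shiftRight leaf2419 sh) (Nat.shiftRight leaf2420 sh) (Nat.ble 2420 i)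
noncomputable def s2422_2424 (i sh : Nat) : Nat := Bool.rec (Nat.shiftRight leaf2422 sh) (Nat.shiftRight leaf2423 sh) (Nat.ble 2423 i)
noncomputable def s2421_2424 (i sh : Nat) : Nat := Bool.rec (Nat.shiftRight leaf2421 sh) (s2422_2424 i sh) (Nat.ble 2422 i)
noncomputable def s2419_2424 (i sh : Nat) : Nat := Bool.rec (s2419_2421 i sh) (s2421_2424 i sh) (Nat.ble 2421 i)
noncomputable def s2424_2426 (i sh : Nat) : Nat := Bool.rec (Nat.shiftRight leaf2424 sh) (Nat.shiftRight leaf2425 sh) (Nat.ble 2425 i)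
noncomputable def s2427_2429 (i sh : Nat) : Nat := Bool.rec (Nat.shiftRight leaf2427 sh) (Nat.shiftRight leaf2428 sh) (Nat.ble 2428 i)
noncomputable def s2426_2429 (i sh : Nat) : Nat := Bool.rec (Nat.shiftRight leaf2426 sh) (s2427_2429 i sh) (Nat.ble 2427 i)
noncomputable def s2424_2429 (i sh : Nat) : Nat := Bool.rec (s2424_2426 i sh) (s2426_2429 i sh) (Nat.ble 2426 i)
noncomputable def s2419_2429 (i sh : Nat) : Nat := Bool.rec (s2419_2424 i sh) (s2424_2429 i sh) (Nat.ble 2424 i)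
noncomputable def s2429_2431 (i sh : Nat) : Nat := Bool.rec (Nat.shiftRight leaf2429 sh) (Nat.shiftRight leaf2430 sh) (Nat.ble 2430 i)
noncomputable def s2432_2434 (i sh : Nat) : Nat := Bool.rec (Nat.shiftRight leaf2432 sh) (Nat.shiftRight leaf2433 sh) (Nat.ble 2433 i)
noncomputable def s2431_2434 (i sh : Nat) : Nat := Bool.rec (Nat.shiftRight leaf2431 sh) (s2432_2434 i sh) (Nat.ble 2432 i)
noncomputable def s2429_2434 (i sh : Nat) : Nat := Bool.rec (s2429_2431 i sh) (s2431_2434 i sh) (Nat.ble 2431 i)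
noncomputable def s2434_2436 (i sh : Nat) : Nat := Bool.rec (Nat.shiftRight leaf2434 sh) (Nat.shiftRight leaf2435 sh) (Nat.ble 2435 i)
noncomputable def s2437_2439 (i sh : Nat) : Nat := Bool.rec (Nat.shiftRight leaf2437 sh) (Nat.shiftRight leaf2438 sh) (Nat.ble 2438 i)
noncomputable def s2436_2439 (i sh : Nat) : Nat := Bool.rec (Nat.shiftRight leaf2436 sh) (s2437_2439 i sh) (Nat.ble 2437 i)
noncomputable def s2434_2439 (i sh : Nat) : Nat := Bool.rec (s2434_2436 i sh) (s2436_2439 i sh) (Nat.ble 2436 i)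
noncomputable def s2429_2439 (i sh : Nat) : Nat := Bool.rec (s2429_2434 i sh) (s2434_2439 i sh) (Nat.ble 2434 i)
noncomputable def s2419_2439 (i sh : Nat) : Nat := Bool.rec (s2419_2429 i sh) (s2429_2439 i sh) (Nat.ble 2429 i)
noncomputable def s2439_2441 (i sh : Nat) : Nat := Bool.rec (Nat.shiftRight leaf2439 sh) (Nat.shiftRight leaf2440 sh) (Nat.ble 2440 i)
noncomputable def s2442_2444 (i sh : Nat) : Nat := Bool.rec (Nat.shiftRight leaf2442 sh) (Nat.shiftRight leaf2443 sh) (Nat.ble 2443 i)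
noncomputable def s2441_2444 (i sh : Nat) : Nat := Bool.rec (Nat.shiftRight leaf2441 sh) (s2442_2444 i sh) (Nat.ble 2442 i)
noncomputable def s2439_2444 (i sh : Nat) : Nat := Bool.rec (s2439_2441 i sh) (s2441_2444 i sh) (Nat.ble 2441 i)
noncomputable def s2444_2446 (i sh : Nat) : Nat := Bool.rec (Nat.shiftRight leaf2444 sh) (Nat.shiftRight leaf2445 sh) (Nat.ble 2445 i)
noncomputable def s2447_2449 (i sh : Nat) : Nat := Bool.rec (Nat.shiftRight leaf2447 sh) (Nat.shiftRight leaf2448 sh) (Nat.ble 2448 i)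
noncomputable def s2446_2449 (i sh : Nat) : Nat := Bool.rec (Nat.shiftRight leaf2446 sh) (s2447_2449 i sh) (Nat.ble 2447 i)
noncomputable def s2444_2449 (i sh : Nat) : Nat := Bool.rec (s2444_2446 i sh) (s2446_2449 i sh) (Nat.ble 2446 i)
noncomputable def s2439_2449 (i sh : Nat) : Nat := Bool.rec (s2439_2444 i sh) (s2444_2449 i sh) (Nat.ble 2444 i)
noncomputable def s2449_2451 (i sh : Nat) : Nat := Bool.rec (Nat.shiftRight leaf2449 sh) (Nat.shiftRight leaf2450 sh) (Nat.ble 2450 i)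
noncomputable def s2452_2454 (i sh : Nat) : Nat := Bool.rec (Nat.shiftRight leaf2452 sh) (Nat.shiftRight leaf2453 sh) (Nat.ble 2453 i)
noncomputable def s2451_2454 (i sh : Nat) : Nat := Bool.rec (Nat.shiftRight leaf2451 sh) (s2452_2454 i sh) (Nat.ble 2452 i)
noncomputable def s2449_2454 (i sh : Nat) : Nat := Bool.rec (s2449_2451 i sh) (s2451_2454 i sh) (Nat.ble 2451 i)
noncomputable def s2454_2456 (i sh : Nat) : Nat := Bool.rec (Nat.shiftRight leaf2454 sh) (Nat.shiftRight leaf2455 sh) (Nat.ble 2455 i)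
noncomputable def s2457_2459 (i sh : Nat) : Nat := Bool.rec (Nat.shiftRight leaf2457 sh) (Nat.shiftRight leaf2458 sh) (Nat.ble 2458 i)
noncomputable def s2456_2459 (i sh : Nat) : Nat := Bool.rec (Nat.shiftRight leaf2456 sh) (s2457_2459 i sh) (Nat.ble 2457 i)
noncomputable def s2454_2459 (i sh : Nat) : Nat := Bool.rec (s2454_2456 i sh) (s2456_2459 i sh) (Nat.ble 2456 i)
noncomputable def s2449_2459 (i sh : Nat) : Nat := Bool.rec (s2449_2454 i sh) (s2454_2459 i sh) (Nat.ble 2454 i)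
noncomputable def s2439_2459 (i sh : Nat) : Nat := Bool.rec (s2439_2449 i sh) (s2449_2459 i sh) (Nat.ble 2449 i)
noncomputable def s2419_2459 (i sh : Nat) : Nat := Bool.rec (s2419_2439 i sh) (s2439_2459 i sh) (Nat.ble 2439 i)
noncomputable def s2459_2461 (i sh : Nat) : Nat := Bool.rec (Nat.shiftRight leaf2459 sh) (Nat.shiftRight leaf2460 sh) (Nat.ble 2460 i)
noncomputable def s2462_2464 (i sh : Nat) : Nat := Bool.rec (Nat.shiftRight leaf2462 sh) (Nat.shiftRight leaf2463 sh) (Nat.ble 2463 i)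
noncomputable def s2461_2464 (i sh : Nat) : Nat := Bool.rec (Nat.shiftRight leaf2461 sh) (s2462_2464 i sh) (Nat.ble 2462 i)
noncomputable def s2459_2464 (i sh : Nat) : Nat := Bool.rec (s2459_2461 i sh) (s2461_2464 i sh) (Nat.ble 2461 i)
noncomputable def s2464_2466 (i sh : Nat) : Nat := Bool.rec (Nat.shiftRight leaf2464 sh) (Nat.shiftRight leaf2465 sh) (Nat.ble 2465 i)
noncomputable def s2467_2469 (i sh : Nat) : Nat := Bool.rec (Nat.shiftRight leaf2467 sh) (Nat.shiftRight leaf2468 sh) (Nat.ble 2468 i)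
noncomputable def s2466_2469 (i sh : Nat) : Nat := Bool.rec (Nat.shiftRight leaf2466 sh) (s2467_2469 i sh) (Nat.ble 2467 i)
noncomputable def s2464_2469 (i sh : Nat) : Nat := Bool.rec (s2464_2466 i sh) (s2466_2469 i sh) (Nat.ble 2466 i)
noncomputable def s2459_2469 (i sh : Nat) : Nat := Bool.rec (s2459_2464 i sh) (s2464_2469 i sh) (Nat.ble 2464 i)
noncomputable def s2469_2471 (i sh : Nat) : Nat := Bool.rec (Nat.shiftRight leaf2469 sh) (Nat.shiftRight leaf2470 sh) (Nat.ble 2470 i)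
noncomputable def s2472_2474 (i sh : Nat) : Nat := Bool.rec (Nat.shiftRight leaf2472 sh) (Nat.shiftRight leaf2473 sh) (Nat.ble 2473 i)
noncomputable def s2471_2474 (i sh : Nat) : Nat := Bool.rec (Nat.shiftRight leaf2471 sh) (s2472_2474 i sh) (Nat.ble 2472 i)
noncomputable def s2469_2474 (i sh : Nat) : Nat := Bool.rec (s2469_2471 i sh) (s2471_2474 i sh) (Nat.ble 2471 i)
noncomputable def s2474_2476 (i sh : Nat) : Nat := Bool.rec (Nat.shiftRight leaf2474 sh) (Nat.shiftRight leaf2475 sh) (Nat.ble 2475 i)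
noncomputable def s2477_2479 (i sh : Nat) : Nat := Bool.rec (Nat.shiftRight leaf2477 sh) (Nat.shiftRight leaf2478 sh) (Nat.ble 2478 i)
noncomputable def s2476_2479 (i sh : Nat) : Nat := Bool.rec (Nat.shiftRight leaf2476 sh) (s2477_2479 i sh) (Nat.ble 2477 i)
noncomputable def s2474_2479 (i sh : Nat) : Nat := Bool.rec (s2474_2476 i sh) (s2476_2479 i sh) (Nat.ble 2476 i)
noncomputable def s2469_2479 (i sh : Nat) : Nat := Bool.rec (s2469_2474 i sh) (s2474_2479 i sh) (Nat.ble 2474 i)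
noncomputable def s2459_2479 (i sh : Nat) : Nat := Bool.rec (s2459_2469 i sh) (s2469_2479 i sh) (Nat.ble 2469 i)
noncomputable def s2479_2481 (i sh : Nat) : Nat := Bool.rec (Nat.shiftRight leaf2479 sh) (Nat.shiftRight leaf2480 sh) (Nat.ble 2480 i)
noncomputable def s2482_2484 (i sh : Nat) : Nat := Bool.rec (Nat.shiftRight leaf2482 sh) (Nat.shiftRight leaf2483 sh) (Nat.ble 2483 i)
noncomputable def s2481_2484 (i sh : Nat) : Nat := Bool.rec (Nat.shiftRight leaf2481 sh) (s2482_2484 i sh) (Nat.ble 2482 i)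
noncomputable def s2479_2484 (i sh : Nat) : Nat := Bool.rec (s2479_2481 i sh) (s2481_2484 i sh) (Nat.ble 2481 i)
noncomputable def s2484_2486 (i sh : Nat) : Nat := Bool.rec (Nat.shiftRight leaf2484 sh) (Nat.shiftRight leaf2485 sh) (Nat.ble 2485 i)
noncomputable def s2487_2489 (i sh : Nat) : Nat := Bool.rec (Nat.shiftRight leaf2487 sh) (Nat.shiftRight leaf2488 sh) (Nat.ble 2488 i)
noncomputable def s2486_2489 (i sh : Nat) : Nat := Bool.rec (Nat.shiftRight leaf2486 sh) (s2487_2489 i sh) (Nat.ble 2487 i)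
noncomputable def s2484_2489 (i sh : Nat) : Nat := Bool.rec (s2484_2486 i sh) (s2486_2489 i sh) (Nat.ble 2486 i)
noncomputable def s2479_2489 (i sh : Nat) : Nat := Bool.rec (s2479_2484 i sh) (s2484_2489 i sh) (Nat.ble 2484 i)
noncomputable def s2489_2491 (i sh : Nat) : Nat := Bool.rec (Nat.shiftRight leaf2489 sh) (Nat.shiftRight leaf2490 sh) (Nat.ble 2490 i)
noncomputable def s2492_2494 (i sh : Nat) : Nat := Bool.rec (Nat.shiftRight leaf2492 sh) (Nat.shiftRight leaf2493 sh) (Nat.ble 2493 i)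
noncomputable def s2491_2494 (i sh : Nat) : Nat := Bool.rec (Nat.shiftRight leaf2491 sh) (s2492_2494 i sh) (Nat.ble 2492 i)
noncomputable def s2489_2494 (i sh : Nat) : Nat := Bool.rec (s2489_2491 i sh) (s2491_2494 i sh) (Nat.ble 2491 i)
noncomputable def s2495_2497 (i sh : Nat) : Nat := Bool.rec (Nat.shiftRight leaf2495 sh) (Nat.shiftRight leaf2496 sh) (Nat.ble 2496 i)
noncomputable def s2494_2497 (i sh : Nat) : Nat := Bool.rec (Nat.shiftRight leaf2494 sh) (s2495_2497 i sh) (Nat.ble 2495 i)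
noncomputable def s2498_2500 (i sh : Nat) : Nat := Bool.rec (Nat.shiftRight leaf2498 sh) (Nat.shiftRight leaf2499 sh) (Nat.ble 2499 i)
noncomputable def s2497_2500 (i sh : Nat) : Nat := Bool.rec (Nat.shiftRight leaf2497 sh) (s2498_2500 i sh) (Nat.ble 2498 i)
noncomputable def s2494_2500 (i sh : Nat) : Nat := Bool.rec (s2494_2497 i sh) (s2497_2500 i sh) (Nat.ble 2497 i)
noncomputable def s2489_2500 (i sh : Nat) : Nat := Bool.rec (s2489_2494 i sh) (s2494_2500 i sh) (Nat.ble 2494 i)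
noncomputable def s2479_2500 (i sh : Nat) : Nat := Bool.rec (s2479_2489 i sh) (s2489_2500 i sh) (Nat.ble 2489 i)
noncomputable def s2459_2500 (i sh : Nat) : Nat := Bool.rec (s2459_2479 i sh) (s2479_2500 i sh) (Nat.ble 2479 i)
noncomputable def s2419_2500 (i sh : Nat) : Nat := Bool.rec (s2419_2459 i sh) (s2459_2500 i sh) (Nat.ble 2459 i)
noncomputable def s2500_2502 (i sh : Nat) : Nat := Bool.rec (Nat.shiftRight leaf2500 sh) (Nat.shiftRight leaf2501 sh) (Nat.ble 2501 i)
noncomputable def s2503_2505 (i sh : Nat) : Nat := Bool.rec (Nat.shiftRight leaf2503 sh) (Nat.shiftRight leaf2504 sh) (Nat.ble 2504 i)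
noncomputable def s2502_2505 (i sh : Nat) : Nat := Bool.rec (Nat.shiftRight leaf2502 sh) (s2503_2505 i sh) (Nat.ble 2503 i)
noncomputable def s2500_2505 (i sh : Nat) : Nat := Bool.rec (s2500_2502 i sh) (s2502_2505 i sh) (Nat.ble 2502 i)
noncomputable def s2505_2507 (i sh : Nat) : Nat := Bool.rec (Nat.shiftRight leaf2505 sh) (Nat.shiftRight leaf2506 sh) (Nat.ble 2506 i)
noncomputable def s2508_2510 (i sh : Nat) : Nat := Bool.rec (Nat.shiftRight leaf2508 sh) (Nat.shiftRight leaf2509 sh) (Nat.ble 2509 i)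
noncomputable def s2507_2510 (i sh : Nat) : Nat := Bool.rec (Nat.shiftRight leaf2507 sh) (s2508_2510 i sh) (Nat.ble 2508 i)
noncomputable def s2505_2510 (i sh : Nat) : Nat := Bool.rec (s2505_2507 i sh) (s2507_2510 i sh) (Nat.ble 2507 i)
noncomputable def s2500_2510 (i sh : Nat) : Nat := Bool.rec (s2500_2505 i sh) (s2505_2510 i sh) (Nat.ble 2505 i)
noncomputable def s2510_2512 (i sh : Nat) : Nat := Bool.rec (Nat.shiftRight leaf2510 sh) (Nat.shiftRight leaf2511 sh) (Nat.ble 2511 i)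
noncomputable def s2513_2515 (i sh : Nat) : Nat := Bool.rec (Nat.shiftRight leaf2513 sh) (Nat.shiftRight leaf2514 sh) (Nat.ble 2514 i)
noncomputable def s2512_2515 (i sh : Nat) : Nat := Bool.rec (Nat.shiftRight leaf2512 sh) (s2513_2515 i sh) (Nat.ble 2513 i)
noncomputable def s2510_2515 (i sh : Nat) : Nat := Bool.rec (s2510_2512 i sh) (s2512_2515 i sh) (Nat.ble 2512 i)
noncomputable def s2515_2517 (i sh : Nat) : Nat := Bool.rec (Nat.shiftRight leaf2515 sh) (Nat.shiftRight leaf2516 sh) (Nat.ble 2516 i)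
noncomputable def s2518_2520 (i sh : Nat) : Nat := Bool.rec (Nat.shiftRight leaf2518 sh) (Nat.shiftRight leaf2519 sh) (Nat.ble 2519 i)
noncomputable def s2517_2520 (i sh : Nat) : Nat := Bool.rec (Nat.shiftRight leaf2517 sh) (s2518_2520 i sh) (Nat.ble 2518 i)
noncomputable def s2515_2520 (i sh : Nat) : Nat := Bool.rec (s2515_2517 i sh) (s2517_2520 i sh) (Nat.ble 2517 i)
noncomputable def s2510_2520 (i sh : Nat) : Nat := Bool.rec (s2510_2515 i sh) (s2515_2520 i sh) (Nat.ble 2515 i)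
noncomputable def s2500_2520 (i sh : Nat) : Nat := Bool.rec (s2500_2510 i sh) (s2510_2520 i sh) (Nat.ble 2510 i)
noncomputable def s2520_2522 (i sh : Nat) : Nat := Bool.rec (Nat.shiftRight leaf2520 sh) (Nat.shiftRight leaf2521 sh) (Nat.ble 2521 i)
noncomputable def s2523_2525 (i sh : Nat) : Nat := Bool.rec (Nat.shiftRight leaf2523 sh) (Nat.shiftRight leaf2524 sh) (Nat.ble 2524 i)
noncomputable def s2522_2525 (i sh : Nat) : Nat := Bool.rec (Nat.shiftRight leaf2522 sh) (s2523_2525 i sh) (Nat.ble 2523 i)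
noncomputable def s2520_2525 (i sh : Nat) : Nat := Bool.rec (s2520_2522 i sh) (s2522_2525 i sh) (Nat.ble 2522 i)
noncomputable def s2525_2527 (i sh : Nat) : Nat := Bool.rec (Nat.shiftRight leaf2525 sh) (Nat.shiftRight leaf2526 sh) (Nat.ble 2526 i)
noncomputable def s2528_2530 (i sh : Nat) : Nat := Bool.rec (Nat.shiftRight leaf2528 sh) (Nat.shiftRight leaf2529 sh) (Nat.ble 2529 i)
noncomputable def s2527_2530 (i sh : Nat) : Nat := Bool.rec (Nat.shiftRight leaf2527 sh) (s2528_2530 i sh) (Nat.ble 2528 i)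
noncomputable def s2525_2530 (i sh : Nat) : Nat := Bool.rec (s2525_2527 i sh) (s2527_2530 i sh) (Nat.ble 2527 i)
noncomputable def s2520_2530 (i sh : Nat) : Nat := Bool.rec (s2520_2525 i sh) (s2525_2530 i sh) (Nat.ble 2525 i)
noncomputable def s2530_2532 (i sh : Nat) : Nat := Bool.rec (Nat.shiftRight leaf2530 sh) (Nat.shiftRight leaf2531 sh) (Nat.ble 2531 i)
noncomputable def s2533_2535 (i sh : Nat) : Nat := Bool.rec (Nat.shiftRight leaf2533 sh) (Nat.shiftRight leaf2534 sh) (Nat.ble 2534 i)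
noncomputable def s2532_2535 (i sh : Nat) : Nat := Bool.rec (Nat.shiftRight leaf2532 sh) (s2533_2535 i sh) (Nat.ble 2533 i)
noncomputable def s2530_2535 (i sh : Nat) : Nat := Bool.rec (s2530_2532 i sh) (s2532_2535 i sh) (Nat.ble 2532 i)
noncomputable def s2535_2537 (i sh : Nat) : Nat := Bool.rec (Nat.shiftRight leaf2535 sh) (Nat.shiftRight leaf2536 sh) (Nat.ble 2536 i)
noncomputable def s2538_2540 (i sh : Nat) : Nat := Bool.rec (Nat.shiftRight leaf2538 sh) (Nat.shiftRight leaf2539 sh) (Nat.ble 2539 i)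
noncomputable def s2537_2540 (i sh : Nat) : Nat := Bool.rec (Nat.shiftRight leaf2537 sh) (s2538_2540 i sh) (Nat.ble 2538 i)
noncomputable def s2535_2540 (i sh : Nat) : Nat := Bool.rec (s2535_2537 i sh) (s2537_2540 i sh) (Nat.ble 2537 i)
noncomputable def s2530_2540 (i sh : Nat) : Nat := Bool.rec (s2530_2535 i sh) (s2535_2540 i sh) (Nat.ble 2535 i)
noncomputable def s2520_2540 (i sh : Nat) : Nat := Bool.rec (s2520_2530 i sh) (s2530_2540 i sh) (Nat.ble 2530 i)
noncomputable def s2500_2540 (i sh : Nat) : Nat := Bool.rec (s2500_2520 i sh) (s2520_2540 i sh) (Nat.ble 2520 i)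
noncomputable def s2540_2542 (i sh : Nat) : Nat := Bool.rec (Nat.shiftRight leaf2540 sh) (Nat.shiftRight leaf2541 sh) (Nat.ble 2541 i)
noncomputable def s2543_2545 (i sh : Nat) : Nat := Bool.rec (Nat.shiftRight leaf2543 sh) (Nat.shiftRight leaf2544 sh) (Nat.ble 2544 i)
noncomputable def s2542_2545 (i sh : Nat) : Nat := Bool.rec (Nat.shiftRight leaf2542 sh) (s2543_2545 i sh) (Nat.ble 2543 i)
noncomputable def s2540_2545 (i sh : Nat) : Nat := Bool.rec (s2540_2542 i sh) (s2542_2545 i sh) (Nat.ble 2542 i)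
noncomputable def s2545_2547 (i sh : Nat) : Nat := Bool.rec (Nat.shiftRight leaf2545 sh) (Nat.shiftRight leaf2546 sh) (Nat.ble 2546 i)
noncomputable def s2548_2550 (i sh : Nat) : Nat := Bool.rec (Nat.shiftRight leaf2548 sh) (Nat.shiftRight leaf2549 sh) (Nat.ble 2549 i)
noncomputable def s2547_2550 (i sh : Nat) : Nat := Bool.rec (Nat.shiftRight leaf2547 sh) (s2548_2550 i sh) (Nat.ble 2548 i)
noncomputable def s2545_2550 (i sh : Nat) : Nat := Bool.rec (s2545_2547 i sh) (s2547_2550 i sh) (Nat.ble 2547 i)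
noncomputable def s2540_2550 (i sh : Nat) : Nat := Bool.rec (s2540_2545 i sh) (s2545_2550 i sh) (Nat.ble 2545 i)
noncomputable def s2550_2552 (i sh : Nat) : Nat := Bool.rec (Nat.shiftRight leaf2550 sh) (Nat.shiftRight leaf2551 sh) (Nat.ble 2551 i)
noncomputable def s2553_2555 (i sh : Nat) : Nat := Bool.rec (Nat.shiftRight leaf2553 sh) (Nat.shiftRight leaf2554 sh) (Nat.ble 2554 i)
noncomputable def s2552_2555 (i sh : Nat) : Nat := Bool.rec (Nat.shiftRight leaf2552 sh) (s2553_2555 i sh) (Nat.ble 2553 i)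
noncomputable def s2550_2555 (i sh : Nat) : Nat := Bool.rec (s2550_2552 i sh) (s2552_2555 i sh) (Nat.ble 2552 i)
noncomputable def s2555_2557 (i sh : Nat) : Nat := Bool.rec (Nat.shiftRight leaf2555 sh) (Nat.shiftRight leaf2556 sh) (Nat.ble 2556 i)
noncomputable def s2558_2560 (i sh : Nat) : Nat := Bool.rec (Nat.shiftRight leaf2558 sh) (Nat.shiftRight leaf2559 sh) (Nat.ble 2559 i)
noncomputable def s2557_2560 (i sh : Nat) : Nat := Bool.rec (Nat.shiftRight leaf2557 sh) (s2558_2560 i sh) (Nat.ble 2558 i)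
noncomputable def s2555_2560 (i sh : Nat) : Nat := Bool.rec (s2555_2557 i sh) (s2557_2560 i sh) (Nat.ble 2557 i)
noncomputable def s2550_2560 (i sh : Nat) : Nat := Bool.rec (s2550_2555 i sh) (s2555_2560 i sh) (Nat.ble 2555 i)
noncomputable def s2540_2560 (i sh : Nat) : Nat := Bool.rec (s2540_2550 i sh) (s2550_2560 i sh) (Nat.ble 2550 i)
noncomputable def s2560_2562 (i sh : Nat) : Nat := Bool.rec (Nat.shiftRight leaf2560 sh) (Nat.shiftRight leaf2561 sh) (Nat.ble 2561 i)
noncomputable def s2563_2565 (i sh : Nat) : Nat := Bool.rec (Nat.shiftRight leaf2563 sh) (Nat.shiftRight leaf2564 sh) (Nat.ble 2564 i)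
noncomputable def s2562_2565 (i sh : Nat) : Nat := Bool.rec (Nat.shiftRight leaf2562 sh) (s2563_2565 i sh) (Nat.ble 2563 i)
noncomputable def s2560_2565 (i sh : Nat) : Nat := Bool.rec (s2560_2562 i sh) (s2562_2565 i sh) (Nat.ble 2562 i)
noncomputable def s2565_2567 (i sh : Nat) : Nat := Bool.rec (Nat.shiftRight leaf2565 sh) (Nat.shiftRight leaf2566 sh) (Nat.ble 2566 i)
noncomputable def s2568_2570 (i sh : Nat) : Nat := Bool.rec (Nat.shiftRight leaf2568 sh) (Nat.shiftRight leaf2569 sh) (Nat.ble 2569 i)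
noncomputable def s2567_2570 (i sh : Nat) : Nat := Bool.rec (Nat.shiftRight leaf2567 sh) (s2568_2570 i sh) (Nat.ble 2568 i)
noncomputable def s2565_2570 (i sh : Nat) : Nat := Bool.rec (s2565_2567 i sh) (s2567_2570 i sh) (Nat.ble 2567 i)
noncomputable def s2560_2570 (i sh : Nat) : Nat := Bool.rec (s2560_2565 i sh) (s2565_2570 i sh) (Nat.ble 2565 i)
noncomputable def s2570_2572 (i sh : Nat) : Nat := Bool.rec (Nat.shiftRight leaf2570 sh) (Nat.shiftRight leaf2571 sh) (Nat.ble 2571 i)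
noncomputable def s2573_2575 (i sh : Nat) : Nat := Bool.rec (Nat.shiftRight leaf2573 sh) (Nat.shiftRight leaf2574 sh) (Nat.ble 2574 i)
noncomputable def s2572_2575 (i sh : Nat) : Nat := Bool.rec (Nat.shiftRight leaf2572 sh) (s2573_2575 i sh) (Nat.ble 2573 i)
noncomputable def s2570_2575 (i sh : Nat) : Nat := Bool.rec (s2570_2572 i sh) (s2572_2575 i sh) (Nat.ble 2572 i)
noncomputable def s2576_2578 (i sh : Nat) : Nat := Bool.rec (Nat.shiftRight leaf2576 sh) (Nat.shiftRight leaf2577 sh) (Nat.ble 2577 i)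
noncomputable def s2575_2578 (i sh : Nat) : Nat := Bool.rec (Nat.shiftRight leaf2575 sh) (s2576_2578 i sh) (Nat.ble 2576 i)
noncomputable def s2579_2581 (i sh : Nat) : Nat := Bool.rec (Nat.shiftRight leaf2579 sh) (Nat.shiftRight leaf2580 sh) (Nat.ble 2580 i)
noncomputable def s2578_2581 (i sh : Nat) : Nat := Bool.rec (Nat.shiftRight leaf2578 sh) (s2579_2581 i sh) (Nat.ble 2579 i)
noncomputable def s2575_2581 (i sh : Nat) : Nat := Bool.rec (s2575_2578 i sh) (s2578_2581 i sh) (Nat.ble 2578 i)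
noncomputable def s2570_2581 (i sh : Nat) : Nat := Bool.rec (s2570_2575 i sh) (s2575_2581 i sh) (Nat.ble 2575 i)
noncomputable def s2560_2581 (i sh : Nat) : Nat := Bool.rec (s2560_2570 i sh) (s2570_2581 i sh) (Nat.ble 2570 i)
noncomputable def s2540_2581 (i sh : Nat) : Nat := Bool.rec (s2540_2560 i sh) (s2560_2581 i sh) (Nat.ble 2560 i)
noncomputable def s2500_2581 (i sh : Nat) : Nat := Bool.rec (s2500_2540 i sh) (s2540_2581 i sh) (Nat.ble 2540 i)
noncomputable def s2419_2581 (i sh : Nat) : Nat := Bool.rec (s2419_2500 i sh) (s2500_2581 i sh) (Nat.ble 2500 i)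
noncomputable def s2258_2581 (i sh : Nat) : Nat := Bool.rec (s2258_2419 i sh) (s2419_2581 i sh) (Nat.ble 2419 i)
noncomputable def s1935_2581 (i sh : Nat) : Nat := Bool.rec (s1935_2258 i sh) (s2258_2581 i sh) (Nat.ble 2258 i)
noncomputable def s1290_2581 (i sh : Nat) : Nat := Bool.rec (s1290_1935 i sh) (s1935_2581 i sh) (Nat.ble 1935 i)
noncomputable def s0_2581 (i sh : Nat) : Nat := Bool.rec (s0_1290 i sh) (s1290_2581 i sh) (Nat.ble 1290 i)
noncomputable def s2581_2583 (i sh : Nat) : Nat := Bool.rec (Nat.shiftRight leaf2581 sh) (Nat.shiftRight leaf2582 sh) (Nat.ble 2582 i)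
noncomputable def s2584_2586 (i sh : Nat) : Nat := Bool.rec (Nat.shiftRight leaf2584 sh) (Nat.shiftRight leaf2585 sh) (Nat.ble 2585 i)
noncomputable def s2583_2586 (i sh : Nat) : Nat := Bool.rec (Nat.shiftRight leaf2583 sh) (s2584_2586 i sh) (Nat.ble 2584 i)
noncomputable def s2581_2586 (i sh : Nat) : Nat := Bool.rec (s2581_2583 i sh) (s2583_2586 i sh) (Nat.ble 2583 i)
noncomputable def s2586_2588 (i sh : Nat) : Nat := Bool.rec (Nat.shiftRight leaf2586 sh) (Nat.shiftRight leaf2587 sh) (Nat.ble 2587 i)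
noncomputable def s2589_2591 (i sh : Nat) : Nat := Bool.rec (Nat.shiftRight leaf2589 sh) (Nat.shiftRight leaf2590 sh) (Nat.ble 2590 i)
noncomputable def s2588_2591 (i sh : Nat) : Nat := Bool.rec (Nat.shiftRight leaf2588 sh) (s2589_2591 i sh) (Nat.ble 2589 i)
noncomputable def s2586_2591 (i sh : Nat) : Nat := Bool.rec (s2586_2588 i sh) (s2588_2591 i sh) (Nat.ble 2588 i)
noncomputable def s2581_2591 (i sh : Nat) : Nat := Bool.rec (s2581_2586 i sh) (s2586_2591 i sh) (Nat.ble 2586 i)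
noncomputable def s2591_2593 (i sh : Nat) : Nat := Bool.rec (Nat.shiftRight leaf2591 sh) (Nat.shiftRight leaf2592 sh) (Nat.ble 2592 i)
noncomputable def s2594_2596 (i sh : Nat) : Nat := Bool.rec (Nat.shiftRight leaf2594 sh) (Nat.shiftRight leaf2595 sh) (Nat.ble 2595 i)
noncomputable def s2593_2596 (i sh : Nat) : Nat := Bool.rec (Nat.shiftRight leaf2593 sh) (s2594_2596 i sh) (Nat.ble 2594 i)
noncomputable def s2591_2596 (i sh : Nat) : Nat := Bool.rec (s2591_2593 i sh) (s2593_2596 i sh) (Nat.ble 2593 i)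
noncomputable def s2596_2598 (i sh : Nat) : Nat := Bool.rec (Nat.shiftRight leaf2596 sh) (Nat.shiftRight leaf2597 sh) (Nat.ble 2597 i)
noncomputable def s2599_2601 (i sh : Nat) : Nat := Bool.rec (Nat.shiftRight leaf2599 sh) (Nat.shiftRight leaf2600 sh) (Nat.ble 2600 i)
noncomputable def s2598_2601 (i sh : Nat) : Nat := Bool.rec (Nat.shiftRight leaf2598 sh) (s2599_2601 i sh) (Nat.ble 2599 i)
noncomputable def s2596_2601 (i sh : Nat) : Nat := Bool.rec (s2596_2598 i sh) (s2598_2601 i sh) (Nat.ble 2598 i)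
noncomputable def s2591_2601 (i sh : Nat) : Nat := Bool.rec (s2591_2596 i sh) (s2596_2601 i sh) (Nat.ble 2596 i)
noncomputable def s2581_2601 (i sh : Nat) : Nat := Bool.rec (s2581_2591 i sh) (s2591_2601 i sh) (Nat.ble 2591 i)
noncomputable def s2601_2603 (i sh : Nat) : Nat := Bool.rec (Nat.shiftRight leaf2601 sh) (Nat.shiftRight leaf2602 sh) (Nat.ble 2602 i)
noncomputable def s2604_2606 (i sh : Nat) : Nat := Bool.rec (Nat.shiftRight leaf2604 sh) (Nat.shiftRight leaf2605 sh) (Nat.ble 2605 i)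
noncomputable def s2603_2606 (i sh : Nat) : Nat := Bool.rec (Nat.shiftRight leaf2603 sh) (s2604_2606 i sh) (Nat.ble 2604 i)
noncomputable def s2601_2606 (i sh : Nat) : Nat := Bool.rec (s2601_2603 i sh) (s2603_2606 i sh) (Nat.ble 2603 i)
noncomputable def s2606_2608 (i sh : Nat) : Nat := Bool.rec (Nat.shiftRight leaf2606 sh) (Nat.shiftRight leaf2607 sh) (Nat.ble 2607 i)
noncomputable def s2609_2611 (i sh : Nat) : Nat := Bool.rec (Nat.shiftRight leaf2609 sh) (Nat.shiftRight leaf2610 sh) (Nat.ble 2610 i)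
noncomputable def s2608_2611 (i sh : Nat) : Nat := Bool.rec (Nat.shiftRight leaf2608 sh) (s2609_2611 i sh) (Nat.ble 2609 i)
noncomputable def s2606_2611 (i sh : Nat) : Nat := Bool.rec (s2606_2608 i sh) (s2608_2611 i sh) (Nat.ble 2608 i)
noncomputable def s2601_2611 (i sh : Nat) : Nat := Bool.rec (s2601_2606 i sh) (s2606_2611 i sh) (Nat.ble 2606 i)
noncomputable def s2611_2613 (i sh : Nat) : Nat := Bool.rec (Nat.shiftRight leaf2611 sh) (Nat.shiftRight leaf2612 sh) (Nat.ble 2612 i)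
noncomputable def s2614_2616 (i sh : Nat) : Nat := Bool.rec (Nat.shiftRight leaf2614 sh) (Nat.shiftRight leaf2615 sh) (Nat.ble 2615 i)
noncomputable def s2613_2616 (i sh : Nat) : Nat := Bool.rec (Nat.shiftRight leaf2613 sh) (s2614_2616 i sh) (Nat.ble 2614 i)
noncomputable def s2611_2616 (i sh : Nat) : Nat := Bool.rec (s2611_2613 i sh) (s2613_2616 i sh) (Nat.ble 2613 i)
noncomputable def s2616_2618 (i sh : Nat) : Nat := Bool.rec (Nat.shiftRight leaf2616 sh) (Nat.shiftRight leaf2617 sh) (Nat.ble 2617 i)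
noncomputable def s2619_2621 (i sh : Nat) : Nat := Bool.rec (Nat.shiftRight leaf2619 sh) (Nat.shiftRight leaf2620 sh) (Nat.ble 2620 i)
noncomputable def s2618_2621 (i sh : Nat) : Nat := Bool.rec (Nat.shiftRight leaf2618 sh) (s2619_2621 i sh) (Nat.ble 2619 i)
noncomputable def s2616_2621 (i sh : Nat) : Nat := Bool.rec (s2616_2618 i sh) (s2618_2621 i sh) (Nat.ble 2618 i)
noncomputable def s2611_2621 (i sh : Nat) : Nat := Bool.rec (s2611_2616 i sh) (s2616_2621 i sh) (Nat.ble 2616 i)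
noncomputable def s2601_2621 (i sh : Nat) : Nat := Bool.rec (s2601_2611 i sh) (s2611_2621 i sh) (Nat.ble 2611 i)
noncomputable def s2581_2621 (i sh : Nat) : Nat := Bool.rec (s2581_2601 i sh) (s2601_2621 i sh) (Nat.ble 2601 i)
noncomputable def s2621_2623 (i sh : Nat) : Nat := Bool.rec (Nat.shiftRight leaf2621 sh) (Nat.shiftRight leaf2622 sh) (Nat.ble 2622 i)
noncomputable def s2624_2626 (i sh : Nat) : Nat := Bool.rec (Nat.shiftRight leaf2624 sh) (Nat.shiftRight leaf2625 sh) (Nat.ble 2625 i)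
noncomputable def s2623_2626 (i sh : Nat) : Nat := Bool.rec (Nat.shiftRight leaf2623 sh) (s2624_2626 i sh) (Nat.ble 2624 i)
noncomputable def s2621_2626 (i sh : Nat) : Nat := Bool.rec (s2621_2623 i sh) (s2623_2626 i sh) (Nat.ble 2623 i)
noncomputable def s2626_2628 (i sh : Nat) : Nat := Bool.rec (Nat.shiftRight leaf2626 sh) (Nat.shiftRight leaf2627 sh) (Nat.ble 2627 i)
noncomputable def s2629_2631 (i sh : Nat) : Nat := Bool.rec (Nat.shiftRight leaf2629 sh) (Nat.shiftRight leaf2630 sh) (Nat.ble 2630 i)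
noncomputable def s2628_2631 (i sh : Nat) : Nat := Bool.rec (Nat.shiftRight leaf2628 sh) (s2629_2631 i sh) (Nat.ble 2629 i)
noncomputable def s2626_2631 (i sh : Nat) : Nat := Bool.rec (s2626_2628 i sh) (s2628_2631 i sh) (Nat.ble 2628 i)
noncomputable def s2621_2631 (i sh : Nat) : Nat := Bool.rec (s2621_2626 i sh) (s2626_2631 i sh) (Nat.ble 2626 i)
noncomputable def s2631_2633 (i sh : Nat) : Nat := Bool.rec (Nat.shiftRight leaf2631 sh) (Nat.shiftRight leaf2632 sh) (Nat.ble 2632 i)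
noncomputable def s2634_2636 (i sh : Nat) : Nat := Bool.rec (Nat.shiftRight leaf2634 sh) (Nat.shiftRight leaf2635 sh) (Nat.ble 2635 i)
noncomputable def s2633_2636 (i sh : Nat) : Nat := Bool.rec (Nat.shiftRight leaf2633 sh) (s2634_2636 i sh) (Nat.ble 2634 i)
noncomputable def s2631_2636 (i sh : Nat) : Nat := Bool.rec (s2631_2633 i sh) (s2633_2636 i sh) (Nat.ble 2633 i)
noncomputable def s2636_2638 (i sh : Nat) : Nat := Bool.rec (Nat.shiftRight leaf2636 sh) (Nat.shiftRight leaf2637 sh) (Nat.ble 2637 i)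
noncomputable def s2639_2641 (i sh : Nat) : Nat := Bool.rec (Nat.shiftRight leaf2639 sh) (Nat.shiftRight leaf2640 sh) (Nat.ble 2640 i)
noncomputable def s2638_2641 (i sh : Nat) : Nat := Bool.rec (Nat.shiftRight leaf2638 sh) (s2639_2641 i sh) (Nat.ble 2639 i)
noncomputable def s2636_2641 (i sh : Nat) : Nat := Bool.rec (s2636_2638 i sh) (s2638_2641 i sh) (Nat.ble 2638 i)
noncomputable def s2631_2641 (i sh : Nat) : Nat := Bool.rec (s2631_2636 i sh) (s2636_2641 i sh) (Nat.ble 2636 i)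
noncomputable def s2621_2641 (i sh : Nat) : Nat := Bool.rec (s2621_2631 i sh) (s2631_2641 i sh) (Nat.ble 2631 i)
noncomputable def s2641_2643 (i sh : Nat) : Nat := Bool.rec (Nat.shiftRight leaf2641 sh) (Nat.shiftRight leaf2642 sh) (Nat.ble 2642 i)
noncomputable def s2644_2646 (i sh : Nat) : Nat := Bool.rec (Nat.shiftRight leaf2644 sh) (Nat.shiftRight leaf2645 sh) (Nat.ble 2645 i)
noncomputable def s2643_2646 (i sh : Nat) : Nat := Bool.rec (Nat.shiftRight leaf2643 sh) (s2644_2646 i sh) (Nat.ble 2644 i)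
noncomputable def s2641_2646 (i sh : Nat) : Nat := Bool.rec (s2641_2643 i sh) (s2643_2646 i sh) (Nat.ble 2643 i)
noncomputable def s2646_2648 (i sh : Nat) : Nat := Bool.rec (Nat.shiftRight leaf2646 sh) (Nat.shiftRight leaf2647 sh) (Nat.ble 2647 i)
noncomputable def s2649_2651 (i sh : Nat) : Nat := Bool.rec (Nat.shiftRight leaf2649 sh) (Nat.shiftRight leaf2650 sh) (Nat.ble 2650 i)
noncomputable def s2648_2651 (i sh : Nat) : Nat := Bool.rec (Nat.shiftRight leaf2648 sh) (s2649_2651 i sh) (Nat.ble 2649 i)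
noncomputable def s2646_2651 (i sh : Nat) : Nat := Bool.rec (s2646_2648 i sh) (s2648_2651 i sh) (Nat.ble 2648 i)
noncomputable def s2641_2651 (i sh : Nat) : Nat := Bool.rec (s2641_2646 i sh) (s2646_2651 i sh) (Nat.ble 2646 i)
noncomputable def s2651_2653 (i sh : Nat) : Nat := Bool.rec (Nat.shiftRight leaf2651 sh) (Nat.shiftRight leaf2652 sh) (Nat.ble 2652 i)
noncomputable def s2654_2656 (i sh : Nat) : Nat := Bool.rec (Nat.shiftRight leaf2654 sh) (Nat.shiftRight leaf2655 sh) (Nat.ble 2655 i)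
noncomputable def s2653_2656 (i sh : Nat) : Nat := Bool.rec (Nat.shiftRight leaf2653 sh) (s2654_2656 i sh) (Nat.ble 2654 i)
noncomputable def s2651_2656 (i sh : Nat) : Nat := Bool.rec (s2651_2653 i sh) (s2653_2656 i sh) (Nat.ble 2653 i)
noncomputable def s2656_2658 (i sh : Nat) : Nat := Bool.rec (Nat.shiftRight leaf2656 sh) (Nat.shiftRight leaf2657 sh) (Nat.ble 2657 i)
noncomputable def s2659_2661 (i sh : Nat) : Nat := Bool.rec (Nat.shiftRight leaf2659 sh) (Nat.shiftRight leaf2660 sh) (Nat.ble 2660 i)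
noncomputable def s2658_2661 (i sh : Nat) : Nat := Bool.rec (Nat.shiftRight leaf2658 sh) (s2659_2661 i sh) (Nat.ble 2659 i)
noncomputable def s2656_2661 (i sh : Nat) : Nat := Bool.rec (s2656_2658 i sh) (s2658_2661 i sh) (Nat.ble 2658 i)
noncomputable def s2651_2661 (i sh : Nat) : Nat := Bool.rec (s2651_2656 i sh) (s2656_2661 i sh) (Nat.ble 2656 i)
noncomputable def s2641_2661 (i sh : Nat) : Nat := Bool.rec (s2641_2651 i sh) (s2651_2661 i sh) (Nat.ble 2651 i)
noncomputable def s2621_2661 (i sh : Nat) : Nat := Bool.rec (s2621_2641 i sh) (s2641_2661 i sh) (Nat.ble 2641 i)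
noncomputable def s2581_2661 (i sh : Nat) : Nat := Bool.rec (s2581_2621 i sh) (s2621_2661 i sh) (Nat.ble 2621 i)
noncomputable def s2661_2663 (i sh : Nat) : Nat := Bool.rec (Nat.shiftRight leaf2661 sh) (Nat.shiftRight leaf2662 sh) (Nat.ble 2662 i)
noncomputable def s2664_2666 (i sh : Nat) : Nat := Bool.rec (Nat.shiftRight leaf2664 sh) (Nat.shiftRight leaf2665 sh) (Nat.ble 2665 i)
noncomputable def s2663_2666 (i sh : Nat) : Nat := Bool.rec (Nat.shiftRight leaf2663 sh) (s2664_2666 i sh) (Nat.ble 2664 i)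
noncomputable def s2661_2666 (i sh : Nat) : Nat := Bool.rec (s2661_2663 i sh) (s2663_2666 i sh) (Nat.ble 2663 i)
noncomputable def s2666_2668 (i sh : Nat) : Nat := Bool.rec (Nat.shiftRight leaf2666 sh) (Nat.shiftRight leaf2667 sh) (Nat.ble 2667 i)
noncomputable def s2669_2671 (i sh : Nat) : Nat := Bool.rec (Nat.shiftRight leaf2669 sh) (Nat.shiftRight leaf2670 sh) (Nat.ble 2670 i)
noncomputable def s2668_2671 (i sh : Nat) : Nat := Bool.rec (Nat.shiftRight leaf2668 sh) (s2669_2671 i sh) (Nat.ble 2669 i)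
noncomputable def s2666_2671 (i sh : Nat) : Nat := Bool.rec (s2666_2668 i sh) (s2668_2671 i sh) (Nat.ble 2668 i)
noncomputable def s2661_2671 (i sh : Nat) : Nat := Bool.rec (s2661_2666 i sh) (s2666_2671 i sh) (Nat.ble 2666 i)
noncomputable def s2671_2673 (i sh : Nat) : Nat := Bool.rec (Nat.shiftRight leaf2671 sh) (Nat.shiftRight leaf2672 sh) (Nat.ble 2672 i)
noncomputable def s2674_2676 (i sh : Nat) : Nat := Bool.rec (Nat.shiftRight leaf2674 sh) (Nat.shiftRight leaf2675 sh) (Nat.ble 2675 i)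
noncomputable def s2673_2676 (i sh : Nat) : Nat := Bool.rec (Nat.shiftRight leaf2673 sh) (s2674_2676 i sh) (Nat.ble 2674 i)
noncomputable def s2671_2676 (i sh : Nat) : Nat := Bool.rec (s2671_2673 i sh) (s2673_2676 i sh) (Nat.ble 2673 i)
noncomputable def s2676_2678 (i sh : Nat) : Nat := Bool.rec (Nat.shiftRight leaf2676 sh) (Nat.shiftRight leaf2677 sh) (Nat.ble 2677 i)
noncomputable def s2679_2681 (i sh : Nat) : Nat := Bool.rec (Nat.shiftRight leaf2679 sh) (Nat.shiftRight leaf2680 sh) (Nat.ble 2680 i)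
noncomputable def s2678_2681 (i sh : Nat) : Nat := Bool.rec (Nat.shiftRight leaf2678 sh) (s2679_2681 i sh) (Nat.ble 2679 i)
noncomputable def s2676_2681 (i sh : Nat) : Nat := Bool.rec (s2676_2678 i sh) (s2678_2681 i sh) (Nat.ble 2678 i)
noncomputable def s2671_2681 (i sh : Nat) : Nat := Bool.rec (s2671_2676 i sh) (s2676_2681 i sh) (Nat.ble 2676 i)
noncomputable def s2661_2681 (i sh : Nat) : Nat := Bool.rec (s2661_2671 i sh) (s2671_2681 i sh) (Nat.ble 2671 i)
noncomputable def s2681_2683 (i sh : Nat) : Nat := Bool.rec (Nat.shiftRight leaf2681 sh) (Nat.shiftRight leaf2682 sh) (Nat.ble 2682 i)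
noncomputable def s2684_2686 (i sh : Nat) : Nat := Bool.rec (Nat.shiftRight leaf2684 sh) (Nat.shiftRight leaf2685 sh) (Nat.ble 2685 i)
noncomputable def s2683_2686 (i sh : Nat) : Nat := Bool.rec (Nat.shiftRight leaf2683 sh) (s2684_2686 i sh) (Nat.ble 2684 i)
noncomputable def s2681_2686 (i sh : Nat) : Nat := Bool.rec (s2681_2683 i sh) (s2683_2686 i sh) (Nat.ble 2683 i)
noncomputable def s2686_2688 (i sh : Nat) : Nat := Bool.rec (Nat.shiftRight leaf2686 sh) (Nat.shiftRight leaf2687 sh) (Nat.ble 2687 i)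
noncomputable def s2689_2691 (i sh : Nat) : Nat := Bool.rec (Nat.shiftRight leaf2689 sh) (Nat.shiftRight leaf2690 sh) (Nat.ble 2690 i)
noncomputable def s2688_2691 (i sh : Nat) : Nat := Bool.rec (Nat.shiftRight leaf2688 sh) (s2689_2691 i sh) (Nat.ble 2689 i)
noncomputable def s2686_2691 (i sh : Nat) : Nat := Bool.rec (s2686_2688 i sh) (s2688_2691 i sh) (Nat.ble 2688 i)
noncomputable def s2681_2691 (i sh : Nat) : Nat := Bool.rec (s2681_2686 i sh) (s2686_2691 i sh) (Nat.ble 2686 i)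
noncomputable def s2691_2693 (i sh : Nat) : Nat := Bool.rec (Nat.shiftRight leaf2691 sh) (Nat.shiftRight leaf2692 sh) (Nat.ble 2692 i)
noncomputable def s2694_2696 (i sh : Nat) : Nat := Bool.rec (Nat.shiftRight leaf2694 sh) (Nat.shiftRight leaf2695 sh) (Nat.ble 2695 i)
noncomputable def s2693_2696 (i sh : Nat) : Nat := Bool.rec (Nat.shiftRight leaf2693 sh) (s2694_2696 i sh) (Nat.ble 2694 i)
noncomputable def s2691_2696 (i sh : Nat) : Nat := Bool.rec (s2691_2693 i sh) (s2693_2696 i sh) (Nat.ble 2693 i)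
noncomputable def s2696_2698 (i sh : Nat) : Nat := Bool.rec (Nat.shiftRight leaf2696 sh) (Nat.shiftRight leaf2697 sh) (Nat.ble 2697 i)
noncomputable def s2699_2701 (i sh : Nat) : Nat := Bool.rec (Nat.shiftRight leaf2699 sh) (Nat.shiftRight leaf2700 sh) (Nat.ble 2700 i)
noncomputable def s2698_2701 (i sh : Nat) : Nat := Bool.rec (Nat.shiftRight leaf2698 sh) (s2699_2701 i sh) (Nat.ble 2699 i)
noncomputable def s2696_2701 (i sh : Nat) : Nat := Bool.rec (s2696_2698 i sh) (s2698_2701 i sh) (Nat.ble 2698 i)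
noncomputable def s2691_2701 (i sh : Nat) : Nat := Bool.rec (s2691_2696 i sh) (s2696_2701 i sh) (Nat.ble 2696 i)
noncomputable def s2681_2701 (i sh : Nat) : Nat := Bool.rec (s2681_2691 i sh) (s2691_2701 i sh) (Nat.ble 2691 i)
noncomputable def s2661_2701 (i sh : Nat) : Nat := Bool.rec (s2661_2681 i sh) (s2681_2701 i sh) (Nat.ble 2681 i)
noncomputable def s2701_2703 (i sh : Nat) : Nat := Bool.rec (Nat.shiftRight leaf2701 sh) (Nat.shiftRight leaf2702 sh) (Nat.ble 2702 i)
noncomputable def s2704_2706 (i sh : Nat) : Nat := Bool.rec (Nat.shiftRight leaf2704 sh) (Nat.shiftRight leaf2705 sh) (Nat.ble 2705 i)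
noncomputable def s2703_2706 (i sh : Nat) : Nat := Bool.rec (Nat.shiftRight leaf2703 sh) (s2704_2706 i sh) (Nat.ble 2704 i)
noncomputable def s2701_2706 (i sh : Nat) : Nat := Bool.rec (s2701_2703 i sh) (s2703_2706 i sh) (Nat.ble 2703 i)
noncomputable def s2706_2708 (i sh : Nat) : Nat := Bool.rec (Nat.shiftRight leaf2706 sh) (Nat.shiftRight leaf2707 sh) (Nat.ble 2707 i)
noncomputable def s2709_2711 (i sh : Nat) : Nat := Bool.rec (Nat.shiftRight leaf2709 sh) (Nat.shiftRight leaf2710 sh) (Nat.ble 2710 i)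
noncomputable def s2708_2711 (i sh : Nat) : Nat := Bool.rec (Nat.shiftRight leaf2708 sh) (s2709_2711 i sh) (Nat.ble 2709 i)
noncomputable def s2706_2711 (i sh : Nat) : Nat := Bool.rec (s2706_2708 i sh) (s2708_2711 i sh) (Nat.ble 2708 i)
noncomputable def s2701_2711 (i sh : Nat) : Nat := Bool.rec (s2701_2706 i sh) (s2706_2711 i sh) (Nat.ble 2706 i)
noncomputable def s2711_2713 (i sh : Nat) : Nat := Bool.rec (Nat.shiftRight leaf2711 sh) (Nat.shiftRight leaf2712 sh) (Nat.ble 2712 i)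
noncomputable def s2714_2716 (i sh : Nat) : Nat := Bool.rec (Nat.shiftRight leaf2714 sh) (Nat.shiftRight leaf2715 sh) (Nat.ble 2715 i)
noncomputable def s2713_2716 (i sh : Nat) : Nat := Bool.rec (Nat.shiftRight leaf2713 sh) (s2714_2716 i sh) (Nat.ble 2714 i)
noncomputable def s2711_2716 (i sh : Nat) : Nat := Bool.rec (s2711_2713 i sh) (s2713_2716 i sh) (Nat.ble 2713 i)
noncomputable def s2716_2718 (i sh : Nat) : Nat := Bool.rec (Nat.shiftRight leaf2716 sh) (Nat.shiftRight leaf2717 sh) (Nat.ble 2717 i)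
noncomputable def s2719_2721 (i sh : Nat) : Nat := Bool.rec (Nat.shiftRight leaf2719 sh) (Nat.shiftRight leaf2720 sh) (Nat.ble 2720 i)
noncomputable def s2718_2721 (i sh : Nat) : Nat := Bool.rec (Nat.shiftRight leaf2718 sh) (s2719_2721 i sh) (Nat.ble 2719 i)
noncomputable def s2716_2721 (i sh : Nat) : Nat := Bool.rec (s2716_2718 i sh) (s2718_2721 i sh) (Nat.ble 2718 i)
noncomputable def s2711_2721 (i sh : Nat) : Nat := Bool.rec (s2711_2716 i sh) (s2716_2721 i sh) (Nat.ble 2716 i)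
noncomputable def s2701_2721 (i sh : Nat) : Nat := Bool.rec (s2701_2711 i sh) (s2711_2721 i sh) (Nat.ble 2711 i)
noncomputable def s2721_2723 (i sh : Nat) : Nat := Bool.rec (Nat.shiftRight leaf2721 sh) (Nat.shiftRight leaf2722 sh) (Nat.ble 2722 i)
noncomputable def s2724_2726 (i sh : Nat) : Nat := Bool.rec (Nat.shiftRight leaf2724 sh) (Nat.shiftRight leaf2725 sh) (Nat.ble 2725 i)
noncomputable def s2723_2726 (i sh : Nat) : Nat := Bool.rec (Nat.shiftRight leaf2723 sh) (s2724_2726 i sh) (Nat.ble 2724 i)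
noncomputable def s2721_2726 (i sh : Nat) : Nat := Bool.rec (s2721_2723 i sh) (s2723_2726 i sh) (Nat.ble 2723 i)
noncomputable def s2726_2728 (i sh : Nat) : Nat := Bool.rec (Nat.shiftRight leaf2726 sh) (Nat.shiftRight leaf2727 sh) (Nat.ble 2727 i)
noncomputable def s2729_2731 (i sh : Nat) : Nat := Bool.rec (Nat.shiftRight leaf2729 sh) (Nat.shiftRight leaf2730 sh) (Nat.ble 2730 i)
noncomputable def s2728_2731 (i sh : Nat) : Nat := Bool.rec (Nat.shiftRight leaf2728 sh) (s2729_2731 i sh) (Nat.ble 2729 i)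
noncomputable def s2726_2731 (i sh : Nat) : Nat := Bool.rec (s2726_2728 i sh) (s2728_2731 i sh) (Nat.ble 2728 i)
noncomputable def s2721_2731 (i sh : Nat) : Nat := Bool.rec (s2721_2726 i sh) (s2726_2731 i sh) (Nat.ble 2726 i)
noncomputable def s2731_2733 (i sh : Nat) : Nat := Bool.rec (Nat.shiftRight leaf2731 sh) (Nat.shiftRight leaf2732 sh) (Nat.ble 2732 i)
noncomputable def s2734_2736 (i sh : Nat) : Nat := Bool.rec (Nat.shiftRight leaf2734 sh) (Nat.shiftRight leaf2735 sh) (Nat.ble 2735 i)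
noncomputable def s2733_2736 (i sh : Nat) : Nat := Bool.rec (Nat.shiftRight leaf2733 sh) (s2734_2736 i sh) (Nat.ble 2734 i)
noncomputable def s2731_2736 (i sh : Nat) : Nat := Bool.rec (s2731_2733 i sh) (s2733_2736 i sh) (Nat.ble 2733 i)
noncomputable def s2737_2739 (i sh : Nat) : Nat := Bool.rec (Nat.shiftRight leaf2737 sh) (Nat.shiftRight leaf2738 sh) (Nat.ble 2738 i)
noncomputable def s2736_2739 (i sh : Nat) : Nat := Bool.rec (Nat.shiftRight leaf2736 sh) (s2737_2739 i sh) (Nat.ble 2737 i)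
noncomputable def s2740_2742 (i sh : Nat) : Nat := Bool.rec (Nat.shiftRight leaf2740 sh) (Nat.shiftRight leaf2741 sh) (Nat.ble 2741 i)
noncomputable def s2739_2742 (i sh : Nat) : Nat := Bool.rec (Nat.shiftRight leaf2739 sh) (s2740_2742 i sh) (Nat.ble 2740 i)
noncomputable def s2736_2742 (i sh : Nat) : Nat := Bool.rec (s2736_2739 i sh) (s2739_2742 i sh) (Nat.ble 2739 i)
noncomputable def s2731_2742 (i sh : Nat) : Nat := Bool.rec (s2731_2736 i sh) (s2736_2742 i sh) (Nat.ble 2736 i)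
noncomputable def s2721_2742 (i sh : Nat) : Nat := Bool.rec (s2721_2731 i sh) (s2731_2742 i sh) (Nat.ble 2731 i)
noncomputable def s2701_2742 (i sh : Nat) : Nat := Bool.rec (s2701_2721 i sh) (s2721_2742 i sh) (Nat.ble 2721 i)
noncomputable def s2661_2742 (i sh : Nat) : Nat := Bool.rec (s2661_2701 i sh) (s2701_2742 i sh) (Nat.ble 2701 i)
noncomputable def s2581_2742 (i sh : Nat) : Nat := Bool.rec (s2581_2661 i sh) (s2661_2742 i sh) (Nat.ble 2661 i)
noncomputable def s2742_2744 (i sh : Nat) : Nat := Bool.rec (Nat.shiftRight leaf2742 sh) (Nat.shiftRight leaf2743 sh) (Nat.ble 2743 i)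
noncomputable def s2745_2747 (i sh : Nat) : Nat := Bool.rec (Nat.shiftRight leaf2745 sh) (Nat.shiftRight leaf2746 sh) (Nat.ble 2746 i)
noncomputable def s2744_2747 (i sh : Nat) : Nat := Bool.rec (Nat.shiftRight leaf2744 sh) (s2745_2747 i sh) (Nat.ble 2745 i)
noncomputable def s2742_2747 (i sh : Nat) : Nat := Bool.rec (s2742_2744 i sh) (s2744_2747 i sh) (Nat.ble 2744 i)
noncomputable def s2747_2749 (i sh : Nat) : Nat := Bool.rec (Nat.shiftRight leaf2747 sh) (Nat.shiftRight leaf2748 sh) (Nat.ble 2748 i)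
noncomputable def s2750_2752 (i sh : Nat) : Nat := Bool.rec (Nat.shiftRight leaf2750 sh) (Nat.shiftRight leaf2751 sh) (Nat.ble 2751 i)
noncomputable def s2749_2752 (i sh : Nat) : Nat := Bool.rec (Nat.shiftRight leaf2749 sh) (s2750_2752 i sh) (Nat.ble 2750 i)
noncomputable def s2747_2752 (i sh : Nat) : Nat := Bool.rec (s2747_2749 i sh) (s2749_2752 i sh) (Nat.ble 2749 i)
noncomputable def s2742_2752 (i sh : Nat) : Nat := Bool.rec (s2742_2747 i sh) (s2747_2752 i sh) (Nat.ble 2747 i)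
noncomputable def s2752_2754 (i sh : Nat) : Nat := Bool.rec (Nat.shiftRight leaf2752 sh) (Nat.shiftRight leaf2753 sh) (Nat.ble 2753 i)
noncomputable def s2755_2757 (i sh : Nat) : Nat := Bool.rec (Nat.shiftRight leaf2755 sh) (Nat.shiftRight leaf2756 sh) (Nat.ble 2756 i)
noncomputable def s2754_2757 (i sh : Nat) : Nat := Bool.rec (Nat.shiftRight leaf2754 sh) (s2755_2757 i sh) (Nat.ble 2755 i)
noncomputable def s2752_2757 (i sh : Nat) : Nat := Bool.rec (s2752_2754 i sh) (s2754_2757 i sh) (Nat.ble 2754 i)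
noncomputable def s2757_2759 (i sh : Nat) : Nat := Bool.rec (Nat.shiftRight leaf2757 sh) (Nat.shiftRight leaf2758 sh) (Nat.ble 2758 i)
noncomputable def s2760_2762 (i sh : Nat) : Nat := Bool.rec (Nat.shiftRight leaf2760 sh) (Nat.shiftRight leaf2761 sh) (Nat.ble 2761 i)
noncomputable def s2759_2762 (i sh : Nat) : Nat := Bool.rec (Nat.shiftRight leaf2759 sh) (s2760_2762 i sh) (Nat.ble 2760 i)
noncomputable def s2757_2762 (i sh : Nat) : Nat := Bool.rec (s2757_2759 i sh) (s2759_2762 i sh) (Nat.ble 2759 i)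
noncomputable def s2752_2762 (i sh : Nat) : Nat := Bool.rec (s2752_2757 i sh) (s2757_2762 i sh) (Nat.ble 2757 i)
noncomputable def s2742_2762 (i sh : Nat) : Nat := Bool.rec (s2742_2752 i sh) (s2752_2762 i sh) (Nat.ble 2752 i)
noncomputable def s2762_2764 (i sh : Nat) : Nat := Bool.rec (Nat.shiftRight leaf2762 sh) (Nat.shiftRight leaf2763 sh) (Nat.ble 2763 i)
noncomputable def s2765_2767 (i sh : Nat) : Nat := Bool.rec (Nat.shiftRight leaf2765 sh) (Nat.shiftRight leaf2766 sh) (Nat.ble 2766 i)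
noncomputable def s2764_2767 (i sh : Nat) : Nat := Bool.rec (Nat.shiftRight leaf2764 sh) (s2765_2767 i sh) (Nat.ble 2765 i)
noncomputable def s2762_2767 (i sh : Nat) : Nat := Bool.rec (s2762_2764 i sh) (s2764_2767 i sh) (Nat.ble 2764 i)
noncomputable def s2767_2769 (i sh : Nat) : Nat := Bool.rec (Nat.shiftRight leaf2767 sh) (Nat.shiftRight leaf2768 sh) (Nat.ble 2768 i)
noncomputable def s2770_2772 (i sh : Nat) : Nat := Bool.rec (Nat.shiftRight leaf2770 sh) (Nat.shiftRight leaf2771 sh) (Nat.ble 2771 i)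
noncomputable def s2769_2772 (i sh : Nat) : Nat := Bool.rec (Nat.shiftRight leaf2769 sh) (s2770_2772 i sh) (Nat.ble 2770 i)
noncomputable def s2767_2772 (i sh : Nat) : Nat := Bool.rec (s2767_2769 i sh) (s2769_2772 i sh) (Nat.ble 2769 i)
noncomputable def s2762_2772 (i sh : Nat) : Nat := Bool.rec (s2762_2767 i sh) (s2767_2772 i sh) (Nat.ble 2767 i)
noncomputable def s2772_2774 (i sh : Nat) : Nat := Bool.rec (Nat.shiftRight leaf2772 sh) (Nat.shiftRight leaf2773 sh) (Nat.ble 2773 i)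
noncomputable def s2775_2777 (i sh : Nat) : Nat := Bool.rec (Nat.shiftRight leaf2775 sh) (Nat.shiftRight leaf2776 sh) (Nat.ble 2776 i)
noncomputable def s2774_2777 (i sh : Nat) : Nat := Bool.rec (Nat.shiftRight leaf2774 sh) (s2775_2777 i sh) (Nat.ble 2775 i)
noncomputable def s2772_2777 (i sh : Nat) : Nat := Bool.rec (s2772_2774 i sh) (s2774_2777 i sh) (Nat.ble 2774 i)
noncomputable def s2777_2779 (i sh : Nat) : Nat := Bool.rec (Nat.shiftRight leaf2777 sh) (Nat.shiftRight leaf2778 sh) (Nat.ble 2778 i)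
noncomputable def s2780_2782 (i sh : Nat) : Nat := Bool.rec (Nat.shiftRight leaf2780 sh) (Nat.shiftRight leaf2781 sh) (Nat.ble 2781 i)
noncomputable def s2779_2782 (i sh : Nat) : Nat := Bool.rec (Nat.shiftRight leaf2779 sh) (s2780_2782 i sh) (Nat.ble 2780 i)
noncomputable def s2777_2782 (i sh : Nat) : Nat := Bool.rec (s2777_2779 i sh) (s2779_2782 i sh) (Nat.ble 2779 i)
noncomputable def s2772_2782 (i sh : Nat) : Nat := Bool.rec (s2772_2777 i sh) (s2777_2782 i sh) (Nat.ble 2777 i)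
noncomputable def s2762_2782 (i sh : Nat) : Nat := Bool.rec (s2762_2772 i sh) (s2772_2782 i sh) (Nat.ble 2772 i)
noncomputable def s2742_2782 (i sh : Nat) : Nat := Bool.rec (s2742_2762 i sh) (s2762_2782 i sh) (Nat.ble 2762 i)
noncomputable def s2782_2784 (i sh : Nat) : Nat := Bool.rec (Nat.shiftRight leaf2782 sh) (Nat.shiftRight leaf2783 sh) (Nat.ble 2783 i)
noncomputable def s2785_2787 (i sh : Nat) : Nat := Bool.rec (Nat.shiftRight leaf2785 sh) (Nat.shiftRight leaf2786 sh) (Nat.ble 2786 i)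
noncomputable def s2784_2787 (i sh : Nat) : Nat := Bool.rec (Nat.shiftRight leaf2784 sh) (s2785_2787 i sh) (Nat.ble 2785 i)
noncomputable def s2782_2787 (i sh : Nat) : Nat := Bool.rec (s2782_2784 i sh) (s2784_2787 i sh) (Nat.ble 2784 i)
noncomputable def s2787_2789 (i sh : Nat) : Nat := Bool.rec (Nat.shiftRight leaf2787 sh) (Nat.shiftRight leaf2788 sh) (Nat.ble 2788 i)
noncomputable def s2790_2792 (i sh : Nat) : Nat := Bool.rec (Nat.shiftRight leaf2790 sh) (Nat.shiftRight leaf2791 sh) (Nat.ble 2791 i)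
noncomputable def s2789_2792 (i sh : Nat) : Nat := Bool.rec (Nat.shiftRight leaf2789 sh) (s2790_2792 i sh) (Nat.ble 2790 i)
noncomputable def s2787_2792 (i sh : Nat) : Nat := Bool.rec (s2787_2789 i sh) (s2789_2792 i sh) (Nat.ble 2789 i)
noncomputable def s2782_2792 (i sh : Nat) : Nat := Bool.rec (s2782_2787 i sh) (s2787_2792 i sh) (Nat.ble 2787 i)
noncomputable def s2792_2794 (i sh : Nat) : Nat := Bool.rec (Nat.shiftRight leaf2792 sh) (Nat.shiftRight leaf2793 sh) (Nat.ble 2793 i)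
noncomputable def s2795_2797 (i sh : Nat) : Nat := Bool.rec (Nat.shiftRight leaf2795 sh) (Nat.shiftRight leaf2796 sh) (Nat.ble 2796 i)
noncomputable def s2794_2797 (i sh : Nat) : Nat := Bool.rec (Nat.shiftRight leaf2794 sh) (s2795_2797 i sh) (Nat.ble 2795 i)
noncomputable def s2792_2797 (i sh : Nat) : Nat := Bool.rec (s2792_2794 i sh) (s2794_2797 i sh) (Nat.ble 2794 i)
noncomputable def s2797_2799 (i sh : Nat) : Nat := Bool.rec (Nat.shiftRight leaf2797 sh) (Nat.shiftRight leaf2798 sh) (Nat.ble 2798 i)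
noncomputable def s2800_2802 (i sh : Nat) : Nat := Bool.rec (Nat.shiftRight leaf2800 sh) (Nat.shiftRight leaf2801 sh) (Nat.ble 2801 i)
noncomputable def s2799_2802 (i sh : Nat) : Nat := Bool.rec (Nat.shiftRight leaf2799 sh) (s2800_2802 i sh) (Nat.ble 2800 i)
noncomputable def s2797_2802 (i sh : Nat) : Nat := Bool.rec (s2797_2799 i sh) (s2799_2802 i sh) (Nat.ble 2799 i)
noncomputable def s2792_2802 (i sh : Nat) : Nat := Bool.rec (s2792_2797 i sh) (s2797_2802 i sh) (Nat.ble 2797 i)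
noncomputable def s2782_2802 (i sh : Nat) : Nat := Bool.rec (s2782_2792 i sh) (s2792_2802 i sh) (Nat.ble 2792 i)
noncomputable def s2802_2804 (i sh : Nat) : Nat := Bool.rec (Nat.shiftRight leaf2802 sh) (Nat.shiftRight leaf2803 sh) (Nat.ble 2803 i)
noncomputable def s2805_2807 (i sh : Nat) : Nat := Bool.rec (Nat.shiftRight leaf2805 sh) (Nat.shiftRight leaf2806 sh) (Nat.ble 2806 i)
noncomputable def s2804_2807 (i sh : Nat) : Nat := Bool.rec (Nat.shiftRight leaf2804 sh) (s2805_2807 i sh) (Nat.ble 2805 i)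
noncomputable def s2802_2807 (i sh : Nat) : Nat := Bool.rec (s2802_2804 i sh) (s2804_2807 i sh) (Nat.ble 2804 i)
noncomputable def s2807_2809 (i sh : Nat) : Nat := Bool.rec (Nat.shiftRight leaf2807 sh) (Nat.shiftRight leaf2808 sh) (Nat.ble 2808 i)
noncomputable def s2810_2812 (i sh : Nat) : Nat := Bool.rec (Nat.shiftRight leaf2810 sh) (Nat.shiftRight leaf2811 sh) (Nat.ble 2811 i)
noncomputable def s2809_2812 (i sh : Nat) : Nat := Bool.rec (Nat.shiftRight leaf2809 sh) (s2810_2812 i sh) (Nat.ble 2810 i)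
noncomputable def s2807_2812 (i sh : Nat) : Nat := Bool.rec (s2807_2809 i sh) (s2809_2812 i sh) (Nat.ble 2809 i)
noncomputable def s2802_2812 (i sh : Nat) : Nat := Bool.rec (s2802_2807 i sh) (s2807_2812 i sh) (Nat.ble 2807 i)
noncomputable def s2812_2814 (i sh : Nat) : Nat := Bool.rec (Nat.shiftRight leaf2812 sh) (Nat.shiftRight leaf2813 sh) (Nat.ble 2813 i)
noncomputable def s2815_2817 (i sh : Nat) : Nat := Bool.rec (Nat.shiftRight leaf2815 sh) (Nat.shiftRight leaf2816 sh) (Nat.ble 2816 i)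
noncomputable def s2814_2817 (i sh : Nat) : Nat := Bool.rec (Nat.shiftRight leaf2814 sh) (s2815_2817 i sh) (Nat.ble 2815 i)
noncomputable def s2812_2817 (i sh : Nat) : Nat := Bool.rec (s2812_2814 i sh) (s2814_2817 i sh) (Nat.ble 2814 i)
noncomputable def s2817_2819 (i sh : Nat) : Nat := Bool.rec (Nat.shiftRight leaf2817 sh) (Nat.shiftRight leaf2818 sh) (Nat.ble 2818 i)
noncomputable def s2820_2822 (i sh : Nat) : Nat := Bool.rec (Nat.shiftRight leaf2820 sh) (Nat.shiftRight leaf2821 sh) (Nat.ble 2821 i)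
noncomputable def s2819_2822 (i sh : Nat) : Nat := Bool.rec (Nat.shiftRight leaf2819 sh) (s2820_2822 i sh) (Nat.ble 2820 i)
noncomputable def s2817_2822 (i sh : Nat) : Nat := Bool.rec (s2817_2819 i sh) (s2819_2822 i sh) (Nat.ble 2819 i)
noncomputable def s2812_2822 (i sh : Nat) : Nat := Bool.rec (s2812_2817 i sh) (s2817_2822 i sh) (Nat.ble 2817 i)
noncomputable def s2802_2822 (i sh : Nat) : Nat := Bool.rec (s2802_2812 i sh) (s2812_2822 i sh) (Nat.ble 2812 i)
noncomputable def s2782_2822 (i sh : Nat) : Nat := Bool.rec (s2782_2802 i sh) (s2802_2822 i sh) (Nat.ble 2802 i)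
noncomputable def s2742_2822 (i sh : Nat) : Nat := Bool.rec (s2742_2782 i sh) (s2782_2822 i sh) (Nat.ble 2782 i)
noncomputable def s2822_2824 (i sh : Nat) : Nat := Bool.rec (Nat.shiftRight leaf2822 sh) (Nat.shiftRight leaf2823 sh) (Nat.ble 2823 i)
noncomputable def s2825_2827 (i sh : Nat) : Nat := Bool.rec (Nat.shiftRight leaf2825 sh) (Nat.shiftRight leaf2826 sh) (Nat.ble 2826 i)
noncomputable def s2824_2827 (i sh : Nat) : Nat := Bool.rec (Nat.shiftRight leaf2824 sh) (s2825_2827 i sh) (Nat.ble 2825 i)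
noncomputable def s2822_2827 (i sh : Nat) : Nat := Bool.rec (s2822_2824 i sh) (s2824_2827 i sh) (Nat.ble 2824 i)
noncomputable def s2827_2829 (i sh : Nat) : Nat := Bool.rec (Nat.shiftRight leaf2827 sh) (Nat.shiftRight leaf2828 sh) (Nat.ble 2828 i)
noncomputable def s2830_2832 (i sh : Nat) : Nat := Bool.rec (Nat.shiftRight leaf2830 sh) (Nat.shiftRight leaf2831 sh) (Nat.ble 2831 i)
noncomputable def s2829_2832 (i sh : Nat) : Nat := Bool.rec (Nat.shiftRight leaf2829 sh) (s2830_2832 i sh) (Nat.ble 2830 i)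
noncomputable def s2827_2832 (i sh : Nat) : Nat := Bool.rec (s2827_2829 i sh) (s2829_2832 i sh) (Nat.ble 2829 i)
noncomputable def s2822_2832 (i sh : Nat) : Nat := Bool.rec (s2822_2827 i sh) (s2827_2832 i sh) (Nat.ble 2827 i)
noncomputable def s2832_2834 (i sh : Nat) : Nat := Bool.rec (Nat.shiftRight leaf2832 sh) (Nat.shiftRight leaf2833 sh) (Nat.ble 2833 i)
noncomputable def s2835_2837 (i sh : Nat) : Nat := Bool.rec (Nat.shiftRight leaf2835 sh) (Nat.shiftRight leaf2836 sh) (Nat.ble 2836 i)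
noncomputable def s2834_2837 (i sh : Nat) : Nat := Bool.rec (Nat.shiftRight leaf2834 sh) (s2835_2837 i sh) (Nat.ble 2835 i)
noncomputable def s2832_2837 (i sh : Nat) : Nat := Bool.rec (s2832_2834 i sh) (s2834_2837 i sh) (Nat.ble 2834 i)
noncomputable def s2837_2839 (i sh : Nat) : Nat := Bool.rec (Nat.shiftRight leaf2837 sh) (Nat.shiftRight leaf2838 sh) (Nat.ble 2838 i)
noncomputable def s2840_2842 (i sh : Nat) : Nat := Bool.rec (Nat.shiftRight leaf2840 sh) (Nat.shiftRight leaf2841 sh) (Nat.ble 2841 i)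
noncomputable def s2839_2842 (i sh : Nat) : Nat := Bool.rec (Nat.shiftRight leaf2839 sh) (s2840_2842 i sh) (Nat.ble 2840 i)
noncomputable def s2837_2842 (i sh : Nat) : Nat := Bool.rec (s2837_2839 i sh) (s2839_2842 i sh) (Nat.ble 2839 i)
noncomputable def s2832_2842 (i sh : Nat) : Nat := Bool.rec (s2832_2837 i sh) (s2837_2842 i sh) (Nat.ble 2837 i)
noncomputable def s2822_2842 (i sh : Nat) : Nat := Bool.rec (s2822_2832 i sh) (s2832_2842 i sh) (Nat.ble 2832 i)
noncomputable def s2842_2844 (i sh : Nat) : Nat := Bool.rec (Nat.shiftRight leaf2842 sh) (Nat.shiftRight leaf2843 sh) (Nat.ble 2843 i)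
noncomputable def s2845_2847 (i sh : Nat) : Nat := Bool.rec (Nat.shiftRight leaf2845 sh) (Nat.shiftRight leaf2846 sh) (Nat.ble 2846 i)
noncomputable def s2844_2847 (i sh : Nat) : Nat := Bool.rec (Nat.shiftRight leaf2844 sh) (s2845_2847 i sh) (Nat.ble 2845 i)
noncomputable def s2842_2847 (i sh : Nat) : Nat := Bool.rec (s2842_2844 i sh) (s2844_2847 i sh) (Nat.ble 2844 i)
noncomputable def s2847_2849 (i sh : Nat) : Nat := Bool.rec (Nat.shiftRight leaf2847 sh) (Nat.shiftRight leaf2848 sh) (Nat.ble 2848 i)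
noncomputable def s2850_2852 (i sh : Nat) : Nat := Bool.rec (Nat.shiftRight leaf2850 sh) (Nat.shiftRight leaf2851 sh) (Nat.ble 2851 i)
noncomputable def s2849_2852 (i sh : Nat) : Nat := Bool.rec (Nat.shiftRight leaf2849 sh) (s2850_2852 i sh) (Nat.ble 2850 i)
noncomputable def s2847_2852 (i sh : Nat) : Nat := Bool.rec (s2847_2849 i sh) (s2849_2852 i sh) (Nat.ble 2849 i)
noncomputable def s2842_2852 (i sh : Nat) : Nat := Bool.rec (s2842_2847 i sh) (s2847_2852 i sh) (Nat.ble 2847 i)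
noncomputable def s2852_2854 (i sh : Nat) : Nat := Bool.rec (Nat.shiftRight leaf2852 sh) (Nat.shiftRight leaf2853 sh) (Nat.ble 2853 i)
noncomputable def s2855_2857 (i sh : Nat) : Nat := Bool.rec (Nat.shiftRight leaf2855 sh) (Nat.shiftRight leaf2856 sh) (Nat.ble 2856 i)
noncomputable def s2854_2857 (i sh : Nat) : Nat := Bool.rec (Nat.shiftRight leaf2854 sh) (s2855_2857 i sh) (Nat.ble 2855 i)
noncomputable def s2852_2857 (i sh : Nat) : Nat := Bool.rec (s2852_2854 i sh) (s2854_2857 i sh) (Nat.ble 2854 i)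
noncomputable def s2857_2859 (i sh : Nat) : Nat := Bool.rec (Nat.shiftRight leaf2857 sh) (Nat.shiftRight leaf2858 sh) (Nat.ble 2858 i)
noncomputable def s2860_2862 (i sh : Nat) : Nat := Bool.rec (Nat.shiftRight leaf2860 sh) (Nat.shiftRight leaf2861 sh) (Nat.ble 2861 i)
noncomputable def s2859_2862 (i sh : Nat) : Nat := Bool.rec (Nat.shiftRight leaf2859 sh) (s2860_2862 i sh) (Nat.ble 2860 i)
noncomputable def s2857_2862 (i sh : Nat) : Nat := Bool.rec (s2857_2859 i sh) (s2859_2862 i sh) (Nat.ble 2859 i)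
noncomputable def s2852_2862 (i sh : Nat) : Nat := Bool.rec (s2852_2857 i sh) (s2857_2862 i sh) (Nat.ble 2857 i)
noncomputable def s2842_2862 (i sh : Nat) : Nat := Bool.rec (s2842_2852 i sh) (s2852_2862 i sh) (Nat.ble 2852 i)
noncomputable def s2822_2862 (i sh : Nat) : Nat := Bool.rec (s2822_2842 i sh) (s2842_2862 i sh) (Nat.ble 2842 i)
noncomputable def s2862_2864 (i sh : Nat) : Nat := Bool.rec (Nat.shiftRight leaf2862 sh) (Nat.shiftRight leaf2863 sh) (Nat.ble 2863 i)
noncomputable def s2865_2867 (i sh : Nat) : Nat := Bool.rec (Nat.shiftRight leaf2865 sh) (Nat.shiftRight leaf2866 sh) (Nat.ble 2866 i)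
noncomputable def s2864_2867 (i sh : Nat) : Nat := Bool.rec (Nat.shiftRight leaf2864 sh) (s2865_2867 i sh) (Nat.ble 2865 i)
noncomputable def s2862_2867 (i sh : Nat) : Nat := Bool.rec (s2862_2864 i sh) (s2864_2867 i sh) (Nat.ble 2864 i)
noncomputable def s2867_2869 (i sh : Nat) : Nat := Bool.rec (Nat.shiftRight leaf2867 sh) (Nat.shiftRight leaf2868 sh) (Nat.ble 2868 i)
noncomputable def s2870_2872 (i sh : Nat) : Nat := Bool.rec (Nat.shiftRight leaf2870 sh) (Nat.shiftRight leaf2871 sh) (Nat.ble 2871 i)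
noncomputable def s2869_2872 (i sh : Nat) : Nat := Bool.rec (Nat.shiftRight leaf2869 sh) (s2870_2872 i sh) (Nat.ble 2870 i)
noncomputable def s2867_2872 (i sh : Nat) : Nat := Bool.rec (s2867_2869 i sh) (s2869_2872 i sh) (Nat.ble 2869 i)
noncomputable def s2862_2872 (i sh : Nat) : Nat := Bool.rec (s2862_2867 i sh) (s2867_2872 i sh) (Nat.ble 2867 i)
noncomputable def s2872_2874 (i sh : Nat) : Nat := Bool.rec (Nat.shiftRight leaf2872 sh) (Nat.shiftRight leaf2873 sh) (Nat.ble 2873 i)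
noncomputable def s2875_2877 (i sh : Nat) : Nat := Bool.rec (Nat.shiftRight leaf2875 sh) (Nat.shiftRight leaf2876 sh) (Nat.ble 2876 i)
noncomputable def s2874_2877 (i sh : Nat) : Nat := Bool.rec (Nat.shiftRight leaf2874 sh) (s2875_2877 i sh) (Nat.ble 2875 i)
noncomputable def s2872_2877 (i sh : Nat) : Nat := Bool.rec (s2872_2874 i sh) (s2874_2877 i sh) (Nat.ble 2874 i)
noncomputable def s2877_2879 (i sh : Nat) : Nat := Bool.rec (Nat.shiftRight leaf2877 sh) (Nat.shiftRight leaf2878 sh) (Nat.ble 2878 i)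
noncomputable def s2880_2882 (i sh : Nat) : Nat := Bool.rec (Nat.shiftRight leaf2880 sh) (Nat.shiftRight leaf2881 sh) (Nat.ble 2881 i)
noncomputable def s2879_2882 (i sh : Nat) : Nat := Bool.rec (Nat.shiftRight leaf2879 sh) (s2880_2882 i sh) (Nat.ble 2880 i)
noncomputable def s2877_2882 (i sh : Nat) : Nat := Bool.rec (s2877_2879 i sh) (s2879_2882 i sh) (Nat.ble 2879 i)
noncomputable def s2872_2882 (i sh : Nat) : Nat := Bool.rec (s2872_2877 i sh) (s2877_2882 i sh) (Nat.ble 2877 i)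
noncomputable def s2862_2882 (i sh : Nat) : Nat := Bool.rec (s2862_2872 i sh) (s2872_2882 i sh) (Nat.ble 2872 i)
noncomputable def s2882_2884 (i sh : Nat) : Nat := Bool.rec (Nat.shiftRight leaf2882 sh) (Nat.shiftRight leaf2883 sh) (Nat.ble 2883 i)
noncomputable def s2885_2887 (i sh : Nat) : Nat := Bool.rec (Nat.shiftRight leaf2885 sh) (Nat.shiftRight leaf2886 sh) (Nat.ble 2886 i)
noncomputable def s2884_2887 (i sh : Nat) : Nat := Bool.rec (Nat.shiftRight leaf2884 sh) (s2885_2887 i sh) (Nat.ble 2885 i)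
noncomputable def s2882_2887 (i sh : Nat) : Nat := Bool.rec (s2882_2884 i sh) (s2884_2887 i sh) (Nat.ble 2884 i)
noncomputable def s2887_2889 (i sh : Nat) : Nat := Bool.rec (Nat.shiftRight leaf2887 sh) (Nat.shiftRight leaf2888 sh) (Nat.ble 2888 i)
noncomputable def s2890_2892 (i sh : Nat) : Nat := Bool.rec (Nat.shiftRight leaf2890 sh) (Nat.shiftRight leaf2891 sh) (Nat.ble 2891 i)
noncomputable def s2889_2892 (i sh : Nat) : Nat := Bool.rec (Nat.shiftRight leaf2889 sh) (s2890_2892 i sh) (Nat.ble 2890 i)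
noncomputable def s2887_2892 (i sh : Nat) : Nat := Bool.rec (s2887_2889 i sh) (s2889_2892 i sh) (Nat.ble 2889 i)
noncomputable def s2882_2892 (i sh : Nat) : Nat := Bool.rec (s2882_2887 i sh) (s2887_2892 i sh) (Nat.ble 2887 i)
noncomputable def s2892_2894 (i sh : Nat) : Nat := Bool.rec (Nat.shiftRight leaf2892 sh) (Nat.shiftRight leaf2893 sh) (Nat.ble 2893 i)
noncomputable def s2895_2897 (i sh : Nat) : Nat := Bool.rec (Nat.shiftRight leaf2895 sh) (Nat.shiftRight leaf2896 sh) (Nat.ble 2896 i)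
noncomputable def s2894_2897 (i sh : Nat) : Nat := Bool.rec (Nat.shiftRight leaf2894 sh) (s2895_2897 i sh) (Nat.ble 2895 i)
noncomputable def s2892_2897 (i sh : Nat) : Nat := Bool.rec (s2892_2894 i sh) (s2894_2897 i sh) (Nat.ble 2894 i)
noncomputable def s2898_2900 (i sh : Nat) : Nat := Bool.rec (Nat.shiftRight leaf2898 sh) (Nat.shiftRight leaf2899 sh) (Nat.ble 2899 i)
noncomputable def s2897_2900 (i sh : Nat) : Nat := Bool.rec (Nat.shiftRight leaf2897 sh) (s2898_2900 i sh) (Nat.ble 2898 i)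
noncomputable def s2901_2903 (i sh : Nat) : Nat := Bool.rec (Nat.shiftRight leaf2901 sh) (Nat.shiftRight leaf2902 sh) (Nat.ble 2902 i)
noncomputable def s2900_2903 (i sh : Nat) : Nat := Bool.rec (Nat.shiftRight leaf2900 sh) (s2901_2903 i sh) (Nat.ble 2901 i)
noncomputable def s2897_2903 (i sh : Nat) : Nat := Bool.rec (s2897_2900 i sh) (s2900_2903 i sh) (Nat.ble 2900 i)
noncomputable def s2892_2903 (i sh : Nat) : Nat := Bool.rec (s2892_2897 i sh) (s2897_2903 i sh) (Nat.ble 2897 i)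
noncomputable def s2882_2903 (i sh : Nat) : Nat := Bool.rec (s2882_2892 i sh) (s2892_2903 i sh) (Nat.ble 2892 i)
noncomputable def s2862_2903 (i sh : Nat) : Nat := Bool.rec (s2862_2882 i sh) (s2882_2903 i sh) (Nat.ble 2882 i)
noncomputable def s2822_2903 (i sh : Nat) : Nat := Bool.rec (s2822_2862 i sh) (s2862_2903 i sh) (Nat.ble 2862 i)
noncomputable def s2742_2903 (i sh : Nat) : Nat := Bool.rec (s2742_2822 i sh) (s2822_2903 i sh) (Nat.ble 2822 i)
noncomputable def s2581_2903 (i sh : Nat) : Nat := Bool.rec (s2581_2742 i sh) (s2742_2903 i sh) (Nat.ble 2742 i)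
noncomputable def s2903_2905 (i sh : Nat) : Nat := Bool.rec (Nat.shiftRight leaf2903 sh) (Nat.shiftRight leaf2904 sh) (Nat.ble 2904 i)
noncomputable def s2906_2908 (i sh : Nat) : Nat := Bool.rec (Nat.shiftRight leaf2906 sh) (Nat.shiftRight leaf2907 sh) (Nat.ble 2907 i)
noncomputable def s2905_2908 (i sh : Nat) : Nat := Bool.rec (Nat.shiftRight leaf2905 sh) (s2906_2908 i sh) (Nat.ble 2906 i)
noncomputable def s2903_2908 (i sh : Nat) : Nat := Bool.rec (s2903_2905 i sh) (s2905_2908 i sh) (Nat.ble 2905 i)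
noncomputable def s2908_2910 (i sh : Nat) : Nat := Bool.rec (Nat.shiftRight leaf2908 sh) (Nat.shiftRight leaf2909 sh) (Nat.ble 2909 i)
noncomputable def s2911_2913 (i sh : Nat) : Nat := Bool.rec (Nat.shiftRight leaf2911 sh) (Nat.shiftRight leaf2912 sh) (Nat.ble 2912 i)
noncomputable def s2910_2913 (i sh : Nat) : Nat := Bool.rec (Nat.shiftRight leaf2910 sh) (s2911_2913 i sh) (Nat.ble 2911 i)
noncomputable def s2908_2913 (i sh : Nat) : Nat := Bool.rec (s2908_2910 i sh) (s2910_2913 i sh) (Nat.ble 2910 i)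
noncomputable def s2903_2913 (i sh : Nat) : Nat := Bool.rec (s2903_2908 i sh) (s2908_2913 i sh) (Nat.ble 2908 i)
noncomputable def s2913_2915 (i sh : Nat) : Nat := Bool.rec (Nat.shiftRight leaf2913 sh) (Nat.shiftRight leaf2914 sh) (Nat.ble 2914 i)
noncomputable def s2916_2918 (i sh : Nat) : Nat := Bool.rec (Nat.shiftRight leaf2916 sh) (Nat.shiftRight leaf2917 sh) (Nat.ble 2917 i)
noncomputable def s2915_2918 (i sh : Nat) : Nat := Bool.rec (Nat.shiftRight leaf2915 sh) (s2916_2918 i sh) (Nat.ble 2916 i)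
noncomputable def s2913_2918 (i sh : Nat) : Nat := Bool.rec (s2913_2915 i sh) (s2915_2918 i sh) (Nat.ble 2915 i)
noncomputable def s2918_2920 (i sh : Nat) : Nat := Bool.rec (Nat.shiftRight leaf2918 sh) (Nat.shiftRight leaf2919 sh) (Nat.ble 2919 i)
noncomputable def s2921_2923 (i sh : Nat) : Nat := Bool.rec (Nat.shiftRight leaf2921 sh) (Nat.shiftRight leaf2922 sh) (Nat.ble 2922 i)
noncomputable def s2920_2923 (i sh : Nat) : Nat := Bool.rec (Nat.shiftRight leaf2920 sh) (s2921_2923 i sh) (Nat.ble 2921 i)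
noncomputable def s2918_2923 (i sh : Nat) : Nat := Bool.rec (s2918_2920 i sh) (s2920_2923 i sh) (Nat.ble 2920 i)
noncomputable def s2913_2923 (i sh : Nat) : Nat := Bool.rec (s2913_2918 i sh) (s2918_2923 i sh) (Nat.ble 2918 i)
noncomputable def s2903_2923 (i sh : Nat) : Nat := Bool.rec (s2903_2913 i sh) (s2913_2923 i sh) (Nat.ble 2913 i)
noncomputable def s2923_2925 (i sh : Nat) : Nat := Bool.rec (Nat.shiftRight leaf2923 sh) (Nat.shiftRight leaf2924 sh) (Nat.ble 2924 i)
noncomputable def s2926_2928 (i sh : Nat) : Nat := Bool.rec (Nat.shiftRight leaf2926 sh) (Nat.shiftRight leaf2927 sh) (Nat.ble 2927 i)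
noncomputable def s2925_2928 (i sh : Nat) : Nat := Bool.rec (Nat.shiftRight leaf2925 sh) (s2926_2928 i sh) (Nat.ble 2926 i)
noncomputable def s2923_2928 (i sh : Nat) : Nat := Bool.rec (s2923_2925 i sh) (s2925_2928 i sh) (Nat.ble 2925 i)
noncomputable def s2928_2930 (i sh : Nat) : Nat := Bool.rec (Nat.shiftRight leaf2928 sh) (Nat.shiftRight leaf2929 sh) (Nat.ble 2929 i)
noncomputable def s2931_2933 (i sh : Nat) : Nat := Bool.rec (Nat.shiftRight leaf2931 sh) (Nat.shiftRight leaf2932 sh) (Nat.ble 2932 i)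
noncomputable def s2930_2933 (i sh : Nat) : Nat := Bool.rec (Nat.shiftRight leaf2930 sh) (s2931_2933 i sh) (Nat.ble 2931 i)
noncomputable def s2928_2933 (i sh : Nat) : Nat := Bool.rec (s2928_2930 i sh) (s2930_2933 i sh) (Nat.ble 2930 i)
noncomputable def s2923_2933 (i sh : Nat) : Nat := Bool.rec (s2923_2928 i sh) (s2928_2933 i sh) (Nat.ble 2928 i)
noncomputable def s2933_2935 (i sh : Nat) : Nat := Bool.rec (Nat.shiftRight leaf2933 sh) (Nat.shiftRight leaf2934 sh) (Nat.ble 2934 i)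
noncomputable def s2936_2938 (i sh : Nat) : Nat := Bool.rec (Nat.shiftRight leaf2936 sh) (Nat.shiftRight leaf2937 sh) (Nat.ble 2937 i)
noncomputable def s2935_2938 (i sh : Nat) : Nat := Bool.rec (Nat.shiftRight leaf2935 sh) (s2936_2938 i sh) (Nat.ble 2936 i)
noncomputable def s2933_2938 (i sh : Nat) : Nat := Bool.rec (s2933_2935 i sh) (s2935_2938 i sh) (Nat.ble 2935 i)
noncomputable def s2938_2940 (i sh : Nat) : Nat := Bool.rec (Nat.shiftRight leaf2938 sh) (Nat.shiftRight leaf2939 sh) (Nat.ble 2939 i)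
noncomputable def s2941_2943 (i sh : Nat) : Nat := Bool.rec (Nat.shiftRight leaf2941 sh) (Nat.shiftRight leaf2942 sh) (Nat.ble 2942 i)
noncomputable def s2940_2943 (i sh : Nat) : Nat := Bool.rec (Nat.shiftRight leaf2940 sh) (s2941_2943 i sh) (Nat.ble 2941 i)
noncomputable def s2938_2943 (i sh : Nat) : Nat := Bool.rec (s2938_2940 i sh) (s2940_2943 i sh) (Nat.ble 2940 i)
noncomputable def s2933_2943 (i sh : Nat) : Nat := Bool.rec (s2933_2938 i sh) (s2938_2943 i sh) (Nat.ble 2938 i)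
noncomputable def s2923_2943 (i sh : Nat) : Nat := Bool.rec (s2923_2933 i sh) (s2933_2943 i sh) (Nat.ble 2933 i)
noncomputable def s2903_2943 (i sh : Nat) : Nat := Bool.rec (s2903_2923 i sh) (s2923_2943 i sh) (Nat.ble 2923 i)
noncomputable def s2943_2945 (i sh : Nat) : Nat := Bool.rec (Nat.shiftRight leaf2943 sh) (Nat.shiftRight leaf2944 sh) (Nat.ble 2944 i)
noncomputable def s2946_2948 (i sh : Nat) : Nat := Bool.rec (Nat.shiftRight leaf2946 sh) (Nat.shiftRight leaf2947 sh) (Nat.ble 2947 i)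
noncomputable def s2945_2948 (i sh : Nat) : Nat := Bool.rec (Nat.shiftRight leaf2945 sh) (s2946_2948 i sh) (Nat.ble 2946 i)
noncomputable def s2943_2948 (i sh : Nat) : Nat := Bool.rec (s2943_2945 i sh) (s2945_2948 i sh) (Nat.ble 2945 i)
noncomputable def s2948_2950 (i sh : Nat) : Nat := Bool.rec (Nat.shiftRight leaf2948 sh) (Nat.shiftRight leaf2949 sh) (Nat.ble 2949 i)
noncomputable def s2951_2953 (i sh : Nat) : Nat := Bool.rec (Nat.shiftRight leaf2951 sh) (Nat.shiftRight leaf2952 sh) (Nat.ble 2952 i)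
noncomputable def s2950_2953 (i sh : Nat) : Nat := Bool.rec (Nat.shiftRight leaf2950 sh) (s2951_2953 i sh) (Nat.ble 2951 i)
noncomputable def s2948_2953 (i sh : Nat) : Nat := Bool.rec (s2948_2950 i sh) (s2950_2953 i sh) (Nat.ble 2950 i)
noncomputable def s2943_2953 (i sh : Nat) : Nat := Bool.rec (s2943_2948 i sh) (s2948_2953 i sh) (Nat.ble 2948 i)
noncomputable def s2953_2955 (i sh : Nat) : Nat := Bool.rec (Nat.shiftRight leaf2953 sh) (Nat.shiftRight leaf2954 sh) (Nat.ble 2954 i)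
noncomputable def s2956_2958 (i sh : Nat) : Nat := Bool.rec (Nat.shiftRight leaf2956 sh) (Nat.shiftRight leaf2957 sh) (Nat.ble 2957 i)
noncomputable def s2955_2958 (i sh : Nat) : Nat := Bool.rec (Nat.shiftRight leaf2955 sh) (s2956_2958 i sh) (Nat.ble 2956 i)
noncomputable def s2953_2958 (i sh : Nat) : Nat := Bool.rec (s2953_2955 i sh) (s2955_2958 i sh) (Nat.ble 2955 i)
noncomputable def s2958_2960 (i sh : Nat) : Nat := Bool.rec (Nat.shiftRight leaf2958 sh) (Nat.shiftRight leaf2959 sh) (Nat.ble 2959 i)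
noncomputable def s2961_2963 (i sh : Nat) : Nat := Bool.rec (Nat.shiftRight leaf2961 sh) (Nat.shiftRight leaf2962 sh) (Nat.ble 2962 i)
noncomputable def s2960_2963 (i sh : Nat) : Nat := Bool.rec (Nat.shiftRight leaf2960 sh) (s2961_2963 i sh) (Nat.ble 2961 i)
noncomputable def s2958_2963 (i sh : Nat) : Nat := Bool.rec (s2958_2960 i sh) (s2960_2963 i sh) (Nat.ble 2960 i)
noncomputable def s2953_2963 (i sh : Nat) : Nat := Bool.rec (s2953_2958 i sh) (s2958_2963 i sh) (Nat.ble 2958 i)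
noncomputable def s2943_2963 (i sh : Nat) : Nat := Bool.rec (s2943_2953 i sh) (s2953_2963 i sh) (Nat.ble 2953 i)
noncomputable def s2963_2965 (i sh : Nat) : Nat := Bool.rec (Nat.shiftRight leaf2963 sh) (Nat.shiftRight leaf2964 sh) (Nat.ble 2964 i)
noncomputable def s2966_2968 (i sh : Nat) : Nat := Bool.rec (Nat.shiftRight leaf2966 sh) (Nat.shiftRight leaf2967 sh) (Nat.ble 2967 i)
noncomputable def s2965_2968 (i sh : Nat) : Nat := Bool.rec (Nat.shiftRight leaf2965 sh) (s2966_2968 i sh) (Nat.ble 2966 i)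
noncomputable def s2963_2968 (i sh : Nat) : Nat := Bool.rec (s2963_2965 i sh) (s2965_2968 i sh) (Nat.ble 2965 i)
noncomputable def s2968_2970 (i sh : Nat) : Nat := Bool.rec (Nat.shiftRight leaf2968 sh) (Nat.shiftRight leaf2969 sh) (Nat.ble 2969 i)
noncomputable def s2971_2973 (i sh : Nat) : Nat := Bool.rec (Nat.shiftRight leaf2971 sh) (Nat.shiftRight leaf2972 sh) (Nat.ble 2972 i)
noncomputable def s2970_2973 (i sh : Nat) : Nat := Bool.rec (Nat.shiftRight leaf2970 sh) (s2971_2973 i sh) (Nat.ble 2971 i)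
noncomputable def s2968_2973 (i sh : Nat) : Nat := Bool.rec (s2968_2970 i sh) (s2970_2973 i sh) (Nat.ble 2970 i)
noncomputable def s2963_2973 (i sh : Nat) : Nat := Bool.rec (s2963_2968 i sh) (s2968_2973 i sh) (Nat.ble 2968 i)
noncomputable def s2973_2975 (i sh : Nat) : Nat := Bool.rec (Nat.shiftRight leaf2973 sh) (Nat.shiftRight leaf2974 sh) (Nat.ble 2974 i)
noncomputable def s2976_2978 (i sh : Nat) : Nat := Bool.rec (Nat.shiftRight leaf2976 sh) (Nat.shiftRight leaf2977 sh) (Nat.ble 2977 i)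
noncomputable def s2975_2978 (i sh : Nat) : Nat := Bool.rec (Nat.shiftRight leaf2975 sh) (s2976_2978 i sh) (Nat.ble 2976 i)
noncomputable def s2973_2978 (i sh : Nat) : Nat := Bool.rec (s2973_2975 i sh) (s2975_2978 i sh) (Nat.ble 2975 i)
noncomputable def s2978_2980 (i sh : Nat) : Nat := Bool.rec (Nat.shiftRight leaf2978 sh) (Nat.shiftRight leaf2979 sh) (Nat.ble 2979 i)
noncomputable def s2981_2983 (i sh : Nat) : Nat := Bool.rec (Nat.shiftRight leaf2981 sh) (Nat.shiftRight leaf2982 sh) (Nat.ble 2982 i)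
noncomputable def s2980_2983 (i sh : Nat) : Nat := Bool.rec (Nat.shiftRight leaf2980 sh) (s2981_2983 i sh) (Nat.ble 2981 i)
noncomputable def s2978_2983 (i sh : Nat) : Nat := Bool.rec (s2978_2980 i sh) (s2980_2983 i sh) (Nat.ble 2980 i)
noncomputable def s2973_2983 (i sh : Nat) : Nat := Bool.rec (s2973_2978 i sh) (s2978_2983 i sh) (Nat.ble 2978 i)
noncomputable def s2963_2983 (i sh : Nat) : Nat := Bool.rec (s2963_2973 i sh) (s2973_2983 i sh) (Nat.ble 2973 i)
noncomputable def s2943_2983 (i sh : Nat) : Nat := Bool.rec (s2943_2963 i sh) (s2963_2983 i sh) (Nat.ble 2963 i)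
noncomputable def s2903_2983 (i sh : Nat) : Nat := Bool.rec (s2903_2943 i sh) (s2943_2983 i sh) (Nat.ble 2943 i)
noncomputable def s2983_2985 (i sh : Nat) : Nat := Bool.rec (Nat.shiftRight leaf2983 sh) (Nat.shiftRight leaf2984 sh) (Nat.ble 2984 i)
noncomputable def s2986_2988 (i sh : Nat) : Nat := Bool.rec (Nat.shiftRight leaf2986 sh) (Nat.shiftRight leaf2987 sh) (Nat.ble 2987 i)
noncomputable def s2985_2988 (i sh : Nat) : Nat := Bool.rec (Nat.shiftRight leaf2985 sh) (s2986_2988 i sh) (Nat.ble 2986 i)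
noncomputable def s2983_2988 (i sh : Nat) : Nat := Bool.rec (s2983_2985 i sh) (s2985_2988 i sh) (Nat.ble 2985 i)
noncomputable def s2988_2990 (i sh : Nat) : Nat := Bool.rec (Nat.shiftRight leaf2988 sh) (Nat.shiftRight leaf2989 sh) (Nat.ble 2989 i)
noncomputable def s2991_2993 (i sh : Nat) : Nat := Bool.rec (Nat.shiftRight leaf2991 sh) (Nat.shiftRight leaf2992 sh) (Nat.ble 2992 i)
noncomputable def s2990_2993 (i sh : Nat) : Nat := Bool.rec (Nat.shiftRight leaf2990 sh) (s2991_2993 i sh) (Nat.ble 2991 i)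
noncomputable def s2988_2993 (i sh : Nat) : Nat := Bool.rec (s2988_2990 i sh) (s2990_2993 i sh) (Nat.ble 2990 i)
noncomputable def s2983_2993 (i sh : Nat) : Nat := Bool.rec (s2983_2988 i sh) (s2988_2993 i sh) (Nat.ble 2988 i)
noncomputable def s2993_2995 (i sh : Nat) : Nat := Bool.rec (Nat.shiftRight leaf2993 sh) (Nat.shiftRight leaf2994 sh) (Nat.ble 2994 i)
noncomputable def s2996_2998 (i sh : Nat) : Nat := Bool.rec (Nat.shiftRight leaf2996 sh) (Nat.shiftRight leaf2997 sh) (Nat.ble 2997 i)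
noncomputable def s2995_2998 (i sh : Nat) : Nat := Bool.rec (Nat.shiftRight leaf2995 sh) (s2996_2998 i sh) (Nat.ble 2996 i)
noncomputable def s2993_2998 (i sh : Nat) : Nat := Bool.rec (s2993_2995 i sh) (s2995_2998 i sh) (Nat.ble 2995 i)
noncomputable def s2998_3000 (i sh : Nat) : Nat := Bool.rec (Nat.shiftRight leaf2998 sh) (Nat.shiftRight leaf2999 sh) (Nat.ble 2999 i)
noncomputable def s3001_3003 (i sh : Nat) : Nat := Bool.rec (Nat.shiftRight leaf3001 sh) (Nat.shiftRight leaf3002 sh) (Nat.ble 3002 i)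
noncomputable def s3000_3003 (i sh : Nat) : Nat := Bool.rec (Nat.shiftRight leaf3000 sh) (s3001_3003 i sh) (Nat.ble 3001 i)
noncomputable def s2998_3003 (i sh : Nat) : Nat := Bool.rec (s2998_3000 i sh) (s3000_3003 i sh) (Nat.ble 3000 i)
noncomputable def s2993_3003 (i sh : Nat) : Nat := Bool.rec (s2993_2998 i sh) (s2998_3003 i sh) (Nat.ble 2998 i)
noncomputable def s2983_3003 (i sh : Nat) : Nat := Bool.rec (s2983_2993 i sh) (s2993_3003 i sh) (Nat.ble 2993 i)
noncomputable def s3003_3005 (i sh : Nat) : Nat := Bool.rec (Nat.shiftRight leaf3003 sh) (Nat.shiftRight leaf3004 sh) (Nat.ble 3004 i)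
noncomputable def s3006_3008 (i sh : Nat) : Nat := Bool.rec (Nat.shiftRight leaf3006 sh) (Nat.shiftRight leaf3007 sh) (Nat.ble 3007 i)
noncomputable def s3005_3008 (i sh : Nat) : Nat := Bool.rec (Nat.shiftRight leaf3005 sh) (s3006_3008 i sh) (Nat.ble 3006 i)
noncomputable def s3003_3008 (i sh : Nat) : Nat := Bool.rec (s3003_3005 i sh) (s3005_3008 i sh) (Nat.ble 3005 i)
noncomputable def s3008_3010 (i sh : Nat) : Nat := Bool.rec (Nat.shiftRight leaf3008 sh) (Nat.shiftRight leaf3009 sh) (Nat.ble 3009 i)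
noncomputable def s3011_3013 (i sh : Nat) : Nat := Bool.rec (Nat.shiftRight leaf3011 sh) (Nat.shiftRight leaf3012 sh) (Nat.ble 3012 i)
noncomputable def s3010_3013 (i sh : Nat) : Nat := Bool.rec (Nat.shiftRight leaf3010 sh) (s3011_3013 i sh) (Nat.ble 3011 i)
noncomputable def s3008_3013 (i sh : Nat) : Nat := Bool.rec (s3008_3010 i sh) (s3010_3013 i sh) (Nat.ble 3010 i)
noncomputable def s3003_3013 (i sh : Nat) : Nat := Bool.rec (s3003_3008 i sh) (s3008_3013 i sh) (Nat.ble 3008 i)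
noncomputable def s3013_3015 (i sh : Nat) : Nat := Bool.rec (Nat.shiftRight leaf3013 sh) (Nat.shiftRight leaf3014 sh) (Nat.ble 3014 i)
noncomputable def s3016_3018 (i sh : Nat) : Nat := Bool.rec (Nat.shiftRight leaf3016 sh) (Nat.shiftRight leaf3017 sh) (Nat.ble 3017 i)
noncomputable def s3015_3018 (i sh : Nat) : Nat := Bool.rec (Nat.shiftRight leaf3015 sh) (s3016_3018 i sh) (Nat.ble 3016 i)
noncomputable def s3013_3018 (i sh : Nat) : Nat := Bool.rec (s3013_3015 i sh) (s3015_3018 i sh) (Nat.ble 3015 i)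
noncomputable def s3018_3020 (i sh : Nat) : Nat := Bool.rec (Nat.shiftRight leaf3018 sh) (Nat.shiftRight leaf3019 sh) (Nat.ble 3019 i)
noncomputable def s3021_3023 (i sh : Nat) : Nat := Bool.rec (Nat.shiftRight leaf3021 sh) (Nat.shiftRight leaf3022 sh) (Nat.ble 3022 i)
noncomputable def s3020_3023 (i sh : Nat) : Nat := Bool.rec (Nat.shiftRight leaf3020 sh) (s3021_3023 i sh) (Nat.ble 3021 i)
noncomputable def s3018_3023 (i sh : Nat) : Nat := Bool.rec (s3018_3020 i sh) (s3020_3023 i sh) (Nat.ble 3020 i)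
noncomputable def s3013_3023 (i sh : Nat) : Nat := Bool.rec (s3013_3018 i sh) (s3018_3023 i sh) (Nat.ble 3018 i)
noncomputable def s3003_3023 (i sh : Nat) : Nat := Bool.rec (s3003_3013 i sh) (s3013_3023 i sh) (Nat.ble 3013 i)
noncomputable def s2983_3023 (i sh : Nat) : Nat := Bool.rec (s2983_3003 i sh) (s3003_3023 i sh) (Nat.ble 3003 i)
noncomputable def s3023_3025 (i sh : Nat) : Nat := Bool.rec (Nat.shiftRight leaf3023 sh) (Nat.shiftRight leaf3024 sh) (Nat.ble 3024 i)
noncomputable def s3026_3028 (i sh : Nat) : Nat := Bool.rec (Nat.shiftRight leaf3026 sh) (Nat.shiftRight leaf3027 sh) (Nat.ble 3027 i)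
noncomputable def s3025_3028 (i sh : Nat) : Nat := Bool.rec (Nat.shiftRight leaf3025 sh) (s3026_3028 i sh) (Nat.ble 3026 i)
noncomputable def s3023_3028 (i sh : Nat) : Nat := Bool.rec (s3023_3025 i sh) (s3025_3028 i sh) (Nat.ble 3025 i)
noncomputable def s3028_3030 (i sh : Nat) : Nat := Bool.rec (Nat.shiftRight leaf3028 sh) (Nat.shiftRight leaf3029 sh) (Nat.ble 3029 i)
noncomputable def s3031_3033 (i sh : Nat) : Nat := Bool.rec (Nat.shiftRight leaf3031 sh) (Nat.shiftRight leaf3032 sh) (Nat.ble 3032 i)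
noncomputable def s3030_3033 (i sh : Nat) : Nat := Bool.rec (Nat.shiftRight leaf3030 sh) (s3031_3033 i sh) (Nat.ble 3031 i)
noncomputable def s3028_3033 (i sh : Nat) : Nat := Bool.rec (s3028_3030 i sh) (s3030_3033 i sh) (Nat.ble 3030 i)
noncomputable def s3023_3033 (i sh : Nat) : Nat := Bool.rec (s3023_3028 i sh) (s3028_3033 i sh) (Nat.ble 3028 i)
noncomputable def s3033_3035 (i sh : Nat) : Nat := Bool.rec (Nat.shiftRight leaf3033 sh) (Nat.shiftRight leaf3034 sh) (Nat.ble 3034 i)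
noncomputable def s3036_3038 (i sh : Nat) : Nat := Bool.rec (Nat.shiftRight leaf3036 sh) (Nat.shiftRight leaf3037 sh) (Nat.ble 3037 i)
noncomputable def s3035_3038 (i sh : Nat) : Nat := Bool.rec (Nat.shiftRight leaf3035 sh) (s3036_3038 i sh) (Nat.ble 3036 i)
noncomputable def s3033_3038 (i sh : Nat) : Nat := Bool.rec (s3033_3035 i sh) (s3035_3038 i sh) (Nat.ble 3035 i)
noncomputable def s3038_3040 (i sh : Nat) : Nat := Bool.rec (Nat.shiftRight leaf3038 sh) (Nat.shiftRight leaf3039 sh) (Nat.ble 3039 i)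
noncomputable def s3041_3043 (i sh : Nat) : Nat := Bool.rec (Nat.shiftRight leaf3041 sh) (Nat.shiftRight leaf3042 sh) (Nat.ble 3042 i)
noncomputable def s3040_3043 (i sh : Nat) : Nat := Bool.rec (Nat.shiftRight leaf3040 sh) (s3041_3043 i sh) (Nat.ble 3041 i)
noncomputable def s3038_3043 (i sh : Nat) : Nat := Bool.rec (s3038_3040 i sh) (s3040_3043 i sh) (Nat.ble 3040 i)
noncomputable def s3033_3043 (i sh : Nat) : Nat := Bool.rec (s3033_3038 i sh) (s3038_3043 i sh) (Nat.ble 3038 i)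
noncomputable def s3023_3043 (i sh : Nat) : Nat := Bool.rec (s3023_3033 i sh) (s3033_3043 i sh) (Nat.ble 3033 i)
noncomputable def s3043_3045 (i sh : Nat) : Nat := Bool.rec (Nat.shiftRight leaf3043 sh) (Nat.shiftRight leaf3044 sh) (Nat.ble 3044 i)
noncomputable def s3046_3048 (i sh : Nat) : Nat := Bool.rec (Nat.shiftRight leaf3046 sh) (Nat.shiftRight leaf3047 sh) (Nat.ble 3047 i)
noncomputable def s3045_3048 (i sh : Nat) : Nat := Bool.rec (Nat.shiftRight leaf3045 sh) (s3046_3048 i sh) (Nat.ble 3046 i)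
noncomputable def s3043_3048 (i sh : Nat) : Nat := Bool.rec (s3043_3045 i sh) (s3045_3048 i sh) (Nat.ble 3045 i)
noncomputable def s3048_3050 (i sh : Nat) : Nat := Bool.rec (Nat.shiftRight leaf3048 sh) (Nat.shiftRight leaf3049 sh) (Nat.ble 3049 i)
noncomputable def s3051_3053 (i sh : Nat) : Nat := Bool.rec (Nat.shiftRight leaf3051 sh) (Nat.shiftRight leaf3052 sh) (Nat.ble 3052 i)
noncomputable def s3050_3053 (i sh : Nat) : Nat := Bool.rec (Nat.shiftRight leaf3050 sh) (s3051_3053 i sh) (Nat.ble 3051 i)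
noncomputable def s3048_3053 (i sh : Nat) : Nat := Bool.rec (s3048_3050 i sh) (s3050_3053 i sh) (Nat.ble 3050 i)
noncomputable def s3043_3053 (i sh : Nat) : Nat := Bool.rec (s3043_3048 i sh) (s3048_3053 i sh) (Nat.ble 3048 i)
noncomputable def s3053_3055 (i sh : Nat) : Nat := Bool.rec (Nat.shiftRight leaf3053 sh) (Nat.shiftRight leaf3054 sh) (Nat.ble 3054 i)
noncomputable def s3056_3058 (i sh : Nat) : Nat := Bool.rec (Nat.shiftRight leaf3056 sh) (Nat.shiftRight leaf3057 sh) (Nat.ble 3057 i)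
noncomputable def s3055_3058 (i sh : Nat) : Nat := Bool.rec (Nat.shiftRight leaf3055 sh) (s3056_3058 i sh) (Nat.ble 3056 i)
noncomputable def s3053_3058 (i sh : Nat) : Nat := Bool.rec (s3053_3055 i sh) (s3055_3058 i sh) (Nat.ble 3055 i)
noncomputable def s3059_3061 (i sh : Nat) : Nat := Bool.rec (Nat.shiftRight leaf3059 sh) (Nat.shiftRight leaf3060 sh) (Nat.ble 3060 i)
noncomputable def s3058_3061 (i sh : Nat) : Nat := Bool.rec (Nat.shiftRight leaf3058 sh) (s3059_3061 i sh) (Nat.ble 3059 i)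
noncomputable def s3062_3064 (i sh : Nat) : Nat := Bool.rec (Nat.shiftRight leaf3062 sh) (Nat.shiftRight leaf3063 sh) (Nat.ble 3063 i)
noncomputable def s3061_3064 (i sh : Nat) : Nat := Bool.rec (Nat.shiftRight leaf3061 sh) (s3062_3064 i sh) (Nat.ble 3062 i)
noncomputable def s3058_3064 (i sh : Nat) : Nat := Bool.rec (s3058_3061 i sh) (s3061_3064 i sh) (Nat.ble 3061 i)
noncomputable def s3053_3064 (i sh : Nat) : Nat := Bool.rec (s3053_3058 i sh) (s3058_3064 i sh) (Nat.ble 3058 i)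
noncomputable def s3043_3064 (i sh : Nat) : Nat := Bool.rec (s3043_3053 i sh) (s3053_3064 i sh) (Nat.ble 3053 i)
noncomputable def s3023_3064 (i sh : Nat) : Nat := Bool.rec (s3023_3043 i sh) (s3043_3064 i sh) (Nat.ble 3043 i)
noncomputable def s2983_3064 (i sh : Nat) : Nat := Bool.rec (s2983_3023 i sh) (s3023_3064 i sh) (Nat.ble 3023 i)
noncomputable def s2903_3064 (i sh : Nat) : Nat := Bool.rec (s2903_2983 i sh) (s2983_3064 i sh) (Nat.ble 2983 i)
noncomputable def s3064_3066 (i sh : Nat) : Nat := Bool.rec (Nat.shiftRight leaf3064 sh) (Nat.shiftRight leaf3065 sh) (Nat.ble 3065 i)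
noncomputable def s3067_3069 (i sh : Nat) : Nat := Bool.rec (Nat.shiftRight leaf3067 sh) (Nat.shiftRight leaf3068 sh) (Nat.ble 3068 i)
noncomputable def s3066_3069 (i sh : Nat) : Nat := Bool.rec (Nat.shiftRight leaf3066 sh) (s3067_3069 i sh) (Nat.ble 3067 i)
noncomputable def s3064_3069 (i sh : Nat) : Nat := Bool.rec (s3064_3066 i sh) (s3066_3069 i sh) (Nat.ble 3066 i)
noncomputable def s3069_3071 (i sh : Nat) : Nat := Bool.rec (Nat.shiftRight leaf3069 sh) (Nat.shiftRight leaf3070 sh) (Nat.ble 3070 i)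
noncomputable def s3072_3074 (i sh : Nat) : Nat := Bool.rec (Nat.shiftRight leaf3072 sh) (Nat.shiftRight leaf3073 sh) (Nat.ble 3073 i)
noncomputable def s3071_3074 (i sh : Nat) : Nat := Bool.rec (Nat.shiftRight leaf3071 sh) (s3072_3074 i sh) (Nat.ble 3072 i)
noncomputable def s3069_3074 (i sh : Nat) : Nat := Bool.rec (s3069_3071 i sh) (s3071_3074 i sh) (Nat.ble 3071 i)
noncomputable def s3064_3074 (i sh : Nat) : Nat := Bool.rec (s3064_3069 i sh) (s3069_3074 i sh) (Nat.ble 3069 i)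
noncomputable def s3074_3076 (i sh : Nat) : Nat := Bool.rec (Nat.shiftRight leaf3074 sh) (Nat.shiftRight leaf3075 sh) (Nat.ble 3075 i)
noncomputable def s3077_3079 (i sh : Nat) : Nat := Bool.rec (Nat.shiftRight leaf3077 sh) (Nat.shiftRight leaf3078 sh) (Nat.ble 3078 i)
noncomputable def s3076_3079 (i sh : Nat) : Nat := Bool.rec (Nat.shiftRight leaf3076 sh) (s3077_3079 i sh) (Nat.ble 3077 i)
noncomputable def s3074_3079 (i sh : Nat) : Nat := Bool.rec (s3074_3076 i sh) (s3076_3079 i sh) (Nat.ble 3076 i)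
noncomputable def s3079_3081 (i sh : Nat) : Nat := Bool.rec (Nat.shiftRight leaf3079 sh) (Nat.shiftRight leaf3080 sh) (Nat.ble 3080 i)
noncomputable def s3082_3084 (i sh : Nat) : Nat := Bool.rec (Nat.shiftRight leaf3082 sh) (Nat.shiftRight leaf3083 sh) (Nat.ble 3083 i)
noncomputable def s3081_3084 (i sh : Nat) : Nat := Bool.rec (Nat.shiftRight leaf3081 sh) (s3082_3084 i sh) (Nat.ble 3082 i)
noncomputable def s3079_3084 (i sh : Nat) : Nat := Bool.rec (s3079_3081 i sh) (s3081_3084 i sh) (Nat.ble 3081 i)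
noncomputable def s3074_3084 (i sh : Nat) : Nat := Bool.rec (s3074_3079 i sh) (s3079_3084 i sh) (Nat.ble 3079 i)
noncomputable def s3064_3084 (i sh : Nat) : Nat := Bool.rec (s3064_3074 i sh) (s3074_3084 i sh) (Nat.ble 3074 i)
noncomputable def s3084_3086 (i sh : Nat) : Nat := Bool.rec (Nat.shiftRight leaf3084 sh) (Nat.shiftRight leaf3085 sh) (Nat.ble 3085 i)
noncomputable def s3087_3089 (i sh : Nat) : Nat := Bool.rec (Nat.shiftRight leaf3087 sh) (Nat.shiftRight leaf3088 sh) (Nat.ble 3088 i)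
noncomputable def s3086_3089 (i sh : Nat) : Nat := Bool.rec (Nat.shiftRight leaf3086 sh) (s3087_3089 i sh) (Nat.ble 3087 i)
noncomputable def s3084_3089 (i sh : Nat) : Nat := Bool.rec (s3084_3086 i sh) (s3086_3089 i sh) (Nat.ble 3086 i)
noncomputable def s3089_3091 (i sh : Nat) : Nat := Bool.rec (Nat.shiftRight leaf3089 sh) (Nat.shiftRight leaf3090 sh) (Nat.ble 3090 i)
noncomputable def s3092_3094 (i sh : Nat) : Nat := Bool.rec (Nat.shiftRight leaf3092 sh) (Nat.shiftRight leaf3093 sh) (Nat.ble 3093 i)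
noncomputable def s3091_3094 (i sh : Nat) : Nat := Bool.rec (Nat.shiftRight leaf3091 sh) (s3092_3094 i sh) (Nat.ble 3092 i)
noncomputable def s3089_3094 (i sh : Nat) : Nat := Bool.rec (s3089_3091 i sh) (s3091_3094 i sh) (Nat.ble 3091 i)
noncomputable def s3084_3094 (i sh : Nat) : Nat := Bool.rec (s3084_3089 i sh) (s3089_3094 i sh) (Nat.ble 3089 i)
noncomputable def s3094_3096 (i sh : Nat) : Nat := Bool.rec (Nat.shiftRight leaf3094 sh) (Nat.shiftRight leaf3095 sh) (Nat.ble 3095 i)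
noncomputable def s3097_3099 (i sh : Nat) : Nat := Bool.rec (Nat.shiftRight leaf3097 sh) (Nat.shiftRight leaf3098 sh) (Nat.ble 3098 i)
noncomputable def s3096_3099 (i sh : Nat) : Nat := Bool.rec (Nat.shiftRight leaf3096 sh) (s3097_3099 i sh) (Nat.ble 3097 i)
noncomputable def s3094_3099 (i sh : Nat) : Nat := Bool.rec (s3094_3096 i sh) (s3096_3099 i sh) (Nat.ble 3096 i)
noncomputable def s3099_3101 (i sh : Nat) : Nat := Bool.rec (Nat.shiftRight leaf3099 sh) (Nat.shiftRight leaf3100 sh) (Nat.ble 3100 i)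
noncomputable def s3102_3104 (i sh : Nat) : Nat := Bool.rec (Nat.shiftRight leaf3102 sh) (Nat.shiftRight leaf3103 sh) (Nat.ble 3103 i)
noncomputable def s3101_3104 (i sh : Nat) : Nat := Bool.rec (Nat.shiftRight leaf3101 sh) (s3102_3104 i sh) (Nat.ble 3102 i)
noncomputable def s3099_3104 (i sh : Nat) : Nat := Bool.rec (s3099_3101 i sh) (s3101_3104 i sh) (Nat.ble 3101 i)
noncomputable def s3094_3104 (i sh : Nat) : Nat := Bool.rec (s3094_3099 i sh) (s3099_3104 i sh) (Nat.ble 3099 i)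
noncomputable def s3084_3104 (i sh : Nat) : Nat := Bool.rec (s3084_3094 i sh) (s3094_3104 i sh) (Nat.ble 3094 i)
noncomputable def s3064_3104 (i sh : Nat) : Nat := Bool.rec (s3064_3084 i sh) (s3084_3104 i sh) (Nat.ble 3084 i)
noncomputable def s3104_3106 (i sh : Nat) : Nat := Bool.rec (Nat.shiftRight leaf3104 sh) (Nat.shiftRight leaf3105 sh) (Nat.ble 3105 i)
noncomputable def s3107_3109 (i sh : Nat) : Nat := Bool.rec (Nat.shiftRight leaf3107 sh) (Nat.shiftRight leaf3108 sh) (Nat.ble 3108 i)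
noncomputable def s3106_3109 (i sh : Nat) : Nat := Bool.rec (Nat.shiftRight leaf3106 sh) (s3107_3109 i sh) (Nat.ble 3107 i)
noncomputable def s3104_3109 (i sh : Nat) : Nat := Bool.rec (s3104_3106 i sh) (s3106_3109 i sh) (Nat.ble 3106 i)
noncomputable def s3109_3111 (i sh : Nat) : Nat := Bool.rec (Nat.shiftRight leaf3109 sh) (Nat.shiftRight leaf3110 sh) (Nat.ble 3110 i)
noncomputable def s3112_3114 (i sh : Nat) : Nat := Bool.rec (Nat.shiftRight leaf3112 sh) (Nat.shiftRight leaf3113 sh) (Nat.ble 3113 i)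
noncomputable def s3111_3114 (i sh : Nat) : Nat := Bool.rec (Nat.shiftRight leaf3111 sh) (s3112_3114 i sh) (Nat.ble 3112 i)
noncomputable def s3109_3114 (i sh : Nat) : Nat := Bool.rec (s3109_3111 i sh) (s3111_3114 i sh) (Nat.ble 3111 i)
noncomputable def s3104_3114 (i sh : Nat) : Nat := Bool.rec (s3104_3109 i sh) (s3109_3114 i sh) (Nat.ble 3109 i)
noncomputable def s3114_3116 (i sh : Nat) : Nat := Bool.rec (Nat.shiftRight leaf3114 sh) (Nat.shiftRight leaf3115 sh) (Nat.ble 3115 i)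
noncomputable def s3117_3119 (i sh : Nat) : Nat := Bool.rec (Nat.shiftRight leaf3117 sh) (Nat.shiftRight leaf3118 sh) (Nat.ble 3118 i)
noncomputable def s3116_3119 (i sh : Nat) : Nat := Bool.rec (Nat.shiftRight leaf3116 sh) (s3117_3119 i sh) (Nat.ble 3117 i)
noncomputable def s3114_3119 (i sh : Nat) : Nat := Bool.rec (s3114_3116 i sh) (s3116_3119 i sh) (Nat.ble 3116 i)
noncomputable def s3119_3121 (i sh : Nat) : Nat := Bool.rec (Nat.shiftRight leaf3119 sh) (Nat.shiftRight leaf3120 sh) (Nat.ble 3120 i)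
noncomputable def s3122_3124 (i sh : Nat) : Nat := Bool.rec (Nat.shiftRight leaf3122 sh) (Nat.shiftRight leaf3123 sh) (Nat.ble 3123 i)
noncomputable def s3121_3124 (i sh : Nat) : Nat := Bool.rec (Nat.shiftRight leaf3121 sh) (s3122_3124 i sh) (Nat.ble 3122 i)
noncomputable def s3119_3124 (i sh : Nat) : Nat := Bool.rec (s3119_3121 i sh) (s3121_3124 i sh) (Nat.ble 3121 i)
noncomputable def s3114_3124 (i sh : Nat) : Nat := Bool.rec (s3114_3119 i sh) (s3119_3124 i sh) (Nat.ble 3119 i)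
noncomputable def s3104_3124 (i sh : Nat) : Nat := Bool.rec (s3104_3114 i sh) (s3114_3124 i sh) (Nat.ble 3114 i)
noncomputable def s3124_3126 (i sh : Nat) : Nat := Bool.rec (Nat.shiftRight leaf3124 sh) (Nat.shiftRight leaf3125 sh) (Nat.ble 3125 i)
noncomputable def s3127_3129 (i sh : Nat) : Nat := Bool.rec (Nat.shiftRight leaf3127 sh) (Nat.shiftRight leaf3128 sh) (Nat.ble 3128 i)
noncomputable def s3126_3129 (i sh : Nat) : Nat := Bool.rec (Nat.shiftRight leaf3126 sh) (s3127_3129 i sh) (Nat.ble 3127 i)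
noncomputable def s3124_3129 (i sh : Nat) : Nat := Bool.rec (s3124_3126 i sh) (s3126_3129 i sh) (Nat.ble 3126 i)
noncomputable def s3129_3131 (i sh : Nat) : Nat := Bool.rec (Nat.shiftRight leaf3129 sh) (Nat.shiftRight leaf3130 sh) (Nat.ble 3130 i)
noncomputable def s3132_3134 (i sh : Nat) : Nat := Bool.rec (Nat.shiftRight leaf3132 sh) (Nat.shiftRight leaf3133 sh) (Nat.ble 3133 i)
noncomputable def s3131_3134 (i sh : Nat) : Nat := Bool.rec (Nat.shiftRight leaf3131 sh) (s3132_3134 i sh) (Nat.ble 3132 i)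
noncomputable def s3129_3134 (i sh : Nat) : Nat := Bool.rec (s3129_3131 i sh) (s3131_3134 i sh) (Nat.ble 3131 i)
noncomputable def s3124_3134 (i sh : Nat) : Nat := Bool.rec (s3124_3129 i sh) (s3129_3134 i sh) (Nat.ble 3129 i)
noncomputable def s3134_3136 (i sh : Nat) : Nat := Bool.rec (Nat.shiftRight leaf3134 sh) (Nat.shiftRight leaf3135 sh) (Nat.ble 3135 i)
noncomputable def s3137_3139 (i sh : Nat) : Nat := Bool.rec (Nat.shiftRight leaf3137 sh) (Nat.shiftRight leaf3138 sh) (Nat.ble 3138 i)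
noncomputable def s3136_3139 (i sh : Nat) : Nat := Bool.rec (Nat.shiftRight leaf3136 sh) (s3137_3139 i sh) (Nat.ble 3137 i)
noncomputable def s3134_3139 (i sh : Nat) : Nat := Bool.rec (s3134_3136 i sh) (s3136_3139 i sh) (Nat.ble 3136 i)
noncomputable def s3140_3142 (i sh : Nat) : Nat := Bool.rec (Nat.shiftRight leaf3140 sh) (Nat.shiftRight leaf3141 sh) (Nat.ble 3141 i)
noncomputable def s3139_3142 (i sh : Nat) : Nat := Bool.rec (Nat.shiftRight leaf3139 sh) (s3140_3142 i sh) (Nat.ble 3140 i)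
noncomputable def s3143_3145 (i sh : Nat) : Nat := Bool.rec (Nat.shiftRight leaf3143 sh) (Nat.shiftRight leaf3144 sh) (Nat.ble 3144 i)
noncomputable def s3142_3145 (i sh : Nat) : Nat := Bool.rec (Nat.shiftRight leaf3142 sh) (s3143_3145 i sh) (Nat.ble 3143 i)
noncomputable def s3139_3145 (i sh : Nat) : Nat := Bool.rec (s3139_3142 i sh) (s3142_3145 i sh) (Nat.ble 3142 i)
noncomputable def s3134_3145 (i sh : Nat) : Nat := Bool.rec (s3134_3139 i sh) (s3139_3145 i sh) (Nat.ble 3139 i)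
noncomputable def s3124_3145 (i sh : Nat) : Nat := Bool.rec (s3124_3134 i sh) (s3134_3145 i sh) (Nat.ble 3134 i)
noncomputable def s3104_3145 (i sh : Nat) : Nat := Bool.rec (s3104_3124 i sh) (s3124_3145 i sh) (Nat.ble 3124 i)
noncomputable def s3064_3145 (i sh : Nat) : Nat := Bool.rec (s3064_3104 i sh) (s3104_3145 i sh) (Nat.ble 3104 i)
noncomputable def s3145_3147 (i sh : Nat) : Nat := Bool.rec (Nat.shiftRight leaf3145 sh) (Nat.shiftRight leaf3146 sh) (Nat.ble 3146 i)
noncomputable def s3148_3150 (i sh : Nat) : Nat := Bool.rec (Nat.shiftRight leaf3148 sh) (Nat.shiftRight leaf3149 sh) (Nat.ble 3149 i)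
noncomputable def s3147_3150 (i sh : Nat) : Nat := Bool.rec (Nat.shiftRight leaf3147 sh) (s3148_3150 i sh) (Nat.ble 3148 i)
noncomputable def s3145_3150 (i sh : Nat) : Nat := Bool.rec (s3145_3147 i sh) (s3147_3150 i sh) (Nat.ble 3147 i)
noncomputable def s3150_3152 (i sh : Nat) : Nat := Bool.rec (Nat.shiftRight leaf3150 sh) (Nat.shiftRight leaf3151 sh) (Nat.ble 3151 i)
noncomputable def s3153_3155 (i sh : Nat) : Nat := Bool.rec (Nat.shiftRight leaf3153 sh) (Nat.shiftRight leaf3154 sh) (Nat.ble 3154 i)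
noncomputable def s3152_3155 (i sh : Nat) : Nat := Bool.rec (Nat.shiftRight leaf3152 sh) (s3153_3155 i sh) (Nat.ble 3153 i)
noncomputable def s3150_3155 (i sh : Nat) : Nat := Bool.rec (s3150_3152 i sh) (s3152_3155 i sh) (Nat.ble 3152 i)
noncomputable def s3145_3155 (i sh : Nat) : Nat := Bool.rec (s3145_3150 i sh) (s3150_3155 i sh) (Nat.ble 3150 i)
noncomputable def s3155_3157 (i sh : Nat) : Nat := Bool.rec (Nat.shiftRight leaf3155 sh) (Nat.shiftRight leaf3156 sh) (Nat.ble 3156 i)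
noncomputable def s3158_3160 (i sh : Nat) : Nat := Bool.rec (Nat.shiftRight leaf3158 sh) (Nat.shiftRight leaf3159 sh) (Nat.ble 3159 i)
noncomputable def s3157_3160 (i sh : Nat) : Nat := Bool.rec (Nat.shiftRight leaf3157 sh) (s3158_3160 i sh) (Nat.ble 3158 i)
noncomputable def s3155_3160 (i sh : Nat) : Nat := Bool.rec (s3155_3157 i sh) (s3157_3160 i sh) (Nat.ble 3157 i)
noncomputable def s3160_3162 (i sh : Nat) : Nat := Bool.rec (Nat.shiftRight leaf3160 sh) (Nat.shiftRight leaf3161 sh) (Nat.ble 3161 i)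
noncomputable def s3163_3165 (i sh : Nat) : Nat := Bool.rec (Nat.shiftRight leaf3163 sh) (Nat.shiftRight leaf3164 sh) (Nat.ble 3164 i)
noncomputable def s3162_3165 (i sh : Nat) : Nat := Bool.rec (Nat.shiftRight leaf3162 sh) (s3163_3165 i sh) (Nat.ble 3163 i)
noncomputable def s3160_3165 (i sh : Nat) : Nat := Bool.rec (s3160_3162 i sh) (s3162_3165 i sh) (Nat.ble 3162 i)
noncomputable def s3155_3165 (i sh : Nat) : Nat := Bool.rec (s3155_3160 i sh) (s3160_3165 i sh) (Nat.ble 3160 i)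
noncomputable def s3145_3165 (i sh : Nat) : Nat := Bool.rec (s3145_3155 i sh) (s3155_3165 i sh) (Nat.ble 3155 i)
noncomputable def s3165_3167 (i sh : Nat) : Nat := Bool.rec (Nat.shiftRight leaf3165 sh) (Nat.shiftRight leaf3166 sh) (Nat.ble 3166 i)
noncomputable def s3168_3170 (i sh : Nat) : Nat := Bool.rec (Nat.shiftRight leaf3168 sh) (Nat.shiftRight leaf3169 sh) (Nat.ble 3169 i)
noncomputable def s3167_3170 (i sh : Nat) : Nat := Bool.rec (Nat.shiftRight leaf3167 sh) (s3168_3170 i sh) (Nat.ble 3168 i)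
noncomputable def s3165_3170 (i sh : Nat) : Nat := Bool.rec (s3165_3167 i sh) (s3167_3170 i sh) (Nat.ble 3167 i)
noncomputable def s3170_3172 (i sh : Nat) : Nat := Bool.rec (Nat.shiftRight leaf3170 sh) (Nat.shiftRight leaf3171 sh) (Nat.ble 3171 i)
noncomputable def s3173_3175 (i sh : Nat) : Nat := Bool.rec (Nat.shiftRight leaf3173 sh) (Nat.shiftRight leaf3174 sh) (Nat.ble 3174 i)
noncomputable def s3172_3175 (i sh : Nat) : Nat := Bool.rec (Nat.shiftRight leaf3172 sh) (s3173_3175 i sh) (Nat.ble 3173 i)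
noncomputable def s3170_3175 (i sh : Nat) : Nat := Bool.rec (s3170_3172 i sh) (s3172_3175 i sh) (Nat.ble 3172 i)
noncomputable def s3165_3175 (i sh : Nat) : Nat := Bool.rec (s3165_3170 i sh) (s3170_3175 i sh) (Nat.ble 3170 i)
noncomputable def s3175_3177 (i sh : Nat) : Nat := Bool.rec (Nat.shiftRight leaf3175 sh) (Nat.shiftRight leaf3176 sh) (Nat.ble 3176 i)
noncomputable def s3178_3180 (i sh : Nat) : Nat := Bool.rec (Nat.shiftRight leaf3178 sh) (Nat.shiftRight leaf3179 sh) (Nat.ble 3179 i)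
noncomputable def s3177_3180 (i sh : Nat) : Nat := Bool.rec (Nat.shiftRight leaf3177 sh) (s3178_3180 i sh) (Nat.ble 3178 i)
noncomputable def s3175_3180 (i sh : Nat) : Nat := Bool.rec (s3175_3177 i sh) (s3177_3180 i sh) (Nat.ble 3177 i)
noncomputable def s3180_3182 (i sh : Nat) : Nat := Bool.rec (Nat.shiftRight leaf3180 sh) (Nat.shiftRight leaf3181 sh) (Nat.ble 3181 i)
noncomputable def s3183_3185 (i sh : Nat) : Nat := Bool.rec (Nat.shiftRight leaf3183 sh) (Nat.shiftRight leaf3184 sh) (Nat.ble 3184 i)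
noncomputable def s3182_3185 (i sh : Nat) : Nat := Bool.rec (Nat.shiftRight leaf3182 sh) (s3183_3185 i sh) (Nat.ble 3183 i)
noncomputable def s3180_3185 (i sh : Nat) : Nat := Bool.rec (s3180_3182 i sh) (s3182_3185 i sh) (Nat.ble 3182 i)
noncomputable def s3175_3185 (i sh : Nat) : Nat := Bool.rec (s3175_3180 i sh) (s3180_3185 i sh) (Nat.ble 3180 i)
noncomputable def s3165_3185 (i sh : Nat) : Nat := Bool.rec (s3165_3175 i sh) (s3175_3185 i sh) (Nat.ble 3175 i)
noncomputable def s3145_3185 (i sh : Nat) : Nat := Bool.rec (s3145_3165 i sh) (s3165_3185 i sh) (Nat.ble 3165 i)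
noncomputable def s3185_3187 (i sh : Nat) : Nat := Bool.rec (Nat.shiftRight leaf3185 sh) (Nat.shiftRight leaf3186 sh) (Nat.ble 3186 i)
noncomputable def s3188_3190 (i sh : Nat) : Nat := Bool.rec (Nat.shiftRight leaf3188 sh) (Nat.shiftRight leaf3189 sh) (Nat.ble 3189 i)
noncomputable def s3187_3190 (i sh : Nat) : Nat := Bool.rec (Nat.shiftRight leaf3187 sh) (s3188_3190 i sh) (Nat.ble 3188 i)
noncomputable def s3185_3190 (i sh : Nat) : Nat := Bool.rec (s3185_3187 i sh) (s3187_3190 i sh) (Nat.ble 3187 i)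
noncomputable def s3190_3192 (i sh : Nat) : Nat := Bool.rec (Nat.shiftRight leaf3190 sh) (Nat.shiftRight leaf3191 sh) (Nat.ble 3191 i)
noncomputable def s3193_3195 (i sh : Nat) : Nat := Bool.rec (Nat.shiftRight leaf3193 sh) (Nat.shiftRight leaf3194 sh) (Nat.ble 3194 i)
noncomputable def s3192_3195 (i sh : Nat) : Nat := Bool.rec (Nat.shiftRight leaf3192 sh) (s3193_3195 i sh) (Nat.ble 3193 i)
noncomputable def s3190_3195 (i sh : Nat) : Nat := Bool.rec (s3190_3192 i sh) (s3192_3195 i sh) (Nat.ble 3192 i)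
noncomputable def s3185_3195 (i sh : Nat) : Nat := Bool.rec (s3185_3190 i sh) (s3190_3195 i sh) (Nat.ble 3190 i)
noncomputable def s3195_3197 (i sh : Nat) : Nat := Bool.rec (Nat.shiftRight leaf3195 sh) (Nat.shiftRight leaf3196 sh) (Nat.ble 3196 i)
noncomputable def s3198_3200 (i sh : Nat) : Nat := Bool.rec (Nat.shiftRight leaf3198 sh) (Nat.shiftRight leaf3199 sh) (Nat.ble 3199 i)
noncomputable def s3197_3200 (i sh : Nat) : Nat := Bool.rec (Nat.shiftRight leaf3197 sh) (s3198_3200 i sh) (Nat.ble 3198 i)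
noncomputable def s3195_3200 (i sh : Nat) : Nat := Bool.rec (s3195_3197 i sh) (s3197_3200 i sh) (Nat.ble 3197 i)
noncomputable def s3200_3202 (i sh : Nat) : Nat := Bool.rec (Nat.shiftRight leaf3200 sh) (Nat.shiftRight leaf3201 sh) (Nat.ble 3201 i)
noncomputable def s3203_3205 (i sh : Nat) : Nat := Bool.rec (Nat.shiftRight leaf3203 sh) (Nat.shiftRight leaf3204 sh) (Nat.ble 3204 i)
noncomputable def s3202_3205 (i sh : Nat) : Nat := Bool.rec (Nat.shiftRight leaf3202 sh) (s3203_3205 i sh) (Nat.ble 3203 i)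
noncomputable def s3200_3205 (i sh : Nat) : Nat := Bool.rec (s3200_3202 i sh) (s3202_3205 i sh) (Nat.ble 3202 i)
noncomputable def s3195_3205 (i sh : Nat) : Nat := Bool.rec (s3195_3200 i sh) (s3200_3205 i sh) (Nat.ble 3200 i)
noncomputable def s3185_3205 (i sh : Nat) : Nat := Bool.rec (s3185_3195 i sh) (s3195_3205 i sh) (Nat.ble 3195 i)
noncomputable def s3205_3207 (i sh : Nat) : Nat := Bool.rec (Nat.shiftRight leaf3205 sh) (Nat.shiftRight leaf3206 sh) (Nat.ble 3206 i)
noncomputable def s3208_3210 (i sh : Nat) : Nat := Bool.rec (Nat.shiftRight leaf3208 sh) (Nat.shiftRight leaf3209 sh) (Nat.ble 3209 i)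
noncomputable def s3207_3210 (i sh : Nat) : Nat := Bool.rec (Nat.shiftRight leaf3207 sh) (s3208_3210 i sh) (Nat.ble 3208 i)
noncomputable def s3205_3210 (i sh : Nat) : Nat := Bool.rec (s3205_3207 i sh) (s3207_3210 i sh) (Nat.ble 3207 i)
noncomputable def s3210_3212 (i sh : Nat) : Nat := Bool.rec (Nat.shiftRight leaf3210 sh) (Nat.shiftRight leaf3211 sh) (Nat.ble 3211 i)
noncomputable def s3213_3215 (i sh : Nat) : Nat := Bool.rec (Nat.shiftRight leaf3213 sh) (Nat.shiftRight leaf3214 sh) (Nat.ble 3214 i)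
noncomputable def s3212_3215 (i sh : Nat) : Nat := Bool.rec (Nat.shiftRight leaf3212 sh) (s3213_3215 i sh) (Nat.ble 3213 i)
noncomputable def s3210_3215 (i sh : Nat) : Nat := Bool.rec (s3210_3212 i sh) (s3212_3215 i sh) (Nat.ble 3212 i)
noncomputable def s3205_3215 (i sh : Nat) : Nat := Bool.rec (s3205_3210 i sh) (s3210_3215 i sh) (Nat.ble 3210 i)
noncomputable def s3215_3217 (i sh : Nat) : Nat := Bool.rec (Nat.shiftRight leaf3215 sh) (Nat.shiftRight leaf3216 sh) (Nat.ble 3216 i)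
noncomputable def s3218_3220 (i sh : Nat) : Nat := Bool.rec (Nat.shiftRight leaf3218 sh) (Nat.shiftRight leaf3219 sh) (Nat.ble 3219 i)
noncomputable def s3217_3220 (i sh : Nat) : Nat := Bool.rec (Nat.shiftRight leaf3217 sh) (s3218_3220 i sh) (Nat.ble 3218 i)
noncomputable def s3215_3220 (i sh : Nat) : Nat := Bool.rec (s3215_3217 i sh) (s3217_3220 i sh) (Nat.ble 3217 i)
noncomputable def s3221_3223 (i sh : Nat) : Nat := Bool.rec (Nat.shiftRight leaf3221 sh) (Nat.shiftRight leaf3222 sh) (Nat.ble 3222 i)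
noncomputable def s3220_3223 (i sh : Nat) : Nat := Bool.rec (Nat.shiftRight leaf3220 sh) (s3221_3223 i sh) (Nat.ble 3221 i)
noncomputable def s3224_3226 (i sh : Nat) : Nat := Bool.rec (Nat.shiftRight leaf3224 sh) (Nat.shiftRight leaf3225 sh) (Nat.ble 3225 i)
noncomputable def s3223_3226 (i sh : Nat) : Nat := Bool.rec (Nat.shiftRight leaf3223 sh) (s3224_3226 i sh) (Nat.ble 3224 i)
noncomputable def s3220_3226 (i sh : Nat) : Nat := Bool.rec (s3220_3223 i sh) (s3223_3226 i sh) (Nat.ble 3223 i)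
noncomputable def s3215_3226 (i sh : Nat) : Nat := Bool.rec (s3215_3220 i sh) (s3220_3226 i sh) (Nat.ble 3220 i)
noncomputable def s3205_3226 (i sh : Nat) : Nat := Bool.rec (s3205_3215 i sh) (s3215_3226 i sh) (Nat.ble 3215 i)
noncomputable def s3185_3226 (i sh : Nat) : Nat := Bool.rec (s3185_3205 i sh) (s3205_3226 i sh) (Nat.ble 3205 i)
noncomputable def s3145_3226 (i sh : Nat) : Nat := Bool.rec (s3145_3185 i sh) (s3185_3226 i sh) (Nat.ble 3185 i)
noncomputable def s3064_3226 (i sh : Nat) : Nat := Bool.rec (s3064_3145 i sh) (s3145_3226 i sh) (Nat.ble 3145 i)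
noncomputable def s2903_3226 (i sh : Nat) : Nat := Bool.rec (s2903_3064 i sh) (s3064_3226 i sh) (Nat.ble 3064 i)
noncomputable def s2581_3226 (i sh : Nat) : Nat := Bool.rec (s2581_2903 i sh) (s2903_3226 i sh) (Nat.ble 2903 i)
noncomputable def s3226_3228 (i sh : Nat) : Nat := Bool.rec (Nat.shiftRight leaf3226 sh) (Nat.shiftRight leaf3227 sh) (Nat.ble 3227 i)
noncomputable def s3229_3231 (i sh : Nat) : Nat := Bool.rec (Nat.shiftRight leaf3229 sh) (Nat.shiftRight leaf3230 sh) (Nat.ble 3230 i)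
noncomputable def s3228_3231 (i sh : Nat) : Nat := Bool.rec (Nat.shiftRight leaf3228 sh) (s3229_3231 i sh) (Nat.ble 3229 i)
noncomputable def s3226_3231 (i sh : Nat) : Nat := Bool.rec (s3226_3228 i sh) (s3228_3231 i sh) (Nat.ble 3228 i)
noncomputable def s3231_3233 (i sh : Nat) : Nat := Bool.rec (Nat.shiftRight leaf3231 sh) (Nat.shiftRight leaf3232 sh) (Nat.ble 3232 i)
noncomputable def s3234_3236 (i sh : Nat) : Nat := Bool.rec (Nat.shiftRight leaf3234 sh) (Nat.shiftRight leaf3235 sh) (Nat.ble 3235 i)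
noncomputable def s3233_3236 (i sh : Nat) : Nat := Bool.rec (Nat.shiftRight leaf3233 sh) (s3234_3236 i sh) (Nat.ble 3234 i)
noncomputable def s3231_3236 (i sh : Nat) : Nat := Bool.rec (s3231_3233 i sh) (s3233_3236 i sh) (Nat.ble 3233 i)
noncomputable def s3226_3236 (i sh : Nat) : Nat := Bool.rec (s3226_3231 i sh) (s3231_3236 i sh) (Nat.ble 3231 i)
noncomputable def s3236_3238 (i sh : Nat) : Nat := Bool.rec (Nat.shiftRight leaf3236 sh) (Nat.shiftRight leaf3237 sh) (Nat.ble 3237 i)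
noncomputable def s3239_3241 (i sh : Nat) : Nat := Bool.rec (Nat.shiftRight leaf3239 sh) (Nat.shiftRight leaf3240 sh) (Nat.ble 3240 i)
noncomputable def s3238_3241 (i sh : Nat) : Nat := Bool.rec (Nat.shiftRight leaf3238 sh) (s3239_3241 i sh) (Nat.ble 3239 i)
noncomputable def s3236_3241 (i sh : Nat) : Nat := Bool.rec (s3236_3238 i sh) (s3238_3241 i sh) (Nat.ble 3238 i)
noncomputable def s3241_3243 (i sh : Nat) : Nat := Bool.rec (Nat.shiftRight leaf3241 sh) (Nat.shiftRight leaf3242 sh) (Nat.ble 3242 i)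
noncomputable def s3244_3246 (i sh : Nat) : Nat := Bool.rec (Nat.shiftRight leaf3244 sh) (Nat.shiftRight leaf3245 sh) (Nat.ble 3245 i)
noncomputable def s3243_3246 (i sh : Nat) : Nat := Bool.rec (Nat.shiftRight leaf3243 sh) (s3244_3246 i sh) (Nat.ble 3244 i)
noncomputable def s3241_3246 (i sh : Nat) : Nat := Bool.rec (s3241_3243 i sh) (s3243_3246 i sh) (Nat.ble 3243 i)
noncomputable def s3236_3246 (i sh : Nat) : Nat := Bool.rec (s3236_3241 i sh) (s3241_3246 i sh) (Nat.ble 3241 i)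
noncomputable def s3226_3246 (i sh : Nat) : Nat := Bool.rec (s3226_3236 i sh) (s3236_3246 i sh) (Nat.ble 3236 i)
noncomputable def s3246_3248 (i sh : Nat) : Nat := Bool.rec (Nat.shiftRight leaf3246 sh) (Nat.shiftRight leaf3247 sh) (Nat.ble 3247 i)
noncomputable def s3249_3251 (i sh : Nat) : Nat := Bool.rec (Nat.shiftRight leaf3249 sh) (Nat.shiftRight leaf3250 sh) (Nat.ble 3250 i)
noncomputable def s3248_3251 (i sh : Nat) : Nat := Bool.rec (Nat.shiftRight leaf3248 sh) (s3249_3251 i sh) (Nat.ble 3249 i)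
noncomputable def s3246_3251 (i sh : Nat) : Nat := Bool.rec (s3246_3248 i sh) (s3248_3251 i sh) (Nat.ble 3248 i)
noncomputable def s3251_3253 (i sh : Nat) : Nat := Bool.rec (Nat.shiftRight leaf3251 sh) (Nat.shiftRight leaf3252 sh) (Nat.ble 3252 i)
noncomputable def s3254_3256 (i sh : Nat) : Nat := Bool.rec (Nat.shiftRight leaf3254 sh) (Nat.shiftRight leaf3255 sh) (Nat.ble 3255 i)
noncomputable def s3253_3256 (i sh : Nat) : Nat := Bool.rec (Nat.shiftRight leaf3253 sh) (s3254_3256 i sh) (Nat.ble 3254 i)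
noncomputable def s3251_3256 (i sh : Nat) : Nat := Bool.rec (s3251_3253 i sh) (s3253_3256 i sh) (Nat.ble 3253 i)
noncomputable def s3246_3256 (i sh : Nat) : Nat := Bool.rec (s3246_3251 i sh) (s3251_3256 i sh) (Nat.ble 3251 i)
noncomputable def s3256_3258 (i sh : Nat) : Nat := Bool.rec (Nat.shiftRight leaf3256 sh) (Nat.shiftRight leaf3257 sh) (Nat.ble 3257 i)
noncomputable def s3259_3261 (i sh : Nat) : Nat := Bool.rec (Nat.shiftRight leaf3259 sh) (Nat.shiftRight leaf3260 sh) (Nat.ble 3260 i)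
noncomputable def s3258_3261 (i sh : Nat) : Nat := Bool.rec (Nat.shiftRight leaf3258 sh) (s3259_3261 i sh) (Nat.ble 3259 i)
noncomputable def s3256_3261 (i sh : Nat) : Nat := Bool.rec (s3256_3258 i sh) (s3258_3261 i sh) (Nat.ble 3258 i)
noncomputable def s3261_3263 (i sh : Nat) : Nat := Bool.rec (Nat.shiftRight leaf3261 sh) (Nat.shiftRight leaf3262 sh) (Nat.ble 3262 i)
noncomputable def s3264_3266 (i sh : Nat) : Nat := Bool.rec (Nat.shiftRight leaf3264 sh) (Nat.shiftRight leaf3265 sh) (Nat.ble 3265 i)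
noncomputable def s3263_3266 (i sh : Nat) : Nat := Bool.rec (Nat.shiftRight leaf3263 sh) (s3264_3266 i sh) (Nat.ble 3264 i)
noncomputable def s3261_3266 (i sh : Nat) : Nat := Bool.rec (s3261_3263 i sh) (s3263_3266 i sh) (Nat.ble 3263 i)
noncomputable def s3256_3266 (i sh : Nat) : Nat := Bool.rec (s3256_3261 i sh) (s3261_3266 i sh) (Nat.ble 3261 i)
noncomputable def s3246_3266 (i sh : Nat) : Nat := Bool.rec (s3246_3256 i sh) (s3256_3266 i sh) (Nat.ble 3256 i)
noncomputable def s3226_3266 (i sh : Nat) : Nat := Bool.rec (s3226_3246 i sh) (s3246_3266 i sh) (Nat.ble 3246 i)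
noncomputable def s3266_3268 (i sh : Nat) : Nat := Bool.rec (Nat.shiftRight leaf3266 sh) (Nat.shiftRight leaf3267 sh) (Nat.ble 3267 i)
noncomputable def s3269_3271 (i sh : Nat) : Nat := Bool.rec (Nat.shiftRight leaf3269 sh) (Nat.shiftRight leaf3270 sh) (Nat.ble 3270 i)
noncomputable def s3268_3271 (i sh : Nat) : Nat := Bool.rec (Nat.shiftRight leaf3268 sh) (s3269_3271 i sh) (Nat.ble 3269 i)
noncomputable def s3266_3271 (i sh : Nat) : Nat := Bool.rec (s3266_3268 i sh) (s3268_3271 i sh) (Nat.ble 3268 i)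
noncomputable def s3271_3273 (i sh : Nat) : Nat := Bool.rec (Nat.shiftRight leaf3271 sh) (Nat.shiftRight leaf3272 sh) (Nat.ble 3272 i)
noncomputable def s3274_3276 (i sh : Nat) : Nat := Bool.rec (Nat.shiftRight leaf3274 sh) (Nat.shiftRight leaf3275 sh) (Nat.ble 3275 i)
noncomputable def s3273_3276 (i sh : Nat) : Nat := Bool.rec (Nat.shiftRight leaf3273 sh) (s3274_3276 i sh) (Nat.ble 3274 i)
noncomputable def s3271_3276 (i sh : Nat) : Nat := Bool.rec (s3271_3273 i sh) (s3273_3276 i sh) (Nat.ble 3273 i)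
noncomputable def s3266_3276 (i sh : Nat) : Nat := Bool.rec (s3266_3271 i sh) (s3271_3276 i sh) (Nat.ble 3271 i)
noncomputable def s3276_3278 (i sh : Nat) : Nat := Bool.rec (Nat.shiftRight leaf3276 sh) (Nat.shiftRight leaf3277 sh) (Nat.ble 3277 i)
noncomputable def s3279_3281 (i sh : Nat) : Nat := Bool.rec (Nat.shiftRight leaf3279 sh) (Nat.shiftRight leaf3280 sh) (Nat.ble 3280 i)
noncomputable def s3278_3281 (i sh : Nat) : Nat := Bool.rec (Nat.shiftRight leaf3278 sh) (s3279_3281 i sh) (Nat.ble 3279 i)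
noncomputable def s3276_3281 (i sh : Nat) : Nat := Bool.rec (s3276_3278 i sh) (s3278_3281 i sh) (Nat.ble 3278 i)
noncomputable def s3281_3283 (i sh : Nat) : Nat := Bool.rec (Nat.shiftRight leaf3281 sh) (Nat.shiftRight leaf3282 sh) (Nat.ble 3282 i)
noncomputable def s3284_3286 (i sh : Nat) : Nat := Bool.rec (Nat.shiftRight leaf3284 sh) (Nat.shiftRight leaf3285 sh) (Nat.ble 3285 i)
noncomputable def s3283_3286 (i sh : Nat) : Nat := Bool.rec (Nat.shiftRight leaf3283 sh) (s3284_3286 i sh) (Nat.ble 3284 i)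
noncomputable def s3281_3286 (i sh : Nat) : Nat := Bool.rec (s3281_3283 i sh) (s3283_3286 i sh) (Nat.ble 3283 i)
noncomputable def s3276_3286 (i sh : Nat) : Nat := Bool.rec (s3276_3281 i sh) (s3281_3286 i sh) (Nat.ble 3281 i)
noncomputable def s3266_3286 (i sh : Nat) : Nat := Bool.rec (s3266_3276 i sh) (s3276_3286 i sh) (Nat.ble 3276 i)
noncomputable def s3286_3288 (i sh : Nat) : Nat := Bool.rec (Nat.shiftRight leaf3286 sh) (Nat.shiftRight leaf3287 sh) (Nat.ble 3287 i)
noncomputable def s3289_3291 (i sh : Nat) : Nat := Bool.rec (Nat.shiftRight leaf3289 sh) (Nat.shiftRight leaf3290 sh) (Nat.ble 3290 i)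
noncomputable def s3288_3291 (i sh : Nat) : Nat := Bool.rec (Nat.shiftRight leaf3288 sh) (s3289_3291 i sh) (Nat.ble 3289 i)
noncomputable def s3286_3291 (i sh : Nat) : Nat := Bool.rec (s3286_3288 i sh) (s3288_3291 i sh) (Nat.ble 3288 i)
noncomputable def s3291_3293 (i sh : Nat) : Nat := Bool.rec (Nat.shiftRight leaf3291 sh) (Nat.shiftRight leaf3292 sh) (Nat.ble 3292 i)
noncomputable def s3294_3296 (i sh : Nat) : Nat := Bool.rec (Nat.shiftRight leaf3294 sh) (Nat.shiftRight leaf3295 sh) (Nat.ble 3295 i)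
noncomputable def s3293_3296 (i sh : Nat) : Nat := Bool.rec (Nat.shiftRight leaf3293 sh) (s3294_3296 i sh) (Nat.ble 3294 i)
noncomputable def s3291_3296 (i sh : Nat) : Nat := Bool.rec (s3291_3293 i sh) (s3293_3296 i sh) (Nat.ble 3293 i)
noncomputable def s3286_3296 (i sh : Nat) : Nat := Bool.rec (s3286_3291 i sh) (s3291_3296 i sh) (Nat.ble 3291 i)
noncomputable def s3296_3298 (i sh : Nat) : Nat := Bool.rec (Nat.shiftRight leaf3296 sh) (Nat.shiftRight leaf3297 sh) (Nat.ble 3297 i)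
noncomputable def s3299_3301 (i sh : Nat) : Nat := Bool.rec (Nat.shiftRight leaf3299 sh) (Nat.shiftRight leaf3300 sh) (Nat.ble 3300 i)
noncomputable def s3298_3301 (i sh : Nat) : Nat := Bool.rec (Nat.shiftRight leaf3298 sh) (s3299_3301 i sh) (Nat.ble 3299 i)
noncomputable def s3296_3301 (i sh : Nat) : Nat := Bool.rec (s3296_3298 i sh) (s3298_3301 i sh) (Nat.ble 3298 i)
noncomputable def s3301_3303 (i sh : Nat) : Nat := Bool.rec (Nat.shiftRight leaf3301 sh) (Nat.shiftRight leaf3302 sh) (Nat.ble 3302 i)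
noncomputable def s3304_3306 (i sh : Nat) : Nat := Bool.rec (Nat.shiftRight leaf3304 sh) (Nat.shiftRight leaf3305 sh) (Nat.ble 3305 i)
noncomputable def s3303_3306 (i sh : Nat) : Nat := Bool.rec (Nat.shiftRight leaf3303 sh) (s3304_3306 i sh) (Nat.ble 3304 i)
noncomputable def s3301_3306 (i sh : Nat) : Nat := Bool.rec (s3301_3303 i sh) (s3303_3306 i sh) (Nat.ble 3303 i)
noncomputable def s3296_3306 (i sh : Nat) : Nat := Bool.rec (s3296_3301 i sh) (s3301_3306 i sh) (Nat.ble 3301 i)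
noncomputable def s3286_3306 (i sh : Nat) : Nat := Bool.rec (s3286_3296 i sh) (s3296_3306 i sh) (Nat.ble 3296 i)
noncomputable def s3266_3306 (i sh : Nat) : Nat := Bool.rec (s3266_3286 i sh) (s3286_3306 i sh) (Nat.ble 3286 i)
noncomputable def s3226_3306 (i sh : Nat) : Nat := Bool.rec (s3226_3266 i sh) (s3266_3306 i sh) (Nat.ble 3266 i)
noncomputable def s3306_3308 (i sh : Nat) : Nat := Bool.rec (Nat.shiftRight leaf3306 sh) (Nat.shiftRight leaf3307 sh) (Nat.ble 3307 i)
noncomputable def s3309_3311 (i sh : Nat) : Nat := Bool.rec (Nat.shiftRight leaf3309 sh) (Nat.shiftRight leaf3310 sh) (Nat.ble 3310 i)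
noncomputable def s3308_3311 (i sh : Nat) : Nat := Bool.rec (Nat.shiftRight leaf3308 sh) (s3309_3311 i sh) (Nat.ble 3309 i)
noncomputable def s3306_3311 (i sh : Nat) : Nat := Bool.rec (s3306_3308 i sh) (s3308_3311 i sh) (Nat.ble 3308 i)
noncomputable def s3311_3313 (i sh : Nat) : Nat := Bool.rec (Nat.shiftRight leaf3311 sh) (Nat.shiftRight leaf3312 sh) (Nat.ble 3312 i)
noncomputable def s3314_3316 (i sh : Nat) : Nat := Bool.rec (Nat.shiftRight leaf3314 sh) (Nat.shiftRight leaf3315 sh) (Nat.ble 3315 i)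
noncomputable def s3313_3316 (i sh : Nat) : Nat := Bool.rec (Nat.shiftRight leaf3313 sh) (s3314_3316 i sh) (Nat.ble 3314 i)
noncomputable def s3311_3316 (i sh : Nat) : Nat := Bool.rec (s3311_3313 i sh) (s3313_3316 i sh) (Nat.ble 3313 i)
noncomputable def s3306_3316 (i sh : Nat) : Nat := Bool.rec (s3306_3311 i sh) (s3311_3316 i sh) (Nat.ble 3311 i)
noncomputable def s3316_3318 (i sh : Nat) : Nat := Bool.rec (Nat.shiftRight leaf3316 sh) (Nat.shiftRight leaf3317 sh) (Nat.ble 3317 i)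
noncomputable def s3319_3321 (i sh : Nat) : Nat := Bool.rec (Nat.shiftRight leaf3319 sh) (Nat.shiftRight leaf3320 sh) (Nat.ble 3320 i)
noncomputable def s3318_3321 (i sh : Nat) : Nat := Bool.rec (Nat.shiftRight leaf3318 sh) (s3319_3321 i sh) (Nat.ble 3319 i)
noncomputable def s3316_3321 (i sh : Nat) : Nat := Bool.rec (s3316_3318 i sh) (s3318_3321 i sh) (Nat.ble 3318 i)
noncomputable def s3321_3323 (i sh : Nat) : Nat := Bool.rec (Nat.shiftRight leaf3321 sh) (Nat.shiftRight leaf3322 sh) (Nat.ble 3322 i)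
noncomputable def s3324_3326 (i sh : Nat) : Nat := Bool.rec (Nat.shiftRight leaf3324 sh) (Nat.shiftRight leaf3325 sh) (Nat.ble 3325 i)
noncomputable def s3323_3326 (i sh : Nat) : Nat := Bool.rec (Nat.shiftRight leaf3323 sh) (s3324_3326 i sh) (Nat.ble 3324 i)
noncomputable def s3321_3326 (i sh : Nat) : Nat := Bool.rec (s3321_3323 i sh) (s3323_3326 i sh) (Nat.ble 3323 i)
noncomputable def s3316_3326 (i sh : Nat) : Nat := Bool.rec (s3316_3321 i sh) (s3321_3326 i sh) (Nat.ble 3321 i)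
noncomputable def s3306_3326 (i sh : Nat) : Nat := Bool.rec (s3306_3316 i sh) (s3316_3326 i sh) (Nat.ble 3316 i)
noncomputable def s3326_3328 (i sh : Nat) : Nat := Bool.rec (Nat.shiftRight leaf3326 sh) (Nat.shiftRight leaf3327 sh) (Nat.ble 3327 i)
noncomputable def s3329_3331 (i sh : Nat) : Nat := Bool.rec (Nat.shiftRight leaf3329 sh) (Nat.shiftRight leaf3330 sh) (Nat.ble 3330 i)
noncomputable def s3328_3331 (i sh : Nat) : Nat := Bool.rec (Nat.shiftRight leaf3328 sh) (s3329_3331 i sh) (Nat.ble 3329 i)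
noncomputable def s3326_3331 (i sh : Nat) : Nat := Bool.rec (s3326_3328 i sh) (s3328_3331 i sh) (Nat.ble 3328 i)
noncomputable def s3331_3333 (i sh : Nat) : Nat := Bool.rec (Nat.shiftRight leaf3331 sh) (Nat.shiftRight leaf3332 sh) (Nat.ble 3332 i)
noncomputable def s3334_3336 (i sh : Nat) : Nat := Bool.rec (Nat.shiftRight leaf3334 sh) (Nat.shiftRight leaf3335 sh) (Nat.ble 3335 i)
noncomputable def s3333_3336 (i sh : Nat) : Nat := Bool.rec (Nat.shiftRight leaf3333 sh) (s3334_3336 i sh) (Nat.ble 3334 i)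
noncomputable def s3331_3336 (i sh : Nat) : Nat := Bool.rec (s3331_3333 i sh) (s3333_3336 i sh) (Nat.ble 3333 i)
noncomputable def s3326_3336 (i sh : Nat) : Nat := Bool.rec (s3326_3331 i sh) (s3331_3336 i sh) (Nat.ble 3331 i)
noncomputable def s3336_3338 (i sh : Nat) : Nat := Bool.rec (Nat.shiftRight leaf3336 sh) (Nat.shiftRight leaf3337 sh) (Nat.ble 3337 i)
noncomputable def s3339_3341 (i sh : Nat) : Nat := Bool.rec (Nat.shiftRight leaf3339 sh) (Nat.shiftRight leaf3340 sh) (Nat.ble 3340 i)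
noncomputable def s3338_3341 (i sh : Nat) : Nat := Bool.rec (Nat.shiftRight leaf3338 sh) (s3339_3341 i sh) (Nat.ble 3339 i)
noncomputable def s3336_3341 (i sh : Nat) : Nat := Bool.rec (s3336_3338 i sh) (s3338_3341 i sh) (Nat.ble 3338 i)
noncomputable def s3341_3343 (i sh : Nat) : Nat := Bool.rec (Nat.shiftRight leaf3341 sh) (Nat.shiftRight leaf3342 sh) (Nat.ble 3342 i)
noncomputable def s3344_3346 (i sh : Nat) : Nat := Bool.rec (Nat.shiftRight leaf3344 sh) (Nat.shiftRight leaf3345 sh) (Nat.ble 3345 i)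
noncomputable def s3343_3346 (i sh : Nat) : Nat := Bool.rec (Nat.shiftRight leaf3343 sh) (s3344_3346 i sh) (Nat.ble 3344 i)
noncomputable def s3341_3346 (i sh : Nat) : Nat := Bool.rec (s3341_3343 i sh) (s3343_3346 i sh) (Nat.ble 3343 i)
noncomputable def s3336_3346 (i sh : Nat) : Nat := Bool.rec (s3336_3341 i sh) (s3341_3346 i sh) (Nat.ble 3341 i)
noncomputable def s3326_3346 (i sh : Nat) : Nat := Bool.rec (s3326_3336 i sh) (s3336_3346 i sh) (Nat.ble 3336 i)
noncomputable def s3306_3346 (i sh : Nat) : Nat := Bool.rec (s3306_3326 i sh) (s3326_3346 i sh) (Nat.ble 3326 i)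
noncomputable def s3346_3348 (i sh : Nat) : Nat := Bool.rec (Nat.shiftRight leaf3346 sh) (Nat.shiftRight leaf3347 sh) (Nat.ble 3347 i)
noncomputable def s3349_3351 (i sh : Nat) : Nat := Bool.rec (Nat.shiftRight leaf3349 sh) (Nat.shiftRight leaf3350 sh) (Nat.ble 3350 i)
noncomputable def s3348_3351 (i sh : Nat) : Nat := Bool.rec (Nat.shiftRight leaf3348 sh) (s3349_3351 i sh) (Nat.ble 3349 i)
noncomputable def s3346_3351 (i sh : Nat) : Nat := Bool.rec (s3346_3348 i sh) (s3348_3351 i sh) (Nat.ble 3348 i)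
noncomputable def s3351_3353 (i sh : Nat) : Nat := Bool.rec (Nat.shiftRight leaf3351 sh) (Nat.shiftRight leaf3352 sh) (Nat.ble 3352 i)
noncomputable def s3354_3356 (i sh : Nat) : Nat := Bool.rec (Nat.shiftRight leaf3354 sh) (Nat.shiftRight leaf3355 sh) (Nat.ble 3355 i)
noncomputable def s3353_3356 (i sh : Nat) : Nat := Bool.rec (Nat.shiftRight leaf3353 sh) (s3354_3356 i sh) (Nat.ble 3354 i)
noncomputable def s3351_3356 (i sh : Nat) : Nat := Bool.rec (s3351_3353 i sh) (s3353_3356 i sh) (Nat.ble 3353 i)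
noncomputable def s3346_3356 (i sh : Nat) : Nat := Bool.rec (s3346_3351 i sh) (s3351_3356 i sh) (Nat.ble 3351 i)
noncomputable def s3356_3358 (i sh : Nat) : Nat := Bool.rec (Nat.shiftRight leaf3356 sh) (Nat.shiftRight leaf3357 sh) (Nat.ble 3357 i)
noncomputable def s3359_3361 (i sh : Nat) : Nat := Bool.rec (Nat.shiftRight leaf3359 sh) (Nat.shiftRight leaf3360 sh) (Nat.ble 3360 i)
noncomputable def s3358_3361 (i sh : Nat) : Nat := Bool.rec (Nat.shiftRight leaf3358 sh) (s3359_3361 i sh) (Nat.ble 3359 i)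
noncomputable def s3356_3361 (i sh : Nat) : Nat := Bool.rec (s3356_3358 i sh) (s3358_3361 i sh) (Nat.ble 3358 i)
noncomputable def s3361_3363 (i sh : Nat) : Nat := Bool.rec (Nat.shiftRight leaf3361 sh) (Nat.shiftRight leaf3362 sh) (Nat.ble 3362 i)
noncomputable def s3364_3366 (i sh : Nat) : Nat := Bool.rec (Nat.shiftRight leaf3364 sh) (Nat.shiftRight leaf3365 sh) (Nat.ble 3365 i)
noncomputable def s3363_3366 (i sh : Nat) : Nat := Bool.rec (Nat.shiftRight leaf3363 sh) (s3364_3366 i sh) (Nat.ble 3364 i)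
noncomputable def s3361_3366 (i sh : Nat) : Nat := Bool.rec (s3361_3363 i sh) (s3363_3366 i sh) (Nat.ble 3363 i)
noncomputable def s3356_3366 (i sh : Nat) : Nat := Bool.rec (s3356_3361 i sh) (s3361_3366 i sh) (Nat.ble 3361 i)
noncomputable def s3346_3366 (i sh : Nat) : Nat := Bool.rec (s3346_3356 i sh) (s3356_3366 i sh) (Nat.ble 3356 i)
noncomputable def s3366_3368 (i sh : Nat) : Nat := Bool.rec (Nat.shiftRight leaf3366 sh) (Nat.shiftRight leaf3367 sh) (Nat.ble 3367 i)
noncomputable def s3369_3371 (i sh : Nat) : Nat := Bool.rec (Nat.shiftRight leaf3369 sh) (Nat.shiftRight leaf3370 sh) (Nat.ble 3370 i)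
noncomputable def s3368_3371 (i sh : Nat) : Nat := Bool.rec (Nat.shiftRight leaf3368 sh) (s3369_3371 i sh) (Nat.ble 3369 i)
noncomputable def s3366_3371 (i sh : Nat) : Nat := Bool.rec (s3366_3368 i sh) (s3368_3371 i sh) (Nat.ble 3368 i)
noncomputable def s3371_3373 (i sh : Nat) : Nat := Bool.rec (Nat.shiftRight leaf3371 sh) (Nat.shiftRight leaf3372 sh) (Nat.ble 3372 i)
noncomputable def s3374_3376 (i sh : Nat) : Nat := Bool.rec (Nat.shiftRight leaf3374 sh) (Nat.shiftRight leaf3375 sh) (Nat.ble 3375 i)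
noncomputable def s3373_3376 (i sh : Nat) : Nat := Bool.rec (Nat.shiftRight leaf3373 sh) (s3374_3376 i sh) (Nat.ble 3374 i)
noncomputable def s3371_3376 (i sh : Nat) : Nat := Bool.rec (s3371_3373 i sh) (s3373_3376 i sh) (Nat.ble 3373 i)
noncomputable def s3366_3376 (i sh : Nat) : Nat := Bool.rec (s3366_3371 i sh) (s3371_3376 i sh) (Nat.ble 3371 i)
noncomputable def s3376_3378 (i sh : Nat) : Nat := Bool.rec (Nat.shiftRight leaf3376 sh) (Nat.shiftRight leaf3377 sh) (Nat.ble 3377 i)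
noncomputable def s3379_3381 (i sh : Nat) : Nat := Bool.rec (Nat.shiftRight leaf3379 sh) (Nat.shiftRight leaf3380 sh) (Nat.ble 3380 i)
noncomputable def s3378_3381 (i sh : Nat) : Nat := Bool.rec (Nat.shiftRight leaf3378 sh) (s3379_3381 i sh) (Nat.ble 3379 i)
noncomputable def s3376_3381 (i sh : Nat) : Nat := Bool.rec (s3376_3378 i sh) (s3378_3381 i sh) (Nat.ble 3378 i)
noncomputable def s3382_3384 (i sh : Nat) : Nat := Bool.rec (Nat.shiftRight leaf3382 sh) (Nat.shiftRight leaf3383 sh) (Nat.ble 3383 i)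
noncomputable def s3381_3384 (i sh : Nat) : Nat := Bool.rec (Nat.shiftRight leaf3381 sh) (s3382_3384 i sh) (Nat.ble 3382 i)
noncomputable def s3385_3387 (i sh : Nat) : Nat := Bool.rec (Nat.shiftRight leaf3385 sh) (Nat.shiftRight leaf3386 sh) (Nat.ble 3386 i)
noncomputable def s3384_3387 (i sh : Nat) : Nat := Bool.rec (Nat.shiftRight leaf3384 sh) (s3385_3387 i sh) (Nat.ble 3385 i)
noncomputable def s3381_3387 (i sh : Nat) : Nat := Bool.rec (s3381_3384 i sh) (s3384_3387 i sh) (Nat.ble 3384 i)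
noncomputable def s3376_3387 (i sh : Nat) : Nat := Bool.rec (s3376_3381 i sh) (s3381_3387 i sh) (Nat.ble 3381 i)
noncomputable def s3366_3387 (i sh : Nat) : Nat := Bool.rec (s3366_3376 i sh) (s3376_3387 i sh) (Nat.ble 3376 i)
noncomputable def s3346_3387 (i sh : Nat) : Nat := Bool.rec (s3346_3366 i sh) (s3366_3387 i sh) (Nat.ble 3366 i)
noncomputable def s3306_3387 (i sh : Nat) : Nat := Bool.rec (s3306_3346 i sh) (s3346_3387 i sh) (Nat.ble 3346 i)
noncomputable def s3226_3387 (i sh : Nat) : Nat := Bool.rec (s3226_3306 i sh) (s3306_3387 i sh) (Nat.ble 3306 i)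
noncomputable def s3387_3389 (i sh : Nat) : Nat := Bool.rec (Nat.shiftRight leaf3387 sh) (Nat.shiftRight leaf3388 sh) (Nat.ble 3388 i)
noncomputable def s3390_3392 (i sh : Nat) : Nat := Bool.rec (Nat.shiftRight leaf3390 sh) (Nat.shiftRight leaf3391 sh) (Nat.ble 3391 i)
noncomputable def s3389_3392 (i sh : Nat) : Nat := Bool.rec (Nat.shiftRight leaf3389 sh) (s3390_3392 i sh) (Nat.ble 3390 i)
noncomputable def s3387_3392 (i sh : Nat) : Nat := Bool.rec (s3387_3389 i sh) (s3389_3392 i sh) (Nat.ble 3389 i)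
noncomputable def s3392_3394 (i sh : Nat) : Nat := Bool.rec (Nat.shiftRight leaf3392 sh) (Nat.shiftRight leaf3393 sh) (Nat.ble 3393 i)
noncomputable def s3395_3397 (i sh : Nat) : Nat := Bool.rec (Nat.shiftRight leaf3395 sh) (Nat.shiftRight leaf3396 sh) (Nat.ble 3396 i)
noncomputable def s3394_3397 (i sh : Nat) : Nat := Bool.rec (Nat.shiftRight leaf3394 sh) (s3395_3397 i sh) (Nat.ble 3395 i)
noncomputable def s3392_3397 (i sh : Nat) : Nat := Bool.rec (s3392_3394 i sh) (s3394_3397 i sh) (Nat.ble 3394 i)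
noncomputable def s3387_3397 (i sh : Nat) : Nat := Bool.rec (s3387_3392 i sh) (s3392_3397 i sh) (Nat.ble 3392 i)
noncomputable def s3397_3399 (i sh : Nat) : Nat := Bool.rec (Nat.shiftRight leaf3397 sh) (Nat.shiftRight leaf3398 sh) (Nat.ble 3398 i)
noncomputable def s3400_3402 (i sh : Nat) : Nat := Bool.rec (Nat.shiftRight leaf3400 sh) (Nat.shiftRight leaf3401 sh) (Nat.ble 3401 i)
noncomputable def s3399_3402 (i sh : Nat) : Nat := Bool.rec (Nat.shiftRight leaf3399 sh) (s3400_3402 i sh) (Nat.ble 3400 i)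
noncomputable def s3397_3402 (i sh : Nat) : Nat := Bool.rec (s3397_3399 i sh) (s3399_3402 i sh) (Nat.ble 3399 i)
noncomputable def s3402_3404 (i sh : Nat) : Nat := Bool.rec (Nat.shiftRight leaf3402 sh) (Nat.shiftRight leaf3403 sh) (Nat.ble 3403 i)
noncomputable def s3405_3407 (i sh : Nat) : Nat := Bool.rec (Nat.shiftRight leaf3405 sh) (Nat.shiftRight leaf3406 sh) (Nat.ble 3406 i)
noncomputable def s3404_3407 (i sh : Nat) : Nat := Bool.rec (Nat.shiftRight leaf3404 sh) (s3405_3407 i sh) (Nat.ble 3405 i)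
noncomputable def s3402_3407 (i sh : Nat) : Nat := Bool.rec (s3402_3404 i sh) (s3404_3407 i sh) (Nat.ble 3404 i)
noncomputable def s3397_3407 (i sh : Nat) : Nat := Bool.rec (s3397_3402 i sh) (s3402_3407 i sh) (Nat.ble 3402 i)
noncomputable def s3387_3407 (i sh : Nat) : Nat := Bool.rec (s3387_3397 i sh) (s3397_3407 i sh) (Nat.ble 3397 i)
noncomputable def s3407_3409 (i sh : Nat) : Nat := Bool.rec (Nat.shiftRight leaf3407 sh) (Nat.shiftRight leaf3408 sh) (Nat.ble 3408 i)
noncomputable def s3410_3412 (i sh : Nat) : Nat := Bool.rec (Nat.shiftRight leaf3410 sh) (Nat.shiftRight leaf3411 sh) (Nat.ble 3411 i)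
noncomputable def s3409_3412 (i sh : Nat) : Nat := Bool.rec (Nat.shiftRight leaf3409 sh) (s3410_3412 i sh) (Nat.ble 3410 i)
noncomputable def s3407_3412 (i sh : Nat) : Nat := Bool.rec (s3407_3409 i sh) (s3409_3412 i sh) (Nat.ble 3409 i)
noncomputable def s3412_3414 (i sh : Nat) : Nat := Bool.rec (Nat.shiftRight leaf3412 sh) (Nat.shiftRight leaf3413 sh) (Nat.ble 3413 i)
noncomputable def s3415_3417 (i sh : Nat) : Nat := Bool.rec (Nat.shiftRight leaf3415 sh) (Nat.shiftRight leaf3416 sh) (Nat.ble 3416 i)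
noncomputable def s3414_3417 (i sh : Nat) : Nat := Bool.rec (Nat.shiftRight leaf3414 sh) (s3415_3417 i sh) (Nat.ble 3415 i)
noncomputable def s3412_3417 (i sh : Nat) : Nat := Bool.rec (s3412_3414 i sh) (s3414_3417 i sh) (Nat.ble 3414 i)
noncomputable def s3407_3417 (i sh : Nat) : Nat := Bool.rec (s3407_3412 i sh) (s3412_3417 i sh) (Nat.ble 3412 i)
noncomputable def s3417_3419 (i sh : Nat) : Nat := Bool.rec (Nat.shiftRight leaf3417 sh) (Nat.shiftRight leaf3418 sh) (Nat.ble 3418 i)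
noncomputable def s3420_3422 (i sh : Nat) : Nat := Bool.rec (Nat.shiftRight leaf3420 sh) (Nat.shiftRight leaf3421 sh) (Nat.ble 3421 i)
noncomputable def s3419_3422 (i sh : Nat) : Nat := Bool.rec (Nat.shiftRight leaf3419 sh) (s3420_3422 i sh) (Nat.ble 3420 i)
noncomputable def s3417_3422 (i sh : Nat) : Nat := Bool.rec (s3417_3419 i sh) (s3419_3422 i sh) (Nat.ble 3419 i)
noncomputable def s3422_3424 (i sh : Nat) : Nat := Bool.rec (Nat.shiftRight leaf3422 sh) (Nat.shiftRight leaf3423 sh) (Nat.ble 3423 i)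
noncomputable def s3425_3427 (i sh : Nat) : Nat := Bool.rec (Nat.shiftRight leaf3425 sh) (Nat.shiftRight leaf3426 sh) (Nat.ble 3426 i)
noncomputable def s3424_3427 (i sh : Nat) : Nat := Bool.rec (Nat.shiftRight leaf3424 sh) (s3425_3427 i sh) (Nat.ble 3425 i)
noncomputable def s3422_3427 (i sh : Nat) : Nat := Bool.rec (s3422_3424 i sh) (s3424_3427 i sh) (Nat.ble 3424 i)
noncomputable def s3417_3427 (i sh : Nat) : Nat := Bool.rec (s3417_3422 i sh) (s3422_3427 i sh) (Nat.ble 3422 i)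
noncomputable def s3407_3427 (i sh : Nat) : Nat := Bool.rec (s3407_3417 i sh) (s3417_3427 i sh) (Nat.ble 3417 i)
noncomputable def s3387_3427 (i sh : Nat) : Nat := Bool.rec (s3387_3407 i sh) (s3407_3427 i sh) (Nat.ble 3407 i)
noncomputable def s3427_3429 (i sh : Nat) : Nat := Bool.rec (Nat.shiftRight leaf3427 sh) (Nat.shiftRight leaf3428 sh) (Nat.ble 3428 i)
noncomputable def s3430_3432 (i sh : Nat) : Nat := Bool.rec (Nat.shiftRight leaf3430 sh) (Nat.shiftRight leaf3431 sh) (Nat.ble 3431 i)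
noncomputable def s3429_3432 (i sh : Nat) : Nat := Bool.rec (Nat.shiftRight leaf3429 sh) (s3430_3432 i sh) (Nat.ble 3430 i)
noncomputable def s3427_3432 (i sh : Nat) : Nat := Bool.rec (s3427_3429 i sh) (s3429_3432 i sh) (Nat.ble 3429 i)
noncomputable def s3432_3434 (i sh : Nat) : Nat := Bool.rec (Nat.shiftRight leaf3432 sh) (Nat.shiftRight leaf3433 sh) (Nat.ble 3433 i)
noncomputable def s3435_3437 (i sh : Nat) : Nat := Bool.rec (Nat.shiftRight leaf3435 sh) (Nat.shiftRight leaf3436 sh) (Nat.ble 3436 i)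
noncomputable def s3434_3437 (i sh : Nat) : Nat := Bool.rec (Nat.shiftRight leaf3434 sh) (s3435_3437 i sh) (Nat.ble 3435 i)
noncomputable def s3432_3437 (i sh : Nat) : Nat := Bool.rec (s3432_3434 i sh) (s3434_3437 i sh) (Nat.ble 3434 i)
noncomputable def s3427_3437 (i sh : Nat) : Nat := Bool.rec (s3427_3432 i sh) (s3432_3437 i sh) (Nat.ble 3432 i)
noncomputable def s3437_3439 (i sh : Nat) : Nat := Bool.rec (Nat.shiftRight leaf3437 sh) (Nat.shiftRight leaf3438 sh) (Nat.ble 3438 i)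
noncomputable def s3440_3442 (i sh : Nat) : Nat := Bool.rec (Nat.shiftRight leaf3440 sh) (Nat.shiftRight leaf3441 sh) (Nat.ble 3441 i)
noncomputable def s3439_3442 (i sh : Nat) : Nat := Bool.rec (Nat.shiftRight leaf3439 sh) (s3440_3442 i sh) (Nat.ble 3440 i)
noncomputable def s3437_3442 (i sh : Nat) : Nat := Bool.rec (s3437_3439 i sh) (s3439_3442 i sh) (Nat.ble 3439 i)
noncomputable def s3442_3444 (i sh : Nat) : Nat := Bool.rec (Nat.shiftRight leaf3442 sh) (Nat.shiftRight leaf3443 sh) (Nat.ble 3443 i)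
noncomputable def s3445_3447 (i sh : Nat) : Nat := Bool.rec (Nat.shiftRight leaf3445 sh) (Nat.shiftRight leaf3446 sh) (Nat.ble 3446 i)
noncomputable def s3444_3447 (i sh : Nat) : Nat := Bool.rec (Nat.shiftRight leaf3444 sh) (s3445_3447 i sh) (Nat.ble 3445 i)
noncomputable def s3442_3447 (i sh : Nat) : Nat := Bool.rec (s3442_3444 i sh) (s3444_3447 i sh) (Nat.ble 3444 i)
noncomputable def s3437_3447 (i sh : Nat) : Nat := Bool.rec (s3437_3442 i sh) (s3442_3447 i sh) (Nat.ble 3442 i)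
noncomputable def s3427_3447 (i sh : Nat) : Nat := Bool.rec (s3427_3437 i sh) (s3437_3447 i sh) (Nat.ble 3437 i)
noncomputable def s3447_3449 (i sh : Nat) : Nat := Bool.rec (Nat.shiftRight leaf3447 sh) (Nat.shiftRight leaf3448 sh) (Nat.ble 3448 i)
noncomputable def s3450_3452 (i sh : Nat) : Nat := Bool.rec (Nat.shiftRight leaf3450 sh) (Nat.shiftRight leaf3451 sh) (Nat.ble 3451 i)
noncomputable def s3449_3452 (i sh : Nat) : Nat := Bool.rec (Nat.shiftRight leaf3449 sh) (s3450_3452 i sh) (Nat.ble 3450 i)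
noncomputable def s3447_3452 (i sh : Nat) : Nat := Bool.rec (s3447_3449 i sh) (s3449_3452 i sh) (Nat.ble 3449 i)
noncomputable def s3452_3454 (i sh : Nat) : Nat := Bool.rec (Nat.shiftRight leaf3452 sh) (Nat.shiftRight leaf3453 sh) (Nat.ble 3453 i)
noncomputable def s3455_3457 (i sh : Nat) : Nat := Bool.rec (Nat.shiftRight leaf3455 sh) (Nat.shiftRight leaf3456 sh) (Nat.ble 3456 i)
noncomputable def s3454_3457 (i sh : Nat) : Nat := Bool.rec (Nat.shiftRight leaf3454 sh) (s3455_3457 i sh) (Nat.ble 3455 i)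
noncomputable def s3452_3457 (i sh : Nat) : Nat := Bool.rec (s3452_3454 i sh) (s3454_3457 i sh) (Nat.ble 3454 i)
noncomputable def s3447_3457 (i sh : Nat) : Nat := Bool.rec (s3447_3452 i sh) (s3452_3457 i sh) (Nat.ble 3452 i)
noncomputable def s3457_3459 (i sh : Nat) : Nat := Bool.rec (Nat.shiftRight leaf3457 sh) (Nat.shiftRight leaf3458 sh) (Nat.ble 3458 i)
noncomputable def s3460_3462 (i sh : Nat) : Nat := Bool.rec (Nat.shiftRight leaf3460 sh) (Nat.shiftRight leaf3461 sh) (Nat.ble 3461 i)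
noncomputable def s3459_3462 (i sh : Nat) : Nat := Bool.rec (Nat.shiftRight leaf3459 sh) (s3460_3462 i sh) (Nat.ble 3460 i)
noncomputable def s3457_3462 (i sh : Nat) : Nat := Bool.rec (s3457_3459 i sh) (s3459_3462 i sh) (Nat.ble 3459 i)
noncomputable def s3463_3465 (i sh : Nat) : Nat := Bool.rec (Nat.shiftRight leaf3463 sh) (Nat.shiftRight leaf3464 sh) (Nat.ble 3464 i)
noncomputable def s3462_3465 (i sh : Nat) : Nat := Bool.rec (Nat.shiftRight leaf3462 sh) (s3463_3465 i sh) (Nat.ble 3463 i)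
noncomputable def s3466_3468 (i sh : Nat) : Nat := Bool.rec (Nat.shiftRight leaf3466 sh) (Nat.shiftRight leaf3467 sh) (Nat.ble 3467 i)
noncomputable def s3465_3468 (i sh : Nat) : Nat := Bool.rec (Nat.shiftRight leaf3465 sh) (s3466_3468 i sh) (Nat.ble 3466 i)
noncomputable def s3462_3468 (i sh : Nat) : Nat := Bool.rec (s3462_3465 i sh) (s3465_3468 i sh) (Nat.ble 3465 i)
noncomputable def s3457_3468 (i sh : Nat) : Nat := Bool.rec (s3457_3462 i sh) (s3462_3468 i sh) (Nat.ble 3462 i)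
noncomputable def s3447_3468 (i sh : Nat) : Nat := Bool.rec (s3447_3457 i sh) (s3457_3468 i sh) (Nat.ble 3457 i)
noncomputable def s3427_3468 (i sh : Nat) : Nat := Bool.rec (s3427_3447 i sh) (s3447_3468 i sh) (Nat.ble 3447 i)
noncomputable def s3387_3468 (i sh : Nat) : Nat := Bool.rec (s3387_3427 i sh) (s3427_3468 i sh) (Nat.ble 3427 i)
noncomputable def s3468_3470 (i sh : Nat) : Nat := Bool.rec (Nat.shiftRight leaf3468 sh) (Nat.shiftRight leaf3469 sh) (Nat.ble 3469 i)
noncomputable def s3471_3473 (i sh : Nat) : Nat := Bool.rec (Nat.shiftRight leaf3471 sh) (Nat.shiftRight leaf3472 sh) (Nat.ble 3472 i)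
noncomputable def s3470_3473 (i sh : Nat) : Nat := Bool.rec (Nat.shiftRight leaf3470 sh) (s3471_3473 i sh) (Nat.ble 3471 i)
noncomputable def s3468_3473 (i sh : Nat) : Nat := Bool.rec (s3468_3470 i sh) (s3470_3473 i sh) (Nat.ble 3470 i)
noncomputable def s3473_3475 (i sh : Nat) : Nat := Bool.rec (Nat.shiftRight leaf3473 sh) (Nat.shiftRight leaf3474 sh) (Nat.ble 3474 i)
noncomputable def s3476_3478 (i sh : Nat) : Nat := Bool.rec (Nat.shiftRight leaf3476 sh) (Nat.shiftRight leaf3477 sh) (Nat.ble 3477 i)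
noncomputable def s3475_3478 (i sh : Nat) : Nat := Bool.rec (Nat.shiftRight leaf3475 sh) (s3476_3478 i sh) (Nat.ble 3476 i)
noncomputable def s3473_3478 (i sh : Nat) : Nat := Bool.rec (s3473_3475 i sh) (s3475_3478 i sh) (Nat.ble 3475 i)
noncomputable def s3468_3478 (i sh : Nat) : Nat := Bool.rec (s3468_3473 i sh) (s3473_3478 i sh) (Nat.ble 3473 i)
noncomputable def s3478_3480 (i sh : Nat) : Nat := Bool.rec (Nat.shiftRight leaf3478 sh) (Nat.shiftRight leaf3479 sh) (Nat.ble 3479 i)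
noncomputable def s3481_3483 (i sh : Nat) : Nat := Bool.rec (Nat.shiftRight leaf3481 sh) (Nat.shiftRight leaf3482 sh) (Nat.ble 3482 i)
noncomputable def s3480_3483 (i sh : Nat) : Nat := Bool.rec (Nat.shiftRight leaf3480 sh) (s3481_3483 i sh) (Nat.ble 3481 i)
noncomputable def s3478_3483 (i sh : Nat) : Nat := Bool.rec (s3478_3480 i sh) (s3480_3483 i sh) (Nat.ble 3480 i)
noncomputable def s3483_3485 (i sh : Nat) : Nat := Bool.rec (Nat.shiftRight leaf3483 sh) (Nat.shiftRight leaf3484 sh) (Nat.ble 3484 i)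
noncomputable def s3486_3488 (i sh : Nat) : Nat := Bool.rec (Nat.shiftRight leaf3486 sh) (Nat.shiftRight leaf3487 sh) (Nat.ble 3487 i)
noncomputable def s3485_3488 (i sh : Nat) : Nat := Bool.rec (Nat.shiftRight leaf3485 sh) (s3486_3488 i sh) (Nat.ble 3486 i)
noncomputable def s3483_3488 (i sh : Nat) : Nat := Bool.rec (s3483_3485 i sh) (s3485_3488 i sh) (Nat.ble 3485 i)
noncomputable def s3478_3488 (i sh : Nat) : Nat := Bool.rec (s3478_3483 i sh) (s3483_3488 i sh) (Nat.ble 3483 i)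
noncomputable def s3468_3488 (i sh : Nat) : Nat := Bool.rec (s3468_3478 i sh) (s3478_3488 i sh) (Nat.ble 3478 i)
noncomputable def s3488_3490 (i sh : Nat) : Nat := Bool.rec (Nat.shiftRight leaf3488 sh) (Nat.shiftRight leaf3489 sh) (Nat.ble 3489 i)
noncomputable def s3491_3493 (i sh : Nat) : Nat := Bool.rec (Nat.shiftRight leaf3491 sh) (Nat.shiftRight leaf3492 sh) (Nat.ble 3492 i)
noncomputable def s3490_3493 (i sh : Nat) : Nat := Bool.rec (Nat.shiftRight leaf3490 sh) (s3491_3493 i sh) (Nat.ble 3491 i)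
noncomputable def s3488_3493 (i sh : Nat) : Nat := Bool.rec (s3488_3490 i sh) (s3490_3493 i sh) (Nat.ble 3490 i)
noncomputable def s3493_3495 (i sh : Nat) : Nat := Bool.rec (Nat.shiftRight leaf3493 sh) (Nat.shiftRight leaf3494 sh) (Nat.ble 3494 i)
noncomputable def s3496_3498 (i sh : Nat) : Nat := Bool.rec (Nat.shiftRight leaf3496 sh) (Nat.shiftRight leaf3497 sh) (Nat.ble 3497 i)
noncomputable def s3495_3498 (i sh : Nat) : Nat := Bool.rec (Nat.shiftRight leaf3495 sh) (s3496_3498 i sh) (Nat.ble 3496 i)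
noncomputable def s3493_3498 (i sh : Nat) : Nat := Bool.rec (s3493_3495 i sh) (s3495_3498 i sh) (Nat.ble 3495 i)
noncomputable def s3488_3498 (i sh : Nat) : Nat := Bool.rec (s3488_3493 i sh) (s3493_3498 i sh) (Nat.ble 3493 i)
noncomputable def s3498_3500 (i sh : Nat) : Nat := Bool.rec (Nat.shiftRight leaf3498 sh) (Nat.shiftRight leaf3499 sh) (Nat.ble 3499 i)
noncomputable def s3501_3503 (i sh : Nat) : Nat := Bool.rec (Nat.shiftRight leaf3501 sh) (Nat.shiftRight leaf3502 sh) (Nat.ble 3502 i)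
noncomputable def s3500_3503 (i sh : Nat) : Nat := Bool.rec (Nat.shiftRight leaf3500 sh) (s3501_3503 i sh) (Nat.ble 3501 i)
noncomputable def s3498_3503 (i sh : Nat) : Nat := Bool.rec (s3498_3500 i sh) (s3500_3503 i sh) (Nat.ble 3500 i)
noncomputable def s3503_3505 (i sh : Nat) : Nat := Bool.rec (Nat.shiftRight leaf3503 sh) (Nat.shiftRight leaf3504 sh) (Nat.ble 3504 i)
noncomputable def s3506_3508 (i sh : Nat) : Nat := Bool.rec (Nat.shiftRight leaf3506 sh) (Nat.shiftRight leaf3507 sh) (Nat.ble 3507 i)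
noncomputable def s3505_3508 (i sh : Nat) : Nat := Bool.rec (Nat.shiftRight leaf3505 sh) (s3506_3508 i sh) (Nat.ble 3506 i)
noncomputable def s3503_3508 (i sh : Nat) : Nat := Bool.rec (s3503_3505 i sh) (s3505_3508 i sh) (Nat.ble 3505 i)
noncomputable def s3498_3508 (i sh : Nat) : Nat := Bool.rec (s3498_3503 i sh) (s3503_3508 i sh) (Nat.ble 3503 i)
noncomputable def s3488_3508 (i sh : Nat) : Nat := Bool.rec (s3488_3498 i sh) (s3498_3508 i sh) (Nat.ble 3498 i)
noncomputable def s3468_3508 (i sh : Nat) : Nat := Bool.rec (s3468_3488 i sh) (s3488_3508 i sh) (Nat.ble 3488 i)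
noncomputable def s3508_3510 (i sh : Nat) : Nat := Bool.rec (Nat.shiftRight leaf3508 sh) (Nat.shiftRight leaf3509 sh) (Nat.ble 3509 i)
noncomputable def s3511_3513 (i sh : Nat) : Nat := Bool.rec (Nat.shiftRight leaf3511 sh) (Nat.shiftRight leaf3512 sh) (Nat.ble 3512 i)
noncomputable def s3510_3513 (i sh : Nat) : Nat := Bool.rec (Nat.shiftRight leaf3510 sh) (s3511_3513 i sh) (Nat.ble 3511 i)
noncomputable def s3508_3513 (i sh : Nat) : Nat := Bool.rec (s3508_3510 i sh) (s3510_3513 i sh) (Nat.ble 3510 i)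
noncomputable def s3513_3515 (i sh : Nat) : Nat := Bool.rec (Nat.shiftRight leaf3513 sh) (Nat.shiftRight leaf3514 sh) (Nat.ble 3514 i)
noncomputable def s3516_3518 (i sh : Nat) : Nat := Bool.rec (Nat.shiftRight leaf3516 sh) (Nat.shiftRight leaf3517 sh) (Nat.ble 3517 i)
noncomputable def s3515_3518 (i sh : Nat) : Nat := Bool.rec (Nat.shiftRight leaf3515 sh) (s3516_3518 i sh) (Nat.ble 3516 i)
noncomputable def s3513_3518 (i sh : Nat) : Nat := Bool.rec (s3513_3515 i sh) (s3515_3518 i sh) (Nat.ble 3515 i)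
noncomputable def s3508_3518 (i sh : Nat) : Nat := Bool.rec (s3508_3513 i sh) (s3513_3518 i sh) (Nat.ble 3513 i)
noncomputable def s3518_3520 (i sh : Nat) : Nat := Bool.rec (Nat.shiftRight leaf3518 sh) (Nat.shiftRight leaf3519 sh) (Nat.ble 3519 i)
noncomputable def s3521_3523 (i sh : Nat) : Nat := Bool.rec (Nat.shiftRight leaf3521 sh) (Nat.shiftRight leaf3522 sh) (Nat.ble 3522 i)
noncomputable def s3520_3523 (i sh : Nat) : Nat := Bool.rec (Nat.shiftRight leaf3520 sh) (s3521_3523 i sh) (Nat.ble 3521 i)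
noncomputable def s3518_3523 (i sh : Nat) : Nat := Bool.rec (s3518_3520 i sh) (s3520_3523 i sh) (Nat.ble 3520 i)
noncomputable def s3523_3525 (i sh : Nat) : Nat := Bool.rec (Nat.shiftRight leaf3523 sh) (Nat.shiftRight leaf3524 sh) (Nat.ble 3524 i)
noncomputable def s3526_3528 (i sh : Nat) : Nat := Bool.rec (Nat.shiftRight leaf3526 sh) (Nat.shiftRight leaf3527 sh) (Nat.ble 3527 i)
noncomputable def s3525_3528 (i sh : Nat) : Nat := Bool.rec (Nat.shiftRight leaf3525 sh) (s3526_3528 i sh) (Nat.ble 3526 i)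
noncomputable def s3523_3528 (i sh : Nat) : Nat := Bool.rec (s3523_3525 i sh) (s3525_3528 i sh) (Nat.ble 3525 i)
noncomputable def s3518_3528 (i sh : Nat) : Nat := Bool.rec (s3518_3523 i sh) (s3523_3528 i sh) (Nat.ble 3523 i)
noncomputable def s3508_3528 (i sh : Nat) : Nat := Bool.rec (s3508_3518 i sh) (s3518_3528 i sh) (Nat.ble 3518 i)
noncomputable def s3528_3530 (i sh : Nat) : Nat := Bool.rec (Nat.shiftRight leaf3528 sh) (Nat.shiftRight leaf3529 sh) (Nat.ble 3529 i)
noncomputable def s3531_3533 (i sh : Nat) : Nat := Bool.rec (Nat.shiftRight leaf3531 sh) (Nat.shiftRight leaf3532 sh) (Nat.ble 3532 i)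
noncomputable def s3530_3533 (i sh : Nat) : Nat := Bool.rec (Nat.shiftRight leaf3530 sh) (s3531_3533 i sh) (Nat.ble 3531 i)
noncomputable def s3528_3533 (i sh : Nat) : Nat := Bool.rec (s3528_3530 i sh) (s3530_3533 i sh) (Nat.ble 3530 i)
noncomputable def s3533_3535 (i sh : Nat) : Nat := Bool.rec (Nat.shiftRight leaf3533 sh) (Nat.shiftRight leaf3534 sh) (Nat.ble 3534 i)
noncomputable def s3536_3538 (i sh : Nat) : Nat := Bool.rec (Nat.shiftRight leaf3536 sh) (Nat.shiftRight leaf3537 sh) (Nat.ble 3537 i)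
noncomputable def s3535_3538 (i sh : Nat) : Nat := Bool.rec (Nat.shiftRight leaf3535 sh) (s3536_3538 i sh) (Nat.ble 3536 i)
noncomputable def s3533_3538 (i sh : Nat) : Nat := Bool.rec (s3533_3535 i sh) (s3535_3538 i sh) (Nat.ble 3535 i)
noncomputable def s3528_3538 (i sh : Nat) : Nat := Bool.rec (s3528_3533 i sh) (s3533_3538 i sh) (Nat.ble 3533 i)
noncomputable def s3538_3540 (i sh : Nat) : Nat := Bool.rec (Nat.shiftRight leaf3538 sh) (Nat.shiftRight leaf3539 sh) (Nat.ble 3539 i)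
noncomputable def s3541_3543 (i sh : Nat) : Nat := Bool.rec (Nat.shiftRight leaf3541 sh) (Nat.shiftRight leaf3542 sh) (Nat.ble 3542 i)
noncomputable def s3540_3543 (i sh : Nat) : Nat := Bool.rec (Nat.shiftRight leaf3540 sh) (s3541_3543 i sh) (Nat.ble 3541 i)
noncomputable def s3538_3543 (i sh : Nat) : Nat := Bool.rec (s3538_3540 i sh) (s3540_3543 i sh) (Nat.ble 3540 i)
noncomputable def s3544_3546 (i sh : Nat) : Nat := Bool.rec (Nat.shiftRight leaf3544 sh) (Nat.shiftRight leaf3545 sh) (Nat.ble 3545 i)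
noncomputable def s3543_3546 (i sh : Nat) : Nat := Bool.rec (Nat.shiftRight leaf3543 sh) (s3544_3546 i sh) (Nat.ble 3544 i)
noncomputable def s3547_3549 (i sh : Nat) : Nat := Bool.rec (Nat.shiftRight leaf3547 sh) (Nat.shiftRight leaf3548 sh) (Nat.ble 3548 i)
noncomputable def s3546_3549 (i sh : Nat) : Nat := Bool.rec (Nat.shiftRight leaf3546 sh) (s3547_3549 i sh) (Nat.ble 3547 i)
noncomputable def s3543_3549 (i sh : Nat) : Nat := Bool.rec (s3543_3546 i sh) (s3546_3549 i sh) (Nat.ble 3546 i)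
noncomputable def s3538_3549 (i sh : Nat) : Nat := Bool.rec (s3538_3543 i sh) (s3543_3549 i sh) (Nat.ble 3543 i)
noncomputable def s3528_3549 (i sh : Nat) : Nat := Bool.rec (s3528_3538 i sh) (s3538_3549 i sh) (Nat.ble 3538 i)
noncomputable def s3508_3549 (i sh : Nat) : Nat := Bool.rec (s3508_3528 i sh) (s3528_3549 i sh) (Nat.ble 3528 i)
noncomputable def s3468_3549 (i sh : Nat) : Nat := Bool.rec (s3468_3508 i sh) (s3508_3549 i sh) (Nat.ble 3508 i)
noncomputable def s3387_3549 (i sh : Nat) : Nat := Bool.rec (s3387_3468 i sh) (s3468_3549 i sh) (Nat.ble 3468 i)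
noncomputable def s3226_3549 (i sh : Nat) : Nat := Bool.rec (s3226_3387 i sh) (s3387_3549 i sh) (Nat.ble 3387 i)
noncomputable def s3549_3551 (i sh : Nat) : Nat := Bool.rec (Nat.shiftRight leaf3549 sh) (Nat.shiftRight leaf3550 sh) (Nat.ble 3550 i)
noncomputable def s3552_3554 (i sh : Nat) : Nat := Bool.rec (Nat.shiftRight leaf3552 sh) (Nat.shiftRight leaf3553 sh) (Nat.ble 3553 i)
noncomputable def s3551_3554 (i sh : Nat) : Nat := Bool.rec (Nat.shiftRight leaf3551 sh) (s3552_3554 i sh) (Nat.ble 3552 i)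
noncomputable def s3549_3554 (i sh : Nat) : Nat := Bool.rec (s3549_3551 i sh) (s3551_3554 i sh) (Nat.ble 3551 i)
noncomputable def s3554_3556 (i sh : Nat) : Nat := Bool.rec (Nat.shiftRight leaf3554 sh) (Nat.shiftRight leaf3555 sh) (Nat.ble 3555 i)
noncomputable def s3557_3559 (i sh : Nat) : Nat := Bool.rec (Nat.shiftRight leaf3557 sh) (Nat.shiftRight leaf3558 sh) (Nat.ble 3558 i)
noncomputable def s3556_3559 (i sh : Nat) : Nat := Bool.rec (Nat.shiftRight leaf3556 sh) (s3557_3559 i sh) (Nat.ble 3557 i)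
noncomputable def s3554_3559 (i sh : Nat) : Nat := Bool.rec (s3554_3556 i sh) (s3556_3559 i sh) (Nat.ble 3556 i)
noncomputable def s3549_3559 (i sh : Nat) : Nat := Bool.rec (s3549_3554 i sh) (s3554_3559 i sh) (Nat.ble 3554 i)
noncomputable def s3559_3561 (i sh : Nat) : Nat := Bool.rec (Nat.shiftRight leaf3559 sh) (Nat.shiftRight leaf3560 sh) (Nat.ble 3560 i)
noncomputable def s3562_3564 (i sh : Nat) : Nat := Bool.rec (Nat.shiftRight leaf3562 sh) (Nat.shiftRight leaf3563 sh) (Nat.ble 3563 i)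
noncomputable def s3561_3564 (i sh : Nat) : Nat := Bool.rec (Nat.shiftRight leaf3561 sh) (s3562_3564 i sh) (Nat.ble 3562 i)
noncomputable def s3559_3564 (i sh : Nat) : Nat := Bool.rec (s3559_3561 i sh) (s3561_3564 i sh) (Nat.ble 3561 i)
noncomputable def s3564_3566 (i sh : Nat) : Nat := Bool.rec (Nat.shiftRight leaf3564 sh) (Nat.shiftRight leaf3565 sh) (Nat.ble 3565 i)
noncomputable def s3567_3569 (i sh : Nat) : Nat := Bool.rec (Nat.shiftRight leaf3567 sh) (Nat.shiftRight leaf3568 sh) (Nat.ble 3568 i)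
noncomputable def s3566_3569 (i sh : Nat) : Nat := Bool.rec (Nat.shiftRight leaf3566 sh) (s3567_3569 i sh) (Nat.ble 3567 i)
noncomputable def s3564_3569 (i sh : Nat) : Nat := Bool.rec (s3564_3566 i sh) (s3566_3569 i sh) (Nat.ble 3566 i)
noncomputable def s3559_3569 (i sh : Nat) : Nat := Bool.rec (s3559_3564 i sh) (s3564_3569 i sh) (Nat.ble 3564 i)
noncomputable def s3549_3569 (i sh : Nat) : Nat := Bool.rec (s3549_3559 i sh) (s3559_3569 i sh) (Nat.ble 3559 i)
noncomputable def s3569_3571 (i sh : Nat) : Nat := Bool.rec (Nat.shiftRight leaf3569 sh) (Nat.shiftRight leaf3570 sh) (Nat.ble 3570 i)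
noncomputable def s3572_3574 (i sh : Nat) : Nat := Bool.rec (Nat.shiftRight leaf3572 sh) (Nat.shiftRight leaf3573 sh) (Nat.ble 3573 i)
noncomputable def s3571_3574 (i sh : Nat) : Nat := Bool.rec (Nat.shiftRight leaf3571 sh) (s3572_3574 i sh) (Nat.ble 3572 i)
noncomputable def s3569_3574 (i sh : Nat) : Nat := Bool.rec (s3569_3571 i sh) (s3571_3574 i sh) (Nat.ble 3571 i)
noncomputable def s3574_3576 (i sh : Nat) : Nat := Bool.rec (Nat.shiftRight leaf3574 sh) (Nat.shiftRight leaf3575 sh) (Nat.ble 3575 i)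
noncomputable def s3577_3579 (i sh : Nat) : Nat := Bool.rec (Nat.shiftRight leaf3577 sh) (Nat.shiftRight leaf3578 sh) (Nat.ble 3578 i)
noncomputable def s3576_3579 (i sh : Nat) : Nat := Bool.rec (Nat.shiftRight leaf3576 sh) (s3577_3579 i sh) (Nat.ble 3577 i)
noncomputable def s3574_3579 (i sh : Nat) : Nat := Bool.rec (s3574_3576 i sh) (s3576_3579 i sh) (Nat.ble 3576 i)
noncomputable def s3569_3579 (i sh : Nat) : Nat := Bool.rec (s3569_3574 i sh) (s3574_3579 i sh) (Nat.ble 3574 i)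
noncomputable def s3579_3581 (i sh : Nat) : Nat := Bool.rec (Nat.shiftRight leaf3579 sh) (Nat.shiftRight leaf3580 sh) (Nat.ble 3580 i)
noncomputable def s3582_3584 (i sh : Nat) : Nat := Bool.rec (Nat.shiftRight leaf3582 sh) (Nat.shiftRight leaf3583 sh) (Nat.ble 3583 i)
noncomputable def s3581_3584 (i sh : Nat) : Nat := Bool.rec (Nat.shiftRight leaf3581 sh) (s3582_3584 i sh) (Nat.ble 3582 i)
noncomputable def s3579_3584 (i sh : Nat) : Nat := Bool.rec (s3579_3581 i sh) (s3581_3584 i sh) (Nat.ble 3581 i)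
noncomputable def s3584_3586 (i sh : Nat) : Nat := Bool.rec (Nat.shiftRight leaf3584 sh) (Nat.shiftRight leaf3585 sh) (Nat.ble 3585 i)
noncomputable def s3587_3589 (i sh : Nat) : Nat := Bool.rec (Nat.shiftRight leaf3587 sh) (Nat.shiftRight leaf3588 sh) (Nat.ble 3588 i)
noncomputable def s3586_3589 (i sh : Nat) : Nat := Bool.rec (Nat.shiftRight leaf3586 sh) (s3587_3589 i sh) (Nat.ble 3587 i)
noncomputable def s3584_3589 (i sh : Nat) : Nat := Bool.rec (s3584_3586 i sh) (s3586_3589 i sh) (Nat.ble 3586 i)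
noncomputable def s3579_3589 (i sh : Nat) : Nat := Bool.rec (s3579_3584 i sh) (s3584_3589 i sh) (Nat.ble 3584 i)
noncomputable def s3569_3589 (i sh : Nat) : Nat := Bool.rec (s3569_3579 i sh) (s3579_3589 i sh) (Nat.ble 3579 i)
noncomputable def s3549_3589 (i sh : Nat) : Nat := Bool.rec (s3549_3569 i sh) (s3569_3589 i sh) (Nat.ble 3569 i)
noncomputable def s3589_3591 (i sh : Nat) : Nat := Bool.rec (Nat.shiftRight leaf3589 sh) (Nat.shiftRight leaf3590 sh) (Nat.ble 3590 i)
noncomputable def s3592_3594 (i sh : Nat) : Nat := Bool.rec (Nat.shiftRight leaf3592 sh) (Nat.shiftRight leaf3593 sh) (Nat.ble 3593 i)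
noncomputable def s3591_3594 (i sh : Nat) : Nat := Bool.rec (Nat.shiftRight leaf3591 sh) (s3592_3594 i sh) (Nat.ble 3592 i)
noncomputable def s3589_3594 (i sh : Nat) : Nat := Bool.rec (s3589_3591 i sh) (s3591_3594 i sh) (Nat.ble 3591 i)
noncomputable def s3594_3596 (i sh : Nat) : Nat := Bool.rec (Nat.shiftRight leaf3594 sh) (Nat.shiftRight leaf3595 sh) (Nat.ble 3595 i)
noncomputable def s3597_3599 (i sh : Nat) : Nat := Bool.rec (Nat.shiftRight leaf3597 sh) (Nat.shiftRight leaf3598 sh) (Nat.ble 3598 i)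
noncomputable def s3596_3599 (i sh : Nat) : Nat := Bool.rec (Nat.shiftRight leaf3596 sh) (s3597_3599 i sh) (Nat.ble 3597 i)
noncomputable def s3594_3599 (i sh : Nat) : Nat := Bool.rec (s3594_3596 i sh) (s3596_3599 i sh) (Nat.ble 3596 i)
noncomputable def s3589_3599 (i sh : Nat) : Nat := Bool.rec (s3589_3594 i sh) (s3594_3599 i sh) (Nat.ble 3594 i)
noncomputable def s3599_3601 (i sh : Nat) : Nat := Bool.rec (Nat.shiftRight leaf3599 sh) (Nat.shiftRight leaf3600 sh) (Nat.ble 3600 i)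
noncomputable def s3602_3604 (i sh : Nat) : Nat := Bool.rec (Nat.shiftRight leaf3602 sh) (Nat.shiftRight leaf3603 sh) (Nat.ble 3603 i)
noncomputable def s3601_3604 (i sh : Nat) : Nat := Bool.rec (Nat.shiftRight leaf3601 sh) (s3602_3604 i sh) (Nat.ble 3602 i)
noncomputable def s3599_3604 (i sh : Nat) : Nat := Bool.rec (s3599_3601 i sh) (s3601_3604 i sh) (Nat.ble 3601 i)
noncomputable def s3604_3606 (i sh : Nat) : Nat := Bool.rec (Nat.shiftRight leaf3604 sh) (Nat.shiftRight leaf3605 sh) (Nat.ble 3605 i)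
noncomputable def s3607_3609 (i sh : Nat) : Nat := Bool.rec (Nat.shiftRight leaf3607 sh) (Nat.shiftRight leaf3608 sh) (Nat.ble 3608 i)
noncomputable def s3606_3609 (i sh : Nat) : Nat := Bool.rec (Nat.shiftRight leaf3606 sh) (s3607_3609 i sh) (Nat.ble 3607 i)
noncomputable def s3604_3609 (i sh : Nat) : Nat := Bool.rec (s3604_3606 i sh) (s3606_3609 i sh) (Nat.ble 3606 i)
noncomputable def s3599_3609 (i sh : Nat) : Nat := Bool.rec (s3599_3604 i sh) (s3604_3609 i sh) (Nat.ble 3604 i)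
noncomputable def s3589_3609 (i sh : Nat) : Nat := Bool.rec (s3589_3599 i sh) (s3599_3609 i sh) (Nat.ble 3599 i)
noncomputable def s3609_3611 (i sh : Nat) : Nat := Bool.rec (Nat.shiftRight leaf3609 sh) (Nat.shiftRight leaf3610 sh) (Nat.ble 3610 i)
noncomputable def s3612_3614 (i sh : Nat) : Nat := Bool.rec (Nat.shiftRight leaf3612 sh) (Nat.shiftRight leaf3613 sh) (Nat.ble 3613 i)
noncomputable def s3611_3614 (i sh : Nat) : Nat := Bool.rec (Nat.shiftRight leaf3611 sh) (s3612_3614 i sh) (Nat.ble 3612 i)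
noncomputable def s3609_3614 (i sh : Nat) : Nat := Bool.rec (s3609_3611 i sh) (s3611_3614 i sh) (Nat.ble 3611 i)
noncomputable def s3614_3616 (i sh : Nat) : Nat := Bool.rec (Nat.shiftRight leaf3614 sh) (Nat.shiftRight leaf3615 sh) (Nat.ble 3615 i)
noncomputable def s3617_3619 (i sh : Nat) : Nat := Bool.rec (Nat.shiftRight leaf3617 sh) (Nat.shiftRight leaf3618 sh) (Nat.ble 3618 i)
noncomputable def s3616_3619 (i sh : Nat) : Nat := Bool.rec (Nat.shiftRight leaf3616 sh) (s3617_3619 i sh) (Nat.ble 3617 i)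
noncomputable def s3614_3619 (i sh : Nat) : Nat := Bool.rec (s3614_3616 i sh) (s3616_3619 i sh) (Nat.ble 3616 i)
noncomputable def s3609_3619 (i sh : Nat) : Nat := Bool.rec (s3609_3614 i sh) (s3614_3619 i sh) (Nat.ble 3614 i)
noncomputable def s3619_3621 (i sh : Nat) : Nat := Bool.rec (Nat.shiftRight leaf3619 sh) (Nat.shiftRight leaf3620 sh) (Nat.ble 3620 i)
noncomputable def s3622_3624 (i sh : Nat) : Nat := Bool.rec (Nat.shiftRight leaf3622 sh) (Nat.shiftRight leaf3623 sh) (Nat.ble 3623 i)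
noncomputable def s3621_3624 (i sh : Nat) : Nat := Bool.rec (Nat.shiftRight leaf3621 sh) (s3622_3624 i sh) (Nat.ble 3622 i)
noncomputable def s3619_3624 (i sh : Nat) : Nat := Bool.rec (s3619_3621 i sh) (s3621_3624 i sh) (Nat.ble 3621 i)
noncomputable def s3624_3626 (i sh : Nat) : Nat := Bool.rec (Nat.shiftRight leaf3624 sh) (Nat.shiftRight leaf3625 sh) (Nat.ble 3625 i)
noncomputable def s3627_3629 (i sh : Nat) : Nat := Bool.rec (Nat.shiftRight leaf3627 sh) (Nat.shiftRight leaf3628 sh) (Nat.ble 3628 i)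
noncomputable def s3626_3629 (i sh : Nat) : Nat := Bool.rec (Nat.shiftRight leaf3626 sh) (s3627_3629 i sh) (Nat.ble 3627 i)
noncomputable def s3624_3629 (i sh : Nat) : Nat := Bool.rec (s3624_3626 i sh) (s3626_3629 i sh) (Nat.ble 3626 i)
noncomputable def s3619_3629 (i sh : Nat) : Nat := Bool.rec (s3619_3624 i sh) (s3624_3629 i sh) (Nat.ble 3624 i)
noncomputable def s3609_3629 (i sh : Nat) : Nat := Bool.rec (s3609_3619 i sh) (s3619_3629 i sh) (Nat.ble 3619 i)
noncomputable def s3589_3629 (i sh : Nat) : Nat := Bool.rec (s3589_3609 i sh) (s3609_3629 i sh) (Nat.ble 3609 i)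
noncomputable def s3549_3629 (i sh : Nat) : Nat := Bool.rec (s3549_3589 i sh) (s3589_3629 i sh) (Nat.ble 3589 i)
noncomputable def s3629_3631 (i sh : Nat) : Nat := Bool.rec (Nat.shiftRight leaf3629 sh) (Nat.shiftRight leaf3630 sh) (Nat.ble 3630 i)
noncomputable def s3632_3634 (i sh : Nat) : Nat := Bool.rec (Nat.shiftRight leaf3632 sh) (Nat.shiftRight leaf3633 sh) (Nat.ble 3633 i)
noncomputable def s3631_3634 (i sh : Nat) : Nat := Bool.rec (Nat.shiftRight leaf3631 sh) (s3632_3634 i sh) (Nat.ble 3632 i)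
noncomputable def s3629_3634 (i sh : Nat) : Nat := Bool.rec (s3629_3631 i sh) (s3631_3634 i sh) (Nat.ble 3631 i)
noncomputable def s3634_3636 (i sh : Nat) : Nat := Bool.rec (Nat.shiftRight leaf3634 sh) (Nat.shiftRight leaf3635 sh) (Nat.ble 3635 i)
noncomputable def s3637_3639 (i sh : Nat) : Nat := Bool.rec (Nat.shiftRight leaf3637 sh) (Nat.shiftRight leaf3638 sh) (Nat.ble 3638 i)
noncomputable def s3636_3639 (i sh : Nat) : Nat := Bool.rec (Nat.shiftRight leaf3636 sh) (s3637_3639 i sh) (Nat.ble 3637 i)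
noncomputable def s3634_3639 (i sh : Nat) : Nat := Bool.rec (s3634_3636 i sh) (s3636_3639 i sh) (Nat.ble 3636 i)
noncomputable def s3629_3639 (i sh : Nat) : Nat := Bool.rec (s3629_3634 i sh) (s3634_3639 i sh) (Nat.ble 3634 i)
noncomputable def s3639_3641 (i sh : Nat) : Nat := Bool.rec (Nat.shiftRight leaf3639 sh) (Nat.shiftRight leaf3640 sh) (Nat.ble 3640 i)
noncomputable def s3642_3644 (i sh : Nat) : Nat := Bool.rec (Nat.shiftRight leaf3642 sh) (Nat.shiftRight leaf3643 sh) (Nat.ble 3643 i)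
noncomputable def s3641_3644 (i sh : Nat) : Nat := Bool.rec (Nat.shiftRight leaf3641 sh) (s3642_3644 i sh) (Nat.ble 3642 i)
noncomputable def s3639_3644 (i sh : Nat) : Nat := Bool.rec (s3639_3641 i sh) (s3641_3644 i sh) (Nat.ble 3641 i)
noncomputable def s3644_3646 (i sh : Nat) : Nat := Bool.rec (Nat.shiftRight leaf3644 sh) (Nat.shiftRight leaf3645 sh) (Nat.ble 3645 i)
noncomputable def s3647_3649 (i sh : Nat) : Nat := Bool.rec (Nat.shiftRight leaf3647 sh) (Nat.shiftRight leaf3648 sh) (Nat.ble 3648 i)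
noncomputable def s3646_3649 (i sh : Nat) : Nat := Bool.rec (Nat.shiftRight leaf3646 sh) (s3647_3649 i sh) (Nat.ble 3647 i)
noncomputable def s3644_3649 (i sh : Nat) : Nat := Bool.rec (s3644_3646 i sh) (s3646_3649 i sh) (Nat.ble 3646 i)
noncomputable def s3639_3649 (i sh : Nat) : Nat := Bool.rec (s3639_3644 i sh) (s3644_3649 i sh) (Nat.ble 3644 i)
noncomputable def s3629_3649 (i sh : Nat) : Nat := Bool.rec (s3629_3639 i sh) (s3639_3649 i sh) (Nat.ble 3639 i)
noncomputable def s3649_3651 (i sh : Nat) : Nat := Bool.rec (Nat.shiftRight leaf3649 sh) (Nat.shiftRight leaf3650 sh) (Nat.ble 3650 i)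
noncomputable def s3652_3654 (i sh : Nat) : Nat := Bool.rec (Nat.shiftRight leaf3652 sh) (Nat.shiftRight leaf3653 sh) (Nat.ble 3653 i)
noncomputable def s3651_3654 (i sh : Nat) : Nat := Bool.rec (Nat.shiftRight leaf3651 sh) (s3652_3654 i sh) (Nat.ble 3652 i)
noncomputable def s3649_3654 (i sh : Nat) : Nat := Bool.rec (s3649_3651 i sh) (s3651_3654 i sh) (Nat.ble 3651 i)
noncomputable def s3654_3656 (i sh : Nat) : Nat := Bool.rec (Nat.shiftRight leaf3654 sh) (Nat.shiftRight leaf3655 sh) (Nat.ble 3655 i)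
noncomputable def s3657_3659 (i sh : Nat) : Nat := Bool.rec (Nat.shiftRight leaf3657 sh) (Nat.shiftRight leaf3658 sh) (Nat.ble 3658 i)
noncomputable def s3656_3659 (i sh : Nat) : Nat := Bool.rec (Nat.shiftRight leaf3656 sh) (s3657_3659 i sh) (Nat.ble 3657 i)
noncomputable def s3654_3659 (i sh : Nat) : Nat := Bool.rec (s3654_3656 i sh) (s3656_3659 i sh) (Nat.ble 3656 i)
noncomputable def s3649_3659 (i sh : Nat) : Nat := Bool.rec (s3649_3654 i sh) (s3654_3659 i sh) (Nat.ble 3654 i)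
noncomputable def s3659_3661 (i sh : Nat) : Nat := Bool.rec (Nat.shiftRight leaf3659 sh) (Nat.shiftRight leaf3660 sh) (Nat.ble 3660 i)
noncomputable def s3662_3664 (i sh : Nat) : Nat := Bool.rec (Nat.shiftRight leaf3662 sh) (Nat.shiftRight leaf3663 sh) (Nat.ble 3663 i)
noncomputable def s3661_3664 (i sh : Nat) : Nat := Bool.rec (Nat.shiftRight leaf3661 sh) (s3662_3664 i sh) (Nat.ble 3662 i)
noncomputable def s3659_3664 (i sh : Nat) : Nat := Bool.rec (s3659_3661 i sh) (s3661_3664 i sh) (Nat.ble 3661 i)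
noncomputable def s3664_3666 (i sh : Nat) : Nat := Bool.rec (Nat.shiftRight leaf3664 sh) (Nat.shiftRight leaf3665 sh) (Nat.ble 3665 i)
noncomputable def s3667_3669 (i sh : Nat) : Nat := Bool.rec (Nat.shiftRight leaf3667 sh) (Nat.shiftRight leaf3668 sh) (Nat.ble 3668 i)
noncomputable def s3666_3669 (i sh : Nat) : Nat := Bool.rec (Nat.shiftRight leaf3666 sh) (s3667_3669 i sh) (Nat.ble 3667 i)
noncomputable def s3664_3669 (i sh : Nat) : Nat := Bool.rec (s3664_3666 i sh) (s3666_3669 i sh) (Nat.ble 3666 i)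
noncomputable def s3659_3669 (i sh : Nat) : Nat := Bool.rec (s3659_3664 i sh) (s3664_3669 i sh) (Nat.ble 3664 i)
noncomputable def s3649_3669 (i sh : Nat) : Nat := Bool.rec (s3649_3659 i sh) (s3659_3669 i sh) (Nat.ble 3659 i)
noncomputable def s3629_3669 (i sh : Nat) : Nat := Bool.rec (s3629_3649 i sh) (s3649_3669 i sh) (Nat.ble 3649 i)
noncomputable def s3669_3671 (i sh : Nat) : Nat := Bool.rec (Nat.shiftRight leaf3669 sh) (Nat.shiftRight leaf3670 sh) (Nat.ble 3670 i)
noncomputable def s3672_3674 (i sh : Nat) : Nat := Bool.rec (Nat.shiftRight leaf3672 sh) (Nat.shiftRight leaf3673 sh) (Nat.ble 3673 i)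
noncomputable def s3671_3674 (i sh : Nat) : Nat := Bool.rec (Nat.shiftRight leaf3671 sh) (s3672_3674 i sh) (Nat.ble 3672 i)
noncomputable def s3669_3674 (i sh : Nat) : Nat := Bool.rec (s3669_3671 i sh) (s3671_3674 i sh) (Nat.ble 3671 i)
noncomputable def s3674_3676 (i sh : Nat) : Nat := Bool.rec (Nat.shiftRight leaf3674 sh) (Nat.shiftRight leaf3675 sh) (Nat.ble 3675 i)
noncomputable def s3677_3679 (i sh : Nat) : Nat := Bool.rec (Nat.shiftRight leaf3677 sh) (Nat.shiftRight leaf3678 sh) (Nat.ble 3678 i)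
noncomputable def s3676_3679 (i sh : Nat) : Nat := Bool.rec (Nat.shiftRight leaf3676 sh) (s3677_3679 i sh) (Nat.ble 3677 i)
noncomputable def s3674_3679 (i sh : Nat) : Nat := Bool.rec (s3674_3676 i sh) (s3676_3679 i sh) (Nat.ble 3676 i)
noncomputable def s3669_3679 (i sh : Nat) : Nat := Bool.rec (s3669_3674 i sh) (s3674_3679 i sh) (Nat.ble 3674 i)
noncomputable def s3679_3681 (i sh : Nat) : Nat := Bool.rec (Nat.shiftRight leaf3679 sh) (Nat.shiftRight leaf3680 sh) (Nat.ble 3680 i)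
noncomputable def s3682_3684 (i sh : Nat) : Nat := Bool.rec (Nat.shiftRight leaf3682 sh) (Nat.shiftRight leaf3683 sh) (Nat.ble 3683 i)
noncomputable def s3681_3684 (i sh : Nat) : Nat := Bool.rec (Nat.shiftRight leaf3681 sh) (s3682_3684 i sh) (Nat.ble 3682 i)
noncomputable def s3679_3684 (i sh : Nat) : Nat := Bool.rec (s3679_3681 i sh) (s3681_3684 i sh) (Nat.ble 3681 i)
noncomputable def s3684_3686 (i sh : Nat) : Nat := Bool.rec (Nat.shiftRight leaf3684 sh) (Nat.shiftRight leaf3685 sh) (Nat.ble 3685 i)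
noncomputable def s3687_3689 (i sh : Nat) : Nat := Bool.rec (Nat.shiftRight leaf3687 sh) (Nat.shiftRight leaf3688 sh) (Nat.ble 3688 i)
noncomputable def s3686_3689 (i sh : Nat) : Nat := Bool.rec (Nat.shiftRight leaf3686 sh) (s3687_3689 i sh) (Nat.ble 3687 i)
noncomputable def s3684_3689 (i sh : Nat) : Nat := Bool.rec (s3684_3686 i sh) (s3686_3689 i sh) (Nat.ble 3686 i)
noncomputable def s3679_3689 (i sh : Nat) : Nat := Bool.rec (s3679_3684 i sh) (s3684_3689 i sh) (Nat.ble 3684 i)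
noncomputable def s3669_3689 (i sh : Nat) : Nat := Bool.rec (s3669_3679 i sh) (s3679_3689 i sh) (Nat.ble 3679 i)
noncomputable def s3689_3691 (i sh : Nat) : Nat := Bool.rec (Nat.shiftRight leaf3689 sh) (Nat.shiftRight leaf3690 sh) (Nat.ble 3690 i)
noncomputable def s3692_3694 (i sh : Nat) : Nat := Bool.rec (Nat.shiftRight leaf3692 sh) (Nat.shiftRight leaf3693 sh) (Nat.ble 3693 i)
noncomputable def s3691_3694 (i sh : Nat) : Nat := Bool.rec (Nat.shiftRight leaf3691 sh) (s3692_3694 i sh) (Nat.ble 3692 i)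
noncomputable def s3689_3694 (i sh : Nat) : Nat := Bool.rec (s3689_3691 i sh) (s3691_3694 i sh) (Nat.ble 3691 i)
noncomputable def s3694_3696 (i sh : Nat) : Nat := Bool.rec (Nat.shiftRight leaf3694 sh) (Nat.shiftRight leaf3695 sh) (Nat.ble 3695 i)
noncomputable def s3697_3699 (i sh : Nat) : Nat := Bool.rec (Nat.shiftRight leaf3697 sh) (Nat.shiftRight leaf3698 sh) (Nat.ble 3698 i)
noncomputable def s3696_3699 (i sh : Nat) : Nat := Bool.rec (Nat.shiftRight leaf3696 sh) (s3697_3699 i sh) (Nat.ble 3697 i)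
noncomputable def s3694_3699 (i sh : Nat) : Nat := Bool.rec (s3694_3696 i sh) (s3696_3699 i sh) (Nat.ble 3696 i)
noncomputable def s3689_3699 (i sh : Nat) : Nat := Bool.rec (s3689_3694 i sh) (s3694_3699 i sh) (Nat.ble 3694 i)
noncomputable def s3699_3701 (i sh : Nat) : Nat := Bool.rec (Nat.shiftRight leaf3699 sh) (Nat.shiftRight leaf3700 sh) (Nat.ble 3700 i)
noncomputable def s3702_3704 (i sh : Nat) : Nat := Bool.rec (Nat.shiftRight leaf3702 sh) (Nat.shiftRight leaf3703 sh) (Nat.ble 3703 i)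
noncomputable def s3701_3704 (i sh : Nat) : Nat := Bool.rec (Nat.shiftRight leaf3701 sh) (s3702_3704 i sh) (Nat.ble 3702 i)
noncomputable def s3699_3704 (i sh : Nat) : Nat := Bool.rec (s3699_3701 i sh) (s3701_3704 i sh) (Nat.ble 3701 i)
noncomputable def s3705_3707 (i sh : Nat) : Nat := Bool.rec (Nat.shiftRight leaf3705 sh) (Nat.shiftRight leaf3706 sh) (Nat.ble 3706 i)
noncomputable def s3704_3707 (i sh : Nat) : Nat := Bool.rec (Nat.shiftRight leaf3704 sh) (s3705_3707 i sh) (Nat.ble 3705 i)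
noncomputable def s3708_3710 (i sh : Nat) : Nat := Bool.rec (Nat.shiftRight leaf3708 sh) (Nat.shiftRight leaf3709 sh) (Nat.ble 3709 i)
noncomputable def s3707_3710 (i sh : Nat) : Nat := Bool.rec (Nat.shiftRight leaf3707 sh) (s3708_3710 i sh) (Nat.ble 3708 i)
noncomputable def s3704_3710 (i sh : Nat) : Nat := Bool.rec (s3704_3707 i sh) (s3707_3710 i sh) (Nat.ble 3707 i)
noncomputable def s3699_3710 (i sh : Nat) : Nat := Bool.rec (s3699_3704 i sh) (s3704_3710 i sh) (Nat.ble 3704 i)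
noncomputable def s3689_3710 (i sh : Nat) : Nat := Bool.rec (s3689_3699 i sh) (s3699_3710 i sh) (Nat.ble 3699 i)
noncomputable def s3669_3710 (i sh : Nat) : Nat := Bool.rec (s3669_3689 i sh) (s3689_3710 i sh) (Nat.ble 3689 i)
noncomputable def s3629_3710 (i sh : Nat) : Nat := Bool.rec (s3629_3669 i sh) (s3669_3710 i sh) (Nat.ble 3669 i)
noncomputable def s3549_3710 (i sh : Nat) : Nat := Bool.rec (s3549_3629 i sh) (s3629_3710 i sh) (Nat.ble 3629 i)
noncomputable def s3710_3712 (i sh : Nat) : Nat := Bool.rec (Nat.shiftRight leaf3710 sh) (Nat.shiftRight leaf3711 sh) (Nat.ble 3711 i)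
noncomputable def s3713_3715 (i sh : Nat) : Nat := Bool.rec (Nat.shiftRight leaf3713 sh) (Nat.shiftRight leaf3714 sh) (Nat.ble 3714 i)
noncomputable def s3712_3715 (i sh : Nat) : Nat := Bool.rec (Nat.shiftRight leaf3712 sh) (s3713_3715 i sh) (Nat.ble 3713 i)
noncomputable def s3710_3715 (i sh : Nat) : Nat := Bool.rec (s3710_3712 i sh) (s3712_3715 i sh) (Nat.ble 3712 i)
noncomputable def s3715_3717 (i sh : Nat) : Nat := Bool.rec (Nat.shiftRight leaf3715 sh) (Nat.shiftRight leaf3716 sh) (Nat.ble 3716 i)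
noncomputable def s3718_3720 (i sh : Nat) : Nat := Bool.rec (Nat.shiftRight leaf3718 sh) (Nat.shiftRight leaf3719 sh) (Nat.ble 3719 i)
noncomputable def s3717_3720 (i sh : Nat) : Nat := Bool.rec (Nat.shiftRight leaf3717 sh) (s3718_3720 i sh) (Nat.ble 3718 i)
noncomputable def s3715_3720 (i sh : Nat) : Nat := Bool.rec (s3715_3717 i sh) (s3717_3720 i sh) (Nat.ble 3717 i)
noncomputable def s3710_3720 (i sh : Nat) : Nat := Bool.rec (s3710_3715 i sh) (s3715_3720 i sh) (Nat.ble 3715 i)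
noncomputable def s3720_3722 (i sh : Nat) : Nat := Bool.rec (Nat.shiftRight leaf3720 sh) (Nat.shiftRight leaf3721 sh) (Nat.ble 3721 i)
noncomputable def s3723_3725 (i sh : Nat) : Nat := Bool.rec (Nat.shiftRight leaf3723 sh) (Nat.shiftRight leaf3724 sh) (Nat.ble 3724 i)
noncomputable def s3722_3725 (i sh : Nat) : Nat := Bool.rec (Nat.shiftRight leaf3722 sh) (s3723_3725 i sh) (Nat.ble 3723 i)
noncomputable def s3720_3725 (i sh : Nat) : Nat := Bool.rec (s3720_3722 i sh) (s3722_3725 i sh) (Nat.ble 3722 i)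
noncomputable def s3725_3727 (i sh : Nat) : Nat := Bool.rec (Nat.shiftRight leaf3725 sh) (Nat.shiftRight leaf3726 sh) (Nat.ble 3726 i)
noncomputable def s3728_3730 (i sh : Nat) : Nat := Bool.rec (Nat.shiftRight leaf3728 sh) (Nat.shiftRight leaf3729 sh) (Nat.ble 3729 i)
noncomputable def s3727_3730 (i sh : Nat) : Nat := Bool.rec (Nat.shiftRight leaf3727 sh) (s3728_3730 i sh) (Nat.ble 3728 i)
noncomputable def s3725_3730 (i sh : Nat) : Nat := Bool.rec (s3725_3727 i sh) (s3727_3730 i sh) (Nat.ble 3727 i)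
noncomputable def s3720_3730 (i sh : Nat) : Nat := Bool.rec (s3720_3725 i sh) (s3725_3730 i sh) (Nat.ble 3725 i)
noncomputable def s3710_3730 (i sh : Nat) : Nat := Bool.rec (s3710_3720 i sh) (s3720_3730 i sh) (Nat.ble 3720 i)
noncomputable def s3730_3732 (i sh : Nat) : Nat := Bool.rec (Nat.shiftRight leaf3730 sh) (Nat.shiftRight leaf3731 sh) (Nat.ble 3731 i)
noncomputable def s3733_3735 (i sh : Nat) : Nat := Bool.rec (Nat.shiftRight leaf3733 sh) (Nat.shiftRight leaf3734 sh) (Nat.ble 3734 i)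
noncomputable def s3732_3735 (i sh : Nat) : Nat := Bool.rec (Nat.shiftRight leaf3732 sh) (s3733_3735 i sh) (Nat.ble 3733 i)
noncomputable def s3730_3735 (i sh : Nat) : Nat := Bool.rec (s3730_3732 i sh) (s3732_3735 i sh) (Nat.ble 3732 i)
noncomputable def s3735_3737 (i sh : Nat) : Nat := Bool.rec (Nat.shiftRight leaf3735 sh) (Nat.shiftRight leaf3736 sh) (Nat.ble 3736 i)
noncomputable def s3738_3740 (i sh : Nat) : Nat := Bool.rec (Nat.shiftRight leaf3738 sh) (Nat.shiftRight leaf3739 sh) (Nat.ble 3739 i)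
noncomputable def s3737_3740 (i sh : Nat) : Nat := Bool.rec (Nat.shiftRight leaf3737 sh) (s3738_3740 i sh) (Nat.ble 3738 i)
noncomputable def s3735_3740 (i sh : Nat) : Nat := Bool.rec (s3735_3737 i sh) (s3737_3740 i sh) (Nat.ble 3737 i)
noncomputable def s3730_3740 (i sh : Nat) : Nat := Bool.rec (s3730_3735 i sh) (s3735_3740 i sh) (Nat.ble 3735 i)
noncomputable def s3740_3742 (i sh : Nat) : Nat := Bool.rec (Nat.shiftRight leaf3740 sh) (Nat.shiftRight leaf3741 sh) (Nat.ble 3741 i)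
noncomputable def s3743_3745 (i sh : Nat) : Nat := Bool.rec (Nat.shiftRight leaf3743 sh) (Nat.shiftRight leaf3744 sh) (Nat.ble 3744 i)
noncomputable def s3742_3745 (i sh : Nat) : Nat := Bool.rec (Nat.shiftRight leaf3742 sh) (s3743_3745 i sh) (Nat.ble 3743 i)
noncomputable def s3740_3745 (i sh : Nat) : Nat := Bool.rec (s3740_3742 i sh) (s3742_3745 i sh) (Nat.ble 3742 i)
noncomputable def s3745_3747 (i sh : Nat) : Nat := Bool.rec (Nat.shiftRight leaf3745 sh) (Nat.shiftRight leaf3746 sh) (Nat.ble 3746 i)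
noncomputable def s3748_3750 (i sh : Nat) : Nat := Bool.rec (Nat.shiftRight leaf3748 sh) (Nat.shiftRight leaf3749 sh) (Nat.ble 3749 i)
noncomputable def s3747_3750 (i sh : Nat) : Nat := Bool.rec (Nat.shiftRight leaf3747 sh) (s3748_3750 i sh) (Nat.ble 3748 i)
noncomputable def s3745_3750 (i sh : Nat) : Nat := Bool.rec (s3745_3747 i sh) (s3747_3750 i sh) (Nat.ble 3747 i)
noncomputable def s3740_3750 (i sh : Nat) : Nat := Bool.rec (s3740_3745 i sh) (s3745_3750 i sh) (Nat.ble 3745 i)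
noncomputable def s3730_3750 (i sh : Nat) : Nat := Bool.rec (s3730_3740 i sh) (s3740_3750 i sh) (Nat.ble 3740 i)
noncomputable def s3710_3750 (i sh : Nat) : Nat := Bool.rec (s3710_3730 i sh) (s3730_3750 i sh) (Nat.ble 3730 i)
noncomputable def s3750_3752 (i sh : Nat) : Nat := Bool.rec (Nat.shiftRight leaf3750 sh) (Nat.shiftRight leaf3751 sh) (Nat.ble 3751 i)
noncomputable def s3753_3755 (i sh : Nat) : Nat := Bool.rec (Nat.shiftRight leaf3753 sh) (Nat.shiftRight leaf3754 sh) (Nat.ble 3754 i)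
noncomputable def s3752_3755 (i sh : Nat) : Nat := Bool.rec (Nat.shiftRight leaf3752 sh) (s3753_3755 i sh) (Nat.ble 3753 i)
noncomputable def s3750_3755 (i sh : Nat) : Nat := Bool.rec (s3750_3752 i sh) (s3752_3755 i sh) (Nat.ble 3752 i)
noncomputable def s3755_3757 (i sh : Nat) : Nat := Bool.rec (Nat.shiftRight leaf3755 sh) (Nat.shiftRight leaf3756 sh) (Nat.ble 3756 i)
noncomputable def s3758_3760 (i sh : Nat) : Nat := Bool.rec (Nat.shiftRight leaf3758 sh) (Nat.shiftRight leaf3759 sh) (Nat.ble 3759 i)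
noncomputable def s3757_3760 (i sh : Nat) : Nat := Bool.rec (Nat.shiftRight leaf3757 sh) (s3758_3760 i sh) (Nat.ble 3758 i)
noncomputable def s3755_3760 (i sh : Nat) : Nat := Bool.rec (s3755_3757 i sh) (s3757_3760 i sh) (Nat.ble 3757 i)
noncomputable def s3750_3760 (i sh : Nat) : Nat := Bool.rec (s3750_3755 i sh) (s3755_3760 i sh) (Nat.ble 3755 i)
noncomputable def s3760_3762 (i sh : Nat) : Nat := Bool.rec (Nat.shiftRight leaf3760 sh) (Nat.shiftRight leaf3761 sh) (Nat.ble 3761 i)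
noncomputable def s3763_3765 (i sh : Nat) : Nat := Bool.rec (Nat.shiftRight leaf3763 sh) (Nat.shiftRight leaf3764 sh) (Nat.ble 3764 i)
noncomputable def s3762_3765 (i sh : Nat) : Nat := Bool.rec (Nat.shiftRight leaf3762 sh) (s3763_3765 i sh) (Nat.ble 3763 i)
noncomputable def s3760_3765 (i sh : Nat) : Nat := Bool.rec (s3760_3762 i sh) (s3762_3765 i sh) (Nat.ble 3762 i)
noncomputable def s3765_3767 (i sh : Nat) : Nat := Bool.rec (Nat.shiftRight leaf3765 sh) (Nat.shiftRight leaf3766 sh) (Nat.ble 3766 i)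
noncomputable def s3768_3770 (i sh : Nat) : Nat := Bool.rec (Nat.shiftRight leaf3768 sh) (Nat.shiftRight leaf3769 sh) (Nat.ble 3769 i)
noncomputable def s3767_3770 (i sh : Nat) : Nat := Bool.rec (Nat.shiftRight leaf3767 sh) (s3768_3770 i sh) (Nat.ble 3768 i)
noncomputable def s3765_3770 (i sh : Nat) : Nat := Bool.rec (s3765_3767 i sh) (s3767_3770 i sh) (Nat.ble 3767 i)
noncomputable def s3760_3770 (i sh : Nat) : Nat := Bool.rec (s3760_3765 i sh) (s3765_3770 i sh) (Nat.ble 3765 i)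
noncomputable def s3750_3770 (i sh : Nat) : Nat := Bool.rec (s3750_3760 i sh) (s3760_3770 i sh) (Nat.ble 3760 i)
noncomputable def s3770_3772 (i sh : Nat) : Nat := Bool.rec (Nat.shiftRight leaf3770 sh) (Nat.shiftRight leaf3771 sh) (Nat.ble 3771 i)
noncomputable def s3773_3775 (i sh : Nat) : Nat := Bool.rec (Nat.shiftRight leaf3773 sh) (Nat.shiftRight leaf3774 sh) (Nat.ble 3774 i)
noncomputable def s3772_3775 (i sh : Nat) : Nat := Bool.rec (Nat.shiftRight leaf3772 sh) (s3773_3775 i sh) (Nat.ble 3773 i)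
noncomputable def s3770_3775 (i sh : Nat) : Nat := Bool.rec (s3770_3772 i sh) (s3772_3775 i sh) (Nat.ble 3772 i)
noncomputable def s3775_3777 (i sh : Nat) : Nat := Bool.rec (Nat.shiftRight leaf3775 sh) (Nat.shiftRight leaf3776 sh) (Nat.ble 3776 i)
noncomputable def s3778_3780 (i sh : Nat) : Nat := Bool.rec (Nat.shiftRight leaf3778 sh) (Nat.shiftRight leaf3779 sh) (Nat.ble 3779 i)
noncomputable def s3777_3780 (i sh : Nat) : Nat := Bool.rec (Nat.shiftRight leaf3777 sh) (s3778_3780 i sh) (Nat.ble 3778 i)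
noncomputable def s3775_3780 (i sh : Nat) : Nat := Bool.rec (s3775_3777 i sh) (s3777_3780 i sh) (Nat.ble 3777 i)
noncomputable def s3770_3780 (i sh : Nat) : Nat := Bool.rec (s3770_3775 i sh) (s3775_3780 i sh) (Nat.ble 3775 i)
noncomputable def s3780_3782 (i sh : Nat) : Nat := Bool.rec (Nat.shiftRight leaf3780 sh) (Nat.shiftRight leaf3781 sh) (Nat.ble 3781 i)
noncomputable def s3783_3785 (i sh : Nat) : Nat := Bool.rec (Nat.shiftRight leaf3783 sh) (Nat.shiftRight leaf3784 sh) (Nat.ble 3784 i)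
noncomputable def s3782_3785 (i sh : Nat) : Nat := Bool.rec (Nat.shiftRight leaf3782 sh) (s3783_3785 i sh) (Nat.ble 3783 i)
noncomputable def s3780_3785 (i sh : Nat) : Nat := Bool.rec (s3780_3782 i sh) (s3782_3785 i sh) (Nat.ble 3782 i)
noncomputable def s3786_3788 (i sh : Nat) : Nat := Bool.rec (Nat.shiftRight leaf3786 sh) (Nat.shiftRight leaf3787 sh) (Nat.ble 3787 i)
noncomputable def s3785_3788 (i sh : Nat) : Nat := Bool.rec (Nat.shiftRight leaf3785 sh) (s3786_3788 i sh) (Nat.ble 3786 i)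
noncomputable def s3789_3791 (i sh : Nat) : Nat := Bool.rec (Nat.shiftRight leaf3789 sh) (Nat.shiftRight leaf3790 sh) (Nat.ble 3790 i)
noncomputable def s3788_3791 (i sh : Nat) : Nat := Bool.rec (Nat.shiftRight leaf3788 sh) (s3789_3791 i sh) (Nat.ble 3789 i)
noncomputable def s3785_3791 (i sh : Nat) : Nat := Bool.rec (s3785_3788 i sh) (s3788_3791 i sh) (Nat.ble 3788 i)
noncomputable def s3780_3791 (i sh : Nat) : Nat := Bool.rec (s3780_3785 i sh) (s3785_3791 i sh) (Nat.ble 3785 i)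
noncomputable def s3770_3791 (i sh : Nat) : Nat := Bool.rec (s3770_3780 i sh) (s3780_3791 i sh) (Nat.ble 3780 i)
noncomputable def s3750_3791 (i sh : Nat) : Nat := Bool.rec (s3750_3770 i sh) (s3770_3791 i sh) (Nat.ble 3770 i)
noncomputable def s3710_3791 (i sh : Nat) : Nat := Bool.rec (s3710_3750 i sh) (s3750_3791 i sh) (Nat.ble 3750 i)
noncomputable def s3791_3793 (i sh : Nat) : Nat := Bool.rec (Nat.shiftRight leaf3791 sh) (Nat.shiftRight leaf3792 sh) (Nat.ble 3792 i)
noncomputable def s3794_3796 (i sh : Nat) : Nat := Bool.rec (Nat.shiftRight leaf3794 sh) (Nat.shiftRight leaf3795 sh) (Nat.ble 3795 i)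
noncomputable def s3793_3796 (i sh : Nat) : Nat := Bool.rec (Nat.shiftRight leaf3793 sh) (s3794_3796 i sh) (Nat.ble 3794 i)
noncomputable def s3791_3796 (i sh : Nat) : Nat := Bool.rec (s3791_3793 i sh) (s3793_3796 i sh) (Nat.ble 3793 i)
noncomputable def s3796_3798 (i sh : Nat) : Nat := Bool.rec (Nat.shiftRight leaf3796 sh) (Nat.shiftRight leaf3797 sh) (Nat.ble 3797 i)
noncomputable def s3799_3801 (i sh : Nat) : Nat := Bool.rec (Nat.shiftRight leaf3799 sh) (Nat.shiftRight leaf3800 sh) (Nat.ble 3800 i)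
noncomputable def s3798_3801 (i sh : Nat) : Nat := Bool.rec (Nat.shiftRight leaf3798 sh) (s3799_3801 i sh) (Nat.ble 3799 i)
noncomputable def s3796_3801 (i sh : Nat) : Nat := Bool.rec (s3796_3798 i sh) (s3798_3801 i sh) (Nat.ble 3798 i)
noncomputable def s3791_3801 (i sh : Nat) : Nat := Bool.rec (s3791_3796 i sh) (s3796_3801 i sh) (Nat.ble 3796 i)
noncomputable def s3801_3803 (i sh : Nat) : Nat := Bool.rec (Nat.shiftRight leaf3801 sh) (Nat.shiftRight leaf3802 sh) (Nat.ble 3802 i)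
noncomputable def s3804_3806 (i sh : Nat) : Nat := Bool.rec (Nat.shiftRight leaf3804 sh) (Nat.shiftRight leaf3805 sh) (Nat.ble 3805 i)
noncomputable def s3803_3806 (i sh : Nat) : Nat := Bool.rec (Nat.shiftRight leaf3803 sh) (s3804_3806 i sh) (Nat.ble 3804 i)
noncomputable def s3801_3806 (i sh : Nat) : Nat := Bool.rec (s3801_3803 i sh) (s3803_3806 i sh) (Nat.ble 3803 i)
noncomputable def s3806_3808 (i sh : Nat) : Nat := Bool.rec (Nat.shiftRight leaf3806 sh) (Nat.shiftRight leaf3807 sh) (Nat.ble 3807 i)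
noncomputable def s3809_3811 (i sh : Nat) : Nat := Bool.rec (Nat.shiftRight leaf3809 sh) (Nat.shiftRight leaf3810 sh) (Nat.ble 3810 i)
noncomputable def s3808_3811 (i sh : Nat) : Nat := Bool.rec (Nat.shiftRight leaf3808 sh) (s3809_3811 i sh) (Nat.ble 3809 i)
noncomputable def s3806_3811 (i sh : Nat) : Nat := Bool.rec (s3806_3808 i sh) (s3808_3811 i sh) (Nat.ble 3808 i)
noncomputable def s3801_3811 (i sh : Nat) : Nat := Bool.rec (s3801_3806 i sh) (s3806_3811 i sh) (Nat.ble 3806 i)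
noncomputable def s3791_3811 (i sh : Nat) : Nat := Bool.rec (s3791_3801 i sh) (s3801_3811 i sh) (Nat.ble 3801 i)
noncomputable def s3811_3813 (i sh : Nat) : Nat := Bool.rec (Nat.shiftRight leaf3811 sh) (Nat.shiftRight leaf3812 sh) (Nat.ble 3812 i)
noncomputable def s3814_3816 (i sh : Nat) : Nat := Bool.rec (Nat.shiftRight leaf3814 sh) (Nat.shiftRight leaf3815 sh) (Nat.ble 3815 i)
noncomputable def s3813_3816 (i sh : Nat) : Nat := Bool.rec (Nat.shiftRight leaf3813 sh) (s3814_3816 i sh) (Nat.ble 3814 i)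
noncomputable def s3811_3816 (i sh : Nat) : Nat := Bool.rec (s3811_3813 i sh) (s3813_3816 i sh) (Nat.ble 3813 i)
noncomputable def s3816_3818 (i sh : Nat) : Nat := Bool.rec (Nat.shiftRight leaf3816 sh) (Nat.shiftRight leaf3817 sh) (Nat.ble 3817 i)
noncomputable def s3819_3821 (i sh : Nat) : Nat := Bool.rec (Nat.shiftRight leaf3819 sh) (Nat.shiftRight leaf3820 sh) (Nat.ble 3820 i)
noncomputable def s3818_3821 (i sh : Nat) : Nat := Bool.rec (Nat.shiftRight leaf3818 sh) (s3819_3821 i sh) (Nat.ble 3819 i)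
noncomputable def s3816_3821 (i sh : Nat) : Nat := Bool.rec (s3816_3818 i sh) (s3818_3821 i sh) (Nat.ble 3818 i)
noncomputable def s3811_3821 (i sh : Nat) : Nat := Bool.rec (s3811_3816 i sh) (s3816_3821 i sh) (Nat.ble 3816 i)
noncomputable def s3821_3823 (i sh : Nat) : Nat := Bool.rec (Nat.shiftRight leaf3821 sh) (Nat.shiftRight leaf3822 sh) (Nat.ble 3822 i)
noncomputable def s3824_3826 (i sh : Nat) : Nat := Bool.rec (Nat.shiftRight leaf3824 sh) (Nat.shiftRight leaf3825 sh) (Nat.ble 3825 i)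
noncomputable def s3823_3826 (i sh : Nat) : Nat := Bool.rec (Nat.shiftRight leaf3823 sh) (s3824_3826 i sh) (Nat.ble 3824 i)
noncomputable def s3821_3826 (i sh : Nat) : Nat := Bool.rec (s3821_3823 i sh) (s3823_3826 i sh) (Nat.ble 3823 i)
noncomputable def s3826_3828 (i sh : Nat) : Nat := Bool.rec (Nat.shiftRight leaf3826 sh) (Nat.shiftRight leaf3827 sh) (Nat.ble 3827 i)
noncomputable def s3829_3831 (i sh : Nat) : Nat := Bool.rec (Nat.shiftRight leaf3829 sh) (Nat.shiftRight leaf3830 sh) (Nat.ble 3830 i)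
noncomputable def s3828_3831 (i sh : Nat) : Nat := Bool.rec (Nat.shiftRight leaf3828 sh) (s3829_3831 i sh) (Nat.ble 3829 i)
noncomputable def s3826_3831 (i sh : Nat) : Nat := Bool.rec (s3826_3828 i sh) (s3828_3831 i sh) (Nat.ble 3828 i)
noncomputable def s3821_3831 (i sh : Nat) : Nat := Bool.rec (s3821_3826 i sh) (s3826_3831 i sh) (Nat.ble 3826 i)
noncomputable def s3811_3831 (i sh : Nat) : Nat := Bool.rec (s3811_3821 i sh) (s3821_3831 i sh) (Nat.ble 3821 i)
noncomputable def s3791_3831 (i sh : Nat) : Nat := Bool.rec (s3791_3811 i sh) (s3811_3831 i sh) (Nat.ble 3811 i)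
noncomputable def s3831_3833 (i sh : Nat) : Nat := Bool.rec (Nat.shiftRight leaf3831 sh) (Nat.shiftRight leaf3832 sh) (Nat.ble 3832 i)
noncomputable def s3834_3836 (i sh : Nat) : Nat := Bool.rec (Nat.shiftRight leaf3834 sh) (Nat.shiftRight leaf3835 sh) (Nat.ble 3835 i)
noncomputable def s3833_3836 (i sh : Nat) : Nat := Bool.rec (Nat.shiftRight leaf3833 sh) (s3834_3836 i sh) (Nat.ble 3834 i)
noncomputable def s3831_3836 (i sh : Nat) : Nat := Bool.rec (s3831_3833 i sh) (s3833_3836 i sh) (Nat.ble 3833 i)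
noncomputable def s3836_3838 (i sh : Nat) : Nat := Bool.rec (Nat.shiftRight leaf3836 sh) (Nat.shiftRight leaf3837 sh) (Nat.ble 3837 i)
noncomputable def s3839_3841 (i sh : Nat) : Nat := Bool.rec (Nat.shiftRight leaf3839 sh) (Nat.shiftRight leaf3840 sh) (Nat.ble 3840 i)
noncomputable def s3838_3841 (i sh : Nat) : Nat := Bool.rec (Nat.shiftRight leaf3838 sh) (s3839_3841 i sh) (Nat.ble 3839 i)
noncomputable def s3836_3841 (i sh : Nat) : Nat := Bool.rec (s3836_3838 i sh) (s3838_3841 i sh) (Nat.ble 3838 i)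
noncomputable def s3831_3841 (i sh : Nat) : Nat := Bool.rec (s3831_3836 i sh) (s3836_3841 i sh) (Nat.ble 3836 i)
noncomputable def s3841_3843 (i sh : Nat) : Nat := Bool.rec (Nat.shiftRight leaf3841 sh) (Nat.shiftRight leaf3842 sh) (Nat.ble 3842 i)
noncomputable def s3844_3846 (i sh : Nat) : Nat := Bool.rec (Nat.shiftRight leaf3844 sh) (Nat.shiftRight leaf3845 sh) (Nat.ble 3845 i)
noncomputable def s3843_3846 (i sh : Nat) : Nat := Bool.rec (Nat.shiftRight leaf3843 sh) (s3844_3846 i sh) (Nat.ble 3844 i)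
noncomputable def s3841_3846 (i sh : Nat) : Nat := Bool.rec (s3841_3843 i sh) (s3843_3846 i sh) (Nat.ble 3843 i)
noncomputable def s3846_3848 (i sh : Nat) : Nat := Bool.rec (Nat.shiftRight leaf3846 sh) (Nat.shiftRight leaf3847 sh) (Nat.ble 3847 i)
noncomputable def s3849_3851 (i sh : Nat) : Nat := Bool.rec (Nat.shiftRight leaf3849 sh) (Nat.shiftRight leaf3850 sh) (Nat.ble 3850 i)
noncomputable def s3848_3851 (i sh : Nat) : Nat := Bool.rec (Nat.shiftRight leaf3848 sh) (s3849_3851 i sh) (Nat.ble 3849 i)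
noncomputable def s3846_3851 (i sh : Nat) : Nat := Bool.rec (s3846_3848 i sh) (s3848_3851 i sh) (Nat.ble 3848 i)
noncomputable def s3841_3851 (i sh : Nat) : Nat := Bool.rec (s3841_3846 i sh) (s3846_3851 i sh) (Nat.ble 3846 i)
noncomputable def s3831_3851 (i sh : Nat) : Nat := Bool.rec (s3831_3841 i sh) (s3841_3851 i sh) (Nat.ble 3841 i)
noncomputable def s3851_3853 (i sh : Nat) : Nat := Bool.rec (Nat.shiftRight leaf3851 sh) (Nat.shiftRight leaf3852 sh) (Nat.ble 3852 i)
noncomputable def s3854_3856 (i sh : Nat) : Nat := Bool.rec (Nat.shiftRight leaf3854 sh) (Nat.shiftRight leaf3855 sh) (Nat.ble 3855 i)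
noncomputable def s3853_3856 (i sh : Nat) : Nat := Bool.rec (Nat.shiftRight leaf3853 sh) (s3854_3856 i sh) (Nat.ble 3854 i)
noncomputable def s3851_3856 (i sh : Nat) : Nat := Bool.rec (s3851_3853 i sh) (s3853_3856 i sh) (Nat.ble 3853 i)
noncomputable def s3856_3858 (i sh : Nat) : Nat := Bool.rec (Nat.shiftRight leaf3856 sh) (Nat.shiftRight leaf3857 sh) (Nat.ble 3857 i)
noncomputable def s3859_3861 (i sh : Nat) : Nat := Bool.rec (Nat.shiftRight leaf3859 sh) (Nat.shiftRight leaf3860 sh) (Nat.ble 3860 i)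
noncomputable def s3858_3861 (i sh : Nat) : Nat := Bool.rec (Nat.shiftRight leaf3858 sh) (s3859_3861 i sh) (Nat.ble 3859 i)
noncomputable def s3856_3861 (i sh : Nat) : Nat := Bool.rec (s3856_3858 i sh) (s3858_3861 i sh) (Nat.ble 3858 i)
noncomputable def s3851_3861 (i sh : Nat) : Nat := Bool.rec (s3851_3856 i sh) (s3856_3861 i sh) (Nat.ble 3856 i)
noncomputable def s3861_3863 (i sh : Nat) : Nat := Bool.rec (Nat.shiftRight leaf3861 sh) (Nat.shiftRight leaf3862 sh) (Nat.ble 3862 i)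
noncomputable def s3864_3866 (i sh : Nat) : Nat := Bool.rec (Nat.shiftRight leaf3864 sh) (Nat.shiftRight leaf3865 sh) (Nat.ble 3865 i)
noncomputable def s3863_3866 (i sh : Nat) : Nat := Bool.rec (Nat.shiftRight leaf3863 sh) (s3864_3866 i sh) (Nat.ble 3864 i)
noncomputable def s3861_3866 (i sh : Nat) : Nat := Bool.rec (s3861_3863 i sh) (s3863_3866 i sh) (Nat.ble 3863 i)
noncomputable def s3867_3869 (i sh : Nat) : Nat := Bool.rec (Nat.shiftRight leaf3867 sh) (Nat.shiftRight leaf3868 sh) (Nat.ble 3868 i)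
noncomputable def s3866_3869 (i sh : Nat) : Nat := Bool.rec (Nat.shiftRight leaf3866 sh) (s3867_3869 i sh) (Nat.ble 3867 i)
noncomputable def s3870_3872 (i sh : Nat) : Nat := Bool.rec (Nat.shiftRight leaf3870 sh) (Nat.shiftRight leaf3871 sh) (Nat.ble 3871 i)
noncomputable def s3869_3872 (i sh : Nat) : Nat := Bool.rec (Nat.shiftRight leaf3869 sh) (s3870_3872 i sh) (Nat.ble 3870 i)
noncomputable def s3866_3872 (i sh : Nat) : Nat := Bool.rec (s3866_3869 i sh) (s3869_3872 i sh) (Nat.ble 3869 i)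
noncomputable def s3861_3872 (i sh : Nat) : Nat := Bool.rec (s3861_3866 i sh) (s3866_3872 i sh) (Nat.ble 3866 i)
noncomputable def s3851_3872 (i sh : Nat) : Nat := Bool.rec (s3851_3861 i sh) (s3861_3872 i sh) (Nat.ble 3861 i)
noncomputable def s3831_3872 (i sh : Nat) : Nat := Bool.rec (s3831_3851 i sh) (s3851_3872 i sh) (Nat.ble 3851 i)
noncomputable def s3791_3872 (i sh : Nat) : Nat := Bool.rec (s3791_3831 i sh) (s3831_3872 i sh) (Nat.ble 3831 i)
noncomputable def s3710_3872 (i sh : Nat) : Nat := Bool.rec (s3710_3791 i sh) (s3791_3872 i sh) (Nat.ble 3791 i)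
noncomputable def s3549_3872 (i sh : Nat) : Nat := Bool.rec (s3549_3710 i sh) (s3710_3872 i sh) (Nat.ble 3710 i)
noncomputable def s3226_3872 (i sh : Nat) : Nat := Bool.rec (s3226_3549 i sh) (s3549_3872 i sh) (Nat.ble 3549 i)
noncomputable def s2581_3872 (i sh : Nat) : Nat := Bool.rec (s2581_3226 i sh) (s3226_3872 i sh) (Nat.ble 3226 i)
noncomputable def s3872_3874 (i sh : Nat) : Nat := Bool.rec (Nat.shiftRight leaf3872 sh) (Nat.shiftRight leaf3873 sh) (Nat.ble 3873 i)
noncomputable def s3875_3877 (i sh : Nat) : Nat := Bool.rec (Nat.shiftRight leaf3875 sh) (Nat.shiftRight leaf3876 sh) (Nat.ble 3876 i)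
noncomputable def s3874_3877 (i sh : Nat) : Nat := Bool.rec (Nat.shiftRight leaf3874 sh) (s3875_3877 i sh) (Nat.ble 3875 i)
noncomputable def s3872_3877 (i sh : Nat) : Nat := Bool.rec (s3872_3874 i sh) (s3874_3877 i sh) (Nat.ble 3874 i)
noncomputable def s3877_3879 (i sh : Nat) : Nat := Bool.rec (Nat.shiftRight leaf3877 sh) (Nat.shiftRight leaf3878 sh) (Nat.ble 3878 i)
noncomputable def s3880_3882 (i sh : Nat) : Nat := Bool.rec (Nat.shiftRight leaf3880 sh) (Nat.shiftRight leaf3881 sh) (Nat.ble 3881 i)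
noncomputable def s3879_3882 (i sh : Nat) : Nat := Bool.rec (Nat.shiftRight leaf3879 sh) (s3880_3882 i sh) (Nat.ble 3880 i)
noncomputable def s3877_3882 (i sh : Nat) : Nat := Bool.rec (s3877_3879 i sh) (s3879_3882 i sh) (Nat.ble 3879 i)
noncomputable def s3872_3882 (i sh : Nat) : Nat := Bool.rec (s3872_3877 i sh) (s3877_3882 i sh) (Nat.ble 3877 i)
noncomputable def s3882_3884 (i sh : Nat) : Nat := Bool.rec (Nat.shiftRight leaf3882 sh) (Nat.shiftRight leaf3883 sh) (Nat.ble 3883 i)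
noncomputable def s3885_3887 (i sh : Nat) : Nat := Bool.rec (Nat.shiftRight leaf3885 sh) (Nat.shiftRight leaf3886 sh) (Nat.ble 3886 i)
noncomputable def s3884_3887 (i sh : Nat) : Nat := Bool.rec (Nat.shiftRight leaf3884 sh) (s3885_3887 i sh) (Nat.ble 3885 i)
noncomputable def s3882_3887 (i sh : Nat) : Nat := Bool.rec (s3882_3884 i sh) (s3884_3887 i sh) (Nat.ble 3884 i)
noncomputable def s3887_3889 (i sh : Nat) : Nat := Bool.rec (Nat.shiftRight leaf3887 sh) (Nat.shiftRight leaf3888 sh) (Nat.ble 3888 i)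
noncomputable def s3890_3892 (i sh : Nat) : Nat := Bool.rec (Nat.shiftRight leaf3890 sh) (Nat.shiftRight leaf3891 sh) (Nat.ble 3891 i)
noncomputable def s3889_3892 (i sh : Nat) : Nat := Bool.rec (Nat.shiftRight leaf3889 sh) (s3890_3892 i sh) (Nat.ble 3890 i)
noncomputable def s3887_3892 (i sh : Nat) : Nat := Bool.rec (s3887_3889 i sh) (s3889_3892 i sh) (Nat.ble 3889 i)
noncomputable def s3882_3892 (i sh : Nat) : Nat := Bool.rec (s3882_3887 i sh) (s3887_3892 i sh) (Nat.ble 3887 i)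
noncomputable def s3872_3892 (i sh : Nat) : Nat := Bool.rec (s3872_3882 i sh) (s3882_3892 i sh) (Nat.ble 3882 i)
noncomputable def s3892_3894 (i sh : Nat) : Nat := Bool.rec (Nat.shiftRight leaf3892 sh) (Nat.shiftRight leaf3893 sh) (Nat.ble 3893 i)
noncomputable def s3895_3897 (i sh : Nat) : Nat := Bool.rec (Nat.shiftRight leaf3895 sh) (Nat.shiftRight leaf3896 sh) (Nat.ble 3896 i)
noncomputable def s3894_3897 (i sh : Nat) : Nat := Bool.rec (Nat.shiftRight leaf3894 sh) (s3895_3897 i sh) (Nat.ble 3895 i)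
noncomputable def s3892_3897 (i sh : Nat) : Nat := Bool.rec (s3892_3894 i sh) (s3894_3897 i sh) (Nat.ble 3894 i)
noncomputable def s3897_3899 (i sh : Nat) : Nat := Bool.rec (Nat.shiftRight leaf3897 sh) (Nat.shiftRight leaf3898 sh) (Nat.ble 3898 i)
noncomputable def s3900_3902 (i sh : Nat) : Nat := Bool.rec (Nat.shiftRight leaf3900 sh) (Nat.shiftRight leaf3901 sh) (Nat.ble 3901 i)
noncomputable def s3899_3902 (i sh : Nat) : Nat := Bool.rec (Nat.shiftRight leaf3899 sh) (s3900_3902 i sh) (Nat.ble 3900 i)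
noncomputable def s3897_3902 (i sh : Nat) : Nat := Bool.rec (s3897_3899 i sh) (s3899_3902 i sh) (Nat.ble 3899 i)
noncomputable def s3892_3902 (i sh : Nat) : Nat := Bool.rec (s3892_3897 i sh) (s3897_3902 i sh) (Nat.ble 3897 i)
noncomputable def s3902_3904 (i sh : Nat) : Nat := Bool.rec (Nat.shiftRight leaf3902 sh) (Nat.shiftRight leaf3903 sh) (Nat.ble 3903 i)
noncomputable def s3905_3907 (i sh : Nat) : Nat := Bool.rec (Nat.shiftRight leaf3905 sh) (Nat.shiftRight leaf3906 sh) (Nat.ble 3906 i)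
noncomputable def s3904_3907 (i sh : Nat) : Nat := Bool.rec (Nat.shiftRight leaf3904 sh) (s3905_3907 i sh) (Nat.ble 3905 i)
noncomputable def s3902_3907 (i sh : Nat) : Nat := Bool.rec (s3902_3904 i sh) (s3904_3907 i sh) (Nat.ble 3904 i)
noncomputable def s3907_3909 (i sh : Nat) : Nat := Bool.rec (Nat.shiftRight leaf3907 sh) (Nat.shiftRight leaf3908 sh) (Nat.ble 3908 i)
noncomputable def s3910_3912 (i sh : Nat) : Nat := Bool.rec (Nat.shiftRight leaf3910 sh) (Nat.shiftRight leaf3911 sh) (Nat.ble 3911 i)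
noncomputable def s3909_3912 (i sh : Nat) : Nat := Bool.rec (Nat.shiftRight leaf3909 sh) (s3910_3912 i sh) (Nat.ble 3910 i)
noncomputable def s3907_3912 (i sh : Nat) : Nat := Bool.rec (s3907_3909 i sh) (s3909_3912 i sh) (Nat.ble 3909 i)
noncomputable def s3902_3912 (i sh : Nat) : Nat := Bool.rec (s3902_3907 i sh) (s3907_3912 i sh) (Nat.ble 3907 i)
noncomputable def s3892_3912 (i sh : Nat) : Nat := Bool.rec (s3892_3902 i sh) (s3902_3912 i sh) (Nat.ble 3902 i)
noncomputable def s3872_3912 (i sh : Nat) : Nat := Bool.rec (s3872_3892 i sh) (s3892_3912 i sh) (Nat.ble 3892 i)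
noncomputable def s3912_3914 (i sh : Nat) : Nat := Bool.rec (Nat.shiftRight leaf3912 sh) (Nat.shiftRight leaf3913 sh) (Nat.ble 3913 i)
noncomputable def s3915_3917 (i sh : Nat) : Nat := Bool.rec (Nat.shiftRight leaf3915 sh) (Nat.shiftRight leaf3916 sh) (Nat.ble 3916 i)
noncomputable def s3914_3917 (i sh : Nat) : Nat := Bool.rec (Nat.shiftRight leaf3914 sh) (s3915_3917 i sh) (Nat.ble 3915 i)
noncomputable def s3912_3917 (i sh : Nat) : Nat := Bool.rec (s3912_3914 i sh) (s3914_3917 i sh) (Nat.ble 3914 i)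
noncomputable def s3917_3919 (i sh : Nat) : Nat := Bool.rec (Nat.shiftRight leaf3917 sh) (Nat.shiftRight leaf3918 sh) (Nat.ble 3918 i)
noncomputable def s3920_3922 (i sh : Nat) : Nat := Bool.rec (Nat.shiftRight leaf3920 sh) (Nat.shiftRight leaf3921 sh) (Nat.ble 3921 i)
noncomputable def s3919_3922 (i sh : Nat) : Nat := Bool.rec (Nat.shiftRight leaf3919 sh) (s3920_3922 i sh) (Nat.ble 3920 i)
noncomputable def s3917_3922 (i sh : Nat) : Nat := Bool.rec (s3917_3919 i sh) (s3919_3922 i sh) (Nat.ble 3919 i)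
noncomputable def s3912_3922 (i sh : Nat) : Nat := Bool.rec (s3912_3917 i sh) (s3917_3922 i sh) (Nat.ble 3917 i)
noncomputable def s3922_3924 (i sh : Nat) : Nat := Bool.rec (Nat.shiftRight leaf3922 sh) (Nat.shiftRight leaf3923 sh) (Nat.ble 3923 i)
noncomputable def s3925_3927 (i sh : Nat) : Nat := Bool.rec (Nat.shiftRight leaf3925 sh) (Nat.shiftRight leaf3926 sh) (Nat.ble 3926 i)
noncomputable def s3924_3927 (i sh : Nat) : Nat := Bool.rec (Nat.shiftRight leaf3924 sh) (s3925_3927 i sh) (Nat.ble 3925 i)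
noncomputable def s3922_3927 (i sh : Nat) : Nat := Bool.rec (s3922_3924 i sh) (s3924_3927 i sh) (Nat.ble 3924 i)
noncomputable def s3927_3929 (i sh : Nat) : Nat := Bool.rec (Nat.shiftRight leaf3927 sh) (Nat.shiftRight leaf3928 sh) (Nat.ble 3928 i)
noncomputable def s3930_3932 (i sh : Nat) : Nat := Bool.rec (Nat.shiftRight leaf3930 sh) (Nat.shiftRight leaf3931 sh) (Nat.ble 3931 i)
noncomputable def s3929_3932 (i sh : Nat) : Nat := Bool.rec (Nat.shiftRight leaf3929 sh) (s3930_3932 i sh) (Nat.ble 3930 i)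
noncomputable def s3927_3932 (i sh : Nat) : Nat := Bool.rec (s3927_3929 i sh) (s3929_3932 i sh) (Nat.ble 3929 i)
noncomputable def s3922_3932 (i sh : Nat) : Nat := Bool.rec (s3922_3927 i sh) (s3927_3932 i sh) (Nat.ble 3927 i)
noncomputable def s3912_3932 (i sh : Nat) : Nat := Bool.rec (s3912_3922 i sh) (s3922_3932 i sh) (Nat.ble 3922 i)
noncomputable def s3932_3934 (i sh : Nat) : Nat := Bool.rec (Nat.shiftRight leaf3932 sh) (Nat.shiftRight leaf3933 sh) (Nat.ble 3933 i)
noncomputable def s3935_3937 (i sh : Nat) : Nat := Bool.rec (Nat.shiftRight leaf3935 sh) (Nat.shiftRight leaf3936 sh) (Nat.ble 3936 i)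
noncomputable def s3934_3937 (i sh : Nat) : Nat := Bool.rec (Nat.shiftRight leaf3934 sh) (s3935_3937 i sh) (Nat.ble 3935 i)
noncomputable def s3932_3937 (i sh : Nat) : Nat := Bool.rec (s3932_3934 i sh) (s3934_3937 i sh) (Nat.ble 3934 i)
noncomputable def s3937_3939 (i sh : Nat) : Nat := Bool.rec (Nat.shiftRight leaf3937 sh) (Nat.shiftRight leaf3938 sh) (Nat.ble 3938 i)
noncomputable def s3940_3942 (i sh : Nat) : Nat := Bool.rec (Nat.shiftRight leaf3940 sh) (Nat.shiftRight leaf3941 sh) (Nat.ble 3941 i)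
noncomputable def s3939_3942 (i sh : Nat) : Nat := Bool.rec (Nat.shiftRight leaf3939 sh) (s3940_3942 i sh) (Nat.ble 3940 i)
noncomputable def s3937_3942 (i sh : Nat) : Nat := Bool.rec (s3937_3939 i sh) (s3939_3942 i sh) (Nat.ble 3939 i)
noncomputable def s3932_3942 (i sh : Nat) : Nat := Bool.rec (s3932_3937 i sh) (s3937_3942 i sh) (Nat.ble 3937 i)
noncomputable def s3942_3944 (i sh : Nat) : Nat := Bool.rec (Nat.shiftRight leaf3942 sh) (Nat.shiftRight leaf3943 sh) (Nat.ble 3943 i)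
noncomputable def s3945_3947 (i sh : Nat) : Nat := Bool.rec (Nat.shiftRight leaf3945 sh) (Nat.shiftRight leaf3946 sh) (Nat.ble 3946 i)
noncomputable def s3944_3947 (i sh : Nat) : Nat := Bool.rec (Nat.shiftRight leaf3944 sh) (s3945_3947 i sh) (Nat.ble 3945 i)
noncomputable def s3942_3947 (i sh : Nat) : Nat := Bool.rec (s3942_3944 i sh) (s3944_3947 i sh) (Nat.ble 3944 i)
noncomputable def s3947_3949 (i sh : Nat) : Nat := Bool.rec (Nat.shiftRight leaf3947 sh) (Nat.shiftRight leaf3948 sh) (Nat.ble 3948 i)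
noncomputable def s3950_3952 (i sh : Nat) : Nat := Bool.rec (Nat.shiftRight leaf3950 sh) (Nat.shiftRight leaf3951 sh) (Nat.ble 3951 i)
noncomputable def s3949_3952 (i sh : Nat) : Nat := Bool.rec (Nat.shiftRight leaf3949 sh) (s3950_3952 i sh) (Nat.ble 3950 i)
noncomputable def s3947_3952 (i sh : Nat) : Nat := Bool.rec (s3947_3949 i sh) (s3949_3952 i sh) (Nat.ble 3949 i)
noncomputable def s3942_3952 (i sh : Nat) : Nat := Bool.rec (s3942_3947 i sh) (s3947_3952 i sh) (Nat.ble 3947 i)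
noncomputable def s3932_3952 (i sh : Nat) : Nat := Bool.rec (s3932_3942 i sh) (s3942_3952 i sh) (Nat.ble 3942 i)
noncomputable def s3912_3952 (i sh : Nat) : Nat := Bool.rec (s3912_3932 i sh) (s3932_3952 i sh) (Nat.ble 3932 i)
noncomputable def s3872_3952 (i sh : Nat) : Nat := Bool.rec (s3872_3912 i sh) (s3912_3952 i sh) (Nat.ble 3912 i)
noncomputable def s3952_3954 (i sh : Nat) : Nat := Bool.rec (Nat.shiftRight leaf3952 sh) (Nat.shiftRight leaf3953 sh) (Nat.ble 3953 i)
noncomputable def s3955_3957 (i sh : Nat) : Nat := Bool.rec (Nat.shiftRight leaf3955 sh) (Nat.shiftRight leaf3956 sh) (Nat.ble 3956 i)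
noncomputable def s3954_3957 (i sh : Nat) : Nat := Bool.rec (Nat.shiftRight leaf3954 sh) (s3955_3957 i sh) (Nat.ble 3955 i)
noncomputable def s3952_3957 (i sh : Nat) : Nat := Bool.rec (s3952_3954 i sh) (s3954_3957 i sh) (Nat.ble 3954 i)
noncomputable def s3957_3959 (i sh : Nat) : Nat := Bool.rec (Nat.shiftRight leaf3957 sh) (Nat.shiftRight leaf3958 sh) (Nat.ble 3958 i)
noncomputable def s3960_3962 (i sh : Nat) : Nat := Bool.rec (Nat.shiftRight leaf3960 sh) (Nat.shiftRight leaf3961 sh) (Nat.ble 3961 i)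
noncomputable def s3959_3962 (i sh : Nat) : Nat := Bool.rec (Nat.shiftRight leaf3959 sh) (s3960_3962 i sh) (Nat.ble 3960 i)
noncomputable def s3957_3962 (i sh : Nat) : Nat := Bool.rec (s3957_3959 i sh) (s3959_3962 i sh) (Nat.ble 3959 i)
noncomputable def s3952_3962 (i sh : Nat) : Nat := Bool.rec (s3952_3957 i sh) (s3957_3962 i sh) (Nat.ble 3957 i)
noncomputable def s3962_3964 (i sh : Nat) : Nat := Bool.rec (Nat.shiftRight leaf3962 sh) (Nat.shiftRight leaf3963 sh) (Nat.ble 3963 i)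
noncomputable def s3965_3967 (i sh : Nat) : Nat := Bool.rec (Nat.shiftRight leaf3965 sh) (Nat.shiftRight leaf3966 sh) (Nat.ble 3966 i)
noncomputable def s3964_3967 (i sh : Nat) : Nat := Bool.rec (Nat.shiftRight leaf3964 sh) (s3965_3967 i sh) (Nat.ble 3965 i)
noncomputable def s3962_3967 (i sh : Nat) : Nat := Bool.rec (s3962_3964 i sh) (s3964_3967 i sh) (Nat.ble 3964 i)
noncomputable def s3967_3969 (i sh : Nat) : Nat := Bool.rec (Nat.shiftRight leaf3967 sh) (Nat.shiftRight leaf3968 sh) (Nat.ble 3968 i)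
noncomputable def s3970_3972 (i sh : Nat) : Nat := Bool.rec (Nat.shiftRight leaf3970 sh) (Nat.shiftRight leaf3971 sh) (Nat.ble 3971 i)
noncomputable def s3969_3972 (i sh : Nat) : Nat := Bool.rec (Nat.shiftRight leaf3969 sh) (s3970_3972 i sh) (Nat.ble 3970 i)
noncomputable def s3967_3972 (i sh : Nat) : Nat := Bool.rec (s3967_3969 i sh) (s3969_3972 i sh) (Nat.ble 3969 i)
noncomputable def s3962_3972 (i sh : Nat) : Nat := Bool.rec (s3962_3967 i sh) (s3967_3972 i sh) (Nat.ble 3967 i)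
noncomputable def s3952_3972 (i sh : Nat) : Nat := Bool.rec (s3952_3962 i sh) (s3962_3972 i sh) (Nat.ble 3962 i)
noncomputable def s3972_3974 (i sh : Nat) : Nat := Bool.rec (Nat.shiftRight leaf3972 sh) (Nat.shiftRight leaf3973 sh) (Nat.ble 3973 i)
noncomputable def s3975_3977 (i sh : Nat) : Nat := Bool.rec (Nat.shiftRight leaf3975 sh) (Nat.shiftRight leaf3976 sh) (Nat.ble 3976 i)
noncomputable def s3974_3977 (i sh : Nat) : Nat := Bool.rec (Nat.shiftRight leaf3974 sh) (s3975_3977 i sh) (Nat.ble 3975 i)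
noncomputable def s3972_3977 (i sh : Nat) : Nat := Bool.rec (s3972_3974 i sh) (s3974_3977 i sh) (Nat.ble 3974 i)
noncomputable def s3977_3979 (i sh : Nat) : Nat := Bool.rec (Nat.shiftRight leaf3977 sh) (Nat.shiftRight leaf3978 sh) (Nat.ble 3978 i)
noncomputable def s3980_3982 (i sh : Nat) : Nat := Bool.rec (Nat.shiftRight leaf3980 sh) (Nat.shiftRight leaf3981 sh) (Nat.ble 3981 i)
noncomputable def s3979_3982 (i sh : Nat) : Nat := Bool.rec (Nat.shiftRight leaf3979 sh) (s3980_3982 i sh) (Nat.ble 3980 i)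
noncomputable def s3977_3982 (i sh : Nat) : Nat := Bool.rec (s3977_3979 i sh) (s3979_3982 i sh) (Nat.ble 3979 i)
noncomputable def s3972_3982 (i sh : Nat) : Nat := Bool.rec (s3972_3977 i sh) (s3977_3982 i sh) (Nat.ble 3977 i)
noncomputable def s3982_3984 (i sh : Nat) : Nat := Bool.rec (Nat.shiftRight leaf3982 sh) (Nat.shiftRight leaf3983 sh) (Nat.ble 3983 i)
noncomputable def s3985_3987 (i sh : Nat) : Nat := Bool.rec (Nat.shiftRight leaf3985 sh) (Nat.shiftRight leaf3986 sh) (Nat.ble 3986 i)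
noncomputable def s3984_3987 (i sh : Nat) : Nat := Bool.rec (Nat.shiftRight leaf3984 sh) (s3985_3987 i sh) (Nat.ble 3985 i)
noncomputable def s3982_3987 (i sh : Nat) : Nat := Bool.rec (s3982_3984 i sh) (s3984_3987 i sh) (Nat.ble 3984 i)
noncomputable def s3987_3989 (i sh : Nat) : Nat := Bool.rec (Nat.shiftRight leaf3987 sh) (Nat.shiftRight leaf3988 sh) (Nat.ble 3988 i)
noncomputable def s3990_3992 (i sh : Nat) : Nat := Bool.rec (Nat.shiftRight leaf3990 sh) (Nat.shiftRight leaf3991 sh) (Nat.ble 3991 i)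
noncomputable def s3989_3992 (i sh : Nat) : Nat := Bool.rec (Nat.shiftRight leaf3989 sh) (s3990_3992 i sh) (Nat.ble 3990 i)
noncomputable def s3987_3992 (i sh : Nat) : Nat := Bool.rec (s3987_3989 i sh) (s3989_3992 i sh) (Nat.ble 3989 i)
noncomputable def s3982_3992 (i sh : Nat) : Nat := Bool.rec (s3982_3987 i sh) (s3987_3992 i sh) (Nat.ble 3987 i)
noncomputable def s3972_3992 (i sh : Nat) : Nat := Bool.rec (s3972_3982 i sh) (s3982_3992 i sh) (Nat.ble 3982 i)
noncomputable def s3952_3992 (i sh : Nat) : Nat := Bool.rec (s3952_3972 i sh) (s3972_3992 i sh) (Nat.ble 3972 i)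
noncomputable def s3992_3994 (i sh : Nat) : Nat := Bool.rec (Nat.shiftRight leaf3992 sh) (Nat.shiftRight leaf3993 sh) (Nat.ble 3993 i)
noncomputable def s3995_3997 (i sh : Nat) : Nat := Bool.rec (Nat.shiftRight leaf3995 sh) (Nat.shiftRight leaf3996 sh) (Nat.ble 3996 i)
noncomputable def s3994_3997 (i sh : Nat) : Nat := Bool.rec (Nat.shiftRight leaf3994 sh) (s3995_3997 i sh) (Nat.ble 3995 i)
noncomputable def s3992_3997 (i sh : Nat) : Nat := Bool.rec (s3992_3994 i sh) (s3994_3997 i sh) (Nat.ble 3994 i)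
noncomputable def s3997_3999 (i sh : Nat) : Nat := Bool.rec (Nat.shiftRight leaf3997 sh) (Nat.shiftRight leaf3998 sh) (Nat.ble 3998 i)
noncomputable def s4000_4002 (i sh : Nat) : Nat := Bool.rec (Nat.shiftRight leaf4000 sh) (Nat.shiftRight leaf4001 sh) (Nat.ble 4001 i)
noncomputable def s3999_4002 (i sh : Nat) : Nat := Bool.rec (Nat.shiftRight leaf3999 sh) (s4000_4002 i sh) (Nat.ble 4000 i)
noncomputable def s3997_4002 (i sh : Nat) : Nat := Bool.rec (s3997_3999 i sh) (s3999_4002 i sh) (Nat.ble 3999 i)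
noncomputable def s3992_4002 (i sh : Nat) : Nat := Bool.rec (s3992_3997 i sh) (s3997_4002 i sh) (Nat.ble 3997 i)
noncomputable def s4002_4004 (i sh : Nat) : Nat := Bool.rec (Nat.shiftRight leaf4002 sh) (Nat.shiftRight leaf4003 sh) (Nat.ble 4003 i)
noncomputable def s4005_4007 (i sh : Nat) : Nat := Bool.rec (Nat.shiftRight leaf4005 sh) (Nat.shiftRight leaf4006 sh) (Nat.ble 4006 i)
noncomputable def s4004_4007 (i sh : Nat) : Nat := Bool.rec (Nat.shiftRight leaf4004 sh) (s4005_4007 i sh) (Nat.ble 4005 i)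
noncomputable def s4002_4007 (i sh : Nat) : Nat := Bool.rec (s4002_4004 i sh) (s4004_4007 i sh) (Nat.ble 4004 i)
noncomputable def s4007_4009 (i sh : Nat) : Nat := Bool.rec (Nat.shiftRight leaf4007 sh) (Nat.shiftRight leaf4008 sh) (Nat.ble 4008 i)
noncomputable def s4010_4012 (i sh : Nat) : Nat := Bool.rec (Nat.shiftRight leaf4010 sh) (Nat.shiftRight leaf4011 sh) (Nat.ble 4011 i)
noncomputable def s4009_4012 (i sh : Nat) : Nat := Bool.rec (Nat.shiftRight leaf4009 sh) (s4010_4012 i sh) (Nat.ble 4010 i)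
noncomputable def s4007_4012 (i sh : Nat) : Nat := Bool.rec (s4007_4009 i sh) (s4009_4012 i sh) (Nat.ble 4009 i)
noncomputable def s4002_4012 (i sh : Nat) : Nat := Bool.rec (s4002_4007 i sh) (s4007_4012 i sh) (Nat.ble 4007 i)
noncomputable def s3992_4012 (i sh : Nat) : Nat := Bool.rec (s3992_4002 i sh) (s4002_4012 i sh) (Nat.ble 4002 i)
noncomputable def s4012_4014 (i sh : Nat) : Nat := Bool.rec (Nat.shiftRight leaf4012 sh) (Nat.shiftRight leaf4013 sh) (Nat.ble 4013 i)
noncomputable def s4015_4017 (i sh : Nat) : Nat := Bool.rec (Nat.shiftRight leaf4015 sh) (Nat.shiftRight leaf4016 sh) (Nat.ble 4016 i)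
noncomputable def s4014_4017 (i sh : Nat) : Nat := Bool.rec (Nat.shiftRight leaf4014 sh) (s4015_4017 i sh) (Nat.ble 4015 i)
noncomputable def s4012_4017 (i sh : Nat) : Nat := Bool.rec (s4012_4014 i sh) (s4014_4017 i sh) (Nat.ble 4014 i)
noncomputable def s4017_4019 (i sh : Nat) : Nat := Bool.rec (Nat.shiftRight leaf4017 sh) (Nat.shiftRight leaf4018 sh) (Nat.ble 4018 i)
noncomputable def s4020_4022 (i sh : Nat) : Nat := Bool.rec (Nat.shiftRight leaf4020 sh) (Nat.shiftRight leaf4021 sh) (Nat.ble 4021 i)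
noncomputable def s4019_4022 (i sh : Nat) : Nat := Bool.rec (Nat.shiftRight leaf4019 sh) (s4020_4022 i sh) (Nat.ble 4020 i)
noncomputable def s4017_4022 (i sh : Nat) : Nat := Bool.rec (s4017_4019 i sh) (s4019_4022 i sh) (Nat.ble 4019 i)
noncomputable def s4012_4022 (i sh : Nat) : Nat := Bool.rec (s4012_4017 i sh) (s4017_4022 i sh) (Nat.ble 4017 i)
noncomputable def s4022_4024 (i sh : Nat) : Nat := Bool.rec (Nat.shiftRight leaf4022 sh) (Nat.shiftRight leaf4023 sh) (Nat.ble 4023 i)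
noncomputable def s4025_4027 (i sh : Nat) : Nat := Bool.rec (Nat.shiftRight leaf4025 sh) (Nat.shiftRight leaf4026 sh) (Nat.ble 4026 i)
noncomputable def s4024_4027 (i sh : Nat) : Nat := Bool.rec (Nat.shiftRight leaf4024 sh) (s4025_4027 i sh) (Nat.ble 4025 i)
noncomputable def s4022_4027 (i sh : Nat) : Nat := Bool.rec (s4022_4024 i sh) (s4024_4027 i sh) (Nat.ble 4024 i)
noncomputable def s4028_4030 (i sh : Nat) : Nat := Bool.rec (Nat.shiftRight leaf4028 sh) (Nat.shiftRight leaf4029 sh) (Nat.ble 4029 i)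
noncomputable def s4027_4030 (i sh : Nat) : Nat := Bool.rec (Nat.shiftRight leaf4027 sh) (s4028_4030 i sh) (Nat.ble 4028 i)
noncomputable def s4031_4033 (i sh : Nat) : Nat := Bool.rec (Nat.shiftRight leaf4031 sh) (Nat.shiftRight leaf4032 sh) (Nat.ble 4032 i)
noncomputable def s4030_4033 (i sh : Nat) : Nat := Bool.rec (Nat.shiftRight leaf4030 sh) (s4031_4033 i sh) (Nat.ble 4031 i)
noncomputable def s4027_4033 (i sh : Nat) : Nat := Bool.rec (s4027_4030 i sh) (s4030_4033 i sh) (Nat.ble 4030 i)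
noncomputable def s4022_4033 (i sh : Nat) : Nat := Bool.rec (s4022_4027 i sh) (s4027_4033 i sh) (Nat.ble 4027 i)
noncomputable def s4012_4033 (i sh : Nat) : Nat := Bool.rec (s4012_4022 i sh) (s4022_4033 i sh) (Nat.ble 4022 i)
noncomputable def s3992_4033 (i sh : Nat) : Nat := Bool.rec (s3992_4012 i sh) (s4012_4033 i sh) (Nat.ble 4012 i)
noncomputable def s3952_4033 (i sh : Nat) : Nat := Bool.rec (s3952_3992 i sh) (s3992_4033 i sh) (Nat.ble 3992 i)
noncomputable def s3872_4033 (i sh : Nat) : Nat := Bool.rec (s3872_3952 i sh) (s3952_4033 i sh) (Nat.ble 3952 i)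
noncomputable def s4033_4035 (i sh : Nat) : Nat := Bool.rec (Nat.shiftRight leaf4033 sh) (Nat.shiftRight leaf4034 sh) (Nat.ble 4034 i)
noncomputable def s4036_4038 (i sh : Nat) : Nat := Bool.rec (Nat.shiftRight leaf4036 sh) (Nat.shiftRight leaf4037 sh) (Nat.ble 4037 i)
noncomputable def s4035_4038 (i sh : Nat) : Nat := Bool.rec (Nat.shiftRight leaf4035 sh) (s4036_4038 i sh) (Nat.ble 4036 i)
noncomputable def s4033_4038 (i sh : Nat) : Nat := Bool.rec (s4033_4035 i sh) (s4035_4038 i sh) (Nat.ble 4035 i)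
noncomputable def s4038_4040 (i sh : Nat) : Nat := Bool.rec (Nat.shiftRight leaf4038 sh) (Nat.shiftRight leaf4039 sh) (Nat.ble 4039 i)
noncomputable def s4041_4043 (i sh : Nat) : Nat := Bool.rec (Nat.shiftRight leaf4041 sh) (Nat.shiftRight leaf4042 sh) (Nat.ble 4042 i)
noncomputable def s4040_4043 (i sh : Nat) : Nat := Bool.rec (Nat.shiftRight leaf4040 sh) (s4041_4043 i sh) (Nat.ble 4041 i)
noncomputable def s4038_4043 (i sh : Nat) : Nat := Bool.rec (s4038_4040 i sh) (s4040_4043 i sh) (Nat.ble 4040 i)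
noncomputable def s4033_4043 (i sh : Nat) : Nat := Bool.rec (s4033_4038 i sh) (s4038_4043 i sh) (Nat.ble 4038 i)
noncomputable def s4043_4045 (i sh : Nat) : Nat := Bool.rec (Nat.shiftRight leaf4043 sh) (Nat.shiftRight leaf4044 sh) (Nat.ble 4044 i)
noncomputable def s4046_4048 (i sh : Nat) : Nat := Bool.rec (Nat.shiftRight leaf4046 sh) (Nat.shiftRight leaf4047 sh) (Nat.ble 4047 i)
noncomputable def s4045_4048 (i sh : Nat) : Nat := Bool.rec (Nat.shiftRight leaf4045 sh) (s4046_4048 i sh) (Nat.ble 4046 i)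
noncomputable def s4043_4048 (i sh : Nat) : Nat := Bool.rec (s4043_4045 i sh) (s4045_4048 i sh) (Nat.ble 4045 i)
noncomputable def s4048_4050 (i sh : Nat) : Nat := Bool.rec (Nat.shiftRight leaf4048 sh) (Nat.shiftRight leaf4049 sh) (Nat.ble 4049 i)
noncomputable def s4051_4053 (i sh : Nat) : Nat := Bool.rec (Nat.shiftRight leaf4051 sh) (Nat.shiftRight leaf4052 sh) (Nat.ble 4052 i)
noncomputable def s4050_4053 (i sh : Nat) : Nat := Bool.rec (Nat.shiftRight leaf4050 sh) (s4051_4053 i sh) (Nat.ble 4051 i)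
noncomputable def s4048_4053 (i sh : Nat) : Nat := Bool.rec (s4048_4050 i sh) (s4050_4053 i sh) (Nat.ble 4050 i)
noncomputable def s4043_4053 (i sh : Nat) : Nat := Bool.rec (s4043_4048 i sh) (s4048_4053 i sh) (Nat.ble 4048 i)
noncomputable def s4033_4053 (i sh : Nat) : Nat := Bool.rec (s4033_4043 i sh) (s4043_4053 i sh) (Nat.ble 4043 i)
noncomputable def s4053_4055 (i sh : Nat) : Nat := Bool.rec (Nat.shiftRight leaf4053 sh) (Nat.shiftRight leaf4054 sh) (Nat.ble 4054 i)
noncomputable def s4056_4058 (i sh : Nat) : Nat := Bool.rec (Nat.shiftRight leaf4056 sh) (Nat.shiftRight leaf4057 sh) (Nat.ble 4057 i)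
noncomputable def s4055_4058 (i sh : Nat) : Nat := Bool.rec (Nat.shiftRight leaf4055 sh) (s4056_4058 i sh) (Nat.ble 4056 i)
noncomputable def s4053_4058 (i sh : Nat) : Nat := Bool.rec (s4053_4055 i sh) (s4055_4058 i sh) (Nat.ble 4055 i)
noncomputable def s4058_4060 (i sh : Nat) : Nat := Bool.rec (Nat.shiftRight leaf4058 sh) (Nat.shiftRight leaf4059 sh) (Nat.ble 4059 i)
noncomputable def s4061_4063 (i sh : Nat) : Nat := Bool.rec (Nat.shiftRight leaf4061 sh) (Nat.shiftRight leaf4062 sh) (Nat.ble 4062 i)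
noncomputable def s4060_4063 (i sh : Nat) : Nat := Bool.rec (Nat.shiftRight leaf4060 sh) (s4061_4063 i sh) (Nat.ble 4061 i)
noncomputable def s4058_4063 (i sh : Nat) : Nat := Bool.rec (s4058_4060 i sh) (s4060_4063 i sh) (Nat.ble 4060 i)
noncomputable def s4053_4063 (i sh : Nat) : Nat := Bool.rec (s4053_4058 i sh) (s4058_4063 i sh) (Nat.ble 4058 i)
noncomputable def s4063_4065 (i sh : Nat) : Nat := Bool.rec (Nat.shiftRight leaf4063 sh) (Nat.shiftRight leaf4064 sh) (Nat.ble 4064 i)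
noncomputable def s4066_4068 (i sh : Nat) : Nat := Bool.rec (Nat.shiftRight leaf4066 sh) (Nat.shiftRight leaf4067 sh) (Nat.ble 4067 i)
noncomputable def s4065_4068 (i sh : Nat) : Nat := Bool.rec (Nat.shiftRight leaf4065 sh) (s4066_4068 i sh) (Nat.ble 4066 i)
noncomputable def s4063_4068 (i sh : Nat) : Nat := Bool.rec (s4063_4065 i sh) (s4065_4068 i sh) (Nat.ble 4065 i)
noncomputable def s4068_4070 (i sh : Nat) : Nat := Bool.rec (Nat.shiftRight leaf4068 sh) (Nat.shiftRight leaf4069 sh) (Nat.ble 4069 i)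
noncomputable def s4071_4073 (i sh : Nat) : Nat := Bool.rec (Nat.shiftRight leaf4071 sh) (Nat.shiftRight leaf4072 sh) (Nat.ble 4072 i)
noncomputable def s4070_4073 (i sh : Nat) : Nat := Bool.rec (Nat.shiftRight leaf4070 sh) (s4071_4073 i sh) (Nat.ble 4071 i)
noncomputable def s4068_4073 (i sh : Nat) : Nat := Bool.rec (s4068_4070 i sh) (s4070_4073 i sh) (Nat.ble 4070 i)
noncomputable def s4063_4073 (i sh : Nat) : Nat := Bool.rec (s4063_4068 i sh) (s4068_4073 i sh) (Nat.ble 4068 i)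
noncomputable def s4053_4073 (i sh : Nat) : Nat := Bool.rec (s4053_4063 i sh) (s4063_4073 i sh) (Nat.ble 4063 i)
noncomputable def s4033_4073 (i sh : Nat) : Nat := Bool.rec (s4033_4053 i sh) (s4053_4073 i sh) (Nat.ble 4053 i)
noncomputable def s4073_4075 (i sh : Nat) : Nat := Bool.rec (Nat.shiftRight leaf4073 sh) (Nat.shiftRight leaf4074 sh) (Nat.ble 4074 i)
noncomputable def s4076_4078 (i sh : Nat) : Nat := Bool.rec (Nat.shiftRight leaf4076 sh) (Nat.shiftRight leaf4077 sh) (Nat.ble 4077 i)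
noncomputable def s4075_4078 (i sh : Nat) : Nat := Bool.rec (Nat.shiftRight leaf4075 sh) (s4076_4078 i sh) (Nat.ble 4076 i)
noncomputable def s4073_4078 (i sh : Nat) : Nat := Bool.rec (s4073_4075 i sh) (s4075_4078 i sh) (Nat.ble 4075 i)
noncomputable def s4078_4080 (i sh : Nat) : Nat := Bool.rec (Nat.shiftRight leaf4078 sh) (Nat.shiftRight leaf4079 sh) (Nat.ble 4079 i)
noncomputable def s4081_4083 (i sh : Nat) : Nat := Bool.rec (Nat.shiftRight leaf4081 sh) (Nat.shiftRight leaf4082 sh) (Nat.ble 4082 i)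
noncomputable def s4080_4083 (i sh : Nat) : Nat := Bool.rec (Nat.shiftRight leaf4080 sh) (s4081_4083 i sh) (Nat.ble 4081 i)
noncomputable def s4078_4083 (i sh : Nat) : Nat := Bool.rec (s4078_4080 i sh) (s4080_4083 i sh) (Nat.ble 4080 i)
noncomputable def s4073_4083 (i sh : Nat) : Nat := Bool.rec (s4073_4078 i sh) (s4078_4083 i sh) (Nat.ble 4078 i)
noncomputable def s4083_4085 (i sh : Nat) : Nat := Bool.rec (Nat.shiftRight leaf4083 sh) (Nat.shiftRight leaf4084 sh) (Nat.ble 4084 i)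
noncomputable def s4086_4088 (i sh : Nat) : Nat := Bool.rec (Nat.shiftRight leaf4086 sh) (Nat.shiftRight leaf4087 sh) (Nat.ble 4087 i)
noncomputable def s4085_4088 (i sh : Nat) : Nat := Bool.rec (Nat.shiftRight leaf4085 sh) (s4086_4088 i sh) (Nat.ble 4086 i)
noncomputable def s4083_4088 (i sh : Nat) : Nat := Bool.rec (s4083_4085 i sh) (s4085_4088 i sh) (Nat.ble 4085 i)
noncomputable def s4088_4090 (i sh : Nat) : Nat := Bool.rec (Nat.shiftRight leaf4088 sh) (Nat.shiftRight leaf4089 sh) (Nat.ble 4089 i)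
noncomputable def s4091_4093 (i sh : Nat) : Nat := Bool.rec (Nat.shiftRight leaf4091 sh) (Nat.shiftRight leaf4092 sh) (Nat.ble 4092 i)
noncomputable def s4090_4093 (i sh : Nat) : Nat := Bool.rec (Nat.shiftRight leaf4090 sh) (s4091_4093 i sh) (Nat.ble 4091 i)
noncomputable def s4088_4093 (i sh : Nat) : Nat := Bool.rec (s4088_4090 i sh) (s4090_4093 i sh) (Nat.ble 4090 i)
noncomputable def s4083_4093 (i sh : Nat) : Nat := Bool.rec (s4083_4088 i sh) (s4088_4093 i sh) (Nat.ble 4088 i)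
noncomputable def s4073_4093 (i sh : Nat) : Nat := Bool.rec (s4073_4083 i sh) (s4083_4093 i sh) (Nat.ble 4083 i)
noncomputable def s4093_4095 (i sh : Nat) : Nat := Bool.rec (Nat.shiftRight leaf4093 sh) (Nat.shiftRight leaf4094 sh) (Nat.ble 4094 i)
noncomputable def s4096_4098 (i sh : Nat) : Nat := Bool.rec (Nat.shiftRight leaf4096 sh) (Nat.shiftRight leaf4097 sh) (Nat.ble 4097 i)
noncomputable def s4095_4098 (i sh : Nat) : Nat := Bool.rec (Nat.shiftRight leaf4095 sh) (s4096_4098 i sh) (Nat.ble 4096 i)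
noncomputable def s4093_4098 (i sh : Nat) : Nat := Bool.rec (s4093_4095 i sh) (s4095_4098 i sh) (Nat.ble 4095 i)
noncomputable def s4098_4100 (i sh : Nat) : Nat := Bool.rec (Nat.shiftRight leaf4098 sh) (Nat.shiftRight leaf4099 sh) (Nat.ble 4099 i)
noncomputable def s4101_4103 (i sh : Nat) : Nat := Bool.rec (Nat.shiftRight leaf4101 sh) (Nat.shiftRight leaf4102 sh) (Nat.ble 4102 i)
noncomputable def s4100_4103 (i sh : Nat) : Nat := Bool.rec (Nat.shiftRight leaf4100 sh) (s4101_4103 i sh) (Nat.ble 4101 i)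
noncomputable def s4098_4103 (i sh : Nat) : Nat := Bool.rec (s4098_4100 i sh) (s4100_4103 i sh) (Nat.ble 4100 i)
noncomputable def s4093_4103 (i sh : Nat) : Nat := Bool.rec (s4093_4098 i sh) (s4098_4103 i sh) (Nat.ble 4098 i)
noncomputable def s4103_4105 (i sh : Nat) : Nat := Bool.rec (Nat.shiftRight leaf4103 sh) (Nat.shiftRight leaf4104 sh) (Nat.ble 4104 i)
noncomputable def s4106_4108 (i sh : Nat) : Nat := Bool.rec (Nat.shiftRight leaf4106 sh) (Nat.shiftRight leaf4107 sh) (Nat.ble 4107 i)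
noncomputable def s4105_4108 (i sh : Nat) : Nat := Bool.rec (Nat.shiftRight leaf4105 sh) (s4106_4108 i sh) (Nat.ble 4106 i)
noncomputable def s4103_4108 (i sh : Nat) : Nat := Bool.rec (s4103_4105 i sh) (s4105_4108 i sh) (Nat.ble 4105 i)
noncomputable def s4108_4110 (i sh : Nat) : Nat := Bool.rec (Nat.shiftRight leaf4108 sh) (Nat.shiftRight leaf4109 sh) (Nat.ble 4109 i)
noncomputable def s4111_4113 (i sh : Nat) : Nat := Bool.rec (Nat.shiftRight leaf4111 sh) (Nat.shiftRight leaf4112 sh) (Nat.ble 4112 i)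
noncomputable def s4110_4113 (i sh : Nat) : Nat := Bool.rec (Nat.shiftRight leaf4110 sh) (s4111_4113 i sh) (Nat.ble 4111 i)
noncomputable def s4108_4113 (i sh : Nat) : Nat := Bool.rec (s4108_4110 i sh) (s4110_4113 i sh) (Nat.ble 4110 i)
noncomputable def s4103_4113 (i sh : Nat) : Nat := Bool.rec (s4103_4108 i sh) (s4108_4113 i sh) (Nat.ble 4108 i)
noncomputable def s4093_4113 (i sh : Nat) : Nat := Bool.rec (s4093_4103 i sh) (s4103_4113 i sh) (Nat.ble 4103 i)
noncomputable def s4073_4113 (i sh : Nat) : Nat := Bool.rec (s4073_4093 i sh) (s4093_4113 i sh) (Nat.ble 4093 i)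
noncomputable def s4033_4113 (i sh : Nat) : Nat := Bool.rec (s4033_4073 i sh) (s4073_4113 i sh) (Nat.ble 4073 i)
noncomputable def s4113_4115 (i sh : Nat) : Nat := Bool.rec (Nat.shiftRight leaf4113 sh) (Nat.shiftRight leaf4114 sh) (Nat.ble 4114 i)
noncomputable def s4116_4118 (i sh : Nat) : Nat := Bool.rec (Nat.shiftRight leaf4116 sh) (Nat.shiftRight leaf4117 sh) (Nat.ble 4117 i)
noncomputable def s4115_4118 (i sh : Nat) : Nat := Bool.rec (Nat.shiftRight leaf4115 sh) (s4116_4118 i sh) (Nat.ble 4116 i)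
noncomputable def s4113_4118 (i sh : Nat) : Nat := Bool.rec (s4113_4115 i sh) (s4115_4118 i sh) (Nat.ble 4115 i)
noncomputable def s4118_4120 (i sh : Nat) : Nat := Bool.rec (Nat.shiftRight leaf4118 sh) (Nat.shiftRight leaf4119 sh) (Nat.ble 4119 i)
noncomputable def s4121_4123 (i sh : Nat) : Nat := Bool.rec (Nat.shiftRight leaf4121 sh) (Nat.shiftRight leaf4122 sh) (Nat.ble 4122 i)
noncomputable def s4120_4123 (i sh : Nat) : Nat := Bool.rec (Nat.shiftRight leaf4120 sh) (s4121_4123 i sh) (Nat.ble 4121 i)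
noncomputable def s4118_4123 (i sh : Nat) : Nat := Bool.rec (s4118_4120 i sh) (s4120_4123 i sh) (Nat.ble 4120 i)
noncomputable def s4113_4123 (i sh : Nat) : Nat := Bool.rec (s4113_4118 i sh) (s4118_4123 i sh) (Nat.ble 4118 i)
noncomputable def s4123_4125 (i sh : Nat) : Nat := Bool.rec (Nat.shiftRight leaf4123 sh) (Nat.shiftRight leaf4124 sh) (Nat.ble 4124 i)
noncomputable def s4126_4128 (i sh : Nat) : Nat := Bool.rec (Nat.shiftRight leaf4126 sh) (Nat.shiftRight leaf4127 sh) (Nat.ble 4127 i)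
noncomputable def s4125_4128 (i sh : Nat) : Nat := Bool.rec (Nat.shiftRight leaf4125 sh) (s4126_4128 i sh) (Nat.ble 4126 i)
noncomputable def s4123_4128 (i sh : Nat) : Nat := Bool.rec (s4123_4125 i sh) (s4125_4128 i sh) (Nat.ble 4125 i)
noncomputable def s4128_4130 (i sh : Nat) : Nat := Bool.rec (Nat.shiftRight leaf4128 sh) (Nat.shiftRight leaf4129 sh) (Nat.ble 4129 i)
noncomputable def s4131_4133 (i sh : Nat) : Nat := Bool.rec (Nat.shiftRight leaf4131 sh) (Nat.shiftRight leaf4132 sh) (Nat.ble 4132 i)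
noncomputable def s4130_4133 (i sh : Nat) : Nat := Bool.rec (Nat.shiftRight leaf4130 sh) (s4131_4133 i sh) (Nat.ble 4131 i)
noncomputable def s4128_4133 (i sh : Nat) : Nat := Bool.rec (s4128_4130 i sh) (s4130_4133 i sh) (Nat.ble 4130 i)
noncomputable def s4123_4133 (i sh : Nat) : Nat := Bool.rec (s4123_4128 i sh) (s4128_4133 i sh) (Nat.ble 4128 i)
noncomputable def s4113_4133 (i sh : Nat) : Nat := Bool.rec (s4113_4123 i sh) (s4123_4133 i sh) (Nat.ble 4123 i)
noncomputable def s4133_4135 (i sh : Nat) : Nat := Bool.rec (Nat.shiftRight leaf4133 sh) (Nat.shiftRight leaf4134 sh) (Nat.ble 4134 i)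
noncomputable def s4136_4138 (i sh : Nat) : Nat := Bool.rec (Nat.shiftRight leaf4136 sh) (Nat.shiftRight leaf4137 sh) (Nat.ble 4137 i)
noncomputable def s4135_4138 (i sh : Nat) : Nat := Bool.rec (Nat.shiftRight leaf4135 sh) (s4136_4138 i sh) (Nat.ble 4136 i)
noncomputable def s4133_4138 (i sh : Nat) : Nat := Bool.rec (s4133_4135 i sh) (s4135_4138 i sh) (Nat.ble 4135 i)
noncomputable def s4138_4140 (i sh : Nat) : Nat := Bool.rec (Nat.shiftRight leaf4138 sh) (Nat.shiftRight leaf4139 sh) (Nat.ble 4139 i)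
noncomputable def s4141_4143 (i sh : Nat) : Nat := Bool.rec (Nat.shiftRight leaf4141 sh) (Nat.shiftRight leaf4142 sh) (Nat.ble 4142 i)
noncomputable def s4140_4143 (i sh : Nat) : Nat := Bool.rec (Nat.shiftRight leaf4140 sh) (s4141_4143 i sh) (Nat.ble 4141 i)
noncomputable def s4138_4143 (i sh : Nat) : Nat := Bool.rec (s4138_4140 i sh) (s4140_4143 i sh) (Nat.ble 4140 i)
noncomputable def s4133_4143 (i sh : Nat) : Nat := Bool.rec (s4133_4138 i sh) (s4138_4143 i sh) (Nat.ble 4138 i)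
noncomputable def s4143_4145 (i sh : Nat) : Nat := Bool.rec (Nat.shiftRight leaf4143 sh) (Nat.shiftRight leaf4144 sh) (Nat.ble 4144 i)
noncomputable def s4146_4148 (i sh : Nat) : Nat := Bool.rec (Nat.shiftRight leaf4146 sh) (Nat.shiftRight leaf4147 sh) (Nat.ble 4147 i)
noncomputable def s4145_4148 (i sh : Nat) : Nat := Bool.rec (Nat.shiftRight leaf4145 sh) (s4146_4148 i sh) (Nat.ble 4146 i)
noncomputable def s4143_4148 (i sh : Nat) : Nat := Bool.rec (s4143_4145 i sh) (s4145_4148 i sh) (Nat.ble 4145 i)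
noncomputable def s4148_4150 (i sh : Nat) : Nat := Bool.rec (Nat.shiftRight leaf4148 sh) (Nat.shiftRight leaf4149 sh) (Nat.ble 4149 i)
noncomputable def s4151_4153 (i sh : Nat) : Nat := Bool.rec (Nat.shiftRight leaf4151 sh) (Nat.shiftRight leaf4152 sh) (Nat.ble 4152 i)
noncomputable def s4150_4153 (i sh : Nat) : Nat := Bool.rec (Nat.shiftRight leaf4150 sh) (s4151_4153 i sh) (Nat.ble 4151 i)
noncomputable def s4148_4153 (i sh : Nat) : Nat := Bool.rec (s4148_4150 i sh) (s4150_4153 i sh) (Nat.ble 4150 i)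
noncomputable def s4143_4153 (i sh : Nat) : Nat := Bool.rec (s4143_4148 i sh) (s4148_4153 i sh) (Nat.ble 4148 i)
noncomputable def s4133_4153 (i sh : Nat) : Nat := Bool.rec (s4133_4143 i sh) (s4143_4153 i sh) (Nat.ble 4143 i)
noncomputable def s4113_4153 (i sh : Nat) : Nat := Bool.rec (s4113_4133 i sh) (s4133_4153 i sh) (Nat.ble 4133 i)
noncomputable def s4153_4155 (i sh : Nat) : Nat := Bool.rec (Nat.shiftRight leaf4153 sh) (Nat.shiftRight leaf4154 sh) (Nat.ble 4154 i)
noncomputable def s4156_4158 (i sh : Nat) : Nat := Bool.rec (Nat.shiftRight leaf4156 sh) (Nat.shiftRight leaf4157 sh) (Nat.ble 4157 i)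
noncomputable def s4155_4158 (i sh : Nat) : Nat := Bool.rec (Nat.shiftRight leaf4155 sh) (s4156_4158 i sh) (Nat.ble 4156 i)
noncomputable def s4153_4158 (i sh : Nat) : Nat := Bool.rec (s4153_4155 i sh) (s4155_4158 i sh) (Nat.ble 4155 i)
noncomputable def s4158_4160 (i sh : Nat) : Nat := Bool.rec (Nat.shiftRight leaf4158 sh) (Nat.shiftRight leaf4159 sh) (Nat.ble 4159 i)
noncomputable def s4161_4163 (i sh : Nat) : Nat := Bool.rec (Nat.shiftRight leaf4161 sh) (Nat.shiftRight leaf4162 sh) (Nat.ble 4162 i)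
noncomputable def s4160_4163 (i sh : Nat) : Nat := Bool.rec (Nat.shiftRight leaf4160 sh) (s4161_4163 i sh) (Nat.ble 4161 i)
noncomputable def s4158_4163 (i sh : Nat) : Nat := Bool.rec (s4158_4160 i sh) (s4160_4163 i sh) (Nat.ble 4160 i)
noncomputable def s4153_4163 (i sh : Nat) : Nat := Bool.rec (s4153_4158 i sh) (s4158_4163 i sh) (Nat.ble 4158 i)
noncomputable def s4163_4165 (i sh : Nat) : Nat := Bool.rec (Nat.shiftRight leaf4163 sh) (Nat.shiftRight leaf4164 sh) (Nat.ble 4164 i)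
noncomputable def s4166_4168 (i sh : Nat) : Nat := Bool.rec (Nat.shiftRight leaf4166 sh) (Nat.shiftRight leaf4167 sh) (Nat.ble 4167 i)
noncomputable def s4165_4168 (i sh : Nat) : Nat := Bool.rec (Nat.shiftRight leaf4165 sh) (s4166_4168 i sh) (Nat.ble 4166 i)
noncomputable def s4163_4168 (i sh : Nat) : Nat := Bool.rec (s4163_4165 i sh) (s4165_4168 i sh) (Nat.ble 4165 i)
noncomputable def s4168_4170 (i sh : Nat) : Nat := Bool.rec (Nat.shiftRight leaf4168 sh) (Nat.shiftRight leaf4169 sh) (Nat.ble 4169 i)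
noncomputable def s4171_4173 (i sh : Nat) : Nat := Bool.rec (Nat.shiftRight leaf4171 sh) (Nat.shiftRight leaf4172 sh) (Nat.ble 4172 i)
noncomputable def s4170_4173 (i sh : Nat) : Nat := Bool.rec (Nat.shiftRight leaf4170 sh) (s4171_4173 i sh) (Nat.ble 4171 i)
noncomputable def s4168_4173 (i sh : Nat) : Nat := Bool.rec (s4168_4170 i sh) (s4170_4173 i sh) (Nat.ble 4170 i)
noncomputable def s4163_4173 (i sh : Nat) : Nat := Bool.rec (s4163_4168 i sh) (s4168_4173 i sh) (Nat.ble 4168 i)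
noncomputable def s4153_4173 (i sh : Nat) : Nat := Bool.rec (s4153_4163 i sh) (s4163_4173 i sh) (Nat.ble 4163 i)
noncomputable def s4173_4175 (i sh : Nat) : Nat := Bool.rec (Nat.shiftRight leaf4173 sh) (Nat.shiftRight leaf4174 sh) (Nat.ble 4174 i)
noncomputable def s4176_4178 (i sh : Nat) : Nat := Bool.rec (Nat.shiftRight leaf4176 sh) (Nat.shiftRight leaf4177 sh) (Nat.ble 4177 i)
noncomputable def s4175_4178 (i sh : Nat) : Nat := Bool.rec (Nat.shiftRight leaf4175 sh) (s4176_4178 i sh) (Nat.ble 4176 i)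
noncomputable def s4173_4178 (i sh : Nat) : Nat := Bool.rec (s4173_4175 i sh) (s4175_4178 i sh) (Nat.ble 4175 i)
noncomputable def s4178_4180 (i sh : Nat) : Nat := Bool.rec (Nat.shiftRight leaf4178 sh) (Nat.shiftRight leaf4179 sh) (Nat.ble 4179 i)
noncomputable def s4181_4183 (i sh : Nat) : Nat := Bool.rec (Nat.shiftRight leaf4181 sh) (Nat.shiftRight leaf4182 sh) (Nat.ble 4182 i)
noncomputable def s4180_4183 (i sh : Nat) : Nat := Bool.rec (Nat.shiftRight leaf4180 sh) (s4181_4183 i sh) (Nat.ble 4181 i)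
noncomputable def s4178_4183 (i sh : Nat) : Nat := Bool.rec (s4178_4180 i sh) (s4180_4183 i sh) (Nat.ble 4180 i)
noncomputable def s4173_4183 (i sh : Nat) : Nat := Bool.rec (s4173_4178 i sh) (s4178_4183 i sh) (Nat.ble 4178 i)
noncomputable def s4183_4185 (i sh : Nat) : Nat := Bool.rec (Nat.shiftRight leaf4183 sh) (Nat.shiftRight leaf4184 sh) (Nat.ble 4184 i)
noncomputable def s4186_4188 (i sh : Nat) : Nat := Bool.rec (Nat.shiftRight leaf4186 sh) (Nat.shiftRight leaf4187 sh) (Nat.ble 4187 i)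
noncomputable def s4185_4188 (i sh : Nat) : Nat := Bool.rec (Nat.shiftRight leaf4185 sh) (s4186_4188 i sh) (Nat.ble 4186 i)
noncomputable def s4183_4188 (i sh : Nat) : Nat := Bool.rec (s4183_4185 i sh) (s4185_4188 i sh) (Nat.ble 4185 i)
noncomputable def s4189_4191 (i sh : Nat) : Nat := Bool.rec (Nat.shiftRight leaf4189 sh) (Nat.shiftRight leaf4190 sh) (Nat.ble 4190 i)
noncomputable def s4188_4191 (i sh : Nat) : Nat := Bool.rec (Nat.shiftRight leaf4188 sh) (s4189_4191 i sh) (Nat.ble 4189 i)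
noncomputable def s4192_4194 (i sh : Nat) : Nat := Bool.rec (Nat.shiftRight leaf4192 sh) (Nat.shiftRight leaf4193 sh) (Nat.ble 4193 i)
noncomputable def s4191_4194 (i sh : Nat) : Nat := Bool.rec (Nat.shiftRight leaf4191 sh) (s4192_4194 i sh) (Nat.ble 4192 i)
noncomputable def s4188_4194 (i sh : Nat) : Nat := Bool.rec (s4188_4191 i sh) (s4191_4194 i sh) (Nat.ble 4191 i)
noncomputable def s4183_4194 (i sh : Nat) : Nat := Bool.rec (s4183_4188 i sh) (s4188_4194 i sh) (Nat.ble 4188 i)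
noncomputable def s4173_4194 (i sh : Nat) : Nat := Bool.rec (s4173_4183 i sh) (s4183_4194 i sh) (Nat.ble 4183 i)
noncomputable def s4153_4194 (i sh : Nat) : Nat := Bool.rec (s4153_4173 i sh) (s4173_4194 i sh) (Nat.ble 4173 i)
noncomputable def s4113_4194 (i sh : Nat) : Nat := Bool.rec (s4113_4153 i sh) (s4153_4194 i sh) (Nat.ble 4153 i)
noncomputable def s4033_4194 (i sh : Nat) : Nat := Bool.rec (s4033_4113 i sh) (s4113_4194 i sh) (Nat.ble 4113 i)
noncomputable def s3872_4194 (i sh : Nat) : Nat := Bool.rec (s3872_4033 i sh) (s4033_4194 i sh) (Nat.ble 4033 i)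
noncomputable def s4194_4196 (i sh : Nat) : Nat := Bool.rec (Nat.shiftRight leaf4194 sh) (Nat.shiftRight leaf4195 sh) (Nat.ble 4195 i)
noncomputable def s4197_4199 (i sh : Nat) : Nat := Bool.rec (Nat.shiftRight leaf4197 sh) (Nat.shiftRight leaf4198 sh) (Nat.ble 4198 i)
noncomputable def s4196_4199 (i sh : Nat) : Nat := Bool.rec (Nat.shiftRight leaf4196 sh) (s4197_4199 i sh) (Nat.ble 4197 i)
noncomputable def s4194_4199 (i sh : Nat) : Nat := Bool.rec (s4194_4196 i sh) (s4196_4199 i sh) (Nat.ble 4196 i)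
noncomputable def s4199_4201 (i sh : Nat) : Nat := Bool.rec (Nat.shiftRight leaf4199 sh) (Nat.shiftRight leaf4200 sh) (Nat.ble 4200 i)
noncomputable def s4202_4204 (i sh : Nat) : Nat := Bool.rec (Nat.shiftRight leaf4202 sh) (Nat.shiftRight leaf4203 sh) (Nat.ble 4203 i)
noncomputable def s4201_4204 (i sh : Nat) : Nat := Bool.rec (Nat.shiftRight leaf4201 sh) (s4202_4204 i sh) (Nat.ble 4202 i)
noncomputable def s4199_4204 (i sh : Nat) : Nat := Bool.rec (s4199_4201 i sh) (s4201_4204 i sh) (Nat.ble 4201 i)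
noncomputable def s4194_4204 (i sh : Nat) : Nat := Bool.rec (s4194_4199 i sh) (s4199_4204 i sh) (Nat.ble 4199 i)
noncomputable def s4204_4206 (i sh : Nat) : Nat := Bool.rec (Nat.shiftRight leaf4204 sh) (Nat.shiftRight leaf4205 sh) (Nat.ble 4205 i)
noncomputable def s4207_4209 (i sh : Nat) : Nat := Bool.rec (Nat.shiftRight leaf4207 sh) (Nat.shiftRight leaf4208 sh) (Nat.ble 4208 i)
noncomputable def s4206_4209 (i sh : Nat) : Nat := Bool.rec (Nat.shiftRight leaf4206 sh) (s4207_4209 i sh) (Nat.ble 4207 i)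
noncomputable def s4204_4209 (i sh : Nat) : Nat := Bool.rec (s4204_4206 i sh) (s4206_4209 i sh) (Nat.ble 4206 i)
noncomputable def s4209_4211 (i sh : Nat) : Nat := Bool.rec (Nat.shiftRight leaf4209 sh) (Nat.shiftRight leaf4210 sh) (Nat.ble 4210 i)
noncomputable def s4212_4214 (i sh : Nat) : Nat := Bool.rec (Nat.shiftRight leaf4212 sh) (Nat.shiftRight leaf4213 sh) (Nat.ble 4213 i)
noncomputable def s4211_4214 (i sh : Nat) : Nat := Bool.rec (Nat.shiftRight leaf4211 sh) (s4212_4214 i sh) (Nat.ble 4212 i)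
noncomputable def s4209_4214 (i sh : Nat) : Nat := Bool.rec (s4209_4211 i sh) (s4211_4214 i sh) (Nat.ble 4211 i)
noncomputable def s4204_4214 (i sh : Nat) : Nat := Bool.rec (s4204_4209 i sh) (s4209_4214 i sh) (Nat.ble 4209 i)
noncomputable def s4194_4214 (i sh : Nat) : Nat := Bool.rec (s4194_4204 i sh) (s4204_4214 i sh) (Nat.ble 4204 i)
noncomputable def s4214_4216 (i sh : Nat) : Nat := Bool.rec (Nat.shiftRight leaf4214 sh) (Nat.shiftRight leaf4215 sh) (Nat.ble 4215 i)
noncomputable def s4217_4219 (i sh : Nat) : Nat := Bool.rec (Nat.shiftRight leaf4217 sh) (Nat.shiftRight leaf4218 sh) (Nat.ble 4218 i)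
noncomputable def s4216_4219 (i sh : Nat) : Nat := Bool.rec (Nat.shiftRight leaf4216 sh) (s4217_4219 i sh) (Nat.ble 4217 i)
noncomputable def s4214_4219 (i sh : Nat) : Nat := Bool.rec (s4214_4216 i sh) (s4216_4219 i sh) (Nat.ble 4216 i)
noncomputable def s4219_4221 (i sh : Nat) : Nat := Bool.rec (Nat.shiftRight leaf4219 sh) (Nat.shiftRight leaf4220 sh) (Nat.ble 4220 i)
noncomputable def s4222_4224 (i sh : Nat) : Nat := Bool.rec (Nat.shiftRight leaf4222 sh) (Nat.shiftRight leaf4223 sh) (Nat.ble 4223 i)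
noncomputable def s4221_4224 (i sh : Nat) : Nat := Bool.rec (Nat.shiftRight leaf4221 sh) (s4222_4224 i sh) (Nat.ble 4222 i)
noncomputable def s4219_4224 (i sh : Nat) : Nat := Bool.rec (s4219_4221 i sh) (s4221_4224 i sh) (Nat.ble 4221 i)
noncomputable def s4214_4224 (i sh : Nat) : Nat := Bool.rec (s4214_4219 i sh) (s4219_4224 i sh) (Nat.ble 4219 i)
noncomputable def s4224_4226 (i sh : Nat) : Nat := Bool.rec (Nat.shiftRight leaf4224 sh) (Nat.shiftRight leaf4225 sh) (Nat.ble 4225 i)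
noncomputable def s4227_4229 (i sh : Nat) : Nat := Bool.rec (Nat.shiftRight leaf4227 sh) (Nat.shiftRight leaf4228 sh) (Nat.ble 4228 i)
noncomputable def s4226_4229 (i sh : Nat) : Nat := Bool.rec (Nat.shiftRight leaf4226 sh) (s4227_4229 i sh) (Nat.ble 4227 i)
noncomputable def s4224_4229 (i sh : Nat) : Nat := Bool.rec (s4224_4226 i sh) (s4226_4229 i sh) (Nat.ble 4226 i)
noncomputable def s4229_4231 (i sh : Nat) : Nat := Bool.rec (Nat.shiftRight leaf4229 sh) (Nat.shiftRight leaf4230 sh) (Nat.ble 4230 i)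
noncomputable def s4232_4234 (i sh : Nat) : Nat := Bool.rec (Nat.shiftRight leaf4232 sh) (Nat.shiftRight leaf4233 sh) (Nat.ble 4233 i)
noncomputable def s4231_4234 (i sh : Nat) : Nat := Bool.rec (Nat.shiftRight leaf4231 sh) (s4232_4234 i sh) (Nat.ble 4232 i)
noncomputable def s4229_4234 (i sh : Nat) : Nat := Bool.rec (s4229_4231 i sh) (s4231_4234 i sh) (Nat.ble 4231 i)
noncomputable def s4224_4234 (i sh : Nat) : Nat := Bool.rec (s4224_4229 i sh) (s4229_4234 i sh) (Nat.ble 4229 i)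
noncomputable def s4214_4234 (i sh : Nat) : Nat := Bool.rec (s4214_4224 i sh) (s4224_4234 i sh) (Nat.ble 4224 i)
noncomputable def s4194_4234 (i sh : Nat) : Nat := Bool.rec (s4194_4214 i sh) (s4214_4234 i sh) (Nat.ble 4214 i)
noncomputable def s4234_4236 (i sh : Nat) : Nat := Bool.rec (Nat.shiftRight leaf4234 sh) (Nat.shiftRight leaf4235 sh) (Nat.ble 4235 i)
noncomputable def s4237_4239 (i sh : Nat) : Nat := Bool.rec (Nat.shiftRight leaf4237 sh) (Nat.shiftRight leaf4238 sh) (Nat.ble 4238 i)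
noncomputable def s4236_4239 (i sh : Nat) : Nat := Bool.rec (Nat.shiftRight leaf4236 sh) (s4237_4239 i sh) (Nat.ble 4237 i)
noncomputable def s4234_4239 (i sh : Nat) : Nat := Bool.rec (s4234_4236 i sh) (s4236_4239 i sh) (Nat.ble 4236 i)
noncomputable def s4239_4241 (i sh : Nat) : Nat := Bool.rec (Nat.shiftRight leaf4239 sh) (Nat.shiftRight leaf4240 sh) (Nat.ble 4240 i)
noncomputable def s4242_4244 (i sh : Nat) : Nat := Bool.rec (Nat.shiftRight leaf4242 sh) (Nat.shiftRight leaf4243 sh) (Nat.ble 4243 i)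
noncomputable def s4241_4244 (i sh : Nat) : Nat := Bool.rec (Nat.shiftRight leaf4241 sh) (s4242_4244 i sh) (Nat.ble 4242 i)
noncomputable def s4239_4244 (i sh : Nat) : Nat := Bool.rec (s4239_4241 i sh) (s4241_4244 i sh) (Nat.ble 4241 i)
noncomputable def s4234_4244 (i sh : Nat) : Nat := Bool.rec (s4234_4239 i sh) (s4239_4244 i sh) (Nat.ble 4239 i)
noncomputable def s4244_4246 (i sh : Nat) : Nat := Bool.rec (Nat.shiftRight leaf4244 sh) (Nat.shiftRight leaf4245 sh) (Nat.ble 4245 i)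
noncomputable def s4247_4249 (i sh : Nat) : Nat := Bool.rec (Nat.shiftRight leaf4247 sh) (Nat.shiftRight leaf4248 sh) (Nat.ble 4248 i)
noncomputable def s4246_4249 (i sh : Nat) : Nat := Bool.rec (Nat.shiftRight leaf4246 sh) (s4247_4249 i sh) (Nat.ble 4247 i)
noncomputable def s4244_4249 (i sh : Nat) : Nat := Bool.rec (s4244_4246 i sh) (s4246_4249 i sh) (Nat.ble 4246 i)
noncomputable def s4249_4251 (i sh : Nat) : Nat := Bool.rec (Nat.shiftRight leaf4249 sh) (Nat.shiftRight leaf4250 sh) (Nat.ble 4250 i)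
noncomputable def s4252_4254 (i sh : Nat) : Nat := Bool.rec (Nat.shiftRight leaf4252 sh) (Nat.shiftRight leaf4253 sh) (Nat.ble 4253 i)
noncomputable def s4251_4254 (i sh : Nat) : Nat := Bool.rec (Nat.shiftRight leaf4251 sh) (s4252_4254 i sh) (Nat.ble 4252 i)
noncomputable def s4249_4254 (i sh : Nat) : Nat := Bool.rec (s4249_4251 i sh) (s4251_4254 i sh) (Nat.ble 4251 i)
noncomputable def s4244_4254 (i sh : Nat) : Nat := Bool.rec (s4244_4249 i sh) (s4249_4254 i sh) (Nat.ble 4249 i)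
noncomputable def s4234_4254 (i sh : Nat) : Nat := Bool.rec (s4234_4244 i sh) (s4244_4254 i sh) (Nat.ble 4244 i)
noncomputable def s4254_4256 (i sh : Nat) : Nat := Bool.rec (Nat.shiftRight leaf4254 sh) (Nat.shiftRight leaf4255 sh) (Nat.ble 4255 i)
noncomputable def s4257_4259 (i sh : Nat) : Nat := Bool.rec (Nat.shiftRight leaf4257 sh) (Nat.shiftRight leaf4258 sh) (Nat.ble 4258 i)
noncomputable def s4256_4259 (i sh : Nat) : Nat := Bool.rec (Nat.shiftRight leaf4256 sh) (s4257_4259 i sh) (Nat.ble 4257 i)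
noncomputable def s4254_4259 (i sh : Nat) : Nat := Bool.rec (s4254_4256 i sh) (s4256_4259 i sh) (Nat.ble 4256 i)
noncomputable def s4259_4261 (i sh : Nat) : Nat := Bool.rec (Nat.shiftRight leaf4259 sh) (Nat.shiftRight leaf4260 sh) (Nat.ble 4260 i)
noncomputable def s4262_4264 (i sh : Nat) : Nat := Bool.rec (Nat.shiftRight leaf4262 sh) (Nat.shiftRight leaf4263 sh) (Nat.ble 4263 i)
noncomputable def s4261_4264 (i sh : Nat) : Nat := Bool.rec (Nat.shiftRight leaf4261 sh) (s4262_4264 i sh) (Nat.ble 4262 i)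
noncomputable def s4259_4264 (i sh : Nat) : Nat := Bool.rec (s4259_4261 i sh) (s4261_4264 i sh) (Nat.ble 4261 i)
noncomputable def s4254_4264 (i sh : Nat) : Nat := Bool.rec (s4254_4259 i sh) (s4259_4264 i sh) (Nat.ble 4259 i)
noncomputable def s4264_4266 (i sh : Nat) : Nat := Bool.rec (Nat.shiftRight leaf4264 sh) (Nat.shiftRight leaf4265 sh) (Nat.ble 4265 i)
noncomputable def s4267_4269 (i sh : Nat) : Nat := Bool.rec (Nat.shiftRight leaf4267 sh) (Nat.shiftRight leaf4268 sh) (Nat.ble 4268 i)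
noncomputable def s4266_4269 (i sh : Nat) : Nat := Bool.rec (Nat.shiftRight leaf4266 sh) (s4267_4269 i sh) (Nat.ble 4267 i)
noncomputable def s4264_4269 (i sh : Nat) : Nat := Bool.rec (s4264_4266 i sh) (s4266_4269 i sh) (Nat.ble 4266 i)
noncomputable def s4269_4271 (i sh : Nat) : Nat := Bool.rec (Nat.shiftRight leaf4269 sh) (Nat.shiftRight leaf4270 sh) (Nat.ble 4270 i)
noncomputable def s4272_4274 (i sh : Nat) : Nat := Bool.rec (Nat.shiftRight leaf4272 sh) (Nat.shiftRight leaf4273 sh) (Nat.ble 4273 i)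
noncomputable def s4271_4274 (i sh : Nat) : Nat := Bool.rec (Nat.shiftRight leaf4271 sh) (s4272_4274 i sh) (Nat.ble 4272 i)
noncomputable def s4269_4274 (i sh : Nat) : Nat := Bool.rec (s4269_4271 i sh) (s4271_4274 i sh) (Nat.ble 4271 i)
noncomputable def s4264_4274 (i sh : Nat) : Nat := Bool.rec (s4264_4269 i sh) (s4269_4274 i sh) (Nat.ble 4269 i)
noncomputable def s4254_4274 (i sh : Nat) : Nat := Bool.rec (s4254_4264 i sh) (s4264_4274 i sh) (Nat.ble 4264 i)
noncomputable def s4234_4274 (i sh : Nat) : Nat := Bool.rec (s4234_4254 i sh) (s4254_4274 i sh) (Nat.ble 4254 i)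
noncomputable def s4194_4274 (i sh : Nat) : Nat := Bool.rec (s4194_4234 i sh) (s4234_4274 i sh) (Nat.ble 4234 i)
noncomputable def s4274_4276 (i sh : Nat) : Nat := Bool.rec (Nat.shiftRight leaf4274 sh) (Nat.shiftRight leaf4275 sh) (Nat.ble 4275 i)
noncomputable def s4277_4279 (i sh : Nat) : Nat := Bool.rec (Nat.shiftRight leaf4277 sh) (Nat.shiftRight leaf4278 sh) (Nat.ble 4278 i)
noncomputable def s4276_4279 (i sh : Nat) : Nat := Bool.rec (Nat.shiftRight leaf4276 sh) (s4277_4279 i sh) (Nat.ble 4277 i)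
noncomputable def s4274_4279 (i sh : Nat) : Nat := Bool.rec (s4274_4276 i sh) (s4276_4279 i sh) (Nat.ble 4276 i)
noncomputable def s4279_4281 (i sh : Nat) : Nat := Bool.rec (Nat.shiftRight leaf4279 sh) (Nat.shiftRight leaf4280 sh) (Nat.ble 4280 i)
noncomputable def s4282_4284 (i sh : Nat) : Nat := Bool.rec (Nat.shiftRight leaf4282 sh) (Nat.shiftRight leaf4283 sh) (Nat.ble 4283 i)
noncomputable def s4281_4284 (i sh : Nat) : Nat := Bool.rec (Nat.shiftRight leaf4281 sh) (s4282_4284 i sh) (Nat.ble 4282 i)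
noncomputable def s4279_4284 (i sh : Nat) : Nat := Bool.rec (s4279_4281 i sh) (s4281_4284 i sh) (Nat.ble 4281 i)
noncomputable def s4274_4284 (i sh : Nat) : Nat := Bool.rec (s4274_4279 i sh) (s4279_4284 i sh) (Nat.ble 4279 i)
noncomputable def s4284_4286 (i sh : Nat) : Nat := Bool.rec (Nat.shiftRight leaf4284 sh) (Nat.shiftRight leaf4285 sh) (Nat.ble 4285 i)
noncomputable def s4287_4289 (i sh : Nat) : Nat := Bool.rec (Nat.shiftRight leaf4287 sh) (Nat.shiftRight leaf4288 sh) (Nat.ble 4288 i)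
noncomputable def s4286_4289 (i sh : Nat) : Nat := Bool.rec (Nat.shiftRight leaf4286 sh) (s4287_4289 i sh) (Nat.ble 4287 i)
noncomputable def s4284_4289 (i sh : Nat) : Nat := Bool.rec (s4284_4286 i sh) (s4286_4289 i sh) (Nat.ble 4286 i)
noncomputable def s4289_4291 (i sh : Nat) : Nat := Bool.rec (Nat.shiftRight leaf4289 sh) (Nat.shiftRight leaf4290 sh) (Nat.ble 4290 i)
noncomputable def s4292_4294 (i sh : Nat) : Nat := Bool.rec (Nat.shiftRight leaf4292 sh) (Nat.shiftRight leaf4293 sh) (Nat.ble 4293 i)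
noncomputable def s4291_4294 (i sh : Nat) : Nat := Bool.rec (Nat.shiftRight leaf4291 sh) (s4292_4294 i sh) (Nat.ble 4292 i)
noncomputable def s4289_4294 (i sh : Nat) : Nat := Bool.rec (s4289_4291 i sh) (s4291_4294 i sh) (Nat.ble 4291 i)
noncomputable def s4284_4294 (i sh : Nat) : Nat := Bool.rec (s4284_4289 i sh) (s4289_4294 i sh) (Nat.ble 4289 i)
noncomputable def s4274_4294 (i sh : Nat) : Nat := Bool.rec (s4274_4284 i sh) (s4284_4294 i sh) (Nat.ble 4284 i)
noncomputable def s4294_4296 (i sh : Nat) : Nat := Bool.rec (Nat.shiftRight leaf4294 sh) (Nat.shiftRight leaf4295 sh) (Nat.ble 4295 i)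
noncomputable def s4297_4299 (i sh : Nat) : Nat := Bool.rec (Nat.shiftRight leaf4297 sh) (Nat.shiftRight leaf4298 sh) (Nat.ble 4298 i)
noncomputable def s4296_4299 (i sh : Nat) : Nat := Bool.rec (Nat.shiftRight leaf4296 sh) (s4297_4299 i sh) (Nat.ble 4297 i)
noncomputable def s4294_4299 (i sh : Nat) : Nat := Bool.rec (s4294_4296 i sh) (s4296_4299 i sh) (Nat.ble 4296 i)
noncomputable def s4299_4301 (i sh : Nat) : Nat := Bool.rec (Nat.shiftRight leaf4299 sh) (Nat.shiftRight leaf4300 sh) (Nat.ble 4300 i)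
noncomputable def s4302_4304 (i sh : Nat) : Nat := Bool.rec (Nat.shiftRight leaf4302 sh) (Nat.shiftRight leaf4303 sh) (Nat.ble 4303 i)
noncomputable def s4301_4304 (i sh : Nat) : Nat := Bool.rec (Nat.shiftRight leaf4301 sh) (s4302_4304 i sh) (Nat.ble 4302 i)
noncomputable def s4299_4304 (i sh : Nat) : Nat := Bool.rec (s4299_4301 i sh) (s4301_4304 i sh) (Nat.ble 4301 i)
noncomputable def s4294_4304 (i sh : Nat) : Nat := Bool.rec (s4294_4299 i sh) (s4299_4304 i sh) (Nat.ble 4299 i)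
noncomputable def s4304_4306 (i sh : Nat) : Nat := Bool.rec (Nat.shiftRight leaf4304 sh) (Nat.shiftRight leaf4305 sh) (Nat.ble 4305 i)
noncomputable def s4307_4309 (i sh : Nat) : Nat := Bool.rec (Nat.shiftRight leaf4307 sh) (Nat.shiftRight leaf4308 sh) (Nat.ble 4308 i)
noncomputable def s4306_4309 (i sh : Nat) : Nat := Bool.rec (Nat.shiftRight leaf4306 sh) (s4307_4309 i sh) (Nat.ble 4307 i)
noncomputable def s4304_4309 (i sh : Nat) : Nat := Bool.rec (s4304_4306 i sh) (s4306_4309 i sh) (Nat.ble 4306 i)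
noncomputable def s4309_4311 (i sh : Nat) : Nat := Bool.rec (Nat.shiftRight leaf4309 sh) (Nat.shiftRight leaf4310 sh) (Nat.ble 4310 i)
noncomputable def s4312_4314 (i sh : Nat) : Nat := Bool.rec (Nat.shiftRight leaf4312 sh) (Nat.shiftRight leaf4313 sh) (Nat.ble 4313 i)
noncomputable def s4311_4314 (i sh : Nat) : Nat := Bool.rec (Nat.shiftRight leaf4311 sh) (s4312_4314 i sh) (Nat.ble 4312 i)
noncomputable def s4309_4314 (i sh : Nat) : Nat := Bool.rec (s4309_4311 i sh) (s4311_4314 i sh) (Nat.ble 4311 i)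
noncomputable def s4304_4314 (i sh : Nat) : Nat := Bool.rec (s4304_4309 i sh) (s4309_4314 i sh) (Nat.ble 4309 i)
noncomputable def s4294_4314 (i sh : Nat) : Nat := Bool.rec (s4294_4304 i sh) (s4304_4314 i sh) (Nat.ble 4304 i)
noncomputable def s4274_4314 (i sh : Nat) : Nat := Bool.rec (s4274_4294 i sh) (s4294_4314 i sh) (Nat.ble 4294 i)
noncomputable def s4314_4316 (i sh : Nat) : Nat := Bool.rec (Nat.shiftRight leaf4314 sh) (Nat.shiftRight leaf4315 sh) (Nat.ble 4315 i)
noncomputable def s4317_4319 (i sh : Nat) : Nat := Bool.rec (Nat.shiftRight leaf4317 sh) (Nat.shiftRight leaf4318 sh) (Nat.ble 4318 i)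
noncomputable def s4316_4319 (i sh : Nat) : Nat := Bool.rec (Nat.shiftRight leaf4316 sh) (s4317_4319 i sh) (Nat.ble 4317 i)
noncomputable def s4314_4319 (i sh : Nat) : Nat := Bool.rec (s4314_4316 i sh) (s4316_4319 i sh) (Nat.ble 4316 i)
noncomputable def s4319_4321 (i sh : Nat) : Nat := Bool.rec (Nat.shiftRight leaf4319 sh) (Nat.shiftRight leaf4320 sh) (Nat.ble 4320 i)
noncomputable def s4322_4324 (i sh : Nat) : Nat := Bool.rec (Nat.shiftRight leaf4322 sh) (Nat.shiftRight leaf4323 sh) (Nat.ble 4323 i)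
noncomputable def s4321_4324 (i sh : Nat) : Nat := Bool.rec (Nat.shiftRight leaf4321 sh) (s4322_4324 i sh) (Nat.ble 4322 i)
noncomputable def s4319_4324 (i sh : Nat) : Nat := Bool.rec (s4319_4321 i sh) (s4321_4324 i sh) (Nat.ble 4321 i)
noncomputable def s4314_4324 (i sh : Nat) : Nat := Bool.rec (s4314_4319 i sh) (s4319_4324 i sh) (Nat.ble 4319 i)
noncomputable def s4324_4326 (i sh : Nat) : Nat := Bool.rec (Nat.shiftRight leaf4324 sh) (Nat.shiftRight leaf4325 sh) (Nat.ble 4325 i)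
noncomputable def s4327_4329 (i sh : Nat) : Nat := Bool.rec (Nat.shiftRight leaf4327 sh) (Nat.shiftRight leaf4328 sh) (Nat.ble 4328 i)
noncomputable def s4326_4329 (i sh : Nat) : Nat := Bool.rec (Nat.shiftRight leaf4326 sh) (s4327_4329 i sh) (Nat.ble 4327 i)
noncomputable def s4324_4329 (i sh : Nat) : Nat := Bool.rec (s4324_4326 i sh) (s4326_4329 i sh) (Nat.ble 4326 i)
noncomputable def s4329_4331 (i sh : Nat) : Nat := Bool.rec (Nat.shiftRight leaf4329 sh) (Nat.shiftRight leaf4330 sh) (Nat.ble 4330 i)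
noncomputable def s4332_4334 (i sh : Nat) : Nat := Bool.rec (Nat.shiftRight leaf4332 sh) (Nat.shiftRight leaf4333 sh) (Nat.ble 4333 i)
noncomputable def s4331_4334 (i sh : Nat) : Nat := Bool.rec (Nat.shiftRight leaf4331 sh) (s4332_4334 i sh) (Nat.ble 4332 i)
noncomputable def s4329_4334 (i sh : Nat) : Nat := Bool.rec (s4329_4331 i sh) (s4331_4334 i sh) (Nat.ble 4331 i)
noncomputable def s4324_4334 (i sh : Nat) : Nat := Bool.rec (s4324_4329 i sh) (s4329_4334 i sh) (Nat.ble 4329 i)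
noncomputable def s4314_4334 (i sh : Nat) : Nat := Bool.rec (s4314_4324 i sh) (s4324_4334 i sh) (Nat.ble 4324 i)
noncomputable def s4334_4336 (i sh : Nat) : Nat := Bool.rec (Nat.shiftRight leaf4334 sh) (Nat.shiftRight leaf4335 sh) (Nat.ble 4335 i)
noncomputable def s4337_4339 (i sh : Nat) : Nat := Bool.rec (Nat.shiftRight leaf4337 sh) (Nat.shiftRight leaf4338 sh) (Nat.ble 4338 i)
noncomputable def s4336_4339 (i sh : Nat) : Nat := Bool.rec (Nat.shiftRight leaf4336 sh) (s4337_4339 i sh) (Nat.ble 4337 i)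
noncomputable def s4334_4339 (i sh : Nat) : Nat := Bool.rec (s4334_4336 i sh) (s4336_4339 i sh) (Nat.ble 4336 i)
noncomputable def s4339_4341 (i sh : Nat) : Nat := Bool.rec (Nat.shiftRight leaf4339 sh) (Nat.shiftRight leaf4340 sh) (Nat.ble 4340 i)
noncomputable def s4342_4344 (i sh : Nat) : Nat := Bool.rec (Nat.shiftRight leaf4342 sh) (Nat.shiftRight leaf4343 sh) (Nat.ble 4343 i)
noncomputable def s4341_4344 (i sh : Nat) : Nat := Bool.rec (Nat.shiftRight leaf4341 sh) (s4342_4344 i sh) (Nat.ble 4342 i)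
noncomputable def s4339_4344 (i sh : Nat) : Nat := Bool.rec (s4339_4341 i sh) (s4341_4344 i sh) (Nat.ble 4341 i)
noncomputable def s4334_4344 (i sh : Nat) : Nat := Bool.rec (s4334_4339 i sh) (s4339_4344 i sh) (Nat.ble 4339 i)
noncomputable def s4344_4346 (i sh : Nat) : Nat := Bool.rec (Nat.shiftRight leaf4344 sh) (Nat.shiftRight leaf4345 sh) (Nat.ble 4345 i)
noncomputable def s4347_4349 (i sh : Nat) : Nat := Bool.rec (Nat.shiftRight leaf4347 sh) (Nat.shiftRight leaf4348 sh) (Nat.ble 4348 i)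
noncomputable def s4346_4349 (i sh : Nat) : Nat := Bool.rec (Nat.shiftRight leaf4346 sh) (s4347_4349 i sh) (Nat.ble 4347 i)
noncomputable def s4344_4349 (i sh : Nat) : Nat := Bool.rec (s4344_4346 i sh) (s4346_4349 i sh) (Nat.ble 4346 i)
noncomputable def s4350_4352 (i sh : Nat) : Nat := Bool.rec (Nat.shiftRight leaf4350 sh) (Nat.shiftRight leaf4351 sh) (Nat.ble 4351 i)
noncomputable def s4349_4352 (i sh : Nat) : Nat := Bool.rec (Nat.shiftRight leaf4349 sh) (s4350_4352 i sh) (Nat.ble 4350 i)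
noncomputable def s4353_4355 (i sh : Nat) : Nat := Bool.rec (Nat.shiftRight leaf4353 sh) (Nat.shiftRight leaf4354 sh) (Nat.ble 4354 i)
noncomputable def s4352_4355 (i sh : Nat) : Nat := Bool.rec (Nat.shiftRight leaf4352 sh) (s4353_4355 i sh) (Nat.ble 4353 i)
noncomputable def s4349_4355 (i sh : Nat) : Nat := Bool.rec (s4349_4352 i sh) (s4352_4355 i sh) (Nat.ble 4352 i)
noncomputable def s4344_4355 (i sh : Nat) : Nat := Bool.rec (s4344_4349 i sh) (s4349_4355 i sh) (Nat.ble 4349 i)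
noncomputable def s4334_4355 (i sh : Nat) : Nat := Bool.rec (s4334_4344 i sh) (s4344_4355 i sh) (Nat.ble 4344 i)
noncomputable def s4314_4355 (i sh : Nat) : Nat := Bool.rec (s4314_4334 i sh) (s4334_4355 i sh) (Nat.ble 4334 i)
noncomputable def s4274_4355 (i sh : Nat) : Nat := Bool.rec (s4274_4314 i sh) (s4314_4355 i sh) (Nat.ble 4314 i)
noncomputable def s4194_4355 (i sh : Nat) : Nat := Bool.rec (s4194_4274 i sh) (s4274_4355 i sh) (Nat.ble 4274 i)
noncomputable def s4355_4357 (i sh : Nat) : Nat := Bool.rec (Nat.shiftRight leaf4355 sh) (Nat.shiftRight leaf4356 sh) (Nat.ble 4356 i)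
noncomputable def s4358_4360 (i sh : Nat) : Nat := Bool.rec (Nat.shiftRight leaf4358 sh) (Nat.shiftRight leaf4359 sh) (Nat.ble 4359 i)
noncomputable def s4357_4360 (i sh : Nat) : Nat := Bool.rec (Nat.shiftRight leaf4357 sh) (s4358_4360 i sh) (Nat.ble 4358 i)
noncomputable def s4355_4360 (i sh : Nat) : Nat := Bool.rec (s4355_4357 i sh) (s4357_4360 i sh) (Nat.ble 4357 i)
noncomputable def s4360_4362 (i sh : Nat) : Nat := Bool.rec (Nat.shiftRight leaf4360 sh) (Nat.shiftRight leaf4361 sh) (Nat.ble 4361 i)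
noncomputable def s4363_4365 (i sh : Nat) : Nat := Bool.rec (Nat.shiftRight leaf4363 sh) (Nat.shiftRight leaf4364 sh) (Nat.ble 4364 i)
noncomputable def s4362_4365 (i sh : Nat) : Nat := Bool.rec (Nat.shiftRight leaf4362 sh) (s4363_4365 i sh) (Nat.ble 4363 i)
noncomputable def s4360_4365 (i sh : Nat) : Nat := Bool.rec (s4360_4362 i sh) (s4362_4365 i sh) (Nat.ble 4362 i)
noncomputable def s4355_4365 (i sh : Nat) : Nat := Bool.rec (s4355_4360 i sh) (s4360_4365 i sh) (Nat.ble 4360 i)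
noncomputable def s4365_4367 (i sh : Nat) : Nat := Bool.rec (Nat.shiftRight leaf4365 sh) (Nat.shiftRight leaf4366 sh) (Nat.ble 4366 i)
noncomputable def s4368_4370 (i sh : Nat) : Nat := Bool.rec (Nat.shiftRight leaf4368 sh) (Nat.shiftRight leaf4369 sh) (Nat.ble 4369 i)
noncomputable def s4367_4370 (i sh : Nat) : Nat := Bool.rec (Nat.shiftRight leaf4367 sh) (s4368_4370 i sh) (Nat.ble 4368 i)
noncomputable def s4365_4370 (i sh : Nat) : Nat := Bool.rec (s4365_4367 i sh) (s4367_4370 i sh) (Nat.ble 4367 i)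
noncomputable def s4370_4372 (i sh : Nat) : Nat := Bool.rec (Nat.shiftRight leaf4370 sh) (Nat.shiftRight leaf4371 sh) (Nat.ble 4371 i)
noncomputable def s4373_4375 (i sh : Nat) : Nat := Bool.rec (Nat.shiftRight leaf4373 sh) (Nat.shiftRight leaf4374 sh) (Nat.ble 4374 i)
noncomputable def s4372_4375 (i sh : Nat) : Nat := Bool.rec (Nat.shiftRight leaf4372 sh) (s4373_4375 i sh) (Nat.ble 4373 i)
noncomputable def s4370_4375 (i sh : Nat) : Nat := Bool.rec (s4370_4372 i sh) (s4372_4375 i sh) (Nat.ble 4372 i)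
noncomputable def s4365_4375 (i sh : Nat) : Nat := Bool.rec (s4365_4370 i sh) (s4370_4375 i sh) (Nat.ble 4370 i)
noncomputable def s4355_4375 (i sh : Nat) : Nat := Bool.rec (s4355_4365 i sh) (s4365_4375 i sh) (Nat.ble 4365 i)
noncomputable def s4375_4377 (i sh : Nat) : Nat := Bool.rec (Nat.shiftRight leaf4375 sh) (Nat.shiftRight leaf4376 sh) (Nat.ble 4376 i)
noncomputable def s4378_4380 (i sh : Nat) : Nat := Bool.rec (Nat.shiftRight leaf4378 sh) (Nat.shiftRight leaf4379 sh) (Nat.ble 4379 i)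
noncomputable def s4377_4380 (i sh : Nat) : Nat := Bool.rec (Nat.shiftRight leaf4377 sh) (s4378_4380 i sh) (Nat.ble 4378 i)
noncomputable def s4375_4380 (i sh : Nat) : Nat := Bool.rec (s4375_4377 i sh) (s4377_4380 i sh) (Nat.ble 4377 i)
noncomputable def s4380_4382 (i sh : Nat) : Nat := Bool.rec (Nat.shiftRight leaf4380 sh) (Nat.shiftRight leaf4381 sh) (Nat.ble 4381 i)
noncomputable def s4383_4385 (i sh : Nat) : Nat := Bool.rec (Nat.shiftRight leaf4383 sh) (Nat.shiftRight leaf4384 sh) (Nat.ble 4384 i)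
noncomputable def s4382_4385 (i sh : Nat) : Nat := Bool.rec (Nat.shiftRight leaf4382 sh) (s4383_4385 i sh) (Nat.ble 4383 i)
noncomputable def s4380_4385 (i sh : Nat) : Nat := Bool.rec (s4380_4382 i sh) (s4382_4385 i sh) (Nat.ble 4382 i)
noncomputable def s4375_4385 (i sh : Nat) : Nat := Bool.rec (s4375_4380 i sh) (s4380_4385 i sh) (Nat.ble 4380 i)
noncomputable def s4385_4387 (i sh : Nat) : Nat := Bool.rec (Nat.shiftRight leaf4385 sh) (Nat.shiftRight leaf4386 sh) (Nat.ble 4386 i)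
noncomputable def s4388_4390 (i sh : Nat) : Nat := Bool.rec (Nat.shiftRight leaf4388 sh) (Nat.shiftRight leaf4389 sh) (Nat.ble 4389 i)
noncomputable def s4387_4390 (i sh : Nat) : Nat := Bool.rec (Nat.shiftRight leaf4387 sh) (s4388_4390 i sh) (Nat.ble 4388 i)
noncomputable def s4385_4390 (i sh : Nat) : Nat := Bool.rec (s4385_4387 i sh) (s4387_4390 i sh) (Nat.ble 4387 i)
noncomputable def s4390_4392 (i sh : Nat) : Nat := Bool.rec (Nat.shiftRight leaf4390 sh) (Nat.shiftRight leaf4391 sh) (Nat.ble 4391 i)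
noncomputable def s4393_4395 (i sh : Nat) : Nat := Bool.rec (Nat.shiftRight leaf4393 sh) (Nat.shiftRight leaf4394 sh) (Nat.ble 4394 i)
noncomputable def s4392_4395 (i sh : Nat) : Nat := Bool.rec (Nat.shiftRight leaf4392 sh) (s4393_4395 i sh) (Nat.ble 4393 i)
noncomputable def s4390_4395 (i sh : Nat) : Nat := Bool.rec (s4390_4392 i sh) (s4392_4395 i sh) (Nat.ble 4392 i)
noncomputable def s4385_4395 (i sh : Nat) : Nat := Bool.rec (s4385_4390 i sh) (s4390_4395 i sh) (Nat.ble 4390 i)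
noncomputable def s4375_4395 (i sh : Nat) : Nat := Bool.rec (s4375_4385 i sh) (s4385_4395 i sh) (Nat.ble 4385 i)
noncomputable def s4355_4395 (i sh : Nat) : Nat := Bool.rec (s4355_4375 i sh) (s4375_4395 i sh) (Nat.ble 4375 i)
noncomputable def s4395_4397 (i sh : Nat) : Nat := Bool.rec (Nat.shiftRight leaf4395 sh) (Nat.shiftRight leaf4396 sh) (Nat.ble 4396 i)
noncomputable def s4398_4400 (i sh : Nat) : Nat := Bool.rec (Nat.shiftRight leaf4398 sh) (Nat.shiftRight leaf4399 sh) (Nat.ble 4399 i)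
noncomputable def s4397_4400 (i sh : Nat) : Nat := Bool.rec (Nat.shiftRight leaf4397 sh) (s4398_4400 i sh) (Nat.ble 4398 i)
noncomputable def s4395_4400 (i sh : Nat) : Nat := Bool.rec (s4395_4397 i sh) (s4397_4400 i sh) (Nat.ble 4397 i)
noncomputable def s4400_4402 (i sh : Nat) : Nat := Bool.rec (Nat.shiftRight leaf4400 sh) (Nat.shiftRight leaf4401 sh) (Nat.ble 4401 i)
noncomputable def s4403_4405 (i sh : Nat) : Nat := Bool.rec (Nat.shiftRight leaf4403 sh) (Nat.shiftRight leaf4404 sh) (Nat.ble 4404 i)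
noncomputable def s4402_4405 (i sh : Nat) : Nat := Bool.rec (Nat.shiftRight leaf4402 sh) (s4403_4405 i sh) (Nat.ble 4403 i)
noncomputable def s4400_4405 (i sh : Nat) : Nat := Bool.rec (s4400_4402 i sh) (s4402_4405 i sh) (Nat.ble 4402 i)
noncomputable def s4395_4405 (i sh : Nat) : Nat := Bool.rec (s4395_4400 i sh) (s4400_4405 i sh) (Nat.ble 4400 i)
noncomputable def s4405_4407 (i sh : Nat) : Nat := Bool.rec (Nat.shiftRight leaf4405 sh) (Nat.shiftRight leaf4406 sh) (Nat.ble 4406 i)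
noncomputable def s4408_4410 (i sh : Nat) : Nat := Bool.rec (Nat.shiftRight leaf4408 sh) (Nat.shiftRight leaf4409 sh) (Nat.ble 4409 i)
noncomputable def s4407_4410 (i sh : Nat) : Nat := Bool.rec (Nat.shiftRight leaf4407 sh) (s4408_4410 i sh) (Nat.ble 4408 i)
noncomputable def s4405_4410 (i sh : Nat) : Nat := Bool.rec (s4405_4407 i sh) (s4407_4410 i sh) (Nat.ble 4407 i)
noncomputable def s4410_4412 (i sh : Nat) : Nat := Bool.rec (Nat.shiftRight leaf4410 sh) (Nat.shiftRight leaf4411 sh) (Nat.ble 4411 i)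
noncomputable def s4413_4415 (i sh : Nat) : Nat := Bool.rec (Nat.shiftRight leaf4413 sh) (Nat.shiftRight leaf4414 sh) (Nat.ble 4414 i)
noncomputable def s4412_4415 (i sh : Nat) : Nat := Bool.rec (Nat.shiftRight leaf4412 sh) (s4413_4415 i sh) (Nat.ble 4413 i)
noncomputable def s4410_4415 (i sh : Nat) : Nat := Bool.rec (s4410_4412 i sh) (s4412_4415 i sh) (Nat.ble 4412 i)
noncomputable def s4405_4415 (i sh : Nat) : Nat := Bool.rec (s4405_4410 i sh) (s4410_4415 i sh) (Nat.ble 4410 i)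
noncomputable def s4395_4415 (i sh : Nat) : Nat := Bool.rec (s4395_4405 i sh) (s4405_4415 i sh) (Nat.ble 4405 i)
noncomputable def s4415_4417 (i sh : Nat) : Nat := Bool.rec (Nat.shiftRight leaf4415 sh) (Nat.shiftRight leaf4416 sh) (Nat.ble 4416 i)
noncomputable def s4418_4420 (i sh : Nat) : Nat := Bool.rec (Nat.shiftRight leaf4418 sh) (Nat.shiftRight leaf4419 sh) (Nat.ble 4419 i)
noncomputable def s4417_4420 (i sh : Nat) : Nat := Bool.rec (Nat.shiftRight leaf4417 sh) (s4418_4420 i sh) (Nat.ble 4418 i)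
noncomputable def s4415_4420 (i sh : Nat) : Nat := Bool.rec (s4415_4417 i sh) (s4417_4420 i sh) (Nat.ble 4417 i)
noncomputable def s4420_4422 (i sh : Nat) : Nat := Bool.rec (Nat.shiftRight leaf4420 sh) (Nat.shiftRight leaf4421 sh) (Nat.ble 4421 i)
noncomputable def s4423_4425 (i sh : Nat) : Nat := Bool.rec (Nat.shiftRight leaf4423 sh) (Nat.shiftRight leaf4424 sh) (Nat.ble 4424 i)
noncomputable def s4422_4425 (i sh : Nat) : Nat := Bool.rec (Nat.shiftRight leaf4422 sh) (s4423_4425 i sh) (Nat.ble 4423 i)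
noncomputable def s4420_4425 (i sh : Nat) : Nat := Bool.rec (s4420_4422 i sh) (s4422_4425 i sh) (Nat.ble 4422 i)
noncomputable def s4415_4425 (i sh : Nat) : Nat := Bool.rec (s4415_4420 i sh) (s4420_4425 i sh) (Nat.ble 4420 i)
noncomputable def s4425_4427 (i sh : Nat) : Nat := Bool.rec (Nat.shiftRight leaf4425 sh) (Nat.shiftRight leaf4426 sh) (Nat.ble 4426 i)
noncomputable def s4428_4430 (i sh : Nat) : Nat := Bool.rec (Nat.shiftRight leaf4428 sh) (Nat.shiftRight leaf4429 sh) (Nat.ble 4429 i)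
noncomputable def s4427_4430 (i sh : Nat) : Nat := Bool.rec (Nat.shiftRight leaf4427 sh) (s4428_4430 i sh) (Nat.ble 4428 i)
noncomputable def s4425_4430 (i sh : Nat) : Nat := Bool.rec (s4425_4427 i sh) (s4427_4430 i sh) (Nat.ble 4427 i)
noncomputable def s4431_4433 (i sh : Nat) : Nat := Bool.rec (Nat.shiftRight leaf4431 sh) (Nat.shiftRight leaf4432 sh) (Nat.ble 4432 i)
noncomputable def s4430_4433 (i sh : Nat) : Nat := Bool.rec (Nat.shiftRight leaf4430 sh) (s4431_4433 i sh) (Nat.ble 4431 i)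
noncomputable def s4434_4436 (i sh : Nat) : Nat := Bool.rec (Nat.shiftRight leaf4434 sh) (Nat.shiftRight leaf4435 sh) (Nat.ble 4435 i)
noncomputable def s4433_4436 (i sh : Nat) : Nat := Bool.rec (Nat.shiftRight leaf4433 sh) (s4434_4436 i sh) (Nat.ble 4434 i)
noncomputable def s4430_4436 (i sh : Nat) : Nat := Bool.rec (s4430_4433 i sh) (s4433_4436 i sh) (Nat.ble 4433 i)
noncomputable def s4425_4436 (i sh : Nat) : Nat := Bool.rec (s4425_4430 i sh) (s4430_4436 i sh) (Nat.ble 4430 i)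
noncomputable def s4415_4436 (i sh : Nat) : Nat := Bool.rec (s4415_4425 i sh) (s4425_4436 i sh) (Nat.ble 4425 i)
noncomputable def s4395_4436 (i sh : Nat) : Nat := Bool.rec (s4395_4415 i sh) (s4415_4436 i sh) (Nat.ble 4415 i)
noncomputable def s4355_4436 (i sh : Nat) : Nat := Bool.rec (s4355_4395 i sh) (s4395_4436 i sh) (Nat.ble 4395 i)
noncomputable def s4436_4438 (i sh : Nat) : Nat := Bool.rec (Nat.shiftRight leaf4436 sh) (Nat.shiftRight leaf4437 sh) (Nat.ble 4437 i)
noncomputable def s4439_4441 (i sh : Nat) : Nat := Bool.rec (Nat.shiftRight leaf4439 sh) (Nat.shiftRight leaf4440 sh) (Nat.ble 4440 i)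
noncomputable def s4438_4441 (i sh : Nat) : Nat := Bool.rec (Nat.shiftRight leaf4438 sh) (s4439_4441 i sh) (Nat.ble 4439 i)
noncomputable def s4436_4441 (i sh : Nat) : Nat := Bool.rec (s4436_4438 i sh) (s4438_4441 i sh) (Nat.ble 4438 i)
noncomputable def s4441_4443 (i sh : Nat) : Nat := Bool.rec (Nat.shiftRight leaf4441 sh) (Nat.shiftRight leaf4442 sh) (Nat.ble 4442 i)
noncomputable def s4444_4446 (i sh : Nat) : Nat := Bool.rec (Nat.shiftRight leaf4444 sh) (Nat.shiftRight leaf4445 sh) (Nat.ble 4445 i)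
noncomputable def s4443_4446 (i sh : Nat) : Nat := Bool.rec (Nat.shiftRight leaf4443 sh) (s4444_4446 i sh) (Nat.ble 4444 i)
noncomputable def s4441_4446 (i sh : Nat) : Nat := Bool.rec (s4441_4443 i sh) (s4443_4446 i sh) (Nat.ble 4443 i)
noncomputable def s4436_4446 (i sh : Nat) : Nat := Bool.rec (s4436_4441 i sh) (s4441_4446 i sh) (Nat.ble 4441 i)
noncomputable def s4446_4448 (i sh : Nat) : Nat := Bool.rec (Nat.shiftRight leaf4446 sh) (Nat.shiftRight leaf4447 sh) (Nat.ble 4447 i)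
noncomputable def s4449_4451 (i sh : Nat) : Nat := Bool.rec (Nat.shiftRight leaf4449 sh) (Nat.shiftRight leaf4450 sh) (Nat.ble 4450 i)
noncomputable def s4448_4451 (i sh : Nat) : Nat := Bool.rec (Nat.shiftRight leaf4448 sh) (s4449_4451 i sh) (Nat.ble 4449 i)
noncomputable def s4446_4451 (i sh : Nat) : Nat := Bool.rec (s4446_4448 i sh) (s4448_4451 i sh) (Nat.ble 4448 i)
noncomputable def s4451_4453 (i sh : Nat) : Nat := Bool.rec (Nat.shiftRight leaf4451 sh) (Nat.shiftRight leaf4452 sh) (Nat.ble 4452 i)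
noncomputable def s4454_4456 (i sh : Nat) : Nat := Bool.rec (Nat.shiftRight leaf4454 sh) (Nat.shiftRight leaf4455 sh) (Nat.ble 4455 i)
noncomputable def s4453_4456 (i sh : Nat) : Nat := Bool.rec (Nat.shiftRight leaf4453 sh) (s4454_4456 i sh) (Nat.ble 4454 i)
noncomputable def s4451_4456 (i sh : Nat) : Nat := Bool.rec (s4451_4453 i sh) (s4453_4456 i sh) (Nat.ble 4453 i)
noncomputable def s4446_4456 (i sh : Nat) : Nat := Bool.rec (s4446_4451 i sh) (s4451_4456 i sh) (Nat.ble 4451 i)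
noncomputable def s4436_4456 (i sh : Nat) : Nat := Bool.rec (s4436_4446 i sh) (s4446_4456 i sh) (Nat.ble 4446 i)
noncomputable def s4456_4458 (i sh : Nat) : Nat := Bool.rec (Nat.shiftRight leaf4456 sh) (Nat.shiftRight leaf4457 sh) (Nat.ble 4457 i)
noncomputable def s4459_4461 (i sh : Nat) : Nat := Bool.rec (Nat.shiftRight leaf4459 sh) (Nat.shiftRight leaf4460 sh) (Nat.ble 4460 i)
noncomputable def s4458_4461 (i sh : Nat) : Nat := Bool.rec (Nat.shiftRight leaf4458 sh) (s4459_4461 i sh) (Nat.ble 4459 i)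
noncomputable def s4456_4461 (i sh : Nat) : Nat := Bool.rec (s4456_4458 i sh) (s4458_4461 i sh) (Nat.ble 4458 i)
noncomputable def s4461_4463 (i sh : Nat) : Nat := Bool.rec (Nat.shiftRight leaf4461 sh) (Nat.shiftRight leaf4462 sh) (Nat.ble 4462 i)
noncomputable def s4464_4466 (i sh : Nat) : Nat := Bool.rec (Nat.shiftRight leaf4464 sh) (Nat.shiftRight leaf4465 sh) (Nat.ble 4465 i)
noncomputable def s4463_4466 (i sh : Nat) : Nat := Bool.rec (Nat.shiftRight leaf4463 sh) (s4464_4466 i sh) (Nat.ble 4464 i)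
noncomputable def s4461_4466 (i sh : Nat) : Nat := Bool.rec (s4461_4463 i sh) (s4463_4466 i sh) (Nat.ble 4463 i)
noncomputable def s4456_4466 (i sh : Nat) : Nat := Bool.rec (s4456_4461 i sh) (s4461_4466 i sh) (Nat.ble 4461 i)
noncomputable def s4466_4468 (i sh : Nat) : Nat := Bool.rec (Nat.shiftRight leaf4466 sh) (Nat.shiftRight leaf4467 sh) (Nat.ble 4467 i)
noncomputable def s4469_4471 (i sh : Nat) : Nat := Bool.rec (Nat.shiftRight leaf4469 sh) (Nat.shiftRight leaf4470 sh) (Nat.ble 4470 i)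
noncomputable def s4468_4471 (i sh : Nat) : Nat := Bool.rec (Nat.shiftRight leaf4468 sh) (s4469_4471 i sh) (Nat.ble 4469 i)
noncomputable def s4466_4471 (i sh : Nat) : Nat := Bool.rec (s4466_4468 i sh) (s4468_4471 i sh) (Nat.ble 4468 i)
noncomputable def s4471_4473 (i sh : Nat) : Nat := Bool.rec (Nat.shiftRight leaf4471 sh) (Nat.shiftRight leaf4472 sh) (Nat.ble 4472 i)
noncomputable def s4474_4476 (i sh : Nat) : Nat := Bool.rec (Nat.shiftRight leaf4474 sh) (Nat.shiftRight leaf4475 sh) (Nat.ble 4475 i)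
noncomputable def s4473_4476 (i sh : Nat) : Nat := Bool.rec (Nat.shiftRight leaf4473 sh) (s4474_4476 i sh) (Nat.ble 4474 i)
noncomputable def s4471_4476 (i sh : Nat) : Nat := Bool.rec (s4471_4473 i sh) (s4473_4476 i sh) (Nat.ble 4473 i)
noncomputable def s4466_4476 (i sh : Nat) : Nat := Bool.rec (s4466_4471 i sh) (s4471_4476 i sh) (Nat.ble 4471 i)
noncomputable def s4456_4476 (i sh : Nat) : Nat := Bool.rec (s4456_4466 i sh) (s4466_4476 i sh) (Nat.ble 4466 i)
noncomputable def s4436_4476 (i sh : Nat) : Nat := Bool.rec (s4436_4456 i sh) (s4456_4476 i sh) (Nat.ble 4456 i)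
noncomputable def s4476_4478 (i sh : Nat) : Nat := Bool.rec (Nat.shiftRight leaf4476 sh) (Nat.shiftRight leaf4477 sh) (Nat.ble 4477 i)
noncomputable def s4479_4481 (i sh : Nat) : Nat := Bool.rec (Nat.shiftRight leaf4479 sh) (Nat.shiftRight leaf4480 sh) (Nat.ble 4480 i)
noncomputable def s4478_4481 (i sh : Nat) : Nat := Bool.rec (Nat.shiftRight leaf4478 sh) (s4479_4481 i sh) (Nat.ble 4479 i)
noncomputable def s4476_4481 (i sh : Nat) : Nat := Bool.rec (s4476_4478 i sh) (s4478_4481 i sh) (Nat.ble 4478 i)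
noncomputable def s4481_4483 (i sh : Nat) : Nat := Bool.rec (Nat.shiftRight leaf4481 sh) (Nat.shiftRight leaf4482 sh) (Nat.ble 4482 i)
noncomputable def s4484_4486 (i sh : Nat) : Nat := Bool.rec (Nat.shiftRight leaf4484 sh) (Nat.shiftRight leaf4485 sh) (Nat.ble 4485 i)
noncomputable def s4483_4486 (i sh : Nat) : Nat := Bool.rec (Nat.shiftRight leaf4483 sh) (s4484_4486 i sh) (Nat.ble 4484 i)
noncomputable def s4481_4486 (i sh : Nat) : Nat := Bool.rec (s4481_4483 i sh) (s4483_4486 i sh) (Nat.ble 4483 i)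
noncomputable def s4476_4486 (i sh : Nat) : Nat := Bool.rec (s4476_4481 i sh) (s4481_4486 i sh) (Nat.ble 4481 i)
noncomputable def s4486_4488 (i sh : Nat) : Nat := Bool.rec (Nat.shiftRight leaf4486 sh) (Nat.shiftRight leaf4487 sh) (Nat.ble 4487 i)
noncomputable def s4489_4491 (i sh : Nat) : Nat := Bool.rec (Nat.shiftRight leaf4489 sh) (Nat.shiftRight leaf4490 sh) (Nat.ble 4490 i)
noncomputable def s4488_4491 (i sh : Nat) : Nat := Bool.rec (Nat.shiftRight leaf4488 sh) (s4489_4491 i sh) (Nat.ble 4489 i)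
noncomputable def s4486_4491 (i sh : Nat) : Nat := Bool.rec (s4486_4488 i sh) (s4488_4491 i sh) (Nat.ble 4488 i)
noncomputable def s4491_4493 (i sh : Nat) : Nat := Bool.rec (Nat.shiftRight leaf4491 sh) (Nat.shiftRight leaf4492 sh) (Nat.ble 4492 i)
noncomputable def s4494_4496 (i sh : Nat) : Nat := Bool.rec (Nat.shiftRight leaf4494 sh) (Nat.shiftRight leaf4495 sh) (Nat.ble 4495 i)
noncomputable def s4493_4496 (i sh : Nat) : Nat := Bool.rec (Nat.shiftRight leaf4493 sh) (s4494_4496 i sh) (Nat.ble 4494 i)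
noncomputable def s4491_4496 (i sh : Nat) : Nat := Bool.rec (s4491_4493 i sh) (s4493_4496 i sh) (Nat.ble 4493 i)
noncomputable def s4486_4496 (i sh : Nat) : Nat := Bool.rec (s4486_4491 i sh) (s4491_4496 i sh) (Nat.ble 4491 i)
noncomputable def s4476_4496 (i sh : Nat) : Nat := Bool.rec (s4476_4486 i sh) (s4486_4496 i sh) (Nat.ble 4486 i)
noncomputable def s4496_4498 (i sh : Nat) : Nat := Bool.rec (Nat.shiftRight leaf4496 sh) (Nat.shiftRight leaf4497 sh) (Nat.ble 4497 i)
noncomputable def s4499_4501 (i sh : Nat) : Nat := Bool.rec (Nat.shiftRight leaf4499 sh) (Nat.shiftRight leaf4500 sh) (Nat.ble 4500 i)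
noncomputable def s4498_4501 (i sh : Nat) : Nat := Bool.rec (Nat.shiftRight leaf4498 sh) (s4499_4501 i sh) (Nat.ble 4499 i)
noncomputable def s4496_4501 (i sh : Nat) : Nat := Bool.rec (s4496_4498 i sh) (s4498_4501 i sh) (Nat.ble 4498 i)
noncomputable def s4501_4503 (i sh : Nat) : Nat := Bool.rec (Nat.shiftRight leaf4501 sh) (Nat.shiftRight leaf4502 sh) (Nat.ble 4502 i)
noncomputable def s4504_4506 (i sh : Nat) : Nat := Bool.rec (Nat.shiftRight leaf4504 sh) (Nat.shiftRight leaf4505 sh) (Nat.ble 4505 i)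
noncomputable def s4503_4506 (i sh : Nat) : Nat := Bool.rec (Nat.shiftRight leaf4503 sh) (s4504_4506 i sh) (Nat.ble 4504 i)
noncomputable def s4501_4506 (i sh : Nat) : Nat := Bool.rec (s4501_4503 i sh) (s4503_4506 i sh) (Nat.ble 4503 i)
noncomputable def s4496_4506 (i sh : Nat) : Nat := Bool.rec (s4496_4501 i sh) (s4501_4506 i sh) (Nat.ble 4501 i)
noncomputable def s4506_4508 (i sh : Nat) : Nat := Bool.rec (Nat.shiftRight leaf4506 sh) (Nat.shiftRight leaf4507 sh) (Nat.ble 4507 i)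
noncomputable def s4509_4511 (i sh : Nat) : Nat := Bool.rec (Nat.shiftRight leaf4509 sh) (Nat.shiftRight leaf4510 sh) (Nat.ble 4510 i)
noncomputable def s4508_4511 (i sh : Nat) : Nat := Bool.rec (Nat.shiftRight leaf4508 sh) (s4509_4511 i sh) (Nat.ble 4509 i)
noncomputable def s4506_4511 (i sh : Nat) : Nat := Bool.rec (s4506_4508 i sh) (s4508_4511 i sh) (Nat.ble 4508 i)
noncomputable def s4512_4514 (i sh : Nat) : Nat := Bool.rec (Nat.shiftRight leaf4512 sh) (Nat.shiftRight leaf4513 sh) (Nat.ble 4513 i)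
noncomputable def s4511_4514 (i sh : Nat) : Nat := Bool.rec (Nat.shiftRight leaf4511 sh) (s4512_4514 i sh) (Nat.ble 4512 i)
noncomputable def s4515_4517 (i sh : Nat) : Nat := Bool.rec (Nat.shiftRight leaf4515 sh) (Nat.shiftRight leaf4516 sh) (Nat.ble 4516 i)
noncomputable def s4514_4517 (i sh : Nat) : Nat := Bool.rec (Nat.shiftRight leaf4514 sh) (s4515_4517 i sh) (Nat.ble 4515 i)
noncomputable def s4511_4517 (i sh : Nat) : Nat := Bool.rec (s4511_4514 i sh) (s4514_4517 i sh) (Nat.ble 4514 i)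
noncomputable def s4506_4517 (i sh : Nat) : Nat := Bool.rec (s4506_4511 i sh) (s4511_4517 i sh) (Nat.ble 4511 i)
noncomputable def s4496_4517 (i sh : Nat) : Nat := Bool.rec (s4496_4506 i sh) (s4506_4517 i sh) (Nat.ble 4506 i)
noncomputable def s4476_4517 (i sh : Nat) : Nat := Bool.rec (s4476_4496 i sh) (s4496_4517 i sh) (Nat.ble 4496 i)
noncomputable def s4436_4517 (i sh : Nat) : Nat := Bool.rec (s4436_4476 i sh) (s4476_4517 i sh) (Nat.ble 4476 i)
noncomputable def s4355_4517 (i sh : Nat) : Nat := Bool.rec (s4355_4436 i sh) (s4436_4517 i sh) (Nat.ble 4436 i)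
noncomputable def s4194_4517 (i sh : Nat) : Nat := Bool.rec (s4194_4355 i sh) (s4355_4517 i sh) (Nat.ble 4355 i)
noncomputable def s3872_4517 (i sh : Nat) : Nat := Bool.rec (s3872_4194 i sh) (s4194_4517 i sh) (Nat.ble 4194 i)
noncomputable def s4517_4519 (i sh : Nat) : Nat := Bool.rec (Nat.shiftRight leaf4517 sh) (Nat.shiftRight leaf4518 sh) (Nat.ble 4518 i)
noncomputable def s4520_4522 (i sh : Nat) : Nat := Bool.rec (Nat.shiftRight leaf4520 sh) (Nat.shiftRight leaf4521 sh) (Nat.ble 4521 i)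
noncomputable def s4519_4522 (i sh : Nat) : Nat := Bool.rec (Nat.shiftRight leaf4519 sh) (s4520_4522 i sh) (Nat.ble 4520 i)
noncomputable def s4517_4522 (i sh : Nat) : Nat := Bool.rec (s4517_4519 i sh) (s4519_4522 i sh) (Nat.ble 4519 i)
noncomputable def s4522_4524 (i sh : Nat) : Nat := Bool.rec (Nat.shiftRight leaf4522 sh) (Nat.shiftRight leaf4523 sh) (Nat.ble 4523 i)
noncomputable def s4525_4527 (i sh : Nat) : Nat := Bool.rec (Nat.shiftRight leaf4525 sh) (Nat.shiftRight leaf4526 sh) (Nat.ble 4526 i)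
noncomputable def s4524_4527 (i sh : Nat) : Nat := Bool.rec (Nat.shiftRight leaf4524 sh) (s4525_4527 i sh) (Nat.ble 4525 i)
noncomputable def s4522_4527 (i sh : Nat) : Nat := Bool.rec (s4522_4524 i sh) (s4524_4527 i sh) (Nat.ble 4524 i)
noncomputable def s4517_4527 (i sh : Nat) : Nat := Bool.rec (s4517_4522 i sh) (s4522_4527 i sh) (Nat.ble 4522 i)
noncomputable def s4527_4529 (i sh : Nat) : Nat := Bool.rec (Nat.shiftRight leaf4527 sh) (Nat.shiftRight leaf4528 sh) (Nat.ble 4528 i)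
noncomputable def s4530_4532 (i sh : Nat) : Nat := Bool.rec (Nat.shiftRight leaf4530 sh) (Nat.shiftRight leaf4531 sh) (Nat.ble 4531 i)
noncomputable def s4529_4532 (i sh : Nat) : Nat := Bool.rec (Nat.shiftRight leaf4529 sh) (s4530_4532 i sh) (Nat.ble 4530 i)
noncomputable def s4527_4532 (i sh : Nat) : Nat := Bool.rec (s4527_4529 i sh) (s4529_4532 i sh) (Nat.ble 4529 i)
noncomputable def s4532_4534 (i sh : Nat) : Nat := Bool.rec (Nat.shiftRight leaf4532 sh) (Nat.shiftRight leaf4533 sh) (Nat.ble 4533 i)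
noncomputable def s4535_4537 (i sh : Nat) : Nat := Bool.rec (Nat.shiftRight leaf4535 sh) (Nat.shiftRight leaf4536 sh) (Nat.ble 4536 i)
noncomputable def s4534_4537 (i sh : Nat) : Nat := Bool.rec (Nat.shiftRight leaf4534 sh) (s4535_4537 i sh) (Nat.ble 4535 i)
noncomputable def s4532_4537 (i sh : Nat) : Nat := Bool.rec (s4532_4534 i sh) (s4534_4537 i sh) (Nat.ble 4534 i)
noncomputable def s4527_4537 (i sh : Nat) : Nat := Bool.rec (s4527_4532 i sh) (s4532_4537 i sh) (Nat.ble 4532 i)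
noncomputable def s4517_4537 (i sh : Nat) : Nat := Bool.rec (s4517_4527 i sh) (s4527_4537 i sh) (Nat.ble 4527 i)
noncomputable def s4537_4539 (i sh : Nat) : Nat := Bool.rec (Nat.shiftRight leaf4537 sh) (Nat.shiftRight leaf4538 sh) (Nat.ble 4538 i)
noncomputable def s4540_4542 (i sh : Nat) : Nat := Bool.rec (Nat.shiftRight leaf4540 sh) (Nat.shiftRight leaf4541 sh) (Nat.ble 4541 i)
noncomputable def s4539_4542 (i sh : Nat) : Nat := Bool.rec (Nat.shiftRight leaf4539 sh) (s4540_4542 i sh) (Nat.ble 4540 i)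
noncomputable def s4537_4542 (i sh : Nat) : Nat := Bool.rec (s4537_4539 i sh) (s4539_4542 i sh) (Nat.ble 4539 i)
noncomputable def s4542_4544 (i sh : Nat) : Nat := Bool.rec (Nat.shiftRight leaf4542 sh) (Nat.shiftRight leaf4543 sh) (Nat.ble 4543 i)
noncomputable def s4545_4547 (i sh : Nat) : Nat := Bool.rec (Nat.shiftRight leaf4545 sh) (Nat.shiftRight leaf4546 sh) (Nat.ble 4546 i)
noncomputable def s4544_4547 (i sh : Nat) : Nat := Bool.rec (Nat.shiftRight leaf4544 sh) (s4545_4547 i sh) (Nat.ble 4545 i)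
noncomputable def s4542_4547 (i sh : Nat) : Nat := Bool.rec (s4542_4544 i sh) (s4544_4547 i sh) (Nat.ble 4544 i)
noncomputable def s4537_4547 (i sh : Nat) : Nat := Bool.rec (s4537_4542 i sh) (s4542_4547 i sh) (Nat.ble 4542 i)
noncomputable def s4547_4549 (i sh : Nat) : Nat := Bool.rec (Nat.shiftRight leaf4547 sh) (Nat.shiftRight leaf4548 sh) (Nat.ble 4548 i)
noncomputable def s4550_4552 (i sh : Nat) : Nat := Bool.rec (Nat.shiftRight leaf4550 sh) (Nat.shiftRight leaf4551 sh) (Nat.ble 4551 i)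
noncomputable def s4549_4552 (i sh : Nat) : Nat := Bool.rec (Nat.shiftRight leaf4549 sh) (s4550_4552 i sh) (Nat.ble 4550 i)
noncomputable def s4547_4552 (i sh : Nat) : Nat := Bool.rec (s4547_4549 i sh) (s4549_4552 i sh) (Nat.ble 4549 i)
noncomputable def s4552_4554 (i sh : Nat) : Nat := Bool.rec (Nat.shiftRight leaf4552 sh) (Nat.shiftRight leaf4553 sh) (Nat.ble 4553 i)
noncomputable def s4555_4557 (i sh : Nat) : Nat := Bool.rec (Nat.shiftRight leaf4555 sh) (Nat.shiftRight leaf4556 sh) (Nat.ble 4556 i)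
noncomputable def s4554_4557 (i sh : Nat) : Nat := Bool.rec (Nat.shiftRight leaf4554 sh) (s4555_4557 i sh) (Nat.ble 4555 i)
noncomputable def s4552_4557 (i sh : Nat) : Nat := Bool.rec (s4552_4554 i sh) (s4554_4557 i sh) (Nat.ble 4554 i)
noncomputable def s4547_4557 (i sh : Nat) : Nat := Bool.rec (s4547_4552 i sh) (s4552_4557 i sh) (Nat.ble 4552 i)
noncomputable def s4537_4557 (i sh : Nat) : Nat := Bool.rec (s4537_4547 i sh) (s4547_4557 i sh) (Nat.ble 4547 i)
noncomputable def s4517_4557 (i sh : Nat) : Nat := Bool.rec (s4517_4537 i sh) (s4537_4557 i sh) (Nat.ble 4537 i)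
noncomputable def s4557_4559 (i sh : Nat) : Nat := Bool.rec (Nat.shiftRight leaf4557 sh) (Nat.shiftRight leaf4558 sh) (Nat.ble 4558 i)
noncomputable def s4560_4562 (i sh : Nat) : Nat := Bool.rec (Nat.shiftRight leaf4560 sh) (Nat.shiftRight leaf4561 sh) (Nat.ble 4561 i)
noncomputable def s4559_4562 (i sh : Nat) : Nat := Bool.rec (Nat.shiftRight leaf4559 sh) (s4560_4562 i sh) (Nat.ble 4560 i)
noncomputable def s4557_4562 (i sh : Nat) : Nat := Bool.rec (s4557_4559 i sh) (s4559_4562 i sh) (Nat.ble 4559 i)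
noncomputable def s4562_4564 (i sh : Nat) : Nat := Bool.rec (Nat.shiftRight leaf4562 sh) (Nat.shiftRight leaf4563 sh) (Nat.ble 4563 i)
noncomputable def s4565_4567 (i sh : Nat) : Nat := Bool.rec (Nat.shiftRight leaf4565 sh) (Nat.shiftRight leaf4566 sh) (Nat.ble 4566 i)
noncomputable def s4564_4567 (i sh : Nat) : Nat := Bool.rec (Nat.shiftRight leaf4564 sh) (s4565_4567 i sh) (Nat.ble 4565 i)
noncomputable def s4562_4567 (i sh : Nat) : Nat := Bool.rec (s4562_4564 i sh) (s4564_4567 i sh) (Nat.ble 4564 i)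
noncomputable def s4557_4567 (i sh : Nat) : Nat := Bool.rec (s4557_4562 i sh) (s4562_4567 i sh) (Nat.ble 4562 i)
noncomputable def s4567_4569 (i sh : Nat) : Nat := Bool.rec (Nat.shiftRight leaf4567 sh) (Nat.shiftRight leaf4568 sh) (Nat.ble 4568 i)
noncomputable def s4570_4572 (i sh : Nat) : Nat := Bool.rec (Nat.shiftRight leaf4570 sh) (Nat.shiftRight leaf4571 sh) (Nat.ble 4571 i)
noncomputable def s4569_4572 (i sh : Nat) : Nat := Bool.rec (Nat.shiftRight leaf4569 sh) (s4570_4572 i sh) (Nat.ble 4570 i)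
noncomputable def s4567_4572 (i sh : Nat) : Nat := Bool.rec (s4567_4569 i sh) (s4569_4572 i sh) (Nat.ble 4569 i)
noncomputable def s4572_4574 (i sh : Nat) : Nat := Bool.rec (Nat.shiftRight leaf4572 sh) (Nat.shiftRight leaf4573 sh) (Nat.ble 4573 i)
noncomputable def s4575_4577 (i sh : Nat) : Nat := Bool.rec (Nat.shiftRight leaf4575 sh) (Nat.shiftRight leaf4576 sh) (Nat.ble 4576 i)
noncomputable def s4574_4577 (i sh : Nat) : Nat := Bool.rec (Nat.shiftRight leaf4574 sh) (s4575_4577 i sh) (Nat.ble 4575 i)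
noncomputable def s4572_4577 (i sh : Nat) : Nat := Bool.rec (s4572_4574 i sh) (s4574_4577 i sh) (Nat.ble 4574 i)
noncomputable def s4567_4577 (i sh : Nat) : Nat := Bool.rec (s4567_4572 i sh) (s4572_4577 i sh) (Nat.ble 4572 i)
noncomputable def s4557_4577 (i sh : Nat) : Nat := Bool.rec (s4557_4567 i sh) (s4567_4577 i sh) (Nat.ble 4567 i)
noncomputable def s4577_4579 (i sh : Nat) : Nat := Bool.rec (Nat.shiftRight leaf4577 sh) (Nat.shiftRight leaf4578 sh) (Nat.ble 4578 i)
noncomputable def s4580_4582 (i sh : Nat) : Nat := Bool.rec (Nat.shiftRight leaf4580 sh) (Nat.shiftRight leaf4581 sh) (Nat.ble 4581 i)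
noncomputable def s4579_4582 (i sh : Nat) : Nat := Bool.rec (Nat.shiftRight leaf4579 sh) (s4580_4582 i sh) (Nat.ble 4580 i)
noncomputable def s4577_4582 (i sh : Nat) : Nat := Bool.rec (s4577_4579 i sh) (s4579_4582 i sh) (Nat.ble 4579 i)
noncomputable def s4582_4584 (i sh : Nat) : Nat := Bool.rec (Nat.shiftRight leaf4582 sh) (Nat.shiftRight leaf4583 sh) (Nat.ble 4583 i)
noncomputable def s4585_4587 (i sh : Nat) : Nat := Bool.rec (Nat.shiftRight leaf4585 sh) (Nat.shiftRight leaf4586 sh) (Nat.ble 4586 i)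
noncomputable def s4584_4587 (i sh : Nat) : Nat := Bool.rec (Nat.shiftRight leaf4584 sh) (s4585_4587 i sh) (Nat.ble 4585 i)
noncomputable def s4582_4587 (i sh : Nat) : Nat := Bool.rec (s4582_4584 i sh) (s4584_4587 i sh) (Nat.ble 4584 i)
noncomputable def s4577_4587 (i sh : Nat) : Nat := Bool.rec (s4577_4582 i sh) (s4582_4587 i sh) (Nat.ble 4582 i)
noncomputable def s4587_4589 (i sh : Nat) : Nat := Bool.rec (Nat.shiftRight leaf4587 sh) (Nat.shiftRight leaf4588 sh) (Nat.ble 4588 i)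
noncomputable def s4590_4592 (i sh : Nat) : Nat := Bool.rec (Nat.shiftRight leaf4590 sh) (Nat.shiftRight leaf4591 sh) (Nat.ble 4591 i)
noncomputable def s4589_4592 (i sh : Nat) : Nat := Bool.rec (Nat.shiftRight leaf4589 sh) (s4590_4592 i sh) (Nat.ble 4590 i)
noncomputable def s4587_4592 (i sh : Nat) : Nat := Bool.rec (s4587_4589 i sh) (s4589_4592 i sh) (Nat.ble 4589 i)
noncomputable def s4592_4594 (i sh : Nat) : Nat := Bool.rec (Nat.shiftRight leaf4592 sh) (Nat.shiftRight leaf4593 sh) (Nat.ble 4593 i)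
noncomputable def s4595_4597 (i sh : Nat) : Nat := Bool.rec (Nat.shiftRight leaf4595 sh) (Nat.shiftRight leaf4596 sh) (Nat.ble 4596 i)
noncomputable def s4594_4597 (i sh : Nat) : Nat := Bool.rec (Nat.shiftRight leaf4594 sh) (s4595_4597 i sh) (Nat.ble 4595 i)
noncomputable def s4592_4597 (i sh : Nat) : Nat := Bool.rec (s4592_4594 i sh) (s4594_4597 i sh) (Nat.ble 4594 i)
noncomputable def s4587_4597 (i sh : Nat) : Nat := Bool.rec (s4587_4592 i sh) (s4592_4597 i sh) (Nat.ble 4592 i)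
noncomputable def s4577_4597 (i sh : Nat) : Nat := Bool.rec (s4577_4587 i sh) (s4587_4597 i sh) (Nat.ble 4587 i)
noncomputable def s4557_4597 (i sh : Nat) : Nat := Bool.rec (s4557_4577 i sh) (s4577_4597 i sh) (Nat.ble 4577 i)
noncomputable def s4517_4597 (i sh : Nat) : Nat := Bool.rec (s4517_4557 i sh) (s4557_4597 i sh) (Nat.ble 4557 i)
noncomputable def s4597_4599 (i sh : Nat) : Nat := Bool.rec (Nat.shiftRight leaf4597 sh) (Nat.shiftRight leaf4598 sh) (Nat.ble 4598 i)
noncomputable def s4600_4602 (i sh : Nat) : Nat := Bool.rec (Nat.shiftRight leaf4600 sh) (Nat.shiftRight leaf4601 sh) (Nat.ble 4601 i)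
noncomputable def s4599_4602 (i sh : Nat) : Nat := Bool.rec (Nat.shiftRight leaf4599 sh) (s4600_4602 i sh) (Nat.ble 4600 i)
noncomputable def s4597_4602 (i sh : Nat) : Nat := Bool.rec (s4597_4599 i sh) (s4599_4602 i sh) (Nat.ble 4599 i)
noncomputable def s4602_4604 (i sh : Nat) : Nat := Bool.rec (Nat.shiftRight leaf4602 sh) (Nat.shiftRight leaf4603 sh) (Nat.ble 4603 i)
noncomputable def s4605_4607 (i sh : Nat) : Nat := Bool.rec (Nat.shiftRight leaf4605 sh) (Nat.shiftRight leaf4606 sh) (Nat.ble 4606 i)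
noncomputable def s4604_4607 (i sh : Nat) : Nat := Bool.rec (Nat.shiftRight leaf4604 sh) (s4605_4607 i sh) (Nat.ble 4605 i)
noncomputable def s4602_4607 (i sh : Nat) : Nat := Bool.rec (s4602_4604 i sh) (s4604_4607 i sh) (Nat.ble 4604 i)
noncomputable def s4597_4607 (i sh : Nat) : Nat := Bool.rec (s4597_4602 i sh) (s4602_4607 i sh) (Nat.ble 4602 i)
noncomputable def s4607_4609 (i sh : Nat) : Nat := Bool.rec (Nat.shiftRight leaf4607 sh) (Nat.shiftRight leaf4608 sh) (Nat.ble 4608 i)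
noncomputable def s4610_4612 (i sh : Nat) : Nat := Bool.rec (Nat.shiftRight leaf4610 sh) (Nat.shiftRight leaf4611 sh) (Nat.ble 4611 i)
noncomputable def s4609_4612 (i sh : Nat) : Nat := Bool.rec (Nat.shiftRight leaf4609 sh) (s4610_4612 i sh) (Nat.ble 4610 i)
noncomputable def s4607_4612 (i sh : Nat) : Nat := Bool.rec (s4607_4609 i sh) (s4609_4612 i sh) (Nat.ble 4609 i)
noncomputable def s4612_4614 (i sh : Nat) : Nat := Bool.rec (Nat.shiftRight leaf4612 sh) (Nat.shiftRight leaf4613 sh) (Nat.ble 4613 i)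
noncomputable def s4615_4617 (i sh : Nat) : Nat := Bool.rec (Nat.shiftRight leaf4615 sh) (Nat.shiftRight leaf4616 sh) (Nat.ble 4616 i)
noncomputable def s4614_4617 (i sh : Nat) : Nat := Bool.rec (Nat.shiftRight leaf4614 sh) (s4615_4617 i sh) (Nat.ble 4615 i)
noncomputable def s4612_4617 (i sh : Nat) : Nat := Bool.rec (s4612_4614 i sh) (s4614_4617 i sh) (Nat.ble 4614 i)
noncomputable def s4607_4617 (i sh : Nat) : Nat := Bool.rec (s4607_4612 i sh) (s4612_4617 i sh) (Nat.ble 4612 i)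
noncomputable def s4597_4617 (i sh : Nat) : Nat := Bool.rec (s4597_4607 i sh) (s4607_4617 i sh) (Nat.ble 4607 i)
noncomputable def s4617_4619 (i sh : Nat) : Nat := Bool.rec (Nat.shiftRight leaf4617 sh) (Nat.shiftRight leaf4618 sh) (Nat.ble 4618 i)
noncomputable def s4620_4622 (i sh : Nat) : Nat := Bool.rec (Nat.shiftRight leaf4620 sh) (Nat.shiftRight leaf4621 sh) (Nat.ble 4621 i)
noncomputable def s4619_4622 (i sh : Nat) : Nat := Bool.rec (Nat.shiftRight leaf4619 sh) (s4620_4622 i sh) (Nat.ble 4620 i)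
noncomputable def s4617_4622 (i sh : Nat) : Nat := Bool.rec (s4617_4619 i sh) (s4619_4622 i sh) (Nat.ble 4619 i)
noncomputable def s4622_4624 (i sh : Nat) : Nat := Bool.rec (Nat.shiftRight leaf4622 sh) (Nat.shiftRight leaf4623 sh) (Nat.ble 4623 i)
noncomputable def s4625_4627 (i sh : Nat) : Nat := Bool.rec (Nat.shiftRight leaf4625 sh) (Nat.shiftRight leaf4626 sh) (Nat.ble 4626 i)
noncomputable def s4624_4627 (i sh : Nat) : Nat := Bool.rec (Nat.shiftRight leaf4624 sh) (s4625_4627 i sh) (Nat.ble 4625 i)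
noncomputable def s4622_4627 (i sh : Nat) : Nat := Bool.rec (s4622_4624 i sh) (s4624_4627 i sh) (Nat.ble 4624 i)
noncomputable def s4617_4627 (i sh : Nat) : Nat := Bool.rec (s4617_4622 i sh) (s4622_4627 i sh) (Nat.ble 4622 i)
noncomputable def s4627_4629 (i sh : Nat) : Nat := Bool.rec (Nat.shiftRight leaf4627 sh) (Nat.shiftRight leaf4628 sh) (Nat.ble 4628 i)
noncomputable def s4630_4632 (i sh : Nat) : Nat := Bool.rec (Nat.shiftRight leaf4630 sh) (Nat.shiftRight leaf4631 sh) (Nat.ble 4631 i)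
noncomputable def s4629_4632 (i sh : Nat) : Nat := Bool.rec (Nat.shiftRight leaf4629 sh) (s4630_4632 i sh) (Nat.ble 4630 i)
noncomputable def s4627_4632 (i sh : Nat) : Nat := Bool.rec (s4627_4629 i sh) (s4629_4632 i sh) (Nat.ble 4629 i)
noncomputable def s4632_4634 (i sh : Nat) : Nat := Bool.rec (Nat.shiftRight leaf4632 sh) (Nat.shiftRight leaf4633 sh) (Nat.ble 4633 i)
noncomputable def s4635_4637 (i sh : Nat) : Nat := Bool.rec (Nat.shiftRight leaf4635 sh) (Nat.shiftRight leaf4636 sh) (Nat.ble 4636 i)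
noncomputable def s4634_4637 (i sh : Nat) : Nat := Bool.rec (Nat.shiftRight leaf4634 sh) (s4635_4637 i sh) (Nat.ble 4635 i)
noncomputable def s4632_4637 (i sh : Nat) : Nat := Bool.rec (s4632_4634 i sh) (s4634_4637 i sh) (Nat.ble 4634 i)
noncomputable def s4627_4637 (i sh : Nat) : Nat := Bool.rec (s4627_4632 i sh) (s4632_4637 i sh) (Nat.ble 4632 i)
noncomputable def s4617_4637 (i sh : Nat) : Nat := Bool.rec (s4617_4627 i sh) (s4627_4637 i sh) (Nat.ble 4627 i)
noncomputable def s4597_4637 (i sh : Nat) : Nat := Bool.rec (s4597_4617 i sh) (s4617_4637 i sh) (Nat.ble 4617 i)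
noncomputable def s4637_4639 (i sh : Nat) : Nat := Bool.rec (Nat.shiftRight leaf4637 sh) (Nat.shiftRight leaf4638 sh) (Nat.ble 4638 i)
noncomputable def s4640_4642 (i sh : Nat) : Nat := Bool.rec (Nat.shiftRight leaf4640 sh) (Nat.shiftRight leaf4641 sh) (Nat.ble 4641 i)
noncomputable def s4639_4642 (i sh : Nat) : Nat := Bool.rec (Nat.shiftRight leaf4639 sh) (s4640_4642 i sh) (Nat.ble 4640 i)
noncomputable def s4637_4642 (i sh : Nat) : Nat := Bool.rec (s4637_4639 i sh) (s4639_4642 i sh) (Nat.ble 4639 i)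
noncomputable def s4642_4644 (i sh : Nat) : Nat := Bool.rec (Nat.shiftRight leaf4642 sh) (Nat.shiftRight leaf4643 sh) (Nat.ble 4643 i)
noncomputable def s4645_4647 (i sh : Nat) : Nat := Bool.rec (Nat.shiftRight leaf4645 sh) (Nat.shiftRight leaf4646 sh) (Nat.ble 4646 i)
noncomputable def s4644_4647 (i sh : Nat) : Nat := Bool.rec (Nat.shiftRight leaf4644 sh) (s4645_4647 i sh) (Nat.ble 4645 i)
noncomputable def s4642_4647 (i sh : Nat) : Nat := Bool.rec (s4642_4644 i sh) (s4644_4647 i sh) (Nat.ble 4644 i)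
noncomputable def s4637_4647 (i sh : Nat) : Nat := Bool.rec (s4637_4642 i sh) (s4642_4647 i sh) (Nat.ble 4642 i)
noncomputable def s4647_4649 (i sh : Nat) : Nat := Bool.rec (Nat.shiftRight leaf4647 sh) (Nat.shiftRight leaf4648 sh) (Nat.ble 4648 i)
noncomputable def s4650_4652 (i sh : Nat) : Nat := Bool.rec (Nat.shiftRight leaf4650 sh) (Nat.shiftRight leaf4651 sh) (Nat.ble 4651 i)
noncomputable def s4649_4652 (i sh : Nat) : Nat := Bool.rec (Nat.shiftRight leaf4649 sh) (s4650_4652 i sh) (Nat.ble 4650 i)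
noncomputable def s4647_4652 (i sh : Nat) : Nat := Bool.rec (s4647_4649 i sh) (s4649_4652 i sh) (Nat.ble 4649 i)
noncomputable def s4652_4654 (i sh : Nat) : Nat := Bool.rec (Nat.shiftRight leaf4652 sh) (Nat.shiftRight leaf4653 sh) (Nat.ble 4653 i)
noncomputable def s4655_4657 (i sh : Nat) : Nat := Bool.rec (Nat.shiftRight leaf4655 sh) (Nat.shiftRight leaf4656 sh) (Nat.ble 4656 i)
noncomputable def s4654_4657 (i sh : Nat) : Nat := Bool.rec (Nat.shiftRight leaf4654 sh) (s4655_4657 i sh) (Nat.ble 4655 i)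
noncomputable def s4652_4657 (i sh : Nat) : Nat := Bool.rec (s4652_4654 i sh) (s4654_4657 i sh) (Nat.ble 4654 i)
noncomputable def s4647_4657 (i sh : Nat) : Nat := Bool.rec (s4647_4652 i sh) (s4652_4657 i sh) (Nat.ble 4652 i)
noncomputable def s4637_4657 (i sh : Nat) : Nat := Bool.rec (s4637_4647 i sh) (s4647_4657 i sh) (Nat.ble 4647 i)
noncomputable def s4657_4659 (i sh : Nat) : Nat := Bool.rec (Nat.shiftRight leaf4657 sh) (Nat.shiftRight leaf4658 sh) (Nat.ble 4658 i)
noncomputable def s4660_4662 (i sh : Nat) : Nat := Bool.rec (Nat.shiftRight leaf4660 sh) (Nat.shiftRight leaf4661 sh) (Nat.ble 4661 i)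
noncomputable def s4659_4662 (i sh : Nat) : Nat := Bool.rec (Nat.shiftRight leaf4659 sh) (s4660_4662 i sh) (Nat.ble 4660 i)
noncomputable def s4657_4662 (i sh : Nat) : Nat := Bool.rec (s4657_4659 i sh) (s4659_4662 i sh) (Nat.ble 4659 i)
noncomputable def s4662_4664 (i sh : Nat) : Nat := Bool.rec (Nat.shiftRight leaf4662 sh) (Nat.shiftRight leaf4663 sh) (Nat.ble 4663 i)
noncomputable def s4665_4667 (i sh : Nat) : Nat := Bool.rec (Nat.shiftRight leaf4665 sh) (Nat.shiftRight leaf4666 sh) (Nat.ble 4666 i)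
noncomputable def s4664_4667 (i sh : Nat) : Nat := Bool.rec (Nat.shiftRight leaf4664 sh) (s4665_4667 i sh) (Nat.ble 4665 i)
noncomputable def s4662_4667 (i sh : Nat) : Nat := Bool.rec (s4662_4664 i sh) (s4664_4667 i sh) (Nat.ble 4664 i)
noncomputable def s4657_4667 (i sh : Nat) : Nat := Bool.rec (s4657_4662 i sh) (s4662_4667 i sh) (Nat.ble 4662 i)
noncomputable def s4667_4669 (i sh : Nat) : Nat := Bool.rec (Nat.shiftRight leaf4667 sh) (Nat.shiftRight leaf4668 sh) (Nat.ble 4668 i)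
noncomputable def s4670_4672 (i sh : Nat) : Nat := Bool.rec (Nat.shiftRight leaf4670 sh) (Nat.shiftRight leaf4671 sh) (Nat.ble 4671 i)
noncomputable def s4669_4672 (i sh : Nat) : Nat := Bool.rec (Nat.shiftRight leaf4669 sh) (s4670_4672 i sh) (Nat.ble 4670 i)
noncomputable def s4667_4672 (i sh : Nat) : Nat := Bool.rec (s4667_4669 i sh) (s4669_4672 i sh) (Nat.ble 4669 i)
noncomputable def s4673_4675 (i sh : Nat) : Nat := Bool.rec (Nat.shiftRight leaf4673 sh) (Nat.shiftRight leaf4674 sh) (Nat.ble 4674 i)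
noncomputable def s4672_4675 (i sh : Nat) : Nat := Bool.rec (Nat.shiftRight leaf4672 sh) (s4673_4675 i sh) (Nat.ble 4673 i)
noncomputable def s4676_4678 (i sh : Nat) : Nat := Bool.rec (Nat.shiftRight leaf4676 sh) (Nat.shiftRight leaf4677 sh) (Nat.ble 4677 i)
noncomputable def s4675_4678 (i sh : Nat) : Nat := Bool.rec (Nat.shiftRight leaf4675 sh) (s4676_4678 i sh) (Nat.ble 4676 i)
noncomputable def s4672_4678 (i sh : Nat) : Nat := Bool.rec (s4672_4675 i sh) (s4675_4678 i sh) (Nat.ble 4675 i)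
noncomputable def s4667_4678 (i sh : Nat) : Nat := Bool.rec (s4667_4672 i sh) (s4672_4678 i sh) (Nat.ble 4672 i)
noncomputable def s4657_4678 (i sh : Nat) : Nat := Bool.rec (s4657_4667 i sh) (s4667_4678 i sh) (Nat.ble 4667 i)
noncomputable def s4637_4678 (i sh : Nat) : Nat := Bool.rec (s4637_4657 i sh) (s4657_4678 i sh) (Nat.ble 4657 i)
noncomputable def s4597_4678 (i sh : Nat) : Nat := Bool.rec (s4597_4637 i sh) (s4637_4678 i sh) (Nat.ble 4637 i)
noncomputable def s4517_4678 (i sh : Nat) : Nat := Bool.rec (s4517_4597 i sh) (s4597_4678 i sh) (Nat.ble 4597 i)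
noncomputable def s4678_4680 (i sh : Nat) : Nat := Bool.rec (Nat.shiftRight leaf4678 sh) (Nat.shiftRight leaf4679 sh) (Nat.ble 4679 i)
noncomputable def s4681_4683 (i sh : Nat) : Nat := Bool.rec (Nat.shiftRight leaf4681 sh) (Nat.shiftRight leaf4682 sh) (Nat.ble 4682 i)
noncomputable def s4680_4683 (i sh : Nat) : Nat := Bool.rec (Nat.shiftRight leaf4680 sh) (s4681_4683 i sh) (Nat.ble 4681 i)
noncomputable def s4678_4683 (i sh : Nat) : Nat := Bool.rec (s4678_4680 i sh) (s4680_4683 i sh) (Nat.ble 4680 i)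
noncomputable def s4683_4685 (i sh : Nat) : Nat := Bool.rec (Nat.shiftRight leaf4683 sh) (Nat.shiftRight leaf4684 sh) (Nat.ble 4684 i)
noncomputable def s4686_4688 (i sh : Nat) : Nat := Bool.rec (Nat.shiftRight leaf4686 sh) (Nat.shiftRight leaf4687 sh) (Nat.ble 4687 i)
noncomputable def s4685_4688 (i sh : Nat) : Nat := Bool.rec (Nat.shiftRight leaf4685 sh) (s4686_4688 i sh) (Nat.ble 4686 i)
noncomputable def s4683_4688 (i sh : Nat) : Nat := Bool.rec (s4683_4685 i sh) (s4685_4688 i sh) (Nat.ble 4685 i)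
noncomputable def s4678_4688 (i sh : Nat) : Nat := Bool.rec (s4678_4683 i sh) (s4683_4688 i sh) (Nat.ble 4683 i)
noncomputable def s4688_4690 (i sh : Nat) : Nat := Bool.rec (Nat.shiftRight leaf4688 sh) (Nat.shiftRight leaf4689 sh) (Nat.ble 4689 i)
noncomputable def s4691_4693 (i sh : Nat) : Nat := Bool.rec (Nat.shiftRight leaf4691 sh) (Nat.shiftRight leaf4692 sh) (Nat.ble 4692 i)
noncomputable def s4690_4693 (i sh : Nat) : Nat := Bool.rec (Nat.shiftRight leaf4690 sh) (s4691_4693 i sh) (Nat.ble 4691 i)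
noncomputable def s4688_4693 (i sh : Nat) : Nat := Bool.rec (s4688_4690 i sh) (s4690_4693 i sh) (Nat.ble 4690 i)
noncomputable def s4693_4695 (i sh : Nat) : Nat := Bool.rec (Nat.shiftRight leaf4693 sh) (Nat.shiftRight leaf4694 sh) (Nat.ble 4694 i)
noncomputable def s4696_4698 (i sh : Nat) : Nat := Bool.rec (Nat.shiftRight leaf4696 sh) (Nat.shiftRight leaf4697 sh) (Nat.ble 4697 i)
noncomputable def s4695_4698 (i sh : Nat) : Nat := Bool.rec (Nat.shiftRight leaf4695 sh) (s4696_4698 i sh) (Nat.ble 4696 i)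
noncomputable def s4693_4698 (i sh : Nat) : Nat := Bool.rec (s4693_4695 i sh) (s4695_4698 i sh) (Nat.ble 4695 i)
noncomputable def s4688_4698 (i sh : Nat) : Nat := Bool.rec (s4688_4693 i sh) (s4693_4698 i sh) (Nat.ble 4693 i)
noncomputable def s4678_4698 (i sh : Nat) : Nat := Bool.rec (s4678_4688 i sh) (s4688_4698 i sh) (Nat.ble 4688 i)
noncomputable def s4698_4700 (i sh : Nat) : Nat := Bool.rec (Nat.shiftRight leaf4698 sh) (Nat.shiftRight leaf4699 sh) (Nat.ble 4699 i)
noncomputable def s4701_4703 (i sh : Nat) : Nat := Bool.rec (Nat.shiftRight leaf4701 sh) (Nat.shiftRight leaf4702 sh) (Nat.ble 4702 i)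
noncomputable def s4700_4703 (i sh : Nat) : Nat := Bool.rec (Nat.shiftRight leaf4700 sh) (s4701_4703 i sh) (Nat.ble 4701 i)
noncomputable def s4698_4703 (i sh : Nat) : Nat := Bool.rec (s4698_4700 i sh) (s4700_4703 i sh) (Nat.ble 4700 i)
noncomputable def s4703_4705 (i sh : Nat) : Nat := Bool.rec (Nat.shiftRight leaf4703 sh) (Nat.shiftRight leaf4704 sh) (Nat.ble 4704 i)
noncomputable def s4706_4708 (i sh : Nat) : Nat := Bool.rec (Nat.shiftRight leaf4706 sh) (Nat.shiftRight leaf4707 sh) (Nat.ble 4707 i)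
noncomputable def s4705_4708 (i sh : Nat) : Nat := Bool.rec (Nat.shiftRight leaf4705 sh) (s4706_4708 i sh) (Nat.ble 4706 i)
noncomputable def s4703_4708 (i sh : Nat) : Nat := Bool.rec (s4703_4705 i sh) (s4705_4708 i sh) (Nat.ble 4705 i)
noncomputable def s4698_4708 (i sh : Nat) : Nat := Bool.rec (s4698_4703 i sh) (s4703_4708 i sh) (Nat.ble 4703 i)
noncomputable def s4708_4710 (i sh : Nat) : Nat := Bool.rec (Nat.shiftRight leaf4708 sh) (Nat.shiftRight leaf4709 sh) (Nat.ble 4709 i)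
noncomputable def s4711_4713 (i sh : Nat) : Nat := Bool.rec (Nat.shiftRight leaf4711 sh) (Nat.shiftRight leaf4712 sh) (Nat.ble 4712 i)
noncomputable def s4710_4713 (i sh : Nat) : Nat := Bool.rec (Nat.shiftRight leaf4710 sh) (s4711_4713 i sh) (Nat.ble 4711 i)
noncomputable def s4708_4713 (i sh : Nat) : Nat := Bool.rec (s4708_4710 i sh) (s4710_4713 i sh) (Nat.ble 4710 i)
noncomputable def s4713_4715 (i sh : Nat) : Nat := Bool.rec (Nat.shiftRight leaf4713 sh) (Nat.shiftRight leaf4714 sh) (Nat.ble 4714 i)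
noncomputable def s4716_4718 (i sh : Nat) : Nat := Bool.rec (Nat.shiftRight leaf4716 sh) (Nat.shiftRight leaf4717 sh) (Nat.ble 4717 i)
noncomputable def s4715_4718 (i sh : Nat) : Nat := Bool.rec (Nat.shiftRight leaf4715 sh) (s4716_4718 i sh) (Nat.ble 4716 i)
noncomputable def s4713_4718 (i sh : Nat) : Nat := Bool.rec (s4713_4715 i sh) (s4715_4718 i sh) (Nat.ble 4715 i)
noncomputable def s4708_4718 (i sh : Nat) : Nat := Bool.rec (s4708_4713 i sh) (s4713_4718 i sh) (Nat.ble 4713 i)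
noncomputable def s4698_4718 (i sh : Nat) : Nat := Bool.rec (s4698_4708 i sh) (s4708_4718 i sh) (Nat.ble 4708 i)
noncomputable def s4678_4718 (i sh : Nat) : Nat := Bool.rec (s4678_4698 i sh) (s4698_4718 i sh) (Nat.ble 4698 i)
noncomputable def s4718_4720 (i sh : Nat) : Nat := Bool.rec (Nat.shiftRight leaf4718 sh) (Nat.shiftRight leaf4719 sh) (Nat.ble 4719 i)
noncomputable def s4721_4723 (i sh : Nat) : Nat := Bool.rec (Nat.shiftRight leaf4721 sh) (Nat.shiftRight leaf4722 sh) (Nat.ble 4722 i)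
noncomputable def s4720_4723 (i sh : Nat) : Nat := Bool.rec (Nat.shiftRight leaf4720 sh) (s4721_4723 i sh) (Nat.ble 4721 i)
noncomputable def s4718_4723 (i sh : Nat) : Nat := Bool.rec (s4718_4720 i sh) (s4720_4723 i sh) (Nat.ble 4720 i)
noncomputable def s4723_4725 (i sh : Nat) : Nat := Bool.rec (Nat.shiftRight leaf4723 sh) (Nat.shiftRight leaf4724 sh) (Nat.ble 4724 i)
noncomputable def s4726_4728 (i sh : Nat) : Nat := Bool.rec (Nat.shiftRight leaf4726 sh) (Nat.shiftRight leaf4727 sh) (Nat.ble 4727 i)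
noncomputable def s4725_4728 (i sh : Nat) : Nat := Bool.rec (Nat.shiftRight leaf4725 sh) (s4726_4728 i sh) (Nat.ble 4726 i)
noncomputable def s4723_4728 (i sh : Nat) : Nat := Bool.rec (s4723_4725 i sh) (s4725_4728 i sh) (Nat.ble 4725 i)
noncomputable def s4718_4728 (i sh : Nat) : Nat := Bool.rec (s4718_4723 i sh) (s4723_4728 i sh) (Nat.ble 4723 i)
noncomputable def s4728_4730 (i sh : Nat) : Nat := Bool.rec (Nat.shiftRight leaf4728 sh) (Nat.shiftRight leaf4729 sh) (Nat.ble 4729 i)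
noncomputable def s4731_4733 (i sh : Nat) : Nat := Bool.rec (Nat.shiftRight leaf4731 sh) (Nat.shiftRight leaf4732 sh) (Nat.ble 4732 i)
noncomputable def s4730_4733 (i sh : Nat) : Nat := Bool.rec (Nat.shiftRight leaf4730 sh) (s4731_4733 i sh) (Nat.ble 4731 i)
noncomputable def s4728_4733 (i sh : Nat) : Nat := Bool.rec (s4728_4730 i sh) (s4730_4733 i sh) (Nat.ble 4730 i)
noncomputable def s4733_4735 (i sh : Nat) : Nat := Bool.rec (Nat.shiftRight leaf4733 sh) (Nat.shiftRight leaf4734 sh) (Nat.ble 4734 i)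
noncomputable def s4736_4738 (i sh : Nat) : Nat := Bool.rec (Nat.shiftRight leaf4736 sh) (Nat.shiftRight leaf4737 sh) (Nat.ble 4737 i)
noncomputable def s4735_4738 (i sh : Nat) : Nat := Bool.rec (Nat.shiftRight leaf4735 sh) (s4736_4738 i sh) (Nat.ble 4736 i)
noncomputable def s4733_4738 (i sh : Nat) : Nat := Bool.rec (s4733_4735 i sh) (s4735_4738 i sh) (Nat.ble 4735 i)
noncomputable def s4728_4738 (i sh : Nat) : Nat := Bool.rec (s4728_4733 i sh) (s4733_4738 i sh) (Nat.ble 4733 i)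
noncomputable def s4718_4738 (i sh : Nat) : Nat := Bool.rec (s4718_4728 i sh) (s4728_4738 i sh) (Nat.ble 4728 i)
noncomputable def s4738_4740 (i sh : Nat) : Nat := Bool.rec (Nat.shiftRight leaf4738 sh) (Nat.shiftRight leaf4739 sh) (Nat.ble 4739 i)
noncomputable def s4741_4743 (i sh : Nat) : Nat := Bool.rec (Nat.shiftRight leaf4741 sh) (Nat.shiftRight leaf4742 sh) (Nat.ble 4742 i)
noncomputable def s4740_4743 (i sh : Nat) : Nat := Bool.rec (Nat.shiftRight leaf4740 sh) (s4741_4743 i sh) (Nat.ble 4741 i)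
noncomputable def s4738_4743 (i sh : Nat) : Nat := Bool.rec (s4738_4740 i sh) (s4740_4743 i sh) (Nat.ble 4740 i)
noncomputable def s4743_4745 (i sh : Nat) : Nat := Bool.rec (Nat.shiftRight leaf4743 sh) (Nat.shiftRight leaf4744 sh) (Nat.ble 4744 i)
noncomputable def s4746_4748 (i sh : Nat) : Nat := Bool.rec (Nat.shiftRight leaf4746 sh) (Nat.shiftRight leaf4747 sh) (Nat.ble 4747 i)
noncomputable def s4745_4748 (i sh : Nat) : Nat := Bool.rec (Nat.shiftRight leaf4745 sh) (s4746_4748 i sh) (Nat.ble 4746 i)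
noncomputable def s4743_4748 (i sh : Nat) : Nat := Bool.rec (s4743_4745 i sh) (s4745_4748 i sh) (Nat.ble 4745 i)
noncomputable def s4738_4748 (i sh : Nat) : Nat := Bool.rec (s4738_4743 i sh) (s4743_4748 i sh) (Nat.ble 4743 i)
noncomputable def s4748_4750 (i sh : Nat) : Nat := Bool.rec (Nat.shiftRight leaf4748 sh) (Nat.shiftRight leaf4749 sh) (Nat.ble 4749 i)
noncomputable def s4751_4753 (i sh : Nat) : Nat := Bool.rec (Nat.shiftRight leaf4751 sh) (Nat.shiftRight leaf4752 sh) (Nat.ble 4752 i)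
noncomputable def s4750_4753 (i sh : Nat) : Nat := Bool.rec (Nat.shiftRight leaf4750 sh) (s4751_4753 i sh) (Nat.ble 4751 i)
noncomputable def s4748_4753 (i sh : Nat) : Nat := Bool.rec (s4748_4750 i sh) (s4750_4753 i sh) (Nat.ble 4750 i)
noncomputable def s4754_4756 (i sh : Nat) : Nat := Bool.rec (Nat.shiftRight leaf4754 sh) (Nat.shiftRight leaf4755 sh) (Nat.ble 4755 i)
noncomputable def s4753_4756 (i sh : Nat) : Nat := Bool.rec (Nat.shiftRight leaf4753 sh) (s4754_4756 i sh) (Nat.ble 4754 i)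
noncomputable def s4757_4759 (i sh : Nat) : Nat := Bool.rec (Nat.shiftRight leaf4757 sh) (Nat.shiftRight leaf4758 sh) (Nat.ble 4758 i)
noncomputable def s4756_4759 (i sh : Nat) : Nat := Bool.rec (Nat.shiftRight leaf4756 sh) (s4757_4759 i sh) (Nat.ble 4757 i)
noncomputable def s4753_4759 (i sh : Nat) : Nat := Bool.rec (s4753_4756 i sh) (s4756_4759 i sh) (Nat.ble 4756 i)
noncomputable def s4748_4759 (i sh : Nat) : Nat := Bool.rec (s4748_4753 i sh) (s4753_4759 i sh) (Nat.ble 4753 i)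
noncomputable def s4738_4759 (i sh : Nat) : Nat := Bool.rec (s4738_4748 i sh) (s4748_4759 i sh) (Nat.ble 4748 i)
noncomputable def s4718_4759 (i sh : Nat) : Nat := Bool.rec (s4718_4738 i sh) (s4738_4759 i sh) (Nat.ble 4738 i)
noncomputable def s4678_4759 (i sh : Nat) : Nat := Bool.rec (s4678_4718 i sh) (s4718_4759 i sh) (Nat.ble 4718 i)
noncomputable def s4759_4761 (i sh : Nat) : Nat := Bool.rec (Nat.shiftRight leaf4759 sh) (Nat.shiftRight leaf4760 sh) (Nat.ble 4760 i)
noncomputable def s4762_4764 (i sh : Nat) : Nat := Bool.rec (Nat.shiftRight leaf4762 sh) (Nat.shiftRight leaf4763 sh) (Nat.ble 4763 i)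
noncomputable def s4761_4764 (i sh : Nat) : Nat := Bool.rec (Nat.shiftRight leaf4761 sh) (s4762_4764 i sh) (Nat.ble 4762 i)
noncomputable def s4759_4764 (i sh : Nat) : Nat := Bool.rec (s4759_4761 i sh) (s4761_4764 i sh) (Nat.ble 4761 i)
noncomputable def s4764_4766 (i sh : Nat) : Nat := Bool.rec (Nat.shiftRight leaf4764 sh) (Nat.shiftRight leaf4765 sh) (Nat.ble 4765 i)
noncomputable def s4767_4769 (i sh : Nat) : Nat := Bool.rec (Nat.shiftRight leaf4767 sh) (Nat.shiftRight leaf4768 sh) (Nat.ble 4768 i)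
noncomputable def s4766_4769 (i sh : Nat) : Nat := Bool.rec (Nat.shiftRight leaf4766 sh) (s4767_4769 i sh) (Nat.ble 4767 i)
noncomputable def s4764_4769 (i sh : Nat) : Nat := Bool.rec (s4764_4766 i sh) (s4766_4769 i sh) (Nat.ble 4766 i)
noncomputable def s4759_4769 (i sh : Nat) : Nat := Bool.rec (s4759_4764 i sh) (s4764_4769 i sh) (Nat.ble 4764 i)
noncomputable def s4769_4771 (i sh : Nat) : Nat := Bool.rec (Nat.shiftRight leaf4769 sh) (Nat.shiftRight leaf4770 sh) (Nat.ble 4770 i)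
noncomputable def s4772_4774 (i sh : Nat) : Nat := Bool.rec (Nat.shiftRight leaf4772 sh) (Nat.shiftRight leaf4773 sh) (Nat.ble 4773 i)
noncomputable def s4771_4774 (i sh : Nat) : Nat := Bool.rec (Nat.shiftRight leaf4771 sh) (s4772_4774 i sh) (Nat.ble 4772 i)
noncomputable def s4769_4774 (i sh : Nat) : Nat := Bool.rec (s4769_4771 i sh) (s4771_4774 i sh) (Nat.ble 4771 i)
noncomputable def s4774_4776 (i sh : Nat) : Nat := Bool.rec (Nat.shiftRight leaf4774 sh) (Nat.shiftRight leaf4775 sh) (Nat.ble 4775 i)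
noncomputable def s4777_4779 (i sh : Nat) : Nat := Bool.rec (Nat.shiftRight leaf4777 sh) (Nat.shiftRight leaf4778 sh) (Nat.ble 4778 i)
noncomputable def s4776_4779 (i sh : Nat) : Nat := Bool.rec (Nat.shiftRight leaf4776 sh) (s4777_4779 i sh) (Nat.ble 4777 i)
noncomputable def s4774_4779 (i sh : Nat) : Nat := Bool.rec (s4774_4776 i sh) (s4776_4779 i sh) (Nat.ble 4776 i)
noncomputable def s4769_4779 (i sh : Nat) : Nat := Bool.rec (s4769_4774 i sh) (s4774_4779 i sh) (Nat.ble 4774 i)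
noncomputable def s4759_4779 (i sh : Nat) : Nat := Bool.rec (s4759_4769 i sh) (s4769_4779 i sh) (Nat.ble 4769 i)
noncomputable def s4779_4781 (i sh : Nat) : Nat := Bool.rec (Nat.shiftRight leaf4779 sh) (Nat.shiftRight leaf4780 sh) (Nat.ble 4780 i)
noncomputable def s4782_4784 (i sh : Nat) : Nat := Bool.rec (Nat.shiftRight leaf4782 sh) (Nat.shiftRight leaf4783 sh) (Nat.ble 4783 i)
noncomputable def s4781_4784 (i sh : Nat) : Nat := Bool.rec (Nat.shiftRight leaf4781 sh) (s4782_4784 i sh) (Nat.ble 4782 i)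
noncomputable def s4779_4784 (i sh : Nat) : Nat := Bool.rec (s4779_4781 i sh) (s4781_4784 i sh) (Nat.ble 4781 i)
noncomputable def s4784_4786 (i sh : Nat) : Nat := Bool.rec (Nat.shiftRight leaf4784 sh) (Nat.shiftRight leaf4785 sh) (Nat.ble 4785 i)
noncomputable def s4787_4789 (i sh : Nat) : Nat := Bool.rec (Nat.shiftRight leaf4787 sh) (Nat.shiftRight leaf4788 sh) (Nat.ble 4788 i)
noncomputable def s4786_4789 (i sh : Nat) : Nat := Bool.rec (Nat.shiftRight leaf4786 sh) (s4787_4789 i sh) (Nat.ble 4787 i)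
noncomputable def s4784_4789 (i sh : Nat) : Nat := Bool.rec (s4784_4786 i sh) (s4786_4789 i sh) (Nat.ble 4786 i)
noncomputable def s4779_4789 (i sh : Nat) : Nat := Bool.rec (s4779_4784 i sh) (s4784_4789 i sh) (Nat.ble 4784 i)
noncomputable def s4789_4791 (i sh : Nat) : Nat := Bool.rec (Nat.shiftRight leaf4789 sh) (Nat.shiftRight leaf4790 sh) (Nat.ble 4790 i)
noncomputable def s4792_4794 (i sh : Nat) : Nat := Bool.rec (Nat.shiftRight leaf4792 sh) (Nat.shiftRight leaf4793 sh) (Nat.ble 4793 i)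
noncomputable def s4791_4794 (i sh : Nat) : Nat := Bool.rec (Nat.shiftRight leaf4791 sh) (s4792_4794 i sh) (Nat.ble 4792 i)
noncomputable def s4789_4794 (i sh : Nat) : Nat := Bool.rec (s4789_4791 i sh) (s4791_4794 i sh) (Nat.ble 4791 i)
noncomputable def s4794_4796 (i sh : Nat) : Nat := Bool.rec (Nat.shiftRight leaf4794 sh) (Nat.shiftRight leaf4795 sh) (Nat.ble 4795 i)
noncomputable def s4797_4799 (i sh : Nat) : Nat := Bool.rec (Nat.shiftRight leaf4797 sh) (Nat.shiftRight leaf4798 sh) (Nat.ble 4798 i)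
noncomputable def s4796_4799 (i sh : Nat) : Nat := Bool.rec (Nat.shiftRight leaf4796 sh) (s4797_4799 i sh) (Nat.ble 4797 i)
noncomputable def s4794_4799 (i sh : Nat) : Nat := Bool.rec (s4794_4796 i sh) (s4796_4799 i sh) (Nat.ble 4796 i)
noncomputable def s4789_4799 (i sh : Nat) : Nat := Bool.rec (s4789_4794 i sh) (s4794_4799 i sh) (Nat.ble 4794 i)
noncomputable def s4779_4799 (i sh : Nat) : Nat := Bool.rec (s4779_4789 i sh) (s4789_4799 i sh) (Nat.ble 4789 i)
noncomputable def s4759_4799 (i sh : Nat) : Nat := Bool.rec (s4759_4779 i sh) (s4779_4799 i sh) (Nat.ble 4779 i)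
noncomputable def s4799_4801 (i sh : Nat) : Nat := Bool.rec (Nat.shiftRight leaf4799 sh) (Nat.shiftRight leaf4800 sh) (Nat.ble 4800 i)
noncomputable def s4802_4804 (i sh : Nat) : Nat := Bool.rec (Nat.shiftRight leaf4802 sh) (Nat.shiftRight leaf4803 sh) (Nat.ble 4803 i)
noncomputable def s4801_4804 (i sh : Nat) : Nat := Bool.rec (Nat.shiftRight leaf4801 sh) (s4802_4804 i sh) (Nat.ble 4802 i)
noncomputable def s4799_4804 (i sh : Nat) : Nat := Bool.rec (s4799_4801 i sh) (s4801_4804 i sh) (Nat.ble 4801 i)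
noncomputable def s4804_4806 (i sh : Nat) : Nat := Bool.rec (Nat.shiftRight leaf4804 sh) (Nat.shiftRight leaf4805 sh) (Nat.ble 4805 i)
noncomputable def s4807_4809 (i sh : Nat) : Nat := Bool.rec (Nat.shiftRight leaf4807 sh) (Nat.shiftRight leaf4808 sh) (Nat.ble 4808 i)
noncomputable def s4806_4809 (i sh : Nat) : Nat := Bool.rec (Nat.shiftRight leaf4806 sh) (s4807_4809 i sh) (Nat.ble 4807 i)
noncomputable def s4804_4809 (i sh : Nat) : Nat := Bool.rec (s4804_4806 i sh) (s4806_4809 i sh) (Nat.ble 4806 i)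
noncomputable def s4799_4809 (i sh : Nat) : Nat := Bool.rec (s4799_4804 i sh) (s4804_4809 i sh) (Nat.ble 4804 i)
noncomputable def s4809_4811 (i sh : Nat) : Nat := Bool.rec (Nat.shiftRight leaf4809 sh) (Nat.shiftRight leaf4810 sh) (Nat.ble 4810 i)
noncomputable def s4812_4814 (i sh : Nat) : Nat := Bool.rec (Nat.shiftRight leaf4812 sh) (Nat.shiftRight leaf4813 sh) (Nat.ble 4813 i)
noncomputable def s4811_4814 (i sh : Nat) : Nat := Bool.rec (Nat.shiftRight leaf4811 sh) (s4812_4814 i sh) (Nat.ble 4812 i)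
noncomputable def s4809_4814 (i sh : Nat) : Nat := Bool.rec (s4809_4811 i sh) (s4811_4814 i sh) (Nat.ble 4811 i)
noncomputable def s4814_4816 (i sh : Nat) : Nat := Bool.rec (Nat.shiftRight leaf4814 sh) (Nat.shiftRight leaf4815 sh) (Nat.ble 4815 i)
noncomputable def s4817_4819 (i sh : Nat) : Nat := Bool.rec (Nat.shiftRight leaf4817 sh) (Nat.shiftRight leaf4818 sh) (Nat.ble 4818 i)
noncomputable def s4816_4819 (i sh : Nat) : Nat := Bool.rec (Nat.shiftRight leaf4816 sh) (s4817_4819 i sh) (Nat.ble 4817 i)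
noncomputable def s4814_4819 (i sh : Nat) : Nat := Bool.rec (s4814_4816 i sh) (s4816_4819 i sh) (Nat.ble 4816 i)
noncomputable def s4809_4819 (i sh : Nat) : Nat := Bool.rec (s4809_4814 i sh) (s4814_4819 i sh) (Nat.ble 4814 i)
noncomputable def s4799_4819 (i sh : Nat) : Nat := Bool.rec (s4799_4809 i sh) (s4809_4819 i sh) (Nat.ble 4809 i)
noncomputable def s4819_4821 (i sh : Nat) : Nat := Bool.rec (Nat.shiftRight leaf4819 sh) (Nat.shiftRight leaf4820 sh) (Nat.ble 4820 i)
noncomputable def s4822_4824 (i sh : Nat) : Nat := Bool.rec (Nat.shiftRight leaf4822 sh) (Nat.shiftRight leaf4823 sh) (Nat.ble 4823 i)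
noncomputable def s4821_4824 (i sh : Nat) : Nat := Bool.rec (Nat.shiftRight leaf4821 sh) (s4822_4824 i sh) (Nat.ble 4822 i)
noncomputable def s4819_4824 (i sh : Nat) : Nat := Bool.rec (s4819_4821 i sh) (s4821_4824 i sh) (Nat.ble 4821 i)
noncomputable def s4824_4826 (i sh : Nat) : Nat := Bool.rec (Nat.shiftRight leaf4824 sh) (Nat.shiftRight leaf4825 sh) (Nat.ble 4825 i)
noncomputable def s4827_4829 (i sh : Nat) : Nat := Bool.rec (Nat.shiftRight leaf4827 sh) (Nat.shiftRight leaf4828 sh) (Nat.ble 4828 i)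
noncomputable def s4826_4829 (i sh : Nat) : Nat := Bool.rec (Nat.shiftRight leaf4826 sh) (s4827_4829 i sh) (Nat.ble 4827 i)
noncomputable def s4824_4829 (i sh : Nat) : Nat := Bool.rec (s4824_4826 i sh) (s4826_4829 i sh) (Nat.ble 4826 i)
noncomputable def s4819_4829 (i sh : Nat) : Nat := Bool.rec (s4819_4824 i sh) (s4824_4829 i sh) (Nat.ble 4824 i)
noncomputable def s4829_4831 (i sh : Nat) : Nat := Bool.rec (Nat.shiftRight leaf4829 sh) (Nat.shiftRight leaf4830 sh) (Nat.ble 4830 i)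
noncomputable def s4832_4834 (i sh : Nat) : Nat := Bool.rec (Nat.shiftRight leaf4832 sh) (Nat.shiftRight leaf4833 sh) (Nat.ble 4833 i)
noncomputable def s4831_4834 (i sh : Nat) : Nat := Bool.rec (Nat.shiftRight leaf4831 sh) (s4832_4834 i sh) (Nat.ble 4832 i)
noncomputable def s4829_4834 (i sh : Nat) : Nat := Bool.rec (s4829_4831 i sh) (s4831_4834 i sh) (Nat.ble 4831 i)
noncomputable def s4835_4837 (i sh : Nat) : Nat := Bool.rec (Nat.shiftRight leaf4835 sh) (Nat.shiftRight leaf4836 sh) (Nat.ble 4836 i)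
noncomputable def s4834_4837 (i sh : Nat) : Nat := Bool.rec (Nat.shiftRight leaf4834 sh) (s4835_4837 i sh) (Nat.ble 4835 i)
noncomputable def s4838_4840 (i sh : Nat) : Nat := Bool.rec (Nat.shiftRight leaf4838 sh) (Nat.shiftRight leaf4839 sh) (Nat.ble 4839 i)
noncomputable def s4837_4840 (i sh : Nat) : Nat := Bool.rec (Nat.shiftRight leaf4837 sh) (s4838_4840 i sh) (Nat.ble 4838 i)
noncomputable def s4834_4840 (i sh : Nat) : Nat := Bool.rec (s4834_4837 i sh) (s4837_4840 i sh) (Nat.ble 4837 i)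
noncomputable def s4829_4840 (i sh : Nat) : Nat := Bool.rec (s4829_4834 i sh) (s4834_4840 i sh) (Nat.ble 4834 i)
noncomputable def s4819_4840 (i sh : Nat) : Nat := Bool.rec (s4819_4829 i sh) (s4829_4840 i sh) (Nat.ble 4829 i)
noncomputable def s4799_4840 (i sh : Nat) : Nat := Bool.rec (s4799_4819 i sh) (s4819_4840 i sh) (Nat.ble 4819 i)
noncomputable def s4759_4840 (i sh : Nat) : Nat := Bool.rec (s4759_4799 i sh) (s4799_4840 i sh) (Nat.ble 4799 i)
noncomputable def s4678_4840 (i sh : Nat) : Nat := Bool.rec (s4678_4759 i sh) (s4759_4840 i sh) (Nat.ble 4759 i)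
noncomputable def s4517_4840 (i sh : Nat) : Nat := Bool.rec (s4517_4678 i sh) (s4678_4840 i sh) (Nat.ble 4678 i)
noncomputable def s4840_4842 (i sh : Nat) : Nat := Bool.rec (Nat.shiftRight leaf4840 sh) (Nat.shiftRight leaf4841 sh) (Nat.ble 4841 i)
noncomputable def s4843_4845 (i sh : Nat) : Nat := Bool.rec (Nat.shiftRight leaf4843 sh) (Nat.shiftRight leaf4844 sh) (Nat.ble 4844 i)
noncomputable def s4842_4845 (i sh : Nat) : Nat := Bool.rec (Nat.shiftRight leaf4842 sh) (s4843_4845 i sh) (Nat.ble 4843 i)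
noncomputable def s4840_4845 (i sh : Nat) : Nat := Bool.rec (s4840_4842 i sh) (s4842_4845 i sh) (Nat.ble 4842 i)
noncomputable def s4845_4847 (i sh : Nat) : Nat := Bool.rec (Nat.shiftRight leaf4845 sh) (Nat.shiftRight leaf4846 sh) (Nat.ble 4846 i)
noncomputable def s4848_4850 (i sh : Nat) : Nat := Bool.rec (Nat.shiftRight leaf4848 sh) (Nat.shiftRight leaf4849 sh) (Nat.ble 4849 i)
noncomputable def s4847_4850 (i sh : Nat) : Nat := Bool.rec (Nat.shiftRight leaf4847 sh) (s4848_4850 i sh) (Nat.ble 4848 i)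
noncomputable def s4845_4850 (i sh : Nat) : Nat := Bool.rec (s4845_4847 i sh) (s4847_4850 i sh) (Nat.ble 4847 i)
noncomputable def s4840_4850 (i sh : Nat) : Nat := Bool.rec (s4840_4845 i sh) (s4845_4850 i sh) (Nat.ble 4845 i)
noncomputable def s4850_4852 (i sh : Nat) : Nat := Bool.rec (Nat.shiftRight leaf4850 sh) (Nat.shiftRight leaf4851 sh) (Nat.ble 4851 i)
noncomputable def s4853_4855 (i sh : Nat) : Nat := Bool.rec (Nat.shiftRight leaf4853 sh) (Nat.shiftRight leaf4854 sh) (Nat.ble 4854 i)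
noncomputable def s4852_4855 (i sh : Nat) : Nat := Bool.rec (Nat.shiftRight leaf4852 sh) (s4853_4855 i sh) (Nat.ble 4853 i)
noncomputable def s4850_4855 (i sh : Nat) : Nat := Bool.rec (s4850_4852 i sh) (s4852_4855 i sh) (Nat.ble 4852 i)
noncomputable def s4855_4857 (i sh : Nat) : Nat := Bool.rec (Nat.shiftRight leaf4855 sh) (Nat.shiftRight leaf4856 sh) (Nat.ble 4856 i)
noncomputable def s4858_4860 (i sh : Nat) : Nat := Bool.rec (Nat.shiftRight leaf4858 sh) (Nat.shiftRight leaf4859 sh) (Nat.ble 4859 i)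
noncomputable def s4857_4860 (i sh : Nat) : Nat := Bool.rec (Nat.shiftRight leaf4857 sh) (s4858_4860 i sh) (Nat.ble 4858 i)
noncomputable def s4855_4860 (i sh : Nat) : Nat := Bool.rec (s4855_4857 i sh) (s4857_4860 i sh) (Nat.ble 4857 i)
noncomputable def s4850_4860 (i sh : Nat) : Nat := Bool.rec (s4850_4855 i sh) (s4855_4860 i sh) (Nat.ble 4855 i)
noncomputable def s4840_4860 (i sh : Nat) : Nat := Bool.rec (s4840_4850 i sh) (s4850_4860 i sh) (Nat.ble 4850 i)
noncomputable def s4860_4862 (i sh : Nat) : Nat := Bool.rec (Nat.shiftRight leaf4860 sh) (Nat.shiftRight leaf4861 sh) (Nat.ble 4861 i)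
noncomputable def s4863_4865 (i sh : Nat) : Nat := Bool.rec (Nat.shiftRight leaf4863 sh) (Nat.shiftRight leaf4864 sh) (Nat.ble 4864 i)
noncomputable def s4862_4865 (i sh : Nat) : Nat := Bool.rec (Nat.shiftRight leaf4862 sh) (s4863_4865 i sh) (Nat.ble 4863 i)
noncomputable def s4860_4865 (i sh : Nat) : Nat := Bool.rec (s4860_4862 i sh) (s4862_4865 i sh) (Nat.ble 4862 i)
noncomputable def s4865_4867 (i sh : Nat) : Nat := Bool.rec (Nat.shiftRight leaf4865 sh) (Nat.shiftRight leaf4866 sh) (Nat.ble 4866 i)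
noncomputable def s4868_4870 (i sh : Nat) : Nat := Bool.rec (Nat.shiftRight leaf4868 sh) (Nat.shiftRight leaf4869 sh) (Nat.ble 4869 i)
noncomputable def s4867_4870 (i sh : Nat) : Nat := Bool.rec (Nat.shiftRight leaf4867 sh) (s4868_4870 i sh) (Nat.ble 4868 i)
noncomputable def s4865_4870 (i sh : Nat) : Nat := Bool.rec (s4865_4867 i sh) (s4867_4870 i sh) (Nat.ble 4867 i)
noncomputable def s4860_4870 (i sh : Nat) : Nat := Bool.rec (s4860_4865 i sh) (s4865_4870 i sh) (Nat.ble 4865 i)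
noncomputable def s4870_4872 (i sh : Nat) : Nat := Bool.rec (Nat.shiftRight leaf4870 sh) (Nat.shiftRight leaf4871 sh) (Nat.ble 4871 i)
noncomputable def s4873_4875 (i sh : Nat) : Nat := Bool.rec (Nat.shiftRight leaf4873 sh) (Nat.shiftRight leaf4874 sh) (Nat.ble 4874 i)
noncomputable def s4872_4875 (i sh : Nat) : Nat := Bool.rec (Nat.shiftRight leaf4872 sh) (s4873_4875 i sh) (Nat.ble 4873 i)
noncomputable def s4870_4875 (i sh : Nat) : Nat := Bool.rec (s4870_4872 i sh) (s4872_4875 i sh) (Nat.ble 4872 i)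
noncomputable def s4875_4877 (i sh : Nat) : Nat := Bool.rec (Nat.shiftRight leaf4875 sh) (Nat.shiftRight leaf4876 sh) (Nat.ble 4876 i)
noncomputable def s4878_4880 (i sh : Nat) : Nat := Bool.rec (Nat.shiftRight leaf4878 sh) (Nat.shiftRight leaf4879 sh) (Nat.ble 4879 i)
noncomputable def s4877_4880 (i sh : Nat) : Nat := Bool.rec (Nat.shiftRight leaf4877 sh) (s4878_4880 i sh) (Nat.ble 4878 i)
noncomputable def s4875_4880 (i sh : Nat) : Nat := Bool.rec (s4875_4877 i sh) (s4877_4880 i sh) (Nat.ble 4877 i)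
noncomputable def s4870_4880 (i sh : Nat) : Nat := Bool.rec (s4870_4875 i sh) (s4875_4880 i sh) (Nat.ble 4875 i)
noncomputable def s4860_4880 (i sh : Nat) : Nat := Bool.rec (s4860_4870 i sh) (s4870_4880 i sh) (Nat.ble 4870 i)
noncomputable def s4840_4880 (i sh : Nat) : Nat := Bool.rec (s4840_4860 i sh) (s4860_4880 i sh) (Nat.ble 4860 i)
noncomputable def s4880_4882 (i sh : Nat) : Nat := Bool.rec (Nat.shiftRight leaf4880 sh) (Nat.shiftRight leaf4881 sh) (Nat.ble 4881 i)
noncomputable def s4883_4885 (i sh : Nat) : Nat := Bool.rec (Nat.shiftRight leaf4883 sh) (Nat.shiftRight leaf4884 sh) (Nat.ble 4884 i)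
noncomputable def s4882_4885 (i sh : Nat) : Nat := Bool.rec (Nat.shiftRight leaf4882 sh) (s4883_4885 i sh) (Nat.ble 4883 i)
noncomputable def s4880_4885 (i sh : Nat) : Nat := Bool.rec (s4880_4882 i sh) (s4882_4885 i sh) (Nat.ble 4882 i)
noncomputable def s4885_4887 (i sh : Nat) : Nat := Bool.rec (Nat.shiftRight leaf4885 sh) (Nat.shiftRight leaf4886 sh) (Nat.ble 4886 i)
noncomputable def s4888_4890 (i sh : Nat) : Nat := Bool.rec (Nat.shiftRight leaf4888 sh) (Nat.shiftRight leaf4889 sh) (Nat.ble 4889 i)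
noncomputable def s4887_4890 (i sh : Nat) : Nat := Bool.rec (Nat.shiftRight leaf4887 sh) (s4888_4890 i sh) (Nat.ble 4888 i)
noncomputable def s4885_4890 (i sh : Nat) : Nat := Bool.rec (s4885_4887 i sh) (s4887_4890 i sh) (Nat.ble 4887 i)
noncomputable def s4880_4890 (i sh : Nat) : Nat := Bool.rec (s4880_4885 i sh) (s4885_4890 i sh) (Nat.ble 4885 i)
noncomputable def s4890_4892 (i sh : Nat) : Nat := Bool.rec (Nat.shiftRight leaf4890 sh) (Nat.shiftRight leaf4891 sh) (Nat.ble 4891 i)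
noncomputable def s4893_4895 (i sh : Nat) : Nat := Bool.rec (Nat.shiftRight leaf4893 sh) (Nat.shiftRight leaf4894 sh) (Nat.ble 4894 i)
noncomputable def s4892_4895 (i sh : Nat) : Nat := Bool.rec (Nat.shiftRight leaf4892 sh) (s4893_4895 i sh) (Nat.ble 4893 i)
noncomputable def s4890_4895 (i sh : Nat) : Nat := Bool.rec (s4890_4892 i sh) (s4892_4895 i sh) (Nat.ble 4892 i)
noncomputable def s4895_4897 (i sh : Nat) : Nat := Bool.rec (Nat.shiftRight leaf4895 sh) (Nat.shiftRight leaf4896 sh) (Nat.ble 4896 i)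
noncomputable def s4898_4900 (i sh : Nat) : Nat := Bool.rec (Nat.shiftRight leaf4898 sh) (Nat.shiftRight leaf4899 sh) (Nat.ble 4899 i)
noncomputable def s4897_4900 (i sh : Nat) : Nat := Bool.rec (Nat.shiftRight leaf4897 sh) (s4898_4900 i sh) (Nat.ble 4898 i)
noncomputable def s4895_4900 (i sh : Nat) : Nat := Bool.rec (s4895_4897 i sh) (s4897_4900 i sh) (Nat.ble 4897 i)
noncomputable def s4890_4900 (i sh : Nat) : Nat := Bool.rec (s4890_4895 i sh) (s4895_4900 i sh) (Nat.ble 4895 i)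
noncomputable def s4880_4900 (i sh : Nat) : Nat := Bool.rec (s4880_4890 i sh) (s4890_4900 i sh) (Nat.ble 4890 i)
noncomputable def s4900_4902 (i sh : Nat) : Nat := Bool.rec (Nat.shiftRight leaf4900 sh) (Nat.shiftRight leaf4901 sh) (Nat.ble 4901 i)
noncomputable def s4903_4905 (i sh : Nat) : Nat := Bool.rec (Nat.shiftRight leaf4903 sh) (Nat.shiftRight leaf4904 sh) (Nat.ble 4904 i)
noncomputable def s4902_4905 (i sh : Nat) : Nat := Bool.rec (Nat.shiftRight leaf4902 sh) (s4903_4905 i sh) (Nat.ble 4903 i)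
noncomputable def s4900_4905 (i sh : Nat) : Nat := Bool.rec (s4900_4902 i sh) (s4902_4905 i sh) (Nat.ble 4902 i)
noncomputable def s4905_4907 (i sh : Nat) : Nat := Bool.rec (Nat.shiftRight leaf4905 sh) (Nat.shiftRight leaf4906 sh) (Nat.ble 4906 i)
noncomputable def s4908_4910 (i sh : Nat) : Nat := Bool.rec (Nat.shiftRight leaf4908 sh) (Nat.shiftRight leaf4909 sh) (Nat.ble 4909 i)
noncomputable def s4907_4910 (i sh : Nat) : Nat := Bool.rec (Nat.shiftRight leaf4907 sh) (s4908_4910 i sh) (Nat.ble 4908 i)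
noncomputable def s4905_4910 (i sh : Nat) : Nat := Bool.rec (s4905_4907 i sh) (s4907_4910 i sh) (Nat.ble 4907 i)
noncomputable def s4900_4910 (i sh : Nat) : Nat := Bool.rec (s4900_4905 i sh) (s4905_4910 i sh) (Nat.ble 4905 i)
noncomputable def s4910_4912 (i sh : Nat) : Nat := Bool.rec (Nat.shiftRight leaf4910 sh) (Nat.shiftRight leaf4911 sh) (Nat.ble 4911 i)
noncomputable def s4913_4915 (i sh : Nat) : Nat := Bool.rec (Nat.shiftRight leaf4913 sh) (Nat.shiftRight leaf4914 sh) (Nat.ble 4914 i)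
noncomputable def s4912_4915 (i sh : Nat) : Nat := Bool.rec (Nat.shiftRight leaf4912 sh) (s4913_4915 i sh) (Nat.ble 4913 i)
noncomputable def s4910_4915 (i sh : Nat) : Nat := Bool.rec (s4910_4912 i sh) (s4912_4915 i sh) (Nat.ble 4912 i)
noncomputable def s4915_4917 (i sh : Nat) : Nat := Bool.rec (Nat.shiftRight leaf4915 sh) (Nat.shiftRight leaf4916 sh) (Nat.ble 4916 i)
noncomputable def s4918_4920 (i sh : Nat) : Nat := Bool.rec (Nat.shiftRight leaf4918 sh) (Nat.shiftRight leaf4919 sh) (Nat.ble 4919 i)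
noncomputable def s4917_4920 (i sh : Nat) : Nat := Bool.rec (Nat.shiftRight leaf4917 sh) (s4918_4920 i sh) (Nat.ble 4918 i)
noncomputable def s4915_4920 (i sh : Nat) : Nat := Bool.rec (s4915_4917 i sh) (s4917_4920 i sh) (Nat.ble 4917 i)
noncomputable def s4910_4920 (i sh : Nat) : Nat := Bool.rec (s4910_4915 i sh) (s4915_4920 i sh) (Nat.ble 4915 i)
noncomputable def s4900_4920 (i sh : Nat) : Nat := Bool.rec (s4900_4910 i sh) (s4910_4920 i sh) (Nat.ble 4910 i)
noncomputable def s4880_4920 (i sh : Nat) : Nat := Bool.rec (s4880_4900 i sh) (s4900_4920 i sh) (Nat.ble 4900 i)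
noncomputable def s4840_4920 (i sh : Nat) : Nat := Bool.rec (s4840_4880 i sh) (s4880_4920 i sh) (Nat.ble 4880 i)
noncomputable def s4920_4922 (i sh : Nat) : Nat := Bool.rec (Nat.shiftRight leaf4920 sh) (Nat.shiftRight leaf4921 sh) (Nat.ble 4921 i)
noncomputable def s4923_4925 (i sh : Nat) : Nat := Bool.rec (Nat.shiftRight leaf4923 sh) (Nat.shiftRight leaf4924 sh) (Nat.ble 4924 i)
noncomputable def s4922_4925 (i sh : Nat) : Nat := Bool.rec (Nat.shiftRight leaf4922 sh) (s4923_4925 i sh) (Nat.ble 4923 i)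
noncomputable def s4920_4925 (i sh : Nat) : Nat := Bool.rec (s4920_4922 i sh) (s4922_4925 i sh) (Nat.ble 4922 i)
noncomputable def s4925_4927 (i sh : Nat) : Nat := Bool.rec (Nat.shiftRight leaf4925 sh) (Nat.shiftRight leaf4926 sh) (Nat.ble 4926 i)
noncomputable def s4928_4930 (i sh : Nat) : Nat := Bool.rec (Nat.shiftRight leaf4928 sh) (Nat.shiftRight leaf4929 sh) (Nat.ble 4929 i)
noncomputable def s4927_4930 (i sh : Nat) : Nat := Bool.rec (Nat.shiftRight leaf4927 sh) (s4928_4930 i sh) (Nat.ble 4928 i)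
noncomputable def s4925_4930 (i sh : Nat) : Nat := Bool.rec (s4925_4927 i sh) (s4927_4930 i sh) (Nat.ble 4927 i)
noncomputable def s4920_4930 (i sh : Nat) : Nat := Bool.rec (s4920_4925 i sh) (s4925_4930 i sh) (Nat.ble 4925 i)
noncomputable def s4930_4932 (i sh : Nat) : Nat := Bool.rec (Nat.shiftRight leaf4930 sh) (Nat.shiftRight leaf4931 sh) (Nat.ble 4931 i)
noncomputable def s4933_4935 (i sh : Nat) : Nat := Bool.rec (Nat.shiftRight leaf4933 sh) (Nat.shiftRight leaf4934 sh) (Nat.ble 4934 i)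
noncomputable def s4932_4935 (i sh : Nat) : Nat := Bool.rec (Nat.shiftRight leaf4932 sh) (s4933_4935 i sh) (Nat.ble 4933 i)
noncomputable def s4930_4935 (i sh : Nat) : Nat := Bool.rec (s4930_4932 i sh) (s4932_4935 i sh) (Nat.ble 4932 i)
noncomputable def s4935_4937 (i sh : Nat) : Nat := Bool.rec (Nat.shiftRight leaf4935 sh) (Nat.shiftRight leaf4936 sh) (Nat.ble 4936 i)
noncomputable def s4938_4940 (i sh : Nat) : Nat := Bool.rec (Nat.shiftRight leaf4938 sh) (Nat.shiftRight leaf4939 sh) (Nat.ble 4939 i)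
noncomputable def s4937_4940 (i sh : Nat) : Nat := Bool.rec (Nat.shiftRight leaf4937 sh) (s4938_4940 i sh) (Nat.ble 4938 i)
noncomputable def s4935_4940 (i sh : Nat) : Nat := Bool.rec (s4935_4937 i sh) (s4937_4940 i sh) (Nat.ble 4937 i)
noncomputable def s4930_4940 (i sh : Nat) : Nat := Bool.rec (s4930_4935 i sh) (s4935_4940 i sh) (Nat.ble 4935 i)
noncomputable def s4920_4940 (i sh : Nat) : Nat := Bool.rec (s4920_4930 i sh) (s4930_4940 i sh) (Nat.ble 4930 i)
noncomputable def s4940_4942 (i sh : Nat) : Nat := Bool.rec (Nat.shiftRight leaf4940 sh) (Nat.shiftRight leaf4941 sh) (Nat.ble 4941 i)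
noncomputable def s4943_4945 (i sh : Nat) : Nat := Bool.rec (Nat.shiftRight leaf4943 sh) (Nat.shiftRight leaf4944 sh) (Nat.ble 4944 i)
noncomputable def s4942_4945 (i sh : Nat) : Nat := Bool.rec (Nat.shiftRight leaf4942 sh) (s4943_4945 i sh) (Nat.ble 4943 i)
noncomputable def s4940_4945 (i sh : Nat) : Nat := Bool.rec (s4940_4942 i sh) (s4942_4945 i sh) (Nat.ble 4942 i)
noncomputable def s4945_4947 (i sh : Nat) : Nat := Bool.rec (Nat.shiftRight leaf4945 sh) (Nat.shiftRight leaf4946 sh) (Nat.ble 4946 i)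
noncomputable def s4948_4950 (i sh : Nat) : Nat := Bool.rec (Nat.shiftRight leaf4948 sh) (Nat.shiftRight leaf4949 sh) (Nat.ble 4949 i)
noncomputable def s4947_4950 (i sh : Nat) : Nat := Bool.rec (Nat.shiftRight leaf4947 sh) (s4948_4950 i sh) (Nat.ble 4948 i)
noncomputable def s4945_4950 (i sh : Nat) : Nat := Bool.rec (s4945_4947 i sh) (s4947_4950 i sh) (Nat.ble 4947 i)
noncomputable def s4940_4950 (i sh : Nat) : Nat := Bool.rec (s4940_4945 i sh) (s4945_4950 i sh) (Nat.ble 4945 i)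
noncomputable def s4950_4952 (i sh : Nat) : Nat := Bool.rec (Nat.shiftRight leaf4950 sh) (Nat.shiftRight leaf4951 sh) (Nat.ble 4951 i)
noncomputable def s4953_4955 (i sh : Nat) : Nat := Bool.rec (Nat.shiftRight leaf4953 sh) (Nat.shiftRight leaf4954 sh) (Nat.ble 4954 i)
noncomputable def s4952_4955 (i sh : Nat) : Nat := Bool.rec (Nat.shiftRight leaf4952 sh) (s4953_4955 i sh) (Nat.ble 4953 i)
noncomputable def s4950_4955 (i sh : Nat) : Nat := Bool.rec (s4950_4952 i sh) (s4952_4955 i sh) (Nat.ble 4952 i)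
noncomputable def s4955_4957 (i sh : Nat) : Nat := Bool.rec (Nat.shiftRight leaf4955 sh) (Nat.shiftRight leaf4956 sh) (Nat.ble 4956 i)
noncomputable def s4958_4960 (i sh : Nat) : Nat := Bool.rec (Nat.shiftRight leaf4958 sh) (Nat.shiftRight leaf4959 sh) (Nat.ble 4959 i)
noncomputable def s4957_4960 (i sh : Nat) : Nat := Bool.rec (Nat.shiftRight leaf4957 sh) (s4958_4960 i sh) (Nat.ble 4958 i)
noncomputable def s4955_4960 (i sh : Nat) : Nat := Bool.rec (s4955_4957 i sh) (s4957_4960 i sh) (Nat.ble 4957 i)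
noncomputable def s4950_4960 (i sh : Nat) : Nat := Bool.rec (s4950_4955 i sh) (s4955_4960 i sh) (Nat.ble 4955 i)
noncomputable def s4940_4960 (i sh : Nat) : Nat := Bool.rec (s4940_4950 i sh) (s4950_4960 i sh) (Nat.ble 4950 i)
noncomputable def s4920_4960 (i sh : Nat) : Nat := Bool.rec (s4920_4940 i sh) (s4940_4960 i sh) (Nat.ble 4940 i)
noncomputable def s4960_4962 (i sh : Nat) : Nat := Bool.rec (Nat.shiftRight leaf4960 sh) (Nat.shiftRight leaf4961 sh) (Nat.ble 4961 i)
noncomputable def s4963_4965 (i sh : Nat) : Nat := Bool.rec (Nat.shiftRight leaf4963 sh) (Nat.shiftRight leaf4964 sh) (Nat.ble 4964 i)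
noncomputable def s4962_4965 (i sh : Nat) : Nat := Bool.rec (Nat.shiftRight leaf4962 sh) (s4963_4965 i sh) (Nat.ble 4963 i)
noncomputable def s4960_4965 (i sh : Nat) : Nat := Bool.rec (s4960_4962 i sh) (s4962_4965 i sh) (Nat.ble 4962 i)
noncomputable def s4965_4967 (i sh : Nat) : Nat := Bool.rec (Nat.shiftRight leaf4965 sh) (Nat.shiftRight leaf4966 sh) (Nat.ble 4966 i)
noncomputable def s4968_4970 (i sh : Nat) : Nat := Bool.rec (Nat.shiftRight leaf4968 sh) (Nat.shiftRight leaf4969 sh) (Nat.ble 4969 i)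
noncomputable def s4967_4970 (i sh : Nat) : Nat := Bool.rec (Nat.shiftRight leaf4967 sh) (s4968_4970 i sh) (Nat.ble 4968 i)
noncomputable def s4965_4970 (i sh : Nat) : Nat := Bool.rec (s4965_4967 i sh) (s4967_4970 i sh) (Nat.ble 4967 i)
noncomputable def s4960_4970 (i sh : Nat) : Nat := Bool.rec (s4960_4965 i sh) (s4965_4970 i sh) (Nat.ble 4965 i)
noncomputable def s4970_4972 (i sh : Nat) : Nat := Bool.rec (Nat.shiftRight leaf4970 sh) (Nat.shiftRight leaf4971 sh) (Nat.ble 4971 i)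
noncomputable def s4973_4975 (i sh : Nat) : Nat := Bool.rec (Nat.shiftRight leaf4973 sh) (Nat.shiftRight leaf4974 sh) (Nat.ble 4974 i)
noncomputable def s4972_4975 (i sh : Nat) : Nat := Bool.rec (Nat.shiftRight leaf4972 sh) (s4973_4975 i sh) (Nat.ble 4973 i)
noncomputable def s4970_4975 (i sh : Nat) : Nat := Bool.rec (s4970_4972 i sh) (s4972_4975 i sh) (Nat.ble 4972 i)
noncomputable def s4975_4977 (i sh : Nat) : Nat := Bool.rec (Nat.shiftRight leaf4975 sh) (Nat.shiftRight leaf4976 sh) (Nat.ble 4976 i)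
noncomputable def s4978_4980 (i sh : Nat) : Nat := Bool.rec (Nat.shiftRight leaf4978 sh) (Nat.shiftRight leaf4979 sh) (Nat.ble 4979 i)
noncomputable def s4977_4980 (i sh : Nat) : Nat := Bool.rec (Nat.shiftRight leaf4977 sh) (s4978_4980 i sh) (Nat.ble 4978 i)
noncomputable def s4975_4980 (i sh : Nat) : Nat := Bool.rec (s4975_4977 i sh) (s4977_4980 i sh) (Nat.ble 4977 i)
noncomputable def s4970_4980 (i sh : Nat) : Nat := Bool.rec (s4970_4975 i sh) (s4975_4980 i sh) (Nat.ble 4975 i)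
noncomputable def s4960_4980 (i sh : Nat) : Nat := Bool.rec (s4960_4970 i sh) (s4970_4980 i sh) (Nat.ble 4970 i)
noncomputable def s4980_4982 (i sh : Nat) : Nat := Bool.rec (Nat.shiftRight leaf4980 sh) (Nat.shiftRight leaf4981 sh) (Nat.ble 4981 i)
noncomputable def s4983_4985 (i sh : Nat) : Nat := Bool.rec (Nat.shiftRight leaf4983 sh) (Nat.shiftRight leaf4984 sh) (Nat.ble 4984 i)
noncomputable def s4982_4985 (i sh : Nat) : Nat := Bool.rec (Nat.shiftRight leaf4982 sh) (s4983_4985 i sh) (Nat.ble 4983 i)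
noncomputable def s4980_4985 (i sh : Nat) : Nat := Bool.rec (s4980_4982 i sh) (s4982_4985 i sh) (Nat.ble 4982 i)
noncomputable def s4985_4987 (i sh : Nat) : Nat := Bool.rec (Nat.shiftRight leaf4985 sh) (Nat.shiftRight leaf4986 sh) (Nat.ble 4986 i)
noncomputable def s4988_4990 (i sh : Nat) : Nat := Bool.rec (Nat.shiftRight leaf4988 sh) (Nat.shiftRight leaf4989 sh) (Nat.ble 4989 i)
noncomputable def s4987_4990 (i sh : Nat) : Nat := Bool.rec (Nat.shiftRight leaf4987 sh) (s4988_4990 i sh) (Nat.ble 4988 i)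
noncomputable def s4985_4990 (i sh : Nat) : Nat := Bool.rec (s4985_4987 i sh) (s4987_4990 i sh) (Nat.ble 4987 i)
noncomputable def s4980_4990 (i sh : Nat) : Nat := Bool.rec (s4980_4985 i sh) (s4985_4990 i sh) (Nat.ble 4985 i)
noncomputable def s4990_4992 (i sh : Nat) : Nat := Bool.rec (Nat.shiftRight leaf4990 sh) (Nat.shiftRight leaf4991 sh) (Nat.ble 4991 i)
noncomputable def s4993_4995 (i sh : Nat) : Nat := Bool.rec (Nat.shiftRight leaf4993 sh) (Nat.shiftRight leaf4994 sh) (Nat.ble 4994 i)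
noncomputable def s4992_4995 (i sh : Nat) : Nat := Bool.rec (Nat.shiftRight leaf4992 sh) (s4993_4995 i sh) (Nat.ble 4993 i)
noncomputable def s4990_4995 (i sh : Nat) : Nat := Bool.rec (s4990_4992 i sh) (s4992_4995 i sh) (Nat.ble 4992 i)
noncomputable def s4996_4998 (i sh : Nat) : Nat := Bool.rec (Nat.shiftRight leaf4996 sh) (Nat.shiftRight leaf4997 sh) (Nat.ble 4997 i)
noncomputable def s4995_4998 (i sh : Nat) : Nat := Bool.rec (Nat.shiftRight leaf4995 sh) (s4996_4998 i sh) (Nat.ble 4996 i)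
noncomputable def s4999_5001 (i sh : Nat) : Nat := Bool.rec (Nat.shiftRight leaf4999 sh) (Nat.shiftRight leaf5000 sh) (Nat.ble 5000 i)
noncomputable def s4998_5001 (i sh : Nat) : Nat := Bool.rec (Nat.shiftRight leaf4998 sh) (s4999_5001 i sh) (Nat.ble 4999 i)
noncomputable def s4995_5001 (i sh : Nat) : Nat := Bool.rec (s4995_4998 i sh) (s4998_5001 i sh) (Nat.ble 4998 i)
noncomputable def s4990_5001 (i sh : Nat) : Nat := Bool.rec (s4990_4995 i sh) (s4995_5001 i sh) (Nat.ble 4995 i)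
noncomputable def s4980_5001 (i sh : Nat) : Nat := Bool.rec (s4980_4990 i sh) (s4990_5001 i sh) (Nat.ble 4990 i)
noncomputable def s4960_5001 (i sh : Nat) : Nat := Bool.rec (s4960_4980 i sh) (s4980_5001 i sh) (Nat.ble 4980 i)
noncomputable def s4920_5001 (i sh : Nat) : Nat := Bool.rec (s4920_4960 i sh) (s4960_5001 i sh) (Nat.ble 4960 i)
noncomputable def s4840_5001 (i sh : Nat) : Nat := Bool.rec (s4840_4920 i sh) (s4920_5001 i sh) (Nat.ble 4920 i)
noncomputable def s5001_5003 (i sh : Nat) : Nat := Bool.rec (Nat.shiftRight leaf5001 sh) (Nat.shiftRight leaf5002 sh) (Nat.ble 5002 i)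
noncomputable def s5004_5006 (i sh : Nat) : Nat := Bool.rec (Nat.shiftRight leaf5004 sh) (Nat.shiftRight leaf5005 sh) (Nat.ble 5005 i)
noncomputable def s5003_5006 (i sh : Nat) : Nat := Bool.rec (Nat.shiftRight leaf5003 sh) (s5004_5006 i sh) (Nat.ble 5004 i)
noncomputable def s5001_5006 (i sh : Nat) : Nat := Bool.rec (s5001_5003 i sh) (s5003_5006 i sh) (Nat.ble 5003 i)
noncomputable def s5006_5008 (i sh : Nat) : Nat := Bool.rec (Nat.shiftRight leaf5006 sh) (Nat.shiftRight leaf5007 sh) (Nat.ble 5007 i)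
noncomputable def s5009_5011 (i sh : Nat) : Nat := Bool.rec (Nat.shiftRight leaf5009 sh) (Nat.shiftRight leaf5010 sh) (Nat.ble 5010 i)
noncomputable def s5008_5011 (i sh : Nat) : Nat := Bool.rec (Nat.shiftRight leaf5008 sh) (s5009_5011 i sh) (Nat.ble 5009 i)
noncomputable def s5006_5011 (i sh : Nat) : Nat := Bool.rec (s5006_5008 i sh) (s5008_5011 i sh) (Nat.ble 5008 i)
noncomputable def s5001_5011 (i sh : Nat) : Nat := Bool.rec (s5001_5006 i sh) (s5006_5011 i sh) (Nat.ble 5006 i)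
noncomputable def s5011_5013 (i sh : Nat) : Nat := Bool.rec (Nat.shiftRight leaf5011 sh) (Nat.shiftRight leaf5012 sh) (Nat.ble 5012 i)
noncomputable def s5014_5016 (i sh : Nat) : Nat := Bool.rec (Nat.shiftRight leaf5014 sh) (Nat.shiftRight leaf5015 sh) (Nat.ble 5015 i)
noncomputable def s5013_5016 (i sh : Nat) : Nat := Bool.rec (Nat.shiftRight leaf5013 sh) (s5014_5016 i sh) (Nat.ble 5014 i)
noncomputable def s5011_5016 (i sh : Nat) : Nat := Bool.rec (s5011_5013 i sh) (s5013_5016 i sh) (Nat.ble 5013 i)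
noncomputable def s5016_5018 (i sh : Nat) : Nat := Bool.rec (Nat.shiftRight leaf5016 sh) (Nat.shiftRight leaf5017 sh) (Nat.ble 5017 i)
noncomputable def s5019_5021 (i sh : Nat) : Nat := Bool.rec (Nat.shiftRight leaf5019 sh) (Nat.shiftRight leaf5020 sh) (Nat.ble 5020 i)
noncomputable def s5018_5021 (i sh : Nat) : Nat := Bool.rec (Nat.shiftRight leaf5018 sh) (s5019_5021 i sh) (Nat.ble 5019 i)
noncomputable def s5016_5021 (i sh : Nat) : Nat := Bool.rec (s5016_5018 i sh) (s5018_5021 i sh) (Nat.ble 5018 i)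
noncomputable def s5011_5021 (i sh : Nat) : Nat := Bool.rec (s5011_5016 i sh) (s5016_5021 i sh) (Nat.ble 5016 i)
noncomputable def s5001_5021 (i sh : Nat) : Nat := Bool.rec (s5001_5011 i sh) (s5011_5021 i sh) (Nat.ble 5011 i)
noncomputable def s5021_5023 (i sh : Nat) : Nat := Bool.rec (Nat.shiftRight leaf5021 sh) (Nat.shiftRight leaf5022 sh) (Nat.ble 5022 i)
noncomputable def s5024_5026 (i sh : Nat) : Nat := Bool.rec (Nat.shiftRight leaf5024 sh) (Nat.shiftRight leaf5025 sh) (Nat.ble 5025 i)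
noncomputable def s5023_5026 (i sh : Nat) : Nat := Bool.rec (Nat.shiftRight leaf5023 sh) (s5024_5026 i sh) (Nat.ble 5024 i)
noncomputable def s5021_5026 (i sh : Nat) : Nat := Bool.rec (s5021_5023 i sh) (s5023_5026 i sh) (Nat.ble 5023 i)
noncomputable def s5026_5028 (i sh : Nat) : Nat := Bool.rec (Nat.shiftRight leaf5026 sh) (Nat.shiftRight leaf5027 sh) (Nat.ble 5027 i)
noncomputable def s5029_5031 (i sh : Nat) : Nat := Bool.rec (Nat.shiftRight leaf5029 sh) (Nat.shiftRight leaf5030 sh) (Nat.ble 5030 i)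
noncomputable def s5028_5031 (i sh : Nat) : Nat := Bool.rec (Nat.shiftRight leaf5028 sh) (s5029_5031 i sh) (Nat.ble 5029 i)
noncomputable def s5026_5031 (i sh : Nat) : Nat := Bool.rec (s5026_5028 i sh) (s5028_5031 i sh) (Nat.ble 5028 i)
noncomputable def s5021_5031 (i sh : Nat) : Nat := Bool.rec (s5021_5026 i sh) (s5026_5031 i sh) (Nat.ble 5026 i)
noncomputable def s5031_5033 (i sh : Nat) : Nat := Bool.rec (Nat.shiftRight leaf5031 sh) (Nat.shiftRight leaf5032 sh) (Nat.ble 5032 i)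
noncomputable def s5034_5036 (i sh : Nat) : Nat := Bool.rec (Nat.shiftRight leaf5034 sh) (Nat.shiftRight leaf5035 sh) (Nat.ble 5035 i)
noncomputable def s5033_5036 (i sh : Nat) : Nat := Bool.rec (Nat.shiftRight leaf5033 sh) (s5034_5036 i sh) (Nat.ble 5034 i)
noncomputable def s5031_5036 (i sh : Nat) : Nat := Bool.rec (s5031_5033 i sh) (s5033_5036 i sh) (Nat.ble 5033 i)
noncomputable def s5036_5038 (i sh : Nat) : Nat := Bool.rec (Nat.shiftRight leaf5036 sh) (Nat.shiftRight leaf5037 sh) (Nat.ble 5037 i)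
noncomputable def s5039_5041 (i sh : Nat) : Nat := Bool.rec (Nat.shiftRight leaf5039 sh) (Nat.shiftRight leaf5040 sh) (Nat.ble 5040 i)
noncomputable def s5038_5041 (i sh : Nat) : Nat := Bool.rec (Nat.shiftRight leaf5038 sh) (s5039_5041 i sh) (Nat.ble 5039 i)
noncomputable def s5036_5041 (i sh : Nat) : Nat := Bool.rec (s5036_5038 i sh) (s5038_5041 i sh) (Nat.ble 5038 i)
noncomputable def s5031_5041 (i sh : Nat) : Nat := Bool.rec (s5031_5036 i sh) (s5036_5041 i sh) (Nat.ble 5036 i)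
noncomputable def s5021_5041 (i sh : Nat) : Nat := Bool.rec (s5021_5031 i sh) (s5031_5041 i sh) (Nat.ble 5031 i)
noncomputable def s5001_5041 (i sh : Nat) : Nat := Bool.rec (s5001_5021 i sh) (s5021_5041 i sh) (Nat.ble 5021 i)
noncomputable def s5041_5043 (i sh : Nat) : Nat := Bool.rec (Nat.shiftRight leaf5041 sh) (Nat.shiftRight leaf5042 sh) (Nat.ble 5042 i)
noncomputable def s5044_5046 (i sh : Nat) : Nat := Bool.rec (Nat.shiftRight leaf5044 sh) (Nat.shiftRight leaf5045 sh) (Nat.ble 5045 i)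
noncomputable def s5043_5046 (i sh : Nat) : Nat := Bool.rec (Nat.shiftRight leaf5043 sh) (s5044_5046 i sh) (Nat.ble 5044 i)
noncomputable def s5041_5046 (i sh : Nat) : Nat := Bool.rec (s5041_5043 i sh) (s5043_5046 i sh) (Nat.ble 5043 i)
noncomputable def s5046_5048 (i sh : Nat) : Nat := Bool.rec (Nat.shiftRight leaf5046 sh) (Nat.shiftRight leaf5047 sh) (Nat.ble 5047 i)
noncomputable def s5049_5051 (i sh : Nat) : Nat := Bool.rec (Nat.shiftRight leaf5049 sh) (Nat.shiftRight leaf5050 sh) (Nat.ble 5050 i)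
noncomputable def s5048_5051 (i sh : Nat) : Nat := Bool.rec (Nat.shiftRight leaf5048 sh) (s5049_5051 i sh) (Nat.ble 5049 i)
noncomputable def s5046_5051 (i sh : Nat) : Nat := Bool.rec (s5046_5048 i sh) (s5048_5051 i sh) (Nat.ble 5048 i)
noncomputable def s5041_5051 (i sh : Nat) : Nat := Bool.rec (s5041_5046 i sh) (s5046_5051 i sh) (Nat.ble 5046 i)
noncomputable def s5051_5053 (i sh : Nat) : Nat := Bool.rec (Nat.shiftRight leaf5051 sh) (Nat.shiftRight leaf5052 sh) (Nat.ble 5052 i)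
noncomputable def s5054_5056 (i sh : Nat) : Nat := Bool.rec (Nat.shiftRight leaf5054 sh) (Nat.shiftRight leaf5055 sh) (Nat.ble 5055 i)
noncomputable def s5053_5056 (i sh : Nat) : Nat := Bool.rec (Nat.shiftRight leaf5053 sh) (s5054_5056 i sh) (Nat.ble 5054 i)
noncomputable def s5051_5056 (i sh : Nat) : Nat := Bool.rec (s5051_5053 i sh) (s5053_5056 i sh) (Nat.ble 5053 i)
noncomputable def s5056_5058 (i sh : Nat) : Nat := Bool.rec (Nat.shiftRight leaf5056 sh) (Nat.shiftRight leaf5057 sh) (Nat.ble 5057 i)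
noncomputable def s5059_5061 (i sh : Nat) : Nat := Bool.rec (Nat.shiftRight leaf5059 sh) (Nat.shiftRight leaf5060 sh) (Nat.ble 5060 i)
noncomputable def s5058_5061 (i sh : Nat) : Nat := Bool.rec (Nat.shiftRight leaf5058 sh) (s5059_5061 i sh) (Nat.ble 5059 i)
noncomputable def s5056_5061 (i sh : Nat) : Nat := Bool.rec (s5056_5058 i sh) (s5058_5061 i sh) (Nat.ble 5058 i)
noncomputable def s5051_5061 (i sh : Nat) : Nat := Bool.rec (s5051_5056 i sh) (s5056_5061 i sh) (Nat.ble 5056 i)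
noncomputable def s5041_5061 (i sh : Nat) : Nat := Bool.rec (s5041_5051 i sh) (s5051_5061 i sh) (Nat.ble 5051 i)
noncomputable def s5061_5063 (i sh : Nat) : Nat := Bool.rec (Nat.shiftRight leaf5061 sh) (Nat.shiftRight leaf5062 sh) (Nat.ble 5062 i)
noncomputable def s5064_5066 (i sh : Nat) : Nat := Bool.rec (Nat.shiftRight leaf5064 sh) (Nat.shiftRight leaf5065 sh) (Nat.ble 5065 i)
noncomputable def s5063_5066 (i sh : Nat) : Nat := Bool.rec (Nat.shiftRight leaf5063 sh) (s5064_5066 i sh) (Nat.ble 5064 i)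
noncomputable def s5061_5066 (i sh : Nat) : Nat := Bool.rec (s5061_5063 i sh) (s5063_5066 i sh) (Nat.ble 5063 i)
noncomputable def s5066_5068 (i sh : Nat) : Nat := Bool.rec (Nat.shiftRight leaf5066 sh) (Nat.shiftRight leaf5067 sh) (Nat.ble 5067 i)
noncomputable def s5069_5071 (i sh : Nat) : Nat := Bool.rec (Nat.shiftRight leaf5069 sh) (Nat.shiftRight leaf5070 sh) (Nat.ble 5070 i)
noncomputable def s5068_5071 (i sh : Nat) : Nat := Bool.rec (Nat.shiftRight leaf5068 sh) (s5069_5071 i sh) (Nat.ble 5069 i)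
noncomputable def s5066_5071 (i sh : Nat) : Nat := Bool.rec (s5066_5068 i sh) (s5068_5071 i sh) (Nat.ble 5068 i)
noncomputable def s5061_5071 (i sh : Nat) : Nat := Bool.rec (s5061_5066 i sh) (s5066_5071 i sh) (Nat.ble 5066 i)
noncomputable def s5071_5073 (i sh : Nat) : Nat := Bool.rec (Nat.shiftRight leaf5071 sh) (Nat.shiftRight leaf5072 sh) (Nat.ble 5072 i)
noncomputable def s5074_5076 (i sh : Nat) : Nat := Bool.rec (Nat.shiftRight leaf5074 sh) (Nat.shiftRight leaf5075 sh) (Nat.ble 5075 i)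
noncomputable def s5073_5076 (i sh : Nat) : Nat := Bool.rec (Nat.shiftRight leaf5073 sh) (s5074_5076 i sh) (Nat.ble 5074 i)
noncomputable def s5071_5076 (i sh : Nat) : Nat := Bool.rec (s5071_5073 i sh) (s5073_5076 i sh) (Nat.ble 5073 i)
noncomputable def s5077_5079 (i sh : Nat) : Nat := Bool.rec (Nat.shiftRight leaf5077 sh) (Nat.shiftRight leaf5078 sh) (Nat.ble 5078 i)
noncomputable def s5076_5079 (i sh : Nat) : Nat := Bool.rec (Nat.shiftRight leaf5076 sh) (s5077_5079 i sh) (Nat.ble 5077 i)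
noncomputable def s5080_5082 (i sh : Nat) : Nat := Bool.rec (Nat.shiftRight leaf5080 sh) (Nat.shiftRight leaf5081 sh) (Nat.ble 5081 i)
noncomputable def s5079_5082 (i sh : Nat) : Nat := Bool.rec (Nat.shiftRight leaf5079 sh) (s5080_5082 i sh) (Nat.ble 5080 i)
noncomputable def s5076_5082 (i sh : Nat) : Nat := Bool.rec (s5076_5079 i sh) (s5079_5082 i sh) (Nat.ble 5079 i)
noncomputable def s5071_5082 (i sh : Nat) : Nat := Bool.rec (s5071_5076 i sh) (s5076_5082 i sh) (Nat.ble 5076 i)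
noncomputable def s5061_5082 (i sh : Nat) : Nat := Bool.rec (s5061_5071 i sh) (s5071_5082 i sh) (Nat.ble 5071 i)
noncomputable def s5041_5082 (i sh : Nat) : Nat := Bool.rec (s5041_5061 i sh) (s5061_5082 i sh) (Nat.ble 5061 i)
noncomputable def s5001_5082 (i sh : Nat) : Nat := Bool.rec (s5001_5041 i sh) (s5041_5082 i sh) (Nat.ble 5041 i)
noncomputable def s5082_5084 (i sh : Nat) : Nat := Bool.rec (Nat.shiftRight leaf5082 sh) (Nat.shiftRight leaf5083 sh) (Nat.ble 5083 i)
noncomputable def s5085_5087 (i sh : Nat) : Nat := Bool.rec (Nat.shiftRight leaf5085 sh) (Nat.shiftRight leaf5086 sh) (Nat.ble 5086 i)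
noncomputable def s5084_5087 (i sh : Nat) : Nat := Bool.rec (Nat.shiftRight leaf5084 sh) (s5085_5087 i sh) (Nat.ble 5085 i)
noncomputable def s5082_5087 (i sh : Nat) : Nat := Bool.rec (s5082_5084 i sh) (s5084_5087 i sh) (Nat.ble 5084 i)
noncomputable def s5087_5089 (i sh : Nat) : Nat := Bool.rec (Nat.shiftRight leaf5087 sh) (Nat.shiftRight leaf5088 sh) (Nat.ble 5088 i)
noncomputable def s5090_5092 (i sh : Nat) : Nat := Bool.rec (Nat.shiftRight leaf5090 sh) (Nat.shiftRight leaf5091 sh) (Nat.ble 5091 i)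
noncomputable def s5089_5092 (i sh : Nat) : Nat := Bool.rec (Nat.shiftRight leaf5089 sh) (s5090_5092 i sh) (Nat.ble 5090 i)
noncomputable def s5087_5092 (i sh : Nat) : Nat := Bool.rec (s5087_5089 i sh) (s5089_5092 i sh) (Nat.ble 5089 i)
noncomputable def s5082_5092 (i sh : Nat) : Nat := Bool.rec (s5082_5087 i sh) (s5087_5092 i sh) (Nat.ble 5087 i)
noncomputable def s5092_5094 (i sh : Nat) : Nat := Bool.rec (Nat.shiftRight leaf5092 sh) (Nat.shiftRight leaf5093 sh) (Nat.ble 5093 i)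
noncomputable def s5095_5097 (i sh : Nat) : Nat := Bool.rec (Nat.shiftRight leaf5095 sh) (Nat.shiftRight leaf5096 sh) (Nat.ble 5096 i)
noncomputable def s5094_5097 (i sh : Nat) : Nat := Bool.rec (Nat.shiftRight leaf5094 sh) (s5095_5097 i sh) (Nat.ble 5095 i)
noncomputable def s5092_5097 (i sh : Nat) : Nat := Bool.rec (s5092_5094 i sh) (s5094_5097 i sh) (Nat.ble 5094 i)
noncomputable def s5097_5099 (i sh : Nat) : Nat := Bool.rec (Nat.shiftRight leaf5097 sh) (Nat.shiftRight leaf5098 sh) (Nat.ble 5098 i)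
noncomputable def s5100_5102 (i sh : Nat) : Nat := Bool.rec (Nat.shiftRight leaf5100 sh) (Nat.shiftRight leaf5101 sh) (Nat.ble 5101 i)
noncomputable def s5099_5102 (i sh : Nat) : Nat := Bool.rec (Nat.shiftRight leaf5099 sh) (s5100_5102 i sh) (Nat.ble 5100 i)
noncomputable def s5097_5102 (i sh : Nat) : Nat := Bool.rec (s5097_5099 i sh) (s5099_5102 i sh) (Nat.ble 5099 i)
noncomputable def s5092_5102 (i sh : Nat) : Nat := Bool.rec (s5092_5097 i sh) (s5097_5102 i sh) (Nat.ble 5097 i)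
noncomputable def s5082_5102 (i sh : Nat) : Nat := Bool.rec (s5082_5092 i sh) (s5092_5102 i sh) (Nat.ble 5092 i)
noncomputable def s5102_5104 (i sh : Nat) : Nat := Bool.rec (Nat.shiftRight leaf5102 sh) (Nat.shiftRight leaf5103 sh) (Nat.ble 5103 i)
noncomputable def s5105_5107 (i sh : Nat) : Nat := Bool.rec (Nat.shiftRight leaf5105 sh) (Nat.shiftRight leaf5106 sh) (Nat.ble 5106 i)
noncomputable def s5104_5107 (i sh : Nat) : Nat := Bool.rec (Nat.shiftRight leaf5104 sh) (s5105_5107 i sh) (Nat.ble 5105 i)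
noncomputable def s5102_5107 (i sh : Nat) : Nat := Bool.rec (s5102_5104 i sh) (s5104_5107 i sh) (Nat.ble 5104 i)
noncomputable def s5107_5109 (i sh : Nat) : Nat := Bool.rec (Nat.shiftRight leaf5107 sh) (Nat.shiftRight leaf5108 sh) (Nat.ble 5108 i)
noncomputable def s5110_5112 (i sh : Nat) : Nat := Bool.rec (Nat.shiftRight leaf5110 sh) (Nat.shiftRight leaf5111 sh) (Nat.ble 5111 i)
noncomputable def s5109_5112 (i sh : Nat) : Nat := Bool.rec (Nat.shiftRight leaf5109 sh) (s5110_5112 i sh) (Nat.ble 5110 i)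
noncomputable def s5107_5112 (i sh : Nat) : Nat := Bool.rec (s5107_5109 i sh) (s5109_5112 i sh) (Nat.ble 5109 i)
noncomputable def s5102_5112 (i sh : Nat) : Nat := Bool.rec (s5102_5107 i sh) (s5107_5112 i sh) (Nat.ble 5107 i)
noncomputable def s5112_5114 (i sh : Nat) : Nat := Bool.rec (Nat.shiftRight leaf5112 sh) (Nat.shiftRight leaf5113 sh) (Nat.ble 5113 i)
noncomputable def s5115_5117 (i sh : Nat) : Nat := Bool.rec (Nat.shiftRight leaf5115 sh) (Nat.shiftRight leaf5116 sh) (Nat.ble 5116 i)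
noncomputable def s5114_5117 (i sh : Nat) : Nat := Bool.rec (Nat.shiftRight leaf5114 sh) (s5115_5117 i sh) (Nat.ble 5115 i)
noncomputable def s5112_5117 (i sh : Nat) : Nat := Bool.rec (s5112_5114 i sh) (s5114_5117 i sh) (Nat.ble 5114 i)
noncomputable def s5117_5119 (i sh : Nat) : Nat := Bool.rec (Nat.shiftRight leaf5117 sh) (Nat.shiftRight leaf5118 sh) (Nat.ble 5118 i)
noncomputable def s5120_5122 (i sh : Nat) : Nat := Bool.rec (Nat.shiftRight leaf5120 sh) (Nat.shiftRight leaf5121 sh) (Nat.ble 5121 i)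
noncomputable def s5119_5122 (i sh : Nat) : Nat := Bool.rec (Nat.shiftRight leaf5119 sh) (s5120_5122 i sh) (Nat.ble 5120 i)
noncomputable def s5117_5122 (i sh : Nat) : Nat := Bool.rec (s5117_5119 i sh) (s5119_5122 i sh) (Nat.ble 5119 i)
noncomputable def s5112_5122 (i sh : Nat) : Nat := Bool.rec (s5112_5117 i sh) (s5117_5122 i sh) (Nat.ble 5117 i)
noncomputable def s5102_5122 (i sh : Nat) : Nat := Bool.rec (s5102_5112 i sh) (s5112_5122 i sh) (Nat.ble 5112 i)
noncomputable def s5082_5122 (i sh : Nat) : Nat := Bool.rec (s5082_5102 i sh) (s5102_5122 i sh) (Nat.ble 5102 i)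
noncomputable def s5122_5124 (i sh : Nat) : Nat := Bool.rec (Nat.shiftRight leaf5122 sh) (Nat.shiftRight leaf5123 sh) (Nat.ble 5123 i)
noncomputable def s5125_5127 (i sh : Nat) : Nat := Bool.rec (Nat.shiftRight leaf5125 sh) (Nat.shiftRight leaf5126 sh) (Nat.ble 5126 i)
noncomputable def s5124_5127 (i sh : Nat) : Nat := Bool.rec (Nat.shiftRight leaf5124 sh) (s5125_5127 i sh) (Nat.ble 5125 i)
noncomputable def s5122_5127 (i sh : Nat) : Nat := Bool.rec (s5122_5124 i sh) (s5124_5127 i sh) (Nat.ble 5124 i)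
noncomputable def s5127_5129 (i sh : Nat) : Nat := Bool.rec (Nat.shiftRight leaf5127 sh) (Nat.shiftRight leaf5128 sh) (Nat.ble 5128 i)
noncomputable def s5130_5132 (i sh : Nat) : Nat := Bool.rec (Nat.shiftRight leaf5130 sh) (Nat.shiftRight leaf5131 sh) (Nat.ble 5131 i)
noncomputable def s5129_5132 (i sh : Nat) : Nat := Bool.rec (Nat.shiftRight leaf5129 sh) (s5130_5132 i sh) (Nat.ble 5130 i)
noncomputable def s5127_5132 (i sh : Nat) : Nat := Bool.rec (s5127_5129 i sh) (s5129_5132 i sh) (Nat.ble 5129 i)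
noncomputable def s5122_5132 (i sh : Nat) : Nat := Bool.rec (s5122_5127 i sh) (s5127_5132 i sh) (Nat.ble 5127 i)
noncomputable def s5132_5134 (i sh : Nat) : Nat := Bool.rec (Nat.shiftRight leaf5132 sh) (Nat.shiftRight leaf5133 sh) (Nat.ble 5133 i)
noncomputable def s5135_5137 (i sh : Nat) : Nat := Bool.rec (Nat.shiftRight leaf5135 sh) (Nat.shiftRight leaf5136 sh) (Nat.ble 5136 i)
noncomputable def s5134_5137 (i sh : Nat) : Nat := Bool.rec (Nat.shiftRight leaf5134 sh) (s5135_5137 i sh) (Nat.ble 5135 i)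
noncomputable def s5132_5137 (i sh : Nat) : Nat := Bool.rec (s5132_5134 i sh) (s5134_5137 i sh) (Nat.ble 5134 i)
noncomputable def s5137_5139 (i sh : Nat) : Nat := Bool.rec (Nat.shiftRight leaf5137 sh) (Nat.shiftRight leaf5138 sh) (Nat.ble 5138 i)
noncomputable def s5140_5142 (i sh : Nat) : Nat := Bool.rec (Nat.shiftRight leaf5140 sh) (Nat.shiftRight leaf5141 sh) (Nat.ble 5141 i)
noncomputable def s5139_5142 (i sh : Nat) : Nat := Bool.rec (Nat.shiftRight leaf5139 sh) (s5140_5142 i sh) (Nat.ble 5140 i)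
noncomputable def s5137_5142 (i sh : Nat) : Nat := Bool.rec (s5137_5139 i sh) (s5139_5142 i sh) (Nat.ble 5139 i)
noncomputable def s5132_5142 (i sh : Nat) : Nat := Bool.rec (s5132_5137 i sh) (s5137_5142 i sh) (Nat.ble 5137 i)
noncomputable def s5122_5142 (i sh : Nat) : Nat := Bool.rec (s5122_5132 i sh) (s5132_5142 i sh) (Nat.ble 5132 i)
noncomputable def s5142_5144 (i sh : Nat) : Nat := Bool.rec (Nat.shiftRight leaf5142 sh) (Nat.shiftRight leaf5143 sh) (Nat.ble 5143 i)
noncomputable def s5145_5147 (i sh : Nat) : Nat := Bool.rec (Nat.shiftRight leaf5145 sh) (Nat.shiftRight leaf5146 sh) (Nat.ble 5146 i)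
noncomputable def s5144_5147 (i sh : Nat) : Nat := Bool.rec (Nat.shiftRight leaf5144 sh) (s5145_5147 i sh) (Nat.ble 5145 i)
noncomputable def s5142_5147 (i sh : Nat) : Nat := Bool.rec (s5142_5144 i sh) (s5144_5147 i sh) (Nat.ble 5144 i)
noncomputable def s5147_5149 (i sh : Nat) : Nat := Bool.rec (Nat.shiftRight leaf5147 sh) (Nat.shiftRight leaf5148 sh) (Nat.ble 5148 i)
noncomputable def s5150_5152 (i sh : Nat) : Nat := Bool.rec (Nat.shiftRight leaf5150 sh) (Nat.shiftRight leaf5151 sh) (Nat.ble 5151 i)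
noncomputable def s5149_5152 (i sh : Nat) : Nat := Bool.rec (Nat.shiftRight leaf5149 sh) (s5150_5152 i sh) (Nat.ble 5150 i)
noncomputable def s5147_5152 (i sh : Nat) : Nat := Bool.rec (s5147_5149 i sh) (s5149_5152 i sh) (Nat.ble 5149 i)
noncomputable def s5142_5152 (i sh : Nat) : Nat := Bool.rec (s5142_5147 i sh) (s5147_5152 i sh) (Nat.ble 5147 i)
noncomputable def s5152_5154 (i sh : Nat) : Nat := Bool.rec (Nat.shiftRight leaf5152 sh) (Nat.shiftRight leaf5153 sh) (Nat.ble 5153 i)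
noncomputable def s5155_5157 (i sh : Nat) : Nat := Bool.rec (Nat.shiftRight leaf5155 sh) (Nat.shiftRight leaf5156 sh) (Nat.ble 5156 i)
noncomputable def s5154_5157 (i sh : Nat) : Nat := Bool.rec (Nat.shiftRight leaf5154 sh) (s5155_5157 i sh) (Nat.ble 5155 i)
noncomputable def s5152_5157 (i sh : Nat) : Nat := Bool.rec (s5152_5154 i sh) (s5154_5157 i sh) (Nat.ble 5154 i)
noncomputable def s5158_5160 (i sh : Nat) : Nat := Bool.rec (Nat.shiftRight leaf5158 sh) (Nat.shiftRight leaf5159 sh) (Nat.ble 5159 i)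
noncomputable def s5157_5160 (i sh : Nat) : Nat := Bool.rec (Nat.shiftRight leaf5157 sh) (s5158_5160 i sh) (Nat.ble 5158 i)
noncomputable def s5161_5163 (i sh : Nat) : Nat := Bool.rec (Nat.shiftRight leaf5161 sh) (Nat.shiftRight leaf5162 sh) (Nat.ble 5162 i)
noncomputable def s5160_5163 (i sh : Nat) : Nat := Bool.rec (Nat.shiftRight leaf5160 sh) (s5161_5163 i sh) (Nat.ble 5161 i)
noncomputable def s5157_5163 (i sh : Nat) : Nat := Bool.rec (s5157_5160 i sh) (s5160_5163 i sh) (Nat.ble 5160 i)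
noncomputable def s5152_5163 (i sh : Nat) : Nat := Bool.rec (s5152_5157 i sh) (s5157_5163 i sh) (Nat.ble 5157 i)
noncomputable def s5142_5163 (i sh : Nat) : Nat := Bool.rec (s5142_5152 i sh) (s5152_5163 i sh) (Nat.ble 5152 i)
noncomputable def s5122_5163 (i sh : Nat) : Nat := Bool.rec (s5122_5142 i sh) (s5142_5163 i sh) (Nat.ble 5142 i)
noncomputable def s5082_5163 (i sh : Nat) : Nat := Bool.rec (s5082_5122 i sh) (s5122_5163 i sh) (Nat.ble 5122 i)
noncomputable def s5001_5163 (i sh : Nat) : Nat := Bool.rec (s5001_5082 i sh) (s5082_5163 i sh) (Nat.ble 5082 i)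
noncomputable def s4840_5163 (i sh : Nat) : Nat := Bool.rec (s4840_5001 i sh) (s5001_5163 i sh) (Nat.ble 5001 i)
noncomputable def s4517_5163 (i sh : Nat) : Nat := Bool.rec (s4517_4840 i sh) (s4840_5163 i sh) (Nat.ble 4840 i)
noncomputable def s3872_5163 (i sh : Nat) : Nat := Bool.rec (s3872_4517 i sh) (s4517_5163 i sh) (Nat.ble 4517 i)
noncomputable def s2581_5163 (i sh : Nat) : Nat := Bool.rec (s2581_3872 i sh) (s3872_5163 i sh) (Nat.ble 3872 i)
noncomputable def s0_5163 (i sh : Nat) : Nat := Bool.rec (s0_2581 i sh) (s2581_5163 i sh) (Nat.ble 2581 i)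

noncomputable def sel (i sh : Nat) : Nat :=
  s0_5163 i sh

noncomputable def db (id : Nat) : Nat :=
  Nat.land (sel (Nat.shiftRight id 5) (Nat.mul (Nat.land id 31) 1372)) 103075167919539362737878941695671096927792562532006181489457016172426249969978700941327803302214895580818494901679453603431156074155042347331258021971034545205239481632524915575922202175699365126489916269602259901666017026544977942158509882349776653560749789673308632667869401599817187059222269590222045799953579470369098385832411910277770514312692055886863990658502951108997494531238882767713060684543954513821695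

def par : Par := ⟨6, false, 5, 96, 79228162514264337593543950335, 39614685729265488887849975808, 0⟩

end Vale.Agent.P045g.C61
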