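import Vale.Agent.P045g.C61.Ch0
import Vale.Agent.P045g.C61.Ch1
import Vale.Agent.P045g.C61.Ch2
import Vale.Agent.P045g.C61.Ch3
import Vale.Agent.P045g.C61.Ch4
import Vale.Agent.P045g.C61.Ch5
import Vale.Agent.P045g.C61.Ch6
import Vale.Agent.P045g.C61.Ch7
import Vale.Agent.P045g.C61.Ch8
import Vale.Agent.P045g.C61.Ch9
import Vale.Agent.P045g.C61.Ch10
import Vale.Agent.P045g.C61.Ch11
import Vale.Agent.P045g.C61.Ch12
import Vale.Agent.P045g.C61.Ch13
import Vale.Agent.P045g.C61.Ch14
import Vale.Agent.P045g.C61.Ch15
import Vale.Agent.P045g.C61.Ch16
import Vale.Agent.P045g.C61.Ch17
import Vale.Agent.P045g.C61.Ch18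
import Vale.Agent.P045g.C61.Ch19
import Vale.Agent.P045g.C61.Ch20
import Vale.Agent.P045g.C61.Ch21
import Vale.Agent.P045g.C61.Ch22
import Vale.Agent.P045g.C61.Ch23
import Vale.Agent.P045g.C61.Ch24
import Vale.Agent.P045g.C61.Ch25
import Vale.Agent.P045g.C61.Ch26
import Vale.Agent.P045g.C61.Ch27
import Vale.Agent.P045g.C61.Ch28
import Vale.Agent.P045g.C61.Ch29
import Vale.Agent.P045g.C61.Ch30
import Vale.Agent.P045g.C61.Ch31
import Vale.Agent.P045g.C61.Ch32
import Vale.Agent.P045g.C61.Ch33
import Vale.Agent.P045g.C61.Ch34
import Vale.Agent.P045g.C61.Ch35
import Vale.Agent.P045g.C61.Ch36
import Vale.Agent.P045g.C61.Ch37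
import Vale.Agent.P045g.C61.Ch38
import Vale.Agent.P045g.C61.Ch39
import Vale.Agent.P045g.C61.Ch40
import Vale.Agent.P045g.C61.Ch41
import Vale.Agent.P045g.C61.Ch42
import Vale.Agent.P045g.C61.Ch43
import Vale.Agent.P045g.C61.Ch44
import Vale.Agent.P045g.C61.Ch45
import Vale.Agent.P045g.C61.Ch46
import Vale.Agent.P045g.C61.Ch47
import Vale.Agent.P045g.C61.Ch48
import Vale.Agent.P045g.C61.Ch49
import Vale.Agent.P045g.C61.Ch50
import Vale.Agent.P045g.C61.Ch51
import Vale.Agent.P045g.C61.Ch52
import Vale.Agent.P045g.C61.Ch53
import Vale.Agent.P045g.C61.Ch54
import Vale.Agent.P045g.C61.Ch55
import Vale.Agent.P045g.C61.Ch56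
import Vale.Agent.P045g.C61.Ch57
import Vale.Agent.P045g.C61.Ch58
import Vale.Agent.P045g.C61.Ch59
import Vale.Agent.P045g.C61.Ch60
import Vale.Agent.P045g.C61.Ch61
import Vale.Agent.P045g.C61.Ch62
import Vale.Agent.P045g.C61.Ch63
import Vale.Agent.P045g.C61.Ch64
import Vale.Agent.P045g.C61.Ch65
import Vale.Agent.P045g.C61.Ch66
import Vale.Agent.P045g.C61.Ch67
import Vale.Agent.P045g.C61.Ch68
import Vale.Agent.P045g.C61.Ch69
import Vale.Agent.P045g.C61.Ch70
import Vale.Agent.P045g.C61.Ch71
import Vale.Agent.P045g.C61.Ch72
import Vale.Agent.P045g.C61.Ch73
import Vale.Agent.P045g.C61.Ch74
import Vale.Agent.P045g.C61.Ch75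
import Vale.Agent.P045g.C61.Ch76
import Vale.Agent.P045g.C61.Ch77
import Vale.Agent.P045g.C61.Ch78

namespace Vale.Agent.P045g.C61

open Vale.Agent.P045b Vale.Agent.P045g

universe u

theorem g0 : ∀ j, j < 0 → GoodG.{u} par (db j) := fun j hj => absurd hj (Nat.not_lt_zero j)

theorem good : ∀ j, j < 165198 → GoodG.{u} par (db j) := by
  have h0 := g0.{u}
  have h1 := c0 h0
  have h2 := c1 h1
  have h3 := c2 h2
  have h4 := c3 h3
  have h5 := c4 h4
  have h6 := c5 h5
  have h7 := c6 h6
  have h8 := c7 h7
  have h9 := c8 h8
  have h10 := c9 h9
  have h11 := c10 h10
  have h12 := c11 h11
  have h13 := c12 h12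
  have h14 := c13 h13
  have h15 := c14 h14
  have h16 := c15 h15
  have h17 := c16 h16
  have h18 := c17 h17
  have h19 := c18 h18
  have h20 := c19 h19
  have h21 := c20 h20
  have h22 := c21 h21
  have h23 := c22 h22
  have h24 := c23 h23
  have h25 := c24 h24
  have h26 := c25 h25
  have h27 := c26 h26
  have h28 := c27 h27
  have h29 := c28 h28
  have h30 := c29 h29
  have h31 := c30 h30
  have h32 := c31 h31
  have h33 := c32 h32
  have h34 := c33 h33
  have h35 := c34 h34
  have h36 := c35 h35
  have h37 := c36 h36
  have h38 := c37 h37
  have h39 := c38 h38
  have h40 := c39 h39
  have h41 := c40 h40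
  have h42 := c41 h41
  have h43 := c42 h42
  have h44 := c43 h43
  have h45 := c44 h44
  have h46 := c45 h45
  have h47 := c46 h46
  have h48 := c47 h47
  have h49 := c48 h48
  have h50 := c49 h49
  have h51 := c50 h50
  have h52 := c51 h51
  have h53 := c52 h52
  have h54 := c53 h53
  have h55 := c54 h54
  have h56 := c55 h55
  have h57 := c56 h56
  have h58 := c57 h57
  have h59 := c58 h58
  have h60 := c59 h59
  have h61 := c60 h60
  have h62 := c61 h61
  have h63 := c62 h62
  have h64 := c63 h63
  have h65 := c64 h64
  have h66 := c65 h65
  have h67 := c66 h66
  have h68 := c67 h67
  have h69 := c68 h68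
  have h70 := c69 h69
  have h71 := c70 h70
  have h72 := c71 h71
  have h73 := c72 h72
  have h74 := c73 h73
  have h75 := c74 h74
  have h76 := c75 h75
  have h77 := c76 h76
  have h78 := c77 h77
  have h79 := c78 h78
  have h80 := c79 h79
  have h81 := c80 h80
  have h82 := c81 h81
  have h83 := c82 h82
  have h84 := c83 h83
  have h85 := c84 h84
  have h86 := c85 h85
  have h87 := c86 h86
  have h88 := c87 h87
  have h89 := c88 h88
  have h90 := c89 h89
  have h91 := c90 h90
  have h92 := c91 h91
  have h93 := c92 h92
  have h94 := c93 h93
  have h95 := c94 h94
  have h96 := c95 h95
  have h97 := c96 h96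
  have h98 := c97 h97
  have h99 := c98 h98
  have h100 := c99 h99
  have h101 := c100 h100
  have h102 := c101 h101
  have h103 := c102 h102
  have h104 := c103 h103
  have h105 := c104 h104
  have h106 := c105 h105
  have h107 := c106 h106
  have h108 := c107 h107
  have h109 := c108 h108
  have h110 := c109 h109
  have h111 := c110 h110
  have h112 := c111 h111
  have h113 := c112 h112
  have h114 := c113 h113
  have h115 := c114 h114
  have h116 := c115 h115
  have h117 := c116 h116
  have h118 := c117 h117
  have h119 := c118 h118
  have h120 := c119 h119
  have h121 := c120 h120
  have h122 := c121 h121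
  have h123 := c122 h122
  have h124 := c123 h123
  have h125 := c124 h124
  have h126 := c125 h125
  have h127 := c126 h126
  have h128 := c127 h127
  have h129 := c128 h128
  have h130 := c129 h129
  have h131 := c130 h130
  have h132 := c131 h131
  have h133 := c132 h132
  have h134 := c133 h133
  have h135 := c134 h134
  have h136 := c135 h135
  have h137 := c136 h136
  have h138 := c137 h137
  have h139 := c138 h138
  have h140 := c139 h139
  have h141 := c140 h140
  have h142 := c141 h141
  have h143 := c142 h142
  have h144 := c143 h143
  have h145 := c144 h144
  have h146 := c145 h145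
  have h147 := c146 h146
  have h148 := c147 h147
  have h149 := c148 h148
  have h150 := c149 h149
  have h151 := c150 h150
  have h152 := c151 h151
  have h153 := c152 h152
  have h154 := c153 h153
  have h155 := c154 h154
  have h156 := c155 h155
  have h157 := c156 h156
  have h158 := c157 h157
  have h159 := c158 h158
  have h160 := c159 h159
  have h161 := c160 h160
  have h162 := c161 h161
  have h163 := c162 h162
  have h164 := c163 h163
  have h165 := c164 h164
  have h166 := c165 h165
  have h167 := c166 h166
  have h168 := c167 h167
  have h169 := c168 h168
  have h170 := c169 h169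
  have h171 := c170 h170
  have h172 := c171 h171
  have h173 := c172 h172
  have h174 := c173 h173
  have h175 := c174 h174
  have h176 := c175 h175
  have h177 := c176 h176
  have h178 := c177 h177
  have h179 := c178 h178
  have h180 := c179 h179
  have h181 := c180 h180
  have h182 := c181 h181
  have h183 := c182 h182
  have h184 := c183 h183
  have h185 := c184 h184
  have h186 := c185 h185
  have h187 := c186 h186
  have h188 := c187 h187
  have h189 := c188 h188
  have h190 := c189 h189
  have h191 := c190 h190
  have h192 := c191 h191
  have h193 := c192 h192
  have h194 := c193 h193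
  have h195 := c194 h194
  have h196 := c195 h195
  have h197 := c196 h196
  have h198 := c197 h197
  have h199 := c198 h198
  have h200 := c199 h199
  have h201 := c200 h200
  have h202 := c201 h201
  have h203 := c202 h202
  have h204 := c203 h203
  have h205 := c204 h204
  have h206 := c205 h205
  have h207 := c206 h206
  have h208 := c207 h207
  have h209 := c208 h208
  have h210 := c209 h209
  have h211 := c210 h210
  have h212 := c211 h211
  have h213 := c212 h212
  have h214 := c213 h213
  have h215 := c214 h214
  have h216 := c215 h215
  have h217 := c216 h216
  have h218 := c217 h217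
  have h219 := c218 h218
  have h220 := c219 h219
  have h221 := c220 h220
  have h222 := c221 h221
  have h223 := c222 h222
  have h224 := c223 h223
  have h225 := c224 h224
  have h226 := c225 h225
  have h227 := c226 h226
  have h228 := c227 h227
  have h229 := c228 h228
  have h230 := c229 h229
  have h231 := c230 h230
  have h232 := c231 h231
  have h233 := c232 h232
  have h234 := c233 h233
  have h235 := c234 h234
  have h236 := c235 h235
  have h237 := c236 h236
  have h238 := c237 h237
  have h239 := c238 h238
  have h240 := c239 h239
  have h241 := c240 h240
  have h242 := c241 h241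
  have h243 := c242 h242
  have h244 := c243 h243
  have h245 := c244 h244
  have h246 := c245 h245
  have h247 := c246 h246
  have h248 := c247 h247
  have h249 := c248 h248
  have h250 := c249 h249
  have h251 := c250 h250
  have h252 := c251 h251
  have h253 := c252 h252
  have h254 := c253 h253
  have h255 := c254 h254
  have h256 := c255 h255
  have h257 := c256 h256
  have h258 := c257 h257
  have h259 := c258 h258
  have h260 := c259 h259
  have h261 := c260 h260
  have h262 := c261 h261
  have h263 := c262 h262
  have h264 := c263 h263
  have h265 := c264 h264
  have h266 := c265 h265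
  have h267 := c266 h266
  have h268 := c267 h267
  have h269 := c268 h268
  have h270 := c269 h269
  have h271 := c270 h270
  have h272 := c271 h271
  have h273 := c272 h272
  have h274 := c273 h273
  have h275 := c274 h274
  have h276 := c275 h275
  have h277 := c276 h276
  have h278 := c277 h277
  have h279 := c278 h278
  have h280 := c279 h279
  have h281 := c280 h280
  have h282 := c281 h281
  have h283 := c282 h282
  have h284 := c283 h283
  have h285 := c284 h284
  have h286 := c285 h285
  have h287 := c286 h286
  have h288 := c287 h287
  have h289 := c288 h288
  have h290 := c289 h289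
  have h291 := c290 h290
  have h292 := c291 h291
  have h293 := c292 h292
  have h294 := c293 h293
  have h295 := c294 h294
  have h296 := c295 h295
  have h297 := c296 h296
  have h298 := c297 h297
  have h299 := c298 h298
  have h300 := c299 h299
  have h301 := c300 h300
  have h302 := c301 h301
  have h303 := c302 h302
  have h304 := c303 h303
  have h305 := c304 h304
  have h306 := c305 h305
  have h307 := c306 h306
  have h308 := c307 h307
  have h309 := c308 h308
  have h310 := c309 h309
  have h311 := c310 h310
  have h312 := c311 h311
  have h313 := c312 h312
  have h314 := c313 h313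
  have h315 := c314 h314
  have h316 := c315 h315
  have h317 := c316 h316
  have h318 := c317 h317
  have h319 := c318 h318
  have h320 := c319 h319
  have h321 := c320 h320
  have h322 := c321 h321
  have h323 := c322 h322
  have h324 := c323 h323
  have h325 := c324 h324
  have h326 := c325 h325
  have h327 := c326 h326
  have h328 := c327 h327
  have h329 := c328 h328
  have h330 := c329 h329
  have h331 := c330 h330
  have h332 := c331 h331
  have h333 := c332 h332
  have h334 := c333 h333
  have h335 := c334 h334
  have h336 := c335 h335
  have h337 := c336 h336
  have h338 := c337 h337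
  have h339 := c338 h338
  have h340 := c339 h339
  have h341 := c340 h340
  have h342 := c341 h341
  have h343 := c342 h342
  have h344 := c343 h343
  have h345 := c344 h344
  have h346 := c345 h345
  have h347 := c346 h346
  have h348 := c347 h347
  have h349 := c348 h348
  have h350 := c349 h349
  have h351 := c350 h350
  have h352 := c351 h351
  have h353 := c352 h352
  have h354 := c353 h353
  have h355 := c354 h354
  have h356 := c355 h355
  have h357 := c356 h356
  have h358 := c357 h357
  have h359 := c358 h358
  have h360 := c359 h359
  have h361 := c360 h360
  have h362 := c361 h361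
  have h363 := c362 h362
  have h364 := c363 h363
  have h365 := c364 h364
  have h366 := c365 h365
  have h367 := c366 h366
  have h368 := c367 h367
  have h369 := c368 h368
  have h370 := c369 h369
  have h371 := c370 h370
  have h372 := c371 h371
  have h373 := c372 h372
  have h374 := c373 h373
  have h375 := c374 h374
  have h376 := c375 h375
  have h377 := c376 h376
  have h378 := c377 h377
  have h379 := c378 h378
  have h380 := c379 h379
  have h381 := c380 h380
  have h382 := c381 h381
  have h383 := c382 h382
  have h384 := c383 h383
  have h385 := c384 h384
  have h386 := c385 h385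
  have h387 := c386 h386
  have h388 := c387 h387
  have h389 := c388 h388
  have h390 := c389 h389
  have h391 := c390 h390
  have h392 := c391 h391
  have h393 := c392 h392
  have h394 := c393 h393
  have h395 := c394 h394
  have h396 := c395 h395
  have h397 := c396 h396
  have h398 := c397 h397
  have h399 := c398 h398
  have h400 := c399 h399
  have h401 := c400 h400
  have h402 := c401 h401
  have h403 := c402 h402
  have h404 := c403 h403
  have h405 := c404 h404
  have h406 := c405 h405
  have h407 := c406 h406
  have h408 := c407 h407
  have h409 := c408 h408
  have h410 := c409 h409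
  have h411 := c410 h410
  have h412 := c411 h411
  have h413 := c412 h412
  have h414 := c413 h413
  have h415 := c414 h414
  have h416 := c415 h415
  have h417 := c416 h416
  have h418 := c417 h417
  have h419 := c418 h418
  have h420 := c419 h419
  have h421 := c420 h420
  have h422 := c421 h421
  have h423 := c422 h422
  have h424 := c423 h423
  have h425 := c424 h424
  have h426 := c425 h425
  have h427 := c426 h426
  have h428 := c427 h427
  have h429 := c428 h428
  have h430 := c429 h429
  have h431 := c430 h430
  have h432 := c431 h431
  have h433 := c432 h432
  have h434 := c433 h433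
  have h435 := c434 h434
  have h436 := c435 h435
  have h437 := c436 h436
  have h438 := c437 h437
  have h439 := c438 h438
  have h440 := c439 h439
  have h441 := c440 h440
  have h442 := c441 h441
  have h443 := c442 h442
  have h444 := c443 h443
  have h445 := c444 h444
  have h446 := c445 h445
  have h447 := c446 h446
  have h448 := c447 h447
  have h449 := c448 h448
  have h450 := c449 h449
  have h451 := c450 h450
  have h452 := c451 h451
  have h453 := c452 h452
  have h454 := c453 h453
  have h455 := c454 h454
  have h456 := c455 h455
  have h457 := c456 h456
  have h458 := c457 h457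
  have h459 := c458 h458
  have h460 := c459 h459
  have h461 := c460 h460
  have h462 := c461 h461
  have h463 := c462 h462
  have h464 := c463 h463
  have h465 := c464 h464
  have h466 := c465 h465
  have h467 := c466 h466
  have h468 := c467 h467
  have h469 := c468 h468
  have h470 := c469 h469
  have h471 := c470 h470
  have h472 := c471 h471
  have h473 := c472 h472
  have h474 := c473 h473
  have h475 := c474 h474
  have h476 := c475 h475
  have h477 := c476 h476
  have h478 := c477 h477
  have h479 := c478 h478
  have h480 := c479 h479
  have h481 := c480 h480
  have h482 := c481 h481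
  have h483 := c482 h482
  have h484 := c483 h483
  have h485 := c484 h484
  have h486 := c485 h485
  have h487 := c486 h486
  have h488 := c487 h487
  have h489 := c488 h488
  have h490 := c489 h489
  have h491 := c490 h490
  have h492 := c491 h491
  have h493 := c492 h492
  have h494 := c493 h493
  have h495 := c494 h494
  have h496 := c495 h495
  have h497 := c496 h496
  have h498 := c497 h497
  have h499 := c498 h498
  have h500 := c499 h499
  have h501 := c500 h500
  have h502 := c501 h501
  have h503 := c502 h502
  have h504 := c503 h503
  have h505 := c504 h504
  have h506 := c505 h505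
  have h507 := c506 h506
  have h508 := c507 h507
  have h509 := c508 h508
  have h510 := c509 h509
  have h511 := c510 h510
  have h512 := c511 h511
  have h513 := c512 h512
  have h514 := c513 h513
  have h515 := c514 h514
  have h516 := c515 h515
  have h517 := c516 h516
  have h518 := c517 h517
  have h519 := c518 h518
  have h520 := c519 h519
  have h521 := c520 h520
  have h522 := c521 h521
  have h523 := c522 h522
  have h524 := c523 h523
  have h525 := c524 h524
  have h526 := c525 h525
  have h527 := c526 h526
  have h528 := c527 h527
  have h529 := c528 h528
  have h530 := c529 h529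
  have h531 := c530 h530
  have h532 := c531 h531
  have h533 := c532 h532
  have h534 := c533 h533
  have h535 := c534 h534
  have h536 := c535 h535
  have h537 := c536 h536
  have h538 := c537 h537
  have h539 := c538 h538
  have h540 := c539 h539
  have h541 := c540 h540
  have h542 := c541 h541
  have h543 := c542 h542
  have h544 := c543 h543
  have h545 := c544 h544
  have h546 := c545 h545
  have h547 := c546 h546
  have h548 := c547 h547
  have h549 := c548 h548
  have h550 := c549 h549
  have h551 := c550 h550
  have h552 := c551 h551
  have h553 := c552 h552
  have h554 := c553 h553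
  have h555 := c554 h554
  have h556 := c555 h555
  have h557 := c556 h556
  have h558 := c557 h557
  have h559 := c558 h558
  have h560 := c559 h559
  have h561 := c560 h560
  have h562 := c561 h561
  have h563 := c562 h562
  have h564 := c563 h563
  have h565 := c564 h564
  have h566 := c565 h565
  have h567 := c566 h566
  have h568 := c567 h567
  have h569 := c568 h568
  have h570 := c569 h569
  have h571 := c570 h570
  have h572 := c571 h571
  have h573 := c572 h572
  have h574 := c573 h573
  have h575 := c574 h574
  have h576 := c575 h575
  have h577 := c576 h576
  have h578 := c577 h577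
  have h579 := c578 h578
  have h580 := c579 h579
  have h581 := c580 h580
  have h582 := c581 h581
  have h583 := c582 h582
  have h584 := c583 h583
  have h585 := c584 h584
  have h586 := c585 h585
  have h587 := c586 h586
  have h588 := c587 h587
  have h589 := c588 h588
  have h590 := c589 h589
  have h591 := c590 h590
  have h592 := c591 h591
  have h593 := c592 h592
  have h594 := c593 h593
  have h595 := c594 h594
  have h596 := c595 h595
  have h597 := c596 h596
  have h598 := c597 h597
  have h599 := c598 h598
  have h600 := c599 h599
  have h601 := c600 h600
  have h602 := c601 h601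
  have h603 := c602 h602
  have h604 := c603 h603
  have h605 := c604 h604
  have h606 := c605 h605
  have h607 := c606 h606
  have h608 := c607 h607
  have h609 := c608 h608
  have h610 := c609 h609
  have h611 := c610 h610
  have h612 := c611 h611
  have h613 := c612 h612
  have h614 := c613 h613
  have h615 := c614 h614
  have h616 := c615 h615
  have h617 := c616 h616
  have h618 := c617 h617
  have h619 := c618 h618
  have h620 := c619 h619
  have h621 := c620 h620
  have h622 := c621 h621
  have h623 := c622 h622
  have h624 := c623 h623
  have h625 := c624 h624
  have h626 := c625 h625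
  have h627 := c626 h626
  have h628 := c627 h627
  have h629 := c628 h628
  have h630 := c629 h629
  have h631 := c630 h630
  have h632 := c631 h631
  have h633 := c632 h632
  have h634 := c633 h633
  have h635 := c634 h634
  have h636 := c635 h635
  have h637 := c636 h636
  have h638 := c637 h637
  have h639 := c638 h638
  have h640 := c639 h639
  have h641 := c640 h640
  have h642 := c641 h641
  have h643 := c642 h642
  have h644 := c643 h643
  have h645 := c644 h644
  have h646 := c645 h645
  have h647 := c646 h646
  have h648 := c647 h647
  have h649 := c648 h648
  have h650 := c649 h649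
  have h651 := c650 h650
  have h652 := c651 h651
  have h653 := c652 h652
  have h654 := c653 h653
  have h655 := c654 h654
  have h656 := c655 h655
  have h657 := c656 h656
  have h658 := c657 h657
  have h659 := c658 h658
  have h660 := c659 h659
  have h661 := c660 h660
  have h662 := c661 h661
  have h663 := c662 h662
  have h664 := c663 h663
  have h665 := c664 h664
  have h666 := c665 h665
  have h667 := c666 h666
  have h668 := c667 h667
  have h669 := c668 h668
  have h670 := c669 h669
  have h671 := c670 h670
  have h672 := c671 h671
  have h673 := c672 h672
  have h674 := c673 h673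
  have h675 := c674 h674
  have h676 := c675 h675
  have h677 := c676 h676
  have h678 := c677 h677
  have h679 := c678 h678
  have h680 := c679 h679
  have h681 := c680 h680
  have h682 := c681 h681
  have h683 := c682 h682
  have h684 := c683 h683
  have h685 := c684 h684
  have h686 := c685 h685
  have h687 := c686 h686
  have h688 := c687 h687
  have h689 := c688 h688
  have h690 := c689 h689
  have h691 := c690 h690
  have h692 := c691 h691
  have h693 := c692 h692
  have h694 := c693 h693
  have h695 := c694 h694
  have h696 := c695 h695
  have h697 := c696 h696
  have h698 := c697 h697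
  have h699 := c698 h698
  have h700 := c699 h699
  have h701 := c700 h700
  have h702 := c701 h701
  have h703 := c702 h702
  have h704 := c703 h703
  have h705 := c704 h704
  have h706 := c705 h705
  have h707 := c706 h706
  have h708 := c707 h707
  have h709 := c708 h708
  have h710 := c709 h709
  have h711 := c710 h710
  have h712 := c711 h711
  have h713 := c712 h712
  have h714 := c713 h713
  have h715 := c714 h714
  have h716 := c715 h715
  have h717 := c716 h716
  have h718 := c717 h717
  have h719 := c718 h718
  have h720 := c719 h719
  have h721 := c720 h720
  have h722 := c721 h721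
  have h723 := c722 h722
  have h724 := c723 h723
  have h725 := c724 h724
  have h726 := c725 h725
  have h727 := c726 h726
  have h728 := c727 h727
  have h729 := c728 h728
  have h730 := c729 h729
  have h731 := c730 h730
  have h732 := c731 h731
  have h733 := c732 h732
  have h734 := c733 h733
  have h735 := c734 h734
  have h736 := c735 h735
  have h737 := c736 h736
  have h738 := c737 h737
  have h739 := c738 h738
  have h740 := c739 h739
  have h741 := c740 h740
  have h742 := c741 h741
  have h743 := c742 h742
  have h744 := c743 h743
  have h745 := c744 h744
  have h746 := c745 h745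
  have h747 := c746 h746
  have h748 := c747 h747
  have h749 := c748 h748
  have h750 := c749 h749
  have h751 := c750 h750
  have h752 := c751 h751
  have h753 := c752 h752
  have h754 := c753 h753
  have h755 := c754 h754
  have h756 := c755 h755
  have h757 := c756 h756
  have h758 := c757 h757
  have h759 := c758 h758
  have h760 := c759 h759
  have h761 := c760 h760
  have h762 := c761 h761
  have h763 := c762 h762
  have h764 := c763 h763
  have h765 := c764 h764
  have h766 := c765 h765
  have h767 := c766 h766
  have h768 := c767 h767
  have h769 := c768 h768
  have h770 := c769 h769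
  have h771 := c770 h770
  have h772 := c771 h771
  have h773 := c772 h772
  have h774 := c773 h773
  have h775 := c774 h774
  have h776 := c775 h775
  have h777 := c776 h776
  have h778 := c777 h777
  have h779 := c778 h778
  have h780 := c779 h779
  have h781 := c780 h780
  have h782 := c781 h781
  have h783 := c782 h782
  have h784 := c783 h783
  have h785 := c784 h784
  have h786 := c785 h785
  have h787 := c786 h786
  have h788 := c787 h787
  have h789 := c788 h788
  have h790 := c789 h789
  have h791 := c790 h790
  have h792 := c791 h791
  have h793 := c792 h792
  have h794 := c793 h793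
  have h795 := c794 h794
  have h796 := c795 h795
  have h797 := c796 h796
  have h798 := c797 h797
  have h799 := c798 h798
  have h800 := c799 h799
  have h801 := c800 h800
  have h802 := c801 h801
  have h803 := c802 h802
  have h804 := c803 h803
  have h805 := c804 h804
  have h806 := c805 h805
  have h807 := c806 h806
  have h808 := c807 h807
  have h809 := c808 h808
  have h810 := c809 h809
  have h811 := c810 h810
  have h812 := c811 h811
  have h813 := c812 h812
  have h814 := c813 h813
  have h815 := c814 h814
  have h816 := c815 h815
  have h817 := c816 h816
  have h818 := c817 h817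
  have h819 := c818 h818
  have h820 := c819 h819
  have h821 := c820 h820
  have h822 := c821 h821
  have h823 := c822 h822
  have h824 := c823 h823
  have h825 := c824 h824
  have h826 := c825 h825
  have h827 := c826 h826
  have h828 := c827 h827
  have h829 := c828 h828
  have h830 := c829 h829
  have h831 := c830 h830
  have h832 := c831 h831
  have h833 := c832 h832
  have h834 := c833 h833
  have h835 := c834 h834
  have h836 := c835 h835
  have h837 := c836 h836
  have h838 := c837 h837
  have h839 := c838 h838
  have h840 := c839 h839
  have h841 := c840 h840
  have h842 := c841 h841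
  have h843 := c842 h842
  have h844 := c843 h843
  have h845 := c844 h844
  have h846 := c845 h845
  have h847 := c846 h846
  have h848 := c847 h847
  have h849 := c848 h848
  have h850 := c849 h849
  have h851 := c850 h850
  have h852 := c851 h851
  have h853 := c852 h852
  have h854 := c853 h853
  have h855 := c854 h854
  have h856 := c855 h855
  have h857 := c856 h856
  have h858 := c857 h857
  have h859 := c858 h858
  have h860 := c859 h859
  have h861 := c860 h860
  have h862 := c861 h861
  have h863 := c862 h862
  have h864 := c863 h863
  have h865 := c864 h864
  have h866 := c865 h865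
  have h867 := c866 h866
  have h868 := c867 h867
  have h869 := c868 h868
  have h870 := c869 h869
  have h871 := c870 h870
  have h872 := c871 h871
  have h873 := c872 h872
  have h874 := c873 h873
  have h875 := c874 h874
  have h876 := c875 h875
  have h877 := c876 h876
  have h878 := c877 h877
  have h879 := c878 h878
  have h880 := c879 h879
  have h881 := c880 h880
  have h882 := c881 h881
  have h883 := c882 h882
  have h884 := c883 h883
  have h885 := c884 h884
  have h886 := c885 h885
  have h887 := c886 h886
  have h888 := c887 h887
  have h889 := c888 h888
  have h890 := c889 h889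
  have h891 := c890 h890
  have h892 := c891 h891
  have h893 := c892 h892
  have h894 := c893 h893
  have h895 := c894 h894
  have h896 := c895 h895
  have h897 := c896 h896
  have h898 := c897 h897
  have h899 := c898 h898
  have h900 := c899 h899
  have h901 := c900 h900
  have h902 := c901 h901
  have h903 := c902 h902
  have h904 := c903 h903
  have h905 := c904 h904
  have h906 := c905 h905
  have h907 := c906 h906
  have h908 := c907 h907
  have h909 := c908 h908
  have h910 := c909 h909
  have h911 := c910 h910
  have h912 := c911 h911
  have h913 := c912 h912
  have h914 := c913 h913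
  have h915 := c914 h914
  have h916 := c915 h915
  have h917 := c916 h916
  have h918 := c917 h917
  have h919 := c918 h918
  have h920 := c919 h919
  have h921 := c920 h920
  have h922 := c921 h921
  have h923 := c922 h922
  have h924 := c923 h923
  have h925 := c924 h924
  have h926 := c925 h925
  have h927 := c926 h926
  have h928 := c927 h927
  have h929 := c928 h928
  have h930 := c929 h929
  have h931 := c930 h930
  have h932 := c931 h931
  have h933 := c932 h932
  have h934 := c933 h933
  have h935 := c934 h934
  have h936 := c935 h935
  have h937 := c936 h936
  have h938 := c937 h937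
  have h939 := c938 h938
  have h940 := c939 h939
  have h941 := c940 h940
  have h942 := c941 h941
  have h943 := c942 h942
  have h944 := c943 h943
  have h945 := c944 h944
  have h946 := c945 h945
  have h947 := c946 h946
  have h948 := c947 h947
  exact h948

theorem core (V : Type u) (E : (ℕ → V) → Prop) : ¬ Bad par E :=
  not_bad_of_goodG_empty (by decide) (db 165197) (by decide +kernel) (by decide +kernel) (by decide +kernel)
    (by decide +kernel) (good 165197 (by norm_num)) V E

end Vale.Agent.P045g.C61
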